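import Mathlib
import Vale.Agent.P353.BdZ.B2
import Vale.Agent.P353.BdZ.B4

set_option linter.all false

section

/-! # P353, all `N`, block F: the free BMN model on `ℝ^9 ⊗ 𝔷` (statements; owner helper62)

`S : Setup r K` is any Clifford system for `r` colours (the structure constants do not enter: put `f = 0`, `κ = 1`).
`FD β = -i (γ^i θ^A)_β ∂_i^A + a_i x_i^A (γ^i Γ θ^A)_β` is the free BMN supercharge with mass `1`. For `f = 0` it is `Qm 1 β`.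
All weak equations may be tested off the collision set `Coll L` only. -/

open MeasureTheory Filter Topology
open scoped ContDiff

namespace Vale.Agent.P353.Z

variable {r : ℕ} {K : Type*} [NormedAddCommGroup K] [InnerProductSpace ℂ K]

/-- enlarged collision set of a finite set of covectors: only the directions `i < 8` are tested (codimension `8`); it contains
the collisions `∀ i : Fin 9, l(y_i) = 0` -/
def Coll (L : Finset (Fin r → ℝ)) : Set (Cfg r) :=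
  {y | ∃ l ∈ L, ∀ i : Fin 8, ∑ A, l A * y (i.castSucc, A) = 0}

/-- test functions supported off the collision set -/
def TstOff (L : Finset (Fin r → ℝ)) (ζ : Cfg r → K) : Prop :=
  Setup.Tst ζ ∧ Disjoint (tsupport ζ) (Coll L)

/-- the ground state density `exp(-½ ∑ a_i |x_i|²)` -/
noncomputable def gss (x : Cfg r) : ℝ := Real.exp (-(1 / 2) * ∑ i, ∑ A, aw i * x (i, A) ^ 2)

namespace Setup

variable (S : Setup r K)

/-- free BMN supercharge, mass `1` -/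
noncomputable def FD (β : Fin 16) (u : Cfg r → K) (x : Cfg r) : K := S.Q0 β u x + S.MM β x (u x)

/-- `θ_α^A - i (Γθ^A)_α` -/
noncomputable def amF (A : Fin r) (α : Fin 16) : K →L[ℂ] K :=
  S.th α A - Complex.I • S.vec S.Gam A α

/-- `FD_β u = v` weakly, tested off the collisions -/
def wF (L : Finset (Fin r → ℝ)) (β : Fin 16) (u v : Cfg r → K) : Prop :=
  ∀ ζ, TstOff L ζ → ∫ x, inner ℂ (S.FD β ζ x) (u x) = ∫ x, inner ℂ (ζ x) (v x)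

end Setup

namespace AF

/-- **F-Cut** cutoffs near the collision set. PROOF: `η_n(y) = ∏_{l∈L} χ(n²∑_{i<8}(∑_A l_A y_{iA})²)`, `χ : ℝ → [0,1]` smooth, `χ = 0` on
`(-∞,1]`, `χ = 1` on `[2,∞)`. `|∂η_n| ≤ Cn∑_l 1_{|l(y)| ≤ 2/n}`, `|{|y| ≤ s, |l(y)| ≤ 2/n}| ≤ C_s n^{-8}` (after the orthogonal change of
coordinates that makes `l` a multiple of the first coordinate; or Fubini in one coordinate `A` with `l_A ≠ 0`). -/
def CutStmt (r : ℕ) : Prop := ∀ L : Finset (Fin r → ℝ), (∀ l ∈ L, l ≠ 0) → ∃ η : ℕ → Cfg r → ℝ,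
  (∀ n, ContDiff ℝ ∞ (η n)) ∧ (∀ n y, 0 ≤ η n y ∧ η n y ≤ 1) ∧
  (∀ n, Disjoint (tsupport (η n)) (Coll L)) ∧
  (∀ y, y ∉ Coll L → ∀ᶠ n in atTop, η n y = 1) ∧
  (∀ᵐ y ∂(volume : Measure (Cfg r)), y ∉ Coll L) ∧
  ∀ s : ℝ, 0 < s → Tendsto (fun n => ∑ i, ∑ A, ∫ y in Metric.ball (0 : Cfg r) s, pdr i A (η n) y ^ 2) atTop (𝓝 0)

/-- **F-Rem** the collision set is removable. PROOF: test with `η_n ζ`, `FD(ηζ) = ηFDζ - i(γθ∇η)ζ`, dominated convergence and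
`|∫⟨(γθ∇η_n)ζ,u⟩| ≤ C‖ζ‖_∞ (∑∫_{ball s}|∂η_n|²)^{1/2} ‖u‖_{L²}`. -/
def RemStmt (S : Setup r K) : Prop := ∀ L : Finset (Fin r → ℝ), (∀ l ∈ L, l ≠ 0) →
  ∀ (β : Fin 16) (u v : Cfg r → K), MemLp u 2 (volume : Measure (Cfg r)) →
    MemLp v 2 (volume : Measure (Cfg r)) → S.wF L β u v → S.wF ∅ β u v

/-- **F-Rem2** general form. -/
def Rem2Stmt (S : Setup r K) : Prop := ∀ L : Finset (Fin r → ℝ), (∀ l ∈ L, l ≠ 0) →
  ∀ (v : Fin 16 → Cfg r → K) (g : Cfg r → K), (∀ β, MemLp (v β) 2 (volume : Measure (Cfg r))) →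
    MemLp g 2 (volume : Measure (Cfg r)) →
    (∀ ζ, TstOff L ζ → ∑ β, ∫ x, inner ℂ (S.FD β ζ x) (v β x) = ∫ x, inner ℂ (ζ x) (g x)) →
    ∀ ζ, Setup.Tst ζ → ∑ β, ∫ x, inner ℂ (S.FD β ζ x) (v β x) = ∫ x, inner ℂ (ζ x) (g x)

/-- **F-Str** weak = strong, simultaneously for a set of indices. PROOF: mollification (`MM` is linear in `x`) and cutoff. -/
def StrStmt (S : Setup r K) : Prop := ∀ (B : Finset (Fin 16)) (u : Cfg r → K) (v : Fin 16 → Cfg r → K),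
  MemLp u 2 (volume : Measure (Cfg r)) → (∀ β ∈ B, MemLp (v β) 2 (volume : Measure (Cfg r))) →
  (∀ β ∈ B, S.wF ∅ β u (v β)) → ∃ w : ℕ → Cfg r → K, (∀ n, Setup.Tst (w n)) ∧ L2t w u ∧
    ∀ β ∈ B, L2t (fun n => S.FD β (w n)) (v β)

/-- **F-Res** (self-adjointness of one free supercharge) `D w = v`, `D v = φ - w`, `D φ₀ = 0` weakly off the collisions give
`‖w - φ₀‖ ≤ ‖φ - φ₀‖` (`w = (1 + D²)⁻¹ φ`). -/
def ResStmt (S : Setup r K) : Prop := ∀ L : Finset (Fin r → ℝ), (∀ l ∈ L, l ≠ 0) →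
  ∀ (β : Fin 16) (φ φ₀ w v : Cfg r → K), MemLp φ 2 (volume : Measure (Cfg r)) →
    MemLp φ₀ 2 (volume : Measure (Cfg r)) → MemLp w 2 (volume : Measure (Cfg r)) →
    MemLp v 2 (volume : Measure (Cfg r)) → S.wF L β w v → S.wF L β v (fun x => φ x - w x) →
    S.wF L β φ₀ (fun _ => 0) → nsq (fun x => w x - φ₀ x) ≤ nsq (fun x => φ x - φ₀ x)

/-- **F-Res2** summed form (all supercharges): `D_β w = v_β`, `∑_β D_β v_β = c (φ - w)`, `D_β φ₀ = 0` weakly off the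
collisions give `‖w - φ₀‖ ≤ ‖φ - φ₀‖`. -/
def Res2Stmt (S : Setup r K) : Prop := ∀ L : Finset (Fin r → ℝ), (∀ l ∈ L, l ≠ 0) →
  ∀ (c : ℝ) (φ φ₀ w : Cfg r → K) (v : Fin 16 → Cfg r → K), 0 < c →
    MemLp φ 2 (volume : Measure (Cfg r)) → MemLp φ₀ 2 (volume : Measure (Cfg r)) →
    MemLp w 2 (volume : Measure (Cfg r)) → (∀ β, MemLp (v β) 2 (volume : Measure (Cfg r))) →
    (∀ β, S.wF L β w (v β)) →
    (∀ ζ, TstOff L ζ → ∑ β, ∫ x, inner ℂ (S.FD β ζ x) (v β x) =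
      ∫ x, inner ℂ (ζ x) ((c : ℂ) • (φ x - w x))) →
    (∀ β, S.wF L β φ₀ (fun _ => 0)) → nsq (fun x => w x - φ₀ x) ≤ nsq (fun x => φ x - φ₀ x)

/-- **F-Ker** joint `L²` kernel of the free supercharges: Gaussian times vacuum vector. -/
def KerStmt (S : Setup r K) : Prop := ∀ L : Finset (Fin r → ℝ), (∀ l ∈ L, l ≠ 0) →
  ∀ u : Cfg r → K, MemLp u 2 (volume : Measure (Cfg r)) → (∀ β, S.wF L β u (fun _ => 0)) →
    ∃ w : K, (∀ A α, S.amF A α w = 0) ∧ ∀ᵐ x ∂(volume : Measure (Cfg r)), u x = (gss x : ℂ) • w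

/-- **F-Gss** the Gaussian is a zero mode. -/
def GssStmt (S : Setup r K) : Prop := ∀ w : K, (∀ A α, S.amF A α w = 0) →
  ContDiff ℝ ∞ (fun x : Cfg r => (gss x : ℂ) • w) ∧
  MemLp (fun x : Cfg r => (gss x : ℂ) • w) 2 (volume : Measure (Cfg r)) ∧
  (∀ β x, S.FD β (fun x => (gss x : ℂ) • w) x = 0) ∧
  ∀ L β, S.wF L β (fun x => (gss x : ℂ) • w) (fun _ => 0)

/-- **F-Vac** the vacuum vectors of an irreducible module form a line, invariant under `Spin(3) × Spin(6)`. -/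
def VacFStmt (S : Setup r K) : Prop := S.Irr → (∃ v : K, v ≠ 0) →
  ∃ Ω : K, ‖Ω‖ = 1 ∧ (∀ A α, S.amF A α Ω = 0) ∧ (∀ k l, Same k l → S.Skl k l Ω = 0) ∧
    ∀ w : K, (∀ A α, S.amF A α w = 0) → ∃ c : ℂ, w = c • Ω

/-- **F-App** the zero modes are limits in the graph norm of test functions supported off the collisions. -/
def AppStmt (S : Setup r K) : Prop := ∀ L : Finset (Fin r → ℝ), (∀ l ∈ L, l ≠ 0) →
  ∀ w : K, (∀ A α, S.amF A α w = 0) → ∃ ζ : ℕ → Cfg r → K, (∀ n, TstOff L (ζ n)) ∧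
    L2t ζ (fun x => (gss x : ℂ) • w) ∧ ∀ β, L2t (fun n => S.FD β (ζ n)) (fun _ => 0)

/-- **F-Perm** unitaries that implement an orthogonal transformation of the colour index preserve the vacuum line. -/
def PermStmt (S : Setup r K) : Prop := ∀ (O : Matrix (Fin r) (Fin r) ℝ) (U : K →L[ℂ] K),
  (∀ α A, U * S.th α A = ∑ B, (O B A : ℂ) • (S.th α B * U)) → O * O.transpose = 1 →
  ∀ w : K, (∀ A α, S.amF A α w = 0) → ∀ A α, S.amF A α (U w) = 0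

end AF
end Vale.Agent.P353.Z
end

section

/-! # P353, all `N`, block A: linear slices — definitions

The colour index is split as `Fin dh ⊕ Fin dm ≃ Fin d` (`h` = subalgebra, `m` = complement), the slice is
`{x | x_8^A = 0 for A ∈ m}` with coordinates `y : Cfg dh` and `w : Wsp dm` (`w (j, B) = x_j^B`, `j < 8`). The general slice
(direction `e ∈ S^8`, arbitrary subalgebra) is brought to this form by `Setup.rot`. -/

open MeasureTheory Filter Topology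
open scoped ContDiff

namespace Vale.Agent.P353.Z

variable {d dh dm : ℕ} {F : Type*} [NormedAddCommGroup F] [InnerProductSpace ℂ F]

/-- off-diagonal coordinates of the slice -/
abbrev Wsp (dm : ℕ) : Type := EuclideanSpace ℝ (Fin 8 × Fin dm)

/-- splitting of the colour index -/
abbrev Spl (dh dm d : ℕ) : Type := Fin dh ⊕ Fin dm ≃ Fin d

/-- the slice point with coordinates `y`, `w` -/
noncomputable def emb (φ : Spl dh dm d) (y : Cfg dh) (w : Wsp dm) : Cfg d :=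
  WithLp.toLp 2 fun p => Sum.elim (fun A => y (p.1, A))
    (fun B => Fin.lastCases (motive := fun _ => ℝ) 0 (fun j => w (j, B)) p.1) (φ.symm p.2)

/-- `w_i^B` with `w_8 = 0` -/
noncomputable def wt (w : Wsp dm) (i : Fin 9) (B : Fin dm) : ℝ :=
  Fin.lastCases (motive := fun _ => ℝ) 0 (fun j => w (j, B)) i

/-- partial derivative in the direction `w_j^B` -/
noncomputable def pw (j : Fin 8) (B : Fin dm) (v : Cfg dh → Wsp dm → F) (y : Cfg dh) (w : Wsp dm) : F :=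
  fderiv ℝ (v y) w (EuclideanSpace.single (j, B) 1)

/-- partial derivative in the direction `y_i^A` -/
noncomputable def py (i : Fin 9) (A : Fin dh) (v : Cfg dh → Wsp dm → F) (y : Cfg dh) (w : Wsp dm) : F :=
  pd i A (fun y' => v y' w) y

namespace Setup

variable (S : Setup d F)

/-- the first summand spans a subalgebra -/
def IsSub (φ : Spl dh dm d) : Prop :=
  ∀ A B C, S.f (φ (Sum.inl A)) (φ (Sum.inl B)) (φ (Sum.inr C)) = 0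

/-- the setup of the subalgebra (on the same fermion space) -/
noncomputable def sub (φ : Spl dh dm d) (h : S.IsSub φ) : Setup dh F where
  g := S.g
  g_symm := S.g_symm
  g_anti := S.g_anti
  th := fun α A => S.th α (φ (Sum.inl A))
  th_anti := by
    intro α A β B
    rw [S.th_anti]
    simp only [EmbeddingLike.apply_eq_iff_eq, Sum.inl.injEq]
  κ := S.κ
  κ_pos := S.κ_pos
  f := fun A B C => S.f (φ (Sum.inl A)) (φ (Sum.inl B)) (φ (Sum.inl C))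
  f_swap := fun A B C => S.f_swap _ _ _
  f_cyc := fun A B C => S.f_cyc _ _ _
  f_jac := by
    intro A B C D
    have h1 := S.f_jac (φ (Sum.inl A)) (φ (Sum.inl B)) (φ (Sum.inl C)) (φ (Sum.inl D))
    rw [← φ.sum_comp, Fintype.sum_sum_type] at h1
    have h2 : ∀ E : Fin dm, S.f (φ (Sum.inl A)) (φ (Sum.inl B)) (φ (Sum.inr E)) *
        S.f (φ (Sum.inr E)) (φ (Sum.inl C)) (φ (Sum.inl D)) +
        S.f (φ (Sum.inl B)) (φ (Sum.inl C)) (φ (Sum.inr E)) *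
        S.f (φ (Sum.inr E)) (φ (Sum.inl A)) (φ (Sum.inl D)) +
        S.f (φ (Sum.inl C)) (φ (Sum.inl A)) (φ (Sum.inr E)) *
        S.f (φ (Sum.inr E)) (φ (Sum.inl B)) (φ (Sum.inl D)) = 0 := by
      intro E
      rw [h, h, h]
      ring
    simpa [h2] using h1
  g_real := S.g_real
  th_sa := fun α A v w => S.th_sa α _ v w

/-- matrix of `ad v` on `m`, `v ∈ h`: `(ad v)_{BC} = ∑_A f_{BAC} v^A` -/
noncomputable def Dm (φ : Spl dh dm d) (v : Fin dh → ℝ) : Matrix (Fin dm) (Fin dm) ℝ :=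
  Matrix.of fun B C => ∑ A, S.f (φ (Sum.inr B)) (φ (Sum.inl A)) (φ (Sum.inr C)) * v A

/-- `D_i(y) = ad y_i` on `m` -/
noncomputable def Dy (φ : Spl dh dm d) (i : Fin 9) (y : Cfg dh) : Matrix (Fin dm) (Fin dm) ℝ :=
  S.Dm φ fun A => y (i, A)

/-- density of the slice: `|det ad y_8|_m|` -/
noncomputable def Jd (φ : Spl dh dm d) (y : Cfg dh) : ℝ := |(S.Dy φ 8 y).det|

/-- `F_{ij}^B`, part linear in `w`: `κ (D_i w_j - D_j w_i)^B` -/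
noncomputable def FL (φ : Spl dh dm d) (B : Fin dm) (i j : Fin 9) (y : Cfg dh) (w : Wsp dm) : ℝ :=
  S.κ * ((∑ C, S.Dy φ i y B C * wt w j C) - ∑ C, S.Dy φ j y B C * wt w i C)

/-- block diagonal supercharge -/
noncomputable def Qh (φ : Spl dh dm d) (β : Fin 16) (v : Cfg dh → Wsp dm → F) (y : Cfg dh) (w : Wsp dm) : F :=
  (-Complex.I) • ∑ i, ∑ A, S.vec (S.g i) (φ (Sum.inl A)) β (py i A v y w) +
    (1 / 2 : ℂ) • ∑ A, ∑ i, ∑ j,
      ((S.κ * ∑ B, ∑ C, S.f (φ (Sum.inl A)) (φ (Sum.inl B)) (φ (Sum.inl C)) * y (i, B) * y (j, C) : ℝ) : ℂ) •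
        S.vec (S.g2 i j) (φ (Sum.inl A)) β (v y w)

/-- off-diagonal supercharge (fibrewise in `y`): first order in `w, ∂_w, θ^m` -/
noncomputable def Q1 (φ : Spl dh dm d) (β : Fin 16) (v : Cfg dh → Wsp dm → F) (y : Cfg dh) (w : Wsp dm) : F :=
  (-Complex.I) • (∑ j : Fin 8, ∑ B, S.vec (S.g j.castSucc) (φ (Sum.inr B)) β (pw j B v y w)) +
    Complex.I • (∑ B, S.vec (S.g 8) (φ (Sum.inr B)) β
      (∑ C, (((S.Dy φ 8 y)⁻¹ B C : ℝ) : ℂ) • ∑ j : Fin 8, ∑ E, ((S.Dy φ j.castSucc y C E : ℝ) : ℂ) • pw j E v y w)) +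
    (1 / 2 : ℂ) • ∑ B, ∑ i, ∑ j, ((S.FL φ B i j y w : ℝ) : ℂ) • S.vec (S.g2 i j) (φ (Sum.inr B)) β (v y w)

/-- the remaining terms: (a) `γ^8θ^m D_8⁻¹` of `(ad w) ∂^h`, `(ad w) ∂^w` and of the spin part of the Gauss law, (b) the terms
quadratic in `w` of the potential, (c) the derivative of the density. -/
noncomputable def Qr (φ : Spl dh dm d) (β : Fin 16) (v : Cfg dh → Wsp dm → F) (y : Cfg dh) (w : Wsp dm) : F :=
  Complex.I • (∑ B, S.vec (S.g 8) (φ (Sum.inr B)) β (∑ C, (((S.Dy φ 8 y)⁻¹ B C : ℝ) : ℂ) •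
      ((∑ j : Fin 8, ∑ E, ∑ A, ((S.f (φ (Sum.inr C)) (φ (Sum.inr E)) (φ (Sum.inl A)) * w (j, E) : ℝ) : ℂ) •
          py j.castSucc A v y w) +
        (∑ j : Fin 8, ∑ E, ∑ G, ((S.f (φ (Sum.inr C)) (φ (Sum.inr E)) (φ (Sum.inr G)) * w (j, E) : ℝ) : ℂ) •
          pw j G v y w) +
        Complex.I • S.cS (φ (Sum.inr C)) (v y w)))) +
    (1 / 2 : ℂ) • (∑ A, ∑ i, ∑ j,
      ((S.κ * ∑ B, ∑ C, S.f (φ (Sum.inl A)) (φ (Sum.inr B)) (φ (Sum.inr C)) * wt w i B * wt w j C : ℝ) : ℂ) •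
        S.vec (S.g2 i j) (φ (Sum.inl A)) β (v y w)) +
    (1 / 2 : ℂ) • (∑ A, ∑ i, ∑ j,
      ((S.κ * ∑ B, ∑ C, S.f (φ (Sum.inr A)) (φ (Sum.inr B)) (φ (Sum.inr C)) * wt w i B * wt w j C : ℝ) : ℂ) •
        S.vec (S.g2 i j) (φ (Sum.inr A)) β (v y w)) +
    (Complex.I / 2) • ∑ A, ((fderiv ℝ (fun y' => Real.log (S.Jd φ y')) y (EuclideanSpace.single ((8 : Fin 9), A) 1) : ℝ) : ℂ) •
      S.vec (S.g 8) (φ (Sum.inl A)) β (v y w)

/-- restriction to the slice with the square root of the density -/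
noncomputable def res (φ : Spl dh dm d) (u : Cfg d → F) (y : Cfg dh) (w : Wsp dm) : F :=
  ((Real.sqrt (S.Jd φ y) : ℝ) : ℂ) • u (emb φ y w)

/-- rotated setup: `R ∈ O(9)` acts on the vector index, `O ∈ O(d)` on the colour index -/
noncomputable def rot (R : Matrix (Fin 9) (Fin 9) ℝ) (hR : R * R.transpose = 1)
    (O : Matrix (Fin d) (Fin d) ℝ) (hO : O * O.transpose = 1) : Setup d F where
  g := fun i => ∑ j, (R i j : ℂ) • S.g j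
  g_symm := by
    intro i
    rw [Matrix.transpose_sum]
    exact Finset.sum_congr rfl fun j _ => by rw [Matrix.transpose_smul, S.g_symm]
  g_anti := by
    intro i j
    have h0 : ∑ k, R i k * R j k = if i = j then 1 else 0 := by
      have := congrFun (congrFun hR i) j
      rw [Matrix.mul_apply, Matrix.one_apply] at this
      simpa [Matrix.transpose_apply] using this
    have h1 : (∑ k, (R i k : ℂ) • S.g k) * (∑ l, (R j l : ℂ) • S.g l) +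
        (∑ l, (R j l : ℂ) • S.g l) * (∑ k, (R i k : ℂ) • S.g k) =
        ∑ k, ∑ l, ((R i k : ℂ) * (R j l : ℂ)) • (S.g k * S.g l + S.g l * S.g k) := by
      rw [Finset.sum_mul_sum, Finset.sum_mul_sum, Finset.sum_comm (s := Finset.univ) (t := Finset.univ)
        (f := fun l k => ((R j l : ℂ) • S.g l) * ((R i k : ℂ) • S.g k)), ← Finset.sum_add_distrib]
      refine Finset.sum_congr rfl fun k _ => ?_
      rw [← Finset.sum_add_distrib]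
      refine Finset.sum_congr rfl fun l _ => ?_
      rw [smul_mul_smul_comm, smul_mul_smul_comm, smul_add, mul_comm (R j l : ℂ)]
    rw [h1]
    have h2 : ∀ k l, ((R i k : ℂ) * (R j l : ℂ)) • (S.g k * S.g l + S.g l * S.g k) =
        if k = l then ((R i k : ℂ) * (R j k : ℂ)) • (2 : Matrix (Fin 16) (Fin 16) ℂ) else 0 := by
      intro k l
      rw [S.g_anti]
      by_cases hkl : k = l
      · subst hkl; simp
      · simp [hkl]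
    simp only [h2, Finset.sum_ite_eq, Finset.mem_univ, if_true]
    rw [← Finset.sum_smul]
    have h3 : (∑ k, (R i k : ℂ) * (R j k : ℂ)) = if i = j then 1 else 0 := by
      have := congrArg (fun t : ℝ => (t : ℂ)) h0
      push_cast at this
      rw [this]
      split_ifs <;> simp
    rw [h3]
    by_cases hij : i = j
    · simp [hij]
    · simp [hij]
  th := fun α A => ∑ B, (O A B : ℂ) • S.th α B
  th_anti := by
    intro α A β B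
    have h0 : ∑ k, O A k * O B k = if A = B then 1 else 0 := by
      have := congrFun (congrFun hO A) B
      rw [Matrix.mul_apply, Matrix.one_apply] at this
      simpa [Matrix.transpose_apply] using this
    have h1 : (∑ k, (O A k : ℂ) • S.th α k) * (∑ l, (O B l : ℂ) • S.th β l) +
        (∑ l, (O B l : ℂ) • S.th β l) * (∑ k, (O A k : ℂ) • S.th α k) =
        ∑ k, ∑ l, ((O A k : ℂ) * (O B l : ℂ)) • (S.th α k * S.th β l + S.th β l * S.th α k) := by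
      rw [Finset.sum_mul_sum, Finset.sum_mul_sum, Finset.sum_comm (s := Finset.univ) (t := Finset.univ)
        (f := fun l k => ((O B l : ℂ) • S.th β l) * ((O A k : ℂ) • S.th α k)), ← Finset.sum_add_distrib]
      refine Finset.sum_congr rfl fun k _ => ?_
      rw [← Finset.sum_add_distrib]
      refine Finset.sum_congr rfl fun l _ => ?_
      rw [smul_mul_smul_comm, smul_mul_smul_comm, smul_add, mul_comm (O B l : ℂ)]
    rw [h1]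
    have h2 : ∀ k l, ((O A k : ℂ) * (O B l : ℂ)) • (S.th α k * S.th β l + S.th β l * S.th α k) =
        if k = l then (if α = β then ((O A k : ℂ) * (O B k : ℂ)) • (1 : F →L[ℂ] F) else 0) else 0 := by
      intro k l
      rw [S.th_anti]
      by_cases hkl : k = l
      · subst hkl
        by_cases hab : α = β <;> simp [hab]
      · simp [hkl]
    simp only [h2, Finset.sum_ite_eq, Finset.mem_univ, if_true]
    by_cases hab : α = β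
    · simp only [hab, if_true, true_and]
      rw [← Finset.sum_smul]
      have h3 : (∑ k, (O A k : ℂ) * (O B k : ℂ)) = if A = B then 1 else 0 := by
        have := congrArg (fun t : ℝ => (t : ℂ)) h0
        push_cast at this
        rw [this]
        split_ifs <;> simp
      rw [h3]
      by_cases hij : A = B
      · simp [hij]
      · simp [hij]
    · simp [hab]
  κ := S.κ
  κ_pos := S.κ_pos
  f := fun A B C => ∑ A', ∑ B', ∑ C', O A A' * O B B' * O C C' * S.f A' B' C'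
  f_swap := by
    intro A B C
    rw [Finset.sum_comm (s := Finset.univ) (t := Finset.univ), ← Finset.sum_neg_distrib]
    refine Finset.sum_congr rfl fun B' _ => ?_
    rw [← Finset.sum_neg_distrib]
    refine Finset.sum_congr rfl fun A' _ => ?_
    rw [← Finset.sum_neg_distrib]
    refine Finset.sum_congr rfl fun C' _ => ?_
    rw [S.f_swap A' B' C']
    ring
  f_cyc := by
    intro A B C
    rw [Finset.sum_comm (s := Finset.univ) (t := Finset.univ)]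
    refine Finset.sum_congr rfl fun B' _ => ?_
    rw [Finset.sum_comm (s := Finset.univ) (t := Finset.univ)]
    refine Finset.sum_congr rfl fun C' _ => ?_
    refine Finset.sum_congr rfl fun A' _ => ?_
    rw [S.f_cyc A' B' C']
    ring
  f_jac := by
    intro A B C D
    have hO' : O.transpose * O = 1 := mul_eq_one_comm.1 hO
    have h0 : ∀ k l, ∑ E, O E k * O E l = if k = l then 1 else 0 := by
      intro k l
      have := congrFun (congrFun hO' k) l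
      rw [Matrix.mul_apply, Matrix.one_apply] at this
      simpa [Matrix.transpose_apply] using this
    have h1 : ∀ A B C D, (∑ E, (∑ A', ∑ B', ∑ E', O A A' * O B B' * O E E' * S.f A' B' E') *
        (∑ E', ∑ C', ∑ D', O E E' * O C C' * O D D' * S.f E' C' D')) =
        ∑ A', ∑ B', ∑ C', ∑ D', O A A' * O B B' * O C C' * O D D' *
          ∑ E', S.f A' B' E' * S.f E' C' D' := by
      intro A B C D
      have e1 : ∀ E, (∑ A', ∑ B', ∑ E', O A A' * O B B' * O E E' * S.f A' B' E') =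
          ∑ E', O E E' * ∑ A', ∑ B', O A A' * O B B' * S.f A' B' E' := by
        intro E
        simp only [Finset.mul_sum]
        rw [Finset.sum_comm_cycle]
        refine Finset.sum_congr rfl fun E' _ => ?_
        refine Finset.sum_congr rfl fun A' _ => Finset.sum_congr rfl fun B' _ => ?_
        ring
      have e2 : ∀ E, (∑ E', ∑ C', ∑ D', O E E' * O C C' * O D D' * S.f E' C' D') =
          ∑ E', O E E' * ∑ C', ∑ D', O C C' * O D D' * S.f E' C' D' := by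
        intro E
        simp only [Finset.mul_sum]
        refine Finset.sum_congr rfl fun E' _ => Finset.sum_congr rfl fun C' _ =>
          Finset.sum_congr rfl fun D' _ => ?_
        ring
      have e3 : ∀ (p q : Fin d → ℝ), (∑ E, (∑ k, O E k * p k) * (∑ l, O E l * q l)) = ∑ k, p k * q k := by
        intro p q
        have : ∀ E, (∑ k, O E k * p k) * (∑ l, O E l * q l) = ∑ k, ∑ l, (O E k * O E l) * (p k * q l) := by
          intro E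
          rw [Finset.sum_mul_sum]
          exact Finset.sum_congr rfl fun k _ => Finset.sum_congr rfl fun l _ => by ring
        simp only [this]
        rw [Finset.sum_comm]
        refine Finset.sum_congr rfl fun k _ => ?_
        rw [Finset.sum_comm]
        simp only [← Finset.sum_mul, h0, ite_mul, one_mul, zero_mul, Finset.sum_ite_eq, Finset.mem_univ,
          if_true]
      simp only [e1, e2]
      rw [e3]
      have e4 : ∀ E', (∑ A', ∑ B', O A A' * O B B' * S.f A' B' E') *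
          (∑ C', ∑ D', O C C' * O D D' * S.f E' C' D') =
          ∑ A', ∑ B', ∑ C', ∑ D', O A A' * O B B' * O C C' * O D D' * (S.f A' B' E' * S.f E' C' D') := by
        intro E'
        simp only [Finset.sum_mul]
        refine Finset.sum_congr rfl fun A' _ => Finset.sum_congr rfl fun B' _ => ?_
        simp only [Finset.mul_sum]
        refine Finset.sum_congr rfl fun C' _ => Finset.sum_congr rfl fun D' _ => ?_
        ring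
      simp only [e4, Finset.mul_sum]
      rw [Finset.sum_comm]
      refine Finset.sum_congr rfl fun A' _ => ?_
      rw [Finset.sum_comm]
      refine Finset.sum_congr rfl fun B' _ => ?_
      rw [Finset.sum_comm]
      refine Finset.sum_congr rfl fun C' _ => ?_
      rw [Finset.sum_comm]
    have h2 : ∀ A' B' C' D', (∑ E', S.f A' B' E' * S.f E' C' D') +
        (∑ E', S.f B' C' E' * S.f E' A' D') + (∑ E', S.f C' A' E' * S.f E' B' D') = 0 := by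
      intro A' B' C' D'
      rw [← Finset.sum_add_distrib, ← Finset.sum_add_distrib]
      exact S.f_jac A' B' C' D'
    simp only [Finset.sum_add_distrib]
    rw [h1 A B C D, h1 B C A D, h1 C A B D]
    have h3 : (∑ B', ∑ C', ∑ A', ∑ D', O B B' * O C C' * O A A' * O D D' *
          ∑ E', S.f B' C' E' * S.f E' A' D') =
        ∑ A', ∑ B', ∑ C', ∑ D', O A A' * O B B' * O C C' * O D D' *
          ∑ E', S.f B' C' E' * S.f E' A' D' := by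
      rw [Finset.sum_comm_cycle]
      refine Finset.sum_congr rfl fun A' _ => Finset.sum_congr rfl fun B' _ =>
        Finset.sum_congr rfl fun C' _ => Finset.sum_congr rfl fun D' _ => ?_
      ring
    have h4 : (∑ C', ∑ A', ∑ B', ∑ D', O C C' * O A A' * O B B' * O D D' *
          ∑ E', S.f C' A' E' * S.f E' B' D') =
        ∑ A', ∑ B', ∑ C', ∑ D', O A A' * O B B' * O C C' * O D D' *
          ∑ E', S.f C' A' E' * S.f E' B' D' := by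
      rw [Finset.sum_comm]
      refine Finset.sum_congr rfl fun A' _ => ?_
      rw [Finset.sum_comm]
      refine Finset.sum_congr rfl fun B' _ => Finset.sum_congr rfl fun C' _ =>
        Finset.sum_congr rfl fun D' _ => ?_
      ring
    rw [h3, h4]
    simp only [← Finset.sum_add_distrib]
    refine Finset.sum_eq_zero fun A' _ => Finset.sum_eq_zero fun B' _ => Finset.sum_eq_zero fun C' _ =>
      Finset.sum_eq_zero fun D' _ => ?_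
    rw [← mul_add, ← mul_add, h2, mul_zero]
  g_real := by
    intro i α β
    rw [Matrix.sum_apply, Complex.im_sum]
    refine Finset.sum_eq_zero fun j _ => ?_
    rw [Matrix.smul_apply, smul_eq_mul, Complex.mul_im, Complex.ofReal_re, Complex.ofReal_im, S.g_real]
    ring
  th_sa := by
    intro α A v w
    simp only [_root_.sum_apply, _root_.smul_apply, sum_inner, inner_sum,
      inner_smul_left, inner_smul_right, Complex.conj_ofReal]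
    exact Finset.sum_congr rfl fun B _ => by rw [S.th_sa]

end Setup

/-- coordinates in the rotated frame: `x'_i^A = ∑ R_{ij} O_{AB} x_j^B` -/
noncomputable def rox (R : Matrix (Fin 9) (Fin 9) ℝ) (O : Matrix (Fin d) (Fin d) ℝ) (x : Cfg d) : Cfg d :=
  WithLp.toLp 2 fun p => ∑ j, ∑ B, R p.1 j * O p.2 B * x (j, B)

end Vale.Agent.P353.Z
end

section

/-! # P353, all `N`, block B: the fibre oscillator — definitions

For a fixed point `y` of the block diagonal part, `Q1_β` acts on functions of `w : Wsp dm` only; it depends on `y` through the nine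
matrices `D_i = S.Dy φ i y`. Here `D : Fin 9 → Matrix (Fin dm) (Fin dm) ℝ` is arbitrary; `Frz D` = frozen (scalar) point. -/

open MeasureTheory Filter Topology Matrix
open scoped ContDiff

namespace Vale.Agent.P353.Z

variable {d dh dm : ℕ} {F : Type*} [NormedAddCommGroup F] [InnerProductSpace ℂ F]

/-- partial derivative of a fibre function in the direction `w_j^B` -/
noncomputable def pf (j : Fin 8) (B : Fin dm) (f : Wsp dm → F) (w : Wsp dm) : F :=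
  fderiv ℝ f w (EuclideanSpace.single (j, B) 1)

/-- fibre test functions -/
def FT (f : Wsp dm → F) : Prop := ContDiff ℝ ∞ f ∧ HasCompactSupport f

/-- squared `L²` norm on the fibre -/
noncomputable def nsf {E : Type*} [NormedAddCommGroup E] (f : Wsp dm → E) : ℝ := ∫ w, ‖f w‖ ^ 2

/-- nine commuting antisymmetric matrices, the last one invertible -/
structure Frz (D : Fin 9 → Matrix (Fin dm) (Fin dm) ℝ) : Prop where
  anti : ∀ i, (D i)ᵀ = -D i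
  comm : ∀ i j, D i * D j = D j * D i
  inv : (D 8).det ≠ 0

/-- `Ω = κ (-∑ D_i²)^{1/2}` -/
structure IsOm (κ : ℝ) (D : Fin 9 → Matrix (Fin dm) (Fin dm) ℝ) (Om : Matrix (Fin dm) (Fin dm) ℝ) : Prop where
  symm : Omᵀ = Om
  pos : ∀ v : Fin dm → ℝ, v ≠ 0 → 0 < v ⬝ᵥ (Om *ᵥ v)
  sq : Om * Om = -(κ ^ 2 • ∑ i, D i * D i)
  comm : ∀ M : Matrix (Fin dm) (Fin dm) ℝ, M * (∑ i, D i * D i) = (∑ i, D i * D i) * M → M * Om = Om * M

/-- `T_i = D_8⁻¹ D_i` (so `T_8 = 1`) -/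
noncomputable def tI (D : Fin 9 → Matrix (Fin dm) (Fin dm) ℝ) (i : Fin 9) : Matrix (Fin dm) (Fin dm) ℝ :=
  (D 8)⁻¹ * D i

/-- `∑ T_i²` -/
noncomputable def t2 (D : Fin 9 → Matrix (Fin dm) (Fin dm) ℝ) : Matrix (Fin dm) (Fin dm) ℝ :=
  ∑ i, tI D i * tI D i

/-- `s(w) = (∑ T_i²)⁻¹ ∑_{j<8} T_j w_j` -/
noncomputable def sV (D : Fin 9 → Matrix (Fin dm) (Fin dm) ℝ) (w : Wsp dm) : Fin dm → ℝ :=
  (t2 D)⁻¹ *ᵥ ∑ i, tI D i *ᵥ wt w i

/-- transversal part `V_i = w_i - T_i s(w)` (`w_8 = 0`), `∑ T_i V_i = 0` -/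
noncomputable def VV (D : Fin 9 → Matrix (Fin dm) (Fin dm) ℝ) (w : Wsp dm) (i : Fin 9) : Fin dm → ℝ :=
  wt w i - tI D i *ᵥ sV D w

/-- `⟨V, Ω V⟩` -/
noncomputable def qf (D : Fin 9 → Matrix (Fin dm) (Fin dm) ℝ) (Om : Matrix (Fin dm) (Fin dm) ℝ) (w : Wsp dm) : ℝ :=
  ∑ i, VV D w i ⬝ᵥ (Om *ᵥ VV D w i)

/-- bosonic ground state at the frozen point `R D`: `exp(-R ⟨V, Ω V⟩ / 2)` -/
noncomputable def gR (D : Fin 9 → Matrix (Fin dm) (Fin dm) ℝ) (Om : Matrix (Fin dm) (Fin dm) ℝ) (R : ℝ) (w : Wsp dm) : ℝ :=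
  Real.exp (-(R / 2) * qf D Om w)

/-- the derivative `∂_i`, `i < 9`, with `∂_8 = -∑_{j<8} T_j ∂_j` -/
noncomputable def dd (D : Fin 9 → Matrix (Fin dm) (Fin dm) ℝ) (i : Fin 9) (B : Fin dm) (f : Wsp dm → F) (w : Wsp dm) : F :=
  Fin.lastCases (motive := fun _ => F)
    (-∑ C, (((D 8)⁻¹ B C : ℝ) : ℂ) • ∑ j : Fin 8, ∑ E, ((D j.castSucc C E : ℝ) : ℂ) • pf j E f w)
    (fun j => pf j B f w) i

namespace Setup

variable (S : Setup d F) (φ : Spl dh dm d) (D : Fin 9 → Matrix (Fin dm) (Fin dm) ℝ)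
  (Om : Matrix (Fin dm) (Fin dm) ℝ)

/-- fibre supercharge with the matrices `D` -/
noncomputable def q1 (β : Fin 16) (f : Wsp dm → F) (w : Wsp dm) : F :=
  (-Complex.I) • (∑ j : Fin 8, ∑ B, S.vec (S.g j.castSucc) (φ (Sum.inr B)) β (pf j B f w)) +
    Complex.I • (∑ B, S.vec (S.g 8) (φ (Sum.inr B)) β
      (∑ C, (((D 8)⁻¹ B C : ℝ) : ℂ) • ∑ j : Fin 8, ∑ E, ((D j.castSucc C E : ℝ) : ℂ) • pf j E f w)) +
    (1 / 2 : ℂ) • ∑ B, ∑ i, ∑ j, ((S.κ * ((∑ C, D i B C * wt w j C) - ∑ C, D j B C * wt w i C) : ℝ) : ℂ) •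
      S.vec (S.g2 i j) (φ (Sum.inr B)) β (f w)

/-- fibre energy `(1/16) ∑_β |q1_β f|²` -/
noncomputable def e1 (f : Wsp dm → F) : ℝ := (1 / 16) * ∑ β, nsf (S.q1 φ D β f)

/-- `P_{(α,A),(β,B)} = κ ∑_i γ^i_{αβ} (D_i)_{AB}` -/
noncomputable def PP : Matrix (Fin 16 × Fin dm) (Fin 16 × Fin dm) ℂ :=
  Matrix.of fun p q => (S.κ : ℂ) * ∑ i, S.g i p.1 q.1 * ((D i p.2 q.2 : ℝ) : ℂ)

/-- `Λ = (1/2)(Ω - i P)` -/
noncomputable def Lam : Matrix (Fin 16 × Fin dm) (Fin 16 × Fin dm) ℂ :=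
  Matrix.of fun p q => (1 / 2 : ℂ) * ((if p.1 = q.1 then ((Om p.2 q.2 : ℝ) : ℂ) else 0) - Complex.I * S.PP D p q)

/-- `(Λ θ)_p` -/
noncomputable def Lth (p : Fin 16 × Fin dm) : F →L[ℂ] F :=
  ∑ q : Fin 16 × Fin dm, S.Lam D Om p q • S.th q.1 (φ (Sum.inr q.2))

/-- fermionic energy `N = ∑ Λ_{pq} θ_p θ_q` -/
noncomputable def NF : F →L[ℂ] F :=
  ∑ p : Fin 16 × Fin dm, S.th p.1 (φ (Sum.inr p.2)) * S.Lth φ D Om p

/-- fermionic vacuum space -/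
noncomputable def F0 : Submodule ℂ F where
  carrier := {v | ∀ p, S.Lth φ D Om p v = 0}
  add_mem' := by
    intro a b ha hb p
    rw [map_add, ha p, hb p, add_zero]
  zero_mem' := fun p => map_zero _
  smul_mem' := by
    intro c a ha p
    rw [map_smul, ha p, smul_zero]

/-- frozen vacuum projection at `R D`: `P_R f = g_R Π_0 (∫ g_R f) / ∫ g_R²` -/
noncomputable def PR [FiniteDimensional ℂ F] (R : ℝ) (f : Wsp dm → F) (w : Wsp dm) : F :=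
  ((gR D Om R w / ∫ w', gR D Om R w' ^ 2 : ℝ) : ℂ) •
    (S.F0 φ D Om).starProjection (∫ w', ((gR D Om R w' : ℝ) : ℂ) • f w')

end Setup

lemma Setup.Q1_eq (S : Setup d F) (φ : Spl dh dm d) (β : Fin 16) (v : Cfg dh → Wsp dm → F) (y : Cfg dh)
    (w : Wsp dm) : S.Q1 φ β v y w = S.q1 φ (fun i => S.Dy φ i y) β (v y) w := rfl

end Vale.Agent.P353.Z
end

section

/-! # P353, all `N`, block B: statements (fibre oscillator)

A prover delivers `theorem <name> (S : Setup d F) … : XxStmt S …` in `Vale/Agent/P353/AN/B/<Task>.lean`, importing only this file,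
`Vale.Agent.P353.Z.U.*` and landed files, with other statements as hypotheses. Notation: `∂_i = dd D i`, `|f|² = nsf f`. -/

open MeasureTheory Filter Topology Matrix
open scoped ContDiff

namespace Vale.Agent.P353.Z

variable {d dh dm : ℕ} {F : Type*} [NormedAddCommGroup F] [InnerProductSpace ℂ F]

/-- **B-Om** existence of `Ω`. PROOF: `A = -κ²∑D_i²` is symmetric and `vᵀAv = κ²∑|D_iv|² ≥ κ²|D_8v|² > 0`. Take the positive square root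
(spectral theorem); it is a polynomial in `A` (interpolate `√` at the eigenvalues), so it commutes with everything that commutes
with `∑D_i²`. -/
def OmStmt : Prop := ∀ (dm : ℕ) (κ : ℝ) (D : Fin 9 → Matrix (Fin dm) (Fin dm) ℝ), 0 < κ → Frz D →
  ∃ Om, IsOm κ D Om

/-- **B-Alg** algebra at a frozen point. PROOF: `D_8⁻¹` is antisymmetric and commutes with all `D_i`, so `T_i` is symmetric, the `T_i`
commute, `T_8 = 1`, `t2 = 1 + ∑_{j<8}T_j²` is positive definite; `∑T_iV_i = ∑T_iw_i - t2·s = 0`. -/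
def AlgStmt : Prop := ∀ (dm : ℕ) (κ : ℝ) (D : Fin 9 → Matrix (Fin dm) (Fin dm) ℝ) (Om : Matrix (Fin dm) (Fin dm) ℝ),
  0 < κ → Frz D → IsOm κ D Om →
  (∀ i, (tI D i)ᵀ = tI D i) ∧ (∀ i j, tI D i * tI D j = tI D j * tI D i) ∧ tI D 8 = 1 ∧
  (∀ i, tI D i * Om = Om * tI D i) ∧ (∀ i, D i * Om = Om * D i) ∧ (t2 D).det ≠ 0 ∧ (∀ i, D i = D 8 * tI D i) ∧
  (∀ w : Wsp dm, ∑ i, tI D i *ᵥ VV D w i = 0) ∧ (∀ w : Wsp dm, ∑ i, D i *ᵥ VV D w i = 0) ∧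
  (∀ (w : Wsp dm) (i j : Fin 9), D i *ᵥ wt w j - D j *ᵥ wt w i = D i *ᵥ VV D w j - D j *ᵥ VV D w i) ∧
  (∀ (w : Wsp dm) (j : Fin 8), wt w j.castSucc = VV D w j.castSucc - tI D j.castSucc *ᵥ VV D w 8)

/-- **B-QF** the quadratic form `qf` is `⟨w, M w⟩` with `M` symmetric positive definite and `(M w)_{jB} = (Ω V_j)_B` for `j < 8`.
PROOF: with B-Alg; `w ↦ V` is linear; `qf(w) = ∑_i⟨V_i(w),ΩV_i(w)⟩`; polarisation: `∑_i⟨V_i(w'),ΩV_i(w)⟩ = ∑_i⟨w'_i - T_is(w'),ΩV_i(w)⟩ =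
∑_{j<8}⟨w'_j,ΩV_j(w)⟩ - ⟨s(w'),Ω∑T_iV_i(w)⟩`, the last term is `0`. Positive: `qf(w) = 0` gives `V = 0`, then `w_j = V_j - T_jV_8 = 0`.
The constant `c` by compactness of the unit sphere (or smallest eigenvalue). -/
def QFStmt : Prop := ∀ (dm : ℕ) (κ : ℝ) (D : Fin 9 → Matrix (Fin dm) (Fin dm) ℝ) (Om : Matrix (Fin dm) (Fin dm) ℝ),
  0 < κ → Frz D → IsOm κ D Om →
  ∃ M : Wsp dm →L[ℝ] Wsp dm, (∀ v w, inner ℝ (M v) w = inner ℝ v (M w)) ∧ (∀ w, qf D Om w = inner ℝ w (M w)) ∧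
    (∀ (w : Wsp dm) (j : Fin 8) (B : Fin dm), M w (j, B) = (Om *ᵥ VV D w j.castSucc) B) ∧
    ∃ c : ℝ, 0 < c ∧ ∀ w, c * ‖w‖ ^ 2 ≤ inner ℝ w (M w)

/-- **B-En** exact energy identity at a frozen point.
PROOF. Extend `f` to `u : Cfg dm → F`, `u(x) = f(w(x))`, `w(x)_j = x_j - T_jx_8`: then `(∂_i^B u)(x) = (dd D i B f)(w(x))` for all `i < 9`
(`dd D 8` by the chain rule) and `q1_β f(w(x)) = (QT N β u)(x)` for the setup with colours `m` (`th α B := th α (φ (inr B))`, `f := 0`) and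
`N j C A = κ∑_i (D_i)_{AC} g2 i j` (`En.QT`, `En.sum_QTQT` in `Z/U/EnGen.lean`; the potential `κ∑_{ij}(D_ix_j)γ^{ij}` is invariant under
`x_i ↦ x_i + D_iλ`). Hence pointwise `∑_β q1_β q1_β f = -8∑_{i≤8,B}∂_i^B∂_i^B f + 16·(1/2)|ΩV|²f·… + KT f`, where the potential is
`(1/2)κ²∑_{i,j}|D_iw_j - D_jw_i|²·8 = 8κ²∑_{i,j}…/…`: precisely `∑_β(multiplier)² = 8∑_{i,B}((ΩV_i)_B)²` since
`∑_{i<j}|D_iV_j - D_jV_i|² = ∑_{i,j}|D_iV_j|² - |∑D_iV_i|²` and `κ²∑_i|D_iV_j|² = |ΩV_j|²`, and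
`KT = -(i/…)`: `KT/16 = -(i/2)∑P_{pq}θ_pθ_q = N - 4 tr Ω` (`N = ∑Λ_{pq}θ_pθ_q`, `∑_{p}(1/2)Ω_{pp}θ_p² = 4 tr Ω`).
`q1_β` is symmetric on test functions, so `∑|q1_βf|² = ⟨f,∑q1_βq1_βf⟩`. Complete the square: `∑_{i,B}|(∂_i^B + (ΩV_i)_B)f|² =
∑|∂_i^Bf|² + ∑|(ΩV_i)_Bf|² - (∑_{i,B}∂_i^B(ΩV_i)_B)|f|²` and `∑_{i,B}∂_i^B(ΩV_i)_B = 8 tr Ω` (trace of `Ω` on `{∑T_iV_i = 0}`). -/
def EnFStmt (S : Setup d F) (φ : Spl dh dm d) : Prop :=
  ∀ (D : Fin 9 → Matrix (Fin dm) (Fin dm) ℝ) (Om : Matrix (Fin dm) (Fin dm) ℝ), Frz D → IsOm S.κ D Om →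
  ∀ f : Wsp dm → F, FT f →
    S.e1 φ D f = (1 / 2) * (∑ i, ∑ B, nsf (fun w => dd D i B f w + (((Om *ᵥ VV D w i) B : ℝ) : ℂ) • f w)) +
      (∫ w, inner ℂ (f w) (S.NF φ D Om (f w))).re

/-- **B-Lam** the fermionic energy. PROOF: `P` is real antisymmetric (`γ^i` symmetric, `D_i` antisymmetric) and
`P² = κ²∑_{i,j}γ^iγ^jD_iD_j = κ²∑D_i² = -Ω²`, so `Λ = ½(Ω - iP)` is Hermitian and `Λ² = ½(Ω² - iΩP) = ΩΛ = ΛΩ`; with `Θ_p = θ_pv`:
`⟨v,Nv⟩ = ∑Λ_{pq}⟨Θ_p,Θ_q⟩ = ∑_p⟨(Ω^{-1/2}ΛΘ)_p,(Ω^{-1/2}ΛΘ)_p⟩ ≥ ω^{-1}∑_p‖(Λθ)_pv‖²` (`Ω ≤ ω`). So `N ≥ 0`, `N` is self-adjoint and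
`⟨v,Nv⟩ = 0` iff `v ∈ F0`; a self-adjoint nonnegative operator in finite dimension has a gap above its kernel. -/
def LamStmt (S : Setup d F) (φ : Spl dh dm d) : Prop := FiniteDimensional ℂ F →
  ∀ (D : Fin 9 → Matrix (Fin dm) (Fin dm) ℝ) (Om : Matrix (Fin dm) (Fin dm) ℝ), Frz D → IsOm S.κ D Om →
  ∃ c : ℝ, 0 < c ∧ ∀ v : F, (∃ v0 ∈ S.F0 φ D Om, (∀ u ∈ S.F0 φ D Om, inner ℂ u (v - v0) = 0) ∧
    c * ‖v - v0‖ ^ 2 ≤ (inner ℂ v (S.NF φ D Om v)).re)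

/-- **B-F0** the block diagonal fermions preserve `F0` (they anticommute with `(Λθ)_p`), and `F0` does not change under `D ↦ R D`. -/
def F0Stmt (S : Setup d F) (φ : Spl dh dm d) : Prop :=
  ∀ (D : Fin 9 → Matrix (Fin dm) (Fin dm) ℝ) (Om : Matrix (Fin dm) (Fin dm) ℝ),
  (∀ α (A : Fin dh), ∀ v ∈ S.F0 φ D Om, S.th α (φ (Sum.inl A)) v ∈ S.F0 φ D Om) ∧
  ∀ R : ℝ, 0 < R → S.F0 φ (fun i => R • D i) (R • Om) = S.F0 φ D Om

/-- **B-Poi** Poincaré inequality for Gaussians (any constant). PROOF (Maurey–Pisier). `g(w) = exp(-½⟨w,Mw⟩)`, `u = f/g` smooth compactly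
supported, `∂_nf + (Mw)_nf = g·∂_nu`, `dμ = g²dw`, `Z = ∫g²`. For `x,y ∈ E` and `X_θ = x sin θ + y cos θ`, `X_θ' = x cos θ - y sin θ`:
`u(x) - u(y) = ∫_0^{π/2} Du(X_θ)X_θ' dθ`, so `|u(x)-u(y)|² ≤ (π/2)∫_0^{π/2}|Du(X_θ)|²|X_θ'|²dθ`; integrate over `μ⊗μ`; the rotation
`(x,y) ↦ (X_θ,X_θ')` preserves Lebesgue measure on `E × E` and `⟨x,Mx⟩+⟨y,My⟩`: `∬|u(x)-u(y)|²dμdμ ≤ (π²/4)∫|Du|²dμ·∫|y|²dμ`. Finally
`Z∫|u - ū|²dμ = ½∬|u(x)-u(y)|²dμdμ` with `ū = Z⁻¹∫u dμ`, and `g·ū = Z⁻¹g∫gf`. (`|Du(x)v|² ≤ |v|²∑_n|∂_nu|²`.) -/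
def PoiStmt (dm : ℕ) (F : Type*) [NormedAddCommGroup F] [InnerProductSpace ℂ F] : Prop :=
  ∀ M : Wsp dm →L[ℝ] Wsp dm, (∀ v w, inner ℝ (M v) w = inner ℝ v (M w)) →
  (∃ c : ℝ, 0 < c ∧ ∀ w, c * ‖w‖ ^ 2 ≤ inner ℝ w (M w)) →
  ∃ c : ℝ, 0 < c ∧ ∀ f : Wsp dm → F, FT f →
    c * nsf (fun w => f w - ((Real.exp (-(1 / 2) * inner ℝ w (M w)) /
      ∫ w' : Wsp dm, Real.exp (-(1 / 2) * inner ℝ w' (M w')) ^ 2 : ℝ) : ℂ) •
        ∫ w', ((Real.exp (-(1 / 2) * inner ℝ w' (M w')) : ℝ) : ℂ) • f w') ≤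
      ∑ j, ∑ B, nsf (fun w => pf j B f w + ((M w (j, B) : ℝ) : ℂ) • f w)

/-- **B-Gap** gap at the frozen point, `R = 1`. PROOF: B-En; drop `i = 8` (`dd D j.castSucc = pf j`); B-QF (`(ΩV_j)_B = (Mw)_{jB}`) and
B-Poi for the bosonic part, B-Lam for the fermionic part: with `Π = ` bosonic projection, `Π_0` = projection onto `F0` (they commute),
`|f - Π_0Πf|² ≤ |f - Πf|² + |f - Π_0f|²`. -/
def GapFStmt (S : Setup d F) (φ : Spl dh dm d) : Prop := ∀ _ : FiniteDimensional ℂ F,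
  ∀ (D : Fin 9 → Matrix (Fin dm) (Fin dm) ℝ) (Om : Matrix (Fin dm) (Fin dm) ℝ), Frz D → IsOm S.κ D Om →
  ∃ c : ℝ, 0 < c ∧ ∀ f : Wsp dm → F, FT f →
    c * nsf (fun w => f w - S.PR φ D Om 1 f w) ≤ S.e1 φ D f

/-- **B-Coer** coercivity at the frozen point, `R = 1`. PROOF: B-En, drop `i = 8` and the fermionic part (`≥ 0` by B-Lam);
`∑_{jB}|(∂_{jB} + (Mw)_{jB})f|² = ∑|∂_{jB}f|² + ||Mw|f|² - tr(M)|f|²` (integration by parts), `|Mw| ≥ c|w|`. -/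
def CoerFStmt (S : Setup d F) (φ : Spl dh dm d) : Prop := FiniteDimensional ℂ F →
  ∀ (D : Fin 9 → Matrix (Fin dm) (Fin dm) ℝ) (Om : Matrix (Fin dm) (Fin dm) ℝ), Frz D → IsOm S.κ D Om →
  ∃ C : ℝ, 0 < C ∧ ∀ f : Wsp dm → F, FT f →
    (∑ j, ∑ B, nsf (pf j B f)) + nsf (fun w => ((‖w‖ : ℝ) : ℂ) • f w) ≤ C * (S.e1 φ D f + nsf f)

/-- **B-Pert** dependence on `D`, `R = 1`. PROOF: all coefficients of `q1` are polynomials in `D_i` and `D_8⁻¹`; for `ε` small `D_8'` is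
invertible and `|D_8'⁻¹ - D_8⁻¹| ≤ Cε` (entries). -/
def PertFStmt (S : Setup d F) (φ : Spl dh dm d) : Prop :=
  ∀ (D : Fin 9 → Matrix (Fin dm) (Fin dm) ℝ), (D 8).det ≠ 0 →
  ∃ C ε0 : ℝ, 0 < C ∧ 0 < ε0 ∧ ∀ ε : ℝ, 0 ≤ ε → ε ≤ ε0 → ∀ D' : Fin 9 → Matrix (Fin dm) (Fin dm) ℝ,
    (∀ i A B, |D' i A B - D i A B| ≤ ε) → (D' 8).det ≠ 0 ∧ ∀ f : Wsp dm → F, FT f →
    ∀ β, nsf (fun w => S.q1 φ D' β f w - S.q1 φ D β f w) ≤
      C * ε ^ 2 * ((∑ j, ∑ B, nsf (pf j B f)) + nsf (fun w => ((‖w‖ : ℝ) : ℂ) • f w))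

/-- **B-Scale** scaling `w ↦ √R w`. PROOF: substitution; `n = 8 dm` is the dimension of `Wsp dm`. -/
def ScaleFStmt (S : Setup d F) (φ : Spl dh dm d) : Prop := ∀ _ : FiniteDimensional ℂ F,
  ∀ (D D0 : Fin 9 → Matrix (Fin dm) (Fin dm) ℝ) (Om : Matrix (Fin dm) (Fin dm) ℝ) (R : ℝ), 0 < R →
  ∀ f h : Wsp dm → F, FT f → (∀ w, f w = h (Real.sqrt R • w)) →
    FT h ∧ nsf f = (Real.sqrt R ^ (8 * dm))⁻¹ * nsf h ∧
    (∀ j B, nsf (pf j B f) = (Real.sqrt R ^ (8 * dm))⁻¹ * (R * nsf (pf j B h))) ∧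
    nsf (fun w => ((‖w‖ : ℝ) : ℂ) • f w) = (Real.sqrt R ^ (8 * dm))⁻¹ * (R⁻¹ * nsf (fun w => ((‖w‖ : ℝ) : ℂ) • h w)) ∧
    (∀ β w, S.q1 φ (fun i => R • D i) β f w = ((Real.sqrt R : ℝ) : ℂ) • S.q1 φ D β h (Real.sqrt R • w)) ∧
    (∀ w, S.PR φ D0 Om R f w = S.PR φ D0 Om 1 h (Real.sqrt R • w)) ∧
    ((∀ w, f (-w) = -f w) → ∀ w, S.PR φ D0 Om R f w = 0)

/-- **B-Fib** FIBRE FACTS (output of block B). PROOF: by B-Scale reduce to `R = 1`, `D' = D/R`; B-Gap, B-Coer at the frozen point;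
B-Pert: `|e1(D')^{1/2} - e1(D)^{1/2}| ≤ Cε(e1(D) + |f|²)^{1/2}`, so for `ε ≤ ε0`: `e1(D) ≤ 4e1(D') + |f|²·Cε²`, etc. -/
def FibStmt (S : Setup d F) (φ : Spl dh dm d) : Prop := ∀ _ : FiniteDimensional ℂ F,
  ∀ (D0 : Fin 9 → Matrix (Fin dm) (Fin dm) ℝ) (Om : Matrix (Fin dm) (Fin dm) ℝ), Frz D0 → IsOm S.κ D0 Om →
  ∃ c0 C ε0 : ℝ, 0 < c0 ∧ 0 < C ∧ 0 < ε0 ∧ ∀ R : ℝ, 0 < R → ∀ ε : ℝ, 0 ≤ ε → ε ≤ ε0 →
  ∀ D : Fin 9 → Matrix (Fin dm) (Fin dm) ℝ, (∀ i A B, |D i A B - R * D0 i A B| ≤ ε * R) → (D 8).det ≠ 0 ∧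
  ∀ f : Wsp dm → F, FT f →
    ((∑ j, ∑ B, nsf (pf j B f)) + R ^ 2 * nsf (fun w => ((‖w‖ : ℝ) : ℂ) • f w) ≤ C * (S.e1 φ D f + R * nsf f)) ∧
    (c0 * R * nsf (fun w => f w - S.PR φ D0 Om R f w) ≤ S.e1 φ D f + C * ε ^ 2 * R * nsf f) ∧
    ((∀ w, f (-w) = -f w) → c0 * R * nsf f ≤ S.e1 φ D f) ∧
    (∀ β, nsf (fun w => S.q1 φ D β f w - S.q1 φ (fun i => R • D0 i) β f w) ≤ C * ε ^ 2 * (S.e1 φ D f + R * nsf f))

end Vale.Agent.P353.Z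
end

section

/-! # P353, all `N`, block X: the vacuum bundle — definitions (architect helper667)

`M a`, `a < r`, are commuting antisymmetric real matrices on the colour space `m` (`M a = S.Dm φ (c a)` for a basis `c` of the centre of
`h`), `D_i(η) = ∑_a η_{ia} M_a`, `η : Cfg r`. For `η` off the collision set the fermionic vacuum space `F0(η) = S.F0 φ (DM M η) (Om η)` is the
image of a fixed space `K` under a unitary operator `U(η) = exp(Qu(b(η)))`, `b(η)` a real antisymmetric matrix on `ℝ^16 ⊗ m`. -/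

open MeasureTheory Filter Topology Matrix
open scoped ContDiff

namespace Vale.Agent.P353.Z

variable {d dh dm r : ℕ} {F : Type*} [NormedAddCommGroup F] [InnerProductSpace ℂ F]

/-- `D_i(η) = ∑_a η_{ia} M_a` -/
noncomputable def DM (M : Fin r → Matrix (Fin dm) (Fin dm) ℝ) (η : Cfg r) (i : Fin 9) : Matrix (Fin dm) (Fin dm) ℝ :=
  ∑ a, η (i, a) • M a

/-- commuting antisymmetric matrices; `∑ t_a M_a` is invertible -/
structure Tor (M : Fin r → Matrix (Fin dm) (Fin dm) ℝ) (t : Fin r → ℝ) : Prop where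
  anti : ∀ a, (M a)ᵀ = -M a
  comm : ∀ a b, M a * M b = M b * M a
  reg : (∑ a, t a • M a).det ≠ 0

/-- `∑_k f_k e_k e_kᵀ`, `e_k` = rows of `E` -/
noncomputable def sp (E : Matrix (Fin dm) (Fin dm) ℝ) (f : Fin dm → ℝ) : Matrix (Fin dm) (Fin dm) ℝ :=
  Eᵀ * Matrix.diagonal f * E

/-- root data: complex structure `Kc` on `m`, orthonormal joint eigenbasis (rows of `E`) of the symmetric matrices `-M_a Kc`, root
covectors `l k` (positive at `t`) -/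
structure RD (M : Fin r → Matrix (Fin dm) (Fin dm) ℝ) (t : Fin r → ℝ) (Kc E : Matrix (Fin dm) (Fin dm) ℝ)
    (l : Fin dm → Fin r → ℝ) : Prop where
  anti : Kcᵀ = -Kc
  sq : Kc * Kc = -1
  orth : E * Eᵀ = 1
  M_eq : ∀ a, M a = sp E (fun k => l k a) * Kc
  pos : ∀ k, 0 < ∑ a, l k a * t a
  comm : ∀ f : (Fin r → ℝ) → ℝ, Kc * sp E (fun k => f (l k)) = sp E (fun k => f (l k)) * Kc

/-- `z_i = ∑_a l_a η_{ia}`: value of the root `l` on `η` -/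
noncomputable def zk (l : Fin r → ℝ) (η : Cfg r) (i : Fin 9) : ℝ := ∑ a, l a * η (i, a)

/-- `|z|` -/
noncomputable def nz (z : Fin 9 → ℝ) : ℝ := Real.sqrt (∑ i, z i ^ 2)

/-- `|z'|`, `z' = (z_0, …, z_7)` -/
noncomputable def nz8 (z : Fin 9 → ℝ) : ℝ := Real.sqrt (∑ j : Fin 8, z j.castSucc ^ 2)

/-- angle between `z` and the axis `8` -/
noncomputable def ang (z : Fin 9 → ℝ) : ℝ := Real.arccos (z 8 / nz z)

/-- path of unit vectors from the axis `8` (`τ = 0`) to `z/|z|` (`τ = 1`) -/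
noncomputable def nn (τ : ℝ) (z : Fin 9 → ℝ) (i : Fin 9) : ℝ :=
  Fin.lastCases (motive := fun _ => ℝ) (Real.cos (τ * ang z)) (fun j => Real.sin (τ * ang z) * (z j.castSucc / nz8 z)) i

/-- rotation parameters: half the angle times the unit vector `z'/|z'|` -/
noncomputable def be (z : Fin 9 → ℝ) (j : Fin 8) : ℝ := ang z / 2 * (z j.castSucc / nz8 z)

/-- `Ω(η) = κ ∑_k |z_k(η)| e_k e_kᵀ` -/
noncomputable def OmE (κ : ℝ) (E : Matrix (Fin dm) (Fin dm) ℝ) (l : Fin dm → Fin r → ℝ) (η : Cfg r) :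
    Matrix (Fin dm) (Fin dm) ℝ := κ • sp E fun k => nz (zk (l k) η)

/-- `Ω` at the reference point `e_8 ⊗ t` -/
noncomputable def OmT (κ : ℝ) (E : Matrix (Fin dm) (Fin dm) ℝ) (l : Fin dm → Fin r → ℝ) (t : Fin r → ℝ) :
    Matrix (Fin dm) (Fin dm) ℝ := κ • sp E fun k => ∑ a, l k a * t a

/-- `D` at the reference point `e_8 ⊗ t` -/
noncomputable def DT (M : Fin r → Matrix (Fin dm) (Fin dm) ℝ) (t : Fin r → ℝ) (i : Fin 9) : Matrix (Fin dm) (Fin dm) ℝ :=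
  if i = 8 then ∑ a, t a • M a else 0

/-- real antisymmetric matrix on `ℝ^16 ⊗ m` -/
structure RA (b : Matrix (Fin 16 × Fin dm) (Fin 16 × Fin dm) ℂ) : Prop where
  real : ∀ p q, (b p q).im = 0
  anti : bᵀ = -b

/-- real orthogonal complex structure on `ℝ^16 ⊗ m` -/
structure CStr (J : Matrix (Fin 16 × Fin dm) (Fin 16 × Fin dm) ℂ) : Prop extends RA J where
  sq : J * J = -1

namespace Setup

variable (S : Setup d F) (φ : Spl dh dm d)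

/-- `θ_p`, `p = (α, B)`, `B ∈ m` -/
noncomputable def tm (p : Fin 16 × Fin dm) : F →L[ℂ] F := S.th p.1 (φ (Sum.inr p.2))

/-- `½ ∑ b_{pq} θ_p θ_q` -/
noncomputable def Qu (b : Matrix (Fin 16 × Fin dm) (Fin 16 × Fin dm) ℂ) : F →L[ℂ] F :=
  (1 / 2 : ℂ) • ∑ p : Fin 16 × Fin dm, ∑ q : Fin 16 × Fin dm, b p q • (S.tm φ p * S.tm φ q)

/-- common kernel of the operators `∑_q 𝒜_{pq} θ_q` -/
noncomputable def Kr (𝒜 : Matrix (Fin 16 × Fin dm) (Fin 16 × Fin dm) ℂ) : Submodule ℂ F where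
  carrier := {v | ∀ p, ∑ q, 𝒜 p q • S.tm φ q v = 0}
  add_mem' := by
    intro a b ha hb p
    simp only [map_add, smul_add, Finset.sum_add_distrib]
    rw [ha p, hb p, add_zero]
  zero_mem' := by
    intro p
    simp
  smul_mem' := by
    intro c a ha p
    simp only [map_smul, smul_comm _ c]
    rw [← Finset.smul_sum, ha p, smul_zero]

/-- generator of the rotation: `∑_{j<8} γ^jγ^8 ⊗ β_j(z_k(η)) e_ke_kᵀ` -/
noncomputable def bb (E : Matrix (Fin dm) (Fin dm) ℝ) (l : Fin dm → Fin r → ℝ) (η : Cfg r) :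
    Matrix (Fin 16 × Fin dm) (Fin 16 × Fin dm) ℂ :=
  Matrix.of fun p q => ∑ j : Fin 8, (S.g j.castSucc * S.g 8) p.1 q.1 *
    ((sp E (fun k => be (zk (l k) η) j) p.2 q.2 : ℝ) : ℂ)

/-- `J_τ(η) = ∑_i γ^i ⊗ n_i(τ) Kc` -/
noncomputable def JJ (Kc E : Matrix (Fin dm) (Fin dm) ℝ) (l : Fin dm → Fin r → ℝ) (τ : ℝ) (η : Cfg r) :
    Matrix (Fin 16 × Fin dm) (Fin 16 × Fin dm) ℂ :=
  Matrix.of fun p q => ∑ i : Fin 9, S.g i p.1 q.1 * (((sp E (fun k => nn τ (zk (l k) η) i) * Kc) p.2 q.2 : ℝ) : ℂ)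

/-- `J_0 = γ^8 ⊗ Kc` -/
noncomputable def J0 (Kc : Matrix (Fin dm) (Fin dm) ℝ) : Matrix (Fin 16 × Fin dm) (Fin 16 × Fin dm) ℂ :=
  Matrix.of fun p q => S.g 8 p.1 q.1 * ((Kc p.2 q.2 : ℝ) : ℂ)

/-- the unitary operators `U(η) = exp(Qu(b(η)))` -/
noncomputable def UU (E : Matrix (Fin dm) (Fin dm) ℝ) (l : Fin dm → Fin r → ℝ) (η : Cfg r) : F →L[ℂ] F :=
  NormedSpace.exp (S.Qu φ (S.bb E l η))

end Setup

end Vale.Agent.P353.Z
end

section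

/-! # P353, all `N`, block X: the vacuum bundle — statements (architect helper667)

A prover delivers `theorem <name> … : XxStmt …` in `Vale/Agent/P353/AN/X/<Task>.lean`, importing this file and landed files (`AN/B/Om.lean`,
`Z/U/*`), with other statements as hypotheses. Notation `θ_p = S.tm φ p`, `{θ_p, θ_q} = δ_{pq}` (`S.th_anti`), `θ_p` self-adjoint (`S.th_sa`). -/

open MeasureTheory Filter Topology Matrix
open scoped ContDiff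

namespace Vale.Agent.P353.Z.AX

variable {d dh dm : ℕ} {F : Type*} [NormedAddCommGroup F] [InnerProductSpace ℂ F]

/-- **X-Root** root data exist. PROOF. `A = ∑ t_aM_a` is antisymmetric and invertible, `AᵀA` is positive definite; `P` = its positive square
root, which commutes with the commutant (`OmPf.omp_sqrt` in `AN/B/Om.lean`; all `M_a` commute with `AᵀA = -A²`). `Kc = A P⁻¹`: commutes with
all `M_a`, `Kcᵀ = -Kc`, `Kc² = A²P⁻² = -1`. `T_a = -M_a Kc` is symmetric, the `T_a` commute with each other and with `Kc`, and `M_a = T_a Kc`.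
Simultaneous diagonalisation of commuting real symmetric matrices (`Mathlib/Analysis/InnerProductSpace/JointEigenspace`, or induction):
orthonormal `e_k` with `T_ae_k = l_k(a)e_k`; rows of `E`; `T_a = sp E (l · a)`. `pos`: `∑t_aT_a = -A Kc = P > 0`. `comm`: `Kc` commutes with `T_a`,
so `⟨e_j, Kc e_k⟩(l_j(a) - l_k(a)) = 0` for all `a`: nonzero only if `l_j = l_k`. -/
def RootStmt : Prop := ∀ (r dm : ℕ) (M : Fin r → Matrix (Fin dm) (Fin dm) ℝ) (t : Fin r → ℝ), Tor M t →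
  ∃ (Kc E : Matrix (Fin dm) (Fin dm) ℝ) (l : Fin dm → Fin r → ℝ), RD M t Kc E l

/-- **X-OmU** uniqueness of `Ω`. PROOF: `Om'` commutes with `∑D_i²` (its square is a multiple), so `Om'Om = OmOm'` (`comm`), hence
`(Om - Om')(Om + Om') = 0`, and `Om + Om'` is positive definite, so invertible. -/
def OmUStmt : Prop := ∀ (dm : ℕ) (κ : ℝ) (D : Fin 9 → Matrix (Fin dm) (Fin dm) ℝ) (Om Om' : Matrix (Fin dm) (Fin dm) ℝ),
  0 < κ → IsOm κ D Om → IsOm κ D Om' → Om = Om'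

/-- **X-Vec** the functions of one root `z`. PROOF: `cos(ang z) = z_8/|z|`, `sin(ang z) = √(1 - z_8²/|z|²) = |z'|/|z|` (`Real.cos_arccos`,
`Real.sin_arccos`, `|z_8| ≤ |z|`, `|z|² = |z'|² + z_8²`); `∑_{j<8}(z_j/|z'|)² = 1`; scaling: `|Rz| = R|z|`. -/
def VecStmt : Prop := ∀ z : Fin 9 → ℝ, nz8 z ≠ 0 →
  0 < nz z ∧ (∀ i, nn 1 z i = z i / nz z) ∧ (∀ τ, ∑ i, nn τ z i ^ 2 = 1) ∧ (nn 0 z 8 = 1 ∧ ∀ j : Fin 8, nn 0 z j.castSucc = 0) ∧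
  (∀ τ, HasDerivAt (fun s => nn s z 8) (-2 * ∑ j : Fin 8, be z j * nn τ z j.castSucc) τ) ∧
  (∀ τ (j : Fin 8), HasDerivAt (fun s => nn s z j.castSucc) (2 * be z j * nn τ z 8) τ) ∧
  (∀ (τ : ℝ) (i j : Fin 8), be z i * nn τ z j.castSucc = be z j * nn τ z i.castSucc) ∧
  ∀ R : ℝ, 0 < R → (∀ j, be (fun i => R * z i) j = be z j) ∧ nz (fun i => R * z i) = R * nz z

/-- **X-Sp** calculus of `sp`. PROOF: `E Eᵀ = Eᵀ E = 1`. -/
def SpStmt : Prop := ∀ (dm : ℕ) (E : Matrix (Fin dm) (Fin dm) ℝ), E * Eᵀ = 1 →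
  (∀ f g, sp E f * sp E g = sp E (fun k => f k * g k)) ∧ (∀ f g, sp E f + sp E g = sp E (fun k => f k + g k)) ∧
  (∀ (c : ℝ) f, c • sp E f = sp E (fun k => c * f k)) ∧ sp E (fun _ => 1) = 1 ∧ (∀ f, (sp E f)ᵀ = sp E f) ∧
  (∀ f, (sp E f).det = ∏ k, f k) ∧ (∀ f (v : Fin dm → ℝ), v ⬝ᵥ (sp E f *ᵥ v) = ∑ k, f k * (E *ᵥ v) k ^ 2) ∧
  (∀ f, (∀ k, 0 < f k) → ∀ v : Fin dm → ℝ, v ≠ 0 → 0 < v ⬝ᵥ (sp E f *ᵥ v)) ∧
  ∀ (f g : Fin dm → ℝ) (M : Matrix (Fin dm) (Fin dm) ℝ), (∀ j k, f j = f k → g j = g k) →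
    M * sp E f = sp E f * M → M * sp E g = sp E g * M

/-- **X-OmP** `OmE` is the matrix `Ω(η)`. PROOF (X-Sp). `DM M η i = sp(z_{k,i}) Kc` (`M_eq`), `∑D_i² = -sp(|z_k|²)` (`Kc² = -1`, `Kc` commutes
with `sp(f ∘ l)`), `det(∑D_i²) = ±∏|z_k|²`, so all `|z_k| > 0`; `OmE = κ sp(|z_k|)`. Reference: `DT M t 8 = sp(∑l_k(a)t_a) Kc`. -/
def OmPStmt : Prop := ∀ (r dm : ℕ) (κ : ℝ) (M : Fin r → Matrix (Fin dm) (Fin dm) ℝ) (t : Fin r → ℝ)
  (Kc E : Matrix (Fin dm) (Fin dm) ℝ) (l : Fin dm → Fin r → ℝ), 0 < κ → RD M t Kc E l →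
  (∀ (η : Cfg r) i, DM M η i = sp E (fun k => zk (l k) η i) * Kc) ∧
  (∀ η : Cfg r, (∑ i, DM M η i * DM M η i).det ≠ 0 → (∀ k, 0 < nz (zk (l k) η)) ∧ IsOm κ (DM M η) (OmE κ E l η)) ∧
  (∀ η : Cfg r, (∀ k, 0 < nz (zk (l k) η)) → (∑ i, DM M η i * DM M η i).det ≠ 0) ∧
  IsOm κ (DT M t) (OmT κ E l t) ∧ (∀ i, (DT M t i)ᵀ = -DT M t i) ∧ (∀ i j, DT M t i * DT M t j = DT M t j * DT M t i)

/-- **X-Path** the path of complex structures. PROOF. Entrywise: a sum over `(α', B')` of products splits (`γ`-part times `m`-part), i.e.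
`(x ⊗ X)(y ⊗ Y) = xy ⊗ XY`. `bb`: `γ^jγ^8` is antisymmetric (`g_symm`, `g_anti`), `sp` symmetric, real entries (`g_real`). `JJ`: `γ^i` symmetric, `sp(f∘l) Kc`
antisymmetric; `JJ² = ∑_{ij}γ^iγ^j ⊗ sp(n_in_j)Kc² = -∑_i sp(n_i²) = -1`. `[bb, JJ_τ]`: `[γ^jγ^8, γ^8] = 2γ^j`, `[γ^iγ^8, γ^j] = -2δ_{ij}γ^8` (`i,j < 8`) up
to the part symmetric under `i ↔ j`, use `be_i n_j = be_j n_i` (X-Vec) or `γ^iγ^8γ^j - γ^jγ^iγ^8 = -(γ^iγ^j + γ^jγ^i)γ^8`. Derivatives: X-Vec. -/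
def PathStmt (S : Setup d F) : Prop := ∀ (r dm : ℕ) (M : Fin r → Matrix (Fin dm) (Fin dm) ℝ) (t : Fin r → ℝ)
  (Kc E : Matrix (Fin dm) (Fin dm) ℝ) (l : Fin dm → Fin r → ℝ), RD M t Kc E l →
  (∀ η : Cfg r, RA (S.bb E l η)) ∧ CStr (S.J0 Kc) ∧
  ∀ η : Cfg r, (∀ k, nz8 (zk (l k) η) ≠ 0) → (∀ τ, CStr (S.JJ Kc E l τ η)) ∧ S.JJ Kc E l 0 η = S.J0 Kc ∧
    ∀ τ p q, HasDerivAt (fun s => S.JJ Kc E l s η p q)
      ((S.bb E l η * S.JJ Kc E l τ η - S.JJ Kc E l τ η * S.bb E l η) p q) τ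

/-- **X-KrF** `F0` in terms of complex structures. PROOF: `P(η) = κ∑γ^i ⊗ sp(z_{k,i})Kc = (1 ⊗ Ω) J_1`, since `z_{k,i} = |z_k| n_i(1)` (X-Vec), so
`Λ = ½(1 ⊗ Ω)(1 - iJ_1)` and `Ω` is invertible. `Lth p v = ∑_q Lam p q • θ_q v`. Same at the reference point. -/
def KrFStmt (S : Setup d F) (φ : Spl dh dm d) : Prop := ∀ (r : ℕ) (M : Fin r → Matrix (Fin dm) (Fin dm) ℝ) (t : Fin r → ℝ)
  (Kc E : Matrix (Fin dm) (Fin dm) ℝ) (l : Fin dm → Fin r → ℝ), RD M t Kc E l →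
  S.Kr φ (1 - Complex.I • S.J0 Kc) = S.F0 φ (DT M t) (OmT S.κ E l t) ∧
  ∀ η : Cfg r, (∀ k, nz8 (zk (l k) η) ≠ 0) →
    S.Kr φ (1 - Complex.I • S.JJ Kc E l 1 η) = S.F0 φ (DM M η) (OmE S.κ E l η)

/-- **X-Qu** quadratic operators. PROOF: `θ_pθ_qθ_r - θ_rθ_pθ_q = θ_p{θ_q,θ_r} - {θ_p,θ_r}θ_q`; `(θ_pθ_q)^* = θ_qθ_p`; `X` passes two `θ`'s.
`exp` of a skew-adjoint operator is unitary (`NormedSpace.exp_mem_unitary_of_mem_skewAdjoint`, `F` is complete), commutes with whatever commutes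
with the exponent (`Commute.exp_left` …). -/
def QuStmt (S : Setup d F) (φ : Spl dh dm d) : Prop := FiniteDimensional ℂ F →
  ∀ b : Matrix (Fin 16 × Fin dm) (Fin 16 × Fin dm) ℂ, RA b →
  (∀ p, S.Qu φ b * S.tm φ p - S.tm φ p * S.Qu φ b = -∑ q, b p q • S.tm φ q) ∧
  (∀ v w, inner ℂ (S.Qu φ b v) w = -inner ℂ v (S.Qu φ b w)) ∧
  (∀ s : ℝ, (∀ v w, inner ℂ (NormedSpace.exp (s • S.Qu φ b) v) (NormedSpace.exp (s • S.Qu φ b) w) = inner ℂ v w) ∧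
    (∀ v, ∃ u, NormedSpace.exp (s • S.Qu φ b) u = v)) ∧
  ∀ X : F →L[ℂ] F, ((∀ p, X * S.tm φ p = S.tm φ p * X) ∨ (∀ p, X * S.tm φ p = -(S.tm φ p * X))) →
    S.Qu φ b * X = X * S.Qu φ b ∧ ∀ s : ℝ, NormedSpace.exp (s • S.Qu φ b) * X = X * NormedSpace.exp (s • S.Qu φ b)

/-- **X-Tr** transport of the kernels. PROOF. `B = Qu b`, `A_p(τ) = ∑_q 𝒜(τ)_{pq}θ_q`, `W_p(τ) = exp(-τB)A_p(τ)exp(τB)`. By X-Qu
`[A_p, B] = ∑_q(𝒜b)_{pq}θ_q`, so `W_p' = exp(-τB)∑_q(𝒜b + 𝒜')_{pq}θ_q exp(τB) = ∑_r b_{pr}W_r` (`𝒜' + 𝒜b = b𝒜`): linear ODE with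
constant coefficients, `W(τ) = exp(τb)W(0)` (or: `∑_p‖W_p(τ)v‖²` has derivative `0` since `b` is real antisymmetric!). So `W(0)v = 0` iff
`W(τ)v = 0` iff `A_p(τ)exp(τB)v = 0` for all `p`. -/
def TrStmt (S : Setup d F) (φ : Spl dh dm d) : Prop := FiniteDimensional ℂ F →
  ∀ b : Matrix (Fin 16 × Fin dm) (Fin 16 × Fin dm) ℂ, RA b →
  ∀ 𝒜 : ℝ → Matrix (Fin 16 × Fin dm) (Fin 16 × Fin dm) ℂ,
    (∀ τ p q, HasDerivAt (fun s => 𝒜 s p q) ((b * 𝒜 τ - 𝒜 τ * b) p q) τ) →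
    ∀ (τ : ℝ) (v : F), v ∈ S.Kr φ (𝒜 0) ↔ NormedSpace.exp (τ • S.Qu φ b) v ∈ S.Kr φ (𝒜 τ)

/-- **X-Two** two-point function. PROOF. `G_{pq} = ⟨v, θ_pθ_qw⟩`. On the kernel `θ_qw = i∑_rJ_{qr}θ_rw`, so `G = iGJᵀ = -iGJ`; and
`⟨v,θ_p·⟩ = ⟨θ_pv,·⟩ = -i∑J_{pr}⟨θ_rv,·⟩` (`J` real), so `G = -iJG`. With `π = ½(1 - iJ)`: `G = πG`, `Gᵀ = … `, `πGᵀ = 0`, `G + Gᵀ = ⟨v,w⟩`, so `G = π⟨v,w⟩`. Second
part: `∑b_{pq}δ_{pq} = 0`. -/
def TwoStmt (S : Setup d F) (φ : Spl dh dm d) : Prop :=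
  ∀ J : Matrix (Fin 16 × Fin dm) (Fin 16 × Fin dm) ℂ, CStr J →
  ∀ v ∈ S.Kr φ (1 - Complex.I • J), ∀ w ∈ S.Kr φ (1 - Complex.I • J),
    (∀ p q, inner ℂ v (S.tm φ p (S.tm φ q w)) = (1 / 2 : ℂ) * ((if p = q then 1 else 0) - Complex.I * J p q) * inner ℂ v w) ∧
    ∀ b : Matrix (Fin 16 × Fin dm) (Fin 16 × Fin dm) ℂ, bᵀ = -b →
      inner ℂ v (S.Qu φ b w) = -(Complex.I / 4) * (∑ p, ∑ q, b p q * J p q) * inner ℂ v w

/-- **X-Duh** derivative of `exp(A(η))` between vectors. PROOF. `h(τ) = ⟨exp(τA(η))v, D_ξ[exp(τA(·))](η)w⟩`; `(τ,η) ↦ exp(τA(η))` is smooth, so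
the mixed derivatives commute: `∂_τD_ξ exp(τA) = D_ξ(A exp(τA)) = (D_ξA)exp(τA) + A D_ξ exp(τA)`; `A` is skew: `h' = ⟨exp(τA)v,(D_ξA)exp(τA)w⟩ = 0`,
`h(0) = 0`. (Or Duhamel, cf. `AN/A/Dexp.lean`.) -/
def DuhStmt (F : Type*) [NormedAddCommGroup F] [InnerProductSpace ℂ F] : Prop := FiniteDimensional ℂ F →
  ∀ (r : ℕ) (A : Cfg r → F →L[ℂ] F) (s : Set (Cfg r)) (η ξ : Cfg r), IsOpen s → η ∈ s → ContDiffOn ℝ ∞ A s →
  (∀ η' v w, inner ℂ (A η' v) w = -inner ℂ v (A η' w)) → ∀ v w : F,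
  (∀ τ : ℝ, 0 ≤ τ → τ ≤ 1 →
    inner ℂ (NormedSpace.exp (τ • A η) v) ((fderiv ℝ A η ξ) (NormedSpace.exp (τ • A η) w)) = 0) →
  inner ℂ (NormedSpace.exp (A η) v) ((fderiv ℝ (fun η' => NormedSpace.exp (A η')) η ξ) w) = 0

/-- **X-Sm** smoothness off the collisions. PROOF: `zk` is linear in `η`; `√` is smooth at positive numbers, `arccos` on `(-1,1)`
(`Real.contDiffAt_arccos`); `|z_8|/|z| < 1` if `z' ≠ 0`; `Coll L` is closed (finite union of linear subspaces). `Qu` is linear in `b`. The derivative of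
`bb` only differentiates the functions `be`. -/
def SmStmt (S : Setup d F) (φ : Spl dh dm d) : Prop := FiniteDimensional ℂ F →
  ∀ (r : ℕ) (E : Matrix (Fin dm) (Fin dm) ℝ) (l : Fin dm → Fin r → ℝ),
  IsClosed (Coll (Finset.univ.image l)) ∧ (∀ η : Cfg r, η ∉ Coll (Finset.univ.image l) ↔ ∀ k, nz8 (zk (l k) η) ≠ 0) ∧
  ContDiffOn ℝ ∞ (fun η => S.Qu φ (S.bb E l η)) (Coll (Finset.univ.image l))ᶜ ∧
  ContDiffOn ℝ ∞ (fun η => S.UU φ E l η) (Coll (Finset.univ.image l))ᶜ ∧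
  (∀ η ∉ Coll (Finset.univ.image l), ∀ ξ : Cfg r, ∃ c : Fin 8 → Fin dm → ℝ,
    fderiv ℝ (fun η => S.Qu φ (S.bb E l η)) η ξ = S.Qu φ (Matrix.of fun p q =>
      ∑ j : Fin 8, (S.g j.castSucc * S.g 8) p.1 q.1 * ((sp E (c j) p.2 q.2 : ℝ) : ℂ))) ∧
  ∀ A B, ContDiffOn ℝ ∞ (fun η : Cfg r => OmE S.κ E l η A B) {η | ∀ k, 0 < nz (zk (l k) η)}

/-- **X-Par** parallel transport. PROOF: X-Duh with `A = Qu ∘ bb` (skew by X-Qu). `exp(τA(η))v` lies in `Kr(1 - iJ_τ)` by X-Tr with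
`𝒜(τ) = 1 - iJ_τ` and X-Path; by X-Two `⟨·,(D_ξA)·⟩` is a multiple of `∑_{pq}b'_{pq}(J_τ)_{pq} = ∑_{j,i}tr((γ^jγ^8)ᵀγ^i)·tr(sp(c_j) sp(n_i) Kc)` (X-Sm), and
`sp(c_j)sp(n_i)` is symmetric, `Kc` antisymmetric: the second trace is `0`. -/
def ParStmt (S : Setup d F) (φ : Spl dh dm d) : Prop := FiniteDimensional ℂ F →
  ∀ (r : ℕ) (M : Fin r → Matrix (Fin dm) (Fin dm) ℝ) (t : Fin r → ℝ)
  (Kc E : Matrix (Fin dm) (Fin dm) ℝ) (l : Fin dm → Fin r → ℝ), RD M t Kc E l →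
  ∀ η ∉ Coll (Finset.univ.image l), (∀ v, v ∈ S.Kr φ (1 - Complex.I • S.J0 Kc) ↔
      S.UU φ E l η v ∈ S.Kr φ (1 - Complex.I • S.JJ Kc E l 1 η)) ∧
    ∀ v ∈ S.Kr φ (1 - Complex.I • S.J0 Kc), ∀ w ∈ S.Kr φ (1 - Complex.I • S.J0 Kc), ∀ ξ : Cfg r,
      inner ℂ (S.UU φ E l η v) ((fderiv ℝ (fun η' => S.UU φ E l η') η ξ) w) = 0

/-- **X-Irr** the vacuum space of a complex structure. PROOF. `a_p = ∑_q(1 - iJ)_{pq}θ_q`; `{a_p,a_q} = ((1-iJ)(1-iJ)ᵀ)_{pq} = (1 + J²)_{pq} = 0`.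
(1) `θ^h` anticommutes with `a_p`. (2) NONZERO: by induction on a finset `T` of indices there is `v ≠ 0` with `a_pv = 0` for `p ∈ T` (insert `p`: if `a_pv ≠ 0`
replace `v` by `a_pv`). (3) SCALAR: for every word `θ_{p_1}…θ_{p_n}` there is `c` with `⟨u,θ_{p_1}…θ_{p_n}w⟩ = c⟨u,w⟩` for all `u, w` in the kernel: `2θ_{p_1} =
a_{p_1} + a_{p_1}^*`, `a^*` moves to the left and kills `u`, `a_{p_1}` is anticommuted to the right (`{a_p,θ_q} = (1-iJ)_{pq}`) and kills `w`; strong induction on `n`.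
(4) IRREDUCIBLE: `W ≤ Kr` invariant under `θ^h`, `W ≠ ⊥`; the span of all words in `θ_p` applied to `W` is invariant under all `θ` (`θ^h` anticommutes with `θ_p`),
so it is `F`; the orthogonal projection onto `Kr` of a word applied to `w ∈ W` is `c w` by (3), so `Kr ≤ W`. -/
def IrrStmt (S : Setup d F) (φ : Spl dh dm d) : Prop := FiniteDimensional ℂ F →
  ∀ J : Matrix (Fin 16 × Fin dm) (Fin 16 × Fin dm) ℂ, CStr J →
  (∀ α (A : Fin dh), ∀ v ∈ S.Kr φ (1 - Complex.I • J), S.th α (φ (Sum.inl A)) v ∈ S.Kr φ (1 - Complex.I • J)) ∧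
  ((∃ v : F, v ≠ 0) → ∃ v ∈ S.Kr φ (1 - Complex.I • J), v ≠ 0) ∧
  (∀ L : List (Fin 16 × Fin dm), ∃ c : ℂ, ∀ u ∈ S.Kr φ (1 - Complex.I • J), ∀ w ∈ S.Kr φ (1 - Complex.I • J),
    inner ℂ u ((L.map (S.tm φ)).prod w) = c * inner ℂ u w) ∧
  (S.Irr → ∀ W : Submodule ℂ F, W ≤ S.Kr φ (1 - Complex.I • J) →
    (∀ α (A : Fin dh), ∀ v ∈ W, S.th α (φ (Sum.inl A)) v ∈ W) → W = ⊥ ∨ W = S.Kr φ (1 - Complex.I • J))

/-- **X-Cov** `F0` and `Ω` do not depend on the frame. PROOF: `∑_iγ'^i_{αβ}D'_i = ∑_{ijk}R_{ij}R_{ik}γ^jD_k = ∑γ^jD_j`, `∑D'_i² = ∑D_i²`; for `O = 1` the `θ`'s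
are the same (`S.rot R hR 1 hO`.th α A = `∑_B 1_{AB}θ_α^B`). -/
def CovF0Stmt (S : Setup d F) (φ : Spl dh dm d) : Prop :=
  ∀ (R : Matrix (Fin 9) (Fin 9) ℝ) (hR : R * Rᵀ = 1) (hO : (1 : Matrix (Fin d) (Fin d) ℝ) * (1 : Matrix (Fin d) (Fin d) ℝ)ᵀ = 1)
    (D : Fin 9 → Matrix (Fin dm) (Fin dm) ℝ) (Om : Matrix (Fin dm) (Fin dm) ℝ),
  (∀ α A, (S.rot R hR 1 hO).th α A = S.th α A) ∧
  (S.rot R hR 1 hO).F0 φ (fun i => ∑ j, R i j • D j) Om = S.F0 φ D Om ∧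
  (IsOm S.κ D Om ↔ IsOm (S.rot R hR 1 hO).κ (fun i => ∑ j, R i j • D j) Om)

/-- **X-Conn** the complement of the collision set is connected. PROOF. Complement of a finite union of subspaces of codimension `8`
(`l ≠ 0`): dense and path connected: two points `x, y` of the complement; the set of `z` such that the segment `[x,z]` or `[z,y]` meets the
subspace `V` lies in `V + ℝx` resp. `V + ℝy`, proper subspaces (codimension `≥ 7`), and a finite union of proper subspaces is not everything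
(`Subspace.biUnion_ne_univ_of_top_notMem` or measure zero); `z` outside all of them gives the path `[x,z] ∪ [z,y]`. -/
def ConnStmt : Prop := ∀ (r : ℕ) (L : Finset (Fin r → ℝ)), (∀ l ∈ L, l ≠ 0) → IsPreconnected (Coll L)ᶜ

/-- the vacuum bundle -/
structure Bun (S : Setup d F) (φ : Spl dh dm d) {r : ℕ} (M : Fin r → Matrix (Fin dm) (Fin dm) ℝ) (L : Finset (Fin r → ℝ))
    (Om : Cfg r → Matrix (Fin dm) (Fin dm) ℝ) (K : Submodule ℂ F) (U : Cfg r → F →L[ℂ] F) : Prop where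
  L_ne : ∀ l ∈ L, l ≠ 0
  closed : IsClosed (Coll L)
  det : ∀ η ∉ Coll L, (∑ i, DM M η i * DM M η i).det ≠ 0
  om : ∀ η : Cfg r, (∑ i, DM M η i * DM M η i).det ≠ 0 → IsOm S.κ (DM M η) (Om η)
  om_smooth : ∀ A B, ContDiffOn ℝ ∞ (fun η => Om η A B) {η | (∑ i, DM M η i * DM M η i).det ≠ 0}
  om_scale : ∀ (R : ℝ) (η : Cfg r), 0 < R → Om (R • η) = R • Om η
  U_smooth : ContDiffOn ℝ ∞ U (Coll L)ᶜ
  U_scale : ∀ (R : ℝ) (η : Cfg r), 0 < R → U (R • η) = U η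
  U_inner : ∀ η v w, inner ℂ (U η v) (U η w) = inner ℂ v w
  U_surj : ∀ η v, ∃ u, U η u = v
  U_comm : ∀ η α A, U η * S.th α (φ (Sum.inl A)) = S.th α (φ (Sum.inl A)) * U η
  U_comm' : ∀ η (X : F →L[ℂ] F), ((∀ p, X * S.tm φ p = S.tm φ p * X) ∨ (∀ p, X * S.tm φ p = -(S.tm φ p * X))) →
    U η * X = X * U η
  U_mem : ∀ η ∉ Coll L, ∀ v, v ∈ K ↔ U η v ∈ S.F0 φ (DM M η) (Om η)
  U_par : ∀ η ∉ Coll L, ∀ v ∈ K, ∀ w ∈ K, ∀ ξ : Cfg r, inner ℂ (U η v) ((fderiv ℝ U η ξ) w) = 0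
  K_th : ∀ α A, ∀ v ∈ K, S.th α (φ (Sum.inl A)) v ∈ K
  K_ne : (∃ v : F, v ≠ 0) → ∃ v ∈ K, v ≠ 0
  K_irr : S.Irr → ∀ W : Submodule ℂ F, W ≤ K → (∀ α A, ∀ v ∈ W, S.th α (φ (Sum.inl A)) v ∈ W) → W = ⊥ ∨ W = K

/-- **X-Bun** OUTPUT. PROOF: X-Root, `L = image of l`, `Om = OmE`, `K = Kr(1 - iJ_0)`, `U = UU`. The explicit form is part of the
statement (it is needed for the exchange of equal blocks). -/
def BunStmt (S : Setup d F) (φ : Spl dh dm d) : Prop := FiniteDimensional ℂ F →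
  ∀ (r : ℕ) (M : Fin r → Matrix (Fin dm) (Fin dm) ℝ) (t : Fin r → ℝ) (Kc E : Matrix (Fin dm) (Fin dm) ℝ)
    (l : Fin dm → Fin r → ℝ), RD M t Kc E l →
    Bun S φ M (Finset.univ.image l) (OmE S.κ E l) (S.Kr φ (1 - Complex.I • S.J0 Kc)) (S.UU φ E l)

end Vale.Agent.P353.Z.AX
end

section

/-! # P353, all `N`, block X: the normalised boson vacuum — statements (architect helper667)

`gN M Om η w` = `g_η(w)/|g_η|`, `g_η = gR (DM M η) (Om η) 1 = exp(-½⟨V,ΩV⟩)`, on the open set `{η | det D_8(η) ≠ 0}`. -/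

open MeasureTheory Filter Topology Matrix
open scoped ContDiff

namespace Vale.Agent.P353.Z.AX

variable {d dh dm r : ℕ} {F : Type*} [NormedAddCommGroup F] [InnerProductSpace ℂ F]

/-- normalised boson vacuum -/
noncomputable def gN (M : Fin r → Matrix (Fin dm) (Fin dm) ℝ) (Om : Cfg r → Matrix (Fin dm) (Fin dm) ℝ) (η : Cfg r)
    (w : Wsp dm) : ℝ :=
  gR (DM M η) (Om η) 1 w / Real.sqrt (∫ w' : Wsp dm, gR (DM M η) (Om η) 1 w' ^ 2)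

/-- the chart of the slice in the frame `8` -/
def ch8 (M : Fin r → Matrix (Fin dm) (Fin dm) ℝ) : Set (Cfg r) := {η | (DM M η 8).det ≠ 0}

/-- **X-Qf** the quadratic form in the joint eigenbasis, `ω_{jk} = (E w_j)_k`.
PROOF. `D_i = sp(z_{k,i})Kc`, `Kc` commutes with the `sp(f∘l)`, `T_i = D_8⁻¹D_i = sp(z_{k,i}/z_{k,8})`, `t2 = sp(|z_k|²/z_{k,8}²)`,
`s_k = z_{k,8}(∑_jz_{k,j}ω_{jk})/|z_k|²`, `V_{i,k} = ω_{ik} - z_{k,i}(∑_jz_{k,j}ω_{jk})/|z_k|²`: projection orthogonal to `z_k` (`ω_{8k} = 0`). -/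
def QfStmt : Prop := ∀ (r dm : ℕ) (κ : ℝ) (M : Fin r → Matrix (Fin dm) (Fin dm) ℝ) (t : Fin r → ℝ)
  (Kc E : Matrix (Fin dm) (Fin dm) ℝ) (l : Fin dm → Fin r → ℝ), 0 < κ → RD M t Kc E l →
  ∀ η : Cfg r, (DM M η 8).det ≠ 0 → (∀ k, zk (l k) η 8 ≠ 0) ∧ |(DM M η 8).det| = ∏ k, |zk (l k) η 8| ∧
    (OmE κ E l η).det = κ ^ dm * ∏ k, nz (zk (l k) η) ∧ ∀ w : Wsp dm, qf (DM M η) (OmE κ E l η) w =
    κ * ∑ k, nz (zk (l k) η) * ((∑ j : Fin 8, (E *ᵥ fun B => w (j, B)) k ^ 2) -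
      (∑ j : Fin 8, zk (l k) η j.castSucc * (E *ᵥ fun B => w (j, B)) k) ^ 2 / nz (zk (l k) η) ^ 2)

/-- **X-Gauss** PROOF (X-Qf): change of variables `w_j = Eᵀω_j` (orthogonal), product over `k` of integrals over `ℝ^8` of
`exp(-a(|ω|² - (u·ω)²))`, `a = κ|z|`, `u = z'/|z|`, `1 - |u|² = z_8²/|z|²`: rotate `u` to an axis; value `(π/a)^4 (1-|u|²)^{-1/2}`. -/
def GaussStmt : Prop := ∀ (r dm : ℕ) (κ : ℝ) (M : Fin r → Matrix (Fin dm) (Fin dm) ℝ) (t : Fin r → ℝ)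
  (Kc E : Matrix (Fin dm) (Fin dm) ℝ) (l : Fin dm → Fin r → ℝ), 0 < κ → RD M t Kc E l →
  ∀ η : Cfg r, (DM M η 8).det ≠ 0 →
    Integrable (fun w : Wsp dm => gR (DM M η) (OmE κ E l η) 1 w ^ 2) ∧
    ∫ w : Wsp dm, gR (DM M η) (OmE κ E l η) 1 w ^ 2 =
      Real.pi ^ (4 * dm) / (κ ^ dm * (OmE κ E l η).det ^ 3 * |(DM M η 8).det|)

/-- **X-Bos** the normalised boson vacuum on the chart. PROOF. `smooth`: X-Qf (a rational function of the `z_k` and of `|z_k| > 0`, quadratic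
in `w`), X-Gauss for the normalisation. `coer`: `|ω|² - (z'·ω)²/|z|² ≥ (z_8²/|z|²)|ω|²`, continuity on the compact set. `bd`: first derivatives of the
exponent are `O((1+|w|)²)`, `exp(-c|w|²)` absorbs powers. `par`: differentiate `∫gN² = 1` under the integral
(`hasFDerivAt_integral_of_dominated_of_fderiv_le` or along lines, `bd` on a small closed ball in the chart). `scale`: `T_i` and `V` are invariant under
`η ↦ Rη`, `Ω ↦ RΩ`, so `qf_{Rη}(w) = R qf_η(w) = qf_η(√R w)`. -/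
structure Bos (κ : ℝ) (M : Fin r → Matrix (Fin dm) (Fin dm) ℝ) (Om : Cfg r → Matrix (Fin dm) (Fin dm) ℝ) : Prop where
  isOpen : IsOpen (ch8 M)
  smooth : ContDiffOn ℝ ∞ (fun p : Cfg r × Wsp dm => gN M Om p.1 p.2) (ch8 M ×ˢ Set.univ)
  pos : ∀ η ∈ ch8 M, 0 < ∫ w : Wsp dm, gR (DM M η) (Om η) 1 w ^ 2
  norm : ∀ η ∈ ch8 M, ∫ w : Wsp dm, gN M Om η w ^ 2 = 1
  even : ∀ η w, gN M Om η (-w) = gN M Om η w
  bd : ∀ 𝒞 : Set (Cfg r), IsCompact 𝒞 → 𝒞 ⊆ ch8 M → ∃ C c : ℝ, 0 < c ∧ ∀ η ∈ 𝒞, ∀ w : Wsp dm,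
    |gN M Om η w| ≤ C * Real.exp (-(c * ‖w‖ ^ 2)) ∧
    ‖fderiv ℝ (fun p : Cfg r × Wsp dm => gN M Om p.1 p.2) (η, w)‖ ≤ C * Real.exp (-(c * ‖w‖ ^ 2))
  par : ∀ η ∈ ch8 M, ∀ ξ : Cfg r, ∫ w : Wsp dm, gN M Om η w * fderiv ℝ (fun η' => gN M Om η' w) η ξ = 0
  scale : ∀ (R : ℝ) (η : Cfg r) (w : Wsp dm), 0 < R → η ∈ ch8 M →
    gN M Om (R • η) w = Real.sqrt R ^ (4 * dm) * gN M Om η (Real.sqrt R • w)

def BosSmStmt : Prop := QfStmt → GaussStmt → ∀ (r dm : ℕ) (κ : ℝ) (M : Fin r → Matrix (Fin dm) (Fin dm) ℝ) (t : Fin r → ℝ)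
  (Kc E : Matrix (Fin dm) (Fin dm) ℝ) (l : Fin dm → Fin r → ℝ), 0 < κ → RD M t Kc E l → Bos κ M (OmE κ E l)

/-- **X-Susy** supersymmetry of the vacuum, at any frozen point. PROOF. `dd D i B g = -(ΩV_i)_B g` for all `i ≤ 8` (`qf = ⟨w,Mw⟩`,
`(Mw)_{jB} = (ΩV_j)_B`: `QFStmt`; `i = 8`: `-∑_jT_jΩV_j = ΩV_8`), so `q1_β(gv) = g(i∑_i(γ^i ΩV_i·θ)_β + κ∑_{ij}(γ^{ij}D_iV_j·θ)_β)v` (`AlgStmt`: `w` may
be replaced by `V`, `∑D_iV_i = 0`). `γ^{ij} → γ^iγ^j`; `(D_iV_j)·θ = -V_j·(D_iθ)`; `∑_iγ^iγ^jD_iθ = 2D_jθ - κ⁻¹γ^jPθ`, `∑_jV_j·D_jθ = 0`. So the bracket is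
`∑_jV_j·γ^j(iΩθ + Pθ) = i∑_jV_j·γ^j(Ω - iP)θ`, and `(Ω - iP)θv = 2Λθv = 0` on `F0`. -/
def SusyStmt (S : Setup d F) (φ : Spl dh dm d) : Prop := AlgStmt → QFStmt →
  ∀ (D : Fin 9 → Matrix (Fin dm) (Fin dm) ℝ) (Om : Matrix (Fin dm) (Fin dm) ℝ), Frz D → IsOm S.κ D Om →
  ∀ v ∈ S.F0 φ D Om, ∀ (β : Fin 16) (w : Wsp dm),
    S.q1 φ D β (fun w' => ((gR D Om 1 w' : ℝ) : ℂ) • v) w = 0

end Vale.Agent.P353.Z.AX
end

section

/-! # P353, all `N`, block A: linear slices — statements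

A prover delivers `theorem <name> (S : Setup d F) … : XStmt S …` in `Vale/Agent/P353/AN/A/<File>.lean`, importing this file (and
landed files of `Z/U`), using other statements only as hypotheses. -/

open MeasureTheory Filter Topology
open scoped ContDiff

namespace Vale.Agent.P353.Z.AN

variable {d dh dm : ℕ} {F : Type*} [NormedAddCommGroup F] [InnerProductSpace ℂ F]

/-- **A1** covariance under `S ↦ S.rot R O`, `x ↦ rox R O x` (a linear isometry, measure preserving). PROOF: `pd` of `v ∘ rox`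
is `∑ R_{ij}O_{AB}·pd i A v`, orthogonality of `R`, `O`; `γ'^{ij} = ∑R_{ik}R_{jl}γ^{kl}`, `f'` is the rotated tensor. -/
def RotStmt (S : Setup d F) : Prop := ∀ (R : Matrix (Fin 9) (Fin 9) ℝ) (hR : R * R.transpose = 1)
    (O : Matrix (Fin d) (Fin d) ℝ) (hO : O * O.transpose = 1),
  (∀ x, ‖rox R O x‖ = ‖x‖) ∧ MeasurePreserving (rox R O : Cfg d → Cfg d) volume volume ∧
  (∀ x, rox R.transpose O.transpose (rox R O x) = x) ∧
  (∀ x, (S.rot R hR O hO).V (rox R O x) = S.V x) ∧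
  (∀ β x, (S.rot R hR O hO).W β (rox R O x) = S.W β x) ∧
  (∀ v : Cfg d → F, Differentiable ℝ v → ∀ β x,
    (S.rot R hR O hO).Q β v (rox R O x) = S.Q β (fun z => v (rox R O z)) x) ∧
  (∀ v : Cfg d → F, Differentiable ℝ v → ∀ C x,
    (S.rot R hR O hO).G C v (rox R O x) = ∑ C', (O C C' : ℂ) • S.G C' (fun z => v (rox R O z)) x)

/-- `y` is central in `h` (all components) -/
def Cen (S : Setup d F) (φ : Spl dh dm d) (y : Cfg dh) : Prop :=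
  ∀ i B C, ∑ A, S.f (φ (Sum.inl A)) (φ (Sum.inl B)) (φ (Sum.inl C)) * y (i, A) = 0

/-- `Y` is in standard position: subalgebra `h`, `Y = emb φ y 0` with `y` central in `h` and `ad Y_8` invertible on `m`
(so `h` is the centraliser of `Y_8`, and of `Y`) -/
structure Std (S : Setup d F) (φ : Spl dh dm d) (y : Cfg dh) : Prop where
  sub : S.IsSub φ
  cen : Cen S φ y
  inv : (S.Dy φ 8 y).det ≠ 0

/-- **A2** every commuting tuple can be rotated into standard position; `dm = 0` iff it is central.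
PROOF. `h = {v : ∑f_{ABC}Y_i^Av^B = 0 ∀ i,C}` is closed under the bracket (Jacobi) and contains the `Y_i` (`S.V Y = 0` gives
`F_{ij}(Y) = 0`); `m = h^⊥` is invariant under the antisymmetric commuting matrices `A_i = ad Y_i` (`[A_i,A_j] = ad[Y_i,Y_j] = 0`), and
`∩ker A_i|_m = 0`. There is a unit vector `e ∈ ℝ^9` with `A_e|_m` invertible (`A_e = ∑e_iA_i`): take `e` of maximal rank; if
`K = ker A_e|_m ≠ 0`, some `A_i|_K ≠ 0`, `K` and `K^⊥` are invariant under all `A_j` (commuting, antisymmetric), and `A_e + tA_i` has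
larger rank for small `t ≠ 0`. Take an orthonormal basis of `ℝ^d` adapted to `h ⊕ m` (rows of `O`), `R ∈ O(9)` with last row `e`.
The component of `[h,h]` in `m` vanishes, also `f'(inl,inl,inr) = 0`. -/
def StdStmt (S : Setup d F) : Prop := ∀ Y : Cfg d, S.V Y = 0 →
  ∃ (R : Matrix (Fin 9) (Fin 9) ℝ) (hR : R * R.transpose = 1)
    (O : Matrix (Fin d) (Fin d) ℝ) (hO : O * O.transpose = 1) (dh dm : ℕ) (φ : Spl dh dm d) (y : Cfg dh),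
    Std (S.rot R hR O hO) φ y ∧ rox R O Y = emb φ y 0 ∧
    (dm = 0 → ∀ i B C, ∑ A, S.f A B C * Y (i, A) = 0)

/-- **A3** exact decomposition of the supercharges on the slice, for gauge invariant functions.
PROOF. Write `x = emb φ y w`. (1) `W_β(x)`: split the colour sums by `φ`; `f(inl,inl,inr) = 0` (and its permutations).
(2) Gauss law `G_C u = 0` for `C = φ(inr c)` at `x`: `∑_E(D_8)_{cE}∂_8^E u = -∑_{j<8}∑_E(D_j)_{cE}∂_j^Eu - ∑f(inr c)(inr E)(inr G)w_{jE}∂_j^Gu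
- ∑f(inr c)(inr E)(inl A)w_{jE}∂_j^Au - i𝒮_Cu`; multiply with `D_8⁻¹` and insert into `-i∑(γ^8θ^B)_β∂_8^Bu`.
(3) `√J∂_i^A v = ∂_i^A(√Jv) - (∂_i^A√J)v`, `J` depends on `y_8` only, `∂√J = ½√J∂log J`. -/
def DecStmt (S : Setup d F) : Prop := ∀ (dh dm : ℕ) (φ : Spl dh dm d), S.IsSub φ →
  ∀ u : Cfg d → F, ContDiff ℝ ∞ u → (∀ C x, S.G C u x = 0) →
  ∀ (β : Fin 16) (y : Cfg dh) (w : Wsp dm), (S.Dy φ 8 y).det ≠ 0 →
    S.res φ (S.Q β u) y w = S.Qh φ β (S.res φ u) y w + S.Q1 φ β (S.res φ u) y w + S.Qr φ β (S.res φ u) y w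

/-- **A4** bounds near the reference point, uniform in the scale `R`. PROOF: homogeneity (`Dy` linear in `y`, `J` homogeneous of
degree `dm`) reduces to `R = 1`; continuity of the inverse and compactness. -/
def BdStmt (S : Setup d F) : Prop := ∀ (dh dm : ℕ) (φ : Spl dh dm d) (y₀ : Cfg dh), Std S φ y₀ →
  ∃ ε C : ℝ, 0 < ε ∧ 0 < C ∧ ∀ (R : ℝ) (y : Cfg dh), 0 < R → ‖y - R • y₀‖ ≤ ε * R →
    (S.Dy φ 8 y).det ≠ 0 ∧
    (∀ z : Fin dm → ℝ, R ^ 2 * ∑ B, z B ^ 2 ≤ C * ∑ B, (∑ E, S.Dy φ 8 y B E * z E) ^ 2) ∧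
    (∀ i (z : Fin dm → ℝ), ∑ B, (∑ E, S.Dy φ i y B E * z E) ^ 2 ≤ C * R ^ 2 * ∑ B, z B ^ 2) ∧
    (∀ B E, |(S.Dy φ 8 y)⁻¹ B E| ≤ C / R) ∧
    (∀ A, |fderiv ℝ (fun y' => Real.log (S.Jd φ y')) y (EuclideanSpace.single ((8 : Fin 9), A) 1)| ≤ C / R) ∧
    ∀ (w : Wsp dm), ‖w‖ ≤ ε * R → ∀ (v : Cfg dh → Wsp dm → F) (β : Fin 16),
      ‖S.Qr φ β v y w‖ ≤ C * (‖w‖ / R * ((∑ i, ∑ A, ‖py i A v y w‖) + ∑ j, ∑ B, ‖pw j B v y w‖) +
        (1 / R + ‖w‖ ^ 2) * ‖v y w‖)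

/-- an element of `m` as a colour vector -/
noncomputable def exm (φ : Spl dh dm d) (a : EuclideanSpace ℝ (Fin dm)) : Fin d → ℝ :=
  fun A => Sum.elim (fun _ => 0) (fun B => a B) (φ.symm A)

/-- tube coordinates `(a, y, w) ↦ exp(ad a) emb φ y w` -/
noncomputable def tub (S : Setup d F) (φ : Spl dh dm d) (a : EuclideanSpace ℝ (Fin dm)) (p : Cfg dh × Wsp dm) : Cfg d :=
  ro (NormedSpace.exp (S.adm (exm φ a))) (emb φ p.1 p.2)

/-- slice ball at scale `R` -/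
def Nb (y₀ : Cfg dh) (dm : ℕ) (R ε : ℝ) : Set (Cfg dh × Wsp dm) :=
  {p | ‖p.1 - R • y₀‖ < ε * R ∧ ‖p.2‖ < ε * R}

/-- tube at scale `R` -/
def Tube (S : Setup d F) (φ : Spl dh dm d) (y₀ : Cfg dh) (R ε ρ : ℝ) : Set (Cfg d) :=
  {x | ∃ a, ‖a‖ < ρ ∧ ∃ p ∈ Nb y₀ dm R ε, x = tub S φ a p}

/-- **A5** tube coordinates. For small `ε`, `ρ`: the tube is open, contains a ball of radius `δR` around `R·Y`, the coordinates are
injective, and for functions constant along the gauge directions the integral over the tube is `c ×` the integral over the slice with the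
density `J`; `c > 0` does not depend on `R` and `f`.
PROOF. Everything is homogeneous: `tub a (Rp) = R tub a p`; so `R = 1`. Derivative of `tub` at `(0,y₀,0)`: `(α,η,ω) ↦ [α,Y] + emb φ η ω`;
its component in the directions `(8, inr B)` is `∓D_8(y₀)α`, so it is bijective (`cen`, `inv`); inverse function theorem.
JACOBIAN: `∂_α exp(ad a) = exp(ad a)·ad(ω_a(α))`, `ω_a(α) = ∫_0^1 exp(-τ ad a)α dτ`; hence
`D tub(a,s)(α,σ) = exp(ad a)([ω_a(α),s] + σ)`, `exp(ad a)` orthogonal; the map `(α,σ) ↦ [ω_a(α),s] + σ` is block triangular w.r.t. slice ⊕ directions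
`(8, inr B)`, and the `(8,m)`-component of `[ω_a(α),s]` is `∓D_8(y)(ω_a(α))_m` because `[h,h] ⊂ h`. So
`|det D tub(a,y,w)| = J(y)·j(a)`, `j(a) = |det(P_mω_a|_m)|`, continuous, `j(0) = 1`, and `c = ∫_{|a|<ρ}j`. (It is enough to know that
`exp(-ad a)∂_α exp(ad a)` is `ad` of some vector depending linearly on `α` and continuously on `a`.) Change of variables
(`MeasureTheory.lintegral_image_eq_lintegral_abs_det_fderiv_mul`) and Fubini. -/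
def TubeStmt (S : Setup d F) : Prop := ∀ (dh dm : ℕ) (φ : Spl dh dm d) (y₀ : Cfg dh), Std S φ y₀ →
  ∃ ε₀ ρ₀ : ℝ, 0 < ε₀ ∧ 0 < ρ₀ ∧ ∀ ε ρ : ℝ, 0 < ε → ε ≤ ε₀ → 0 < ρ → ρ ≤ ρ₀ →
    ∃ c δ : ℝ, 0 < c ∧ 0 < δ ∧ ∀ R : ℝ, 0 < R →
      IsOpen (Tube S φ y₀ R ε ρ) ∧ Metric.ball (R • emb φ y₀ 0) (δ * R) ⊆ Tube S φ y₀ R ε ρ ∧
      (∀ a a' p p', ‖a‖ < ρ → ‖a'‖ < ρ → p ∈ Nb y₀ dm R ε → p' ∈ Nb y₀ dm R ε →
        tub S φ a p = tub S φ a' p' → a = a' ∧ p = p') ∧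
      ∀ f : Cfg d → ENNReal, Measurable f →
        (∀ a p, ‖a‖ < ρ → p ∈ Nb y₀ dm R ε → f (tub S φ a p) = f (emb φ p.1 p.2)) →
        ∫⁻ x in Tube S φ y₀ R ε ρ, f x =
          ENNReal.ofReal c * ∫⁻ p in Nb y₀ dm R ε, f (emb φ p.1 p.2) * ENNReal.ofReal (S.Jd φ p.1) ∂(volume.prod volume)

/-- **A6** norms of invariant functions and of their supercharges over the tube, in slice coordinates (with the same `c`).
PROOF: A5 with `f = ‖u‖²`, `‖Q_βu‖²`: `u` and `Q_βu` (by `A3Stmt`: `[G_C,Q_β] = 0`) are gauge invariant test functions, so their norms are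
constant along `exp(ad a)` (`Z/U/GrpExp`: `gx983_norm`, `exp_mem`), and A3 for `res(Q_βu)`; `‖res u‖² = J‖u∘emb‖²`. -/
def NormStmt (S : Setup d F) : Prop := ∀ (dh dm : ℕ) (φ : Spl dh dm d) (y₀ : Cfg dh), Std S φ y₀ →
  ∃ ε₀ ρ₀ : ℝ, 0 < ε₀ ∧ 0 < ρ₀ ∧ ∀ ε ρ : ℝ, 0 < ε → ε ≤ ε₀ → 0 < ρ → ρ ≤ ρ₀ →
    ∃ c δ : ℝ, 0 < c ∧ 0 < δ ∧ ∀ R : ℝ, 0 < R →
      Metric.ball (R • emb φ y₀ 0) (δ * R) ⊆ Tube S φ y₀ R ε ρ ∧
      ∀ u : Cfg d → F, Setup.Tst u → (∀ C x, S.G C u x = 0) →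
        (∫ x in Tube S φ y₀ R ε ρ, ‖u x‖ ^ 2 =
          c * ∫ p in Nb y₀ dm R ε, ‖S.res φ u p.1 p.2‖ ^ 2 ∂(volume.prod volume)) ∧
        ∀ β, ∫ x in Tube S φ y₀ R ε ρ, ‖S.Q β u x‖ ^ 2 =
          c * ∫ p in Nb y₀ dm R ε, ‖S.Qh φ β (S.res φ u) p.1 p.2 + S.Q1 φ β (S.res φ u) p.1 p.2 +
            S.Qr φ β (S.res φ u) p.1 p.2‖ ^ 2 ∂(volume.prod volume)

/-- the algebra has no centre -/
def Cless (S : Setup d F) : Prop := ∀ v : Fin d → ℝ, (∀ B C, ∑ A, S.f A B C * v A = 0) → v = 0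

/-- **A7** finite cover: for `0 < ε ≤ L` the points with `εR ≤ |x| ≤ LR` and small potential lie in finitely many tubes (in rotated
frames), at every scale `R`. The tube parameters may be prescribed as functions of the standard position (e.g. the `ε`, `ρ` of the crude bound).
PROOF: the compact set `{Y : V(Y) = 0, ε ≤ |Y| ≤ L}` is covered by the open sets `rox⁻¹(Tube(Y,1))` of A2, A5 (`Y` itself lies in the tube,
A5 ball); finite subcover; `V ≥ η` on the rest of the compact shell; homogeneity `V(Rx) = R⁴V(x)`. -/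
def CovStmt (S : Setup d F) : Prop := Cless S →
  ∀ P : ∀ (R : Matrix (Fin 9) (Fin 9) ℝ) (O : Matrix (Fin d) (Fin d) ℝ) (dh dm : ℕ) (_ : Spl dh dm d) (_ : Cfg dh) (_ _ : ℝ), Prop,
  (∀ (R : Matrix (Fin 9) (Fin 9) ℝ) (hR : R * R.transpose = 1) (O : Matrix (Fin d) (Fin d) ℝ) (hO : O * O.transpose = 1)
    (dh dm : ℕ) (φ : Spl dh dm d) (y : Cfg dh), Std (S.rot R hR O hO) φ y → 0 < dm → y ≠ 0 →
    ∃ r δ : ℝ, 0 < r ∧ 0 < δ ∧ P R O dh dm φ y r δ) →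
  ∀ ε L : ℝ, 0 < ε → ε ≤ L → ∃ (n : ℕ) (η : ℝ), 0 < η ∧
    ∃ (Rr : Fin n → Matrix (Fin 9) (Fin 9) ℝ) (Oo : Fin n → Matrix (Fin d) (Fin d) ℝ) (dhs dms : Fin n → ℕ)
      (φs : ∀ k, Spl (dhs k) (dms k) d) (ys : ∀ k, Cfg (dhs k)) (rs δs : Fin n → ℝ),
      (∀ k, ∃ (hR : Rr k * (Rr k).transpose = 1) (hO : Oo k * (Oo k).transpose = 1),
        Std (S.rot (Rr k) hR (Oo k) hO) (φs k) (ys k) ∧ 0 < dms k ∧ 0 < δs k ∧
        P (Rr k) (Oo k) (dhs k) (dms k) (φs k) (ys k) (rs k) (δs k)) ∧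
      ∀ (s : ℝ) (x : Cfg d), 0 < s → ε * s ≤ ‖x‖ → ‖x‖ ≤ L * s → S.V x ≤ η * s ^ 4 →
        ∃ k, rox (Rr k) (Oo k) x ∈ Metric.ball (s • emb (φs k) (ys k) 0) (δs k * s)

end Vale.Agent.P353.Z.AN
end

section

/-! # P353, all `N`, block D: compactness (FR / inner completeness) — definitions

`S` is an arbitrary `Setup d F` (compact Lie algebra). Block D is a strong induction on `d` over all centreless setups. -/

open MeasureTheory Filter Topology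
open scoped ContDiff

namespace Vale.Agent.P353.Z.AD

variable {d dh dm ds dz : ℕ} {F : Type*} [NormedAddCommGroup F] [InnerProductSpace ℂ F]

/-- gauge invariant test functions -/
def GInv (S : Setup d F) (u : Cfg d → F) : Prop := Setup.Tst u ∧ ∀ C x, S.G C u x = 0

/-- mass in a set -/
noncomputable def mas (u : Cfg d → F) (A : Set (Cfg d)) : ℝ := ∫ x in A, ‖u x‖ ^ 2

/-- energy density `∑_β |Q_β u|²` integrated over a set -/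
noncomputable def ena (S : Setup d F) (u : Cfg d → F) (A : Set (Cfg d)) : ℝ :=
  ∑ β, ∫ x in A, ‖S.Q β u x‖ ^ 2

/-- total energy `∑_β ‖Q_β u‖²` -/
noncomputable def En (S : Setup d F) (u : Cfg d → F) : ℝ := ∑ β, nsq (S.Q β u)

/-- open shell -/
def shl (d : ℕ) (s t : ℝ) : Set (Cfg d) := {x | s < ‖x‖ ∧ ‖x‖ < t}

/-- sequences of gauge invariant test functions with locally (off `0`) bounded mass and scaled energy -/
structure Sq (S : Setup d F) (R : ℕ → ℝ) (u : ℕ → Cfg d → F) : Prop where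
  inv : ∀ n, GInv S (u n)
  pos : ∀ n, 0 < R n
  lim : Tendsto R atTop atTop
  bd : ∀ s t : ℝ, 0 < s → s < t → ∃ C : ℝ, ∀ n,
    mas (u n) (shl d (s * R n) (t * R n)) + R n ^ 2 * ena S (u n) (shl d (s * R n) (t * R n)) ≤ C

/-- no mass in the ball of radius `ε R_n` around `R_n Y` -/
def NulE (R : ℕ → ℝ) (u : ℕ → Cfg d → F) (Y : Cfg d) (ε : ℝ) : Prop :=
  Tendsto (fun n => mas (u n) (Metric.ball (R n • Y) (ε * R n))) atTop (𝓝 0)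

/-- `Y` is a null point of the sequence -/
def Nul (R : ℕ → ℝ) (u : ℕ → Cfg d → F) (Y : Cfg d) : Prop := ∃ ε : ℝ, 0 < ε ∧ NulE R u Y ε

/-- joint centraliser of the nine components of `Y` -/
def cz (S : Setup d F) (Y : Cfg d) : Submodule ℝ (Fin d → ℝ) where
  carrier := {v | ∀ i C, ∑ A, ∑ B, S.f A B C * v A * Y (i, B) = 0}
  add_mem' := by
    intro a b ha hb i C
    have h1 := ha i C
    have h2 := hb i C
    simp only [Pi.add_apply, mul_add, add_mul, Finset.sum_add_distrib, h1, h2, add_zero]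
  zero_mem' := by
    intro i C
    simp
  smul_mem' := by
    intro c a ha i C
    have h1 := ha i C
    have h2 : ∀ A B, S.f A B C * (c • a) A * Y (i, B) = c * (S.f A B C * a A * Y (i, B)) := by
      intro A B
      simp only [Pi.smul_apply, smul_eq_mul]
      ring
    simp only [h2, ← Finset.mul_sum, h1, mul_zero]

/-- dimension of the centraliser -/
noncomputable def cd (S : Setup d F) (Y : Cfg d) : ℕ := Module.finrank ℝ (cz S Y)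

/-- zero modes (strong limits of gauge invariant test functions) -/
def ZM (S : Setup d F) (o : Cfg d → F) : Prop :=
  ∃ u : ℕ → Cfg d → F, (∀ n, GInv S (u n)) ∧ L2t u o ∧ Tendsto (fun n => En S (u n)) atTop (𝓝 0)

/-- **IC** inner completeness of `S` (output of block D) -/
def ICStmt (S : Setup d F) : Prop := ∃ (n : ℕ) (o : Fin n → Cfg d → F) (C : ℝ), 0 ≤ C ∧ (∀ j, ZM S (o j)) ∧
  (∀ j k, ∫ x, inner ℂ (o j x) (o k x) = if j = k then 1 else 0) ∧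
  ∀ ρ : ℝ, 1 ≤ ρ → ∀ u, GInv S u →
    mas (fun x => u x - ∑ j, (∫ z, inner ℂ (o j z) (u z)) • o j x) (Metric.ball 0 ρ) ≤ C * ρ ^ 2 * En S u

/-- weighted norm -/
noncomputable def wn (u : Cfg d → F) : ℝ := ∫ x, ‖u x‖ ^ 2 / (1 + ‖x‖ ^ 2)

/-- dyadic shell `2^j < |x| < 2^{j+1}` -/
def dsh (d : ℕ) (j : ℤ) : Set (Cfg d) := shl d ((2 : ℝ) ^ j) ((2 : ℝ) ^ (j + 1))

/-- the point of `Cfg dh` with components `ys` (first summand, semisimple part) and `yz` (second summand, centre) -/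
noncomputable def cmb (ψ : Spl ds dz dh) (ys : Cfg ds) (yz : Cfg dz) : Cfg dh :=
  WithLp.toLp 2 fun p => Sum.elim (fun A => ys (p.1, A)) (fun B => yz (p.1, B)) (ψ.symm p.2)

/-- standard position with the centraliser split as `h = s ⊕ z`, `z` = centre of `h`, `s` centreless -/
structure Std2 (S : Setup d F) (φ : Spl dh dm d) (ψ : Spl ds dz dh) (z₀ : Cfg dz) : Prop where
  std : AN.Std S φ (cmb ψ 0 z₀)
  cen : ∀ A B C, S.f (φ (Sum.inl (ψ (Sum.inr A)))) (φ (Sum.inl B)) (φ (Sum.inl C)) = 0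
  less : ∀ v : Fin ds → ℝ, (∀ B C, ∑ A, S.f (φ (Sum.inl (ψ (Sum.inl A)))) (φ (Sum.inl (ψ (Sum.inl B))))
    (φ (Sum.inl (ψ (Sum.inl C)))) * v A = 0) → v = 0

lemma Std2.isSub {S : Setup d F} {φ : Spl dh dm d} {ψ : Spl ds dz dh} {z₀ : Cfg dz} (h : Std2 S φ ψ z₀) :
    (S.sub φ h.std.sub).IsSub ψ := by
  intro A B C
  change S.f (φ (Sum.inl (ψ (Sum.inl A)))) (φ (Sum.inl (ψ (Sum.inl B)))) (φ (Sum.inl (ψ (Sum.inr C)))) = 0
  rw [S.f_cyc, S.f_cyc]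
  exact h.cen _ _ _

/-- the setup of the semisimple part `s` of the centraliser -/
noncomputable def Std2.ss {S : Setup d F} {φ : Spl dh dm d} {ψ : Spl ds dz dh} {z₀ : Cfg dz} (h : Std2 S φ ψ z₀) :
    Setup ds F := (S.sub φ h.std.sub).sub ψ h.isSub

/-- the nine matrices `ad yz_i` on `m` at a scalar point -/
noncomputable def Dz (S : Setup d F) (φ : Spl dh dm d) (ψ : Spl ds dz dh) (yz : Cfg dz) :
    Fin 9 → Matrix (Fin dm) (Fin dm) ℝ := fun i => S.Dy φ i (cmb ψ 0 yz)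

open Classical in
/-- the positive square root `Ω` (junk if it does not exist) -/
noncomputable def omc (κ : ℝ) (D : Fin 9 → Matrix (Fin dm) (Fin dm) ℝ) : Matrix (Fin dm) (Fin dm) ℝ :=
  if h : ∃ Om, IsOm κ D Om then h.choose else 0

/-- normalised oscillator vacuum at the scalar point `yz`, applied to the vector `v` -/
noncomputable def vcz [FiniteDimensional ℂ F] (S : Setup d F) (φ : Spl dh dm d) (ψ : Spl ds dz dh) (yz : Cfg dz)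
    (v : F) (w : Wsp dm) : F :=
  ((gR (Dz S φ ψ yz) (omc S.κ (Dz S φ ψ yz)) 1 w /
      Real.sqrt (∫ w', gR (Dz S φ ψ yz) (omc S.κ (Dz S φ ψ yz)) 1 w' ^ 2) : ℝ) : ℂ) •
    (S.F0 φ (Dz S φ ψ yz) (omc S.κ (Dz S φ ψ yz))).starProjection v

/-- slice functional: `R^{-9 dz/2} ∫ χ(yz/R) ⟨vac_{yz}(w) o(ys), res u (ys, yz, w)⟩` over `|ys| < εR`, `|w| < εR` -/
noncomputable def sfun [FiniteDimensional ℂ F] (S : Setup d F) (φ : Spl dh dm d) (ψ : Spl ds dz dh) (ε R : ℝ)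
    (χ : Cfg dz → ℝ) (o : Cfg ds → F) (u : Cfg d → F) : ℂ :=
  ((R ^ (-(9 * (dz : ℝ) / 2)) : ℝ) : ℂ) * ∫ yz : Cfg dz, ((χ (R⁻¹ • yz) : ℝ) : ℂ) *
    ∫ ys in Metric.ball (0 : Cfg ds) (ε * R), ∫ w in Metric.ball (0 : Wsp dm) (ε * R),
      inner ℂ (vcz S φ ψ yz (o ys) w) (S.res φ u (cmb ψ ys yz) w)

/-- all slice functionals near `z₀` tend to zero -/
def SPZ [FiniteDimensional ℂ F] (S : Setup d F) (φ : Spl dh dm d) (ψ : Spl ds dz dh) (z₀ : Cfg dz)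
    (h : Std2 S φ ψ z₀) (ε : ℝ) (R : ℕ → ℝ) (u : ℕ → Cfg d → F) : Prop :=
  ∀ χ : Cfg dz → ℝ, ContDiff ℝ ∞ χ → tsupport χ ⊆ Metric.ball z₀ ε → ∀ o, ZM h.ss o →
    Tendsto (fun n => sfun S φ ψ ε (R n) χ o (u n)) atTop (𝓝 0)

end Vale.Agent.P353.Z.AD
end

section

/-! # P353, all `N`, block X: bridge to the conventions of block D (`Std2`, `Dz`, `omc`, `vcz`) -/

open MeasureTheory Filter Topology Matrix
open scoped ContDiff

namespace Vale.Agent.P353.Z.AX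

variable {d dh dm ds dz : ℕ} {F : Type*} [NormedAddCommGroup F] [InnerProductSpace ℂ F]

/-- `ad` of the central basis vector `a`, on `m` -/
noncomputable def Mz (S : Setup d F) (φ : Spl dh dm d) (ψ : Spl ds dz dh) (a : Fin dz) : Matrix (Fin dm) (Fin dm) ℝ :=
  Matrix.of fun B C => S.f (φ (Sum.inr B)) (φ (Sum.inl (ψ (Sum.inr a)))) (φ (Sum.inr C))

/-- `Dz = DM Mz` -/
theorem DM_Mz (S : Setup d F) (φ : Spl dh dm d) (ψ : Spl ds dz dh) (yz : Cfg dz) :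
    DM (Mz S φ ψ) yz = AD.Dz S φ ψ yz := by
  funext i
  ext B C
  simp only [DM, Mz, AD.Dz, Setup.Dy, Setup.Dm, AD.cmb, Matrix.sum_apply, Matrix.smul_apply, Matrix.of_apply,
    smul_eq_mul]
  rw [← ψ.sum_comp, Fintype.sum_sum_type]
  simp [mul_comm]

theorem Mz_anti (S : Setup d F) (φ : Spl dh dm d) (ψ : Spl ds dz dh) (a : Fin dz) :
    (Mz S φ ψ a)ᵀ = -Mz S φ ψ a := by
  ext B C
  simp only [Mz, Matrix.transpose_apply, Matrix.of_apply, Matrix.neg_apply]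
  rw [S.f_cyc, S.f_swap]

theorem Mz_comm (S : Setup d F) (φ : Spl dh dm d) (ψ : Spl ds dz dh) (hs : S.IsSub φ)
    (hc : ∀ A B C, S.f (φ (Sum.inl (ψ (Sum.inr A)))) (φ (Sum.inl B)) (φ (Sum.inl C)) = 0) (a b : Fin dz) :
    Mz S φ ψ a * Mz S φ ψ b = Mz S φ ψ b * Mz S φ ψ a := by
  ext B D
  simp only [Mz, Matrix.mul_apply, Matrix.of_apply]
  have hj := S.f_jac (φ (Sum.inl (ψ (Sum.inr a)))) (φ (Sum.inr B)) (φ (Sum.inl (ψ (Sum.inr b)))) (φ (Sum.inr D))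
  rw [← φ.sum_comp, Fintype.sum_sum_type] at hj
  have h1 : ∀ E : Fin dh, S.f (φ (Sum.inl (ψ (Sum.inr a)))) (φ (Sum.inr B)) (φ (Sum.inl E)) = 0 := by
    intro E
    rw [S.f_cyc, S.f_cyc]
    exact hs _ _ _
  have h2 : ∀ E : Fin dh, S.f (φ (Sum.inr B)) (φ (Sum.inl (ψ (Sum.inr b)))) (φ (Sum.inl E)) = 0 := by
    intro E
    rw [S.f_cyc]
    exact hs _ _ _
  have h3 : ∀ E : Fin dh, S.f (φ (Sum.inl (ψ (Sum.inr b)))) (φ (Sum.inl (ψ (Sum.inr a)))) (φ (Sum.inl E)) = 0 :=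
    fun E => hc _ _ _
  have h4 : ∀ E : Fin dm, S.f (φ (Sum.inl (ψ (Sum.inr b)))) (φ (Sum.inl (ψ (Sum.inr a)))) (φ (Sum.inr E)) = 0 :=
    fun E => hs _ _ _
  simp only [h1, h2, h3, h4, zero_mul, add_zero, Finset.sum_const_zero, zero_add] at hj
  have h5 : ∀ E : Fin dm, S.f (φ (Sum.inl (ψ (Sum.inr a)))) (φ (Sum.inr B)) (φ (Sum.inr E)) =
      -S.f (φ (Sum.inr B)) (φ (Sum.inl (ψ (Sum.inr a)))) (φ (Sum.inr E)) := fun E => S.f_swap _ _ _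
  simp only [h5, Finset.sum_add_distrib, neg_mul, Finset.sum_neg_distrib] at hj
  linarith

/-- the torus data of a standard position -/
theorem tor_Mz {S : Setup d F} {φ : Spl dh dm d} {ψ : Spl ds dz dh} {z₀ : Cfg dz} (h : AD.Std2 S φ ψ z₀) :
    Tor (Mz S φ ψ) (fun a => z₀ (8, a)) where
  anti := Mz_anti S φ ψ
  comm := Mz_comm S φ ψ h.std.sub h.cen
  reg := by
    have h1 : (∑ a, z₀ (8, a) • Mz S φ ψ a) = S.Dy φ 8 (AD.cmb ψ 0 z₀) := congrFun (DM_Mz S φ ψ z₀) 8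
    rw [h1]
    exact h.std.inv

/-- the `Dz` are frozen points where `D_8` is invertible -/
theorem frz_Dz {S : Setup d F} {φ : Spl dh dm d} {ψ : Spl ds dz dh} {z₀ : Cfg dz} (h : AD.Std2 S φ ψ z₀) (yz : Cfg dz)
    (hy : (AD.Dz S φ ψ yz 8).det ≠ 0) : Frz (AD.Dz S φ ψ yz) := by
  have hT := tor_Mz h
  rw [← DM_Mz] at hy ⊢
  refine ⟨?_, ?_, hy⟩
  · intro i
    simp only [DM, Matrix.transpose_sum, Matrix.transpose_smul, hT.anti, smul_neg, Finset.sum_neg_distrib]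
  · intro i j
    simp only [DM, Finset.sum_mul_sum, smul_mul_smul_comm]
    rw [Finset.sum_comm]
    refine Finset.sum_congr rfl fun a _ => Finset.sum_congr rfl fun b _ => ?_
    rw [hT.comm, mul_comm]

/-- `omc` is the matrix `Ω` -/
theorem omc_eq (hU : OmUStmt) {κ : ℝ} (hκ : 0 < κ) {D : Fin 9 → Matrix (Fin dm) (Fin dm) ℝ}
    {Om : Matrix (Fin dm) (Fin dm) ℝ} (h : IsOm κ D Om) : AD.omc κ D = Om := by
  have hex : ∃ Om, IsOm κ D Om := ⟨Om, h⟩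
  rw [AD.omc, dif_pos hex]
  exact hU dm κ D _ _ hκ hex.choose_spec h

/-- the vacuum `vcz` of block D in terms of the bundle: on vectors `U(yz) k`, `k ∈ K` -/
theorem vcz_eq [FiniteDimensional ℂ F] (hU : OmUStmt) (S : Setup d F) (φ : Spl dh dm d) (ψ : Spl ds dz dh)
    {L : Finset (Fin dz → ℝ)} {Om : Cfg dz → Matrix (Fin dm) (Fin dm) ℝ} {K : Submodule ℂ F} {U : Cfg dz → F →L[ℂ] F}
    (hB : Bun S φ (Mz S φ ψ) L Om K U) (yz : Cfg dz) (hy : yz ∉ Coll L) (k : F) (hk : k ∈ K) (w : Wsp dm) :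
    AD.vcz S φ ψ yz (U yz k) w = ((gN (Mz S φ ψ) Om yz w : ℝ) : ℂ) • U yz k := by
  have h1 : AD.omc S.κ (AD.Dz S φ ψ yz) = Om yz := by
    refine omc_eq hU S.κ_pos ?_
    rw [← DM_Mz]
    exact hB.om yz (hB.det yz hy)
  have h2 : U yz k ∈ S.F0 φ (AD.Dz S φ ψ yz) (AD.omc S.κ (AD.Dz S φ ψ yz)) := by
    rw [h1, ← DM_Mz]
    exact (hB.U_mem yz hy k).1 hk
  rw [AD.vcz, Submodule.starProjection_eq_self_iff.2 h2, h1, gN, DM_Mz]

end Vale.Agent.P353.Z.AX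
end

section

/-! # P353, all `N`, block A: operators on the slice (symmetry, cutoffs, invariance under `h`) -/

open MeasureTheory Filter Topology
open scoped ContDiff

namespace Vale.Agent.P353.Z.AN

variable {d dh dm : ℕ} {F : Type*} [NormedAddCommGroup F] [InnerProductSpace ℂ F]

/-- exact supercharge on the slice, `Q^h + Q^1 + Q^r` -/
noncomputable def Qs (S : Setup d F) (φ : Spl dh dm d) (β : Fin 16) (v : Cfg dh → Wsp dm → F) (y : Cfg dh)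
    (w : Wsp dm) : F := S.Qh φ β v y w + S.Q1 φ β v y w + S.Qr φ β v y w

/-- gauge generator of `h` on slice functions -/
noncomputable def Gh (S : Setup d F) (φ : Spl dh dm d) (C : Fin dh) (v : Cfg dh → Wsp dm → F) (y : Cfg dh)
    (w : Wsp dm) : F :=
  (-Complex.I) • (∑ i, ∑ A, ∑ B, ((S.f (φ (Sum.inl C)) (φ (Sum.inl A)) (φ (Sum.inl B)) * y (i, A) : ℝ) : ℂ) •
      py i B v y w) +
    (-Complex.I) • (∑ j, ∑ A, ∑ B, ((S.f (φ (Sum.inl C)) (φ (Sum.inr A)) (φ (Sum.inr B)) * w (j, A) : ℝ) : ℂ) •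
      pw j B v y w) + S.cS (φ (Sum.inl C)) (v y w)

/-- smooth slice functions on the open set `det D_8 ≠ 0` -/
def Sm (S : Setup d F) (φ : Spl dh dm d) (v : Cfg dh → Wsp dm → F) : Prop :=
  ContDiffOn ℝ ∞ (fun p : Cfg dh × Wsp dm => v p.1 p.2) {p | (S.Dy φ 8 p.1).det ≠ 0}

/-- slice test functions supported in `det D_8 ≠ 0` -/
def Ts (S : Setup d F) (φ : Spl dh dm d) (v : Cfg dh → Wsp dm → F) : Prop :=
  ContDiff ℝ ∞ (fun p : Cfg dh × Wsp dm => v p.1 p.2) ∧ HasCompactSupport (fun p : Cfg dh × Wsp dm => v p.1 p.2) ∧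
    tsupport (fun p : Cfg dh × Wsp dm => v p.1 p.2) ⊆ {p | (S.Dy φ 8 p.1).det ≠ 0}

/-- **A8** the restriction of an invariant smooth function is smooth and annihilated by `G_C^h`. PROOF: `J > 0` is smooth on the set
(`|det|`, `det ≠ 0`); `G_C u = 0` at `emb φ y w` for `C = φ(inl c)`: `f(inl,inl,inr) = 0` kills the mixed terms, `w_8 = 0`;
`J` is `h`-invariant: `∑f_{CAB}y_8^A∂_8^BD_8 = [ad e_C|_m, D_8]` (up to sign, Jacobi and `IsSub`), `tr(D_8⁻¹[X,D_8]) = 0`. -/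
def GhStmt (S : Setup d F) : Prop := ∀ (dh dm : ℕ) (φ : Spl dh dm d), S.IsSub φ →
  ∀ u : Cfg d → F, ContDiff ℝ ∞ u → Sm S φ (S.res φ u) ∧
    ((∀ C x, S.G C u x = 0) → ∀ (C : Fin dh) (y : Cfg dh) (w : Wsp dm), (S.Dy φ 8 y).det ≠ 0 →
      Gh S φ C (S.res φ u) y w = 0)

/-- **A9** the slice supercharge is symmetric on ALL slice test functions (no invariance needed).
PROOF: integrate by parts (`Vale/Agent/P353/Z/Tools`, `Loc`). `Q^h`, `Q^1`: constant resp. `w`-independent real coefficients, `θ` self-adjoint,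
`γ`, `γ^{ij}` real. `Q^r`: the coefficients of `∂_j^A` (`j < 8`) do not depend on `y_j^A`, `j < 8`, the coefficient `f(C)(E)(G)w_{jE}` of
`∂_{jG}` has no divergence (`f_{CGG} = 0`). Zero order part: `-D⁻¹_{BC}(γ^8θ^B)𝒮_C` has adjoint minus itself
`= -D⁻¹_{BC}[𝒮_C, γ^8θ^B] = -iD⁻¹_{BC}f_{CBE}γ^8θ^E` (`[𝒮_C,θ^A] = i f_{CAB}θ^B`, `Z/U/A2`): for `E ∈ h` it is
`+i∂_8^E log J γ^8θ^E`, cancelled by the last term of `Q^r`; for `E ∈ m` the functional `E ↦ ∑D⁻¹_{BC}f_{CBE}` is invariant under `ad y_8`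
(`D_8⁻¹` commutes with `D_8`; Jacobi) and `ad y_8` is invertible on `m`, so it vanishes. -/
def SymStmt (S : Setup d F) : Prop := ∀ (dh dm : ℕ) (φ : Spl dh dm d), S.IsSub φ →
  ∀ (ζ v : Cfg dh → Wsp dm → F), Ts S φ ζ → Sm S φ v → ∀ β,
    ∫ p, inner ℂ (Qs S φ β ζ p.1 p.2) (v p.1 p.2) ∂((volume : Measure (Cfg dh)).prod (volume : Measure (Wsp dm))) =
      ∫ p, inner ℂ (ζ p.1 p.2) (Qs S φ β v p.1 p.2) ∂((volume : Measure (Cfg dh)).prod (volume : Measure (Wsp dm)))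

/-- **A10** cutoffs: the commutator with a function is bounded by its gradient. PROOF: Leibniz rule, A4 bounds. -/
def CutStmt (S : Setup d F) : Prop := ∀ (dh dm : ℕ) (φ : Spl dh dm d) (y₀ : Cfg dh), Std S φ y₀ →
  ∃ ε C : ℝ, 0 < ε ∧ 0 < C ∧ ∀ (R : ℝ) (y : Cfg dh) (w : Wsp dm), 0 < R → ‖y - R • y₀‖ < ε * R → ‖w‖ < ε * R →
    ∀ (χ : Cfg dh × Wsp dm → ℝ) (v : Cfg dh → Wsp dm → F), ContDiff ℝ ∞ χ → Sm S φ v → ∀ β,
      ‖Qs S φ β (fun y' w' => ((χ (y', w') : ℝ) : ℂ) • v y' w') y w - ((χ (y, w) : ℝ) : ℂ) • Qs S φ β v y w‖ ≤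
        C * ‖fderiv ℝ χ (y, w)‖ * ‖v y w‖

end Vale.Agent.P353.Z.AN
end

section

/-! # P353, all `N`, block C: crude bound on the slice — definitions

Slice functions are `v : Cfg dh → Wsp dm → F` (curried). `Y : Cfg dh` is the reference point (`AN.Std S φ Y`), `R` the scale.
`N` is the mass operator in the given frame (`N_i = a_i γ^i Γ` in the standard frame). Norms are with respect to
`dy dw` (the square root of the density is in `res`). -/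

open MeasureTheory Filter Topology
open scoped ContDiff

namespace Vale.Agent.P353.Z

variable {d dh dm : ℕ} {F : Type*} [NormedAddCommGroup F] [InnerProductSpace ℂ F]

/-- test functions on the slice -/
def Tst2 (v : Cfg dh → Wsp dm → F) : Prop :=
  ContDiff ℝ ∞ (fun p : Cfg dh × Wsp dm => v p.1 p.2) ∧
    HasCompactSupport (fun p : Cfg dh × Wsp dm => v p.1 p.2)

/-- squared `L²` norm on the slice -/
noncomputable def ns2 {E : Type*} [NormedAddCommGroup E] (v : Cfg dh → Wsp dm → E) : ℝ :=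
  ∫ p, ‖v p.1 p.2‖ ^ 2 ∂((volume : Measure (Cfg dh)).prod (volume : Measure (Wsp dm)))

/-- `L²` inner product on the slice -/
noncomputable def ip2 (u v : Cfg dh → Wsp dm → F) : ℂ :=
  ∫ p, inner ℂ (u p.1 p.2) (v p.1 p.2) ∂((volume : Measure (Cfg dh)).prod (volume : Measure (Wsp dm)))

/-- multiplication with a real function on the slice -/
noncomputable def mul2 (c : Cfg dh → Wsp dm → ℝ) (v : Cfg dh → Wsp dm → F) (y : Cfg dh) (w : Wsp dm) : F :=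
  ((c y w : ℝ) : ℂ) • v y w

/-- multiplication with the coordinate `w_k` -/
noncomputable def mw (k : Fin 8 × Fin dm) (v : Cfg dh → Wsp dm → F) : Cfg dh → Wsp dm → F :=
  mul2 (fun _ w => w k) v

/-- support in the tube of width `ε R` about `R Y` -/
def Sup2 (Y : Cfg dh) (ε R : ℝ) (v : Cfg dh → Wsp dm → F) : Prop :=
  ∀ y w, v y w ≠ 0 → ‖y - R • Y‖ ≤ ε * R ∧ ‖w‖ ≤ ε * R

/-- `∫∫ |∂_w v|²` -/
noncomputable def D2w (v : Cfg dh → Wsp dm → F) : ℝ := ∑ j, ∑ B, ns2 (pw j B v)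

/-- `∫∫ |∂_y v|²` -/
noncomputable def D2y (v : Cfg dh → Wsp dm → F) : ℝ := ∑ i, ∑ A, ns2 (py i A v)

/-- `∫∫ |w|² |v|²` -/
noncomputable def W2 (v : Cfg dh → Wsp dm → F) : ℝ := ns2 (mul2 (fun _ w => ‖w‖) v)

/-- even part in `w` -/
noncomputable def evp (v : Cfg dh → Wsp dm → F) (y : Cfg dh) (w : Wsp dm) : F :=
  (1 / 2 : ℂ) • (v y w + v y (-w))

/-- odd part in `w` -/
noncomputable def odp (v : Cfg dh → Wsp dm → F) (y : Cfg dh) (w : Wsp dm) : F :=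
  (1 / 2 : ℂ) • (v y w - v y (-w))

namespace Setup

variable (S : Setup d F)

/-- the nine matrices `D_i(y)` -/
noncomputable abbrev DY (φ : Spl dh dm d) (y : Cfg dh) : Fin 9 → Matrix (Fin dm) (Fin dm) ℝ := fun i => S.Dy φ i y

/-- admissible mass operators: real, `tr γ^i N_jᵀ = 0`, `∑ y_i y_j tr N_i N_jᵀ ≥ 16 |y|²`. -/
structure IsMass (N : Fin 9 → Matrix (Fin 16) (Fin 16) ℂ) : Prop where
  real : ∀ i α β, (N i α β).im = 0
  tr : ∀ i j, (S.g i * (N j).transpose).trace = 0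
  pos : ∀ y : Fin 9 → ℝ, 16 * ∑ i, y i ^ 2 ≤ ∑ i, ∑ j, y i * y j * ((N i * (N j).transpose).trace).re

/-- mass operator, `h` part -/
noncomputable def Mh (φ : Spl dh dm d) (N : Fin 9 → Matrix (Fin 16) (Fin 16) ℂ) (β : Fin 16) (y : Cfg dh) :
    F →L[ℂ] F :=
  ∑ i, ∑ A, ((y (i, A) : ℝ) : ℂ) • S.vec (N i) (φ (Sum.inl A)) β

/-- mass operator, `m` part -/
noncomputable def Mw (φ : Spl dh dm d) (N : Fin 9 → Matrix (Fin 16) (Fin 16) ℂ) (β : Fin 16) (w : Wsp dm) :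
    F →L[ℂ] F :=
  ∑ i, ∑ B, ((wt w i B : ℝ) : ℂ) • S.vec (N i) (φ (Sum.inr B)) β

/-- mass operator on `Cfg d` in the frame with mass matrices `N` -/
noncomputable def Mx (N : Fin 9 → Matrix (Fin 16) (Fin 16) ℂ) (β : Fin 16) (x : Cfg d) : F →L[ℂ] F :=
  ∑ i, ∑ A, ((x (i, A) : ℝ) : ℂ) • S.vec (N i) A β

/-- block diagonal supercharge with mass -/
noncomputable def Qhm (φ : Spl dh dm d) (N : Fin 9 → Matrix (Fin 16) (Fin 16) ℂ) (m : ℝ) (β : Fin 16)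
    (v : Cfg dh → Wsp dm → F) (y : Cfg dh) (w : Wsp dm) : F :=
  S.Qh φ β v y w + (m : ℂ) • S.Mh φ N β y (v y w)

/-- full supercharge on the slice with mass -/
noncomputable def QS (φ : Spl dh dm d) (N : Fin 9 → Matrix (Fin 16) (Fin 16) ℂ) (m : ℝ) (β : Fin 16)
    (v : Cfg dh → Wsp dm → F) (y : Cfg dh) (w : Wsp dm) : F :=
  S.Qhm φ N m β v y w + S.Q1 φ β v y w + (S.Qr φ β v y w + (m : ℂ) • S.Mw φ N β w (v y w))

/-- `∑_β ∫∫ |Q^h_β v|²` (with mass) -/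
noncomputable def EH (φ : Spl dh dm d) (N : Fin 9 → Matrix (Fin 16) (Fin 16) ℂ) (m : ℝ)
    (v : Cfg dh → Wsp dm → F) : ℝ := ∑ β, ns2 (S.Qhm φ N m β v)

/-- `∑_β ∫∫ |Q¹_β v|²` -/
noncomputable def E1 (φ : Spl dh dm d) (v : Cfg dh → Wsp dm → F) : ℝ := ∑ β, ns2 (S.Q1 φ β v)

/-- `∑_β ∫∫ |Q_β v|²` (with mass) -/
noncomputable def ES (φ : Spl dh dm d) (N : Fin 9 → Matrix (Fin 16) (Fin 16) ℂ) (m : ℝ)
    (v : Cfg dh → Wsp dm → F) : ℝ := ∑ β, ns2 (S.QS φ N m β v)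

/-- fibre facts (F1, F3 of block B) near the reference point `Y`, uniform in the scale `R` -/
structure FibFacts (φ : Spl dh dm d) (Y : Cfg dh) (ε0 C : ℝ) : Prop where
  F1 : ∀ R : ℝ, 0 < R → ∀ y : Cfg dh, ‖y - R • Y‖ ≤ ε0 * R → ∀ f : Wsp dm → F, FT f →
    (∑ j, ∑ B, nsf (pf j B f)) + R ^ 2 * nsf (fun w => ((‖w‖ : ℝ) : ℂ) • f w) ≤
      C * (S.e1 φ (S.DY φ y) f + R * nsf f)
  F3 : ∀ R : ℝ, 0 < R → ∀ y : Cfg dh, ‖y - R • Y‖ ≤ ε0 * R → ∀ f : Wsp dm → F, FT f →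
    (∀ w, f (-w) = -f w) → R * nsf f ≤ C * S.e1 φ (S.DY φ y) f

/-- bounds for the coefficients near `R Y`, uniform in the scale `R` -/
structure CoefBd (φ : Spl dh dm d) (Y : Cfg dh) (ε0 C : ℝ) : Prop where
  det : ∀ R : ℝ, 0 < R → ∀ y : Cfg dh, ‖y - R • Y‖ ≤ ε0 * R → (S.Dy φ 8 y).det ≠ 0
  dy : ∀ R : ℝ, 0 < R → ∀ y : Cfg dh, ‖y - R • Y‖ ≤ ε0 * R → ∀ i B E, |S.Dy φ i y B E| ≤ C * R
  inv : ∀ R : ℝ, 0 < R → ∀ y : Cfg dh, ‖y - R • Y‖ ≤ ε0 * R → ∀ B E, |(S.Dy φ 8 y)⁻¹ B E| ≤ C / R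
  dcf : ∀ R : ℝ, 0 < R → ∀ y : Cfg dh, ‖y - R • Y‖ ≤ ε0 * R → ∀ (j : Fin 9) (B E : Fin dm) (i : Fin 9) (A : Fin dh),
    |fderiv ℝ (fun y' => ((S.Dy φ 8 y')⁻¹ * S.Dy φ j y') B E) y (EuclideanSpace.single (i, A) 1)| ≤ C / R
  rem : ∀ R : ℝ, 0 < R → ∀ y : Cfg dh, ‖y - R • Y‖ ≤ ε0 * R → ∀ w : Wsp dm, ‖w‖ ≤ ε0 * R →
    ∀ (v : Cfg dh → Wsp dm → F) (β : Fin 16), ‖S.Qr φ β v y w‖ ≤
      C * (‖w‖ / R * ((∑ i, ∑ A, ‖py i A v y w‖) + ∑ j, ∑ B, ‖pw j B v y w‖) + (1 / R + ‖w‖ ^ 2) * ‖v y w‖)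

end Setup

end Vale.Agent.P353.Z
end

section

/-! # P353, all `N`, block E: limit equation — definitions

`φ : Spl dh dm d` splits `g = h + m`, `ψ : Spl r ds dh` splits `h = z + s` (`z` central in `h`). Points of `h`: `cmb ψ y s`. -/

open MeasureTheory Filter Topology Matrix
open scoped ContDiff

namespace Vale.Agent.P353.Z

variable {d dh dm r ds : ℕ} {F : Type*} [NormedAddCommGroup F] [InnerProductSpace ℂ F]

/-- point of `h` with centre part `y` and internal part `s` -/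
noncomputable def cmb (ψ : Spl r ds dh) (y : Cfg r) (s : Cfg ds) : Cfg dh :=
  WithLp.toLp 2 fun p => Sum.elim (fun a => y (p.1, a)) (fun b => s (p.1, b)) (ψ.symm p.2)

/-- centre part of a point of `h` -/
noncomputable def zpt (ψ : Spl r ds dh) (x : Cfg dh) : Cfg r := WithLp.toLp 2 fun p => x (p.1, ψ (Sum.inl p.2))

/-- internal part of a point of `h` -/
noncomputable def spt (ψ : Spl r ds dh) (x : Cfg dh) : Cfg ds := WithLp.toLp 2 fun p => x (p.1, ψ (Sum.inr p.2))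

/-- swapped splitting -/
def spsw (ψ : Spl r ds dh) : Spl ds r dh := (Equiv.sumComm (Fin ds) (Fin r)).trans ψ

namespace Setup

variable (S : Setup d F) (φ : Spl dh dm d) (ψ : Spl r ds dh)

/-- the first summand of `ψ` is central in `h` -/
def IsCen : Prop := ∀ a B C, S.f (φ (Sum.inl (ψ (Sum.inl a)))) (φ (Sum.inl B)) (φ (Sum.inl C)) = 0

/-- the internal part is a subalgebra of `h` -/
theorem isSub_int (h : S.IsSub φ) (hc : S.IsCen φ ψ) : (S.sub φ h).IsSub (spsw ψ) := by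
  intro A B C
  have h1 := hc C (ψ (Sum.inr A)) (ψ (Sum.inr B))
  change S.f (φ (Sum.inl (ψ (Sum.inr A)))) (φ (Sum.inl (ψ (Sum.inr B)))) (φ (Sum.inl (ψ (Sum.inl C)))) = 0
  rw [S.f_cyc, S.f_cyc]
  exact h1

/-- the setup of the internal part -/
noncomputable def int (h : S.IsSub φ) (hc : S.IsCen φ ψ) : Setup ds F :=
  (S.sub φ h).sub (spsw ψ) (S.isSub_int φ ψ h hc)

/-- the matrices `D_i(y)` at the central point `y` -/
noncomputable def Dz (y : Cfg r) (i : Fin 9) : Matrix (Fin dm) (Fin dm) ℝ := S.Dy φ i (cmb ψ y 0)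

/-- **vacuum frame** on the open cone `U ⊆ Cfg r`: `Om y` is the frequency matrix at `y`, `V y` a unitary of `F` which maps `K` onto the
fermionic vacuum space at `y`, commutes with the block diagonal fermions and is parallel. -/
structure VFr (U : Set (Cfg r)) (Om : Cfg r → Matrix (Fin dm) (Fin dm) ℝ) (V : Cfg r → F →L[ℂ] F)
    (K : Submodule ℂ F) : Prop where
  opn : IsOpen U
  cone : ∀ y ∈ U, ∀ t : ℝ, 0 < t → t • y ∈ U
  det : ∀ y ∈ U, (S.Dz φ ψ y 8).det ≠ 0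
  om : ∀ y ∈ U, IsOm S.κ (S.Dz φ ψ y) (Om y)
  om_c : ∀ B C, ContDiffOn ℝ ∞ (fun y => Om y B C) U
  om_h : ∀ y ∈ U, ∀ t : ℝ, 0 < t → Om (t • y) = t • Om y
  v_c : ContDiffOn ℝ ∞ V U
  v_h : ∀ y ∈ U, ∀ t : ℝ, 0 < t → V (t • y) = V y
  v_n : ∀ y ∈ U, ∀ v, ‖V y v‖ = ‖v‖
  v_s : ∀ y ∈ U, ∀ w, ∃ v, V y v = w
  v_m : ∀ y ∈ U, ∀ v, v ∈ K ↔ V y v ∈ S.F0 φ (S.Dz φ ψ y) (Om y)
  v_th : ∀ y ∈ U, ∀ α A v, V y (S.th α (φ (Sum.inl A)) v) = S.th α (φ (Sum.inl A)) (V y v)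
  par : ∀ y ∈ U, ∀ i a, ∀ v ∈ K, ∀ v' ∈ K,
    inner ℂ (V y v') (fderiv ℝ V y (EuclideanSpace.single (i, a) 1) v) = 0

/-- normalised bosonic ground state at the central point `y` (scale `1`; homogeneous in `y`) -/
noncomputable def bz (Om : Cfg r → Matrix (Fin dm) (Fin dm) ℝ) (y : Cfg r) (w : Wsp dm) : ℝ :=
  gR (S.Dz φ ψ y) (Om y) 1 w / Real.sqrt (∫ w', gR (S.Dz φ ψ y) (Om y) 1 w' ^ 2)

/-- trial function on the slice at scale `R` for the profile `a(y, s)` (values in `K`), cut off with `c` at `|w| ~ ε R`: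
`R^{-9r/2} c(|w|²/(εR)²) b(y,w) V(y) a(y/R, s)` -/
noncomputable def TR (Om : Cfg r → Matrix (Fin dm) (Fin dm) ℝ) (V : Cfg r → F →L[ℂ] F) (c : ℝ → ℝ) (ε R : ℝ)
    (a : Cfg r → Cfg ds → F) (x : Cfg dh) (w : Wsp dm) : F :=
  (((Real.sqrt R ^ (9 * r))⁻¹ * c (‖w‖ ^ 2 / (ε * R) ^ 2) * S.bz φ ψ Om (zpt ψ x) w : ℝ) : ℂ) •
    V (zpt ψ x) (a (R⁻¹ • zpt ψ x) (spt ψ x))

/-- free supercharge (with mass `μ` and mass matrices `N`) acting on the centre variable of a profile `a(y, s)` -/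
noncomputable def DF (N : Fin 9 → Matrix (Fin 16) (Fin 16) ℂ) (μ : ℝ) (β : Fin 16) (a : Cfg r → Cfg ds → F)
    (y : Cfg r) (s : Cfg ds) : F :=
  (-Complex.I) • ∑ i, ∑ A, S.vec (S.g i) (φ (Sum.inl (ψ (Sum.inl A)))) β (pd i A (fun y' => a y' s) y) +
    (μ : ℂ) • ∑ i, ∑ A, ((y (i, A) : ℝ) : ℂ) • S.vec (N i) (φ (Sum.inl (ψ (Sum.inl A)))) β (a y s)

end Setup

/-- product profile `ζ(y) Φ(s)` -/
noncomputable def pp (ζ : Cfg r → ℂ) (Φ : Cfg ds → F) (y : Cfg r) (s : Cfg ds) : F := ζ y • Φ s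

/-- cutoff functions: `1` on `(-∞, 1/4]`, `0` on `[1, ∞)` -/
structure IsCt (c : ℝ → ℝ) : Prop where
  sm : ContDiff ℝ ∞ c
  one : ∀ t, t ≤ 1 / 4 → c t = 1
  zero : ∀ t, 1 ≤ t → c t = 0
  bd : ∀ t, 0 ≤ c t ∧ c t ≤ 1

end Vale.Agent.P353.Z
end

section

/-! # P353, all `N`, block X2: zero modes with values in a module — definitions (architect helper679)

`Irr` modules, restriction of a setup to an invariant subspace, the space of zero modes of a setup as a Clifford module of the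
remaining fermions. -/

open MeasureTheory Filter Topology Matrix
open scoped ContDiff

namespace Vale.Agent.P353.Z

variable {d d1 d2 : ℕ} {F : Type*} [NormedAddCommGroup F] [InnerProductSpace ℂ F]

/-- restriction of an operator to an invariant subspace -/
noncomputable def opR {E : Type*} [NormedAddCommGroup E] [InnerProductSpace ℂ E] (V : Submodule ℂ E) (T : E →L[ℂ] E)
    (hT : ∀ v ∈ V, T v ∈ V) : V →L[ℂ] V :=
  (T.comp V.subtypeL).codRestrict V fun v => hT v v.2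

@[simp] lemma opR_coe {E : Type*} [NormedAddCommGroup E] [InnerProductSpace ℂ E] (V : Submodule ℂ E) (T : E →L[ℂ] E)
    (hT : ∀ v ∈ V, T v ∈ V) (v : V) : ((opR V T hT v : V) : E) = T v := rfl

lemma opR_anti {E : Type*} [NormedAddCommGroup E] [InnerProductSpace ℂ E] (V : Submodule ℂ E) (T T' : E →L[ℂ] E)
    (hT : ∀ v ∈ V, T v ∈ V) (hT' : ∀ v ∈ V, T' v ∈ V) (p : Prop) [Decidable p]
    (h : ∀ v ∈ V, T (T' v) + T' (T v) = if p then v else 0) :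
    opR V T hT * opR V T' hT' + opR V T' hT' * opR V T hT = if p then 1 else 0 := by
  ext1 v
  apply Subtype.ext
  have h1 := h v v.2
  have h2 : (((opR V T hT * opR V T' hT' + opR V T' hT' * opR V T hT) v : V) : E) = T (T' v) + T' (T v) := rfl
  rw [h2, h1]
  by_cases hp : p
  · simp only [if_pos hp]
    rfl
  · simp only [if_neg hp]
    rfl

namespace Setup

/-- restriction of a setup to an invariant subspace of the fermion space -/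
noncomputable def rst (S : Setup d F) (V : Submodule ℂ F) (hV : ∀ α A, ∀ v ∈ V, S.th α A v ∈ V) : Setup d V where
  g := S.g
  g_symm := S.g_symm
  g_anti := S.g_anti
  th := fun α A => opR V (S.th α A) (hV α A)
  th_anti := by
    intro α A β B
    refine opR_anti V _ _ (hV α A) (hV β B) _ fun v _ => ?_
    have h : (S.th α A * S.th β B + S.th β B * S.th α A) v = (if α = β ∧ A = B then (1 : F →L[ℂ] F) else 0) v := by
      rw [S.th_anti]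
    have h2 : (S.th α A * S.th β B + S.th β B * S.th α A) v = S.th α A (S.th β B v) + S.th β B (S.th α A v) := rfl
    rw [← h2, h]
    by_cases hab : α = β ∧ A = B
    · simp [hab]
    · simp [hab]
  κ := S.κ
  κ_pos := S.κ_pos
  f := S.f
  f_swap := S.f_swap
  f_cyc := S.f_cyc
  f_jac := S.f_jac
  g_real := S.g_real
  th_sa := fun α A v w => S.th_sa α A v w

/-- the zero modes with values in `K0`, as a subspace of `L²` -/
noncomputable def zms (S : Setup d F) (K0 : Submodule ℂ F) : Submodule ℂ (Lp F 2 (volume : Measure (Cfg d))) :=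
  Submodule.span ℂ {Ψ | S.IsZM Ψ ∧ ∀ᵐ x ∂(volume : Measure (Cfg d)), Ψ x ∈ K0}

/-- pointwise action of an operator on `L²` functions -/
noncomputable def pwa (d : ℕ) (T : F →L[ℂ] F) :
    Lp F 2 (volume : Measure (Cfg d)) →L[ℂ] Lp F 2 (volume : Measure (Cfg d)) := T.compLpL 2 volume

lemma pwa_ae (T : F →L[ℂ] F) (Ψ : Lp F 2 (volume : Measure (Cfg d))) :
    ∀ᵐ x ∂(volume : Measure (Cfg d)), pwa d T Ψ x = T (Ψ x) := T.coeFn_compLpL Ψ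

lemma pwa_anti (S2 : Setup d2 F) (α : Fin 16) (A : Fin d2) (β : Fin 16) (B : Fin d2)
    (v : Lp F 2 (volume : Measure (Cfg d1))) :
    pwa d1 (S2.th α A) (pwa d1 (S2.th β B) v) + pwa d1 (S2.th β B) (pwa d1 (S2.th α A) v) =
      if α = β ∧ A = B then v else 0 := by
  apply Lp.ext
  have h0 : ∀ᵐ x ∂(volume : Measure (Cfg d1)),
      (if α = β ∧ A = B then v else 0 : Lp F 2 (volume : Measure (Cfg d1))) x = if α = β ∧ A = B then v x else 0 := by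
    by_cases hab : α = β ∧ A = B
    · simp [hab]
    · simp only [if_neg hab]
      exact Lp.coeFn_zero F 2 volume
  filter_upwards [Lp.coeFn_add (pwa d1 (S2.th α A) (pwa d1 (S2.th β B) v)) (pwa d1 (S2.th β B) (pwa d1 (S2.th α A) v)),
    pwa_ae (S2.th α A) (pwa d1 (S2.th β B) v), pwa_ae (S2.th β B) (pwa d1 (S2.th α A) v), pwa_ae (S2.th β B) v,
    pwa_ae (S2.th α A) v, h0] with x e1 e2 e3 e4 e5 e6
  rw [e1, Pi.add_apply, e2, e3, e4, e5, e6]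
  have h : (S2.th α A * S2.th β B + S2.th β B * S2.th α A) (v x) =
      (if α = β ∧ A = B then (1 : F →L[ℂ] F) else 0) (v x) := by
    rw [S2.th_anti]
  have h2 : (S2.th α A * S2.th β B + S2.th β B * S2.th α A) (v x) =
      S2.th α A (S2.th β B (v x)) + S2.th β B (S2.th α A (v x)) := rfl
  rw [← h2, h]
  by_cases hab : α = β ∧ A = B
  · simp [hab]
  · simp [hab]

lemma pwa_sa (S2 : Setup d2 F) (α : Fin 16) (A : Fin d2) (v w : Lp F 2 (volume : Measure (Cfg d1))) :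
    inner ℂ (pwa d1 (S2.th α A) v) w = inner ℂ v (pwa d1 (S2.th α A) w) := by
  rw [MeasureTheory.L2.inner_def, MeasureTheory.L2.inner_def]
  refine integral_congr_ae ?_
  filter_upwards [pwa_ae (S2.th α A) v, pwa_ae (S2.th α A) w] with x e1 e2
  rw [e1, e2, S2.th_sa]

/-- the Clifford system of `S2` acting pointwise on `L²` functions on `Cfg d1` -/
noncomputable def lfa (d1 : ℕ) (S2 : Setup d2 F) : Setup d2 (Lp F 2 (volume : Measure (Cfg d1))) where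
  g := S2.g
  g_symm := S2.g_symm
  g_anti := S2.g_anti
  th := fun α A => pwa d1 (S2.th α A)
  th_anti := by
    intro α A β B
    ext1 v
    have h := pwa_anti S2 α A β B v
    have h2 : (pwa d1 (S2.th α A) * pwa d1 (S2.th β B) + pwa d1 (S2.th β B) * pwa d1 (S2.th α A)) v =
      pwa d1 (S2.th α A) (pwa d1 (S2.th β B) v) + pwa d1 (S2.th β B) (pwa d1 (S2.th α A) v) := rfl
    rw [h2, h]
    by_cases hab : α = β ∧ A = B
    · simp only [if_pos hab]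
      rfl
    · simp only [if_neg hab]
      rfl
  κ := S2.κ
  κ_pos := S2.κ_pos
  f := S2.f
  f_swap := S2.f_swap
  f_cyc := S2.f_cyc
  f_jac := S2.f_jac
  g_real := S2.g_real
  th_sa := fun α A v w => pwa_sa S2 α A v w

/-- the Clifford system of `S2` acting pointwise on a space `Z` of `L²` functions on `Cfg d1` -/
noncomputable def lft (S2 : Setup d2 F) (Z : Submodule ℂ (Lp F 2 (volume : Measure (Cfg d1))))
    (hZ : ∀ α A, ∀ Ψ ∈ Z, pwa d1 (S2.th α A) Ψ ∈ Z) : Setup d2 Z := (lfa d1 S2).rst Z hZ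

end Setup

/-- the zero mode of `S` exists and is unique up to a factor -/
def OneD (S : Setup d F) : Prop := ∃ Ψ₀ : Lp F 2 (volume : Measure (Cfg d)), S.IsZM Ψ₀ ∧ Ψ₀ ≠ 0 ∧
  ∀ Ψ : Lp F 2 (volume : Measure (Cfg d)), S.IsZM Ψ → ∃ c : ℂ, Ψ = c • Ψ₀

/-- `OneD` for all irreducible modules of the Lie algebra with structure constants `f` -/
def OneA.{u} (κ : ℝ) (f : Fin d → Fin d → Fin d → ℝ) : Prop :=
  ∀ (E : Type u) [NormedAddCommGroup E] [InnerProductSpace ℂ E] (_ : FiniteDimensional ℂ E) (S : Setup d E),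
    S.f = f → S.κ = κ → S.Irr → (∃ v : E, v ≠ 0) → OneD S

/-- vectors of `K0` annihilated by the `Γ`-annihilators of all colours of `S` -/
def vca (S : Setup d F) (K0 : Submodule ℂ F) : Submodule ℂ F where
  carrier := {v | v ∈ K0 ∧ ∀ A α, S.amF A α v = 0}
  add_mem' := fun {a b} ha hb => ⟨K0.add_mem ha.1 hb.1, fun A α => by rw [map_add, ha.2, hb.2, add_zero]⟩
  zero_mem' := ⟨K0.zero_mem, fun A α => map_zero _⟩
  smul_mem' := fun c a ha => ⟨K0.smul_mem c ha.1, fun A α => by rw [map_smul, ha.2, smul_zero]⟩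

/-- `K0` is an irreducible module of the fermions of `S` -/
structure IrrOn (S : Setup d F) (K0 : Submodule ℂ F) : Prop where
  inv : ∀ α A, ∀ v ∈ K0, S.th α A v ∈ K0
  ne : K0 ≠ ⊥
  irr : ∀ W : Submodule ℂ F, W ≤ K0 → (∀ α A, ∀ v ∈ W, S.th α A v ∈ W) → W = ⊥ ∨ W = K0

/-- two Clifford systems on the same space: all fermions anticommute, same gamma matrices -/
structure Ant (S1 : Setup d1 F) (S2 : Setup d2 F) : Prop where
  g : S1.g = S2.g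
  anti : ∀ α A β B, S1.th α A * S2.th β B + S2.th β B * S1.th α A = 0

/-- the two Clifford systems act irreducibly on `K0` together -/
structure IrrOn2 (S1 : Setup d1 F) (S2 : Setup d2 F) (K0 : Submodule ℂ F) : Prop where
  inv1 : ∀ α A, ∀ v ∈ K0, S1.th α A v ∈ K0
  inv2 : ∀ α A, ∀ v ∈ K0, S2.th α A v ∈ K0
  ne : K0 ≠ ⊥
  irr : ∀ W : Submodule ℂ F, W ≤ K0 → (∀ α A, ∀ v ∈ W, S1.th α A v ∈ W) → (∀ α A, ∀ v ∈ W, S2.th α A v ∈ W) →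
    W = ⊥ ∨ W = K0

end Vale.Agent.P353.Z
end

section

/-! # P353, all `N`, block X2: zero modes with values in a module — statements (architect helper679)

A prover delivers the theorem named in the task in `Vale/Agent/P353/AN/X2/<File>.lean`, importing this file and landed files of `Z`,
`Z/U`, `AN`, with other statements as hypotheses. -/

open MeasureTheory Filter Topology Matrix
open scoped ContDiff

namespace Vale.Agent.P353.Z.AX2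

universe u

/-- **X2-Zms** PROOF. The set `{Ψ | IsZM Ψ ∧ Ψ ∈ K0 a.e.}` contains `0` and is closed under sums and multiples (add the approximants;
`∫‖(u+v) - (Ψ+Φ)‖² ≤ 2∫‖u-Ψ‖² + 2∫‖v-Φ‖²`, `Q_β`, `G_C` are linear on test functions; `Lp.coeFn_add`, `Lp.coeFn_smul`). -/
def ZmsStmt {d : ℕ} {F : Type u} [NormedAddCommGroup F] [InnerProductSpace ℂ F] (S : Setup d F) : Prop :=
  ∀ (K0 : Submodule ℂ F) (Ψ : Lp F 2 (volume : Measure (Cfg d))),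
    Ψ ∈ S.zms K0 ↔ S.IsZM Ψ ∧ ∀ᵐ x ∂(volume : Measure (Cfg d)), Ψ x ∈ K0

/-- **X2-Rst** zero modes of the restricted setup are the zero modes with values in `V`.
PROOF. `→`: compose the approximants with the inclusion. `←`: compose the approximants with the orthogonal projection onto `V` (it commutes
with all `S.th`, because `V` is invariant and `th` is self-adjoint). -/
def RstStmt {d : ℕ} {F : Type u} [NormedAddCommGroup F] [InnerProductSpace ℂ F] (S : Setup d F) : Prop :=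
  FiniteDimensional ℂ F → ∀ (V : Submodule ℂ F) (hV : ∀ α A, ∀ v ∈ V, S.th α A v ∈ V),
    (∀ Ψ : Lp V 2 (volume : Measure (Cfg d)), (S.rst V hV).IsZM Ψ ↔ S.IsZM (V.subtypeL.compLpL 2 volume Ψ)) ∧
    ∀ Φ : Lp F 2 (volume : Measure (Cfg d)), (∀ᵐ x ∂(volume : Measure (Cfg d)), Φ x ∈ V) →
      ∃ Ψ : Lp V 2 (volume : Measure (Cfg d)), Φ = V.subtypeL.compLpL 2 volume Ψ

/-- **X2-ZInv** the other fermions act on the zero modes. PROOF. `T = S2.th α A` anticommutes with every `S1.th`, so `S1.Q β (T u) = -T (S1.Q β u)`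
(`S1.W` is linear in `S1.th`), and `S1.G C (T u) = T (S1.G C u)` (`cS` is bilinear). -/
def ZInvStmt {d1 d2 : ℕ} {F : Type u} [NormedAddCommGroup F] [InnerProductSpace ℂ F] (S1 : Setup d1 F) (S2 : Setup d2 F) :
    Prop := Ant S1 S2 → ∀ K0 : Submodule ℂ F, (∀ α A, ∀ v ∈ K0, S2.th α A v ∈ K0) →
  ∀ α A, ∀ Ψ ∈ S1.zms K0, Setup.pwa d1 (S2.th α A) Ψ ∈ S1.zms K0

/-- **X2-Vex** a nonzero module (any dimension) contains a `Γ`-vacuum vector: `U.Vac_exists` with the isotropic space spanned by the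
rows of `1 - iΓ` in every colour, as in `AN/F/Vac.lean`. -/
def VexStmt {d : ℕ} {E : Type u} [NormedAddCommGroup E] [InnerProductSpace ℂ E] (S : Setup d E) : Prop :=
  (∃ v : E, v ≠ 0) → ∃ v : E, v ≠ 0 ∧ ∀ A α, S.amF A α v = 0

/-- **X2-VcaIrr** the vacuum space of the second system is irreducible for the first one, and the joint vacuum is a line.
PROOF. Let `J = {v ∈ K0 : S1.amF v = S2.amF v = 0}`; `J` is a line (`U.Vac_unique` for the irreducible module `K0` of all fermions: combine both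
systems into one setup on `K0` with `d1 + d2` colours and `f = 0`; or repeat the proof). If `W ≠ ⊥` is an `S1`-submodule of `V = vca S2 K0`, then `W` contains an
`S1`-vacuum vector (X2-Vex for `S1.rst W`), which lies in `J`; the orthogonal complement of `W` in `V` is a submodule too, if it were `≠ ⊥` it would
contain `J` as well: contradiction. `V` is `S1`-invariant since `S1.th` anticommutes with `S2.amF`. `V ≠ ⊥` by X2-Vex. -/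
def VcaIrrStmt {d1 d2 : ℕ} {F : Type u} [NormedAddCommGroup F] [InnerProductSpace ℂ F] (S1 : Setup d1 F) (S2 : Setup d2 F) :
    Prop := FiniteDimensional ℂ F → Ant S1 S2 → ∀ K0 : Submodule ℂ F, IrrOn2 S1 S2 K0 →
  IrrOn S1 (vca S2 K0) ∧ ∃ ζ ∈ vca S2 K0, ‖ζ‖ = 1 ∧ (∀ A α, S1.amF A α ζ = 0) ∧
    ∀ v ∈ vca S2 K0, (∀ A α, S1.amF A α v = 0) → ∃ c : ℂ, v = c • ζ

/-- **X2-Zvc** vacuum vectors of the lifted system = zero modes with values in the vacuum space. PROOF: `amF` is a linear combination of `th`,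
`pwa` is pointwise, countably (finitely) many a.e. conditions. -/
def ZvcStmt {d1 d2 : ℕ} {F : Type u} [NormedAddCommGroup F] [InnerProductSpace ℂ F] (S1 : Setup d1 F) (S2 : Setup d2 F) :
    Prop := ZmsStmt S1 → ∀ (K0 : Submodule ℂ F) (hZ : ∀ α A, ∀ Ψ ∈ S1.zms K0, Setup.pwa d1 (S2.th α A) Ψ ∈ S1.zms K0) (Ψ : S1.zms K0),
  (∀ A α, (S2.lft (S1.zms K0) hZ).amF A α Ψ = 0) ↔
    (Ψ : Lp F 2 (volume : Measure (Cfg d1))) ∈ S1.zms (vca S2 K0)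

/-- output for a space of zero modes as a module -/
structure ZOut {d1 d2 : ℕ} {F : Type u} [NormedAddCommGroup F] [InnerProductSpace ℂ F] (S1 : Setup d1 F) (S2 : Setup d2 F)
    (K0 : Submodule ℂ F) (hZ : ∀ α A, ∀ Ψ ∈ S1.zms K0, Setup.pwa d1 (S2.th α A) Ψ ∈ S1.zms K0) : Prop where
  fin : FiniteDimensional ℂ (S1.zms K0)
  irr : (S2.lft (S1.zms K0) hZ).Irr
  vac : ∃ k : S1.zms K0, ‖k‖ = 1 ∧ (∀ A α, (S2.lft (S1.zms K0) hZ).amF A α k = 0) ∧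
    ∀ w : S1.zms K0, (∀ A α, (S2.lft (S1.zms K0) hZ).amF A α w = 0) → ∃ c : ℂ, w = c • k

/-- **X2-Zirr** the space of zero modes is an irreducible module of the other fermions. PROOF. `Z = S1.zms K0`. Its vacuum vectors are the zero modes with
values in `V = vca S2 K0` (X2-Zvc), a line by `OneD (S1.rst V _)` (X2-Rst). Let `W` = the submodule generated by the vacuum vector `k` (image of the finite
dimensional algebra generated by the `S2.th`): finite dimensional, hence `Z = W ⊕ W^⊥`, `W^⊥` is a submodule; if `W^⊥ ≠ 0` it contains a vacuum vector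
(X2-Vex), i.e. `k`: contradiction. The same argument for an arbitrary submodule. -/
def ZirrStmt {d1 d2 : ℕ} {F : Type u} [NormedAddCommGroup F] [InnerProductSpace ℂ F] (S1 : Setup d1 F) (S2 : Setup d2 F) :
    Prop := FiniteDimensional ℂ F → Ant S1 S2 → ∀ (K0 : Submodule ℂ F), IrrOn2 S1 S2 K0 →
  ∀ hV : ∀ α A, ∀ v ∈ vca S2 K0, S1.th α A v ∈ vca S2 K0, OneD (S1.rst (vca S2 K0) hV) →
  ∀ hZ : ∀ α A, ∀ Ψ ∈ S1.zms K0, Setup.pwa d1 (S2.th α A) Ψ ∈ S1.zms K0, ZOut S1 S2 K0 hZ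

/-- the structure constants `f` are the direct sum of `f1` and `f2` -/
structure DSum {d d1 d2 : ℕ} (ψ : Spl d1 d2 d) (f : Fin d → Fin d → Fin d → ℝ) (f1 : Fin d1 → Fin d1 → Fin d1 → ℝ)
    (f2 : Fin d2 → Fin d2 → Fin d2 → ℝ) : Prop where
  e1 : ∀ A B C, f (ψ (Sum.inl A)) (ψ (Sum.inl B)) (ψ (Sum.inl C)) = f1 A B C
  e2 : ∀ A B C, f (ψ (Sum.inr A)) (ψ (Sum.inr B)) (ψ (Sum.inr C)) = f2 A B C
  m1 : ∀ A B C, f (ψ (Sum.inl A)) (ψ (Sum.inl B)) (ψ (Sum.inr C)) = 0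
  m2 : ∀ A B C, f (ψ (Sum.inr A)) (ψ (Sum.inr B)) (ψ (Sum.inl C)) = 0

/-- **X2-Fub** zero modes of a direct sum = zero modes of the second summand with values in the zero modes of the first.
PROOF. `x = (x_1, x_2)` (coordinates `ψ`; measure preserving, cf. `AN/A/Coo.lean`). `Q_β = Q^{(1)}_β + Q^{(2)}_β` and `Q^{(1)}_βQ^{(2)}_β + Q^{(2)}_βQ^{(1)}_β = 0`, both
symmetric: `‖Q_βu‖² = ‖Q^{(1)}_βu‖² + ‖Q^{(2)}_βu‖²` for test functions. Let `Ψ` be a zero mode, `u_n` its approximants; `Z` = zero modes of `S1` (`K0 = ⊤`), orthonormal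
basis `ω_j`. For a subsequence and a.e. `x_2` (Fubini) `u_n(·,x_2) → Ψ(·,x_2)` in `L²`, `Q^{(1)}_βu_n(·,x_2) → 0`, so `Ψ(·,x_2) ∈ Z`. The functions
`c_n(x_2) = ∑_j⟨ω_j, u_n(·,x_2)⟩ω_j ∈ Z` are test functions, `G^{(2)}c_n = 0`, `Q^{(2)}_βc_n → 0` (`S2.th` is self-adjoint, preserves `Z`, acts on `Z` by `lft`),
`c_n → Ψ`: so `x_2 ↦ Ψ(·,x_2)` is a zero mode of `lft S2 Z`, unique up to a factor. EXISTENCE: let `c` be the zero mode of `lft S2 Z`, `c_n` its approximants, `ω_j^{(k)}` approximants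
of `ω_j` (chosen such that `S2.th` and `G^{(2)}` act on them by the same matrices as on the `ω_j`: take `ω^{(k)}` of the vacuum vector `k` of `Z` (with values in `vca S2 ⊤`) and
`ω_j^{(k)} = X_j ω^{(k)}` with `X_j` in the algebra generated by `S2.th`, `ω_j = X_jk`; relations hold on `vca S2 ⊤` because a relation `Xk = 0` implies `Xv = 0` for all
`v ∈ vca S2 ⊤`: `‖Xv‖² = ⟨v,X*Xv⟩` is `‖v‖²` times a universal number). Then `u = ∑_j⟨ω_j,c_n(x_2)⟩ω_j^{(k)}(x_1)` are approximants. -/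
def FubStmt : Prop := ∀ (d d1 d2 : ℕ) (F : Type u) [NormedAddCommGroup F] [InnerProductSpace ℂ F] (_ : FiniteDimensional ℂ F)
  (S : Setup d F) (S1 : Setup d1 F) (S2 : Setup d2 F) (ψ : Spl d1 d2 d), S.Irr → (∃ v : F, v ≠ 0) →
  DSum ψ S.f S1.f S2.f → S1.κ = S.κ → S2.κ = S.κ → S1.g = S.g → S2.g = S.g →
  (∀ α A, S1.th α A = S.th α (ψ (Sum.inl A))) → (∀ α A, S2.th α A = S.th α (ψ (Sum.inr A))) →
  ∀ hZ : ∀ α A, ∀ Ψ ∈ S1.zms ⊤, Setup.pwa d1 (S2.th α A) Ψ ∈ S1.zms ⊤, ZOut S1 S2 ⊤ hZ →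
    OneD (S2.lft (S1.zms ⊤) hZ) → OneD S

/-- **X2-Prod** PROOF: `S1 = S.sub ψ`, `S2 = S.sub (swapped ψ)`, X2-VcaIrr (`K0 = ⊤`), `OneA f1` for `S1.rst (vca S2 ⊤)`, X2-ZInv, X2-Zirr, `OneA f2` for
`lft S2 Z`, X2-Fub. -/
def ProdStmt : Prop := ∀ (d d1 d2 : ℕ) (κ : ℝ) (f : Fin d → Fin d → Fin d → ℝ) (f1 : Fin d1 → Fin d1 → Fin d1 → ℝ)
  (f2 : Fin d2 → Fin d2 → Fin d2 → ℝ) (ψ : Spl d1 d2 d), DSum ψ f f1 f2 → OneA.{u} κ f1 → OneA.{u} κ f2 → OneA.{u} κ f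

/-- **X2-Zero** no colours: `OneD` holds trivially (`Cfg 0` is a point with Dirac measure; irreducible modules are one dimensional). -/
def ZeroStmt : Prop := ∀ (κ : ℝ) (f : Fin 0 → Fin 0 → Fin 0 → ℝ), OneA.{u} κ f

/-- the setup of the centre of `h` -/
noncomputable def czs {d dh dm ds dz : ℕ} {F : Type u} [NormedAddCommGroup F] [InnerProductSpace ℂ F] {S : Setup d F} {φ : Spl dh dm d}
    {ψ : Spl ds dz dh} {z₀ : Cfg dz} (h : AD.Std2 S φ ψ z₀) : Setup dz F :=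
  (S.sub φ h.std.sub).sub (spsw ψ) (fun A _ _ => h.cen A _ _)

/-- **X2-Main** OUTPUT: for a standard position and a vacuum bundle with typical fibre `K`: the zero modes of the semisimple part with values in `K` form a finite
dimensional irreducible module of the fermions of the centre, with one vacuum line. PROOF: `S1 = h.ss`, `S2 = czs h`, `K0 = K` (`Bun.K_th`, `K_ne`, `K_irr` give `IrrOn2`),
X2-VcaIrr, `OneA` for `S1.rst (vca S2 K)`, X2-ZInv, X2-Zirr. -/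
def X2Stmt : Prop := ∀ (d dh dm ds dz : ℕ) (F : Type u) [NormedAddCommGroup F] [InnerProductSpace ℂ F] (_ : FiniteDimensional ℂ F)
  (S : Setup d F) (φ : Spl dh dm d) (ψ : Spl ds dz dh) (z₀ : Cfg dz) (h : AD.Std2 S φ ψ z₀), S.Irr → (∃ v : F, v ≠ 0) →
  ∀ (L : Finset (Fin dz → ℝ)) (Om : Cfg dz → Matrix (Fin dm) (Fin dm) ℝ) (K : Submodule ℂ F) (U : Cfg dz → F →L[ℂ] F),
  AX.Bun S φ (AX.Mz S φ ψ) L Om K U → OneA.{u} S.κ h.ss.f →
  ∃ hZ : ∀ α A, ∀ Ψ ∈ h.ss.zms K, Setup.pwa ds ((czs h).th α A) Ψ ∈ h.ss.zms K, ZOut h.ss (czs h) K hZ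

end Vale.Agent.P353.Z.AX2
end

section

/-! # P353, all `N`, block A: tube coordinates — leaves of `TubeStmt` -/

open MeasureTheory Filter Topology
open scoped ContDiff

namespace Vale.Agent.P353.Z.AN

variable {d dh dm : ℕ} {F : Type*} [NormedAddCommGroup F] [InnerProductSpace ℂ F]

/-- coordinates `z_8^{inr B}` -/
noncomputable def zm (φ : Spl dh dm d) (z : Cfg d) : EuclideanSpace ℝ (Fin dm) :=
  WithLp.toLp 2 fun B => z (8, φ (Sum.inr B))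

/-- coordinates `z_i^{inl A}` -/
noncomputable def zy (φ : Spl dh dm d) (z : Cfg d) : Cfg dh :=
  WithLp.toLp 2 fun p => z (p.1, φ (Sum.inl p.2))

/-- coordinates `z_j^{inr B}`, `j < 8` -/
noncomputable def zw (φ : Spl dh dm d) (z : Cfg d) : Wsp dm :=
  WithLp.toLp 2 fun p => z (p.1.castSucc, φ (Sum.inr p.2))

/-- tube coordinates on `Cfg d` (`a = z_8|_m`) -/
noncomputable def tz (S : Setup d F) (φ : Spl dh dm d) (z : Cfg d) : Cfg d := tub S φ (zm φ z) (zy φ z, zw φ z)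

/-- `ω_a(α) = ∫_0^1 exp(-τ ad a) α dτ` -/
noncomputable def om (S : Setup d F) (a α : Fin d → ℝ) : Fin d → ℝ := fun A =>
  ∫ τ in (0 : ℝ)..1, (NormedSpace.exp (-(τ • S.adm a))).mulVec α A

/-- **A5a** derivative of `exp(ad a)`. PROOF. Duhamel: for matrices `exp(A+B) - exp A = ∫_0^1 exp(s(A+B))·B·exp((1-s)A) ds`
(derivative of `s ↦ exp(s(A+B))exp((1-s)A)`), so `d/dt exp(A+tB)|_0 = ∫_0^1 exp(sA)B exp((1-s)A)ds = exp A·∫_0^1 exp(-τA)B exp(τA)dτ`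
(`τ = 1-s`; `exp` is analytic, or dominated convergence). `exp(-τ ad a)·ad α·exp(τ ad a) = ad(exp(-τ ad a)α)`: both sides satisfy the same
linear ODE since `[ad a, ad v] = ad((ad a)v)` (Jacobi); `adm` is linear. Smoothness: `NormedSpace.exp` is analytic. -/
def DexpStmt (S : Setup d F) : Prop :=
  (∀ (a α : Fin d → ℝ) (x : Cfg d), HasDerivAt (fun t : ℝ => ro (NormedSpace.exp (S.adm (a + t • α))) x)
    (ro (NormedSpace.exp (S.adm a)) (ro (S.adm (om S a α)) x)) 0) ∧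
  ContDiff ℝ ∞ (fun p : (Fin d → ℝ) × Cfg d => ro (NormedSpace.exp (S.adm p.1)) p.2) ∧
  (∀ α, Continuous fun a => om S a α) ∧ (∀ a, IsLinearMap ℝ (om S a)) ∧ (∀ α, om S 0 α = α) ∧
  ∀ a, NormedSpace.exp (S.adm a) * (NormedSpace.exp (S.adm a)).transpose = 1

/-- **A5b** Jacobian of the tube coordinates. PROOF (from `DexpStmt`). `D tz(z)ζ = ro(exp(ad a))([ω_a(α), s] + σ)`, `α = exm (zm ζ)`, `a = exm (zm z)`,
`s = emb (zy z) (zw z)`, `σ = emb (zy ζ)(zw ζ)`. `exp(ad a)` is orthogonal, `|det ro(O)| = |det O|^9 = 1`. The map `ζ ↦ [ω_a(α), s] + σ` is the identity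
on the slice directions and its `(8,m)`-block is `∓D_8(y)∘P_mω_a|_m` (`[h,h] ⊂ h` by `IsSub`, `s_8 ∈ h`), so `|det| = J(y)|j(a)|`,
`j(a) = det(P_mω_a|_m)` (matrix `om S (exm a) (exm e_B)` at `φ(inr C)`). -/
def DetStmt (S : Setup d F) : Prop := ∀ (dh dm : ℕ) (φ : Spl dh dm d), S.IsSub φ →
  ContDiff ℝ ∞ (tz S φ) ∧ ∃ j : EuclideanSpace ℝ (Fin dm) → ℝ, Continuous j ∧ j 0 = 1 ∧
    ∀ z, |(fderiv ℝ (tz S φ) z).det| = S.Jd φ (zy φ z) * |j (zm φ z)|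

/-- **A5c** the coordinates are a measure preserving linear isomorphism (a permutation of the coordinates) -/
def CooStmt : Prop := ∀ (d dh dm : ℕ) (φ : Spl dh dm d),
  ∃ e : Cfg d ≃L[ℝ] EuclideanSpace ℝ (Fin dm) × (Cfg dh × Wsp dm), (∀ z, e z = (zm φ z, (zy φ z, zw φ z))) ∧
    MeasurePreserving e volume (volume.prod (volume.prod volume))

/-- **A5d** injectivity, openness, ball at scale 1. PROOF (from `DetStmt`): inverse function theorem at `z₀ = emb φ y₀ 0` (`zm = 0`,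
`tz z₀ = z₀`, `|det D tz(z₀)| = J(y₀) ≠ 0`): a local homeomorphism; take the boxes inside its source. -/
def InjStmt (S : Setup d F) : Prop := ∀ (dh dm : ℕ) (φ : Spl dh dm d) (y₀ : Cfg dh), Std S φ y₀ →
  ∃ ε₀ ρ₀ : ℝ, 0 < ε₀ ∧ 0 < ρ₀ ∧ ∀ ε ρ : ℝ, 0 < ε → ε ≤ ε₀ → 0 < ρ → ρ ≤ ρ₀ → ∃ δ : ℝ, 0 < δ ∧
    IsOpen (Tube S φ y₀ 1 ε ρ) ∧ Metric.ball (emb φ y₀ 0) δ ⊆ Tube S φ y₀ 1 ε ρ ∧
      (∀ a a' p p', ‖a‖ < ρ → ‖a'‖ < ρ → p ∈ Nb y₀ dm 1 ε → p' ∈ Nb y₀ dm 1 ε →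
        tub S φ a p = tub S φ a' p' → a = a' ∧ p = p')

/-- **A5e** assembly. PROOF: `tub a (Rp) = R·tub a p` (so `R = 1` for the topological part); change of variables
`MeasureTheory.lintegral_image_eq_lintegral_abs_det_fderiv_mul` for `tz` on the preimage box (`CooStmt`), `J(y)|j(a)|` splits (Tonelli),
`c = ∫_{|a|<ρ}|j(a)| da > 0` (finite: `j` continuous, bounded on the closed ball). Shrink `ε₀`, `ρ₀` as in A5d. -/
def TubeOfStmt (S : Setup d F) : Prop := DetStmt S → CooStmt → InjStmt S → TubeStmt S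

end Vale.Agent.P353.Z.AN
end

section

/-! # P353, all `N`, block GL: slice functionals = one global functional (COH)

`h = z + s`, `y = cmb ψ η s`; scales `x^z ~ R`, `x^s ~ 1`, `x^m ~ R^{-1/2}` (all nine directions), `a ~ R^{-3/2}`. -/

open MeasureTheory Filter Topology
open scoped ContDiff

namespace Vale.Agent.P353.Z.AN

variable {d dh dm r ds : ℕ} {F : Type*} [NormedAddCommGroup F] [InnerProductSpace ℂ F]

/-- splitting of the colours of `h` -/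
abbrev Spz (r ds dh : ℕ) : Type := Fin r ⊕ Fin ds ≃ Fin dh

/-- the point of `h` with coordinates `η` (in `z`) and `s` -/
noncomputable def cmb (ψ : Spz r ds dh) (η : Cfg r) (s : Cfg ds) : Cfg dh :=
  WithLp.toLp 2 fun p => Sum.elim (fun a => η (p.1, a)) (fun b => s (p.1, b)) (ψ.symm p.2)

/-- `z`-coordinates -/
noncomputable def hz (ψ : Spz r ds dh) (y : Cfg dh) : Cfg r := WithLp.toLp 2 fun p => y (p.1, ψ (Sum.inl p.2))

/-- `s`-coordinates -/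
noncomputable def hs (ψ : Spz r ds dh) (y : Cfg dh) : Cfg ds := WithLp.toLp 2 fun p => y (p.1, ψ (Sum.inr p.2))

/-- `m`-coordinates, all nine directions -/
noncomputable def pm (φ : Spl dh dm d) (x : Cfg d) : Cfg dm := WithLp.toLp 2 fun p => x (p.1, φ (Sum.inr p.2))

/-- `z` is central in `h` -/
def IsZ (S : Setup d F) (φ : Spl dh dm d) (ψ : Spz r ds dh) : Prop :=
  ∀ a B C, S.f (φ (Sum.inl (ψ (Sum.inl a)))) (φ (Sum.inl B)) (φ (Sum.inl C)) = 0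

/-- `D_i(η)` -/
noncomputable def Dz (S : Setup d F) (φ : Spl dh dm d) (ψ : Spz r ds dh) (η : Cfg r) (i : Fin 9) :
    Matrix (Fin dm) (Fin dm) ℝ := S.Dy φ i (cmb ψ η 0)

/-- `X_i = w_i - D_i a` (`w_8 = 0`) -/
noncomputable def xi (D : Fin 9 → Matrix (Fin dm) (Fin dm) ℝ) (w : Wsp dm) (a : EuclideanSpace ℝ (Fin dm)) : Cfg dm :=
  WithLp.toLp 2 fun p => wt w p.1 p.2 - ∑ C, D p.1 p.2 C * a C

/-- the global functional: `Z^b_R(x) = R^{3dm - 9r/2} b(x^z/R, x^s, R^{1/2}x^m)` -/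
noncomputable def Zb (φ : Spl dh dm d) (ψ : Spz r ds dh) (b : Cfg r × Cfg ds × Cfg dm → F) (R : ℝ) (x : Cfg d) : F :=
  ((R ^ (3 * (dm : ℝ) - 9 * (r : ℝ) / 2) : ℝ) : ℂ) •
    b (R⁻¹ • hz ψ (zy φ x), hs ψ (zy φ x), Real.sqrt R • pm φ x)

/-- its slice version at scale one: `V^b(η,s,w) = |det D_8(η)|^{1/2} ∫ b(η,s,w - D(η)a) da` -/
noncomputable def Vb (S : Setup d F) (φ : Spl dh dm d) (ψ : Spz r ds dh) (b : Cfg r × Cfg ds × Cfg dm → F)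
    (η : Cfg r) (s : Cfg ds) (w : Wsp dm) : F :=
  ((Real.sqrt |(Dz S φ ψ η 8).det| : ℝ) : ℂ) • ∫ a : EuclideanSpace ℝ (Fin dm), b (η, s, xi (Dz S φ ψ η) w a)

/-- scaled slice function: `R^{2dm-9r/2} v(y^z/R, y^s, R^{1/2}w)` -/
noncomputable def Ts0 (ψ : Spz r ds dh) (v : Cfg r → Cfg ds → Wsp dm → F) (R : ℝ) (y : Cfg dh) (w : Wsp dm) : F :=
  ((R ^ (2 * (dm : ℝ) - 9 * (r : ℝ) / 2) : ℝ) : ℂ) • v (R⁻¹ • hz ψ y) (hs ψ y) (Real.sqrt R • w)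

/-- spin transport `exp(-i a·𝒮)` -/
noncomputable def spn (S : Setup d F) (a : Fin d → ℝ) : F →L[ℂ] F :=
  NormedSpace.exp ((-Complex.I) • ∑ C, (a C : ℂ) • S.cS C)

/-- **GL0** integration over the tube without invariance. PROOF: as `TubeStmt` (`DetStmt`, `CooStmt`, `InjStmt`, homogeneity in `R`), without the
last step; for the Bochner integral `integral_image_eq_integral_abs_det_fderiv_smul`. -/
def TubeJStmt (S : Setup d F) : Prop := ∀ (dh dm : ℕ) (φ : Spl dh dm d) (y₀ : Cfg dh), Std S φ y₀ →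
  ∃ ε₀ ρ₀ : ℝ, 0 < ε₀ ∧ 0 < ρ₀ ∧ ∃ j : EuclideanSpace ℝ (Fin dm) → ℝ, Continuous j ∧ (∀ a, 0 ≤ j a) ∧ j 0 = 1 ∧
    ∀ ε ρ : ℝ, 0 < ε → ε ≤ ε₀ → 0 < ρ → ρ ≤ ρ₀ → ∀ R : ℝ, 0 < R →
      (∀ f : Cfg d → ENNReal, Measurable f → ∫⁻ x in Tube S φ y₀ R ε ρ, f x =
        ∫⁻ q in (Metric.ball (0 : EuclideanSpace ℝ (Fin dm)) ρ) ×ˢ (Nb y₀ dm R ε),
          f (tub S φ q.1 q.2) * ENNReal.ofReal (S.Jd φ q.2.1 * j q.1) ∂(volume.prod (volume.prod volume))) ∧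
      (∀ f : Cfg d → ℂ, ∫ x in Tube S φ y₀ R ε ρ, f x =
        ∫ q in (Metric.ball (0 : EuclideanSpace ℝ (Fin dm)) ρ) ×ˢ (Nb y₀ dm R ε),
          ((S.Jd φ q.2.1 * j q.1 : ℝ) : ℂ) * f (tub S φ q.1 q.2) ∂(volume.prod (volume.prod volume)))

/-- **GL1** equivariance of gauge invariant functions. PROOF: `d/dt u(ro(exp(t ad a))x) = -i(a·𝒮)u(…)` (`gx983_fderiv_ad`, `G_C u = 0`), so
`exp(i t a·𝒮)u(ro(exp(t ad a))x)` is constant; `cS C` is self-adjoint. -/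
def EqvStmt (S : Setup d F) : Prop := FiniteDimensional ℂ F → (∀ a v, ‖spn S a v‖ = ‖v‖) ∧
  (∀ a v w, inner ℂ (spn S a v) w = inner ℂ v (spn S (-a) w)) ∧ (Continuous fun a => spn S a) ∧ spn S 0 = 1 ∧
  ∀ u : Cfg d → F, ContDiff ℝ ∞ u → (∀ C x, S.G C u x = 0) →
    ∀ a x, u (ro (NormedSpace.exp (S.adm a)) x) = spn S a (u x)

/-- **GL2** Taylor expansion of the tube coordinates, uniform in the scale. PROOF: `A = ad a`, `e = emb φ y w`, `|e| ≤ C R`: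
`|exp(A)e - e - [a,e]| ≤ C|a|²|e|`; `[a,y] ∈ m` (`a ∈ m`, `IsSub`) with components `-D_i(y)a`; `|[a,w]| ≤ C|a||w|`. Lower bound:
`|D_8(y)a| ≥ cR|a|` (A4 bounds, `BdStmt`), `w_j = X_j + D_ja`. -/
def TayTStmt (S : Setup d F) : Prop := ∀ (dh dm : ℕ) (φ : Spl dh dm d) (y₀ : Cfg dh), Std S φ y₀ →
  ∃ ε₀ ρ₀ c C : ℝ, 0 < ε₀ ∧ 0 < ρ₀ ∧ 0 < c ∧ 0 < C ∧ ∀ R : ℝ, 0 < R → ∀ a p, ‖a‖ < ρ₀ → p ∈ Nb y₀ dm R ε₀ →
    c * (R * ‖a‖ + ‖p.2‖) ≤ ‖pm φ (tub S φ a p)‖ ∧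
    ‖zy φ (tub S φ a p) - p.1‖ ≤ C * ‖a‖ * (R * ‖a‖ + ‖p.2‖) ∧
    ‖pm φ (tub S φ a p) - xi (fun i => S.Dy φ i p.1) p.2 a‖ ≤ C * ‖a‖ * (R * ‖a‖ + ‖p.2‖)

/-- orbit average of `Z` on the slice -/
noncomputable def Zt (S : Setup d F) (φ : Spl dh dm d) (j : EuclideanSpace ℝ (Fin dm) → ℝ) (ρ : ℝ) (Z : Cfg d → F)
    (p : Cfg dh × Wsp dm) : F :=
  ((Real.sqrt (S.Jd φ p.1) : ℝ) : ℂ) • ∫ a in Metric.ball (0 : EuclideanSpace ℝ (Fin dm)) ρ,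
    ((j a : ℝ) : ℂ) • spn S (-(exm φ a)) (Z (tub S φ a p))

/-- **GL3** measurability and scaling. PROOF: `tub`, `spn`, `D`, `J`, `j` are continuous (`ContDiff` in `DetStmt`, GL1), `StronglyMeasurable.integral_prod_right`;
substitution `y = cmb ψ (Rη) s`, `w = R^{-1/2}ω` (`R^{4dm-9r}·R^{9r}·R^{-4dm} = 1`). -/
def MeaStmt (S : Setup d F) : Prop := FiniteDimensional ℂ F → ∀ (dh dm r ds : ℕ) (φ : Spl dh dm d) (ψ : Spz r ds dh),
  S.IsSub φ →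
  (∀ (j : EuclideanSpace ℝ (Fin dm) → ℝ) (ρ : ℝ) (Z : Cfg d → F), Continuous j → StronglyMeasurable Z →
    StronglyMeasurable (Zt S φ j ρ Z)) ∧
  (∀ (R : ℝ) (b : Cfg r × Cfg ds × Cfg dm → F), StronglyMeasurable b → StronglyMeasurable (Zb φ ψ b R) ∧
    StronglyMeasurable (fun q : Cfg r × Cfg ds × Wsp dm => Vb S φ ψ b q.1 q.2.1 q.2.2)) ∧
  ∀ (R : ℝ) (v : Cfg r → Cfg ds → Wsp dm → F), 0 < R → StronglyMeasurable (fun q : Cfg r × Cfg ds × Wsp dm => v q.1 q.2.1 q.2.2) →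
    StronglyMeasurable (fun p : Cfg dh × Wsp dm => Ts0 ψ v R p.1 p.2) ∧
    ∫⁻ p : Cfg dh × Wsp dm, ‖Ts0 ψ v R p.1 p.2‖ₑ ^ 2 ∂(volume.prod volume) =
      ∫⁻ q : Cfg r × Cfg ds × Wsp dm, ‖v q.1 q.2.1 q.2.2‖ₑ ^ 2 ∂(volume.prod (volume.prod volume))

/-- **GL4** `⟨Z,u⟩ = ∫_{Nb}⟨Z̃, res u⟩` for `Z` supported in the tube. PROOF: GL0, GL1, GL3, Fubini (`Z ∈ L²`, the tube is bounded, so `Z ∈ L¹`). -/
def PairStmt (S : Setup d F) : Prop := FiniteDimensional ℂ F → ∀ (dh dm : ℕ) (φ : Spl dh dm d) (y₀ : Cfg dh), Std S φ y₀ →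
  ∃ ε₀ ρ₀ : ℝ, 0 < ε₀ ∧ 0 < ρ₀ ∧ ∃ j : EuclideanSpace ℝ (Fin dm) → ℝ, Continuous j ∧ (∀ a, 0 ≤ j a) ∧ j 0 = 1 ∧
    ∀ ε ρ : ℝ, 0 < ε → ε ≤ ε₀ → 0 < ρ → ρ ≤ ρ₀ → ∀ R : ℝ, 0 < R →
      (∀ f : Cfg d → ENNReal, Measurable f → ∫⁻ x in Tube S φ y₀ R ε ρ, f x =
        ∫⁻ q in (Metric.ball (0 : EuclideanSpace ℝ (Fin dm)) ρ) ×ˢ (Nb y₀ dm R ε),
          f (tub S φ q.1 q.2) * ENNReal.ofReal (S.Jd φ q.2.1 * j q.1) ∂(volume.prod (volume.prod volume))) ∧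
      ∀ Z u : Cfg d → F, StronglyMeasurable Z → MemLp Z 2 → (∀ x, Z x ≠ 0 → x ∈ Tube S φ y₀ R ε ρ) →
        Setup.Tst u → (∀ C x, S.G C u x = 0) →
        ∫ x, inner ℂ (Z x) (u x) = ∫ p in Nb y₀ dm R ε, inner ℂ (Zt S φ j ρ Z p) (S.res φ u p.1 p.2)
          ∂(volume.prod volume)

/-- **GL5** weighted bound for the orbit average, uniform in `R`. PROOF: Cauchy–Schwarz in `a`:
`|Z̃(p)|² ≤ J(y)·C∫(1+R³|a|²)^{-dm-1}da·∫_{|a|<ρ}j(a)(1+R³|a|²)^{dm+1}|Z(tub a p)|²da`, `∫(1+R³|a|²)^{-dm-1}da = C R^{-3dm/2}`,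
`R²|a|² ≤ C|x^m|²` (GL2), integrate with the formula in the hypothesis, and substitute `x^z = Rη`, `x^m = R^{-1/2}X`. -/
def WgtStmt (S : Setup d F) : Prop := FiniteDimensional ℂ F → ∀ (dh dm r ds : ℕ) (φ : Spl dh dm d) (ψ : Spz r ds dh)
  (y₀ : Cfg dh), Std S φ y₀ → ∃ ε₀ ρ₀ : ℝ, 0 < ε₀ ∧ 0 < ρ₀ ∧ ∀ ε ρ : ℝ, 0 < ε → ε ≤ ε₀ → 0 < ρ → ρ ≤ ρ₀ →
  ∀ j : EuclideanSpace ℝ (Fin dm) → ℝ, Continuous j → (∀ a, 0 ≤ j a) → j 0 = 1 →
  (∀ R : ℝ, 0 < R → ∀ f : Cfg d → ENNReal, Measurable f → ∫⁻ x in Tube S φ y₀ R ε ρ, f x =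
        ∫⁻ q in (Metric.ball (0 : EuclideanSpace ℝ (Fin dm)) ρ) ×ˢ (Nb y₀ dm R ε),
          f (tub S φ q.1 q.2) * ENNReal.ofReal (S.Jd φ q.2.1 * j q.1) ∂(volume.prod (volume.prod volume))) →
  ∃ C : ℝ, 0 < C ∧ ∀ R : ℝ, 1 ≤ R → ∀ b : Cfg r × Cfg ds × Cfg dm → F, StronglyMeasurable b →
      ∫⁻ p in Nb y₀ dm R ε, ‖Zt S φ j ρ (Zb φ ψ b R) p‖ₑ ^ 2 ∂(volume.prod volume) ≤
        ENNReal.ofReal C * ∫⁻ q, ENNReal.ofReal ((1 + ‖q.2.2‖ ^ 2) ^ (dm + 1)) * ‖b q‖ₑ ^ 2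
          ∂((volume : Measure (Cfg r)).prod ((volume : Measure (Cfg ds)).prod (volume : Measure (Cfg dm))))

/-- **GL6** convergence of the orbit average for compactly supported `b`. PROOF: substitute `y = cmb ψ (Rη) s`, `w = R^{-1/2}ω`, `a = R^{-3/2}α`
(all powers of `R` cancel; `J(cmb ψ (Rη) s) = R^{dm}|det(D_8(η) + R⁻¹D_8(s))|`); by GL2 the support in `(η,s,ω,α)` stays in a fixed compact set
(`|α|, |ω| ≤ L/c`, `|s| ≤ L + 1`), the integrand is bounded and converges pointwise (`x^z/R → η`, `x^s → s`, `R^{1/2}x^m → ω - D(η)α`,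
`spn(-R^{-3/2}α) → 1`, `j → 1`); dominated convergence twice. -/
def CnvStmt (S : Setup d F) : Prop := FiniteDimensional ℂ F → ∀ (dh dm r ds : ℕ) (φ : Spl dh dm d) (ψ : Spz r ds dh)
  (z₀ : Cfg r), Std S φ (cmb ψ z₀ 0) → ∃ ε₀ ρ₀ : ℝ, 0 < ε₀ ∧ 0 < ρ₀ ∧ ∀ ε ρ : ℝ, 0 < ε → ε ≤ ε₀ → 0 < ρ → ρ ≤ ρ₀ →
  ∀ j : EuclideanSpace ℝ (Fin dm) → ℝ, Continuous j → (∀ a, 0 ≤ j a) → j 0 = 1 →
  ∀ b : Cfg r × Cfg ds × Cfg dm → F, Continuous b → HasCompactSupport b → (∀ q, b q ≠ 0 → ‖q.1 - z₀‖ ≤ ε / 2) →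
    Tendsto (fun R : ℝ => ∫⁻ p in Nb (cmb ψ z₀ 0) dm R ε,
      ‖Zt S φ j ρ (Zb φ ψ b R) p - Ts0 ψ (Vb S φ ψ b) R p.1 p.2‖ₑ ^ 2 ∂(volume.prod volume)) atTop (𝓝 0)

/-- **GL7** the support of `Z^b_R` lies in the tube for large `R`. PROOF: ball of radius `δR` around `R·Y` (`TubeStmt`, any `ε`, `ρ`). -/
def SupStmt (S : Setup d F) : Prop := ∀ (dh dm r ds : ℕ) (φ : Spl dh dm d) (ψ : Spz r ds dh) (z₀ : Cfg r),
  Std S φ (cmb ψ z₀ 0) → ∃ ε₀ ρ₀ : ℝ, 0 < ε₀ ∧ 0 < ρ₀ ∧ ∀ ε ρ : ℝ, 0 < ε → ε ≤ ε₀ → 0 < ρ → ρ ≤ ρ₀ → ∃ δ : ℝ, 0 < δ ∧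
    (∀ R : ℝ, 0 < R → ∀ b : Cfg r × Cfg ds × Cfg dm → F,
      (∀ q, b q ≠ 0 → ‖q.1 - z₀‖ ≤ δ ∧ ‖q.2.1‖ ≤ δ * R ∧ ‖q.2.2‖ ≤ δ * (R * Real.sqrt R)) →
      ∀ x, Zb φ ψ b R x ≠ 0 → x ∈ Tube S φ (cmb ψ z₀ 0) R ε ρ)

/-- `∑_i ⟨X_i, Ω X_i⟩` -/
noncomputable def qX (Om : Matrix (Fin dm) (Fin dm) ℝ) (X : Cfg dm) : ℝ :=
  ∑ i, ∑ B, ∑ C, X (i, B) * Om B C * X (i, C)

/-- `∫ exp(-s κ⁻² ⟨a, Ω³ a⟩) da` -/
noncomputable def Gs (κ : ℝ) (Om : Matrix (Fin dm) (Fin dm) ℝ) (s : ℝ) : ℝ :=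
  ∫ a : EuclideanSpace ℝ (Fin dm), Real.exp (-(s * (κ ^ 2)⁻¹ * ∑ B, ∑ C, a B * (Om * Om * Om) B C * a C))

/-- `∫ exp(-∑⟨X_i,ΩX_i⟩) dX` -/
noncomputable def Kx (Om : Matrix (Fin dm) (Fin dm) ℝ) : ℝ := ∫ X : Cfg dm, Real.exp (-qX Om X)

/-- frame independent normalisation -/
noncomputable def Nf (κ : ℝ) (Om : Matrix (Fin dm) (Fin dm) ℝ) : ℝ :=
  Real.sqrt (Gs κ Om 1 / (Gs κ Om (1 / 2) ^ 2 * Kx Om))

/-- **GL8** exact Gaussian identity. PROOF: `∑⟨X_i,ΩX_i⟩ = qf D Om w + κ⁻²⟨a - a₀, Ω³(a - a₀)⟩`, `D_8a₀ = s(w)` (`X_i = V_i + T_i(s - D_8a)`,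
`∑T_iΩV_i = 0`, `D_8ᵀΩ t2 D_8 = -Ω∑D_i² = κ⁻²Ω³`, block B `AlgStmt`). So `∫exp(-½qX) da = Gs(½)·gR(w)` and
`Gs(1)·gR(w)² = ∫exp(-qX(xi D w a))da`; integrating over `w` and substituting `X = xi D w a` (`|det| = |det D_8|`):
`Gs(1)·∫gR² = |det D_8|⁻¹ Kx`. -/
def GauStmt : Prop := ∀ (dm : ℕ) (κ : ℝ) (D : Fin 9 → Matrix (Fin dm) (Fin dm) ℝ) (Om : Matrix (Fin dm) (Fin dm) ℝ),
  0 < κ → Frz D → IsOm κ D Om → 0 < Gs κ Om 1 ∧ 0 < Gs κ Om (1 / 2) ∧ 0 < Kx Om ∧ 0 < (∫ w, gR D Om 1 w ^ 2) ∧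
    Integrable (fun w => gR D Om 1 w ^ 2) ∧
    ∀ w : Wsp dm, Integrable (fun a : EuclideanSpace ℝ (Fin dm) => Real.exp (-(1 / 2) * qX Om (xi D w a))) ∧
      Real.sqrt |(D 8).det| * (Nf κ Om * ∫ a, Real.exp (-(1 / 2) * qX Om (xi D w a))) =
        gR D Om 1 w / Real.sqrt (∫ w', gR D Om 1 w' ^ 2)

/-- the Gaussian profile `b(η,s,X) = N a(η,s) exp(-½⟨X,Ω(η)X⟩)` -/
noncomputable def bG (κ : ℝ) (Om : Cfg r → Matrix (Fin dm) (Fin dm) ℝ) (a : Cfg r → Cfg ds → F)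
    (q : Cfg r × Cfg ds × Cfg dm) : F :=
  ((Nf κ (Om q.1) * Real.exp (-(1 / 2) * qX (Om q.1) q.2.2) : ℝ) : ℂ) • a q.1 q.2.1

/-- the slice section `a(η,s) g_η(w)/|g_η|` -/
noncomputable def vG (S : Setup d F) (φ : Spl dh dm d) (ψ : Spz r ds dh) (Om : Cfg r → Matrix (Fin dm) (Fin dm) ℝ)
    (a : Cfg r → Cfg ds → F) (η : Cfg r) (s : Cfg ds) (w : Wsp dm) : F :=
  ((gR (Dz S φ ψ η) (Om η) 1 w / Real.sqrt (∫ w', gR (Dz S φ ψ η) (Om η) 1 w' ^ 2) : ℝ) : ℂ) • a η s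

/-- **GL9** moments, uniformly near `z₀`. PROOF: on the compact ball `Ω(η) ≥ c > 0` and bounded (continuity and `IsOm.pos`), Gaussian domination,
`continuousOn_of_dominated` for `Gs`, `Kx` (`Kx`, `Gs > 0`). -/
def MomStmt : Prop := ∀ (r dm : ℕ) (κ : ℝ) (z₀ : Cfg r) (δ : ℝ) (D : Cfg r → Fin 9 → Matrix (Fin dm) (Fin dm) ℝ)
  (Om : Cfg r → Matrix (Fin dm) (Fin dm) ℝ), 0 < κ → 0 < δ →
  (∀ η, ‖η - z₀‖ ≤ δ → Frz (D η) ∧ IsOm κ (D η) (Om η)) → ContinuousOn Om {η | ‖η - z₀‖ ≤ δ} →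
  ContinuousOn (fun η => Nf κ (Om η)) {η | ‖η - z₀‖ ≤ δ} ∧
  ∀ ε : ℝ, 0 < ε → ∃ C L : ℝ, 0 < C ∧ 0 < L ∧ ∀ η, ‖η - z₀‖ ≤ δ →
    ∫⁻ X : Cfg dm, ENNReal.ofReal ((1 + ‖X‖ ^ 2) ^ (dm + 1) * (Nf κ (Om η) * Real.exp (-(1 / 2) * qX (Om η) X)) ^ 2) ≤
      ENNReal.ofReal C ∧
    ∫⁻ X in {X : Cfg dm | L ≤ ‖X‖},
      ENNReal.ofReal ((1 + ‖X‖ ^ 2) ^ (dm + 1) * (Nf κ (Om η) * Real.exp (-(1 / 2) * qX (Om η) X)) ^ 2) ≤ ENNReal.ofReal ε

/-- **GL10** MAIN: for every section `a ∈ L²` supported near `z₀` (values in `F`), every sequence of cutoffs `χ_n → 1` supported in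
`|x^s|, |x^m| ≤ δR_n`, and every bounded sequence of gauge invariant test functions, the global functional and the slice functional have the
same limit. PROOF. GL7 (support), GL4 (pairing), `‖res u_n‖_{L²(Nb)} ≤ C‖u_n‖` (`NormStmt`). For `a'` continuous with compact support (in the `2δ` ball) and
`b' = bG a'·χ(|X|/L)` (continuous by GL9): GL6. GL8: `Vb(bG a) = vG a`, `‖vG a‖_{L²} = ‖a‖`. `a' → a` in `L²`, `L → ∞`: GL5 on the `Z` side (weighted norm of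
`χ_n bG a - b'` small by GL9 and dominated convergence for `(1-χ_n)bG a`), GL3 on the slice side (`|Vb b'' |² ≤ C∫(1+|X|²)^{dm+1}|b''|²` or directly
`‖Vb(bG a) - Vb(b')‖` by monotonicity). -/
def GluStmt (S : Setup d F) : Prop := FiniteDimensional ℂ F → ∀ (dh dm r ds : ℕ) (φ : Spl dh dm d) (ψ : Spz r ds dh)
  (z₀ : Cfg r), IsZ S φ ψ → Std S φ (cmb ψ z₀ 0) → ∃ ε₀ : ℝ, 0 < ε₀ ∧ ∀ ε : ℝ, 0 < ε → ε ≤ ε₀ → ∃ δ₀ : ℝ, 0 < δ₀ ∧
  ∀ δ : ℝ, 0 < δ → δ ≤ δ₀ → ∀ (Om : Cfg r → Matrix (Fin dm) (Fin dm) ℝ),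
  (∀ η, ‖η - z₀‖ ≤ 2 * δ → Frz (Dz S φ ψ η) ∧ IsOm S.κ (Dz S φ ψ η) (Om η)) →
  ContinuousOn Om {η | ‖η - z₀‖ ≤ 2 * δ} →
  ∀ a : Cfg r → Cfg ds → F, StronglyMeasurable (fun q : Cfg r × Cfg ds => a q.1 q.2) →
  MemLp (fun q : Cfg r × Cfg ds => a q.1 q.2) 2 (volume.prod volume) →
  (∀ η s, a η s ≠ 0 → ‖η - z₀‖ ≤ δ) →
  ∀ (R : ℕ → ℝ) (χ : ℕ → Cfg r × Cfg ds × Cfg dm → ℝ) (u : ℕ → Cfg d → F) (C : ℝ), Tendsto R atTop atTop →
  (∀ n, Measurable (χ n)) → (∀ n q, 0 ≤ χ n q ∧ χ n q ≤ 1) → (∀ q, Tendsto (fun n => χ n q) atTop (𝓝 1)) →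
  (∀ n q, χ n q ≠ 0 → ‖q.2.1‖ ≤ δ₀ * R n ∧ ‖q.2.2‖ ≤ δ₀ * (R n * Real.sqrt (R n))) →
  (∀ n, Setup.Tst (u n)) → (∀ n C x, S.G C (u n) x = 0) → (∀ n, ∫ x, ‖u n x‖ ^ 2 ≤ C) →
  Tendsto (fun n => (∫ x, inner ℂ (Zb φ ψ (fun q => ((χ n q : ℝ) : ℂ) • bG S.κ Om a q) (R n) x) (u n x)) -
    ∫ p in Nb (cmb ψ z₀ 0) dm (R n) ε, inner ℂ (Ts0 ψ (vG S φ ψ Om a) (R n) p.1 p.2) (S.res φ (u n) p.1 p.2)
      ∂(volume.prod volume)) atTop (𝓝 0)

/-- the weight `(1+|X|²)^{dm+1}` -/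
noncomputable def wM (r ds dm : ℕ) : Measure (Cfg r × Cfg ds × Cfg dm) :=
  ((volume : Measure (Cfg r)).prod ((volume : Measure (Cfg ds)).prod (volume : Measure (Cfg dm)))).withDensity
    fun q => ENNReal.ofReal ((1 + ‖q.2.2‖ ^ 2) ^ (dm + 1))

/-- **GL14** uniform bound of the global functional on gauge invariant functions (local form). PROOF: GL7, GL4, GL5, `NormStmt`. -/
def GluBdStmt (S : Setup d F) : Prop := FiniteDimensional ℂ F → ∀ (dh dm r ds : ℕ) (φ : Spl dh dm d) (ψ : Spz r ds dh)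
  (z₀ : Cfg r), Std S φ (cmb ψ z₀ 0) → ∃ δ₀ C R₁ : ℝ, 0 < δ₀ ∧ 0 < C ∧ 0 < R₁ ∧ ∀ R : ℝ, R₁ ≤ R →
  ∀ b : Cfg r × Cfg ds × Cfg dm → F, StronglyMeasurable b →
  (∀ q, b q ≠ 0 → ‖q.1 - z₀‖ ≤ δ₀ ∧ ‖q.2.1‖ ≤ δ₀ * R ∧ ‖q.2.2‖ ≤ δ₀ * (R * Real.sqrt R)) → MemLp b 2 (wM r ds dm) →
  ∀ u : Cfg d → F, Setup.Tst u → (∀ C x, S.G C u x = 0) →
    ‖∫ x, inner ℂ (Zb φ ψ b R x) (u x)‖ₑ ≤ ENNReal.ofReal C * eLpNorm b 2 (wM r ds dm) * eLpNorm u 2 volume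

/-- regular points: the `D_i(η)` have no common kernel (the centraliser of `η` is `h`) -/
def Reg (S : Setup d F) (φ : Spl dh dm d) (ψ : Spz r ds dh) : Set (Cfg r) :=
  {η | ∀ x : Fin dm → ℝ, (∀ i, (Dz S φ ψ η i).mulVec x = 0) → x = 0}

/-- **GL15** uniform bound over compact sets of regular points. PROOF: at `η₀ ∈ K` there is a unit vector `e ∈ ℝ^9` with `∑e_iD_i(η₀)` invertible
(`Std.lean`: `std_gen`; the `D_i(η₀)` are antisymmetric and commute by `IsZ`), `R₀ ∈ O(9)` with last row `e`; `Std (S.rot R₀ 1) φ (cmb ψ (rox R₀ 1 η₀) 0)`;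
GL14 for `S.rot R₀ 1` and covariance `Zb φ ψ b R x = Zb φ ψ (b ∘ rox⁻¹) R (rox R₀ 1 x)`; finite subcover, `b = ∑ b·1_{A_k}` (disjoint measurable pieces). -/
def GluKStmt (S : Setup d F) : Prop := FiniteDimensional ℂ F → ∀ (dh dm r ds : ℕ) (φ : Spl dh dm d) (ψ : Spz r ds dh)
  (K : Set (Cfg r)), S.IsSub φ → IsZ S φ ψ → IsCompact K → K ⊆ Reg S φ ψ →
  ∃ δ C R₁ : ℝ, 0 < δ ∧ 0 < C ∧ 0 < R₁ ∧ ∀ R : ℝ, R₁ ≤ R →
  ∀ b : Cfg r × Cfg ds × Cfg dm → F, StronglyMeasurable b →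
  (∀ q, b q ≠ 0 → q.1 ∈ K ∧ ‖q.2.1‖ ≤ δ * R ∧ ‖q.2.2‖ ≤ δ * (R * Real.sqrt R)) → MemLp b 2 (wM r ds dm) →
  ∀ u : Cfg d → F, Setup.Tst u → (∀ C x, S.G C u x = 0) →
    ‖∫ x, inner ℂ (Zb φ ψ b R x) (u x)‖ₑ ≤ ENNReal.ofReal C * eLpNorm b 2 (wM r ds dm) * eLpNorm u 2 volume

end Vale.Agent.P353.Z.AN
end

section

/-! # P353, all `N`, block D: statements of the engine (null points, Liouville, dyadic inequality, inner completeness)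

A prover delivers `theorem <name> … : XStmt …` in `Vale/Agent/P353/AN/D/<File>.lean`, importing this file (and landed files), with
other statements only as hypotheses. -/

open MeasureTheory Filter Topology
open scoped ContDiff

namespace Vale.Agent.P353.Z.AD

variable {d dh dm ds dz r : ℕ} {F : Type*} [NormedAddCommGroup F] [InnerProductSpace ℂ F]
  {K : Type*} [NormedAddCommGroup K] [InnerProductSpace ℂ K]

/-- **D1** non commuting points are null. PROOF. Choose `ε` with `V ≥ 2c > 0` on `ball Y (2ε)` and `2ε < |Y|` (`Y ≠ 0` since `V 0 = 0`);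
`V(Rx) = R⁴V(x)`. Cutoff `χ` (`= 1` on `ball (RY) (εR)`, supported in `ball (RY) (2εR)`, `|∂χ| ≤ C/R`):
`∑‖Q_β(χu)‖² ≤ 2∑∫χ²‖Q_βu‖² + CR⁻²∫_{supp χ}‖u‖² ≤ C'/R²` (`Q_cut` in `Z/Loc`), and `energy_formula` (`Z/Energy`):
`∑‖Q_β(χu)‖² ≥ 16(2cR⁴ - CR)‖χu‖²` (`‖Fx x‖ ≤ C|x|`). So the mass of the small ball is `O(R⁻⁶)`. -/
def NonCommStmt (S : Setup d F) : Prop := FiniteDimensional ℂ F → ∀ (R : ℕ → ℝ) (u : ℕ → Cfg d → F), Sq S R u →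
  ∀ Y, S.V Y ≠ 0 → Nul R u Y

/-- local hypothesis of the engine: `PZ Y R u` (all profile functionals at `Y` vanish in the limit) and nullity of all points with smaller
centraliser imply that `Y` is null, with a radius that depends only on `Y` -/
def LocHyp (S : Setup d F) (PZ : Cfg d → (ℕ → ℝ) → (ℕ → Cfg d → F) → Prop) : Prop :=
  ∀ Y, Y ≠ 0 → S.V Y = 0 → ∃ ε : ℝ, 0 < ε ∧ ∀ (R : ℕ → ℝ) (u : ℕ → Cfg d → F), Sq S R u →
    (∀ Y', Y' ≠ 0 → S.V Y' = 0 → cd S Y' < cd S Y → Nul R u Y') → PZ Y R u → NulE R u Y ε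

/-- **D2** all points `≠ 0` are null. PROOF. D1 for `V Y ≠ 0`. For `V Y = 0`: strong induction on `cd S Y`. Let `ε` be the radius of `LocHyp`.
If `NulE R u Y ε` fails there is `δ > 0` and a subsequence with mass `≥ δ`; the hypothesis gives a further subsequence with `PZ Y`; along it `Sq`
and the nullity of the points with smaller centraliser still hold, so the mass tends to `0`: contradiction. -/
def NulAllStmt (S : Setup d F) : Prop := NonCommStmt S → FiniteDimensional ℂ F →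
  ∀ PZ : Cfg d → (ℕ → ℝ) → (ℕ → Cfg d → F) → Prop, LocHyp S PZ →
  ∀ (R : ℕ → ℝ) (u : ℕ → Cfg d → F), Sq S R u →
    (∀ Y, Y ≠ 0 → S.V Y = 0 → ∀ k : ℕ → ℕ, StrictMono k → ∃ l : ℕ → ℕ, StrictMono l ∧
      PZ Y (fun n => R (k (l n))) (fun n => u (k (l n)))) →
    ∀ Y, Y ≠ 0 → Nul R u Y

/-- **D3** if all points `≠ 0` are null, the mass of every shell tends to zero. PROOF: compactness of `{s ≤ |Y| ≤ t}`; finitely many balls. -/
def ShellStmt (S : Setup d F) : Prop := ∀ (R : ℕ → ℝ) (u : ℕ → Cfg d → F), Sq S R u →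
  (∀ Y, Y ≠ 0 → Nul R u Y) → ∀ s t : ℝ, 0 < s → s < t →
    Tendsto (fun n => mas (u n) (shl d (s * R n) (t * R n))) atTop (𝓝 0)

/-- Liouville hypothesis of the engine: for sequences whose energy vanishes in every shell and whose mass grows at most like `2^{3|k|}`
every commuting point `≠ 0` has a subsequence with vanishing profile functionals -/
def LioHyp (S : Setup d F) (PZ : Cfg d → (ℕ → ℝ) → (ℕ → Cfg d → F) → Prop) : Prop :=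
  ∀ (R : ℕ → ℝ) (u : ℕ → Cfg d → F), Sq S R u →
    (∃ C : ℝ, ∀ k : ℤ, ∀ᶠ n in atTop, mas (u n) (shl d ((2 : ℝ) ^ k * R n) ((2 : ℝ) ^ (k + 1) * R n)) ≤
      C * (2 : ℝ) ^ (3 * |k|)) →
    (∀ s t : ℝ, 0 < s → s < t → Tendsto (fun n => R n ^ 2 * ena S (u n) (shl d (s * R n) (t * R n))) atTop (𝓝 0)) →
    ∀ Y, Y ≠ 0 → S.V Y = 0 → ∃ l : ℕ → ℕ, StrictMono l ∧ PZ Y (fun n => R (l n)) (fun n => u (l n))

/-- **D4** dyadic inequality: with `M_j = mas u (dsh j)`, `E_j = ena S u (dsh j)`, for every `θ > 0` there are `j₀`, `C` with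
`M_j ≤ θ ∑_{k≠0} 2^{-3|k|} M_{j+k} + C ∑_k 2^{-3|k|} 4^{j+k} E_{j+k}` for all `j ≥ j₀` and all gauge invariant test functions.
PROOF. Otherwise there are `u_n`, `j_n ≥ n` violating it with `C = n`; `M_{j_n} > 0`; divide `u_n` by `√M_{j_n}`; `R_n = 2^{j_n}`. Then
`M_{j_n+k} ≤ θ⁻¹2^{3|k|}` (`k ≠ 0`), `4^{j_n+k}E_{j_n+k} ≤ 2^{3|k|}/n`. So `Sq`, the growth bound and vanishing of the energies in all
shells hold (a shell is covered by finitely many dyadic shells up to null sets); `LioHyp` (for all subsequences), D2, D3 give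
`mas (u_n)(shl (R_n) (2R_n)) → 0`, but it is `1`. The sums are finite: `∑M ≤ ‖u‖²`, `2^{-3|k|}4^{k} ≤ 1`. -/
def DyStmt (S : Setup d F) : Prop := ∀ θ : ℝ, 0 < θ → ∃ (j₀ : ℕ) (C : ℝ), 0 ≤ C ∧ ∀ u, GInv S u → ∀ j : ℤ, (j₀ : ℤ) ≤ j →
  mas u (dsh d j) ≤ θ * (∑' k : ℤ, if k = 0 then 0 else (2 : ℝ) ^ (-(3 * |k|)) * mas u (dsh d (j + k))) +
    C * ∑' k : ℤ, (2 : ℝ) ^ (-(3 * |k|)) * ((4 : ℝ) ^ (j + k) * ena S u (dsh d (j + k)))

def DyOfStmt (S : Setup d F) : Prop := NonCommStmt S → NulAllStmt S → ShellStmt S → FiniteDimensional ℂ F →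
  ∀ PZ : Cfg d → (ℕ → ℝ) → (ℕ → Cfg d → F) → Prop, LocHyp S PZ → LioHyp S PZ → DyStmt S

/-- **D5** discrete lemma. PROOF. Multiply with `w_j` and sum over `j ≥ j₀` (first finite sums, or everything is summable):
`∑_{j≥j₀}w_j∑_{k≠0}2^{-3|k|}M_{j+k} ≤ ∑_iM_i∑_{k≠0}w_{i-k}2^{-3|k|} ≤ ∑_iw_iM_i∑_{k≠0}2^{-|k|} = 2∑_iw_iM_i`, and
`∑_jw_j∑_k2^{-3|k|}e_{j+k} ≤ 3∑_iw_ie_i`. With `θ = 1/4`: `∑_{j≥j₀}wM ≤ ½∑_{j≥j₀}wM + ½∑_{j<j₀}wM + 3C∑we`. -/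
def DiscStmt : Prop := ∀ (M e w : ℤ → ℝ) (j₀ : ℤ) (C : ℝ), 0 ≤ C → (∀ j, 0 ≤ M j) → (∀ j, 0 ≤ e j) → (∀ j, 0 < w j) →
  (∀ i k : ℤ, w (i + k) ≤ (2 : ℝ) ^ (2 * |k|) * w i) → Summable (fun j => w j * M j) → Summable (fun j => w j * e j) →
  (∀ j, j₀ ≤ j → M j ≤ 1 / 4 * (∑' k : ℤ, if k = 0 then 0 else (2 : ℝ) ^ (-(3 * |k|)) * M (j + k)) +
    C * ∑' k : ℤ, (2 : ℝ) ^ (-(3 * |k|)) * e (j + k)) →
  (∑' j : ℤ, if j₀ ≤ j then w j * M j else 0) ≤ (∑' j : ℤ, if j₀ ≤ j then 0 else w j * M j) + 6 * C * ∑' j, w j * e j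

/-- **D6** Hardy inequality at infinity (crude constant). PROOF: D4 with `θ = 1/4`, D5 with `w_j = 2^{-2 max(j,0)}`, `M_j = mas u (dsh j)`,
`e_j = 4^jE_j`: `w_je_j ≤ E_j`; `1/(1+|x|²) ≤ min(1, |x|⁻²)`, the dyadic shells cover everything up to a null set. -/
def HInfStmt (S : Setup d F) : Prop := DyStmt S → DiscStmt → ∃ ρ C : ℝ, 0 < ρ ∧ 0 ≤ C ∧ ∀ u, GInv S u →
  wn u ≤ C * (mas u (Metric.ball 0 ρ) + En S u)

/-- weighted limits with vanishing energy -/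
def KW (S : Setup d F) (u : Cfg d → F) : Prop := AEStronglyMeasurable u (volume : Measure (Cfg d)) ∧
  ∃ v : ℕ → Cfg d → F, (∀ n, GInv S (v n)) ∧ Integrable (fun x => ‖u x‖ ^ 2 / (1 + ‖x‖ ^ 2)) (volume : Measure (Cfg d)) ∧
    Tendsto (fun n => wn (fun x => v n x - u x)) atTop (𝓝 0) ∧ Tendsto (fun n => En S (v n)) atTop (𝓝 0)

/-- **D7** weighted kernel elements decay. PROOF: for the approximants `v_n`: D4 with `θ = 1/4` and D5 with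
`w_j = 1` (`j ≤ 0`), `2^{2j}` (`0 ≤ j ≤ B`), `2^{4B-2j}` (`j ≥ B`); `w_j4^jE_j ≤ 2^{4B}E_j`; `n → ∞` for fixed `B` (masses of shells
converge, `w_j` is bounded by `C_B` times the weight of `wn`), then `B → ∞` (monotone convergence):
`∑_{j≥j₀}2^{2j}M_j(u) ≤ 2^{2j₀}mas u (ball 0 2^{j₀})`. -/
def DecStmt (S : Setup d F) : Prop := DyStmt S → DiscStmt → ∃ ρ C : ℝ, 0 < ρ ∧ 0 ≤ C ∧ ∀ u, KW S u →
  Integrable (fun x => (1 + ‖x‖ ^ 2) * ‖u x‖ ^ 2) (volume : Measure (Cfg d)) ∧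
    ∫ x, (1 + ‖x‖ ^ 2) * ‖u x‖ ^ 2 ≤ C * mas u (Metric.ball 0 ρ)

/-- **D8** the weighted kernel consists of zero modes and is finite dimensional: there is an orthonormal basis.
PROOF. `u ∈ KW`, `v_n` its approximants, `χ_R` radial cutoff: `‖Q_β(χ_Rv_n)‖ ≤ ‖χ_RQ_βv_n‖ + (C/R)‖v_n 1_{R<|x|<2R}‖`; `n → ∞`, then `R → ∞`
(`u ∈ L²` by D7): a diagonal sequence shows `ZM S u`; conversely `ZM ⊆ KW`. Finite dimension: elements of the unit sphere of `KW`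
(in `L²`) are precompact: `LRStmt` (local Rellich, landed) for approximants in `L²` (bounded local gradients by `energy_formula`:
`8‖∇v‖² ≤ En + C∫|x||v|²` after a cutoff) and uniform tightness D7; so an orthonormal family in `KW` is finite (otherwise a subsequence
converges, but distances are `√2`). -/
def KWStmt (S : Setup d F) : Prop := DecStmt S → DyStmt S → DiscStmt → U.LRStmt d F → FiniteDimensional ℂ F →
  (∀ u, ZM S u → KW S u) ∧ (∀ u, KW S u → ZM S u) ∧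
  ∃ (n : ℕ) (o : Fin n → Cfg d → F), (∀ j, ZM S (o j)) ∧
    (∀ j k, ∫ x, inner ℂ (o j x) (o k x) = if j = k then 1 else 0) ∧
    ∀ u, KW S u → ∃ c : Fin n → ℂ, ∀ᵐ x ∂(volume : Measure (Cfg d)), u x = ∑ j, c j • o j x

/-- **D9** inner completeness. PROOF (contradiction). `u_n`, `ρ_n ≥ 1` with `∫_{|x|≤ρ_n}‖r_n‖² > nρ_n²En(u_n)`, `r_n = u_n - ∑⟨o_j,u_n⟩o_j`; then
`wn(r_n) ≥ (n/2)En(u_n)`; normalise `wn(r_n) = 1`. D6 extends to graph limits (`r_n`, `r_n - r_m`; `En` unchanged by adding zero modes).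
`LRStmt` (local energy bounds: cutoffs of the approximants): a subsequence converges in `L²_loc`; by D6 for `r_n - r_m` it is Cauchy in the
weighted norm; the limit `r` is in `KW`, `wn r = 1`; `⟨o_j,r_n⟩ = 0` and `(1+|x|²)|o_j|²` integrable (D7) give `⟨o_j,r⟩ = 0`, so `r = 0` by D8. -/
def ICOfStmt (S : Setup d F) : Prop := DecStmt S → KWStmt S → HInfStmt S → DyStmt S → DiscStmt → U.LRStmt d F →
  FiniteDimensional ℂ F → ICStmt S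

/-- test functions supported off the collision set and off `0` -/
def TOff (L : Finset (Fin r → ℝ)) (ζ : Cfg r → K) : Prop := TstOff L ζ ∧ (0 : Cfg r) ∉ tsupport ζ

/-- **D10** Liouville theorem for the massless free system on `ℝ^{9r} \ {0}` (`Q0`; the structure constants of `S` play no role).
PROOF. (a) `Coll L` (codimension 8) is removable: test with `η_nζ` (`AF.CutStmt`). (b) `0` is removable: cutoffs `χ_ρ`,
`∫|∂χ_ρ||f| ≤ Cρ⁻¹ρ^{9r/2}(∫_{ρ<|x|<2ρ}|f|²)^{1/2} ≤ Cρ^{9r/2-1-3/2} → 0`; `f ∈ L¹` near `0`. So `Q0_β f = 0` weakly on `Cfg r`.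
(c) `f_ε = f * ρ_ε` is smooth, `Q0_βf_ε = 0`, `∫_{|x|<s}|f_ε|² ≤ C_ε s³` (`s ≥ 1`). (d) `∑_β‖Q0_β g‖² = 8∑‖pd i A g‖²` for test functions `g`
(`θ` relations); `g = χ_sf_ε`: `∫_{|x|<s}∑|∂f_ε|² ≤ Cs⁻²∫_{|x|<2s}|f_ε|² ≤ C s`; the same for `∂_if_ε`: `∫_{|x|<s}|∂∂f_ε|² ≤ C s⁻¹ → 0`, so
`∂_if_ε` is constant, `|∂_if_ε|²·|ball s| ≤ Cs` gives `∂f_ε = 0`, `f_ε` constant, `|f_ε|²|ball s| ≤ Cs³` gives `f_ε = 0` (`9r ≥ 9`). (e) `ε → 0`. -/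
def LiouStmt (S : Setup r K) : Prop := AF.CutStmt r → 0 < r → ∀ L : Finset (Fin r → ℝ), (∀ l ∈ L, l ≠ 0) →
  ∀ f : Cfg r → K, AEStronglyMeasurable f (volume : Measure (Cfg r)) →
    (∀ s t : ℝ, 0 < s → s < t → IntegrableOn (fun x => ‖f x‖ ^ 2) (shl r s t) (volume : Measure (Cfg r))) →
    (∃ C : ℝ, ∀ k : ℤ, ∫ x in dsh r k, ‖f x‖ ^ 2 ≤ C * (2 : ℝ) ^ (3 * |k|)) →
    (∀ β, ∀ ζ, TOff L ζ → ∫ x, inner ℂ (S.Q0 β ζ x) (f x) = 0) →
    ∀ᵐ x ∂(volume : Measure (Cfg r)), f x = 0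

end Vale.Agent.P353.Z.AD
end

section

/-! # P353, all `N`, block C: crude bound on the slice — statements

A prover delivers the theorem named in the task in `Vale/Agent/P353/AN/C/<File>.lean`, importing this file and landed files of
`Z`, `Z/U`, `AN`, with the other statements as hypotheses. `C` denotes constants. Write `H = EH v`, `K = E1 v`, `n = ns2 v`. -/

open MeasureTheory Filter Topology
open scoped ContDiff

namespace Vale.Agent.P353.Z.AN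

variable {d dh dm : ℕ} {F : Type*} [NormedAddCommGroup F] [InnerProductSpace ℂ F]

/-- **C-CalcA** test functions on the slice. PROOF: smoothness of compositions with `y ↦ (y,w)`, `w ↦ (y,w)` (affine),
`fderiv` of `y' ↦ v y' w` is `fderiv (uncurried v) (y,w) ∘ inl`; support of a derivative is in the closed support. -/
structure CalcA (dh dm : ℕ) (F : Type*) [NormedAddCommGroup F] [InnerProductSpace ℂ F] : Prop where
  sly : ∀ v : Cfg dh → Wsp dm → F, Tst2 v → ∀ w, Setup.Tst fun y => v y w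
  slw : ∀ v : Cfg dh → Wsp dm → F, Tst2 v → ∀ y, FT (v y)
  zero : Tst2 (fun (_ : Cfg dh) (_ : Wsp dm) => (0 : F))
  add : ∀ u v : Cfg dh → Wsp dm → F, Tst2 u → Tst2 v → Tst2 fun y w => u y w + v y w
  sub : ∀ u v : Cfg dh → Wsp dm → F, Tst2 u → Tst2 v → Tst2 fun y w => u y w - v y w
  smul : ∀ (c : ℂ) (v : Cfg dh → Wsp dm → F), Tst2 v → Tst2 fun y w => c • v y w
  clm : ∀ (T : F →L[ℂ] F) (v : Cfg dh → Wsp dm → F), Tst2 v → Tst2 fun y w => T (v y w)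
  mul : ∀ (c : Cfg dh → Wsp dm → ℝ) (v : Cfg dh → Wsp dm → F), ContDiff ℝ ∞ (fun p : Cfg dh × Wsp dm => c p.1 p.2) →
    Tst2 v → Tst2 (mul2 c v)
  mulOn : ∀ (c : Cfg dh → ℝ) (v : Cfg dh → Wsp dm → F) (K U : Set (Cfg dh)), IsClosed K → IsOpen U → K ⊆ U →
    ContDiffOn ℝ ∞ c U → (∀ y w, v y w ≠ 0 → y ∈ K) → Tst2 v → Tst2 (mul2 (fun y _ => c y) v)
  py : ∀ (i : Fin 9) (A : Fin dh) (v : Cfg dh → Wsp dm → F), Tst2 v → Tst2 (py i A v)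
  pw : ∀ (j : Fin 8) (B : Fin dm) (v : Cfg dh → Wsp dm → F), Tst2 v → Tst2 (pw j B v)
  neg : ∀ v : Cfg dh → Wsp dm → F, Tst2 v → Tst2 fun y w => v y (-w)
  supy : ∀ (Y : Cfg dh) (ε R : ℝ) (i : Fin 9) (A : Fin dh) (v : Cfg dh → Wsp dm → F), Tst2 v → Sup2 Y ε R v →
    Sup2 Y ε R (Z.py i A v)
  supw : ∀ (Y : Cfg dh) (ε R : ℝ) (j : Fin 8) (B : Fin dm) (v : Cfg dh → Wsp dm → F), Tst2 v → Sup2 Y ε R v →
    Sup2 Y ε R (Z.pw j B v)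
  py_add : ∀ (i : Fin 9) (A : Fin dh) (u v : Cfg dh → Wsp dm → F), Tst2 u → Tst2 v → ∀ y w,
    Z.py i A (fun y w => u y w + v y w) y w = Z.py i A u y w + Z.py i A v y w
  pw_add : ∀ (j : Fin 8) (B : Fin dm) (u v : Cfg dh → Wsp dm → F), Tst2 u → Tst2 v → ∀ y w,
    Z.pw j B (fun y w => u y w + v y w) y w = Z.pw j B u y w + Z.pw j B v y w
  py_smul : ∀ (i : Fin 9) (A : Fin dh) (c : ℂ) (v : Cfg dh → Wsp dm → F), Tst2 v → ∀ y w,
    Z.py i A (fun y w => c • v y w) y w = c • Z.py i A v y w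
  pw_smul : ∀ (j : Fin 8) (B : Fin dm) (c : ℂ) (v : Cfg dh → Wsp dm → F), Tst2 v → ∀ y w,
    Z.pw j B (fun y w => c • v y w) y w = c • Z.pw j B v y w
  py_clm : ∀ (i : Fin 9) (A : Fin dh) (T : F →L[ℂ] F) (v : Cfg dh → Wsp dm → F), Tst2 v → ∀ y w,
    Z.py i A (fun y w => T (v y w)) y w = T (Z.py i A v y w)
  pw_clm : ∀ (j : Fin 8) (B : Fin dm) (T : F →L[ℂ] F) (v : Cfg dh → Wsp dm → F), Tst2 v → ∀ y w,
    Z.pw j B (fun y w => T (v y w)) y w = T (Z.pw j B v y w)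
  py_mw : ∀ (i : Fin 9) (A : Fin dh) (k : Fin 8 × Fin dm) (v : Cfg dh → Wsp dm → F), Tst2 v → ∀ y w,
    Z.py i A (mw k v) y w = ((w k : ℝ) : ℂ) • Z.py i A v y w
  pw_mw : ∀ (j : Fin 8) (B : Fin dm) (k : Fin 8 × Fin dm) (v : Cfg dh → Wsp dm → F), Tst2 v → ∀ y w,
    Z.pw j B (mw k v) y w = ((w k : ℝ) : ℂ) • Z.pw j B v y w + if k = (j, B) then v y w else 0
  py_mul : ∀ (i : Fin 9) (A : Fin dh) (c : Cfg dh → ℝ) (v : Cfg dh → Wsp dm → F), Tst2 v → ∀ y w, DifferentiableAt ℝ c y →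
    Z.py i A (mul2 (fun y _ => c y) v) y w = ((c y : ℝ) : ℂ) • Z.py i A v y w +
      ((fderiv ℝ c y (EuclideanSpace.single (i, A) 1) : ℝ) : ℂ) • v y w
  pw_mul : ∀ (j : Fin 8) (B : Fin dm) (c : Cfg dh → ℝ) (v : Cfg dh → Wsp dm → F), Tst2 v → ∀ y w,
    Z.pw j B (mul2 (fun y _ => c y) v) y w = ((c y : ℝ) : ℂ) • Z.pw j B v y w
  comm : ∀ (i : Fin 9) (A : Fin dh) (j : Fin 8) (B : Fin dm) (v : Cfg dh → Wsp dm → F), Tst2 v → ∀ y w,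
    Z.py i A (Z.pw j B v) y w = Z.pw j B (Z.py i A v) y w
  py_neg : ∀ (i : Fin 9) (A : Fin dh) (v : Cfg dh → Wsp dm → F), ∀ y w,
    Z.py i A (fun y w => v y (-w)) y w = Z.py i A v y (-w)
  pw_neg : ∀ (j : Fin 8) (B : Fin dm) (v : Cfg dh → Wsp dm → F), Tst2 v → ∀ y w,
    Z.pw j B (fun y w => v y (-w)) y w = -Z.pw j B v y (-w)

/-- **C-CalcB** integration on the slice. PROOF: continuous functions with compact support are integrable; Fubini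
(`MeasureTheory.integral_prod`, `integral_prod_symm`, `integral_prod_mul` …); integration by parts in one variable with the others
fixed (`Z/Tools`: `integral_inner_pd`, `Loc`); `w ↦ -w` preserves the measure; Cauchy–Schwarz pointwise. -/
structure CalcB (dh dm : ℕ) (F : Type*) [NormedAddCommGroup F] [InnerProductSpace ℂ F] : Prop where
  int_sq : ∀ v : Cfg dh → Wsp dm → F, Tst2 v → Integrable (fun p : Cfg dh × Wsp dm => ‖v p.1 p.2‖ ^ 2)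
    ((volume : Measure (Cfg dh)).prod (volume : Measure (Wsp dm)))
  int_ip : ∀ u v : Cfg dh → Wsp dm → F, Tst2 u → Tst2 v → Integrable (fun p : Cfg dh × Wsp dm => inner ℂ (u p.1 p.2) (v p.1 p.2))
    ((volume : Measure (Cfg dh)).prod (volume : Measure (Wsp dm)))
  yw : ∀ v : Cfg dh → Wsp dm → F, Tst2 v → Integrable (fun y => nsf (v y)) ∧ ns2 v = ∫ y, nsf (v y)
  wy : ∀ v : Cfg dh → Wsp dm → F, Tst2 v → Integrable (fun w => nsq (fun y => v y w)) ∧ ns2 v = ∫ w, nsq (fun y => v y w)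
  ip_wy : ∀ u v : Cfg dh → Wsp dm → F, Tst2 u → Tst2 v → ip2 u v = ∫ w, ∫ y, inner ℂ (u y w) (v y w)
  nonneg : ∀ v : Cfg dh → Wsp dm → F, 0 ≤ ns2 v
  ns_add : ∀ u v : Cfg dh → Wsp dm → F, Tst2 u → Tst2 v →
    ns2 (fun y w => u y w + v y w) = ns2 u + ns2 v + 2 * (ip2 u v).re
  ns_add_le : ∀ u v : Cfg dh → Wsp dm → F, Tst2 u → Tst2 v →
    ns2 (fun y w => u y w + v y w) ≤ 2 * ns2 u + 2 * ns2 v
  ns_add_ge : ∀ u v : Cfg dh → Wsp dm → F, Tst2 u → Tst2 v →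
    (1 / 2) * ns2 u - ns2 v ≤ ns2 (fun y w => u y w + v y w)
  ns_smul : ∀ (c : ℂ) (v : Cfg dh → Wsp dm → F), ns2 (fun y w => c • v y w) = ‖c‖ ^ 2 * ns2 v
  ns_neg : ∀ v : Cfg dh → Wsp dm → F, ns2 (fun y w => v y (-w)) = ns2 v
  le_sum : ∀ (ι : Type) [Fintype ι] (c : ι → ℝ) (u : Cfg dh → Wsp dm → F) (v : ι → Cfg dh → Wsp dm → F), Tst2 u → (∀ l, Tst2 (v l)) →
    (∀ y w, ‖u y w‖ ^ 2 ≤ ∑ l, c l * ‖v l y w‖ ^ 2) → ns2 u ≤ ∑ l, c l * ns2 (v l)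
  mono : ∀ (c : ℝ) (u v : Cfg dh → Wsp dm → F), Tst2 u → Tst2 v → (∀ y w, ‖u y w‖ ^ 2 ≤ c * ‖v y w‖ ^ 2) → ns2 u ≤ c * ns2 v
  cs : ∀ (s : ℝ) (u v : Cfg dh → Wsp dm → F), 0 < s → Tst2 u → Tst2 v → 2 * |(ip2 u v).re| ≤ s * ns2 u + s⁻¹ * ns2 v
  conj : ∀ u v : Cfg dh → Wsp dm → F, ip2 u v = (starRingEnd ℂ) (ip2 v u)
  ip_add : ∀ u v z : Cfg dh → Wsp dm → F, Tst2 u → Tst2 v → Tst2 z →
    ip2 u (fun y w => v y w + z y w) = ip2 u v + ip2 u z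
  ip_smul : ∀ (c : ℂ) (u v : Cfg dh → Wsp dm → F), ip2 u (fun y w => c • v y w) = c * ip2 u v
  ip_mul : ∀ (c : Cfg dh → Wsp dm → ℝ) (u v : Cfg dh → Wsp dm → F), ip2 (mul2 c u) v = ip2 u (mul2 c v)
  ibp_y : ∀ (i : Fin 9) (A : Fin dh) (u v : Cfg dh → Wsp dm → F), Tst2 u → Tst2 v → ip2 (py i A u) v = -ip2 u (py i A v)
  ibp_w : ∀ (j : Fin 8) (B : Fin dm) (u v : Cfg dh → Wsp dm → F), Tst2 u → Tst2 v → ip2 (pw j B u) v = -ip2 u (pw j B v)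
  refl : ∀ u v : Cfg dh → Wsp dm → F, ip2 (fun y w => u y (-w)) (fun y w => v y (-w)) = ip2 u v
  W2_eq : ∀ v : Cfg dh → Wsp dm → F, Tst2 v → W2 v = ∑ k, ns2 (mw k v)
  W2_yw : ∀ v : Cfg dh → Wsp dm → F, Tst2 v → Integrable (fun y => nsf (fun w => ((‖w‖ : ℝ) : ℂ) • v y w)) ∧
    W2 v = ∫ y, nsf (fun w => ((‖w‖ : ℝ) : ℂ) • v y w)

/-- **C-Op** the operators on test functions. PROOF: CalcA; the coefficients `(D_8⁻¹)_{BC}(y)` are smooth on the open set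
`{det D_8 ≠ 0} ⊇ {|y - RY| ≤ ε0 R}` (`mulOn`; inverse = `det⁻¹ • adjugate`), `∂ log J` likewise. `Q^h`: coefficients polynomial in `y`.
Symmetry of `Q^h`: `ibp_y`, `S.vec_symm`, reality of `γ, γ^{ij}, N`. -/
structure OpFacts (S : Setup d F) (φ : Spl dh dm d) (N : Fin 9 → Matrix (Fin 16) (Fin 16) ℂ) (Y : Cfg dh) (ε0 : ℝ) : Prop where
  th : ∀ v : Cfg dh → Wsp dm → F, Tst2 v → ∀ m β, Tst2 (S.Qhm φ N m β v)
  tm : ∀ v : Cfg dh → Wsp dm → F, Tst2 v → ∀ β, Tst2 (fun y w => S.Mw φ N β w (v y w))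
  t1 : ∀ R : ℝ, 0 < R → ∀ v : Cfg dh → Wsp dm → F, Tst2 v → Sup2 Y ε0 R v → ∀ β, Tst2 (S.Q1 φ β v)
  tr : ∀ R : ℝ, 0 < R → ∀ v : Cfg dh → Wsp dm → F, Tst2 v → Sup2 Y ε0 R v → ∀ β, Tst2 (S.Qr φ β v)
  ts : ∀ R : ℝ, 0 < R → ∀ v : Cfg dh → Wsp dm → F, Tst2 v → Sup2 Y ε0 R v → ∀ m β, Tst2 (S.QS φ N m β v)
  suh : ∀ (ε R : ℝ) (v : Cfg dh → Wsp dm → F), Tst2 v → Sup2 Y ε R v → ∀ m β, Sup2 Y ε R (S.Qhm φ N m β v)
  su1 : ∀ (ε R : ℝ) (v : Cfg dh → Wsp dm → F), Tst2 v → Sup2 Y ε R v → ∀ β, Sup2 Y ε R (S.Q1 φ β v)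
  symm : ∀ u v : Cfg dh → Wsp dm → F, Tst2 u → Tst2 v → ∀ m β, ip2 (S.Qhm φ N m β u) v = ip2 u (S.Qhm φ N m β v)

def OpStmt (S : Setup d F) (φ : Spl dh dm d) : Prop := ∀ N : Fin 9 → Matrix (Fin 16) (Fin 16) ℂ,
  (∀ i α β, (N i α β).im = 0) → ∀ (Y : Cfg dh) (ε0 C0 : ℝ), 0 < ε0 → S.CoefBd φ Y ε0 C0 → OpFacts S φ N Y ε0

/-- **C-Coef** PROOF: `BdStmt S` gives `det`, `inv`, `rem`. `dy`: `Dy` is linear in `y`, `|y| ≤ (|Y| + ε0)R`. `dcf`: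
`∂(D_8⁻¹D_j) = -D_8⁻¹(∂D_8)D_8⁻¹D_j + D_8⁻¹∂D_j`, `∂D_j` constant, entries `O(1/R)`, `D_8⁻¹D_j = O(1)`. -/
def CoefStmt (S : Setup d F) (φ : Spl dh dm d) : Prop := ∀ Y : Cfg dh, Std S φ Y →
  ∃ ε0 C : ℝ, 0 < ε0 ∧ 0 ≤ C ∧ S.CoefBd φ Y ε0 C

/-- **C-Fib** fibre facts near `R Y`, from `FibStmt S φ` (block B) and `OmStmt`. PROOF: `D0 = DY φ Y` is frozen: antisymmetric by
`f_swap`, `f_cyc`; `[D_i(Y), D_j(Y)] = ad [Y_i, Y_j] = 0` by Jacobi, `Std.sub` and `Std.cen`; `Std.inv`. `|D_i(y) - R D_i(Y)| ≤ C|y - RY|`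
(linear). Note `DY φ y = fun i => S.Dy φ i y`, `e1` contains the factor `1/16`. -/
def FibOutStmt (S : Setup d F) (φ : Spl dh dm d) : Prop := ∀ _ : FiniteDimensional ℂ F, ∀ Y : Cfg dh, Std S φ Y →
  ∃ (Om : Matrix (Fin dm) (Fin dm) ℝ) (ε0 C : ℝ), IsOm S.κ (S.DY φ Y) Om ∧ Frz (S.DY φ Y) ∧ 0 < ε0 ∧ 0 ≤ C ∧
    S.FibFacts φ Y ε0 C ∧
    ∀ R : ℝ, 0 < R → ∀ ε : ℝ, 0 ≤ ε → ε ≤ ε0 → ∀ y : Cfg dh, ‖y - R • Y‖ ≤ ε * R → ∀ f : Wsp dm → F, FT f →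
      (R * nsf (fun w => f w - S.PR φ (S.DY φ Y) Om R f w) ≤ C * (S.e1 φ (S.DY φ y) f + ε ^ 2 * R * nsf f)) ∧
      ∀ β, nsf (fun w => S.q1 φ (S.DY φ y) β f w - S.q1 φ (fun i => R • S.Dy φ i Y) β f w) ≤
        C * ε ^ 2 * (S.e1 φ (S.DY φ y) f + R * nsf f)

/-- **C-FInt** integrated fibre facts. PROOF: `Q1_eq` (block B), integrate F1, F3 over `y` (CalcB `yw`); for `|y - RY| > ε0 R` the
function `v y` vanishes. `E1 v = 16 ∫ e1 (DY y) (v y) dy`. -/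
def FIntStmt (S : Setup d F) (φ : Spl dh dm d) : Prop := ∀ (Y : Cfg dh) (ε0 C0 C1 : ℝ), 0 < ε0 → S.CoefBd φ Y ε0 C0 →
  S.FibFacts φ Y ε0 C1 → 0 ≤ C1 → ∀ R : ℝ, 0 < R → ∀ v : Cfg dh → Wsp dm → F, Tst2 v → Sup2 Y ε0 R v →
    (D2w v + R ^ 2 * W2 v ≤ C1 * (S.E1 φ v + R * ns2 v)) ∧
    ((∀ y w, v y (-w) = -v y w) → R * ns2 v ≤ C1 * S.E1 φ v)

/-- **C-Cross** the cross term: `{Q^h, Q¹}` only contains `∂_y` of the coefficients of `Q¹`.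
PROOF. `Q¹_β g = ∑_k c_k(y) L_k g` with real functions `c_k` (`1`; `(D_8⁻¹D_j)_{BE}(y)`; `(D_i(y))_{BC}`) and operators `L_k`
(`-i(γ^jθ^B)_β∂_j^B`; `i(γ^8θ^B)_β∂_j^E`; `±½κ w_j^C(γ^{ij}θ^B)_β`) which do not contain `y`, are symmetric (`ip2 (L a) b = ip2 a (L b)`),
anticommute with all `θ^A`, `A ∈ h`, commute with functions of `y` and with `∂_y`; so with `T = Q^h_β` (with mass): `T L g = -L T g`, and
`T(c g) = c T g - i∑_{iA}(∂_{iA}c)Γ g`, `Γ = (γ^iθ^A)_β` (`c` differentiable on the support of `g`; elsewhere both sides vanish). Hence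
`⟨Tb, cLa⟩ = ⟨b, T(cLa)⟩ = ⟨b, cTLa⟩ - i∑⟨b,(∂c)ΓLa⟩ = -⟨b, cLTa⟩ + i∑⟨b,(∂c)LΓa⟩ = -⟨cLb, Ta⟩ + i∑⟨Lb,(∂c)Γa⟩` and
`⟨cLb, Ta⟩ = conj⟨Ta, cLb⟩`, so `Re(⟨Ta, cLb⟩ + ⟨Tb, cLa⟩) = Re(i∑_{iA}⟨Lb,(∂_{iA}c)Γa⟩)`. Now `|∂c| ≤ C/R` for the `∂_w` terms (`dcf`),
`≤ C` for the `w` terms (`D_i` is linear in `y`), `0` for `c = 1`; Cauchy–Schwarz with `s`. -/
def CrossStmt (S : Setup d F) (φ : Spl dh dm d) : Prop := ∀ N : Fin 9 → Matrix (Fin 16) (Fin 16) ℂ,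
  (∀ i α β, (N i α β).im = 0) → ∀ (Y : Cfg dh) (ε0 C0 : ℝ), 0 < ε0 → 0 ≤ C0 → S.CoefBd φ Y ε0 C0 →
  ∃ C : ℝ, 0 ≤ C ∧ ∀ R : ℝ, 1 ≤ R → ∀ m : ℝ, ∀ a b : Cfg dh → Wsp dm → F, Tst2 a → Tst2 b → Sup2 Y ε0 R a →
    Sup2 Y ε0 R b → ∀ s : ℝ, 0 < s →
      |∑ β, (ip2 (S.Qhm φ N m β a) (S.Q1 φ β b) + ip2 (S.Qhm φ N m β b) (S.Q1 φ β a)).re| ≤
        C * (s * ns2 a + s⁻¹ * (1 / R ^ 2 * D2w b + W2 b))

/-- **C-Par** parity `w ↦ -w`: `Q^h` is even, `Q¹` is odd. PROOF: CalcA `py_neg`, `pw_neg`, `FL` is linear in `w`, CalcB `refl`. -/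
def ParStmt (S : Setup d F) (φ : Spl dh dm d) : Prop := ∀ N : Fin 9 → Matrix (Fin 16) (Fin 16) ℂ,
  (∀ i α β, (N i α β).im = 0) → ∀ (Y : Cfg dh) (ε0 C0 : ℝ), 0 < ε0 → S.CoefBd φ Y ε0 C0 → ∀ R : ℝ, 0 < R → ∀ m : ℝ,
  ∀ v : Cfg dh → Wsp dm → F, Tst2 v → Sup2 Y ε0 R v →
    Tst2 (evp v) ∧ Tst2 (odp v) ∧ Sup2 Y ε0 R (evp v) ∧ Sup2 Y ε0 R (odp v) ∧ (∀ y w, odp v y (-w) = -odp v y w) ∧
    ns2 v = ns2 (evp v) + ns2 (odp v) ∧ S.E1 φ v = S.E1 φ (evp v) + S.E1 φ (odp v) ∧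
    ∑ β, (ip2 (S.Qhm φ N m β v) (S.Q1 φ β v)).re =
      ∑ β, (ip2 (S.Qhm φ N m β (evp v)) (S.Q1 φ β (odp v)) + ip2 (S.Qhm φ N m β (odp v)) (S.Q1 φ β (evp v))).re

/-- **C-Gen** energy identity for a multiplier given by smooth real matrices. PROOF: as `Z/U/EnGen` (`sum_QTQT`, `energy_QT`), with
`NX N x A` replaced by `t A x`: `∑_β(Q0_β + T_β)² = -8Δ + ½∑_A tr(t^A t^{Aᵀ}) + Z`, `Z = -i∑_β∑_{jB}(γ^jθ^B)_β (∑_A (∂_{jB}t^A θ^A)_β)`. -/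
def GenStmt (S : Setup d F) : Prop := ∀ t : Fin d → Cfg d → Matrix (Fin 16) (Fin 16) ℂ,
  (∀ A α β, ContDiff ℝ ∞ (fun x => t A x α β)) → (∀ A x α β, (t A x α β).im = 0) → (∀ i A x, (S.g i * (t A x).transpose).trace = 0) →
  ∀ u : Cfg d → F, Setup.Tst u →
    ∑ β, nsq (fun x => S.Q0 β u x + ∑ A, S.vec (t A x) A β (u x)) =
      8 * (∑ i, ∑ A, nsq (pd i A u)) + (1 / 2) * (∫ x, (∑ A, (t A x * (t A x).transpose).trace).re * ‖u x‖ ^ 2) +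
      (∫ x, inner ℂ (u x) ((-Complex.I) • ∑ β, ∑ j, ∑ B, S.vec (S.g j) B β
        (∑ A, S.vec (Matrix.of fun α α' => fderiv ℝ (fun z => t A z α α') x (EuclideanSpace.single (j, B) 1)) A β
          (u x)))).re

/-- **C-EnH** gradient bound for the block model with mass. PROOF: for fixed `w` apply `GenStmt (S.sub φ h)` to `y ↦ v y w` with
`t^A(y) = ½∑_{ij}F^A_{ij}(y)γ^{ij} + m∑_iy_i^AN_i`: the second term is `≥ 0` (`tr(tt^*)`, `t` real), the last one `≥ -C(1+|y|)|u|²`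
(`m ≤ 1`); `tr(γ^kγ^{ij}ᵀ) = 0`. Integrate over `w` (CalcB `wy`). `S.Qh φ β v y w = (S.sub φ h).Q β (fun y' => v y' w) y`. -/
def EnHStmt (S : Setup d F) (φ : Spl dh dm d) : Prop := S.IsSub φ → ∀ N : Fin 9 → Matrix (Fin 16) (Fin 16) ℂ, S.IsMass N →
  ∃ C : ℝ, 0 ≤ C ∧ ∀ m : ℝ, 0 ≤ m → m ≤ 1 → ∀ v : Cfg dh → Wsp dm → F, Tst2 v →
    ∀ L : ℝ, 0 ≤ L → (∀ y w, v y w ≠ 0 → ‖y‖ ≤ L) → D2y v ≤ C * (S.EH φ N m v + (1 + L) * ns2 v)

/-- **C-Mass** gain from the mass in a central direction `c` (unit vector). PROOF. `∂_c = ∑c_A∂^A`, `θ_c = ∑c_Aθ^A`, `y_c = ∑c_Ay^A`.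
`Q^h_β + mM_β = Q^c_β + Q'_β`, `Q^c_β = -i∑_i(γ^iθ_c)_β∂_{i,c} + m∑_iy_{i,c}(N_iθ_c)_β`; `Q'_β` contains only `θ^A - c_Aθ_c`, `∂^A - c_A∂_c`,
`y^A - c_Ay_c` and `F^A_{ij}` (which does not depend on `y_c` and has `∑c_AF^A = 0`, since `c` is central), so `Q^cQ' + Q'Q^c = 0` for every `β`,
both symmetric: `∑|Q^h_βv|² = ∑|Q^cv|² + ∑|Q'v|² ≥ ∑|Q^cv|²`. And (as in `GenStmt` with one colour)
`∑_β|Q^c_βv|² = 8∑_i|∂_{i,c}v|² + ½m²∫∑y_{i,c}y_{j,c}tr(N_iN_jᵀ)|v|² + m⟨v,Z_0v⟩` with a constant matrix `Z_0`; use `IsMass.pos`.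
(Alternative: rotate the colour basis of `S.sub φ h` with `Setup.rot 1 O` so that `c` is a basis vector.) -/
def MassStmt (S : Setup d F) (φ : Spl dh dm d) : Prop := S.IsSub φ → ∀ N : Fin 9 → Matrix (Fin 16) (Fin 16) ℂ, S.IsMass N →
  ∀ c : Fin dh → ℝ, (∑ A, c A ^ 2 = 1) →
    (∀ B C, ∑ A, S.f (φ (Sum.inl A)) (φ (Sum.inl B)) (φ (Sum.inl C)) * c A = 0) →
  ∃ C : ℝ, 0 ≤ C ∧ ∀ m : ℝ, 0 ≤ m → m ≤ 1 → ∀ v : Cfg dh → Wsp dm → F, Tst2 v → ∀ L : ℝ, 0 ≤ L →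
    (∀ y w, v y w ≠ 0 → L ^ 2 ≤ ∑ i, (∑ A, c A * y (i, A)) ^ 2) →
      8 * m ^ 2 * L ^ 2 * ns2 v ≤ S.EH φ N m v + C * m * ns2 v

/-- **C-Rem** the remainder. PROOF. `|r_β| ≤ |Q^rv| + m|M^wv|`, `|M^wv| ≤ C|w||v|`, `CoefBd.rem`. With `g_k = w_kv` (`mw k v`):
(i) `W2 v ≤ CR⁻²(K + Rn)`, `D2w v ≤ C(K + Rn)` (FInt). (ii) `Q¹(w_kv) = w_kQ¹v + B_kv`, `|B_k| ≤ C` (`D_8⁻¹D_j = O(1)`), `|w_k| ≤ εR` on the
support, so `∑_kE1 g_k ≤ Cε²R²K + Cn`. (iii) FInt for `g_k`: `∑_kD2w g_k + R²‖|w|²v‖² ≤ C(ε²R²K + n + R·W2 v) ≤ C((ε²R² + R⁻¹)K + n)`;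
`w_k∂_lv = ∂_l(w_kv) - δ_{kl}v`. (iv) `Q^h(w_kv) = w_kQ^hv`, so `∑_kEH g_k ≤ Cε²R²H`; EnH for `g_k` (`L = CR`): `‖|w|∂_yv‖² = ∑_kD2y g_k ≤
C(ε²R²H + R·W2 v) ≤ C(ε²R²H + R⁻¹K + n)`. Sum: `∑|r_β|² ≤ C(ε² + R⁻³)(H + K) + CR⁻²n + Cm²R⁻²(K + Rn)`. -/
def RemStmt (S : Setup d F) (φ : Spl dh dm d) : Prop := S.IsSub φ → ∀ N : Fin 9 → Matrix (Fin 16) (Fin 16) ℂ, S.IsMass N →
  ∀ (Y : Cfg dh) (ε0 C0 C1 : ℝ), 0 < ε0 → 0 ≤ C0 → S.CoefBd φ Y ε0 C0 → S.FibFacts φ Y ε0 C1 → 0 ≤ C1 →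
  ∃ C : ℝ, 0 ≤ C ∧ ∀ ε : ℝ, 0 < ε → ε ≤ ε0 → ∀ R : ℝ, 1 ≤ R → ∀ m : ℝ, 0 ≤ m → m ≤ 1 →
    ∀ v : Cfg dh → Wsp dm → F, Tst2 v → Sup2 Y ε R v →
      ∑ β, ns2 (fun y w => S.Qr φ β v y w + (m : ℂ) • S.Mw φ N β w (v y w)) ≤
        C * (ε ^ 2 + 1 / R ^ 2) * (S.EH φ N m v + S.E1 φ v) + C * (1 / R ^ 2 + m ^ 2 / R) * ns2 v

/-- **C-Crude** the crude bound (S3). PROOF. `∑|Qv|² ≥ ½∑|(Q^h + Q¹)v|² - ∑|r_βv|²`; `∑|(Q^h+Q¹)v|² = H + K + 2X`, by C-Par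
`X = Re∑(⟨Q^hv_e,Q¹v_o⟩ + ⟨Q^hv_o,Q¹v_e⟩)`, by C-Cross `|X| ≤ C(s n(v_e) + s⁻¹(R⁻²D2w v_o + W2 v_o)) ≤ C s n + C s⁻¹R⁻²K(v_o)` (FInt for the odd
function `v_o`: `D2w v_o + R²W2 v_o ≤ C(K(v_o) + R n(v_o)) ≤ CK(v_o)`); `s = C'R⁻²`: `|X| ≤ ¼K + CR⁻²n`. Then C-Rem, `ε0` small, `R0` large. -/
def CrudeStmt (S : Setup d F) (φ : Spl dh dm d) : Prop := ∀ _ : FiniteDimensional ℂ F,
  ∀ N : Fin 9 → Matrix (Fin 16) (Fin 16) ℂ, S.IsMass N → ∀ (Y : Cfg dh) (ε0 C0 C1 : ℝ), Std S φ Y → 0 < ε0 → 0 ≤ C0 →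
  S.CoefBd φ Y ε0 C0 → S.FibFacts φ Y ε0 C1 → 0 ≤ C1 →
  ∃ ε1 R0 C : ℝ, 0 < ε1 ∧ ε1 ≤ ε0 ∧ 1 ≤ R0 ∧ 0 ≤ C ∧
    ∀ R : ℝ, R0 ≤ R → ∀ m : ℝ, 0 ≤ m → m ≤ 1 → ∀ v : Cfg dh → Wsp dm → F, Tst2 v → Sup2 Y ε1 R v →
      S.EH φ N m v + S.E1 φ v ≤ C * (S.ES φ N m v + (1 / R ^ 2 + m ^ 2 / R) * ns2 v)

/-- **C-Out** OUTPUT OF BLOCK C. PROOF: CoefStmt, FibOutStmt, CrudeStmt, FInt, EnH, Mass (`c = Y_8/|Y_8|`; `Y_8 ≠ 0` since `D_8(Y)` is
invertible and `0 < dm`; `|y_8 - RY_8| ≤ εR`), integration of the fibre inequalities over `y`. `PR` commutes with nothing in `y`. -/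
def OutStmt (S : Setup d F) (φ : Spl dh dm d) : Prop := ∀ _ : FiniteDimensional ℂ F,
  ∀ N : Fin 9 → Matrix (Fin 16) (Fin 16) ℂ, S.IsMass N → ∀ Y : Cfg dh, Std S φ Y →
  ∃ (Om : Matrix (Fin dm) (Fin dm) ℝ) (ε0 R0 C : ℝ), IsOm S.κ (S.DY φ Y) Om ∧ Frz (S.DY φ Y) ∧ 0 < ε0 ∧ 1 ≤ R0 ∧ 0 < C ∧
    ∀ ε : ℝ, 0 < ε → ε ≤ ε0 → ∀ R : ℝ, R0 ≤ R → ∀ m : ℝ, 0 ≤ m → m ≤ 1 →
    ∀ v : Cfg dh → Wsp dm → F, Tst2 v → Sup2 Y ε R v →
      (S.EH φ N m v + S.E1 φ v ≤ C * (S.ES φ N m v + (1 / R ^ 2 + m ^ 2 / R) * ns2 v)) ∧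
      (D2w v + R ^ 2 * W2 v ≤ C * (S.E1 φ v + R * ns2 v)) ∧
      (D2y v ≤ C * (S.EH φ N m v + R * ns2 v)) ∧
      (R * ns2 (fun y w => v y w - S.PR φ (S.DY φ Y) Om R (v y) w) ≤ C * (S.E1 φ v + ε ^ 2 * R * ns2 v)) ∧
      (∀ β, ns2 (fun y w => S.Q1 φ β v y w - S.q1 φ (fun i => R • S.Dy φ i Y) β (v y) w) ≤
        C * ε ^ 2 * (S.E1 φ v + R * ns2 v)) ∧
      (0 < dm → m ^ 2 * R ^ 2 * ns2 v ≤ C * (S.EH φ N m v + m * ns2 v))

/-- mass matrices in the standard frame: `a_i γ^i Γ` -/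
noncomputable def N0 (S : Setup d F) (i : Fin 9) : Matrix (Fin 16) (Fin 16) ℂ := ((aw i : ℝ) : ℂ) • (S.g i * S.Gam)

/-- mass matrices in a rotated frame -/
noncomputable def rotN (R : Matrix (Fin 9) (Fin 9) ℝ) (N : Fin 9 → Matrix (Fin 16) (Fin 16) ℂ) (i : Fin 9) :
    Matrix (Fin 16) (Fin 16) ℂ := ∑ j, ((R i j : ℝ) : ℂ) • N j

/-- **C-Frame** mass operator in rotated frames and on the slice. PROOF: `Γ = γ^0γ^1γ^2` is real, `ΓΓᵀ = 1`,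
`tr(γ^i(γ^jΓ)ᵀ) = tr(γ^iΓᵀγ^j) = 0` (product of 1, 3 or 5 different gammas: insert `γ^k` anticommuting with it, `Z/Gam`), `tr(γ^iΓΓᵀγ^j) = 16δ_{ij}`,
`a_i ≥ 1`; orthogonality of `R`, `O`. Last part: A3 (`DecStmt S`) and `S.Mx N β (emb φ y w) = Mh + Mw`. -/
def FrameStmt (S : Setup d F) : Prop := S.IsMass (N0 S) ∧ (∀ β x, S.MM β x = S.Mx (N0 S) β x) ∧
  ∀ N : Fin 9 → Matrix (Fin 16) (Fin 16) ℂ,
  (∀ (R : Matrix (Fin 9) (Fin 9) ℝ) (hR : R * R.transpose = 1) (O : Matrix (Fin d) (Fin d) ℝ) (hO : O * O.transpose = 1),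
    S.IsMass N → (S.rot R hR O hO).IsMass (rotN R N) ∧
      ∀ β x, (S.rot R hR O hO).Mx (rotN R N) β (rox R O x) = S.Mx N β x) ∧
  ∀ (dh dm : ℕ) (φ : Spl dh dm d), (∀ β (y : Cfg dh) (w : Wsp dm), S.Mx N β (emb φ y w) = S.Mh φ N β y + S.Mw φ N β w) ∧
    (S.IsSub φ → DecStmt S → ∀ u : Cfg d → F, ContDiff ℝ ∞ u → (∀ C x, S.G C u x = 0) → ∀ (m : ℝ) (β : Fin 16) (y : Cfg dh) (w : Wsp dm),
      (S.Dy φ 8 y).det ≠ 0 →
      S.res φ (fun x => S.Q β u x + (m : ℂ) • S.Mx N β x (u x)) y w = S.QS φ N m β (S.res φ u) y w)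

end Vale.Agent.P353.Z.AN
end

section

/-! # P353, all `N`, block D: LOCAL compactness at a standard position (statements)

Data: `S : Setup d F` (already rotated), `φ : Spl dh dm d`, `ψ : Spl ds dz dh`, `z₀ : Cfg dz`, `h : Std2 S φ ψ z₀`, `y₀ = cmb ψ 0 z₀`,
`Y = emb φ y₀ 0`. A point of the slice is `(y, w)`, `y = cmb ψ ys yz`, `ys = sp ψ y`, `yz = zp ψ y`. A prover delivers
`theorem <name> … : XStmt …` in `Vale/Agent/P353/AN/D/<File>.lean`, importing this file and landed files of `Z`, `Z/U`, `AN`, with other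
statements only as hypotheses. -/

open MeasureTheory Filter Topology Matrix
open scoped ContDiff

namespace Vale.Agent.P353.Z.AD

variable {d dh dm ds dz r : ℕ} {F : Type*} [NormedAddCommGroup F] [InnerProductSpace ℂ F]

/-- the `s` part of `y` -/
noncomputable def sp (ψ : Spl ds dz dh) (y : Cfg dh) : Cfg ds := WithLp.toLp 2 fun p => y (p.1, ψ (Sum.inl p.2))

/-- the `z` part of `y` -/
noncomputable def zp (ψ : Spl ds dz dh) (y : Cfg dh) : Cfg dz := WithLp.toLp 2 fun p => y (p.1, ψ (Sum.inr p.2))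

/-- supercharge of `s` on slice functions -/
noncomputable def Qss {S : Setup d F} {φ : Spl dh dm d} {ψ : Spl ds dz dh} {z₀ : Cfg dz} (h : Std2 S φ ψ z₀) (β : Fin 16)
    (v : Cfg dh → Wsp dm → F) (y : Cfg dh) (w : Wsp dm) : F :=
  h.ss.Q β (fun ys => v (cmb ψ ys (zp ψ y)) w) (sp ψ y)

/-- boson density of the vacuum at the scalar point `yz`, normalised in `L²(dw)` -/
noncomputable def gn (S : Setup d F) (φ : Spl dh dm d) (ψ : Spl ds dz dh) (yz : Cfg dz) (w : Wsp dm) : ℝ :=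
  gR (Dz S φ ψ yz) (omc S.κ (Dz S φ ψ yz)) 1 w / Real.sqrt (∫ w', gR (Dz S φ ψ yz) (omc S.κ (Dz S φ ψ yz)) 1 w' ^ 2)

/-- projection onto the fermionic vacuum space at the scalar point `yz` -/
noncomputable def Pz [FiniteDimensional ℂ F] (S : Setup d F) (φ : Spl dh dm d) (ψ : Spl ds dz dh) (yz : Cfg dz) : F →L[ℂ] F :=
  (S.F0 φ (Dz S φ ψ yz) (omc S.κ (Dz S φ ψ yz))).starProjection

/-- vacuum coefficient `∫ g_{yz}(w) Π_{F0(yz)} v(ys,yz,w) dw` -/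
noncomputable def sec [FiniteDimensional ℂ F] (S : Setup d F) (φ : Spl dh dm d) (ψ : Spl ds dz dh)
    (v : Cfg dh → Wsp dm → F) (yz : Cfg dz) (ys : Cfg ds) : F :=
  ∫ w, ((gn S φ ψ yz w : ℝ) : ℂ) • Pz S φ ψ yz (v (cmb ψ ys yz) w)

/-- **L0** coordinates. PROOF: permutation of coordinates (`AN/A/Coo.lean` is the model). -/
def CmbStmt : Prop := ∀ (ds dz dh : ℕ) (ψ : Spl ds dz dh),
  (∀ ys yz, sp ψ (cmb ψ ys yz) = ys) ∧ (∀ ys yz, zp ψ (cmb ψ ys yz) = yz) ∧ (∀ y, cmb ψ (sp ψ y) (zp ψ y) = y) ∧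
  (∀ ys yz, ‖cmb ψ ys yz‖ ^ 2 = ‖ys‖ ^ 2 + ‖yz‖ ^ 2) ∧
  (∀ ys yz ys' yz', cmb ψ ys yz - cmb ψ ys' yz' = cmb ψ (ys - ys') (yz - yz')) ∧
  (∀ (c : ℝ) ys yz, c • cmb ψ ys yz = cmb ψ (c • ys) (c • yz)) ∧
  MeasurePreserving (fun p : Cfg ds × Cfg dz => cmb ψ p.1 p.2) (volume.prod volume) volume

/-- **L1** standard position with split centraliser. PROOF: `AN/A/Std.lean` (`StdStmt`) plus an orthonormal basis of `h` adapted to
`h = s ⊕ z`, `z = {v ∈ h : [v,h] = 0}`, `s = z^⊥ ∩ h` (`s` is an ideal of `h` because `f` is totally antisymmetric; its centre is central in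
`h`, hence in `z ∩ s = 0`); `Y_i ∈ z` by `Cen`. -/
def Std2Stmt (S : Setup d F) : Prop := ∀ Y : Cfg d, S.V Y = 0 →
  ∃ (R : Matrix (Fin 9) (Fin 9) ℝ) (hR : R * R.transpose = 1)
    (O : Matrix (Fin d) (Fin d) ℝ) (hO : O * O.transpose = 1) (dh dm ds dz : ℕ) (φ : Spl dh dm d) (ψ : Spl ds dz dh) (z₀ : Cfg dz),
    Std2 (S.rot R hR O hO) φ ψ z₀ ∧ rox R O Y = emb φ (cmb ψ 0 z₀) 0

/-- **L2** geometry near `Y`. PROOF. (a) `cz S Y = h` (`Std.cen`, `Std.inv`: `[v,Y_8] = 0` forces `v_m = 0`). (b) `V(emb y w) = 0` means all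
`F_{ij} = 0`; the `m`-part of `F_{8j}` is `κD_8(y)w_j` (`w_8 = 0`), so `w = 0`; then `v ∈ cz` has `v_m = 0` (`[v,y_8] = 0`) and `v ∈ h` commutes with
all `ys_i`; if `ys ≠ 0` this is a proper subspace of `h` (`less`). (c) `ro (exp (ad a))` preserves the bracket (`Z/U/GrpExp`), so it preserves
`V` and maps centralisers to centralisers; it is linear and isometric. -/
def GeoStmt (S : Setup d F) : Prop := ∀ (dh dm ds dz : ℕ) (φ : Spl dh dm d) (ψ : Spl ds dz dh) (z₀ : Cfg dz), Std2 S φ ψ z₀ →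
  cd S (emb φ (cmb ψ 0 z₀) 0) = dh ∧
  (∀ y w, (S.Dy φ 8 y).det ≠ 0 → S.V (emb φ y w) = 0 → sp ψ y ≠ 0 → cd S (emb φ y w) < dh) ∧
  ∀ (a : Fin d → ℝ) (x : Cfg d), S.V (ro (NormedSpace.exp (S.adm a)) x) = S.V x ∧
    cd S (ro (NormedSpace.exp (S.adm a)) x) = cd S x ∧ ‖ro (NormedSpace.exp (S.adm a)) x‖ = ‖x‖

/-- **L3** far part: if all points with smaller centraliser (and all non commuting points) are null, the mass of `res u_n` over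
`{(y,w) ∈ Nb : |ys| ≥ ηR}` tends to zero. PROOF. The set `K = {tub a (y,w) : |a| ≤ ρ, |y-y₀| ≤ ε, |w| ≤ ε, |ys| ≥ η}` is compact, does not
contain `0`, every point of it is non commuting or has `cd < dh` (L2), so it is covered by finitely many balls `ball Y_i ε_i` with
`mas (ball (R Y_i) (ε_iR)) → 0`. `TubeStmt S` with `f = 1_{tube over the region}‖u‖²` (norm constant along `exp(ad a)`, `gx983_norm`). -/
def FarStmt (S : Setup d F) : Prop := ∀ (dh dm ds dz : ℕ) (φ : Spl dh dm d) (ψ : Spl ds dz dh) (z₀ : Cfg dz), Std2 S φ ψ z₀ →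
  ∃ ε₀ : ℝ, 0 < ε₀ ∧ ∀ ε : ℝ, 0 < ε → ε ≤ ε₀ → ∀ η : ℝ, 0 < η → ∀ (R : ℕ → ℝ) (u : ℕ → Cfg d → F), Sq S R u →
    (∀ Y', S.V Y' ≠ 0 → Nul R u Y') → (∀ Y', Y' ≠ 0 → S.V Y' = 0 → cd S Y' < dh → Nul R u Y') →
    Tendsto (fun n => ∫ p in AN.Nb (cmb ψ 0 z₀) dm (R n) ε ∩ {p | η * R n ≤ ‖sp ψ p.1‖},
      ‖S.res φ (u n) p.1 p.2‖ ^ 2 ∂((volume : Measure (Cfg dh)).prod (volume : Measure (Wsp dm)))) atTop (𝓝 0)

def FarOfStmt (S : Setup d F) : Prop := GeoStmt S → AN.TubeStmt S → CmbStmt → FarStmt S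

/-- **L4** splitting of the block diagonal energy: `∑_β‖Q^h_βv‖² = ∑_β‖Q^s_βv‖² + 8∑‖∂_zv‖²`. PROOF: `Q^h_β = Q^s_β + Q^z_β`, `Q^z_β = -i(γ^iθ^A)_β∂_i^A`
(`A ∈ z`; no potential because `z` is central), both symmetric, `Q^sQ^z + Q^zQ^s = 0` (the `θ`'s anticommute, the coefficients of `Q^s` do not depend on
`yz`), and `∑_β‖Q^z_βv‖² = 8∑‖∂v‖²` (as in `Z/Energy`). -/
def SplitQStmt (S : Setup d F) : Prop := (∀ dh dm : ℕ, AN.CalcA dh dm F ∧ AN.CalcB dh dm F) → ∀ (dh dm ds dz : ℕ) (φ : Spl dh dm d) (ψ : Spl ds dz dh) (z₀ : Cfg dz)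
    (h : Std2 S φ ψ z₀) (v : Cfg dh → Wsp dm → F), Tst2 v →
  (∀ β, Tst2 (Qss h β v)) ∧
  ∑ β, ns2 (S.Qh φ β v) = (∑ β, ns2 (Qss h β v)) + 8 * ∑ i, ∑ A, ns2 (py i (ψ (Sum.inr A)) v)

/-- **L5** bilinears commuting with the `D_i` kill the fermionic vacuum. PROOF. `K = iPΩ⁻¹` (on `Fin 16 × Fin dm`) satisfies `Kᵀ = -K`, commutes with
`1⊗A`; for `v ∈ F0`: `θ_pv = (Kθ)_pv`. `AK` is symmetric, so `∑A_{BC}θ_{αB}θ_{αC}v = ∑(AK)_{pq}θ_pθ_qv = ½tr(AK)v`, and `tr(AK)` contains `tr γ^i = 0`. -/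
def VacSpinStmt (S : Setup d F) (φ : Spl dh dm d) : Prop :=
  ∀ (D : Fin 9 → Matrix (Fin dm) (Fin dm) ℝ) (Om : Matrix (Fin dm) (Fin dm) ℝ), Frz D → IsOm S.κ D Om →
  ∀ A : Matrix (Fin dm) (Fin dm) ℝ, Aᵀ = -A → (∀ i, A * D i = D i * A) → ∀ v ∈ S.F0 φ D Om,
    ∑ α, ∑ B, ∑ C, ((A B C : ℝ) : ℂ) • S.th α (φ (Sum.inr B)) (S.th α (φ (Sum.inr C)) v) = 0

/-- **L6** the scalar points. PROOF. (a) `Dz yz` is frozen when `det D_8 ≠ 0` (antisymmetric by `f_swap`; commuting by Jacobi and centrality of `z`);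
`omc` is then a root (`OmStmt`). (b) uniqueness: two `IsOm` matrices commute (each commutes with `∑D_i²`), symmetric positive with the same square.
(c) homogeneity. (d) smoothness: the root is a smooth function of a positive definite symmetric matrix; the projection onto the
joint kernel `F0` = kernel of the self-adjoint `NF ≥ 0` (`LamStmt`), of locally constant dimension (block X1: unitaries `U(yz)` onto `F0(yz)`). -/
def ScalStmt (S : Setup d F) : Prop := ∀ _ : FiniteDimensional ℂ F, ∀ (dh dm ds dz : ℕ) (φ : Spl dh dm d) (ψ : Spl ds dz dh)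
    (z₀ : Cfg dz), Std2 S φ ψ z₀ →
  (∀ yz, (S.Dy φ 8 (cmb ψ 0 yz)).det ≠ 0 → Frz (Dz S φ ψ yz) ∧ IsOm S.κ (Dz S φ ψ yz) (omc S.κ (Dz S φ ψ yz))) ∧
  (∀ yz, (S.Dy φ 8 (cmb ψ 0 yz)).det ≠ 0 → ∀ R : ℝ, 0 < R →
    omc S.κ (Dz S φ ψ (R • yz)) = R • omc S.κ (Dz S φ ψ yz) ∧ Pz S φ ψ (R • yz) = Pz S φ ψ yz) ∧
  (∀ B C, ContDiffOn ℝ ∞ (fun yz => omc S.κ (Dz S φ ψ yz) B C) {yz | (S.Dy φ 8 (cmb ψ 0 yz)).det ≠ 0}) ∧
  ContDiffOn ℝ ∞ (fun yz => Pz S φ ψ yz) {yz | (S.Dy φ 8 (cmb ψ 0 yz)).det ≠ 0}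

/-- **L7** the normalised boson vacuum near `z₀` at scale `R`. PROOF: `gn (R yz) w = R^{2dm} gn yz (√R w)` (`8 dm` variables), smoothness of
`(yz,w) ↦ qf`, `qf ≥ c|w|²` near `z₀`, differentiation under the integral. The bounds: `∫(∂_{yz}gn)² ≤ C/R²`, Gaussian tail. -/
def GnStmt (S : Setup d F) : Prop := ∀ (dh dm ds dz : ℕ) (φ : Spl dh dm d) (ψ : Spl ds dz dh) (z₀ : Cfg dz), Std2 S φ ψ z₀ →
  ∃ ε₀ c C : ℝ, 0 < ε₀ ∧ 0 < c ∧ 0 < C ∧ (∀ y : Cfg dh, ‖y - cmb ψ 0 z₀‖ ≤ 4 * ε₀ → (S.Dy φ 8 y).det ≠ 0) ∧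
    (ContDiffOn ℝ ∞ (fun p : Cfg dz × Wsp dm => gn S φ ψ p.1 p.2) {p | (S.Dy φ 8 (cmb ψ 0 p.1)).det ≠ 0}) ∧
    ∀ (R : ℝ) (yz : Cfg dz), 0 < R → ‖yz - R • z₀‖ ≤ ε₀ * R →
      (∫ w, gn S φ ψ yz w ^ 2 = 1) ∧ (∀ w, gn S φ ψ yz (-w) = gn S φ ψ yz w) ∧
      (∀ w, 0 ≤ gn S φ ψ yz w ∧ gn S φ ψ yz w ≤ C * R ^ (2 * dm) * Real.exp (-(c * R * ‖w‖ ^ 2))) ∧
      (∀ i A w, |fderiv ℝ (fun z => gn S φ ψ z w) yz (EuclideanSpace.single (i, A) 1)| ≤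
        C / R * (R ^ (2 * dm) * Real.exp (-(c * R * ‖w‖ ^ 2))))

def GnOfStmt (S : Setup d F) : Prop := ScalStmt S → QFStmt → FiniteDimensional ℂ F → GnStmt S

/-- **L8** unfrozen vacuum: fibrewise closeness to the vacuum at the scalar point `yz` when `|ys| ≤ ηR`.
PROOF. For every `z₁` in the compact ball `‖z₁ - z₀‖ ≤ ε₁` apply `FibStmt S φ` with `D0 = Dz z₁`, `Om = omc` (part (2)): for `|D_i(y) - R D_i(z₁)| ≤ εR`:
`nsf(f - PR(z₁) f) ≤ (c₀R)⁻¹e1 + Cε²/c₀ nsf f`; `‖PR(z₁) f - VP(yz) f‖ ≤ κ(ε)‖f‖` for `|yz/R - z₁| ≤ ε` (continuity L6, L7, scaling to `R = 1`). For given `δ`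
choose `ε(z₁)`, finitely many `z₁` cover the ball. `D(cmb ys yz) - D(cmb 0 yz) = O(|ys|)`. -/
def UFStmt (S : Setup d F) : Prop := ∀ _ : FiniteDimensional ℂ F, ∀ (dh dm ds dz : ℕ) (φ : Spl dh dm d) (ψ : Spl ds dz dh)
    (z₀ : Cfg dz), Std2 S φ ψ z₀ → ∃ ε₁ : ℝ, 0 < ε₁ ∧ ∀ δ : ℝ, 0 < δ → ∃ η C : ℝ, 0 < η ∧ 0 < C ∧
    ∀ R : ℝ, 0 < R → ∀ yz, ‖yz - R • z₀‖ ≤ ε₁ * R → ∀ ys : Cfg ds, ‖ys‖ ≤ η * R → ∀ f : Wsp dm → F, FT f →
      nsf (fun w => f w - ((gn S φ ψ yz w : ℝ) : ℂ) • ∫ w', ((gn S φ ψ yz w' : ℝ) : ℂ) • Pz S φ ψ yz (f w')) ≤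
        C / R * S.e1 φ (S.DY φ (cmb ψ ys yz)) f + δ * nsf f

def UFOfStmt (S : Setup d F) : Prop := (∀ (dh dm : ℕ) (φ : Spl dh dm d), FibStmt S φ) → ScalStmt S → GnStmt S → CmbStmt → UFStmt S

/-- **L9** the vacuum coefficient `sec v yz : Cfg ds → F`, for slice test functions supported near `R y₀` and annihilated by `Gh`.
PROOF. (a) smooth with compact support (differentiation under the integral; `v` is smooth with compact support). `G^s_C(sec v yz) = 0`: project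
`Gh C v = 0` (`C ∈ s`): the `w`-rotation is integrated by parts (`gn` is invariant: `ad C|_m` commutes with `Dz yz`, hence with `Ω`; `f_{CBB} = 0`), the `m`-part of
`cS` is killed by `Pz` (L5 and self-adjointness), the rest is `G^s`. (b) `Q^s_β(sec v yz) = sec (Qss β v) yz` (`θ^s` commutes with `Pz`: `F0Stmt`), Cauchy–Schwarz
in `w`, `∫gn² = 1`. (c) Cauchy–Schwarz. (d) derivative in `yz`: `∂gn`, `∂Pz = O(1/R)` (L6, L7). -/
def SecStmt (S : Setup d F) : Prop := ∀ _ : FiniteDimensional ℂ F, ∀ (dh dm ds dz : ℕ) (φ : Spl dh dm d) (ψ : Spl ds dz dh)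
    (z₀ : Cfg dz) (h : Std2 S φ ψ z₀), ∃ ε₀ C : ℝ, 0 < ε₀ ∧ 0 < C ∧ ∀ R : ℝ, 1 ≤ R → ∀ v : Cfg dh → Wsp dm → F, Tst2 v →
    Sup2 (cmb ψ 0 z₀) ε₀ R v →
    (ContDiff ℝ ∞ (fun p : Cfg dz × Cfg ds => sec S φ ψ v p.1 p.2)) ∧ HasCompactSupport (fun p : Cfg dz × Cfg ds => sec S φ ψ v p.1 p.2) ∧
    ((∀ C y w, AN.Gh S φ C v y w = 0) → ∀ yz, GInv h.ss (sec S φ ψ v yz)) ∧
    (∀ yz, nsq (sec S φ ψ v yz) ≤ ∫ ys, nsf (v (cmb ψ ys yz))) ∧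
    (∀ yz, En h.ss (sec S φ ψ v yz) ≤ ∑ β, ∫ ys, nsf (Qss h β v (cmb ψ ys yz))) ∧
    ∀ i A, (∫ yz, nsq (fun ys => pd i A (fun z => sec S φ ψ v z ys) yz)) ≤
      C * (ns2 (py i (ψ (Sum.inr A)) v) + 1 / R ^ 2 * ns2 v)

def SecOfStmt (S : Setup d F) : Prop := (∀ (dh dm : ℕ) (φ : Spl dh dm d), F0Stmt S φ ∧ VacSpinStmt S φ) → ScalStmt S → GnStmt S →
  CmbStmt → SecStmt S

/-- **L10** cut-off of `res u` near `R y₀`. PROOF. `θ ∈ C^∞(ℝ)`, `θ = 1` on `(-∞,1/4]`, `θ = 0` on `[1,∞)`; `Θ(y,w) = θ(|zp y - Rz₀|²/(εR)²)θ(|sp y|²/(εR)²)θ(|w|²/(εR)²)`,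
`v = Θ·res u`. `GhStmt` (A8): `res u` smooth where `det D_8 ≠ 0`, `Gh C (res u) = 0`; `Θ` is invariant under the rotations of `Gh` (`z₀` central, antisymmetry of `f`).
`NormStmt` (A6) for the tube of radius `4ε`, contained in a shell; `CutStmt` (A10): `|Qs(Θ res u) - ΘQs(res u)| ≤ (C/R)|res u|`. -/
def CutLocStmt (S : Setup d F) : Prop := ∀ (dh dm ds dz : ℕ) (φ : Spl dh dm d) (ψ : Spl ds dz dh) (z₀ : Cfg dz),
    Std2 S φ ψ z₀ → emb φ (cmb ψ 0 z₀) 0 ≠ 0 →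
  ∃ ε₀ s t : ℝ, 0 < ε₀ ∧ 0 < s ∧ s < t ∧ ∀ ε : ℝ, 0 < ε → ε ≤ ε₀ → ∃ C δ : ℝ, 0 < C ∧ 0 < δ ∧
    ∃ θ₁ : Cfg dz → ℝ, ContDiff ℝ ∞ θ₁ ∧ (∀ z, 0 ≤ θ₁ z ∧ θ₁ z ≤ 1) ∧ tsupport θ₁ ⊆ Metric.closedBall z₀ ε ∧
    ∀ R : ℝ, 1 ≤ R → ∃ Θ : Cfg dh → Wsp dm → ℝ, (∀ y w, 0 ≤ Θ y w ∧ Θ y w ≤ 1) ∧
      (∀ y w, Θ y w ≠ 0 → ‖zp ψ y - R • z₀‖ ≤ ε * R ∧ ‖sp ψ y‖ ≤ ε * R ∧ ‖w‖ ≤ ε * R) ∧
      (∀ y w, ‖zp ψ y - R • z₀‖ ≤ ε / 2 * R → ‖sp ψ y‖ ≤ ε / 2 * R → ‖w‖ ≤ ε / 2 * R → Θ y w = 1) ∧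
      (∀ y w, ‖sp ψ y‖ ≤ ε / 2 * R → ‖w‖ ≤ ε / 2 * R → Θ y w = θ₁ (R⁻¹ • zp ψ y)) ∧
      ∀ u, GInv S u → Tst2 (mul2 Θ (S.res φ u)) ∧ Sup2 (cmb ψ 0 z₀) (2 * ε) R (mul2 Θ (S.res φ u)) ∧
        (∀ C y w, AN.Gh S φ C (mul2 Θ (S.res φ u)) y w = 0) ∧
        (∫ p in AN.Nb (cmb ψ 0 z₀) dm R (4 * ε), ‖S.res φ u p.1 p.2‖ ^ 2 ∂((volume : Measure (Cfg dh)).prod (volume : Measure (Wsp dm)))) ≤
          C * mas u (shl d (s * R) (t * R)) ∧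
        (∑ β, ns2 (AN.Qs S φ β (mul2 Θ (S.res φ u)))) ≤
          C * (ena S u (shl d (s * R) (t * R)) + 1 / R ^ 2 * mas u (shl d (s * R) (t * R))) ∧
        mas u (Metric.ball (R • emb φ (cmb ψ 0 z₀) 0) (δ * R)) ≤ C * ns2 (mul2 Θ (S.res φ u))

def CutLocOfStmt (S : Setup d F) : Prop := AN.NormStmt S → AN.GhStmt S → AN.CutStmt S → AN.BdStmt S → CmbStmt → CutLocStmt S

/-- **L11** zero mode coefficients tend to zero. `v n = Θ_n·res u_n` (L10), `α_n(yz) = ∫⟨o(ys), sec (v n) yz ys⟩dys` for a zero mode `o` of `s`.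
PROOF. `h_n(z) = R^{9dz/2}α_n(Rz)` is smooth, supported in `closedBall z₀ ε`, bounded in `H¹` (L9, Cauchy–Schwarz: `∫|∂α_n|² ≤ C/R²`), so precompact in `L²`
(`LRStmt`, `F = ℂ`); weak limit: for real `χ` with support in `ball z₀ (2ε)`: `∫χh_n = sfun S φ ψ (2ε) R (χθ₁) o (u_n) + o(1)`, the error comes from `|ys| ≥ εR/2` or
`|w| ≥ εR/2` and is bounded by `C(‖o 1_{|ys| ≥ εR/2}‖ + ‖gn 1_{|w| ≥ εR/2}‖)·(∫_{Nb}‖res u‖²)^{1/2} → 0`. `SPZ` at radius `2ε` gives weak limit `0`. -/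
def RelStmt (S : Setup d F) : Prop := ∀ _ : FiniteDimensional ℂ F, ∀ (dh dm ds dz : ℕ) (φ : Spl dh dm d) (ψ : Spl ds dz dh)
    (z₀ : Cfg dz) (h : Std2 S φ ψ z₀), ∃ ε₀ : ℝ, 0 < ε₀ ∧ ∀ ε : ℝ, 0 < ε → ε ≤ ε₀ →
    ∀ (R : ℕ → ℝ) (u : ℕ → Cfg d → F) (Θ : ℕ → Cfg dh → Wsp dm → ℝ) (θ₁ : Cfg dz → ℝ) (K : ℝ), Tendsto R atTop atTop → (∀ n, 1 ≤ R n) →
    (∀ n, GInv S (u n)) → (∀ n y w, 0 ≤ Θ n y w ∧ Θ n y w ≤ 1) → ContDiff ℝ ∞ θ₁ → tsupport θ₁ ⊆ Metric.closedBall z₀ ε →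
    (∀ n y w, Θ n y w ≠ 0 → ‖zp ψ y - R n • z₀‖ ≤ ε * R n ∧ ‖sp ψ y‖ ≤ ε * R n ∧ ‖w‖ ≤ ε * R n) →
    (∀ n y w, ‖sp ψ y‖ ≤ ε / 2 * R n → ‖w‖ ≤ ε / 2 * R n → Θ n y w = θ₁ ((R n)⁻¹ • zp ψ y)) →
    (∀ n, Tst2 (mul2 (Θ n) (S.res φ (u n)))) →
    (∀ n, (∫ p in AN.Nb (cmb ψ 0 z₀) dm (R n) (4 * ε), ‖S.res φ (u n) p.1 p.2‖ ^ 2
      ∂((volume : Measure (Cfg dh)).prod (volume : Measure (Wsp dm)))) ≤ K) →
    (∀ n i A, R n ^ 2 * ns2 (py i (ψ (Sum.inr A)) (mul2 (Θ n) (S.res φ (u n)))) ≤ K) →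
    SPZ S φ ψ z₀ h (2 * ε) R u → ∀ o, ZM h.ss o →
      Tendsto (fun n => ∫ yz, ‖∫ ys, inner ℂ (o ys) (sec S φ ψ (mul2 (Θ n) (S.res φ (u n))) yz ys)‖ ^ 2) atTop (𝓝 0)

def RelOfStmt (S : Setup d F) : Prop := SecStmt S → GnStmt S → ScalStmt S → CmbStmt → (∀ r, U.LRStmt r ℂ) → RelStmt S

/-- **L12** LOCAL THEOREM. PROOF (`v_n = Θ_nres u_n`, `K` a bound for masses and `R²`-energies in the shell `(sR,tR)`). C-Out with `m = 0` (`QS … 0 = Qs`):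
`∑‖Qh v_n‖² + E1 v_n ≤ C/R²`. L4: `∑‖Qss v_n‖² + 8‖∂_zv_n‖² ≤ C/R²`. Let `a_n = sec v_n`, `o_j` the zero modes of `ICStmt (s)`. On `{|ys| ≤ ηR}`:
`∫‖v_n‖² ≤ 2∫‖v_n - gn·a_n‖² + 2∫‖a_n‖²`; the first is `≤ 2(C_δ/R)·E1/16 + 2δ ns2 v_n` (L8); for the second, for every `yz` (`ICStmt` with `ρ = max(1,ηR)`):
`∫_{|ys| ≤ ηR}‖a_n - ∑⟨o_j,a_n⟩o_j‖² ≤ Cη²R²En(a_n(yz))`, integrated `≤ Cη²R²·C/R²` (L9); `∑_j∫|⟨o_j,a_n⟩|² → 0` (L11). On `{|ys| ≥ ηR}`: L3. So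
`limsup ns2 v_n ≤ C(δ + η²)` for all small `η ≤ η(δ)`; hence `→ 0`, and L10 (last line). -/
def LocStmt (S : Setup d F) : Prop := ∀ _ : FiniteDimensional ℂ F, ∀ (dh dm ds dz : ℕ) (φ : Spl dh dm d) (ψ : Spl ds dz dh)
    (z₀ : Cfg dz) (h : Std2 S φ ψ z₀), emb φ (cmb ψ 0 z₀) 0 ≠ 0 → ICStmt h.ss →
  ∃ ε₀ : ℝ, 0 < ε₀ ∧ ∀ ε : ℝ, 0 < ε → ε ≤ ε₀ → ∃ ε₁ : ℝ, 0 < ε₁ ∧ ∀ (R : ℕ → ℝ) (u : ℕ → Cfg d → F), Sq S R u →
    (∀ Y', S.V Y' ≠ 0 → Nul R u Y') → (∀ Y', Y' ≠ 0 → S.V Y' = 0 → cd S Y' < dh → Nul R u Y') →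
    SPZ S φ ψ z₀ h ε R u → NulE R u (emb φ (cmb ψ 0 z₀) 0) ε₁

def LocOfStmt (S : Setup d F) : Prop := FarStmt S → SplitQStmt S → UFStmt S → SecStmt S → CutLocStmt S → RelStmt S → CmbStmt →
  (∀ (dh dm : ℕ) (φ : Spl dh dm d), AN.OutStmt S φ) → AN.FrameStmt S → (∀ dh dm : ℕ, AN.CalcA dh dm F ∧ AN.CalcB dh dm F) →
  LocStmt S

/-- **LIO** (owner helper62; from E, GLUE, X1 and `LiouStmt`) no profiles for sequences with growth `≤ 2^{3|k|}` and vanishing energy in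
every shell. -/
def LioStmt (S : Setup d F) : Prop := ∀ _ : FiniteDimensional ℂ F, ∀ (dh dm ds dz : ℕ) (φ : Spl dh dm d) (ψ : Spl ds dz dh)
    (z₀ : Cfg dz) (h : Std2 S φ ψ z₀), emb φ (cmb ψ 0 z₀) 0 ≠ 0 → ICStmt h.ss →
  ∃ ε₀ : ℝ, 0 < ε₀ ∧ ∀ ε : ℝ, 0 < ε → ε ≤ ε₀ → ∀ (R : ℕ → ℝ) (u : ℕ → Cfg d → F), Sq S R u →
    (∃ C : ℝ, ∀ k : ℤ, ∀ᶠ n in atTop, mas (u n) (shl d ((2 : ℝ) ^ k * R n) ((2 : ℝ) ^ (k + 1) * R n)) ≤
      C * (2 : ℝ) ^ (3 * |k|)) →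
    (∀ s t : ℝ, 0 < s → s < t → Tendsto (fun n => R n ^ 2 * ena S (u n) (shl d (s * R n) (t * R n))) atTop (𝓝 0)) →
    ∃ l : ℕ → ℕ, StrictMono l ∧ SPZ S φ ψ z₀ h ε (fun n => R (l n)) (fun n => u (l n))

/-- **L13** transport by rotations: `u' = u ∘ rox Rᵀ Oᵀ`. PROOF: `RotStmt S` (`rox` is a measure preserving linear isometry). -/
def TrStmt (S : Setup d F) : Prop := ∀ (R : Matrix (Fin 9) (Fin 9) ℝ) (hR : R * R.transpose = 1)
    (O : Matrix (Fin d) (Fin d) ℝ) (hO : O * O.transpose = 1) (Rn : ℕ → ℝ) (u : ℕ → Cfg d → F),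
  (Sq S Rn u → Sq (S.rot R hR O hO) Rn (fun n x => u n (rox R.transpose O.transpose x))) ∧
  (∀ n (A : Set (Cfg d)), MeasurableSet A → (∀ x, rox R O x ∈ A ↔ x ∈ A) →
    mas (fun x => u n (rox R.transpose O.transpose x)) A = mas (u n) A ∧
    (Setup.Tst (u n) → ena (S.rot R hR O hO) (fun x => u n (rox R.transpose O.transpose x)) A = ena S (u n) A)) ∧
  (∀ Y ε, NulE Rn (fun n x => u n (rox R.transpose O.transpose x)) (rox R O Y) ε ↔ NulE Rn u Y ε) ∧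
  (∀ Y, cd (S.rot R hR O hO) (rox R O Y) = cd S Y) ∧ (∀ Y, (S.rot R hR O hO).V (rox R O Y) = S.V Y) ∧
  (∀ s t x, rox R O x ∈ shl d s t ↔ x ∈ shl d s t)

def TrOfStmt (S : Setup d F) : Prop := AN.RotStmt S → TrStmt S

/-- **L14** inner completeness for all centreless setups: strong induction on `d`. PROOF. For `Y ≠ 0`, `S.V Y = 0` choose the data of `Std2Stmt`;
`ds < d` (otherwise `dm = dz = 0` and `Y = 0`), `h.ss` is centreless (`h.less`), so `ICStmt h.ss`; `ε = min` of the radii of `LocStmt` and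
`LioStmt` for `S.rot`; `PZ Y := SPZ … ε` of the rotated sequence; `LocHyp`, `LioHyp` by `TrStmt`; then `DyOfStmt` and `ICOfStmt`. -/
def ICAllOfStmt (F : Type*) [NormedAddCommGroup F] [InnerProductSpace ℂ F] : Prop := FiniteDimensional ℂ F →
  (∀ (d : ℕ) (S : Setup d F), LocStmt S ∧ LioStmt S ∧ Std2Stmt S ∧ TrStmt S ∧ NonCommStmt S ∧ NulAllStmt S ∧ ShellStmt S ∧
    DyOfStmt S ∧ DecStmt S ∧ KWStmt S ∧ HInfStmt S ∧ ICOfStmt S) → DiscStmt → (∀ d, U.LRStmt d F) →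
  ∀ (d : ℕ) (S : Setup d F), AN.Cless S → ICStmt S ∧ ∃ PZ, LocHyp S PZ ∧ LioHyp S PZ

end Vale.Agent.P353.Z.AD
end

section

/-! # P353, all `N`, block X: two-point function on the vacuum space, independence of the frame -/

open MeasureTheory Filter Topology Matrix
open scoped ContDiff

namespace Vale.Agent.P353.Z.AX

variable {d dh dm : ℕ} {F : Type*} [NormedAddCommGroup F] [InnerProductSpace ℂ F]

private lemma twoCov_tm_anti (S : Setup d F) (φ : Spl dh dm d) (p q : Fin 16 × Fin dm) (w : F) :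
    S.tm φ p (S.tm φ q w) + S.tm φ q (S.tm φ p w) = (if p = q then (1 : ℂ) else 0) • w := by
  have h := congrArg (fun T : F →L[ℂ] F => T w) (S.th_anti p.1 (φ (Sum.inr p.2)) q.1 (φ (Sum.inr q.2)))
  have hiff : (p.1 = q.1 ∧ φ (Sum.inr p.2) = φ (Sum.inr q.2)) ↔ p = q := by
    constructor
    · rintro ⟨h1, h2⟩
      have h3 : p.2 = q.2 := by
        have := φ.injective h2
        exact Sum.inr_injective this
      exact Prod.ext h1 h3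
    · rintro rfl
      exact ⟨rfl, rfl⟩
  by_cases hpq : p = q
  · rw [if_pos hpq, one_smul]
    rw [if_pos (hiff.2 hpq)] at h
    exact h
  · rw [if_neg hpq, zero_smul]
    rw [if_neg (fun h' => hpq (hiff.1 h'))] at h
    exact h

private lemma twoCov_tm_sa (S : Setup d F) (φ : Spl dh dm d) (p : Fin 16 × Fin dm) (v w : F) :
    inner ℂ (S.tm φ p v) w = inner ℂ v (S.tm φ p w) := S.th_sa _ _ _ _

private lemma twoCov_ker (S : Setup d F) (φ : Spl dh dm d)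
    (J : Matrix (Fin 16 × Fin dm) (Fin 16 × Fin dm) ℂ) (v : F)
    (hv : v ∈ S.Kr φ (1 - Complex.I • J)) (p : Fin 16 × Fin dm) :
    S.tm φ p v = Complex.I • ∑ q, J p q • S.tm φ q v := by
  have h : ∑ q, (1 - Complex.I • J) p q • S.tm φ q v = 0 := hv p
  have h1 : ∑ q, (1 - Complex.I • J) p q • S.tm φ q v =
      S.tm φ p v - Complex.I • ∑ q, J p q • S.tm φ q v := by
    rw [Finset.smul_sum]
    have : ∀ q, (1 - Complex.I • J) p q • S.tm φ q v =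
        (1 : Matrix (Fin 16 × Fin dm) (Fin 16 × Fin dm) ℂ) p q • S.tm φ q v -
          Complex.I • (J p q • S.tm φ q v) := by
      intro q
      rw [Matrix.sub_apply, Matrix.smul_apply, sub_smul, smul_eq_mul, mul_smul]
    simp only [this, Finset.sum_sub_distrib]
    congr 1
    simp only [Matrix.one_apply, ite_smul, one_smul, zero_smul, Finset.sum_ite_eq, Finset.mem_univ,
      if_true]
  rw [h1] at h
  exact sub_eq_zero.1 h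

/-- **X-Two** -/
theorem two (S : Setup d F) (φ : Spl dh dm d) : TwoStmt S φ := by
  intro J hJ v hv w hw
  have hreal : ∀ p q, (starRingEnd ℂ) (J p q) = J p q := by
    intro p q
    rw [Complex.conj_eq_iff_im]
    exact hJ.toRA.real p q
  set G : (Fin 16 × Fin dm) → (Fin 16 × Fin dm) → ℂ :=
    fun p q => inner ℂ v (S.tm φ p (S.tm φ q w)) with hG
  have hA : ∀ p q, G p q = Complex.I * ∑ r, J q r * G p r := by
    intro p q
    simp only [hG]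
    rw [twoCov_ker S φ J w hw q, map_smul, inner_smul_right, map_sum, inner_sum]
    congr 1
    refine Finset.sum_congr rfl fun r _ => ?_
    rw [map_smul, inner_smul_right]
  have hB : ∀ p q, G p q = -Complex.I * ∑ r, J p r * G r q := by
    intro p q
    simp only [hG]
    rw [← twoCov_tm_sa, twoCov_ker S φ J v hv p, inner_smul_left, sum_inner, Complex.conj_I]
    congr 1
    refine Finset.sum_congr rfl fun r _ => ?_
    rw [inner_smul_left, hreal, twoCov_tm_sa]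
  have hC : ∀ p q, G p q + G q p = (if p = q then (1 : ℂ) else 0) * inner ℂ v w := by
    intro p q
    simp only [hG]
    rw [← inner_add_right, twoCov_tm_anti, inner_smul_right]
  have hD : ∀ p q, G p q = (1 / 2 : ℂ) * ((if p = q then 1 else 0) - Complex.I * J p q) * inner ℂ v w := by
    intro p q
    have h1 : G p q = -Complex.I * (J p q * inner ℂ v w - ∑ r, J p r * G q r) := by
      rw [hB p q]
      congr 1
      have : ∀ r, J p r * G r q = J p r * ((if r = q then (1 : ℂ) else 0) * inner ℂ v w) - J p r * G q r := by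
        intro r
        rw [← hC r q]
        ring
      simp only [this, Finset.sum_sub_distrib]
      congr 1
      simp only [ite_mul, one_mul, zero_mul, mul_ite, mul_zero, Finset.sum_ite_eq', Finset.mem_univ,
        if_true]
    have h2 := hA q p
    have h3 := hC p q
    have h4 : G p q - G q p = -Complex.I * (J p q * inner ℂ v w) := by
      rw [h1, h2]
      ring
    linear_combination (1 / 2 : ℂ) * h3 + (1 / 2 : ℂ) * h4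
  refine ⟨hD, ?_⟩
  intro b hb
  have hdiag : ∀ p, b p p = 0 := by
    intro p
    have := congrFun (congrFun hb p) p
    rw [Matrix.transpose_apply, Matrix.neg_apply] at this
    linear_combination (1 / 2 : ℂ) * this
  have h1 : inner ℂ v (S.Qu φ b w) = (1 / 2 : ℂ) * ∑ p, ∑ q, b p q * G p q := by
    unfold Setup.Qu
    simp only [_root_.smul_apply, _root_.sum_apply, inner_smul_right, inner_sum]
    rfl
  rw [h1]
  have h2 : ∀ p q, b p q * G p q = -(Complex.I / 2) * (b p q * J p q) * inner ℂ v w := by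
    intro p q
    rw [hD p q]
    by_cases hpq : p = q
    · subst hpq
      rw [hdiag]
      ring
    · rw [if_neg hpq]
      ring
  simp only [h2]
  simp only [← Finset.sum_mul, ← Finset.mul_sum]
  ring

private lemma twoCov_orth {R : Matrix (Fin 9) (Fin 9) ℝ} (hR : R * Rᵀ = 1) (k j : Fin 9) :
    ∑ i, R i k * R i j = if k = j then 1 else 0 := by
  have hR' : Rᵀ * R = 1 := mul_eq_one_comm.1 hR
  have := congrFun (congrFun hR' k) j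
  rw [Matrix.mul_apply, Matrix.one_apply] at this
  simpa [Matrix.transpose_apply] using this

private lemma twoCov_sq {R : Matrix (Fin 9) (Fin 9) ℝ} (hR : R * Rᵀ = 1)
    (D : Fin 9 → Matrix (Fin dm) (Fin dm) ℝ) :
    ∑ i, (∑ j, R i j • D j) * (∑ j, R i j • D j) = ∑ i, D i * D i := by
  have h1 : ∀ i, (∑ j, R i j • D j) * (∑ j, R i j • D j) =
      ∑ k, ∑ j, (R i k * R i j) • (D k * D j) := by
    intro i
    rw [Finset.sum_mul_sum]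
    refine Finset.sum_congr rfl fun k _ => Finset.sum_congr rfl fun j _ => ?_
    rw [smul_mul_smul_comm]
  simp only [h1]
  rw [Finset.sum_comm]
  refine Finset.sum_congr rfl fun k _ => ?_
  rw [Finset.sum_comm]
  simp only [← Finset.sum_smul, twoCov_orth hR, ite_smul, one_smul, zero_smul, Finset.sum_ite_eq,
    Finset.mem_univ, if_true]

private lemma twoCov_pp (S : Setup d F) (R : Matrix (Fin 9) (Fin 9) ℝ) (hR : R * Rᵀ = 1)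
    (hO : (1 : Matrix (Fin d) (Fin d) ℝ) * (1 : Matrix (Fin d) (Fin d) ℝ)ᵀ = 1)
    (D : Fin 9 → Matrix (Fin dm) (Fin dm) ℝ) :
    (S.rot R hR 1 hO).PP (fun i => ∑ j, R i j • D j) = S.PP D := by
  ext p q
  have h1 : (S.rot R hR 1 hO).PP (fun i => ∑ j, R i j • D j) p q =
      (S.κ : ℂ) * ∑ i, (∑ k, (R i k : ℂ) • S.g k) p.1 q.1 * (((∑ j, R i j • D j) p.2 q.2 : ℝ) : ℂ) := rfl
  have h2 : S.PP D p q = (S.κ : ℂ) * ∑ i, S.g i p.1 q.1 * ((D i p.2 q.2 : ℝ) : ℂ) := rfl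
  rw [h1, h2]
  congr 1
  have h3 : ∀ i, (∑ k, (R i k : ℂ) • S.g k) p.1 q.1 * (((∑ j, R i j • D j) p.2 q.2 : ℝ) : ℂ) =
      ∑ k, ∑ j, ((R i k * R i j : ℝ) : ℂ) * (S.g k p.1 q.1 * ((D j p.2 q.2 : ℝ) : ℂ)) := by
    intro i
    rw [Matrix.sum_apply, Matrix.sum_apply]
    push_cast
    rw [Finset.sum_mul_sum]
    refine Finset.sum_congr rfl fun k _ => Finset.sum_congr rfl fun j _ => ?_
    rw [Matrix.smul_apply, Matrix.smul_apply, smul_eq_mul, smul_eq_mul]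
    push_cast
    ring
  simp only [h3]
  rw [Finset.sum_comm]
  refine Finset.sum_congr rfl fun k _ => ?_
  rw [Finset.sum_comm]
  have h4 : ∀ j, ∑ i, ((R i k * R i j : ℝ) : ℂ) * (S.g k p.1 q.1 * ((D j p.2 q.2 : ℝ) : ℂ)) =
      (if k = j then 1 else 0) * (S.g k p.1 q.1 * ((D j p.2 q.2 : ℝ) : ℂ)) := by
    intro j
    rw [← Finset.sum_mul, ← Complex.ofReal_sum, twoCov_orth hR]
    split_ifs <;> simp
  simp only [h4, ite_mul, one_mul, zero_mul, Finset.sum_ite_eq, Finset.mem_univ, if_true]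

private lemma twoCov_isOm {κ : ℝ} {D D' : Fin 9 → Matrix (Fin dm) (Fin dm) ℝ}
    {Om : Matrix (Fin dm) (Fin dm) ℝ} (h : ∑ i, D' i * D' i = ∑ i, D i * D i)
    (hOm : IsOm κ D Om) : IsOm κ D' Om := by
  refine ⟨hOm.symm, hOm.pos, ?_, ?_⟩
  · rw [h]
    exact hOm.sq
  · intro M hM
    rw [h] at hM
    exact hOm.comm M hM

/-- **X-Cov** -/
theorem covF0 (S : Setup d F) (φ : Spl dh dm d) : CovF0Stmt S φ := by
  intro R hR hO D Om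
  have hth : ∀ α A, (S.rot R hR 1 hO).th α A = S.th α A := by
    intro α A
    have : (S.rot R hR 1 hO).th α A =
        ∑ B, (((1 : Matrix (Fin d) (Fin d) ℝ) A B : ℝ) : ℂ) • S.th α B := rfl
    rw [this]
    have h2 : ∀ B, (((1 : Matrix (Fin d) (Fin d) ℝ) A B : ℝ) : ℂ) • S.th α B =
        if A = B then S.th α B else 0 := by
      intro B
      rw [Matrix.one_apply]
      split_ifs <;> simp
    simp only [h2, Finset.sum_ite_eq, Finset.mem_univ, if_true]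
  refine ⟨hth, ?_, ?_, ?_⟩
  · have hL : ∀ p, (S.rot R hR 1 hO).Lth φ (fun i => ∑ j, R i j • D j) Om p = S.Lth φ D Om p := by
      intro p
      unfold Setup.Lth
      refine Finset.sum_congr rfl fun q _ => ?_
      rw [hth]
      congr 1
      unfold Setup.Lam
      rw [twoCov_pp]
    ext v
    constructor
    · intro hv p
      rw [← hL]
      exact hv p
    · intro hv p
      rw [hL]
      exact hv p
  · intro h
    exact twoCov_isOm (twoCov_sq hR D) h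
  · intro h
    exact twoCov_isOm (twoCov_sq hR D).symm h

end Vale.Agent.P353.Z.AX
end

section

/-! # P353, all `N`, block X: vacuum frames of block E from the vacuum bundle, in every rotated frame -/

open MeasureTheory Filter Topology Matrix
open scoped ContDiff

namespace Vale.Agent.P353.Z.AX

variable {d dh dm ds r : ℕ} {F : Type*} [NormedAddCommGroup F] [InnerProductSpace ℂ F]

/-- rotation of the vector index -/
noncomputable def rz (R : Matrix (Fin 9) (Fin 9) ℝ) (y : Cfg r) : Cfg r := WithLp.toLp 2 fun p => ∑ j, R p.1 j * y (j, p.2)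

theorem rox_one (R : Matrix (Fin 9) (Fin 9) ℝ) (y : Cfg r) : rox R 1 y = rz R y := by
  ext p
  simp [rox, rz, Matrix.one_apply]

theorem rz_add (R : Matrix (Fin 9) (Fin 9) ℝ) (y z : Cfg r) : rz R (y + z) = rz R y + rz R z := by
  ext p
  simp [rz, mul_add, Finset.sum_add_distrib]

theorem rz_smul (R : Matrix (Fin 9) (Fin 9) ℝ) (c : ℝ) (y : Cfg r) : rz R (c • y) = c • rz R y := by
  ext p
  simp only [rz, PiLp.smul_apply, smul_eq_mul, Finset.mul_sum]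
  exact Finset.sum_congr rfl fun j _ => by ring

/-- `rz R` as a continuous linear map -/
noncomputable def rzL (r : ℕ) (R : Matrix (Fin 9) (Fin 9) ℝ) : Cfg r →L[ℝ] Cfg r :=
  LinearMap.toContinuousLinearMap
    { toFun := rz R
      map_add' := rz_add R
      map_smul' := rz_smul R }

@[simp] theorem rzL_apply (R : Matrix (Fin 9) (Fin 9) ℝ) (y : Cfg r) : rzL r R y = rz R y := rfl

theorem rz_rz {R : Matrix (Fin 9) (Fin 9) ℝ} (hR : R * Rᵀ = 1) (y : Cfg r) : rz R (rz Rᵀ y) = y := by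
  ext p
  have h : ∀ i j, ∑ k, R i k * R j k = if i = j then 1 else 0 := by
    intro i j
    have := congrFun (congrFun hR i) j
    rwa [Matrix.mul_apply, Matrix.one_apply] at this
  simp only [rz, Matrix.transpose_apply, Finset.mul_sum]
  rw [Finset.sum_comm]
  have h2 : ∀ j, ∑ k, R p.1 k * (R j k * y (j, p.2)) = (if p.1 = j then 1 else 0) * y (j, p.2) := by
    intro j
    rw [← h p.1 j, Finset.sum_mul]
    exact Finset.sum_congr rfl fun k _ => by ring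
  simp only [h2]
  simp

theorem DM_Dz (S : Setup d F) (φ : Spl dh dm d) (ψ : Spl r ds dh) (y : Cfg r) :
    DM (Mz S φ (spsw ψ)) y = S.Dz φ ψ y := by
  funext i
  ext B C
  simp only [DM, Mz, Setup.Dz, Setup.Dy, Setup.Dm, cmb, Matrix.sum_apply, Matrix.smul_apply, Matrix.of_apply,
    smul_eq_mul]
  rw [← ψ.sum_comp, Fintype.sum_sum_type]
  simp [mul_comm, spsw]

/-- torus data of a standard position in the conventions of block E -/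
theorem tor_Dz {S : Setup d F} {φ : Spl dh dm d} {ψ : Spl r ds dh} (hs : S.IsSub φ) (hc : S.IsCen φ ψ) {y₀ : Cfg r}
    (h8 : (S.Dz φ ψ y₀ 8).det ≠ 0) : Tor (Mz S φ (spsw ψ)) (fun a => y₀ (8, a)) where
  anti := Mz_anti S φ (spsw ψ)
  comm := Mz_comm S φ (spsw ψ) hs (fun A B C => hc A B C)
  reg := by
    have h1 : (∑ a, y₀ (8, a) • Mz S φ (spsw ψ) a) = S.Dz φ ψ y₀ 8 := congrFun (DM_Dz S φ ψ y₀) 8
    rw [h1]
    exact h8

theorem rot_f (S : Setup d F) (R : Matrix (Fin 9) (Fin 9) ℝ) (hR : R * Rᵀ = 1)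
    (hO : (1 : Matrix (Fin d) (Fin d) ℝ) * (1 : Matrix (Fin d) (Fin d) ℝ)ᵀ = 1) (A B C : Fin d) :
    (S.rot R hR 1 hO).f A B C = S.f A B C := by
  change ∑ A', ∑ B', ∑ C', (1 : Matrix (Fin d) (Fin d) ℝ) A A' * (1 : Matrix (Fin d) (Fin d) ℝ) B B' *
    (1 : Matrix (Fin d) (Fin d) ℝ) C C' * S.f A' B' C' = S.f A B C
  rw [Finset.sum_eq_single A, Finset.sum_eq_single B, Finset.sum_eq_single C]
  · simp
  · intro x _ hx
    rw [Matrix.one_apply_ne hx.symm]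
    ring
  · simp
  · intro x _ hx
    refine Finset.sum_eq_zero fun y _ => ?_
    rw [Matrix.one_apply_ne hx.symm]
    ring
  · simp
  · intro x _ hx
    refine Finset.sum_eq_zero fun y _ => Finset.sum_eq_zero fun z _ => ?_
    rw [Matrix.one_apply_ne hx.symm]
    ring
  · simp

theorem rot_Dz (S : Setup d F) (φ : Spl dh dm d) (ψ : Spl r ds dh) (R : Matrix (Fin 9) (Fin 9) ℝ) (hR : R * Rᵀ = 1)
    (hO : (1 : Matrix (Fin d) (Fin d) ℝ) * (1 : Matrix (Fin d) (Fin d) ℝ)ᵀ = 1) (y : Cfg r) :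
    (S.rot R hR 1 hO).Dz φ ψ y = S.Dz φ ψ y := by
  funext i
  ext B C
  simp only [Setup.Dz, Setup.Dy, Setup.Dm, Matrix.of_apply, rot_f]

theorem DM_rz (M : Fin r → Matrix (Fin dm) (Fin dm) ℝ) (R : Matrix (Fin 9) (Fin 9) ℝ) (y : Cfg r) (i : Fin 9) :
    DM M (rz R y) i = ∑ j, R i j • DM M y j := by
  simp only [DM, rz, Finset.smul_sum, smul_smul, Finset.sum_smul]
  rw [Finset.sum_comm]

theorem isClosed_smul_Coll {L : Finset (Fin r → ℝ)} {t : ℝ} (ht : 0 < t) {y : Cfg r} (hy : y ∉ Coll L) : t • y ∉ Coll L := by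
  rintro ⟨l, hl, h⟩
  refine hy ⟨l, hl, fun i => ?_⟩
  have h1 := h i
  have h2 : ∑ A, l A * (t • y) (i.castSucc, A) = t * ∑ A, l A * y (i.castSucc, A) := by
    rw [Finset.mul_sum]
    exact Finset.sum_congr rfl fun A _ => by simp only [PiLp.smul_apply, smul_eq_mul]; ring
  rw [h2] at h1
  exact (mul_eq_zero.1 h1).resolve_left ht.ne'

/-- vacuum frames of block E: in the frame rotated by `R`, points `y' = R y` -/
theorem vfr (S : Setup d F) (φ : Spl dh dm d) (ψ : Spl r ds dh) {L : Finset (Fin r → ℝ)}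
    {Om : Cfg r → Matrix (Fin dm) (Fin dm) ℝ} {K : Submodule ℂ F} {U : Cfg r → F →L[ℂ] F}
    (hB : Bun S φ (Mz S φ (spsw ψ)) L Om K U) (R : Matrix (Fin 9) (Fin 9) ℝ) (hR : R * Rᵀ = 1)
    (hO : (1 : Matrix (Fin d) (Fin d) ℝ) * (1 : Matrix (Fin d) (Fin d) ℝ)ᵀ = 1) :
    (S.rot R hR 1 hO).VFr φ ψ {y | rz Rᵀ y ∉ Coll L ∧ (S.Dz φ ψ y 8).det ≠ 0} (fun y => Om (rz Rᵀ y))
      (fun y => U (rz Rᵀ y)) K := by
  have hκ : (S.rot R hR 1 hO).κ = S.κ := rfl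
  have hth : ∀ α A, (S.rot R hR 1 hO).th α A = S.th α A := fun α A =>
    (covF0 S φ R hR hO (fun _ => 0) 0).1 α A
  have hDR : ∀ y : Cfg r, (fun i => ∑ j, R i j • DM (Mz S φ (spsw ψ)) (rz Rᵀ y) j) = S.Dz φ ψ y := by
    intro y
    funext i
    rw [← DM_rz, rz_rz hR, DM_Dz]
  have hcont : Continuous fun y : Cfg r => rz Rᵀ y := (rzL r Rᵀ).continuous
  have hsm : ContDiff ℝ ∞ fun y : Cfg r => rz Rᵀ y := (rzL r Rᵀ).contDiff
  have hdetc : Continuous fun y : Cfg r => (S.Dz φ ψ y 8).det := by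
    have h : Continuous fun y : Cfg r => S.Dz φ ψ y 8 := by
      have h0 : (fun y : Cfg r => S.Dz φ ψ y 8) = fun y => DM (Mz S φ (spsw ψ)) y 8 := by
        funext y
        rw [DM_Dz]
      rw [h0]
      unfold DM
      fun_prop
    exact h.matrix_det
  refine
    { opn := ?_, cone := ?_, det := ?_, om := ?_, om_c := ?_, om_h := ?_, v_c := ?_, v_h := ?_, v_n := ?_, v_s := ?_,
      v_m := ?_, v_th := ?_, par := ?_ }
  · exact (hB.closed.isOpen_compl.preimage hcont).inter (isOpen_ne_fun hdetc continuous_const)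
  · rintro y ⟨h1, h2⟩ t ht
    refine ⟨?_, ?_⟩
    · rw [rz_smul]
      exact isClosed_smul_Coll ht h1
    · have h3 : S.Dz φ ψ (t • y) 8 = t • S.Dz φ ψ y 8 := by
        rw [← DM_Dz, ← DM_Dz]
        simp only [DM, PiLp.smul_apply, smul_eq_mul, Finset.smul_sum, smul_smul]
      rw [h3, Matrix.det_smul]
      exact mul_ne_zero (pow_ne_zero _ ht.ne') h2
  · rintro y ⟨_, h2⟩
    rw [rot_Dz]
    exact h2
  · rintro y ⟨h1, _⟩
    have h3 := ((covF0 S φ R hR hO (DM (Mz S φ (spsw ψ)) (rz Rᵀ y)) (Om (rz Rᵀ y))).2.2).1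
      (hB.om _ (hB.det _ h1))
    rw [hDR] at h3
    rw [rot_Dz]
    exact h3
  · intro B C
    exact (hB.om_smooth B C).comp hsm.contDiffOn fun y hy => hB.det _ hy.1
  · rintro y ⟨_, _⟩ t ht
    rw [rz_smul, hB.om_scale t _ ht]
  · exact hB.U_smooth.comp hsm.contDiffOn fun y hy => hy.1
  · rintro y ⟨_, _⟩ t ht
    rw [rz_smul, hB.U_scale t _ ht]
  · rintro y _ v
    have h := hB.U_inner (rz Rᵀ y) v v
    rw [inner_self_eq_norm_sq_to_K, inner_self_eq_norm_sq_to_K] at h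
    have h2 : ‖U (rz Rᵀ y) v‖ ^ 2 = ‖v‖ ^ 2 := by exact_mod_cast h
    exact (sq_eq_sq₀ (norm_nonneg _) (norm_nonneg _)).1 h2
  · intro y _ w
    exact hB.U_surj _ w
  · rintro y ⟨h1, _⟩ v
    have h3 := (covF0 S φ R hR hO (DM (Mz S φ (spsw ψ)) (rz Rᵀ y)) (Om (rz Rᵀ y))).2.1
    rw [hDR] at h3
    rw [rot_Dz, h3]
    exact hB.U_mem _ h1 v
  · intro y _ α A v
    rw [hth]
    exact DFunLike.congr_fun (hB.U_comm (rz Rᵀ y) α A) v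
  · rintro y ⟨h1, _⟩ i a v hv v' hv'
    have hd : DifferentiableAt ℝ U (rz Rᵀ y) :=
      (hB.U_smooth.contDiffAt (hB.closed.isOpen_compl.mem_nhds h1)).differentiableAt (by simp)
    have h2 : fderiv ℝ (fun y => U (rz Rᵀ y)) y = (fderiv ℝ U (rz Rᵀ y)).comp (rzL r Rᵀ) := by
      have h3 : HasFDerivAt (fun y : Cfg r => rz Rᵀ y) (rzL r Rᵀ) y := (rzL r Rᵀ).hasFDerivAt
      exact (hd.hasFDerivAt.comp y h3).fderiv
    rw [h2]
    exact hB.U_par _ h1 v' hv' v hv _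

end Vale.Agent.P353.Z.AX
end

section

/-! # P353, all `N`, block L (LIO, helper62): definitions

`φ : Spl dh dm d`, `ψ : Spl r ds dh` (`inl` = centre `z`, `inr` = `s`, convention of blocks E, GL; block D uses `spsw ψ`).
`ZZ` is the global functional of block GL with sharp cutoffs; sections are `∑_j b_j(η) U(η) o_j(s)`. -/

open MeasureTheory Filter Topology Matrix
open scoped ContDiff

namespace Vale.Agent.P353.Z.AL

variable {d dh dm r ds n : ℕ} {F : Type*} [NormedAddCommGroup F] [InnerProductSpace ℂ F]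

/-- fibre of the profiles -/
abbrev Ek (n : ℕ) : Type := EuclideanSpace ℂ (Fin n)

/-- section with coefficients `b` in the frame `U(η) o_j(s)` -/
noncomputable def sc (U : Cfg r → F →L[ℂ] F) (o : Fin n → Cfg ds → F) (b : Cfg r → Ek n) (η : Cfg r) (s : Cfg ds) : F :=
  ∑ j, b η j • U η (o j s)

open Classical in
/-- sharp cutoffs `|x^s| ≤ R^{1/2}`, `|X| ≤ R` -/
noncomputable def chi (R : ℝ) (q : Cfg r × Cfg ds × Cfg dm) : ℝ := if ‖q.2.1‖ ≤ Real.sqrt R ∧ ‖q.2.2‖ ≤ R then 1 else 0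

/-- global functional of the section `a` -/
noncomputable def ZZ (κ : ℝ) (φ : Spl dh dm d) (ψ : Spl r ds dh) (Om : Cfg r → Matrix (Fin dm) (Fin dm) ℝ)
    (a : Cfg r → Cfg ds → F) (R : ℝ) (u : Cfg d → F) : ℂ :=
  ∫ x, inner ℂ (AN.Zb φ ψ (fun q => ((chi R q : ℝ) : ℂ) • AN.bG κ Om a q) R x) (u x)

/-- `L²` sections supported over `A` -/
def Sec2 (A : Set (Cfg r)) (a : Cfg r → Cfg ds → F) : Prop :=
  MemLp (fun q : Cfg r × Cfg ds => a q.1 q.2) 2 (volume.prod volume) ∧ ∀ η s, a η s ≠ 0 → η ∈ A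

/-- squared `L²` norm of a section -/
noncomputable def n2 (a : Cfg r → Cfg ds → F) : ℝ := ∫ q : Cfg r × Cfg ds, ‖a q.1 q.2‖ ^ 2 ∂(volume.prod volume)

/-- part of the slice over `R A` -/
def Nr (ψ : Spl r ds dh) (A : Set (Cfg r)) (dm : ℕ) (R ε : ℝ) : Set (Cfg dh × Wsp dm) :=
  {p | R⁻¹ • AN.hz ψ p.1 ∈ A ∧ ‖AN.hs ψ p.1‖ < ε * R ∧ ‖p.2‖ < ε * R}

/-- slice functional over `R A` -/
noncomputable def Sl (S : Setup d F) (φ : Spl dh dm d) (ψ : Spl r ds dh) (Om : Cfg r → Matrix (Fin dm) (Fin dm) ℝ)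
    (A : Set (Cfg r)) (ε : ℝ) (a : Cfg r → Cfg ds → F) (R : ℝ) (u : Cfg d → F) : ℂ :=
  ∫ p in Nr ψ A dm R ε, inner ℂ (AN.Ts0 ψ (AN.vG S φ ψ Om a) R p.1 p.2) (S.res φ u p.1 p.2) ∂(volume.prod volume)

/-- regular scalar points: all roots are different from `0` -/
def Rg (S : Setup d F) (φ : Spl dh dm d) (ψ : Spl r ds dh) : Set (Cfg r) :=
  {η | (∑ i, S.Dz φ ψ η i * S.Dz φ ψ η i).det ≠ 0}

/-- growth bound of `LioStmt` -/
def Grw (R : ℕ → ℝ) (u : ℕ → Cfg d → F) : Prop :=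
  ∃ C : ℝ, ∀ k : ℤ, ∀ᶠ n in atTop, AD.mas (u n) (AD.shl d ((2 : ℝ) ^ k * R n) ((2 : ℝ) ^ (k + 1) * R n)) ≤
    C * (2 : ℝ) ^ (3 * |k|)

/-- vanishing energy in every shell -/
def VanE (S : Setup d F) (R : ℕ → ℝ) (u : ℕ → Cfg d → F) : Prop :=
  ∀ s t : ℝ, 0 < s → s < t →
    Tendsto (fun n => R n ^ 2 * AD.ena S (u n) (AD.shl d (s * R n) (t * R n))) atTop (𝓝 0)

/-- functions with `L²` norm and compact support in `Ω` -/
def LC (Ω : Set (Cfg r)) (b : Cfg r → Ek n) : Prop :=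
  MemLp b 2 (volume : Measure (Cfg r)) ∧ ∃ A, IsCompact A ∧ A ⊆ Ω ∧ ∀ x, x ∉ A → b x = 0

/-- **data of a stratum**: vacuum bundle, orthonormal basis `o` of the zero modes of `s` with values in `K`, and the flat Clifford system `T`
of the centre fermions on `ℂ^n` -/
structure Dat (S : Setup d F) (φ : Spl dh dm d) (ψ : Spl r ds dh) (L : Finset (Fin r → ℝ))
    (Om : Cfg r → Matrix (Fin dm) (Fin dm) ℝ) (K : Submodule ℂ F) (U : Cfg r → F →L[ℂ] F) (o : Fin n → Cfg ds → F)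
    (T : Setup r (Ek n)) : Prop where
  sub : S.IsSub φ
  cen : S.IsCen φ ψ
  bun : AX.Bun S φ (AX.Mz S φ (spsw ψ)) L Om K U
  mem : ∀ j, MemLp (o j) 2 (volume : Measure (Cfg ds))
  zm : ∀ j, AD.ZM (S.int φ ψ sub cen) (o j)
  ort : ∀ j k, ∫ x, inner ℂ (o j x) (o k x) = if j = k then 1 else 0
  val : ∀ j, ∀ᵐ s ∂(volume : Measure (Cfg ds)), o j s ∈ K
  gam : T.g = S.g
  thT : ∀ α A k, ∀ᵐ s ∂(volume : Measure (Cfg ds)), S.th α (φ (Sum.inl (ψ (Sum.inl A)))) (o k s) =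
    ∑ j, T.th α A (EuclideanSpace.single k 1) j • o j s
  full : ∀ o', AD.ZM (S.int φ ψ sub cen) o' → (∀ᵐ s ∂(volume : Measure (Cfg ds)), o' s ∈ K) →
    ∃ c : Fin n → ℂ, ∀ᵐ s ∂(volume : Measure (Cfg ds)), o' s = ∑ j, c j • o j s

end Vale.Agent.P353.Z.AL
end

section

/-! # P353, all `N`, block E: limit equation on one slice — statements (helper725)

A prover delivers `theorem <name> (S : Setup d F) … : XStmt S φ ψ` in `Vale/Agent/P353/AN/E/<File>.lean`, importing this file and landed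
files of `Z`, `Z/U`, `AN`, with other statements (also of blocks A, B, C: `CalcA`, `CalcB`, `BdStmt`, `FibStmt`, …) as hypotheses.
`y = zpt ψ x`, `s = spt ψ x`, `D = Dz y` (commuting: `y` is central). Private lemmas: distinctive names. -/

open MeasureTheory Filter Topology Matrix
open scoped ContDiff

namespace Vale.Agent.P353.Z.AE

variable {d dh dm r ds : ℕ} {F : Type*} [NormedAddCommGroup F] [InnerProductSpace ℂ F]

/-- facts about the Gaussian near the ray through `y₀`, uniform in the scale -/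
structure BzFacts (S : Setup d F) (φ : Spl dh dm d) (ψ : Spl r ds dh) (U : Set (Cfg r))
    (Om : Cfg r → Matrix (Fin dm) (Fin dm) ℝ) (y₀ : Cfg r) (ε C : ℝ) : Prop where
  inU : ∀ R : ℝ, 0 < R → ∀ y : Cfg r, ‖y - R • y₀‖ ≤ ε * R → y ∈ U
  sm : ContDiffOn ℝ ∞ (fun p : Cfg r × Wsp dm => S.bz φ ψ Om p.1 p.2) (U ×ˢ Set.univ)
  pos : ∀ y ∈ U, ∀ w, 0 < S.bz φ ψ Om y w
  ev : ∀ y w, S.bz φ ψ Om y (-w) = S.bz φ ψ Om y w
  int : ∀ y ∈ U, ∀ k : ℕ, Integrable fun w : Wsp dm => (‖w‖ ^ k * S.bz φ ψ Om y w) ^ 2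
  norm : ∀ y ∈ U, ∫ w, S.bz φ ψ Om y w ^ 2 = 1
  up : ∀ R : ℝ, 0 < R → ∀ y : Cfg r, ‖y - R • y₀‖ ≤ ε * R → ∀ w,
    S.bz φ ψ Om y w ≤ C * Real.sqrt R ^ (4 * dm) * Real.exp (-(R * ‖w‖ ^ 2 / C))
  dw : ∀ R : ℝ, 0 < R → ∀ y : Cfg r, ‖y - R • y₀‖ ≤ ε * R → ∀ (w : Wsp dm) (j : Fin 8) (B : Fin dm),
    |fderiv ℝ (fun w' => S.bz φ ψ Om y w') w (EuclideanSpace.single (j, B) 1)| ≤ C * R * ‖w‖ * S.bz φ ψ Om y w
  dy : ∀ R : ℝ, 0 < R → ∀ y : Cfg r, ‖y - R • y₀‖ ≤ ε * R → ∀ (w : Wsp dm) (i : Fin 9) (A : Fin r),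
    |fderiv ℝ (fun y' => S.bz φ ψ Om y' w) y (EuclideanSpace.single (i, A) 1)| ≤
      C * (1 / R + ‖w‖ ^ 2) * S.bz φ ψ Om y w
  mom : ∀ R : ℝ, 0 < R → ∀ y : Cfg r, ‖y - R • y₀‖ ≤ ε * R → ∀ k : ℕ, k ≤ 8 →
    ∫ w, (‖w‖ ^ k * S.bz φ ψ Om y w) ^ 2 ≤ C * (1 / R) ^ k
  tail : ∀ δ : ℝ, 0 < δ → ∃ C' : ℝ, ∀ R : ℝ, 1 ≤ R → ∀ y : Cfg r, ‖y - R • y₀‖ ≤ ε * R → ∀ k : ℕ, k ≤ 8 →
    ∫ w, (if δ * R ≤ ‖w‖ then (‖w‖ ^ k * S.bz φ ψ Om y w) ^ 2 else 0) ≤ C' * (1 / R) ^ 8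
  orth : ∀ y ∈ U, ∀ (i : Fin 9) (A : Fin r),
    ∫ w, S.bz φ ψ Om y w * fderiv ℝ (fun y' => S.bz φ ψ Om y' w) y (EuclideanSpace.single (i, A) 1) = 0

/-- **E-Mz** the quadratic form as a smooth function of the central point. PROOF: `QFStmt` (`M` is determined by `(M w)_{jB} = (Ω V_j)_B`); `VV` is
rational in `Dz y` (linear in `y`, `det D_8 ≠ 0`, `det t2 ≠ 0`), so the entries of `M` are smooth on `U`; `T_i` is homogeneous of degree `0`,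
`Om` of degree `1` (`om_h`). `Frz (Dz y)` for `y ∈ U`: antisymmetric by `f_swap`, `f_cyc`; commuting by Jacobi, `IsCen`. -/
def MzStmt (S : Setup d F) (φ : Spl dh dm d) (ψ : Spl r ds dh) : Prop := S.IsSub φ → S.IsCen φ ψ →
  ∀ (U : Set (Cfg r)) (Om : Cfg r → Matrix (Fin dm) (Fin dm) ℝ) (V : Cfg r → F →L[ℂ] F) (K : Submodule ℂ F),
  S.VFr φ ψ U Om V K → (∀ y ∈ U, Frz (S.Dz φ ψ y)) ∧ ∃ M : Cfg r → (Wsp dm →L[ℝ] Wsp dm), ContDiffOn ℝ ∞ M U ∧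
    (∀ y ∈ U, ∀ v w, inner ℝ (M y v) w = inner ℝ v (M y w)) ∧
    (∀ y ∈ U, ∀ w, qf (S.Dz φ ψ y) (Om y) w = inner ℝ w (M y w)) ∧ (∀ y ∈ U, ∀ t : ℝ, 0 < t → M (t • y) = t • M y) ∧
    (∀ y ∈ U, ∀ (w : Wsp dm) (j : Fin 8) (B : Fin dm), M y w (j, B) = (Om y *ᵥ VV (S.Dz φ ψ y) w j.castSucc) B) ∧
    ∀ y ∈ U, ∃ c : ℝ, 0 < c ∧ ∀ w, c * ‖w‖ ^ 2 ≤ inner ℝ w (M y w)

/-- **E-Bz** PROOF (with E-Mz as hypothesis). On the compact ball `|y - y₀| ≤ ε` (`ε` small: inside `U`)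
`c ≤ M ≤ C`, `|∂M| ≤ C`, and `M(Ry) = R M(y)`. `bz = n(y) exp(-½⟨w,Mw⟩)`, `n(y) = (∫exp(-⟨w,Mw⟩))^{-1/2}`, smooth (dominated differentiation), `n(Ry) = R^{2dm}n(y)`
(`8 dm` variables), so `|∂n| ≤ C n/R` at scale `R`. `orth`: derivative of `∫bz² = 1`. Moments and tails: substitution `w = R^{-1/2}w'`. -/
def BzStmt (S : Setup d F) (φ : Spl dh dm d) (ψ : Spl r ds dh) : Prop := S.IsSub φ → S.IsCen φ ψ →
  ∀ (U : Set (Cfg r)) (Om : Cfg r → Matrix (Fin dm) (Fin dm) ℝ) (V : Cfg r → F →L[ℂ] F) (K : Submodule ℂ F),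
  S.VFr φ ψ U Om V K → ∀ y₀ ∈ U, ∃ ε C : ℝ, 0 < ε ∧ 0 < C ∧ BzFacts S φ ψ U Om y₀ ε C

/-- **E-VacQ1** `q1` at a frozen point kills the vacuum. PROOF. `∂_{jB}bz = -(ΩV_j)_B bz` (`j < 8`), `∑_{j<8}T_jV_j = -V_8`, hence the first two
terms of `q1` give `i∑_{i<9,B}(ΩV_i)_B(γ^iθ^B)_β`; the potential is `κ∑_{ij}(D_iV_j)_B(γ^iγ^jθ^B)_β` (`AlgStmt`, `∑D_iV_i = 0`); the vacuum condition
`Ω_{AB}θ_α^Bv = iκ∑γ^i_{αγ}(D_i)_{AB}θ_γ^Bv` turns the first into `κ∑(γ^jγ^iθ^B)_β(D_iV_j)_B`; the sum is `2κ∑_iθ^B_β(D_iV_i)_B = 0`. -/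
def VacQ1Stmt (S : Setup d F) (φ : Spl dh dm d) : Prop :=
  ∀ (D : Fin 9 → Matrix (Fin dm) (Fin dm) ℝ) (Om : Matrix (Fin dm) (Fin dm) ℝ), Frz D → IsOm S.κ D Om →
  ∀ v ∈ S.F0 φ D Om, ∀ (c : ℝ) (β : Fin 16) (w : Wsp dm),
    S.q1 φ D β (fun w => ((c * gR D Om 1 w : ℝ) : ℂ) • v) w = 0

/-- **E-Cov** second moments of the Gaussian are symmetric in the colour indices. PROOF. Gaussian integral with the form `M`
(`QFStmt`): `∫w_aw_b g² = ½(M⁻¹)_{ab}∫g²` (integrate `∂_a(w_b g²)` by parts: `∂_ag² = -2(Mw)_ag²`), and `M⁻¹` is explicit: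
`(M⁻¹u)_j = Ω⁻¹u_j + T_j∑_kT_kΩ⁻¹u_k` (`w_j = V_j - T_jV_8`, `V_8 = -∑T_kV_k`), a symmetric matrix for each pair `(j,k)` (commuting symmetric
factors). -/
def CovStmt (S : Setup d F) (φ : Spl dh dm d) : Prop :=
  ∀ (D : Fin 9 → Matrix (Fin dm) (Fin dm) ℝ) (Om : Matrix (Fin dm) (Fin dm) ℝ), Frz D → IsOm S.κ D Om →
  ∀ (i j : Fin 9) (B C : Fin dm), ∫ w, wt w i B * wt w j C * gR D Om 1 w ^ 2 =
    ∫ w, wt w i C * wt w j B * gR D Om 1 w ^ 2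

/-- **E-Wick** expectation values in the fermionic vacuum. PROOF. `(Λθ)_pv = 0` and `⟨v', (Λ̄θ)_p u⟩ = ⟨(Λθ)_pv', u⟩ = 0`, `Λ + Λ̄ = Ω`
invertible, `{(Λθ)_p, θ_q} = Λ_{pq}`. Three-point: move `(Λθ)_p` to the right. -/
def WickStmt (S : Setup d F) (φ : Spl dh dm d) : Prop :=
  ∀ (D : Fin 9 → Matrix (Fin dm) (Fin dm) ℝ) (Om : Matrix (Fin dm) (Fin dm) ℝ), Frz D → IsOm S.κ D Om →
  ∀ v ∈ S.F0 φ D Om, ∀ v' ∈ S.F0 φ D Om, ∀ p q t : Fin 16 × Fin dm,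
    inner ℂ v' (S.th p.1 (φ (Sum.inr p.2)) v) = 0 ∧
    inner ℂ v' (S.th p.1 (φ (Sum.inr p.2)) (S.th q.1 (φ (Sum.inr q.2)) v)) =
      (1 / 2 : ℂ) * ((if p = q then 1 else 0) - Complex.I * ∑ B, ((Om⁻¹ p.2 B : ℝ) : ℂ) * S.PP D (p.1, B) q) *
        inner ℂ v' v ∧
    inner ℂ v' (S.th p.1 (φ (Sum.inr p.2)) (S.th q.1 (φ (Sum.inr q.2)) (S.th t.1 (φ (Sum.inr t.2)) v))) = 0

/-- **E-QrVac** the remainder at a central point has no vacuum-vacuum part. PROOF. The term with `∂_y` vanishes (no `y` dependence).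
`θ^m w∂_w` and `w w θ^m`: one-point functions `0` (E-Wick). `w w θ^h`: `∑_{BC}f_{ABC}∫w_i^Bw_j^Cg² = 0` by E-Cov and antisymmetry of `f`.
Spin term `-γ^8_{βα}(D_8⁻¹)_{BC}θ_α^B𝒮_C`: `𝒮_C` contains `θ^mθ^m` (three-point function, `0`) and `θ^hθ^m`; with E-Wick the part `½δ_{pq}` gives
`i·const·tr(D_8⁻¹ ad_A)γ^8θ^A`, which cancels the term with `∂_A log J = tr(D_8⁻¹ad_A)` (same computation as in `SymStmt`), and the part with
`Ω⁻¹P` gives `∑_kγ^8γ^kθ^A tr(D_8⁻¹·ad_A·Ω⁻¹D_k)`, `= 0`: `D_8⁻¹`, `D_k`, `ad_A` (`A ∈ h`; `y` is central in `h`) are antisymmetric and commute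
up to order inside the trace: `X = D_8⁻¹Ω⁻¹D_k` is symmetric (`D_8⁻¹`, `D_k`, `Ω` commute) and `tr(X ad_A) = 0`. -/
def QrVacStmt (S : Setup d F) (φ : Spl dh dm d) (ψ : Spl r ds dh) : Prop := S.IsSub φ → S.IsCen φ ψ →
  ∀ (y : Cfg r) (Om : Matrix (Fin dm) (Fin dm) ℝ), (S.Dz φ ψ y 8).det ≠ 0 → IsOm S.κ (S.Dz φ ψ y) Om →
  ∀ v ∈ S.F0 φ (S.Dz φ ψ y) Om, ∀ v' ∈ S.F0 φ (S.Dz φ ψ y) Om, ∀ β : Fin 16,
    ∫ w, inner ℂ (((gR (S.Dz φ ψ y) Om 1 w : ℝ) : ℂ) • v')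
      (S.Qr φ β (fun _ w' => ((gR (S.Dz φ ψ y) Om 1 w' : ℝ) : ℂ) • v) (cmb ψ y 0) w) = 0

/-- **E-PrC** the vacuum projection depends continuously on the central point. PROOF: scaling (`w → R^{-1/2}w`, `gR (Dz (Ry)) (Om (Ry)) 1 =
gR (Dz y) (Om y) R`, `F0` is homogeneous) reduces to `R = 1`; `bz(y,·) → bz(y₀,·)` in `L²` (BzFacts / dominated convergence), the projection onto
`F0(y) = V(y)K` is `V(y)Π_KV(y)⁻¹`, continuous in `y`. -/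
def PrCStmt (S : Setup d F) (φ : Spl dh dm d) (ψ : Spl r ds dh) : Prop := ∀ _ : FiniteDimensional ℂ F,
  S.IsSub φ → S.IsCen φ ψ →
  ∀ (U : Set (Cfg r)) (Om : Cfg r → Matrix (Fin dm) (Fin dm) ℝ) (V : Cfg r → F →L[ℂ] F) (K : Submodule ℂ F),
  S.VFr φ ψ U Om V K → ∀ y₀ ∈ U, ∀ δ : ℝ, 0 < δ → ∃ ε : ℝ, 0 < ε ∧ ∀ R : ℝ, 0 < R → ∀ y : Cfg r, ‖y - R • y₀‖ ≤ ε * R →
    ∀ f : Wsp dm → F, FT f →
      nsf (fun w => S.PR φ (S.Dz φ ψ y) (Om y) 1 f w - S.PR φ (S.Dz φ ψ y₀) (Om y₀) R f w) ≤ δ * nsf f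

/-- **E-Pert2** difference of the fibre supercharges at `x` and at its central part. PROOF: the coefficients of the potential are linear:
`|D_i(x) - D_i(y)| ≤ C‖s‖`; `|(D_8⁻¹D_j)(x) - (D_8⁻¹D_j)(y)| ≤ C‖s‖/R` near the ray (`CoefBd`: `inv`, `dy`, resolvent identity). Pointwise. -/
def Pert2Stmt (S : Setup d F) (φ : Spl dh dm d) (ψ : Spl r ds dh) : Prop := S.IsSub φ → S.IsCen φ ψ →
  ∀ (y₀ : Cfg r) (ε0 C0 : ℝ), 0 < ε0 → 0 ≤ C0 → S.CoefBd φ (cmb ψ y₀ 0) ε0 C0 → ∃ C : ℝ, 0 ≤ C ∧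
    ∀ R : ℝ, 0 < R → ∀ x : Cfg dh, ‖x - R • cmb ψ y₀ 0‖ ≤ ε0 * R → ∀ (f : Wsp dm → F) (β : Fin 16) (w : Wsp dm),
      ‖S.q1 φ (S.DY φ x) β f w - S.q1 φ (S.Dz φ ψ (zpt ψ x)) β f w‖ ≤
        C * (‖spt ψ x‖ / R) * ((∑ j, ∑ B, ‖pf j B f w‖) + R * ‖w‖ * ‖f w‖)

/-- **E-UGapC** gap at central points. PROOF: steps (i)–(iii) of E-UGap below (hypotheses: `FibStmt`, E-PrC, E-VacQ1, E-Bz, `ScaleFStmt`). -/
def UGapCStmt (S : Setup d F) (φ : Spl dh dm d) (ψ : Spl r ds dh) : Prop := ∀ _ : FiniteDimensional ℂ F,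
  S.IsSub φ → S.IsCen φ ψ →
  ∀ (U : Set (Cfg r)) (Om : Cfg r → Matrix (Fin dm) (Fin dm) ℝ) (V : Cfg r → F →L[ℂ] F) (K : Submodule ℂ F),
  S.VFr φ ψ U Om V K → ∀ y₀ ∈ U, ∃ ε C : ℝ, 0 < ε ∧ 0 < C ∧
    ∀ R : ℝ, 0 < R → ∀ y : Cfg r, ‖y - R • y₀‖ ≤ ε * R → ∀ f : Wsp dm → F, FT f →
      R * nsf (fun w => f w - S.PR φ (S.Dz φ ψ y) (Om y) 1 f w) ≤ C * S.e1 φ (S.Dz φ ψ y) f

/-- **E-UGap** gap of the fibre operator above the vacuum at the scalar point `y = zpt x`, uniformly near the ray.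
PROOF. By scaling (`ScaleFStmt`; `PR D Om R = PR (RD) (R Om) 1`) and `FibStmt` (2) at `D0 = Dz y₀`: (i) `‖PR_y f - PR_{y₀} f‖ ≤ δ(ε)‖f‖`, `δ → 0`
(continuity of the Gaussian and of `F0(y) = V(y)K`: the projection is `V(y)Π_KV(y)⁻¹`); (ii) hence for `f ∈ FT` and `D = Dz y`:
`c R nsf f ≤ e1 D f + C R nsf (PR_y f)`; (iii) apply this to `f - χ_k PR_yf`, `χ_k → 1` cutoffs (`q1 D` kills `PR_yf`: E-VacQ1), `k → ∞`:
`c R nsf (f - PR_yf) ≤ e1 D f`; (iv) `|q1 (DY x) f - q1 (Dz y) f|² ≤ C(‖s‖/R)²(|∂f|² + R²||w|f|²)` (coefficients: `D_i(x) - D_i(y)` linear in `s`,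
`D_8⁻¹D_j` Lipschitz) and FibFacts F1. -/
def UGapStmt (S : Setup d F) (φ : Spl dh dm d) (ψ : Spl r ds dh) : Prop := ∀ _ : FiniteDimensional ℂ F,
  S.IsSub φ → S.IsCen φ ψ →
  ∀ (U : Set (Cfg r)) (Om : Cfg r → Matrix (Fin dm) (Fin dm) ℝ) (V : Cfg r → F →L[ℂ] F) (K : Submodule ℂ F),
  S.VFr φ ψ U Om V K → ∀ y₀ ∈ U, AN.Std S φ (cmb ψ y₀ 0) → ∃ ε C : ℝ, 0 < ε ∧ 0 < C ∧
    ∀ R : ℝ, 1 ≤ R → ∀ x : Cfg dh, ‖x - R • cmb ψ y₀ 0‖ ≤ ε * R → ∀ f : Wsp dm → F, FT f →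
      R * nsf (fun w => f w - S.PR φ (S.Dz φ ψ (zpt ψ x)) (Om (zpt ψ x)) 1 f w) ≤
        C * (S.e1 φ (S.DY φ x) f + (‖spt ψ x‖ / R) ^ 2 * R * nsf f)

/-- vacuum component of a slice function at `x` -/
noncomputable def vc [FiniteDimensional ℂ F] (S : Setup d F) (φ : Spl dh dm d) (ψ : Spl r ds dh)
    (Om : Cfg r → Matrix (Fin dm) (Fin dm) ℝ) (E : Cfg dh → Wsp dm → F) (x : Cfg dh) : F :=
  (S.F0 φ (S.Dz φ ψ (zpt ψ x)) (Om (zpt ψ x))).starProjection (∫ w, ((S.bz φ ψ Om (zpt ψ x) w : ℝ) : ℂ) • E x w)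

/-- **E-Neg** negligible errors: three sufficient conditions for `R_n ⟨E_n, v_n⟩ → 0`.
PROOF. (1) Cauchy–Schwarz. (2) Let `χ_n(x) = c(‖s‖²/(2η_nR_n)²)` (`= 1` on the support of `E_n`), `v' = χ_nv_n`; `E1 v' ≤ E1 v_n` (`Q1` acts
fibrewise); integrate E-UGap: `ns2 (v' - PR v') ≤ CR⁻¹(E1 v' + η_n²R ns2 v') → 0`; `ip2 E v = ip2 E v' = ip2 E (v' - PR v') + ip2 E (PR v')`, and
`|ip2 E (PR v')| ≤ (∫‖vc E x‖²)^{1/2}(ns2 v')^{1/2}`. (3) `ip2 E v = ip2 E (odp v)`, `R ns2 (odp v) ≤ C E1 (odp v) ≤ C E1 v ≤ CR⁻²` (`ParStmt`, `FIntStmt`). -/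
def NegStmt (S : Setup d F) (φ : Spl dh dm d) (ψ : Spl r ds dh) : Prop := ∀ _ : FiniteDimensional ℂ F,
  S.IsSub φ → S.IsCen φ ψ →
  ∀ (U : Set (Cfg r)) (Om : Cfg r → Matrix (Fin dm) (Fin dm) ℝ) (V : Cfg r → F →L[ℂ] F) (K : Submodule ℂ F),
  S.VFr φ ψ U Om V K → ∀ y₀ ∈ U, AN.Std S φ (cmb ψ y₀ 0) → ∃ ε : ℝ, 0 < ε ∧
    ∀ (R η : ℕ → ℝ) (E v : ℕ → Cfg dh → Wsp dm → F) (C : ℝ), Tendsto R atTop atTop → (∀ n, 0 < η n) → Tendsto η atTop (𝓝 0) →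
    (∀ n, 1 ≤ R n) → (∀ n, Tst2 (E n)) → (∀ n, Sup2 (cmb ψ y₀ 0) ε (R n) (E n)) →
    (∀ n, Tst2 (v n)) → (∀ n, Sup2 (cmb ψ y₀ 0) ε (R n) (v n)) → (∀ n, ns2 (v n) ≤ C) →
    (∀ n, R n ^ 2 * S.E1 φ (v n) ≤ C) →
    (Tendsto (fun n => R n ^ 2 * ns2 (E n)) atTop (𝓝 0) ∨
      ((∀ n, R n ^ 2 * ns2 (E n) ≤ C) ∧ (∀ n x w, E n x w ≠ 0 → ‖spt ψ x‖ ≤ η n * R n) ∧
        Tendsto (fun n => R n ^ 2 * ∫ x, ‖vc S φ ψ Om (E n) x‖ ^ 2) atTop (𝓝 0)) ∨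
      ((∀ n x w, E n x (-w) = -E n x w) ∧ Tendsto (fun n => ns2 (E n) / R n) atTop (𝓝 0))) →
    Tendsto (fun n => (R n : ℂ) * ip2 (E n) (v n)) atTop (𝓝 0)

/-- hypotheses on the internal function -/
structure IntF (K : Submodule ℂ F) (η R : ℝ) (Φ : Cfg ds → F) : Prop where
  tst : Setup.Tst Φ
  val : ∀ s, Φ s ∈ K
  sup : ∀ s, Φ s ≠ 0 → ‖s‖ ≤ η * R

/-- **E-TR** basic facts on the trial functions. PROOF: smoothness from `VFr`, `BzFacts.sm` (the support lies over `U`), supports; norm by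
Fubini (`Cfg dh ≅ Cfg r × Cfg ds`, measure preserving), `∫bz² = 1`, `‖V v‖ = ‖v‖`, substitution `y → Ry` (`9r` variables). -/
def TRStmt (S : Setup d F) (φ : Spl dh dm d) (ψ : Spl r ds dh) : Prop := S.IsSub φ → S.IsCen φ ψ →
  ∀ (U : Set (Cfg r)) (Om : Cfg r → Matrix (Fin dm) (Fin dm) ℝ) (V : Cfg r → F →L[ℂ] F) (K : Submodule ℂ F),
  S.VFr φ ψ U Om V K → ∀ (y₀ : Cfg r) (ε0 C0 : ℝ), 0 < ε0 → BzFacts S φ ψ U Om y₀ ε0 C0 →
  ∀ (c : ℝ → ℝ), IsCt c → ∀ ε : ℝ, 0 < ε → ε ≤ ε0 → ∀ ζ : Cfg r → ℂ, ContDiff ℝ ∞ ζ → tsupport ζ ⊆ Metric.ball y₀ (ε / 2) →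
  ∀ (R η : ℝ), 1 ≤ R → 0 ≤ η → η ≤ ε / 2 → ∀ Φ : Cfg ds → F, IntF K η R Φ →
    Tst2 (S.TR φ ψ Om V c ε R (pp ζ Φ)) ∧ Sup2 (cmb ψ y₀ 0) ε R (S.TR φ ψ Om V c ε R (pp ζ Φ)) ∧
    (∀ x w, S.TR φ ψ Om V c ε R (pp ζ Φ) x w ≠ 0 → ‖spt ψ x‖ ≤ η * R) ∧
    ns2 (S.TR φ ψ Om V c ε R (pp ζ Φ)) ≤ (∫ y, ‖ζ y‖ ^ 2) * nsq Φ

/-- common shape of the decomposition statements: `T` = operator applied to the trial function, `M` = main term; the error splits into a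
small part `X1`, an excited part `X2` and an odd part `X3`. `C` may depend on `ζ` but not on `R, η, Φ`. -/
def DecE [FiniteDimensional ℂ F] (S : Setup d F) (φ : Spl dh dm d) (ψ : Spl r ds dh)
    (Om : Cfg r → Matrix (Fin dm) (Fin dm) ℝ) (y₀ : Cfg r) (ε : ℝ) (T M : Cfg dh → Wsp dm → F) (C η R : ℝ)
    (Φ : Cfg ds → F) : Prop :=
  ∃ X1 X2 X3 : Cfg dh → Wsp dm → F, Tst2 X1 ∧ Tst2 X2 ∧ Tst2 X3 ∧ Sup2 (cmb ψ y₀ 0) ε R X1 ∧
    Sup2 (cmb ψ y₀ 0) ε R X2 ∧ Sup2 (cmb ψ y₀ 0) ε R X3 ∧ (∀ x w, T x w = M x w + X1 x w + X2 x w + X3 x w) ∧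
    R ^ 2 * ns2 X1 ≤ C * ((η ^ 2 + 1 / R) * nsq Φ + 1 / R * ∑ i, ∑ A, nsq (pd i A Φ)) ∧
    R ^ 2 * ns2 X2 ≤ C * nsq Φ ∧ (∀ x w, X2 x w ≠ 0 → ‖spt ψ x‖ ≤ η * R) ∧
    R ^ 2 * (∫ x, ‖vc S φ ψ Om X2 x‖ ^ 2) ≤ C / R * nsq Φ ∧
    (∀ x w, X3 x (-w) = -X3 x w) ∧ ns2 X3 ≤ C * η ^ 2 * R * nsq Φ

/-- common hypotheses of the decomposition statements -/
def DecCtx (S : Setup d F) (φ : Spl dh dm d) (ψ : Spl r ds dh)
    (P : ∀ (_ : FiniteDimensional ℂ F) (_ : S.IsSub φ) (_ : S.IsCen φ ψ) (_ : Cfg r → Matrix (Fin dm) (Fin dm) ℝ)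
      (_ : Cfg r → F →L[ℂ] F) (_ : Cfg r) (_ : ℝ → ℝ) (_ : ℝ) (_ : Cfg r → ℂ) (_ : ℝ) (_ : ℝ) (_ : ℝ) (_ : Cfg ds → F), Prop) : Prop :=
  ∀ (hF : FiniteDimensional ℂ F) (hφ : S.IsSub φ) (hc : S.IsCen φ ψ) (U : Set (Cfg r))
    (Om : Cfg r → Matrix (Fin dm) (Fin dm) ℝ) (V : Cfg r → F →L[ℂ] F) (K : Submodule ℂ F),
  S.VFr φ ψ U Om V K → ∀ (y₀ : Cfg r) (ε0 C0 : ℝ), y₀ ∈ U → 0 < ε0 → 0 < C0 → BzFacts S φ ψ U Om y₀ ε0 C0 →
  S.CoefBd φ (cmb ψ y₀ 0) ε0 C0 → ∀ (c : ℝ → ℝ), IsCt c → ∀ ε : ℝ, 0 < ε → ε ≤ ε0 → ∀ ζ : Cfg r → ℂ, ContDiff ℝ ∞ ζ →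
  tsupport ζ ⊆ Metric.ball y₀ (ε / 2) → ∃ C : ℝ, 0 ≤ C ∧ ∀ (R η : ℝ), 1 ≤ R → 0 ≤ η → η ≤ ε / 2 →
    ∀ Φ : Cfg ds → F, IntF K η R Φ → P hF hφ hc Om V y₀ c ε ζ C R η Φ

/-- **E-DecH** the block diagonal supercharge. PROOF. `W` of `h` at `cmb y s` only involves `s` (centre), so `Q^h T` is `TR` with `Φ` replaced by
`Q^{int}Φ` (second summand of the main term) plus the `y`-derivatives: of `ζ(y/R)` (main term, factor `1/R`; `V` commutes with `θ^h`), and of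
`c·bz·V` (cutoff does not depend on `y`): `X2`, norm `≤ C/R` (BzFacts `dy`, `mom`; `‖∂V‖ ≤ C/R` by homogeneity), vacuum part: `∫bz∂bz = 0`,
`VFr.par`, up to the cutoff (BzFacts `tail`). -/
def DecHStmt (S : Setup d F) (φ : Spl dh dm d) (ψ : Spl r ds dh) : Prop :=
  DecCtx S φ ψ fun _ hφ hc Om V y₀ c ε ζ C R η Φ => ∀ β, DecE S φ ψ Om y₀ ε (S.Qh φ β (S.TR φ ψ Om V c ε R (pp ζ Φ)))
    (fun x w => ((R⁻¹ : ℝ) : ℂ) • S.TR φ ψ Om V c ε R (S.DF φ ψ (fun _ => 0) 0 β (pp ζ Φ)) x w +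
      S.TR φ ψ Om V c ε R (pp ζ ((S.int φ ψ hφ hc).Q β Φ)) x w) C η R Φ

/-- **E-Dec1** the off-diagonal supercharge. PROOF. `Q1` at `x` minus `q1` at `y = zpt x` has coefficients `O(‖s‖/R)` (for `∂_w`) and `O(‖s‖)` (for
`w`): applied to `T` it is odd in `w` with norm² `≤ C(η²)(R)` (BzFacts `dw`, `mom`; `‖s‖ ≤ ηR`): `X3`. `q1` at `y` kills the vacuum (E-VacQ1), up to
the derivative of the cutoff (`tail`): `X1`. -/
def Dec1Stmt (S : Setup d F) (φ : Spl dh dm d) (ψ : Spl r ds dh) : Prop :=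
  DecCtx S φ ψ fun _ _ _ Om V y₀ c ε ζ C R η Φ => ∀ β, DecE S φ ψ Om y₀ ε (S.Q1 φ β (S.TR φ ψ Om V c ε R (pp ζ Φ)))
    (fun _ _ => 0) C η R Φ

/-- **E-DecR** the remainder. PROOF. The term with `∂^h`: `≤ (C/R)|w||∂_xT|`, `∂_yT = O(1/R)`, `∂_sT = T(∂Φ)`: `X1`. In the other terms replace
`D_8⁻¹(x)`, `∂log J(x)` by their values at `y` (difference `C‖s‖/R²`: `X1`); what remains is `Q^r` at `cmb y 0` applied to
`c·bz·V(y)Φ(s)` in the fibre: `X2`, norm `≤ C/R`, vacuum part `0` by E-QrVac up to the cutoff (`tail`). -/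
def DecRStmt (S : Setup d F) (φ : Spl dh dm d) (ψ : Spl r ds dh) : Prop :=
  DecCtx S φ ψ fun _ _ _ Om V y₀ c ε ζ C R η Φ => ∀ β, DecE S φ ψ Om y₀ ε (S.Qr φ β (S.TR φ ψ Om V c ε R (pp ζ Φ)))
    (fun _ _ => 0) C η R Φ

/-- **E-DecM** the mass term, `m = μ/R²`. PROOF: centre part of `M^h` = main term; internal part `≤ CμR⁻²ηR`, `M^w` part `≤ CμR⁻²|w|`: `X1`. -/
def DecMStmt (S : Setup d F) (φ : Spl dh dm d) (ψ : Spl r ds dh) : Prop :=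
  ∀ (N : Fin 9 → Matrix (Fin 16) (Fin 16) ℂ) (μ : ℝ), 0 ≤ μ →
  DecCtx S φ ψ fun _ _ _ Om V y₀ c ε ζ C R η Φ => ∀ β, DecE S φ ψ Om y₀ ε
    (fun x w => ((μ / R ^ 2 : ℝ) : ℂ) • (S.Mh φ N β x (S.TR φ ψ Om V c ε R (pp ζ Φ) x w) +
      S.Mw φ N β w (S.TR φ ψ Om V c ε R (pp ζ Φ) x w)))
    (fun x w => ((R⁻¹ : ℝ) : ℂ) • (S.TR φ ψ Om V c ε R (S.DF φ ψ N μ β (pp ζ Φ)) x w -
      S.TR φ ψ Om V c ε R (S.DF φ ψ (fun _ => 0) 0 β (pp ζ Φ)) x w)) C η R Φ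

/-- **E-Loc** OUTPUT: limit equation on the slice. PROOF. `ip2 T (QS v) = ip2 (QS T) v` (`SymStmt`; mass terms symmetric); add the four
decompositions; `ns2 (TR (pp ζ (Q^{int}Φ_n))) ≤ C Σ nsq (Q^{int}Φ_n) = o(R⁻²)`; `R² E1 v ≤ C` by `OutStmt` of block C (`m = μ/R² ≤ 1` eventually); E-Neg for
all errors. -/
def LocStmt (S : Setup d F) (φ : Spl dh dm d) (ψ : Spl r ds dh) : Prop := ∀ (_ : FiniteDimensional ℂ F) (hφ : S.IsSub φ)
  (hc : S.IsCen φ ψ) (N : Fin 9 → Matrix (Fin 16) (Fin 16) ℂ), S.IsMass N →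
  ∀ (U : Set (Cfg r)) (Om : Cfg r → Matrix (Fin dm) (Fin dm) ℝ) (V : Cfg r → F →L[ℂ] F) (K : Submodule ℂ F),
  S.VFr φ ψ U Om V K → ∀ y₀ ∈ U, AN.Std S φ (cmb ψ y₀ 0) → ∀ c : ℝ → ℝ, IsCt c → ∃ ε0 : ℝ, 0 < ε0 ∧
    ∀ ε : ℝ, 0 < ε → ε ≤ ε0 → ∀ ζ : Cfg r → ℂ, ContDiff ℝ ∞ ζ → tsupport ζ ⊆ Metric.ball y₀ (ε / 2) →
    ∀ (μ : ℝ), 0 ≤ μ → ∀ (R η : ℕ → ℝ) (Φ : ℕ → Cfg ds → F) (v : ℕ → Cfg dh → Wsp dm → F) (C : ℝ),
      Tendsto R atTop atTop → (∀ n, 1 ≤ R n) → (∀ n, 0 < η n ∧ η n ≤ ε / 2) → Tendsto η atTop (𝓝 0) →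
      (∀ n, IntF K (η n) (R n) (Φ n)) → (∀ n, nsq (Φ n) ≤ C) →
      Tendsto (fun n => (∑ i, ∑ A, nsq (pd i A (Φ n))) / R n) atTop (𝓝 0) →
      Tendsto (fun n => R n ^ 2 * ∑ β, nsq ((S.int φ ψ hφ hc).Q β (Φ n))) atTop (𝓝 0) →
      (∀ n, Tst2 (v n)) → (∀ n, Sup2 (cmb ψ y₀ 0) ε (R n) (v n)) → (∀ n, ns2 (v n) ≤ C) →
      (∀ n, R n ^ 2 * S.ES φ N (μ / R n ^ 2) (v n) ≤ C) →
      ∀ β, Tendsto (fun n => (R n : ℂ) * ip2 (S.TR φ ψ Om V c ε (R n) (pp ζ (Φ n))) (S.QS φ N (μ / R n ^ 2) β (v n)) -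
        ip2 (S.TR φ ψ Om V c ε (R n) (S.DF φ ψ N μ β (pp ζ (Φ n)))) (v n)) atTop (𝓝 0)

end Vale.Agent.P353.Z.AE
end

section

/-! # P353, all `N`, block L (LIO, helper62): statements

OUTPUT: `AD.LioStmt S` for centreless `S`. A prover delivers `theorem <name> … : XStmt …` in `Vale/Agent/P353/AN/L/<File>.lean`, importing
this file and landed files of `Z`, `Z/U`, `AN`, with other statements only as hypotheses. -/

open MeasureTheory Filter Topology Matrix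
open scoped ContDiff

namespace Vale.Agent.P353.Z.AL

variable {d dh dm r ds n : ℕ} {F : Type*} [NormedAddCommGroup F] [InnerProductSpace ℂ F]

/-- **L-Riesz** representation of locally bounded antilinear functionals. PROOF. Compact exhaustion `A_m` of `Ω` (`A_m ⊆ interior A_{m+1}`). `A_m` is
covered by finitely many balls of the hypothesis; with the disjoint pieces `B_i = ball_i \ ⋃_{j<i} ball_j` and `b = ∑1_{B_i}b`: `|ℓ b| ≤ C_m‖b‖` for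
`b` supported in `A_m` (so `ℓ` respects a.e. equality). Riesz in `Lp (Ek n) 2 (volume.restrict A_m)` (`InnerProductSpace.toDual`; extend by `0`): `ℓ b = ∫⟨b,F_m⟩`.
Uniqueness: `F_{m+1} = F_m` a.e. on `A_m` (test with `1_{A_m}(F_{m+1}-F_m)`). `f = F_m` on `A_m \ A_{m-1}`. Last part: `b = 1_A f`, `A ⊆ Ω'` compact:
`∫_A‖f‖² = ℓ(b) ≤ C(∫_A‖f‖²)^{1/2}`; exhaust `Ω'` (monotone convergence). -/
def RieszStmt : Prop := ∀ (r n : ℕ) (Ω : Set (Cfg r)) (ℓ : (Cfg r → Ek n) → ℂ), IsOpen Ω →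
  (∀ b b', LC Ω b → LC Ω b' → ℓ (fun x => b x + b' x) = ℓ b + ℓ b') →
  (∀ (c : ℂ) b, LC Ω b → ℓ (fun x => c • b x) = (starRingEnd ℂ) c * ℓ b) →
  (∀ η ∈ Ω, ∃ δ C : ℝ, 0 < δ ∧ ∀ b, LC Ω b → (∀ x, x ∉ Metric.ball η δ → b x = 0) →
    ‖ℓ b‖ ≤ C * Real.sqrt (∫ x, ‖b x‖ ^ 2)) →
  ∃ f : Cfg r → Ek n, AEStronglyMeasurable f (volume : Measure (Cfg r)) ∧
    (∀ A, IsCompact A → A ⊆ Ω → IntegrableOn (fun x => ‖f x‖ ^ 2) A (volume : Measure (Cfg r))) ∧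
    (∀ b, LC Ω b → ℓ b = ∫ x, inner ℂ (b x) (f x)) ∧
    ∀ (Ω' : Set (Cfg r)) (C : ℝ), IsOpen Ω' → Ω' ⊆ Ω → 0 ≤ C →
      (∀ b, LC Ω' b → ‖ℓ b‖ ≤ C * Real.sqrt (∫ x, ‖b x‖ ^ 2)) →
      IntegrableOn (fun x => ‖f x‖ ^ 2) Ω' (volume : Measure (Cfg r)) ∧ ∫ x in Ω', ‖f x‖ ^ 2 ≤ C ^ 2

/-- sequences of gauge invariant test functions with locally (off `0`) bounded mass at scale `R n → ∞` -/
structure SqM (S : Setup d F) (R : ℕ → ℝ) (u : ℕ → Cfg d → F) : Prop where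
  inv : ∀ n, AD.GInv S (u n)
  pos : ∀ n, 0 < R n
  lim : Tendsto R atTop atTop
  bd : ∀ s t : ℝ, 0 < s → s < t → ∃ C : ℝ, ∀ n, AD.mas (u n) (AD.shl d (s * R n) (t * R n)) ≤ C

/-- **L-Rad** radial cutoff. PROOF. `u'(x) = ρ(|x|²/R²)u(x)`, `ρ` smooth, `= 1` on `[s²,t²]`, support in `[s²/4, 4t²]`, `0 ≤ ρ ≤ 1`; `G_C` kills functions of `|x|²`
(`f` antisymmetric): compare `AN/D/NonComm.lean`, `Z/Loc` (`Q_cut`), `Z/U/GrpExp`. -/
def RadStmt (S : Setup d F) : Prop := ∀ (R : ℕ → ℝ) (u : ℕ → Cfg d → F), SqM S R u → ∀ s t : ℝ, 0 < s → s < t →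
  ∃ (u' : ℕ → Cfg d → F) (C : ℝ), (∀ n, AD.GInv S (u' n)) ∧ (∀ n x, s * R n ≤ ‖x‖ → ‖x‖ ≤ t * R n → u' n x = u n x) ∧
    (∀ n, ∫ x, ‖u' n x‖ ^ 2 ≤ C) ∧ ∀ n x, ‖u' n x‖ ≤ ‖u n x‖

/-- **L-Sup** the functional only sees a shell. PROOF: `‖x‖² = ‖x^z‖² + ‖x^s‖² + ‖x^m‖²` (coordinates are permuted), on the support `x^z ∈ R·A`,
`‖x^s‖ ≤ √R`, `‖x^m‖ ≤ √R`; `A ⊆ shl s t` compact, so `s' ≤ ‖η‖ ≤ t'` on `A` with `s < s'`, `t' < t`. -/
def SupZStmt (F : Type*) [NormedAddCommGroup F] [InnerProductSpace ℂ F] : Prop := ∀ (d dh dm r ds : ℕ) (φ : Spl dh dm d)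
  (ψ : Spl r ds dh) (κ : ℝ) (Om : Cfg r → Matrix (Fin dm) (Fin dm) ℝ) (s t : ℝ) (A : Set (Cfg r)), 0 < s → s < t →
  IsCompact A → A ⊆ AD.shl r s t → ∃ R₀ : ℝ, 0 < R₀ ∧ ∀ R : ℝ, R₀ ≤ R → ∀ a : Cfg r → Cfg ds → F, (∀ η x, a η x ≠ 0 → η ∈ A) →
    (∀ x : Cfg d, AN.Zb φ ψ (fun q => ((chi R q : ℝ) : ℂ) • AN.bG κ Om a q) R x ≠ 0 → x ∈ AD.shl d (s * R) (t * R)) ∧
    ∀ u u' : Cfg d → F, (∀ x ∈ AD.shl d (s * R) (t * R), u x = u' x) → ZZ κ φ ψ Om a R u = ZZ κ φ ψ Om a R u'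

/-- **L-Lin** `ZZ` is antilinear in the section. PROOF. `x ↦ Zb(…)(x)` is in `L²`: substitution `x^z = Rη`, `x^s = s`, `x^m = R^{-1/2}X`, and
`chi·bG = 1_{|s| ≤ √R, |X| ≤ R}·Nf(Om η)e^{-½qX}a(η,s)` with `0 < e^{-½qX} ≤ 1`, `Nf(Om η)` continuous, hence bounded, on `A` (`Om` is continuous and positive
definite on `Rg`; `Gs`, `Kx` are continuous functions of a positive definite matrix), `∫∫‖a‖² < ∞`, `|{|X| ≤ R}| < ∞`. `u ∈ L²`. -/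
def LinStmt (S : Setup d F) : Prop := FiniteDimensional ℂ F → ∀ (dh dm r ds : ℕ) (φ : Spl dh dm d) (ψ : Spl r ds dh)
  (L : Finset (Fin r → ℝ)) (Om : Cfg r → Matrix (Fin dm) (Fin dm) ℝ) (K : Submodule ℂ F) (U : Cfg r → F →L[ℂ] F),
  AX.Bun S φ (AX.Mz S φ (spsw ψ)) L Om K U → ∀ A, IsCompact A → A ⊆ Rg S φ ψ → ∀ R : ℝ, 0 < R →
  ∀ u : Cfg d → F, Setup.Tst u →
    (∀ a, Sec2 A a → Integrable fun x => inner ℂ (AN.Zb φ ψ (fun q => ((chi R q : ℝ) : ℂ) • AN.bG S.κ Om a q) R x) (u x)) ∧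
    (∀ a a', Sec2 A a → Sec2 A a' → ZZ S.κ φ ψ Om (fun η s => a η s + a' η s) R u =
      ZZ S.κ φ ψ Om a R u + ZZ S.κ φ ψ Om a' R u) ∧
    ∀ (c : ℂ) a, Sec2 A a → ZZ S.κ φ ψ Om (fun η s => c • a η s) R u = (starRingEnd ℂ) c * ZZ S.κ φ ψ Om a R u

/-- **L-UB** (owner helper714, block MB): uniform bound of the functionals by the mass of the shell; `C` does not depend on `A`. -/
def UBStmt (S : Setup d F) : Prop := FiniteDimensional ℂ F → AN.Cless S → ∀ (dh dm r ds : ℕ) (φ : Spl dh dm d) (ψ : Spl r ds dh)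
  (z₀ : Cfg r), AD.Std2 S φ (spsw ψ) z₀ → ∀ (L : Finset (Fin r → ℝ)) (Om : Cfg r → Matrix (Fin dm) (Fin dm) ℝ) (K : Submodule ℂ F)
  (U : Cfg r → F →L[ℂ] F), AX.Bun S φ (AX.Mz S φ (spsw ψ)) L Om K U → ∃ C : ℝ, 0 < C ∧ ∀ s t : ℝ, 0 < s → s < t →
  ∀ A, IsCompact A → A ⊆ AD.shl r s t → A ⊆ Rg S φ ψ → ∀ (R : ℕ → ℝ) (u : ℕ → Cfg d → F), SqM S R u → ∀ a, Sec2 A a →
    ∀ e : ℝ, 0 < e → ∀ᶠ n in atTop, ‖ZZ S.κ φ ψ Om a (R n) (u n)‖ ≤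
      C * Real.sqrt (n2 a) * Real.sqrt (AD.mas (u n) (AD.shl d (s * R n) (t * R n))) + e

/-- **L-Iso** norm of sections. PROOF. `U` is continuous on the open set `(Coll L)ᶜ ⊇ A`, so `(η,s) ↦ b_j(η)U(η)o_j(s)` is a.e. strongly measurable
(`1_A(η)b_j(η)U(η)` is, and `o_j` is; evaluation is continuous); `⟨U o_j(s), U o_k(s)⟩ = ⟨o_j(s),o_k(s)⟩`, integrate over `s` (`ort`), then over `η`. -/
def IsoStmt (S : Setup d F) : Prop := ∀ (dh dm r ds n : ℕ) (φ : Spl dh dm d) (ψ : Spl r ds dh)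
  (L : Finset (Fin r → ℝ)) (Om : Cfg r → Matrix (Fin dm) (Fin dm) ℝ) (K : Submodule ℂ F) (U : Cfg r → F →L[ℂ] F)
  (o : Fin n → Cfg ds → F) (T : Setup r (Ek n)), Dat S φ ψ L Om K U o T → ∀ A, IsCompact A → A ⊆ (Coll L)ᶜ →
  ∀ b : Cfg r → Ek n, MemLp b 2 (volume : Measure (Cfg r)) → (∀ x, x ∉ A → b x = 0) →
    Sec2 A (sc U o b) ∧ n2 (sc U o b) = ∫ x, ‖b x‖ ^ 2

/-- **L-Eq** limit equation for vanishing energy (from block E `GLimStmt`, see `StmtB`) -/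
def LEqStmt (S : Setup d F) : Prop := FiniteDimensional ℂ F → AN.Cless S → ∀ (dh dm r ds n : ℕ) (φ : Spl dh dm d) (ψ : Spl r ds dh)
  (z₀ : Cfg r), AD.Std2 S φ (spsw ψ) z₀ →
  ∀ (L : Finset (Fin r → ℝ)) (Om : Cfg r → Matrix (Fin dm) (Fin dm) ℝ) (K : Submodule ℂ F) (U : Cfg r → F →L[ℂ] F)
  (o : Fin n → Cfg ds → F) (T : Setup r (Ek n)), Dat S φ ψ L Om K U o T → ∀ (R : ℕ → ℝ) (u : ℕ → Cfg d → F), AD.Sq S R u →
  VanE S R u → ∀ β, ∀ b : Cfg r → Ek n, AD.TOff L b →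
    Tendsto (fun n => ZZ S.κ φ ψ Om (sc U o (T.Q0 β b)) (R n) (u n)) atTop (𝓝 0)

/-- **L-Zero** all profiles vanish. PROOF. `Ω = (Coll L ∪ {0})ᶜ` (open, `Bun.closed`). Suppose `ZZ_n(b₀)` does not tend to `0`: `∃ᶠ n, e ≤ ‖ZZ_n(b₀)‖`; take an
ultrafilter `𝒰 ≤ atTop ⊓ 𝓟 {n | e ≤ ‖ZZ_n(b₀)‖}`. For `b ∈ LC Ω` the sequence `ZZ_n(b) = ZZ (sc U o b) (R n) (u n)` is eventually bounded (UB, Iso, `Sq.bd`; a
compact subset of `Ω` lies in a shell), so it converges along `𝒰`; `ℓ(b)` = limit. Additive, antilinear (L-Lin). UB and Iso: `|ℓ(b)| ≤ C‖b‖M^{1/2}` if `b` is supported in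
`shl s t` and `mas ≤ M` eventually. L-Riesz gives `f`. With `Ω' = shl r s t \ Coll L`: `IntegrableOn ‖f‖² (shl r s t)` (`Coll L` is a null set: `AF.CutStmt`); with
`Ω' = dsh r k \ Coll L`: `∫_{dsh k}‖f‖² ≤ C²C₁2^{3|k|}`. L-Eq: `∫⟨T.Q0 β ζ, f⟩ = ℓ(T.Q0 β ζ) = 0` for `ζ ∈ TOff L`. `AD.LiouStmt T` gives `f = 0`, so `ℓ(b₀) = 0`,
contradiction. (`r = 0`: `Ω = ∅`.) -/
def ZeroStmt (S : Setup d F) : Prop := FiniteDimensional ℂ F → AN.Cless S → ∀ (dh dm r ds n : ℕ) (φ : Spl dh dm d) (ψ : Spl r ds dh)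
  (z₀ : Cfg r), AD.Std2 S φ (spsw ψ) z₀ →
  ∀ (L : Finset (Fin r → ℝ)) (Om : Cfg r → Matrix (Fin dm) (Fin dm) ℝ) (K : Submodule ℂ F) (U : Cfg r → F →L[ℂ] F)
  (o : Fin n → Cfg ds → F) (T : Setup r (Ek n)), Dat S φ ψ L Om K U o T → ∀ (R : ℕ → ℝ) (u : ℕ → Cfg d → F), AD.Sq S R u →
  Grw R u → VanE S R u → ∀ b : Cfg r → Ek n, LC ((Coll L ∪ {0})ᶜ) b →
    Tendsto (fun n => ZZ S.κ φ ψ Om (sc U o b) (R n) (u n)) atTop (𝓝 0)

def ZeroOfStmt (S : Setup d F) : Prop := RieszStmt → LinStmt S → UBStmt S → IsoStmt S → LEqStmt S →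
  (∀ (r n : ℕ) (T : Setup r (Ek n)), AD.LiouStmt T) → (∀ r, AF.CutStmt r) → ZeroStmt S

/-- **L-Tail** tails of the scaled slice functions. PROOF: substitution `y^z = Rη`, `w = R^{-1/2}ω` (`MeaStmt`, second part, applied to `v` times an indicator):
`= ∫_{‖s‖ ≥ εR or ‖ω‖ ≥ εR^{3/2}}‖v‖² → 0`. -/
def TailStmt (S : Setup d F) : Prop := FiniteDimensional ℂ F → AN.MeaStmt S → ∀ (dh dm r ds : ℕ) (φ : Spl dh dm d)
  (ψ : Spl r ds dh), S.IsSub φ → ∀ v : Cfg r → Cfg ds → Wsp dm → F,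
  MemLp (fun q : Cfg r × Cfg ds × Wsp dm => v q.1 q.2.1 q.2.2) 2 (volume.prod (volume.prod volume)) →
    (∀ R : ℝ, 0 < R → MemLp (fun p : Cfg dh × Wsp dm => AN.Ts0 ψ v R p.1 p.2) 2 (volume.prod volume) ∧
      ∫ p : Cfg dh × Wsp dm, ‖AN.Ts0 ψ v R p.1 p.2‖ ^ 2 ∂(volume.prod volume) =
        ∫ q : Cfg r × Cfg ds × Wsp dm, ‖v q.1 q.2.1 q.2.2‖ ^ 2 ∂(volume.prod (volume.prod volume))) ∧
    ∀ ε : ℝ, 0 < ε → Tendsto (fun R : ℝ => ∫ p in {p : Cfg dh × Wsp dm | ε * R ≤ ‖AN.hs ψ p.1‖ ∨ ε * R ≤ ‖p.2‖},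
      ‖AN.Ts0 ψ v R p.1 p.2‖ ^ 2 ∂(volume.prod volume)) atTop (𝓝 0)

/-- **L-VG** the slice section is normalised. PROOF: `GauStmt` (`0 < ∫gR²`, integrable), Fubini; measurability: `(η,w) ↦ gR (Dz η)(Om η) 1 w` is continuous on
`A × Wsp` (`Om` continuous; `D_8⁻¹`, `t2⁻¹` continuous where the determinants do not vanish), `η ↦ ∫gR²` is measurable (`StronglyMeasurable.integral_prod_right`). -/
def VGStmt (S : Setup d F) : Prop := FiniteDimensional ℂ F → AN.GauStmt → AlgStmt → ∀ (dh dm r ds : ℕ) (φ : Spl dh dm d)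
  (ψ : Spl r ds dh) (Om : Cfg r → Matrix (Fin dm) (Fin dm) ℝ) (A : Set (Cfg r)), IsCompact A →
  (∀ η ∈ A, Frz (AN.Dz S φ ψ η) ∧ IsOm S.κ (AN.Dz S φ ψ η) (Om η)) → ContinuousOn Om A → ∀ a, Sec2 A a →
    MemLp (fun q : Cfg r × Cfg ds × Wsp dm => AN.vG S φ ψ Om a q.1 q.2.1 q.2.2) 2 (volume.prod (volume.prod volume)) ∧
    ∫ q : Cfg r × Cfg ds × Wsp dm, ‖AN.vG S φ ψ Om a q.1 q.2.1 q.2.2‖ ^ 2 ∂(volume.prod (volume.prod volume)) = n2 a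

/-- **L-GluA** global functional = slice functional over a small ball in the standard frame, with PRESCRIBED slice radius `ε`. PROOF. `Std S φ (cmb ψ z 0)` for all `z`
near `z₀` (`det D_8 ≠ 0` is open), `Frz` from `AX.frz_Dz`. Choose `ε₀` such that `Nr ψ (closedBall z₀ ε₀) dm R ε₀ ⊆ Nb (cmb ψ z₀ 0) dm R ε₁`, `ε₁` = radius of `NormStmt` at `z₀` (so
`∫_{Nr}‖res u_n‖² ≤ C`). Fix `ε ≤ ε₀`. For each `z ∈ closedBall z₀ ε` `GluStmt` at `z` with a slice radius `ε_z` (also `≤` radius of `NormStmt` at `z`) gives `δ_z`; finitely many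
balls `B(z_k,δ_k)` cover; `A_k` = disjoint Borel pieces; `a = ∑1_{A_k}a`, `ZZ` and `Sl` are additive (L-Lin). For each piece (with `u'` of L-Rad; `ZZ` does not change by L-Sup; the slice integrals
do not change since `Nb`, `Nr` lie in a shell): `ZZ(1_{A_k}a) - ∫_{Nb(z_k)}⟨Ts0 (vG 1_{A_k}a), res u⟩ → 0` (cutoffs `chi (R n)` are admissible for large `n`; change them to `0` for the
finitely many other `n`), and `|∫_{Nb(z_k,R,ε_k)} - ∫_{Nr A R ε}| ≤ ` (norm of `Ts0(vG a)` on `{‖s‖ ≥ ε'R or ‖w‖ ≥ ε'R}`) × (norm of `res u` on `Nb ∪ Nr`) `→ 0` (L-Tail, L-VG, `NormStmt`). -/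
def GluAStmt (S : Setup d F) : Prop := FiniteDimensional ℂ F → ∀ (dh dm r ds : ℕ) (φ : Spl dh dm d) (ψ : Spl r ds dh)
  (z₀ : Cfg r), AD.Std2 S φ (spsw ψ) z₀ → z₀ ≠ 0 → ∀ (L : Finset (Fin r → ℝ)) (Om : Cfg r → Matrix (Fin dm) (Fin dm) ℝ)
  (K : Submodule ℂ F) (U : Cfg r → F →L[ℂ] F), AX.Bun S φ (AX.Mz S φ (spsw ψ)) L Om K U → ∃ ε₀ : ℝ, 0 < ε₀ ∧
  (∀ η ∈ Metric.closedBall z₀ ε₀, (S.Dz φ ψ η 8).det ≠ 0 ∧ η ∈ Rg S φ ψ) ∧
  ∀ ε : ℝ, 0 < ε → ε ≤ ε₀ → ∀ (R : ℕ → ℝ) (u : ℕ → Cfg d → F), SqM S R u → ∀ a, Sec2 (Metric.closedBall z₀ ε) a →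
    Tendsto (fun n => ZZ S.κ φ ψ Om a (R n) (u n) - Sl S φ ψ Om (Metric.closedBall z₀ ε) ε a (R n) (u n)) atTop (𝓝 0)

def GluAOfStmt (S : Setup d F) : Prop := AN.GluStmt S → AN.NormStmt S → AN.MeaStmt S → AN.GauStmt → AlgStmt → RadStmt S → SupZStmt F →
  LinStmt S → TailStmt S → VGStmt S → GluAStmt S

/-- **L-Sf** `sfun` is the slice functional of the section `χ(η)Π_{F0(η)}o(s)`. PROOF. `omc (Dz yz) = Om yz` (`AX.omc_eq`, `OmUStmt`); homogeneity: `gR (R•D) (R•Om) 1 w = gR D Om 1 (√R w)`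
(`tI`, `VV` do not change), `∫gR(R•D)² = R^{-4dm}∫gR(D)²`, `F0 (R•D)(R•Om) = F0 D Om` (`F0Stmt`), `Dz (R•yz) = R•Dz yz`, `Om (R•yz) = R•Om yz` (`Bun.om_scale`); so for `yz = Rη`:
`R^{-9r/2}χ(η)vcz(yz)(o(ys))(w) = Ts0(vG a)R (cmb yz ys) w`, `a(η,s) = χ(η)Π o(s)`. Fubini for the bounded region (`y ↔ (yz,ys)` measure preserving; the integrand is integrable:
`o ∈ L²`, `res u` bounded, bounded region) turns the iterated integrals into the integral over `Nr`. -/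
def SfStmt (S : Setup d F) : Prop := ∀ _ : FiniteDimensional ℂ F, ∀ (dh dm r ds : ℕ) (φ : Spl dh dm d) (ψ : Spl r ds dh)
  (z₀ : Cfg r), AD.Std2 S φ (spsw ψ) z₀ → ∀ (L : Finset (Fin r → ℝ)) (Om : Cfg r → Matrix (Fin dm) (Fin dm) ℝ)
  (K : Submodule ℂ F) (U : Cfg r → F →L[ℂ] F), AX.Bun S φ (AX.Mz S φ (spsw ψ)) L Om K U →
  ∀ ε : ℝ, 0 < ε → (∀ η ∈ Metric.closedBall z₀ ε, (S.Dz φ ψ η 8).det ≠ 0) →
  ∀ χ : Cfg r → ℝ, ContDiff ℝ ∞ χ → tsupport χ ⊆ Metric.ball z₀ ε → ∀ o : Cfg ds → F, MemLp o 2 (volume : Measure (Cfg ds)) →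
    Sec2 (Metric.closedBall z₀ ε) (fun η s => ((χ η : ℝ) : ℂ) • (S.F0 φ (S.Dz φ ψ η) (Om η)).starProjection (o s)) ∧
    ∀ R : ℝ, 0 < R → ∀ u : Cfg d → F, Setup.Tst u →
      AD.sfun S φ (spsw ψ) ε R χ o u = Sl S φ ψ Om (Metric.closedBall z₀ ε) ε
        (fun η s => ((χ η : ℝ) : ℂ) • (S.F0 φ (S.Dz φ ψ η) (Om η)).starProjection (o s)) R u

/-- **L-ZML** zero modes form a space stable under operators (anti)commuting with the fermions of `S`. PROOF. `u_n → o` in `L²`, `u_n ∈ GInv`, `En → 0`; `A∘u_n` is a test function,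
`G_C(A∘u) = A∘(G_Cu)` (`A` commutes with the bilinears `cS`), `Q_β(A∘u) = ±A∘(Q_βu)`. -/
def ZMLStmt (S : Setup d F) : Prop :=
  (∀ o o', AD.ZM S o → AD.ZM S o' → AD.ZM S fun x => o x + o' x) ∧ (∀ (c : ℂ) o, AD.ZM S o → AD.ZM S fun x => c • o x) ∧
  (∀ o o' : Cfg d → F, AD.ZM S o → (∀ᵐ x ∂(volume : Measure (Cfg d)), o' x = o x) → AD.ZM S o') ∧
  (∀ o, AD.ZM S o → MemLp o 2 (volume : Measure (Cfg d))) ∧
  ∀ A : F →L[ℂ] F, ((∀ α B, A * S.th α B = S.th α B * A) ∨ (∀ α B, A * S.th α B = -(S.th α B * A))) →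
    ∀ o, AD.ZM S o → AD.ZM S fun x => A (o x)

/-- **L-ZMF** the zero modes are spanned by the functions `o_j` of `ICStmt`. PROOF: `o ∈ ZM`, `u_n → o`: `mas(u_n - ∑⟨o_j,u_n⟩o_j)(ball 0 ρ) ≤ Cρ²En(u_n) → 0`, so
`o = ∑⟨o_j,o⟩o_j` a.e. on every ball. -/
def ZMFStmt (S : Setup d F) : Prop := ∀ (n : ℕ) (o : Fin n → Cfg d → F) (C : ℝ), (∀ j, AD.ZM S (o j)) →
  (∀ j k, ∫ x, inner ℂ (o j x) (o k x) = if j = k then 1 else 0) →
  (∀ ρ : ℝ, 1 ≤ ρ → ∀ u, AD.GInv S u →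
    AD.mas (fun x => u x - ∑ j, (∫ z, inner ℂ (o j z) (u z)) • o j x) (Metric.ball 0 ρ) ≤ C * ρ ^ 2 * AD.En S u) →
  ∀ o', AD.ZM S o' → ∀ᵐ x ∂(volume : Measure (Cfg d)), o' x = ∑ j, (∫ z, inner ℂ (o j z) (o' z)) • o j x

/-- **L-Dat** data of a stratum exist. PROOF. `AX`: `tor_Mz`, `RootStmt`, `BunStmt` give `L, Om, K, U`. `W` = space of zero modes of `s` with values in `K` a.e. (in `L²(Cfg ds;F)`): finite
dimensional (L-ZMF, `ICStmt h.ss`; note `h.ss = S.int φ ψ …` up to `spsw (spsw ψ) = ψ`, here it is literally `S.int`), orthonormal basis `o_j` (`exists_orthonormalBasis` in `Lp`, take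
representatives). `θ^z` maps `W` to `W` (L-ZML: it anticommutes with `θ^s`; `Bun.K_th`), so `T.th α A` = its matrix; `T.g = S.g`, `T.f = 0`, `T.κ = 1`; anticommutation and self-adjointness are inherited. -/
def DatStmt (S : Setup d F) : Prop := FiniteDimensional ℂ F → ∀ (dh dm r ds : ℕ) (φ : Spl dh dm d) (ψ : Spl r ds dh)
  (z₀ : Cfg r) (h : AD.Std2 S φ (spsw ψ) z₀), AD.ICStmt h.ss →
  ∃ (L : Finset (Fin r → ℝ)) (Om : Cfg r → Matrix (Fin dm) (Fin dm) ℝ) (K : Submodule ℂ F) (U : Cfg r → F →L[ℂ] F) (n : ℕ)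
    (o : Fin n → Cfg ds → F) (T : Setup r (Ek n)), Dat S φ ψ L Om K U o T

def DatOfStmt (S : Setup d F) : Prop := (∀ (dh dm : ℕ) (φ : Spl dh dm d), AX.BunStmt S φ) → AX.RootStmt →
  (∀ (e : ℕ) (S' : Setup e F), ZMLStmt S' ∧ ZMFStmt S') → DatStmt S

/-- **L-Spz** back to the slice functionals. PROOF. `a(η,s) = χ(η)Π_{F0(η)}o(s)`; by L-Sf and L-GluA it is enough that `ZZ_n(a) → 0`. For `η ∉ Coll L`: `Π_{F0(η)} = U(η)Π_KU(η)⁻¹`
(`Bun.U_mem`, `U` unitary), `U(η)⁻¹` commutes with `θ^h` (`U_comm`), so `s ↦ Π_KU(η)⁻¹o(s)` is a zero mode with values in `K` (L-ZML), `= ∑c_j(η)o_j`, `c_j(η) = ⟨o_j,U(η)⁻¹o⟩ = ∫⟨U(η)o_j(s),o(s)⟩ds`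
(`Dat.full`, `ort`), bounded and continuous off `Coll L`. So `a = sc U o b` a.e., `b = χc`. With the cutoffs `η_m` of `AF.CutStmt` `b_m = η_mb ∈ LC (Coll L ∪ {0})ᶜ` (`ε₀ < ‖z₀‖`), `ZZ_n(sc U o b_m) → 0`, and
`|ZZ_n(a - sc U o b_m)| ≤ C·(n2)^{1/2}M^{1/2} + e` (L-UB, `closedBall z₀ ε ⊆ shl s t ∩ Rg`), `n2(a - sc U o b_m) = ∫(1-η_m)²‖b‖² → 0`. -/
def SpzStmt (S : Setup d F) : Prop := ∀ _ : FiniteDimensional ℂ F, AN.Cless S → ∀ (dh dm r ds n : ℕ) (φ : Spl dh dm d)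
  (ψ : Spl r ds dh) (z₀ : Cfg r) (h : AD.Std2 S φ (spsw ψ) z₀), z₀ ≠ 0 →
  ∀ (L : Finset (Fin r → ℝ)) (Om : Cfg r → Matrix (Fin dm) (Fin dm) ℝ) (K : Submodule ℂ F) (U : Cfg r → F →L[ℂ] F)
  (o : Fin n → Cfg ds → F) (T : Setup r (Ek n)), Dat S φ ψ L Om K U o T → ∃ ε₀ : ℝ, 0 < ε₀ ∧ ∀ ε : ℝ, 0 < ε → ε ≤ ε₀ →
  ∀ (R : ℕ → ℝ) (u : ℕ → Cfg d → F), SqM S R u →
    (∀ b : Cfg r → Ek n, LC ((Coll L ∪ {0})ᶜ) b → Tendsto (fun n => ZZ S.κ φ ψ Om (sc U o b) (R n) (u n)) atTop (𝓝 0)) →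
    AD.SPZ S φ (spsw ψ) z₀ h ε R u

def SpzOfStmt (S : Setup d F) : Prop := GluAStmt S → SfStmt S → UBStmt S → IsoStmt S → LinStmt S →
  (∀ (e : ℕ) (S' : Setup e F), ZMLStmt S') → (∀ r, AF.CutStmt r) → SpzStmt S

/-- **L-Lio** OUTPUT. PROOF: `ψ' = spsw ψ` with `ψ = spsw ψ'`; `z₀ ≠ 0`; L-Dat, L-Zero, L-Spz; `l = id`. -/
def LioOfStmt (S : Setup d F) : Prop := AN.Cless S → DatStmt S → ZeroStmt S → SpzStmt S → AD.LioStmt S

/-- **L-Appr** approximation of zero modes with values in `K` by gauge invariant test functions with values in `K`, supported in `‖s‖ ≤ η_nR_n` (input of block E).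
PROOF. `u_k → o`, `En(u_k) → 0`; `Π_K∘u_k` (L-ZML: `Π_K` commutes with `θ`, since `K` is invariant and `θ` self-adjoint). `t(ρ) = ∫_{‖x‖ ≥ ρ}‖o‖²`; `η_n = min(e₀, max(t(√R_n/2)^{1/4}, R_n^{-1/2}))`-like:
`η_n → 0`, `η_nR_n ≥ √R_n` (for large `n`), `t(η_nR_n/2)/η_n² → 0`. `Φ_n = c(‖x‖²/(η_nR_n)²)·Π_Ku_{k(n)}`, `k(n)` so large that `R_n²En(u_k)`, `‖u_k-o‖²/η_n²` are `≤ 1/n`. `‖Q_β(χu)‖² ≤ 2‖χQ_βu‖² + C(η_nR_n)⁻²∫_{η_nR_n/2 ≤ ‖x‖}‖u‖²`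
(`Q_cut` in `Z/Loc`). Gradient: `8∑‖∂Φ‖² ≤ En(Φ) + C∫‖x‖‖Φ‖² ≤ En + Cη_nR_n‖Φ‖²` (`Z/Energy`, `Fx`). -/
def ApprStmt (S : Setup d F) : Prop := FiniteDimensional ℂ F → ∀ K : Submodule ℂ F, (∀ α A, ∀ v ∈ K, S.th α A v ∈ K) →
  ∀ o, AD.ZM S o → (∀ᵐ x ∂(volume : Measure (Cfg d)), o x ∈ K) →
  ∀ R : ℕ → ℝ, Tendsto R atTop atTop → (∀ n, 1 ≤ R n) → ∀ e₀ : ℝ, 0 < e₀ →
    ∃ (η : ℕ → ℝ) (Φ : ℕ → Cfg d → F), (∀ n, 0 < η n ∧ η n ≤ e₀) ∧ Tendsto η atTop (𝓝 0) ∧ (∀ n, AD.GInv S (Φ n)) ∧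
      (∀ n, AE.IntF K (η n) (R n) (Φ n)) ∧ L2t Φ o ∧
      Tendsto (fun n => R n ^ 2 * ∑ β, nsq (S.Q β (Φ n))) atTop (𝓝 0) ∧
      Tendsto (fun n => (∑ i, ∑ A, nsq (pd i A (Φ n))) / R n) atTop (𝓝 0)

end Vale.Agent.P353.Z.AL
end

section

/-! # P353, all `N`, block E: GLOBAL limit equation (helper725)

Output `GLimStmt`: for the frame independent functional `Zb` of block GL, `R⟨Z(a), Q^m_β u⟩ - ⟨Z(DF_β a), u⟩ → 0`, mass `m = μ/R²`, `μ ≥ 0`.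
`ψ : Spl r ds dh` (centre first; `AN.cmb ψ = cmb ψ`, `AN.IsZ = IsCen` definitionally). A prover delivers one file
`Vale/Agent/P353/AN/E/<File>.lean`, with other statements as hypotheses. -/

open MeasureTheory Filter Topology Matrix
open scoped ContDiff

namespace Vale.Agent.P353.Z.AE

variable {d dh dm r ds : ℕ} {F : Type*} [NormedAddCommGroup F] [InnerProductSpace ℂ F]

/-- supercharge with mass on `Cfg d` in the frame with mass matrices `N`; `Qm m β = QN (N0 S) m β` (`FrameStmt`) -/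
noncomputable def QN (S : Setup d F) (N : Fin 9 → Matrix (Fin 16) (Fin 16) ℂ) (m : ℝ) (β : Fin 16) (u : Cfg d → F)
    (x : Cfg d) : F := S.Q β u x + (m : ℂ) • S.Mx N β x (u x)

/-- gauge invariant test functions -/
structure GI (S : Setup d F) (u : Cfg d → F) : Prop where
  tst : Setup.Tst u
  inv : ∀ C x, S.G C u x = 0

/-- bounded sequences at scale `R`, mass `μ/R²` -/
structure SqN (S : Setup d F) (N : Fin 9 → Matrix (Fin 16) (Fin 16) ℂ) (μ C : ℝ) (R : ℕ → ℝ) (u : ℕ → Cfg d → F) : Prop where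
  one : ∀ n, 1 ≤ R n
  lim : Tendsto R atTop atTop
  gi : ∀ n, GI S (u n)
  nrm : ∀ n, nsq (u n) ≤ C
  en : ∀ n, R n ^ 2 * ∑ β, nsq (QN S N (μ / R n ^ 2) β (u n)) ≤ C

/-- approximants of the internal function `o` for the scales `R n` -/
structure IApp (T : Setup ds F) (K : Submodule ℂ F) (R η : ℕ → ℝ) (Φ : ℕ → Cfg ds → F) (o : Cfg ds → F) : Prop where
  eta : ∀ n, 0 < η n
  eta_lim : Tendsto η atTop (𝓝 0)
  intf : ∀ n, IntF K (η n) (R n) (Φ n)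
  lim : Tendsto (fun n => nsq (fun s => Φ n s - o s)) atTop (𝓝 0)
  grad : Tendsto (fun n => (∑ i, ∑ A, nsq (pd i A (Φ n))) / R n) atTop (𝓝 0)
  en : Tendsto (fun n => R n ^ 2 * ∑ β, nsq (T.Q β (Φ n))) atTop (𝓝 0)

/-- internal zero mode with values in `K` -/
structure IZm (T : Setup ds F) (K : Submodule ℂ F) (o : Cfg ds → F) : Prop where
  mem : MemLp o 2 (volume : Measure (Cfg ds))
  app : ∀ R : ℕ → ℝ, (∀ n, 1 ≤ R n) → Tendsto R atTop atTop → ∃ (η : ℕ → ℝ) (Φ : ℕ → Cfg ds → F), IApp T K R η Φ o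

/-- admissible cutoffs for the global functional, with parameter `δ` -/
structure CutA (δ : ℝ) (R : ℕ → ℝ) (χ : ℕ → Cfg r × Cfg ds × Cfg dm → ℝ) : Prop where
  meas : ∀ n, Measurable (χ n)
  bd : ∀ n q, 0 ≤ χ n q ∧ χ n q ≤ 1
  lim : ∀ q, Tendsto (fun n => χ n q) atTop (𝓝 1)
  sup : ∀ n q, χ n q ≠ 0 → ‖q.2.1‖ ≤ δ * R n ∧ ‖q.2.2‖ ≤ δ * (R n * Real.sqrt (R n))

/-- global functional of the section `a`, cut off with `χ` -/
noncomputable def ZL (S : Setup d F) (φ : Spl dh dm d) (ψ : Spl r ds dh) (Om : Cfg r → Matrix (Fin dm) (Fin dm) ℝ)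
    (χ : Cfg r × Cfg ds × Cfg dm → ℝ) (R : ℝ) (a : Cfg r → Cfg ds → F) (u : Cfg d → F) : ℂ :=
  ∫ x, inner ℂ (AN.Zb φ ψ (fun q => ((χ q : ℝ) : ℂ) • AN.bG S.κ Om a q) R x) (u x)

/-- slice functional of the section `a` on `Nb (R y₀, ε)` -/
noncomputable def SL (S : Setup d F) (φ : Spl dh dm d) (ψ : Spl r ds dh) (Om : Cfg r → Matrix (Fin dm) (Fin dm) ℝ)
    (y₀ : Cfg r) (ε R : ℝ) (a : Cfg r → Cfg ds → F) (u : Cfg d → F) : ℂ :=
  ∫ p in AN.Nb (cmb ψ y₀ 0) dm R ε, inner ℂ (AN.Ts0 ψ (AN.vG S φ ψ Om a) R p.1 p.2) (S.res φ u p.1 p.2)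
    ∂((volume : Measure (Cfg dh)).prod (volume : Measure (Wsp dm)))

/-- `GluStmt` with arbitrarily small `δ` (form used here) -/
def GluDStmt (S : Setup d F) : Prop := ∀ _ : FiniteDimensional ℂ F, ∀ (dh dm r ds : ℕ) (φ : Spl dh dm d) (ψ : Spl r ds dh)
  (z₀ : Cfg r), S.IsCen φ ψ → AN.Std S φ (cmb ψ z₀ 0) → ∃ ε₀ : ℝ, 0 < ε₀ ∧ ∀ ε : ℝ, 0 < ε → ε ≤ ε₀ → ∃ δ₀ : ℝ, 0 < δ₀ ∧
  ∀ δ : ℝ, 0 < δ → δ ≤ δ₀ → ∀ (Om : Cfg r → Matrix (Fin dm) (Fin dm) ℝ),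
  (∀ η, ‖η - z₀‖ ≤ 2 * δ → Frz (S.Dz φ ψ η) ∧ IsOm S.κ (S.Dz φ ψ η) (Om η)) →
  ContinuousOn Om {η | ‖η - z₀‖ ≤ 2 * δ} →
  ∀ a : Cfg r → Cfg ds → F, MemLp (fun q : Cfg r × Cfg ds => a q.1 q.2) 2 (volume.prod volume) →
  (∀ η s, a η s ≠ 0 → ‖η - z₀‖ ≤ δ) →
  ∀ (R : ℕ → ℝ) (χ : ℕ → Cfg r × Cfg ds × Cfg dm → ℝ) (u : ℕ → Cfg d → F) (C : ℝ), Tendsto R atTop atTop →
  CutA δ R χ → (∀ n, GI S (u n)) → (∀ n, nsq (u n) ≤ C) →
  Tendsto (fun n => ZL S φ ψ Om (χ n) (R n) a (u n) - SL S φ ψ Om z₀ ε (R n) a (u n)) atTop (𝓝 0)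

/-- **EG-Qinv** `QN` preserves gauge invariant test functions. PROOF: `[G_C, Q_β] = 0` (`Z/U/A2`, `A3`), `[G_C, Mx N β] = 0`: rotation of the colour
index, `f` antisymmetric (as for `MM`, `Z/U/QmBase`), smooth with compact support. -/
def QInvStmt (S : Setup d F) : Prop := ∀ (N : Fin 9 → Matrix (Fin 16) (Fin 16) ℂ) (m : ℝ) (β : Fin 16) (u : Cfg d → F),
  GI S u → GI S (QN S N m β u)

/-- **EG-Zm** approximants for `K`-valued zero modes. PROOF. `u_k ∈ GInv`, `u_k → o` in `L²`, `En u_k → 0`; `Π_K u_k` (`Π_K` commutes with the `θ`'s: `K`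
invariant, `θ` self-adjoint, hence with `Q`), `Π_K o = o`. With `τ(ρ) = ∫_{|s|>ρ}|o|²` put `η_n = max(R_n^{-1/2}, τ(√R_n/2)^{1/4})` (plus `1/R_n`), so
`τ(η_nR_n/2)/η_n² → 0`; choose `k(n)` with `‖u_{k(n)} - o‖² + En u_{k(n)} ≤ R_n^{-4}`; `Φ_n = χ(|s|²/(η_nR_n)²)Π_Ku_{k(n)}`:
`‖Q(Φ_n)‖ ≤ ‖Qu_{k(n)}‖ + C/(η_nR_n)‖u_{k(n)}1_{|s|>η_nR_n/2}‖`. Gradient: `energy_formula` (`Z/Energy`): `8‖∇Φ‖² ≤ En Φ + C∫|s||Φ|² ≤ C(1 + η_nR_n)`. -/
def ZmStmt (T : Setup ds F) : Prop := ∀ _ : FiniteDimensional ℂ F, ∀ K : Submodule ℂ F, (∀ α A, ∀ v ∈ K, T.th α A v ∈ K) →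
  ∀ o : Cfg ds → F, AD.ZM T o → MemLp o 2 (volume : Measure (Cfg ds)) → (∀ᵐ s ∂(volume : Measure (Cfg ds)), o s ∈ K) → IZm T K o

/-- **EG-Cut** cut-off of `res u` near `R Y`, with mass. PROOF: `Θ = θ(|y - RY|²/(εR)²)θ(|w|²/(εR)²)`, `θ = 1` on `(-∞, 9/16]`, `θ = 0` on `[1,∞)`; as in
`AD.CutLocStmt` (block D): `GhStmt` (smoothness), `BdStmt` (`det D_8 ≠ 0`), `NormStmt` for `u` and for `QN u` (`QInvStmt`; `FrameStmt`, `DecStmt`: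
`res (QN u) = QS (res u)`), `CutStmt`: `|Qs(Θ v) - ΘQs v| ≤ (C/R)|v|`, the mass terms commute with `Θ`. -/
def CutGStmt (S : Setup d F) (φ : Spl dh dm d) : Prop := ∀ _ : FiniteDimensional ℂ F, ∀ N : Fin 9 → Matrix (Fin 16) (Fin 16) ℂ,
  (∀ i α β, (N i α β).im = 0) → ∀ Y : Cfg dh, AN.Std S φ Y → ∃ ε0 : ℝ, 0 < ε0 ∧ ∀ ε : ℝ, 0 < ε → ε ≤ ε0 → ∃ C : ℝ, 0 ≤ C ∧
    ∀ R : ℝ, 1 ≤ R → (∀ u, GI S u → (∫ p in AN.Nb Y dm R ε, ‖S.res φ u p.1 p.2‖ ^ 2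
        ∂((volume : Measure (Cfg dh)).prod (volume : Measure (Wsp dm)))) ≤ C * nsq u) ∧
      ∃ Θ : Cfg dh → Wsp dm → ℝ, ContDiff ℝ ∞ (fun p : Cfg dh × Wsp dm => Θ p.1 p.2) ∧ (∀ y w, 0 ≤ Θ y w ∧ Θ y w ≤ 1) ∧
      (∀ y w, Θ y w ≠ 0 → ‖y - R • Y‖ < ε * R ∧ ‖w‖ < ε * R) ∧
      (∀ y w, ‖y - R • Y‖ < 3 / 4 * ε * R → ‖w‖ < 3 / 4 * ε * R → Θ y w = 1) ∧
      ∀ (m : ℝ) (u : Cfg d → F), GI S u → Tst2 (mul2 Θ (S.res φ u)) ∧ Sup2 Y ε R (mul2 Θ (S.res φ u)) ∧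
        ns2 (mul2 Θ (S.res φ u)) ≤ C * nsq u ∧
        S.ES φ N m (mul2 Θ (S.res φ u)) ≤ C * ((∑ β, nsq (QN S N m β u)) + 1 / R ^ 2 * nsq u) ∧
        (∀ β y w, ‖y - R • Y‖ < 3 / 4 * ε * R → ‖w‖ < 3 / 4 * ε * R →
          S.QS φ N m β (mul2 Θ (S.res φ u)) y w = S.res φ (QN S N m β u) y w) ∧
        ∀ β y w, ‖y - R • Y‖ < ε * R → ‖w‖ < ε * R →
          ‖S.QS φ N m β (mul2 Θ (S.res φ u)) y w‖ ≤ ‖S.res φ (QN S N m β u) y w‖ + C / R * ‖S.res φ u y w‖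

/-- **EG-TL** trial functions and slice sections. `TR(pp ζ Φ)` is close to `Ts0 (vG (V pp ζ o))`. PROOF. `bz(y,w) = R^{2dm}bz(y/R,√R w)` (`gR` homogeneous:
`gR (Dz (Rη)) (R Om η) 1 w = gR (Dz η) (Om η) 1 (√R w)`, substitution in the normalisation), `V(Rη) = V(η)`; so
`Ts0 (vG (V a)) R - TR a = (1 - c(|w|²/(εR)²))·Ts0`, `‖Ts0 (vG (V a))‖_{L²} = ‖a‖_{L²}` over `U`, `|V v| = |v|`, `tail` of BzFacts. Same for `DF`: the profile
`DF N μ β (pp ζ Φ)` is a finite sum of products `ζ'(y)·TΦ(s)` with `T` in the algebra of the `θ^h`. The last bound: `TR` over `|w| ≥ ½εR`. -/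
def TLStmt (S : Setup d F) (φ : Spl dh dm d) (ψ : Spl r ds dh) : Prop := ∀ _ : FiniteDimensional ℂ F,
  S.IsSub φ → S.IsCen φ ψ → ∀ N : Fin 9 → Matrix (Fin 16) (Fin 16) ℂ,
  ∀ (U : Set (Cfg r)) (Om : Cfg r → Matrix (Fin dm) (Fin dm) ℝ) (V : Cfg r → F →L[ℂ] F) (K : Submodule ℂ F),
  S.VFr φ ψ U Om V K → ∀ (y₀ : Cfg r) (ε0 C0 : ℝ), 0 < ε0 → BzFacts S φ ψ U Om y₀ ε0 C0 →
  ∀ (c : ℝ → ℝ), IsCt c → ∀ ε : ℝ, 0 < ε → ε ≤ ε0 → ∀ ζ : Cfg r → ℂ, ContDiff ℝ ∞ ζ → tsupport ζ ⊆ Metric.ball y₀ (ε / 2) →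
  ∀ (μ : ℝ) (R : ℕ → ℝ) (Φ : ℕ → Cfg ds → F) (o : Cfg ds → F), (∀ n, 1 ≤ R n) → Tendsto R atTop atTop →
  MemLp o 2 (volume : Measure (Cfg ds)) → (∀ n, Setup.Tst (Φ n)) → Tendsto (fun n => nsq (fun s => Φ n s - o s)) atTop (𝓝 0) →
    Tendsto (fun n => ∫ p, ‖AN.Ts0 ψ (AN.vG S φ ψ Om (fun η s => V η (pp ζ o η s))) (R n) p.1 p.2 -
      S.TR φ ψ Om V c ε (R n) (pp ζ (Φ n)) p.1 p.2‖ ^ 2 ∂((volume : Measure (Cfg dh)).prod (volume : Measure (Wsp dm))))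
      atTop (𝓝 0) ∧
    (∀ β, Tendsto (fun n => ∫ p, ‖AN.Ts0 ψ (AN.vG S φ ψ Om (fun η s => V η (S.DF φ ψ N μ β (pp ζ o) η s))) (R n) p.1 p.2 -
      S.TR φ ψ Om V c ε (R n) (S.DF φ ψ N μ β (pp ζ (Φ n))) p.1 p.2‖ ^ 2
      ∂((volume : Measure (Cfg dh)).prod (volume : Measure (Wsp dm)))) atTop (𝓝 0)) ∧
    Tendsto (fun n => R n ^ 2 * ∫ p in {p : Cfg dh × Wsp dm | 1 / 2 * ε * R n ≤ ‖p.2‖},
      ‖S.TR φ ψ Om V c ε (R n) (pp ζ (Φ n)) p.1 p.2‖ ^ 2 ∂((volume : Measure (Cfg dh)).prod (volume : Measure (Wsp dm))))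
      atTop (𝓝 0) ∧
    MemLp (fun q : Cfg r × Cfg ds => V q.1 (pp ζ o q.1 q.2)) 2 (volume.prod volume) ∧
    ∀ β, MemLp (fun q : Cfg r × Cfg ds => V q.1 (S.DF φ ψ N μ β (pp ζ o) q.1 q.2)) 2 (volume.prod volume)

/-- **EG-LocG** limit equation for the slice functional. PROOF. `v_n = Θ_n·res u_n` (EG-Cut with `Y = cmb ψ y₀ 0`), `LocStmt` with the approximants of `o`
(`IZm.app`; shift the sequences so that `η_n ≤ ε/2`): `R ip2 (TR pp ζ Φ_n) (QS v_n) - ip2 (TR DF…) v_n → 0`. Replace `QS v_n` by `res (QN u_n)`: equal for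
`|y - RY| < ¾εR` (true on the support of `TR`: `|y_z - Ry₀| ≤ ½εR`, `|s| ≤ ½εR`), `|w| < ¾εR`; the rest by the third part of EG-TL. Replace `TR` by `Ts0 (vG …)` on `Nb`:
EG-TL and `‖res (R QN u_n)‖_{L²(Nb)} ≤ C` (EG-Cut, `QInvStmt`). -/
def LocGStmt (S : Setup d F) (φ : Spl dh dm d) (ψ : Spl r ds dh) : Prop := ∀ (_ : FiniteDimensional ℂ F) (hφ : S.IsSub φ)
  (hc : S.IsCen φ ψ) (N : Fin 9 → Matrix (Fin 16) (Fin 16) ℂ), S.IsMass N →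
  ∀ (U : Set (Cfg r)) (Om : Cfg r → Matrix (Fin dm) (Fin dm) ℝ) (V : Cfg r → F →L[ℂ] F) (K : Submodule ℂ F),
  S.VFr φ ψ U Om V K → ∀ y₀ ∈ U, AN.Std S φ (cmb ψ y₀ 0) → ∃ ε0 : ℝ, 0 < ε0 ∧ ∀ ε : ℝ, 0 < ε → ε ≤ ε0 →
    ∀ ζ : Cfg r → ℂ, ContDiff ℝ ∞ ζ → tsupport ζ ⊆ Metric.ball y₀ (ε / 2) → ∀ μ : ℝ, 0 ≤ μ →
    ∀ o : Cfg ds → F, IZm (S.int φ ψ hφ hc) K o → ∀ (R : ℕ → ℝ) (u : ℕ → Cfg d → F) (C : ℝ), SqN S N μ C R u → ∀ β,
      Tendsto (fun n => (R n : ℂ) * SL S φ ψ Om y₀ ε (R n) (fun η s => V η (pp ζ o η s)) (QN S N (μ / R n ^ 2) β (u n)) -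
        SL S φ ψ Om y₀ ε (R n) (fun η s => V η (S.DF φ ψ N μ β (pp ζ o) η s)) (u n)) atTop (𝓝 0)

/-- **EG-LocZ** limit equation for the global functional near a point, in a frame where `D_8(y₀)` is invertible. PROOF: `GluDStmt` for `u_n` and for
`R_n QN u_n` (gauge invariant and bounded), EG-LocG; `δ` small: `2δ`-ball inside `U`, `δ ≤ ε/2`. -/
def LocZStmt (S : Setup d F) (φ : Spl dh dm d) (ψ : Spl r ds dh) : Prop := ∀ (_ : FiniteDimensional ℂ F) (hφ : S.IsSub φ)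
  (hc : S.IsCen φ ψ) (N : Fin 9 → Matrix (Fin 16) (Fin 16) ℂ), S.IsMass N →
  ∀ (U : Set (Cfg r)) (Om : Cfg r → Matrix (Fin dm) (Fin dm) ℝ) (V : Cfg r → F →L[ℂ] F) (K : Submodule ℂ F),
  S.VFr φ ψ U Om V K → ∀ y₀ ∈ U, ∃ δ : ℝ, 0 < δ ∧
    ∀ ζ : Cfg r → ℂ, ContDiff ℝ ∞ ζ → tsupport ζ ⊆ Metric.ball y₀ δ → ∀ μ : ℝ, 0 ≤ μ →
    ∀ o : Cfg ds → F, IZm (S.int φ ψ hφ hc) K o → ∀ (R : ℕ → ℝ) (u : ℕ → Cfg d → F) (C : ℝ), SqN S N μ C R u →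
    ∀ χ : ℕ → Cfg r × Cfg ds × Cfg dm → ℝ, CutA δ R χ → ∀ β,
      Tendsto (fun n => (R n : ℂ) * ZL S φ ψ Om (χ n) (R n) (fun η s => V η (pp ζ o η s)) (QN S N (μ / R n ^ 2) β (u n)) -
        ZL S φ ψ Om (χ n) (R n) (fun η s => V η (S.DF φ ψ N μ β (pp ζ o) η s)) (u n)) atTop (𝓝 0)

/-- **EG-Rot** covariance under `S' = S.rot R₀ 1`, `y' = rz R₀ y`, `u' = u ∘ rox R₀ᵀ 1`. PROOF: `RotStmt`, `FrameStmt`, `AX.rot_f`, `AX.rot_Dz`; `qX`, norms and `Nf` are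
invariant under rotations of the vector index; change of variables `x = rox R₀ᵀ 1 x'` (measure preserving). -/
def RotGStmt (S : Setup d F) (φ : Spl dh dm d) (ψ : Spl r ds dh) : Prop := ∀ (hφ : S.IsSub φ) (hc : S.IsCen φ ψ)
  (R₀ : Matrix (Fin 9) (Fin 9) ℝ) (hR : R₀ * R₀ᵀ = 1) (h1 : (1 : Matrix (Fin d) (Fin d) ℝ) * (1 : Matrix (Fin d) (Fin d) ℝ)ᵀ = 1),
  ∃ (hφ' : (S.rot R₀ hR 1 h1).IsSub φ) (hc' : (S.rot R₀ hR 1 h1).IsCen φ ψ),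
  (∀ y₀ : Cfg r, (S.Dz φ ψ y₀ 8).det ≠ 0 → AN.Std (S.rot R₀ hR 1 h1) φ (cmb ψ y₀ 0)) ∧
  (∀ N : Fin 9 → Matrix (Fin 16) (Fin 16) ℂ, S.IsMass N → (S.rot R₀ hR 1 h1).IsMass (AN.rotN R₀ N)) ∧
  (∀ (N : Fin 9 → Matrix (Fin 16) (Fin 16) ℂ) (m : ℝ) (β : Fin 16) (u : Cfg d → F), GI S u →
    GI (S.rot R₀ hR 1 h1) (fun x => u (rox R₀ᵀ 1 x)) ∧ nsq (fun x => u (rox R₀ᵀ 1 x)) = nsq u ∧
    QN (S.rot R₀ hR 1 h1) (AN.rotN R₀ N) m β (fun x => u (rox R₀ᵀ 1 x)) = fun x => QN S N m β u (rox R₀ᵀ 1 x)) ∧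
  (∀ (K : Submodule ℂ F) (o : Cfg ds → F), IZm (S.int φ ψ hφ hc) K o →
    IZm ((S.rot R₀ hR 1 h1).int φ ψ hφ' hc') K (fun s => o (AX.rz R₀ᵀ s))) ∧
  (∀ (N : Fin 9 → Matrix (Fin 16) (Fin 16) ℂ) (μ : ℝ) (β : Fin 16) (ζ : Cfg r → ℂ) (o : Cfg ds → F), ContDiff ℝ ∞ ζ → ∀ y s,
    (S.rot R₀ hR 1 h1).DF φ ψ (AN.rotN R₀ N) μ β (pp (fun y' => ζ (AX.rz R₀ᵀ y')) (fun s' => o (AX.rz R₀ᵀ s'))) y s =
      S.DF φ ψ N μ β (pp ζ o) (AX.rz R₀ᵀ y) (AX.rz R₀ᵀ s)) ∧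
  ∀ (Om : Cfg r → Matrix (Fin dm) (Fin dm) ℝ) (χ : Cfg r × Cfg ds × Cfg dm → ℝ) (R : ℝ) (a : Cfg r → Cfg ds → F)
    (u : Cfg d → F),
    ZL (S.rot R₀ hR 1 h1) φ ψ (fun y => Om (AX.rz R₀ᵀ y)) (fun q => χ (AX.rz R₀ᵀ q.1, AX.rz R₀ᵀ q.2.1, AX.rz R₀ᵀ q.2.2)) R
      (fun y s => a (AX.rz R₀ᵀ y) (AX.rz R₀ᵀ s)) (fun x => u (rox R₀ᵀ 1 x)) = ZL S φ ψ Om χ R a u

/-- **EG-Dir** a good direction. PROOF: `AN/A/StdA.lean` (core lemma of `StdStmt`: commuting antisymmetric matrices without common kernel have an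
invertible combination `∑e_iD_i`, `|e| = 1`; `(∑D_i²).det ≠ 0` excludes a common kernel), and a matrix `R₀ ∈ O(9)` with last row `e`. -/
def DirStmt : Prop := ∀ (n : ℕ) (D : Fin 9 → Matrix (Fin n) (Fin n) ℝ), (∀ i, (D i)ᵀ = -D i) → (∀ i j, D i * D j = D j * D i) →
  (∑ i, D i * D i).det ≠ 0 → ∃ R₀ : Matrix (Fin 9) (Fin 9) ℝ, R₀ * R₀ᵀ = 1 ∧ (∑ j, R₀ 8 j • D j).det ≠ 0

/-- **EG-Int** integrability. PROOF: linear change of variables `x ↔ (η, s, X)`; `|bG a| ≤ C‖a(η,s)‖` (`Nf κ (Om η)` is continuous off `Coll L`: GL9 `MomStmt` in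
rotated frames, or the explicit Gaussian integrals; the exponential is `≤ 1` since `Om η > 0`); `u` is bounded with compact support, `a ∈ L² ⊂ L¹_loc`. -/
def ZIntStmt (S : Setup d F) (φ : Spl dh dm d) (ψ : Spl r ds dh) : Prop := ∀ (_ : FiniteDimensional ℂ F), S.IsSub φ → S.IsCen φ ψ →
  ∀ (L : Finset (Fin r → ℝ)) (Om : Cfg r → Matrix (Fin dm) (Fin dm) ℝ) (K : Submodule ℂ F) (U : Cfg r → F →L[ℂ] F),
  AX.Bun S φ (AX.Mz S φ (spsw ψ)) L Om K U → ∀ 𝒞 : Set (Cfg r), IsCompact 𝒞 → Disjoint 𝒞 (Coll L) →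
  ContinuousOn (fun η => AN.Nf S.κ (Om η)) 𝒞 ∧
  ∀ a : Cfg r → Cfg ds → F, MemLp (fun q : Cfg r × Cfg ds => a q.1 q.2) 2 (volume.prod volume) →
  (∀ η s, a η s ≠ 0 → η ∈ 𝒞) → ∀ (R : ℝ) (χ : Cfg r × Cfg ds × Cfg dm → ℝ) (u : Cfg d → F), 1 ≤ R →
  Measurable χ → (∀ q, 0 ≤ χ q ∧ χ q ≤ 1) → Setup.Tst u →
    Integrable (fun x => inner ℂ (AN.Zb φ ψ (fun q => ((χ q : ℝ) : ℂ) • AN.bG S.κ Om a q) R x) (u x))

/-- **EG-GLim** OUTPUT: global limit equation. PROOF. For `z ∈ tsupport ζ` (compact, off `Coll L`): EG-Dir for `D_i(z)` (`Bun.det`; antisymmetric and commuting: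
`AX.tor_Dz` or `AX.Mz_anti`, `Mz_comm`) gives `R₀`; `AX.vfr` gives the vacuum frame of `S.rot R₀ 1` near `rz R₀ z`; `LocZStmt` and EG-Rot give `δ(z)` such that the
claim holds for all `ζ'` supported in `ball z δ(z)`; finite subcover, smooth partition of unity, linearity of `ZL`, `DF`, `pp` in `ζ` (EG-Int); `δ = min`. -/
def GLimStmt (S : Setup d F) (φ : Spl dh dm d) (ψ : Spl r ds dh) : Prop := ∀ (_ : FiniteDimensional ℂ F) (hφ : S.IsSub φ)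
  (hc : S.IsCen φ ψ) (N : Fin 9 → Matrix (Fin 16) (Fin 16) ℂ), S.IsMass N →
  ∀ (L : Finset (Fin r → ℝ)) (Om : Cfg r → Matrix (Fin dm) (Fin dm) ℝ) (K : Submodule ℂ F) (U : Cfg r → F →L[ℂ] F),
  AX.Bun S φ (AX.Mz S φ (spsw ψ)) L Om K U → ∀ ζ : Cfg r → ℂ, ContDiff ℝ ∞ ζ → HasCompactSupport ζ →
  Disjoint (tsupport ζ) (Coll L) → ∃ δ : ℝ, 0 < δ ∧ ∀ μ : ℝ, 0 ≤ μ → ∀ o : Cfg ds → F, IZm (S.int φ ψ hφ hc) K o →
    ∀ (R : ℕ → ℝ) (u : ℕ → Cfg d → F) (C : ℝ), SqN S N μ C R u →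
    ∀ χ : ℕ → Cfg r × Cfg ds × Cfg dm → ℝ, CutA δ R χ → ∀ β,
      Tendsto (fun n => (R n : ℂ) * ZL S φ ψ Om (χ n) (R n) (fun η s => U η (pp ζ o η s)) (QN S N (μ / R n ^ 2) β (u n)) -
        ZL S φ ψ Om (χ n) (R n) (fun η s => U η (S.DF φ ψ N μ β (pp ζ o) η s)) (u n)) atTop (𝓝 0)

/-- **EG-GLimL** the same for sequences bounded in shells at scale `R` only (`0 ∉ tsupport ζ`). PROOF: `ρ_n(x) = ρ(|x|²/R_n²)` with `ρ ∈ C_c^∞((0,∞))`, `ρ = 1` near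
`{|x|² : x = (η,s,X) , η ∈ tsupport ζ, |s| ≤ δ, |X| ≤ δ}` (`|x|² = |x^z|² + |x^s|² + |x^m|²`); `ρ_nu_n` is gauge invariant (`|x|` invariant), `SqN`; on the support of the
trial function `ρ_n = 1` near `x`, so `ZL … (QN (ρ_nu_n)) = ZL … (QN u_n)`. -/
def GLimLStmt (S : Setup d F) (φ : Spl dh dm d) (ψ : Spl r ds dh) : Prop := ∀ (_ : FiniteDimensional ℂ F) (hφ : S.IsSub φ)
  (hc : S.IsCen φ ψ) (N : Fin 9 → Matrix (Fin 16) (Fin 16) ℂ), S.IsMass N →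
  ∀ (L : Finset (Fin r → ℝ)) (Om : Cfg r → Matrix (Fin dm) (Fin dm) ℝ) (K : Submodule ℂ F) (U : Cfg r → F →L[ℂ] F),
  AX.Bun S φ (AX.Mz S φ (spsw ψ)) L Om K U → ∀ ζ : Cfg r → ℂ, ContDiff ℝ ∞ ζ → HasCompactSupport ζ →
  Disjoint (tsupport ζ) (Coll L) → (0 : Cfg r) ∉ tsupport ζ → ∃ δ : ℝ, 0 < δ ∧ ∀ μ : ℝ, 0 ≤ μ →
    ∀ o : Cfg ds → F, IZm (S.int φ ψ hφ hc) K o →
    ∀ (R : ℕ → ℝ) (u : ℕ → Cfg d → F), (∀ n, 1 ≤ R n) → Tendsto R atTop atTop → (∀ n, GI S (u n)) →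
    (∀ s t : ℝ, 0 < s → s < t → ∃ C : ℝ, ∀ n, AD.mas (u n) (AD.shl d (s * R n) (t * R n)) +
      R n ^ 2 * ∑ β, (∫ x in AD.shl d (s * R n) (t * R n), ‖QN S N (μ / R n ^ 2) β (u n) x‖ ^ 2) ≤ C) →
    ∀ χ : ℕ → Cfg r × Cfg ds × Cfg dm → ℝ, CutA δ R χ → ∀ β,
      Tendsto (fun n => (R n : ℂ) * ZL S φ ψ Om (χ n) (R n) (fun η s => U η (pp ζ o η s)) (QN S N (μ / R n ^ 2) β (u n)) -
        ZL S φ ψ Om (χ n) (R n) (fun η s => U η (S.DF φ ψ N μ β (pp ζ o) η s)) (u n)) atTop (𝓝 0)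

/-- **EG-GluB** uniform bound for the global functional near a point. PROOF: GL4 (`PairStmt`), GL5 (`WgtStmt`), GL7, GL9 (`MomStmt`), `NormStmt`:
`|ZL| ≤ ‖Z̃‖_{L²(Nb)}‖res u‖_{L²(Nb)} ≤ C(∫(1+|X|²)^{dm+1}|bG a|²)^{1/2}‖u‖ ≤ C'‖a‖‖u‖`. -/
def GluBStmt (S : Setup d F) : Prop := ∀ _ : FiniteDimensional ℂ F, ∀ (dh dm r ds : ℕ) (φ : Spl dh dm d) (ψ : Spl r ds dh)
  (z₀ : Cfg r), S.IsCen φ ψ → AN.Std S φ (cmb ψ z₀ 0) → ∃ δ₀ : ℝ, 0 < δ₀ ∧ ∀ δ : ℝ, 0 < δ → δ ≤ δ₀ →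
  ∀ (Om : Cfg r → Matrix (Fin dm) (Fin dm) ℝ),
  (∀ η, ‖η - z₀‖ ≤ 2 * δ → Frz (S.Dz φ ψ η) ∧ IsOm S.κ (S.Dz φ ψ η) (Om η)) → ContinuousOn Om {η | ‖η - z₀‖ ≤ 2 * δ} →
  ∃ C : ℝ, 0 ≤ C ∧ ∀ a : Cfg r → Cfg ds → F, MemLp (fun q : Cfg r × Cfg ds => a q.1 q.2) 2 (volume.prod volume) →
  (∀ η s, a η s ≠ 0 → ‖η - z₀‖ ≤ δ) → ∀ (R : ℝ) (χ : Cfg r × Cfg ds × Cfg dm → ℝ) (u : Cfg d → F), 1 ≤ R →
  Measurable χ → (∀ q, 0 ≤ χ q ∧ χ q ≤ 1) → (∀ q, χ q ≠ 0 → ‖q.2.1‖ ≤ δ * R ∧ ‖q.2.2‖ ≤ δ * (R * Real.sqrt R)) → GI S u →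
    ‖ZL S φ ψ Om χ R a u‖ ^ 2 ≤ C * (∫ q, ‖a q.1 q.2‖ ^ 2 ∂((volume : Measure (Cfg r)).prod (volume : Measure (Cfg ds)))) * nsq u

/-- **EG-GBd** uniform bound for sections supported over a compact set off the collisions. PROOF: EG-GluB in rotated frames (EG-Rot, EG-Dir), finite
cover (measurable partition of `𝒞`: `a = ∑1_{B_k}a`). -/
def GBdStmt (S : Setup d F) (φ : Spl dh dm d) (ψ : Spl r ds dh) : Prop := ∀ (_ : FiniteDimensional ℂ F), S.IsSub φ → S.IsCen φ ψ →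
  ∀ (L : Finset (Fin r → ℝ)) (Om : Cfg r → Matrix (Fin dm) (Fin dm) ℝ) (K : Submodule ℂ F) (U : Cfg r → F →L[ℂ] F),
  AX.Bun S φ (AX.Mz S φ (spsw ψ)) L Om K U → ∀ 𝒞 : Set (Cfg r), IsCompact 𝒞 → Disjoint 𝒞 (Coll L) →
  ∃ δ C : ℝ, 0 < δ ∧ 0 ≤ C ∧ ∀ a : Cfg r → Cfg ds → F, MemLp (fun q : Cfg r × Cfg ds => a q.1 q.2) 2 (volume.prod volume) →
  (∀ η s, a η s ≠ 0 → η ∈ 𝒞) → ∀ (R : ℝ) (χ : Cfg r × Cfg ds × Cfg dm → ℝ) (u : Cfg d → F), 1 ≤ R →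
  Measurable χ → (∀ q, 0 ≤ χ q ∧ χ q ≤ 1) → (∀ q, χ q ≠ 0 → ‖q.2.1‖ ≤ δ * R ∧ ‖q.2.2‖ ≤ δ * (R * Real.sqrt R)) → GI S u →
    ‖ZL S φ ψ Om χ R a u‖ ^ 2 ≤ C * (∫ q, ‖a q.1 q.2‖ ^ 2 ∂((volume : Measure (Cfg r)).prod (volume : Measure (Cfg ds)))) * nsq u

end Vale.Agent.P353.Z.AE
end

section

/-! # P353, all `N`, block X2: second quantisation and the model of an irreducible module — statements (architect helper679) -/

open MeasureTheory Filter Topology Matrix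
open scoped ContDiff

namespace Vale.Agent.P353.Z

universe u

variable {d : ℕ} {F : Type*} [NormedAddCommGroup F] [InnerProductSpace ℂ F]

/-- words in the fermions -/
noncomputable def Setup.rep (S : Setup d F) : FreeAlgebra ℂ (Fin 16 × Fin d) →ₐ[ℂ] (F →L[ℂ] F) :=
  FreeAlgebra.lift ℂ fun p => S.th p.1 p.2

/-- `G` implements the orthogonal colour rotation `O`: isometry, fixes the `Γ`-vacuum vectors -/
structure Imp (S : Setup d F) (O : Matrix (Fin d) (Fin d) ℝ) (G : F →L[ℂ] F) : Prop where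
  orth : O * Oᵀ = 1
  imp : ∀ α A, G * S.th α A = ∑ B, ((O B A : ℝ) : ℂ) • (S.th α B * G)
  norm : ∀ v, ‖G v‖ = ‖v‖
  vac : ∀ v, (∀ A α, S.amF A α v = 0) → G v = v

/-- `T` is an orthonormal basis of the traceless hermitian matrices with structure constants `f` -/
structure Bas (n d : ℕ) (T : Fin d → Matrix (Fin n) (Fin n) ℂ) (f : Fin d → Fin d → Fin d → ℝ) : Prop where
  dim_eq : d = n ^ 2 - 1
  herm : ∀ A, (T A).conjTranspose = T A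
  tr0 : ∀ A, (T A).trace = 0
  ortho : ∀ A B, (T A * T B).trace = if A = B then 1 else 0
  comm : ∀ A B, T A * T B - T B * T A = ∑ C, (Complex.I * (f A B C : ℂ)) • T C

/-- the induction hypothesis on the level of models -/
def IHM.{v} (n : ℕ) : Prop := ∀ (d : ℕ) (E : Type v) [NormedAddCommGroup E] [InnerProductSpace ℂ E] (_ : FiniteDimensional ℂ E)
  (M : BFSS.Model n d E) (S : Setup d E), U.Rep M S → OneD S

namespace AX2

/-- **X2-Wick** the vacuum state is universal. PROOF. `2θ_p = c_p + c_p^*` with `c_p = ∑_q(1 - iΓ)_{pq}θ_q = amF`, `c_p^* = ∑_q(1 + iΓ)_{pq}θ_q` (`Γ` real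
antisymmetric for real symmetric `γ`; `Γ² = -1`), `⟨ζ, c_p^*v⟩ = ⟨c_pζ, v⟩ = 0`, and `c_p` is anticommuted to the right (`{c_p,θ_q} = (1 - iΓ)_{pq}`) and kills
`ζ`. So for every word `w` there is a number `c(w)`, depending only on `Γ`, with `⟨ζ, wζ⟩ = c(w)‖ζ‖²` (strong induction on the length; for both modules at the
same time: `⟨ζ, S.rep w ζ⟩‖ζ'‖² = ⟨ζ', S'.rep w ζ'⟩‖ζ‖²`). `‖S.rep X ζ‖² = ⟨ζ, S.rep(X^*X)ζ⟩`, where `X^*` reverses the words and conjugates the coefficients. -/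
def WickStmt : Prop := ∀ (d : ℕ) (E E' : Type u) [NormedAddCommGroup E] [InnerProductSpace ℂ E] [NormedAddCommGroup E']
  [InnerProductSpace ℂ E'] (S : Setup d E) (S' : Setup d E'), S.g = S'.g → ∀ (ζ : E) (ζ' : E'),
  (∀ A α, S.amF A α ζ = 0) → (∀ A α, S'.amF A α ζ' = 0) →
  (∀ X : FreeAlgebra ℂ (Fin 16 × Fin d),
    inner ℂ ζ (S.rep X ζ) * ((‖ζ'‖ ^ 2 : ℝ) : ℂ) = inner ℂ ζ' (S'.rep X ζ') * ((‖ζ‖ ^ 2 : ℝ) : ℂ)) ∧
  ∀ X : FreeAlgebra ℂ (Fin 16 × Fin d), ‖S.rep X ζ‖ * ‖ζ'‖ = ‖S'.rep X ζ'‖ * ‖ζ‖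

/-- **X2-Sec** second quantisation of orthogonal colour rotations. PROOF. Unit vacuum vector `ζ` (X2-Vex), a line (`U.Vac_unique`), `S.rep(𝔸)ζ = F` (irreducible).
`S_O` = the setup with `θ'^A = ∑_BO_{BA}θ^B` (and `f = 0`, `κ = 1`): same `g`; `ζ` is a vacuum vector of `S_O` too (`Γ` acts on the spinor index). X2-Wick:
`‖S_O.rep X ζ‖ = ‖S.rep X ζ‖`, so `G_O(S.rep X ζ) = S_O.rep X ζ` is well defined, linear, isometric; it implements `O` and fixes `ζ`. Continuity: `F` is spanned by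
finitely many `S.rep w ζ` (`w` words) and `S_O.rep w ζ` is polynomial in `O`. Uniqueness: `G`, `G'` agree on `ζ` and on `S.rep X ζ`. -/
def SecStmt {d : ℕ} {F : Type u} [NormedAddCommGroup F] [InnerProductSpace ℂ F] (S : Setup d F) : Prop :=
  FiniteDimensional ℂ F → S.Irr → (∃ v : F, v ≠ 0) →
  (∃ G : Matrix (Fin d) (Fin d) ℝ → F →L[ℂ] F, (∀ O, O * Oᵀ = 1 → Imp S O (G O)) ∧
    ∀ v, ContinuousOn (fun O => G O v) {O | O * Oᵀ = 1}) ∧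
  ∀ O G G', Imp S O G → Imp S O G' → G = G'

/-- **X2-Mod** every irreducible module over `su(n)` carries a model. PROOF. `M.γ = re S.g`, `M.θ = S.th`, `M.S U = G_O` with `O = (adCoeff T U B A)_{BA}` (orthogonal:
`T` is an orthonormal basis of the traceless hermitian matrices and `X ↦ UXU*` preserves them and the trace form), X2-Sec: `S_mul` from uniqueness
(`G_OG_{O'}` implements `OO'`, and `adCoeff` is multiplicative), `S_continuous` (composition with the continuous `U ↦ adCoeff T U`). -/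
def ModStmt : Prop := ∀ (n d : ℕ) (E : Type u) [NormedAddCommGroup E] [InnerProductSpace ℂ E] (_ : FiniteDimensional ℂ E)
  (T : Fin d → Matrix (Fin n) (Fin n) ℂ) (S : Setup d E), Bas n d T S.f → S.κ = 1 → S.Irr → (∃ v : E, v ≠ 0) →
  ∃ M : BFSS.Model n d E, U.Rep M S ∧ M.T = T

/-- **X2-IH** PROOF: X2-Mod. -/
def IHStmt : Prop := ∀ (n d : ℕ) (T : Fin d → Matrix (Fin n) (Fin n) ℂ) (f : Fin d → Fin d → Fin d → ℝ), Bas n d T f →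
  IHM.{u} n → OneA.{u} 1 f

/-- **X2-ImpM** the operators of a model are the second quantisations. PROOF. `G_U` = second quantisation of `Ad U` (X2-Sec); `M.S U ∘ G_U⁻¹` commutes with all `θ`, so
`M.S U = χ(U)G_U`, `χ : SU(N) → U(1)` a continuous homomorphism, trivial as in `U.GaussStmt` (`Z/U/…`: `M.S(exp(iH)) = exp(cS)` and `cS` kills the vacuum vector:
`cS_Cζ` is again a vacuum vector, so `cS_Cζ = λζ` with `λ = ⟨ζ,cS_Cζ⟩ = 0` by the antisymmetry of `f` in the two point function, and every `U ∈ SU(N)` is `exp(iH)`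
with `H` hermitian and traceless; or: `SU(N)` is generated by commutators). -/
def ImpMStmt : Prop := ∀ (n d : ℕ) (E : Type u) [NormedAddCommGroup E] [InnerProductSpace ℂ E] (_ : FiniteDimensional ℂ E)
  (M : BFSS.Model n d E) (S : Setup d E), U.Rep M S → ∀ U : BFSS.SU n,
  Imp S (Matrix.of fun B A => BFSS.adCoeff M.T U B A) (M.S U)

/-- **X2-CsV** the gauge spin generators kill the `Γ`-vacuum (any module). PROOF. `v` = vacuum vector: `cS_C = -(i/2)∑f_{CDE}θ^D·θ^E`; `∑_α θ_α^Dθ_α^E v`: write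
`θ = ½(c + c^*)`: `∑_α{…}`: `∑_αc_α^{D*}c_α^{E*} = ∑_α((1+iΓ)θ^D)_α((1+iΓ)θ^E)_α = ∑(θ^D)ᵀ(1+iΓ)ᵀ(1+iΓ)θ^E = 0` since `(1 - iΓ)(1 + iΓ) = 1 + Γ² = 0`. Hence
`θ^D·θ^Ev = ¼∑_αc_α^Dc_α^{E*}v = ¼∑_α{c_α^D,c_α^{E*}}v = const·δ_{DE}v`, and `f` is antisymmetric. -/
def CsVStmt (S : Setup d F) : Prop := ∀ v, (∀ A α, S.amF A α v = 0) → ∀ C, S.cS C v = 0

end AX2

end Vale.Agent.P353.Z
end

section

/-! # P353, all `N`, block NF: block frames of `SU(N)` (architect helper679)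

A frame for the type `n : Fin k → ℕ` is an orthonormal basis `T` of the traceless hermitian `N × N` matrices with a splitting
`d = (s + z) + m`: the `s` colours are orthonormal bases of the `su(n_a)` (block embedded), the `z` colours are block scalars, the `m` colours
vanish on the diagonal blocks. -/

open MeasureTheory Filter Topology Matrix
open scoped ContDiff

namespace Vale.Agent.P353.Z

universe u

/-- block diagonal matrix with the single nonzero block `X` at `a` -/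
noncomputable def bk {N k : ℕ} {n : Fin k → ℕ} (E : (Σ a, Fin (n a)) ≃ Fin N) (a : Fin k)
    (X : Matrix (Fin (n a)) (Fin (n a)) ℂ) : Matrix (Fin N) (Fin N) ℂ :=
  (Matrix.blockDiagonal' (Pi.single a X : ∀ b, Matrix (Fin (n b)) (Fin (n b)) ℂ)).submatrix E.symm E.symm

/-- block scalar matrix -/
noncomputable def bd {N k : ℕ} {n : Fin k → ℕ} (E : (Σ a, Fin (n a)) ≃ Fin N) (v : Fin k → ℂ) : Matrix (Fin N) (Fin N) ℂ :=
  (Matrix.diagonal fun s : Σ a, Fin (n a) => v s.1).submatrix E.symm E.symm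

/-- block frame of type `n` -/
structure NFr {N d dh dm ds dz k : ℕ} (n : Fin k → ℕ) (T : Fin d → Matrix (Fin N) (Fin N) ℂ) (φ : Spl dh dm d)
    (ψ : Spl ds dz dh) where
  two : 2 ≤ k
  pos : ∀ a, 1 ≤ n a
  E : (Σ a, Fin (n a)) ≃ Fin N
  es : (Σ a, Fin (n a ^ 2 - 1)) ≃ Fin ds
  Tb : ∀ m : ℕ, Fin (m ^ 2 - 1) → Matrix (Fin m) (Fin m) ℂ
  fb : ∀ m : ℕ, Fin (m ^ 2 - 1) → Fin (m ^ 2 - 1) → Fin (m ^ 2 - 1) → ℝ
  Tb_bas : ∀ m, 1 ≤ m → Bas m (m ^ 2 - 1) (Tb m) (fb m)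
  s_eq : ∀ a (i : Fin (n a ^ 2 - 1)), T (φ (Sum.inl (ψ (Sum.inl (es ⟨a, i⟩))))) = bk E a (Tb (n a) i)
  c : Fin dz → Fin k → ℝ
  z_eq : ∀ B, T (φ (Sum.inl (ψ (Sum.inr B)))) = bd E fun a => ((c B a : ℝ) : ℂ)
  m_eq : ∀ C (s t : Σ a, Fin (n a)), s.1 = t.1 → T (φ (Sum.inr C)) (E s) (E t) = 0

/-- the value of the central configuration `η` in direction `i` on block `a` -/
noncomputable def NFr.val {N d dh dm ds dz k : ℕ} {n : Fin k → ℕ} {T : Fin d → Matrix (Fin N) (Fin N) ℂ} {φ : Spl dh dm d}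
    {ψ : Spl ds dz dh} (fr : NFr n T φ ψ) (η : Cfg dz) (i : Fin 9) (a : Fin k) : ℝ := ∑ B, η (i, B) * fr.c B a

/-- `O` respects the splitting -/
structure Blk {d dh dm ds dz : ℕ} (φ : Spl dh dm d) (ψ : Spl ds dz dh) (O : Matrix (Fin d) (Fin d) ℝ) : Prop where
  hm : ∀ A B, O (φ (Sum.inl A)) (φ (Sum.inr B)) = 0
  mh : ∀ A B, O (φ (Sum.inr B)) (φ (Sum.inl A)) = 0
  sz : ∀ A B, O (φ (Sum.inl (ψ (Sum.inl A)))) (φ (Sum.inl (ψ (Sum.inr B)))) = 0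
  zs : ∀ A B, O (φ (Sum.inl (ψ (Sum.inr B)))) (φ (Sum.inl (ψ (Sum.inl A)))) = 0

/-- the `s` part of `O` -/
noncomputable def sO {d dh dm ds dz : ℕ} (φ : Spl dh dm d) (ψ : Spl ds dz dh) (O : Matrix (Fin d) (Fin d) ℝ) :
    Matrix (Fin ds) (Fin ds) ℝ := Matrix.of fun A B => O (φ (Sum.inl (ψ (Sum.inl A)))) (φ (Sum.inl (ψ (Sum.inl B))))

/-- the `z` part of `O` -/
noncomputable def zO {d dh dm ds dz : ℕ} (φ : Spl dh dm d) (ψ : Spl ds dz dh) (O : Matrix (Fin d) (Fin d) ℝ) :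
    Matrix (Fin dz) (Fin dz) ℝ := Matrix.of fun A B => O (φ (Sum.inl (ψ (Sum.inr A)))) (φ (Sum.inl (ψ (Sum.inr B))))

/-- the adjoint matrix -/
noncomputable def adO {N d : ℕ} (T : Fin d → Matrix (Fin N) (Fin N) ℂ) (U : BFSS.SU N) : Matrix (Fin d) (Fin d) ℝ :=
  Matrix.of fun B A => BFSS.adCoeff T U B A

namespace ANF

/-- **NF-Ex** frames exist. PROOF. For every `m ≥ 1` an orthonormal basis `Tb m` of the `m² - 1` dimensional real space of traceless hermitian matrices (trace form)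
with its structure constants; orthonormal basis `c B` of `{v : ∑_a n_av_a = 0}` for the form `∑_a n_av_av'_a` (dimension `k - 1`); an orthonormal
basis of the hermitian matrices vanishing on the diagonal blocks (dimension `N² - ∑n_a²`; e.g. `(E_{pq} + E_{qp})/√2`, `i(E_{pq} - E_{qp})/√2`). Together an orthonormal basis
`T'` of the traceless hermitian matrices; `O_{AB} = tr(T'_AT_B)` is real and orthogonal, `T'_A = ∑_BO_{AB}T_B`. -/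
def ExStmt : Prop := ∀ (N d k : ℕ) (n : Fin k → ℕ) (T : Fin d → Matrix (Fin N) (Fin N) ℂ) (f : Fin d → Fin d → Fin d → ℝ),
  Bas N d T f → 2 ≤ k → (∀ a, 1 ≤ n a) → ∑ a, n a = N →
  ∃ (dh dm ds dz : ℕ) (φ : Spl dh dm d) (ψ : Spl ds dz dh) (O : Matrix (Fin d) (Fin d) ℝ), O * Oᵀ = 1 ∧
    Nonempty (NFr n (fun A => ∑ B, ((O A B : ℝ) : ℂ) • T B) φ ψ)

/-- **NF-RotM** change of the colour frame of a model. PROOF. `T'_A = ∑O_{AB}T_B` is again an orthonormal basis, `f'` the rotated structure constants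
(`Setup.rot`), `θ'^A = ∑O_{AB}θ^B`, `adCoeff T' U = O (adCoeff T U) Oᵀ`, the same `S`. -/
def RotMStmt : Prop := ∀ (N d : ℕ) (F : Type u) [NormedAddCommGroup F] [InnerProductSpace ℂ F] (M : BFSS.Model N d F)
  (S : Setup d F), U.Rep M S → ∀ (O : Matrix (Fin d) (Fin d) ℝ) (h1 : (1 : Matrix (Fin 9) (Fin 9) ℝ) * (1 : Matrix (Fin 9) (Fin 9) ℝ)ᵀ = 1)
  (hO : O * Oᵀ = 1), ∃ M' : BFSS.Model N d F, U.Rep M' (S.rot 1 h1 O hO) ∧ (∀ A, M'.T A = ∑ B, ((O A B : ℝ) : ℂ) • M.T B) ∧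
    M'.S = M.S ∧ (∀ V x, M'.act V (ro O x) = ro O (M.act V x)) ∧ ∀ V, adO M'.T V = O * adO M.T V * Oᵀ

/-- the model gives a basis (for `NFr` of a model frame) -/
def BasMStmt : Prop := ∀ (N d : ℕ) (F : Type u) [NormedAddCommGroup F] [InnerProductSpace ℂ F] (M : BFSS.Model N d F),
  Bas N d M.T M.f

variable {N d dh dm ds dz k : ℕ} {n : Fin k → ℕ} {T : Fin d → Matrix (Fin N) (Fin N) ℂ} {φ : Spl dh dm d} {ψ : Spl ds dz dh}

/-- **NF-Val** central configurations = block values with vanishing weighted sum. PROOF. Orthonormality of `T` and tracelessness of the `z` matrices; `dz = k - 1`: a traceless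
block scalar matrix is orthogonal to the `s` matrices (traceless blocks) and to the `m` matrices (`m_eq`), so it is a real combination of the
`z` matrices (`T` is a basis, `Bas`). -/
def ValStmt (f : Fin d → Fin d → Fin d → ℝ) (fr : NFr n T φ ψ) : Prop := Bas N d T f →
  (∀ η i, ∑ a, (n a : ℝ) * fr.val η i a = 0) ∧
  (∀ v : Fin 9 → Fin k → ℝ, (∀ i, ∑ a, (n a : ℝ) * v i a = 0) → ∃ η : Cfg dz, ∀ i a, fr.val η i a = v i a) ∧
  (∀ η η' : Cfg dz, (∀ i a, fr.val η i a = fr.val η' i a) → η = η') ∧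
  (∀ (η : Cfg dz) (i : Fin 9), ∑ B, η (i, B) ^ 2 = ∑ a, (n a : ℝ) * fr.val η i a ^ 2) ∧
  ∀ B, ∑ a, (n a : ℝ) * fr.c B a = 0

/-- **NF-Reg** invertibility of `∑D_i²` on `m`. PROOF. `∑_{i∈I}D_i²` is minus the sum of squares of the antisymmetric `D_i = ad η_i|_m`; its kernel consists of the `v ∈ m` with
`[η_i,v] = 0` for `i ∈ I`; on the matrix entry `(p,q)` with `p` in block `a`, `q` in block `b`, `ad η_i` is `±i(val_i(a) - val_i(b))`; if the values differ for some `i ∈ I` for all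
`a ≠ b`, `v = 0` (as `v ∈ m` has no entries in diagonal blocks). Conversely if `val_i(a) = val_i(b)` for all `i ∈ I`, any hermitian matrix supported on the blocks `(a,b)`, `(b,a)` is
in the kernel (and in `m`). -/
def RegStmt {F : Type u} [NormedAddCommGroup F] [InnerProductSpace ℂ F] (S : Setup d F) (fr : NFr n T φ ψ) : Prop :=
  Bas N d T S.f → ∀ (I : Finset (Fin 9)) (η : Cfg dz),
    (∑ i ∈ I, AD.Dz S φ ψ η i * AD.Dz S φ ψ η i).det ≠ 0 ↔ ∀ a b, a ≠ b → ∃ i ∈ I, fr.val η i a ≠ fr.val η i b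

/-- **NF-Std** frames are in standard position. PROOF. `IsSub`: block diagonal matrices are closed under commutators and orthogonal to `m`; `Cen`: block scalars commute with block
diagonal matrices; `inv`: NF-Reg with `I = {8}` (`det D² = (det D)²`); `cen` the same; `less`: `su(n_a)` has no centre. -/
def StdStmt {F : Type u} [NormedAddCommGroup F] [InnerProductSpace ℂ F] (S : Setup d F) (fr : NFr n T φ ψ) : Prop :=
  Bas N d T S.f → RegStmt S fr → ∀ z₀ : Cfg dz, (∀ a b, a ≠ b → fr.val z₀ 8 a ≠ fr.val z₀ 8 b) → AD.Std2 S φ ψ z₀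

/-- **NF-One** the zero mode of the semisimple part is unique. PROOF. `h.ss.f` is the direct sum of the `fb (n a)` (the commutator of two block embedded matrices: different
blocks commute, same block: `Tb_bas.comm`); `IHStmt` gives `OneA 1 (fb (n a))`; add the blocks one after the other with `ProdStmt` (partial sums over `a`),
starting with `ZeroStmt`. -/
def OneStmt {F : Type u} [NormedAddCommGroup F] [InnerProductSpace ℂ F] (S : Setup d F) (fr : NFr n T φ ψ) : Prop :=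
  Bas N d T S.f → AX2.IHStmt.{u} → AX2.ProdStmt.{u} → AX2.ZeroStmt.{u} → (∀ a, IHM.{u} (n a)) →
    ∀ (z₀ : Cfg dz) (h : AD.Std2 S φ ψ z₀), OneA.{u} 1 h.ss.f

/-- structure constants of the semisimple part -/
def SfStmt {F : Type u} [NormedAddCommGroup F] [InnerProductSpace ℂ F] (S : Setup d F) (fr : NFr n T φ ψ) : Prop :=
  Bas N d T S.f → ∀ (a b c : Fin k) (i : Fin (n a ^ 2 - 1)) (j : Fin (n b ^ 2 - 1)) (l : Fin (n c ^ 2 - 1)),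
    S.f (φ (Sum.inl (ψ (Sum.inl (fr.es ⟨a, i⟩))))) (φ (Sum.inl (ψ (Sum.inl (fr.es ⟨b, j⟩)))))
      (φ (Sum.inl (ψ (Sum.inl (fr.es ⟨c, l⟩))))) =
    if h : a = b ∧ a = c then fr.fb (n a) i (Fin.cast (by rw [h.1]) j) (Fin.cast (by rw [h.2]) l) else 0

/-- exchange of two equal blocks: permutation of the positions -/
def swP {k : ℕ} {n : Fin k → ℕ} (a b : Fin k) (hab : n a = n b) (s : Σ a, Fin (n a)) : Σ a, Fin (n a) :=
  if h : s.1 = a then ⟨b, Fin.cast (by rw [h, hab]) s.2⟩ else if h : s.1 = b then ⟨a, Fin.cast (by rw [h, hab]) s.2⟩ else s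

/-- **NF-Nrm** normaliser elements. PROOF. `U` maps block scalar matrices to block scalar matrices (`z` and the identity), so it permutes the block projections:
`UP_aU^* = P_{σ(a)}`, `n ∘ σ = n` (rank). `σ` is a product of exchanges of equal blocks (induction on the number of moved points), each exchange `(a b)` is implemented by
`e^{iφ}W_{ab}`, `W_{ab}` the permutation matrix of `swP`, `e^{iφ}` an `N`-th root of `det W_{ab} = ±1`; the remaining factor is block diagonal. -/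
def NrmStmt (f : Fin d → Fin d → Fin d → ℝ) (fr : NFr n T φ ψ) : Prop := Bas N d T f →
  ∀ P : BFSS.SU N → Prop, (∀ V W, P V → P W → P (V * W)) →
    (∀ V : BFSS.SU N, Blk φ ψ (adO T V) → zO φ ψ (adO T V) = 1 → P V) →
    (∀ (a b : Fin k) (_ : a ≠ b) (hab : n a = n b) (V : BFSS.SU N) (c : ℂ), ‖c‖ = 1 →
      (∀ s t, V.val (fr.E s) (fr.E t) = if s = swP a b hab t then c else 0) → P V) →
    ∀ V : BFSS.SU N, Blk φ ψ (adO T V) → P V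

/-- **NF-Sw** the adjoint action of an exchange. PROOF. Conjugation with the permutation matrix (the phase cancels): `bk E a X ↦ bk E b X`, block scalars: exchange of the values. -/
def SwStmt (f : Fin d → Fin d → Fin d → ℝ) (fr : NFr n T φ ψ) : Prop := Bas N d T f →
  ∀ (a b : Fin k) (_ : a ≠ b) (hab : n a = n b) (V : BFSS.SU N) (c : ℂ), ‖c‖ = 1 →
    (∀ s t, V.val (fr.E s) (fr.E t) = if s = swP a b hab t then c else 0) →
    Blk φ ψ (adO T V) ∧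
    (∀ (η : Cfg dz) i e, fr.val (ro (zO φ ψ (adO T V)) η) i e = fr.val η i (Equiv.swap a b e)) ∧
    ∀ s t : (Σ a, Fin (n a ^ 2 - 1)), sO φ ψ (adO T V) (fr.es s) (fr.es t) =
      if s = (if h : t.1 = a then ⟨b, Fin.cast (by rw [h, hab]) t.2⟩ else
        if h : t.1 = b then ⟨a, Fin.cast (by rw [h, hab]) t.2⟩ else t) then 1 else 0

end ANF

end Vale.Agent.P353.Z
end

section

/-! # P353, all `N`, block X2: `OneA` from the induction hypothesis on models (X2-IH) -/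

namespace Vale.Agent.P353.Z.AX2

universe u

/-- **X2-IH**: every irreducible module over `su(n)` carries a model, so `IHM n` gives `OneA`. -/
theorem ih_stmt : ModStmt.{u} → IHStmt.{u} := by
  intro hM n d T f hB hI E _ _ hfin S hf hκ hirr hne
  obtain ⟨M, hrep, _⟩ := hM n d E hfin T S (by rw [hf]; exact hB) hκ hirr hne
  exact hI d E hfin M S hrep

end Vale.Agent.P353.Z.AX2
end

section

/-! # P353, all `N`, block A, A9: coefficients of the slice supercharge -/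

open MeasureTheory Filter Topology
open scoped ContDiff

namespace Vale.Agent.P353.Z.AN.Sy

variable {d dh dm : ℕ} {F : Type*} [NormedAddCommGroup F] [InnerProductSpace ℂ F]

/-! ### partial derivatives -/

lemma py_eq {v : Cfg dh → Wsp dm → F} {p : Cfg dh × Wsp dm} (i : Fin 9) (A : Fin dh)
    (h : DifferentiableAt ℝ (fun p : Cfg dh × Wsp dm => v p.1 p.2) p) :
    py i A v p.1 p.2 = fderiv ℝ (fun p : Cfg dh × Wsp dm => v p.1 p.2) p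
      (EuclideanSpace.single (i, A) 1, 0) := by
  unfold py pd
  have h1 : HasFDerivAt (fun y' : Cfg dh => (y', p.2)) (ContinuousLinearMap.inl ℝ (Cfg dh) (Wsp dm)) p.1 :=
    hasFDerivAt_prodMk_left p.1 p.2
  have h2 := HasFDerivAt.comp p.1 (f := fun y' : Cfg dh => (y', p.2)) (h.hasFDerivAt) h1
  have h3 : fderiv ℝ (fun y' => v y' p.2) p.1 = _ := h2.fderiv
  rw [h3]
  simp

lemma pw_eq {v : Cfg dh → Wsp dm → F} {p : Cfg dh × Wsp dm} (j : Fin 8) (B : Fin dm)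
    (h : DifferentiableAt ℝ (fun p : Cfg dh × Wsp dm => v p.1 p.2) p) :
    pw j B v p.1 p.2 = fderiv ℝ (fun p : Cfg dh × Wsp dm => v p.1 p.2) p
      (0, EuclideanSpace.single (j, B) 1) := by
  unfold pw
  have h1 : HasFDerivAt (fun w' : Wsp dm => (p.1, w')) (ContinuousLinearMap.inr ℝ (Cfg dh) (Wsp dm)) p.2 :=
    hasFDerivAt_prodMk_right p.1 p.2
  have h2 := HasFDerivAt.comp p.2 (f := fun w' : Wsp dm => (p.1, w')) (h.hasFDerivAt) h1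
  have h3 : fderiv ℝ (v p.1) p.2 = _ := h2.fderiv
  rw [h3]
  simp

lemma fd0 {E : Type*} [NormedAddCommGroup E] [NormedSpace ℝ E] {c : E → ℝ} {p e : E}
    (h : DifferentiableAt ℝ c p) (h0 : ∀ t : ℝ, c (p + t • e) = c p) : fderiv ℝ c p e = 0 := by
  have h1 := h.hasFDerivAt.hasLineDerivAt e
  have h2 : HasDerivAt (fun t : ℝ => c (p + t • e)) (fderiv ℝ c p e) 0 := h1
  have h3 : (fun t : ℝ => c (p + t • e)) = fun _ => c p := funext h0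
  rw [h3] at h2
  exact h2.unique (hasDerivAt_const 0 (c p))

/-! ### smoothness of the coefficients -/

lemma contDiff_det {E : Type*} [NormedAddCommGroup E] [NormedSpace ℝ E] {n : ℕ}
    {M : E → Matrix (Fin n) (Fin n) ℝ} (h : ∀ i j, ContDiff ℝ ∞ fun x => M x i j) :
    ContDiff ℝ ∞ fun x => (M x).det := by
  simp only [Matrix.det_apply]
  refine ContDiff.sum fun σ _ => ?_
  refine ContDiff.const_smul _ ?_
  exact contDiff_prod fun i _ => h _ _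

lemma contDiffOn_inv {E : Type*} [NormedAddCommGroup E] [NormedSpace ℝ E] {n : ℕ}
    {M : E → Matrix (Fin n) (Fin n) ℝ} (h : ∀ i j, ContDiff ℝ ∞ fun x => M x i j) (B C : Fin n) :
    ContDiffOn ℝ ∞ (fun x => (M x)⁻¹ B C) {x | (M x).det ≠ 0} := by
  have h1 : ∀ x, (M x)⁻¹ B C = ((M x).det)⁻¹ * (M x).adjugate B C := by
    intro x
    rw [Matrix.inv_def, Ring.inverse_eq_inv', Matrix.smul_apply, smul_eq_mul]
  simp only [h1]
  refine ContDiffOn.mul ?_ ?_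
  · exact (contDiff_det h).contDiffOn.inv fun x hx => hx
  · refine ContDiff.contDiffOn ?_
    simp only [Matrix.adjugate_apply]
    refine contDiff_det fun i j => ?_
    by_cases hi : i = C
    · subst hi
      simp only [Matrix.updateRow_self]
      exact contDiff_const
    · simp only [Matrix.updateRow_ne hi]
      exact h i j

section Coef

variable (S : Setup d F) (φ : Spl dh dm d)

lemma contDiff_Dy (i : Fin 9) (B C : Fin dm) : ContDiff ℝ ∞ fun y : Cfg dh => S.Dy φ i y B C := by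
  unfold Setup.Dy Setup.Dm
  simp only [Matrix.of_apply]
  exact ContDiff.sum fun A _ => contDiff_const.mul (Setup.contDiff_coord _)

lemma contDiffOn_Di (B C : Fin dm) :
    ContDiffOn ℝ ∞ (fun p : Cfg dh × Wsp dm => (S.Dy φ 8 p.1)⁻¹ B C) {p | (S.Dy φ 8 p.1).det ≠ 0} :=
  contDiffOn_inv (M := fun p : Cfg dh × Wsp dm => S.Dy φ 8 p.1)
    (fun i j => (contDiff_Dy S φ 8 i j).comp contDiff_fst) B C

lemma contDiff_w (q : Fin 8 × Fin dm) : ContDiff ℝ ∞ fun p : Cfg dh × Wsp dm => p.2 q :=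
  ((EuclideanSpace.proj (𝕜 := ℝ) q).contDiff).comp contDiff_snd

lemma contDiff_y (q : Fin 9 × Fin dh) : ContDiff ℝ ∞ fun p : Cfg dh × Wsp dm => p.1 q :=
  ((EuclideanSpace.proj (𝕜 := ℝ) q).contDiff).comp contDiff_fst

lemma contDiff_wt (i : Fin 9) (B : Fin dm) :
    ContDiff ℝ ∞ fun p : Cfg dh × Wsp dm => wt p.2 i B := by
  induction i using Fin.lastCases with
  | last => simp only [wt, Fin.lastCases_last]; exact contDiff_const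
  | cast j => simp only [wt, Fin.lastCases_castSucc]; exact contDiff_w _

lemma isOpen_Om : IsOpen {p : Cfg dh × Wsp dm | (S.Dy φ 8 p.1).det ≠ 0} := by
  have h : Continuous fun p : Cfg dh × Wsp dm => (S.Dy φ 8 p.1).det :=
    (contDiff_det (M := fun p : Cfg dh × Wsp dm => S.Dy φ 8 p.1)
      (fun i j => (contDiff_Dy S φ 8 i j).comp contDiff_fst)).continuous
  exact isOpen_ne_fun h continuous_const

lemma Dy_add_single {y : Cfg dh} {j : Fin 9} (hj : j ≠ 8) (A : Fin dh) (t : ℝ) :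
    S.Dy φ 8 (y + t • EuclideanSpace.single (j, A) (1 : ℝ)) = S.Dy φ 8 y := by
  unfold Setup.Dy
  congr 1
  funext B
  simp [hj.symm]

/-- matrix of `∂_8^A D_8` -/
noncomputable def MA (A : Fin dh) : Matrix (Fin dm) (Fin dm) ℝ :=
  Matrix.of fun B C => S.f (φ (Sum.inr B)) (φ (Sum.inl A)) (φ (Sum.inr C))

lemma Dy_add_single8 {y : Cfg dh} (A : Fin dh) (t : ℝ) :
    S.Dy φ 8 (y + t • EuclideanSpace.single ((8 : Fin 9), A) (1 : ℝ)) = S.Dy φ 8 y + t • MA S φ A := by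
  ext B C
  simp only [Setup.Dy, Setup.Dm, MA, Matrix.of_apply, Matrix.add_apply, Matrix.smul_apply,
    PiLp.add_apply, PiLp.smul_apply, smul_eq_mul, mul_add, Finset.sum_add_distrib]
  congr 1
  rw [Finset.sum_eq_single A]
  · simp
    ring
  · intro b _ hb
    simp [hb]
  · intro h
    exact absurd (Finset.mem_univ A) h

lemma det_line {n : ℕ} (D M : Matrix (Fin n) (Fin n) ℝ) (hD : D.det ≠ 0) :
    HasDerivAt (fun t : ℝ => (D + t • M).det) (D.det * (D⁻¹ * M).trace) 0 := by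
  have hu : IsUnit D.det := isUnit_iff_ne_zero.2 hD
  set P := ((1 + (Polynomial.X : Polynomial ℝ) • (D⁻¹ * M).map Polynomial.C).det).divX.divX with hP
  have h1 : ∀ t : ℝ, (D + t • M).det = D.det * (1 + (D⁻¹ * M).trace * t + Polynomial.eval t P * t ^ 2) := by
    intro t
    rw [← Matrix.det_one_add_smul, ← Matrix.det_mul, mul_add, mul_one, Matrix.mul_smul, ← Matrix.mul_assoc,
      Matrix.mul_nonsing_inv _ hu, Matrix.one_mul]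
  rw [show (fun t : ℝ => (D + t • M).det) = _ from funext h1]
  have h2 : HasDerivAt (fun t : ℝ => Polynomial.eval t P) (Polynomial.eval 0 (Polynomial.derivative P)) 0 :=
    Polynomial.hasDerivAt P 0
  have h3 : HasDerivAt (fun t : ℝ => t) 1 0 := hasDerivAt_id 0
  have h4 := (((h3.const_mul ((D⁻¹ * M).trace)).const_add 1).add (h2.mul (h3.pow 2))).const_mul D.det
  refine h4.congr_deriv ?_
  simp

lemma logJ {y : Cfg dh} (hy : (S.Dy φ 8 y).det ≠ 0) (A : Fin dh) :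
    fderiv ℝ (fun y' => Real.log (S.Jd φ y')) y (EuclideanSpace.single ((8 : Fin 9), A) 1) =
      ∑ B, ∑ C, (S.Dy φ 8 y)⁻¹ B C * S.f (φ (Sum.inr C)) (φ (Sum.inl A)) (φ (Sum.inr B)) := by
  have hd : DifferentiableAt ℝ (fun y' : Cfg dh => (S.Dy φ 8 y').det) y :=
    (contDiff_det (M := fun y' : Cfg dh => S.Dy φ 8 y') (fun i j => contDiff_Dy S φ 8 i j)).differentiable
      (by simp) y
  have h1 : (fun y' => Real.log (S.Jd φ y')) = fun y' => Real.log ((S.Dy φ 8 y').det) := by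
    funext y'
    unfold Setup.Jd
    rw [Real.log_abs]
  rw [h1]
  have h2 := (hd.hasFDerivAt.log hy)
  rw [h2.fderiv]
  simp only [_root_.smul_apply, smul_eq_mul]
  have h3 : fderiv ℝ (fun y' : Cfg dh => (S.Dy φ 8 y').det) y (EuclideanSpace.single ((8 : Fin 9), A) 1) =
      (S.Dy φ 8 y).det * ((S.Dy φ 8 y)⁻¹ * MA S φ A).trace := by
    have h4 : HasDerivAt (fun t : ℝ => (S.Dy φ 8 (y + t • EuclideanSpace.single ((8 : Fin 9), A) 1)).det)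
      (fderiv ℝ (fun y' : Cfg dh => (S.Dy φ 8 y').det) y (EuclideanSpace.single ((8 : Fin 9), A) 1)) 0 :=
      hd.hasFDerivAt.hasLineDerivAt _
    simp only [Dy_add_single8] at h4
    exact h4.unique (det_line _ _ hy)
  rw [h3, ← mul_assoc, inv_mul_cancel₀ hy, one_mul]
  simp only [Matrix.trace, Matrix.diag_apply, Matrix.mul_apply, MA, Matrix.of_apply]

/-- `∑_{BC} D⁻¹_{BC} f_{CBG} = 0` for `G ∈ m` -/
lemma trm (h : S.IsSub φ) {y : Cfg dh} (hy : (S.Dy φ 8 y).det ≠ 0) (G : Fin dm) :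
    ∑ B, ∑ C, (S.Dy φ 8 y)⁻¹ B C * S.f (φ (Sum.inr C)) (φ (Sum.inr B)) (φ (Sum.inr G)) = 0 := by
  set D := S.Dy φ 8 y with hD
  have hu : IsUnit D.det := isUnit_iff_ne_zero.2 hy
  have hDe : ∀ B C, D B C = ∑ A, S.f (φ (Sum.inr B)) (φ (Sum.inl A)) (φ (Sum.inr C)) * y (8, A) := by
    intro B C
    rfl
  have hanti : D.transpose = -D := by
    ext B C
    rw [Matrix.transpose_apply, Matrix.neg_apply, hDe, hDe, ← Finset.sum_neg_distrib]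
    refine Finset.sum_congr rfl fun A _ => ?_
    rw [S.f_cyc (φ (Sum.inr C)), S.f_swap (φ (Sum.inl A))]
    ring
  let M : Fin dm → Matrix (Fin dm) (Fin dm) ℝ := fun E => Matrix.of fun G C =>
    S.f (φ (Sum.inr G)) (φ (Sum.inr C)) (φ (Sum.inr E))
  have hM0 : ∀ E, (M E).trace = 0 := by
    intro E
    refine Finset.sum_eq_zero fun G _ => ?_
    have := S.f_swap (φ (Sum.inr G)) (φ (Sum.inr G)) (φ (Sum.inr E))
    simp only [M, Matrix.diag_apply, Matrix.of_apply]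
    linarith
  have key : ∀ B C E, ∑ G, S.f (φ (Sum.inr C)) (φ (Sum.inr B)) (φ (Sum.inr G)) * D G E =
      -(D * M E) B C + (D * M E) C B := by
    intro B C E
    have hj : ∀ A, ∑ G, (S.f (φ (Sum.inr C)) (φ (Sum.inr B)) (φ (Sum.inr G)) *
          S.f (φ (Sum.inr G)) (φ (Sum.inl A)) (φ (Sum.inr E)) +
        S.f (φ (Sum.inr B)) (φ (Sum.inl A)) (φ (Sum.inr G)) *
          S.f (φ (Sum.inr G)) (φ (Sum.inr C)) (φ (Sum.inr E)) -
        S.f (φ (Sum.inr C)) (φ (Sum.inl A)) (φ (Sum.inr G)) *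
          S.f (φ (Sum.inr G)) (φ (Sum.inr B)) (φ (Sum.inr E))) = 0 := by
      intro A
      have h1 := S.f_jac (φ (Sum.inr C)) (φ (Sum.inr B)) (φ (Sum.inl A)) (φ (Sum.inr E))
      rw [← φ.sum_comp, Fintype.sum_sum_type] at h1
      have h2 : ∑ X : Fin dh, (S.f (φ (Sum.inr C)) (φ (Sum.inr B)) (φ (Sum.inl X)) *
            S.f (φ (Sum.inl X)) (φ (Sum.inl A)) (φ (Sum.inr E)) +
          S.f (φ (Sum.inr B)) (φ (Sum.inl A)) (φ (Sum.inl X)) *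
            S.f (φ (Sum.inl X)) (φ (Sum.inr C)) (φ (Sum.inr E)) +
          S.f (φ (Sum.inl A)) (φ (Sum.inr C)) (φ (Sum.inl X)) *
            S.f (φ (Sum.inl X)) (φ (Sum.inr B)) (φ (Sum.inr E))) = 0 := by
        refine Finset.sum_eq_zero fun X _ => ?_
        rw [h X A E, S.f_cyc (φ (Sum.inr B)) (φ (Sum.inl A)) (φ (Sum.inl X)), h A X B,
          S.f_cyc (φ (Sum.inl A)) (φ (Sum.inr C)) (φ (Sum.inl X)),
          S.f_cyc (φ (Sum.inr C)) (φ (Sum.inl X)) (φ (Sum.inl A)), h X A C]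
        ring
      rw [h2, zero_add] at h1
      rw [← h1]
      refine Finset.sum_congr rfl fun X _ => ?_
      rw [S.f_swap (φ (Sum.inl A)) (φ (Sum.inr C))]
      ring
    have h3 : ∑ A, y (8, A) * ∑ G, (S.f (φ (Sum.inr C)) (φ (Sum.inr B)) (φ (Sum.inr G)) *
          S.f (φ (Sum.inr G)) (φ (Sum.inl A)) (φ (Sum.inr E)) +
        S.f (φ (Sum.inr B)) (φ (Sum.inl A)) (φ (Sum.inr G)) *
          S.f (φ (Sum.inr G)) (φ (Sum.inr C)) (φ (Sum.inr E)) -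
        S.f (φ (Sum.inr C)) (φ (Sum.inl A)) (φ (Sum.inr G)) *
          S.f (φ (Sum.inr G)) (φ (Sum.inr B)) (φ (Sum.inr E))) = 0 :=
      Finset.sum_eq_zero fun A _ => by rw [hj A, mul_zero]
    simp only [Finset.mul_sum] at h3
    rw [Finset.sum_comm] at h3
    have h4 : ∀ G, ∑ A, y (8, A) * (S.f (φ (Sum.inr C)) (φ (Sum.inr B)) (φ (Sum.inr G)) *
          S.f (φ (Sum.inr G)) (φ (Sum.inl A)) (φ (Sum.inr E)) +
        S.f (φ (Sum.inr B)) (φ (Sum.inl A)) (φ (Sum.inr G)) *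
          S.f (φ (Sum.inr G)) (φ (Sum.inr C)) (φ (Sum.inr E)) -
        S.f (φ (Sum.inr C)) (φ (Sum.inl A)) (φ (Sum.inr G)) *
          S.f (φ (Sum.inr G)) (φ (Sum.inr B)) (φ (Sum.inr E))) =
        S.f (φ (Sum.inr C)) (φ (Sum.inr B)) (φ (Sum.inr G)) * D G E + D B G * M E G C - D C G * M E G B := by
      intro G
      rw [hDe, hDe, hDe, Finset.mul_sum, Finset.sum_mul, Finset.sum_mul, ← Finset.sum_add_distrib,
        ← Finset.sum_sub_distrib]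
      refine Finset.sum_congr rfl fun A _ => ?_
      simp only [M, Matrix.of_apply]
      ring
    simp only [h4, Finset.sum_sub_distrib, Finset.sum_add_distrib] at h3
    rw [Matrix.mul_apply, Matrix.mul_apply]
    linarith
  have hD2 : D⁻¹.transpose = -D⁻¹ := by
    rw [Matrix.transpose_nonsing_inv, hanti]
    refine Matrix.inv_eq_left_inv ?_
    rw [neg_mul_neg, Matrix.nonsing_inv_mul _ hu]
  let lam : Fin dm → ℝ := fun G =>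
    ∑ B, ∑ C, D⁻¹ B C * S.f (φ (Sum.inr C)) (φ (Sum.inr B)) (φ (Sum.inr G))
  have hl : Matrix.vecMul lam D = 0 := by
    funext E
    have e1 : Matrix.vecMul lam D E = ∑ B, ∑ C, D⁻¹ B C *
        ∑ G, S.f (φ (Sum.inr C)) (φ (Sum.inr B)) (φ (Sum.inr G)) * D G E := by
      simp only [Matrix.vecMul, dotProduct, lam, Finset.sum_mul, Finset.mul_sum]
      rw [Finset.sum_comm]
      refine Finset.sum_congr rfl fun B _ => ?_
      rw [Finset.sum_comm]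
      exact Finset.sum_congr rfl fun C _ => Finset.sum_congr rfl fun G _ => by ring
    rw [e1]
    simp only [key, mul_add, Finset.sum_add_distrib, mul_neg, Finset.sum_neg_distrib]
    have e2 : ∑ B, ∑ C, D⁻¹ B C * (D * M E) C B = 0 := by
      have : (D⁻¹ * (D * M E)).trace = ∑ B, ∑ C, D⁻¹ B C * (D * M E) C B := by
        simp only [Matrix.trace, Matrix.diag_apply]
        exact Finset.sum_congr rfl fun B _ => Matrix.mul_apply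
      rw [← this, ← Matrix.mul_assoc, Matrix.nonsing_inv_mul _ hu, Matrix.one_mul, hM0]
    have e3 : ∑ B, ∑ C, D⁻¹ B C * (D * M E) B C = 0 := by
      have : (D⁻¹.transpose * (D * M E)).trace = ∑ B, ∑ C, D⁻¹ B C * (D * M E) B C := by
        simp only [Matrix.trace, Matrix.diag_apply, Matrix.mul_apply (M := D⁻¹.transpose),
          Matrix.transpose_apply]
        exact Finset.sum_comm
      rw [← this, hD2, Matrix.neg_mul, ← Matrix.mul_assoc, Matrix.nonsing_inv_mul _ hu, Matrix.one_mul,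
        Matrix.trace_neg, hM0, neg_zero]
    rw [e2, e3]
    simp
  have hl0 : lam = 0 := by
    have : Matrix.vecMul (Matrix.vecMul lam D) D⁻¹ = lam := by
      rw [Matrix.vecMul_vecMul, Matrix.mul_nonsing_inv _ hu, Matrix.vecMul_one]
    rw [← this, hl, Matrix.zero_vecMul]
  exact congrFun hl0 G

end Coef

end Vale.Agent.P353.Z.AN.Sy
end

section

/-! # P353, all `N`, block C, C-Op: the operators on test functions -/

open MeasureTheory Filter Topology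
open scoped ContDiff

namespace Vale.Agent.P353.Z.AN.Op687

open Vale.Agent.P353.Z.AN.Sy

variable {d dh dm : ℕ} {F : Type*} [NormedAddCommGroup F] [InnerProductSpace ℂ F]

/-! ### closure properties of test functions -/

lemma t_sum (hA : CalcA dh dm F) {ι : Type*} (s : Finset ι) (v : ι → Cfg dh → Wsp dm → F)
    (h : ∀ i ∈ s, Tst2 (v i)) : Tst2 (fun y w => ∑ i ∈ s, v i y w) := by
  classical
  induction s using Finset.induction_on with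
  | empty => simpa using hA.zero
  | insert a s ha ih =>
    have h1 := hA.add (v a) (fun y w => ∑ i ∈ s, v i y w) (h a (Finset.mem_insert_self a s))
      (ih fun i hi => h i (Finset.mem_insert_of_mem hi))
    simpa [Finset.sum_insert ha] using h1

lemma t_mulc (hA : CalcA dh dm F) (c : Cfg dh → Wsp dm → ℝ)
    (hc : ContDiff ℝ ∞ (fun p : Cfg dh × Wsp dm => c p.1 p.2)) (v : Cfg dh → Wsp dm → F)
    (hv : Tst2 v) : Tst2 (fun y w => ((c y w : ℝ) : ℂ) • v y w) :=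
  hA.mul c v hc hv

lemma t_mulT (hA : CalcA dh dm F) (c : Cfg dh → Wsp dm → ℝ)
    (hc : ContDiff ℝ ∞ (fun p : Cfg dh × Wsp dm => c p.1 p.2)) (T : F →L[ℂ] F)
    (v : Cfg dh → Wsp dm → F) (hv : Tst2 v) : Tst2 (fun y w => ((c y w : ℝ) : ℂ) • T (v y w)) :=
  hA.mul c (fun y w => T (v y w)) hc (hA.clm T v hv)

/-! ### inner products -/

lemma ip_smul_left (c : ℂ) (u v : Cfg dh → Wsp dm → F) :
    ip2 (fun y w => c • u y w) v = (starRingEnd ℂ) c * ip2 u v := by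
  unfold ip2
  simp only [inner_smul_left]
  exact integral_const_mul _ _

lemma ip_add_left (hB : CalcB dh dm F) (u u' v : Cfg dh → Wsp dm → F) (hu : Tst2 u) (hu' : Tst2 u')
    (hv : Tst2 v) : ip2 (fun y w => u y w + u' y w) v = ip2 u v + ip2 u' v := by
  rw [hB.conj, hB.ip_add v u u' hv hu hu', map_add, ← hB.conj, ← hB.conj]

/-- symmetric operators on test functions -/
def Sm (L : (Cfg dh → Wsp dm → F) → Cfg dh → Wsp dm → F) : Prop :=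
  (∀ u, Tst2 u → Tst2 (L u)) ∧ ∀ u v, Tst2 u → Tst2 v → ip2 (L u) v = ip2 u (L v)

lemma sm_add (hA : CalcA dh dm F) (hB : CalcB dh dm F)
    {L L' : (Cfg dh → Wsp dm → F) → Cfg dh → Wsp dm → F} (h : Sm L) (h' : Sm L') :
    Sm (fun v y w => L v y w + L' v y w) := by
  refine ⟨fun u hu => hA.add _ _ (h.1 u hu) (h'.1 u hu), fun u v hu hv => ?_⟩
  rw [ip_add_left hB (L u) (L' u) v (h.1 u hu) (h'.1 u hu) hv,
    hB.ip_add u (L v) (L' v) hu (h.1 v hv) (h'.1 v hv), h.2 u v hu hv, h'.2 u v hu hv]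

lemma sm_zero (hA : CalcA dh dm F) : Sm (fun (_ : Cfg dh → Wsp dm → F) _ _ => (0 : F)) := by
  refine ⟨fun u _ => hA.zero, fun u v _ _ => ?_⟩
  unfold ip2
  simp

lemma sm_sum (hA : CalcA dh dm F) (hB : CalcB dh dm F) {ι : Type*} (s : Finset ι)
    (L : ι → (Cfg dh → Wsp dm → F) → Cfg dh → Wsp dm → F) (h : ∀ i, Sm (L i)) :
    Sm (fun v y w => ∑ i ∈ s, L i v y w) := by
  classical
  induction s using Finset.induction_on with
  | empty => simpa using sm_zero hA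
  | insert a s ha ih =>
    have h1 := sm_add hA hB (h a) ih
    simpa [Finset.sum_insert ha] using h1

lemma sm_mul (hA : CalcA dh dm F) (c : Cfg dh → Wsp dm → ℝ)
    (hc : ContDiff ℝ ∞ (fun p : Cfg dh × Wsp dm => c p.1 p.2)) (T : F →L[ℂ] F)
    (hT : ∀ a b : F, inner ℂ (T a) b = inner ℂ a (T b)) :
    Sm (fun (v : Cfg dh → Wsp dm → F) y w => ((c y w : ℝ) : ℂ) • T (v y w)) := by
  refine ⟨fun u hu => t_mulT hA c hc T u hu, fun u v _ _ => ?_⟩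
  unfold ip2
  refine integral_congr_ae (Eventually.of_forall fun p => ?_)
  simp only [inner_smul_left, inner_smul_right, Complex.conj_ofReal, hT]

lemma sm_der (hA : CalcA dh dm F) (hB : CalcB dh dm F) (i : Fin 9) (A : Fin dh) (T : F →L[ℂ] F)
    (hT : ∀ a b : F, inner ℂ (T a) b = inner ℂ a (T b)) :
    Sm (fun (v : Cfg dh → Wsp dm → F) y w => (-Complex.I) • T (py i A v y w)) := by
  refine ⟨fun u hu => hA.smul _ _ (hA.clm T _ (hA.py i A u hu)), fun u v hu hv => ?_⟩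
  have h1 : ip2 (fun y w => T (py i A u y w)) v = ip2 (py i A u) (fun y w => T (v y w)) := by
    unfold ip2
    refine integral_congr_ae (Eventually.of_forall fun p => ?_)
    exact hT _ _
  have h2 : py i A (fun y w => T (v y w)) = fun y w => T (py i A v y w) := by
    funext y w
    exact hA.py_clm i A T v hv y w
  rw [ip_smul_left, h1, hB.ibp_y i A u _ hu (hA.clm T v hv), h2, hB.ip_smul]
  simp

/-! ### the block diagonal operator -/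

variable (S : Setup d F) (φ : Spl dh dm d)

/-- coefficient of the potential in `Q^h` -/
noncomputable def c1 (A : Fin dh) (i j : Fin 9) (y : Cfg dh) : ℝ :=
  (1 / 2) * (S.κ * ∑ B, ∑ C, S.f (φ (Sum.inl A)) (φ (Sum.inl B)) (φ (Sum.inl C)) * y (i, B) * y (j, C))

lemma Qhm_exp (N : Fin 9 → Matrix (Fin 16) (Fin 16) ℂ) (m : ℝ) (β : Fin 16)
    (v : Cfg dh → Wsp dm → F) (y : Cfg dh) (w : Wsp dm) :
    S.Qhm φ N m β v y w = (∑ i, ∑ A, (-Complex.I) • S.vec (S.g i) (φ (Sum.inl A)) β (py i A v y w)) +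
      (∑ A, ∑ i, ∑ j, ((c1 S φ A i j y : ℝ) : ℂ) • S.vec (S.g2 i j) (φ (Sum.inl A)) β (v y w)) +
      ∑ i, ∑ A, ((m * y (i, A) : ℝ) : ℂ) • S.vec (N i) (φ (Sum.inl A)) β (v y w) := by
  unfold Setup.Qhm Setup.Qh Setup.Mh c1
  simp only [Finset.smul_sum, _root_.sum_apply, _root_.smul_apply, smul_smul]
  congr 1
  · congr 1
    refine Finset.sum_congr rfl fun A _ => Finset.sum_congr rfl fun i _ => Finset.sum_congr rfl fun j _ => ?_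
    congr 1
    push_cast
    ring
  · refine Finset.sum_congr rfl fun A _ => Finset.sum_congr rfl fun i _ => ?_
    congr 1
    push_cast
    ring

lemma cd_c1 (A : Fin dh) (i j : Fin 9) :
    ContDiff ℝ ∞ (fun p : Cfg dh × Wsp dm => c1 S φ A i j p.1) := by
  unfold c1
  exact contDiff_const.mul (contDiff_const.mul (ContDiff.sum fun B _ => ContDiff.sum fun C _ =>
    (contDiff_const.mul (contDiff_y _)).mul (contDiff_y _)))

lemma sm_Qhm (hA : CalcA dh dm F) (hB : CalcB dh dm F) (N : Fin 9 → Matrix (Fin 16) (Fin 16) ℂ)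
    (hN : ∀ i α β, (N i α β).im = 0) (m : ℝ) (β : Fin 16) : Sm (S.Qhm φ N m β) := by
  have h : S.Qhm φ N m β = fun (v : Cfg dh → Wsp dm → F) y w =>
      (∑ i, ∑ A, (-Complex.I) • S.vec (S.g i) (φ (Sum.inl A)) β (py i A v y w)) +
      (∑ A, ∑ i, ∑ j, ((c1 S φ A i j y : ℝ) : ℂ) • S.vec (S.g2 i j) (φ (Sum.inl A)) β (v y w)) +
      ∑ i, ∑ A, ((m * y (i, A) : ℝ) : ℂ) • S.vec (N i) (φ (Sum.inl A)) β (v y w) := by
    funext v y w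
    exact Qhm_exp S φ N m β v y w
  rw [h]
  refine sm_add hA hB (sm_add hA hB ?_ ?_) ?_
  · exact sm_sum hA hB _ _ fun i => sm_sum hA hB _ _ fun A =>
      sm_der hA hB i A _ (S.vec_symm _ (S.g_im i) _ _)
  · exact sm_sum hA hB _ _ fun A => sm_sum hA hB _ _ fun i => sm_sum hA hB _ _ fun j =>
      sm_mul hA (fun y _ => c1 S φ A i j y) (cd_c1 S φ A i j) _ (S.vec_symm _ (S.g2_im i j) _ _)
  · exact sm_sum hA hB _ _ fun i => sm_sum hA hB _ _ fun A =>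
      sm_mul hA (fun y _ => m * y (i, A)) (contDiff_const.mul (contDiff_y _)) _
        (S.vec_symm _ (hN i) _ _)

lemma t_Mw (hA : CalcA dh dm F) (N : Fin 9 → Matrix (Fin 16) (Fin 16) ℂ) (β : Fin 16)
    (v : Cfg dh → Wsp dm → F) (hv : Tst2 v) : Tst2 (fun y w => S.Mw φ N β w (v y w)) := by
  have h : (fun y w => S.Mw φ N β w (v y w)) = fun y w =>
      ∑ i, ∑ B, ((wt w i B : ℝ) : ℂ) • S.vec (N i) (φ (Sum.inr B)) β (v y w) := by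
    funext y w
    unfold Setup.Mw
    simp only [_root_.sum_apply, _root_.smul_apply]
  rw [h]
  exact t_sum hA _ _ fun i _ => t_sum hA _ _ fun B _ =>
    t_mulT hA (fun _ w => wt w i B) (contDiff_wt i B) _ v hv

/-! ### supports -/

lemma van (hA : CalcA dh dm F) {Y : Cfg dh} {ε R : ℝ} {v : Cfg dh → Wsp dm → F} (hv : Tst2 v)
    (hs : Sup2 Y ε R v) {y : Cfg dh} {w : Wsp dm} (h : ¬ (‖y - R • Y‖ ≤ ε * R ∧ ‖w‖ ≤ ε * R)) :
    v y w = 0 ∧ (∀ i A, py i A v y w = 0) ∧ ∀ j B, pw j B v y w = 0 := by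
  refine ⟨?_, fun i A => ?_, fun j B => ?_⟩
  · by_contra h1
    exact h (hs y w h1)
  · by_contra h1
    exact h (hA.supy Y ε R i A v hv hs y w h1)
  · by_contra h1
    exact h (hA.supw Y ε R j B v hv hs y w h1)

lemma sup_Qhm (hA : CalcA dh dm F) (N : Fin 9 → Matrix (Fin 16) (Fin 16) ℂ) (Y : Cfg dh) (ε R : ℝ)
    (v : Cfg dh → Wsp dm → F) (hv : Tst2 v) (hs : Sup2 Y ε R v) (m : ℝ) (β : Fin 16) :
    Sup2 Y ε R (S.Qhm φ N m β v) := by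
  intro y w h
  by_contra hn
  obtain ⟨h0, h1, _⟩ := van hA hv hs hn
  apply h
  rw [Qhm_exp]
  simp [h0, h1]

lemma sup_Q1 (hA : CalcA dh dm F) (Y : Cfg dh) (ε R : ℝ)
    (v : Cfg dh → Wsp dm → F) (hv : Tst2 v) (hs : Sup2 Y ε R v) (β : Fin 16) :
    Sup2 Y ε R (S.Q1 φ β v) := by
  intro y w h
  by_contra hn
  obtain ⟨h0, _, h2⟩ := van hA hv hs hn
  apply h
  unfold Setup.Q1
  simp [h0, h2]

/-! ### operators with coefficients which are smooth near the support -/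

/-- the set where `D_8` is invertible -/
def UU : Set (Cfg dh) := {y | (S.Dy φ 8 y).det ≠ 0}

lemma isOpen_UU : IsOpen (UU S φ : Set (Cfg dh)) := by
  have h : Continuous fun y : Cfg dh => (S.Dy φ 8 y).det :=
    (contDiff_det (M := fun y : Cfg dh => S.Dy φ 8 y)
      (fun i j => contDiff_Dy S φ 8 i j)).continuous
  exact isOpen_ne_fun h continuous_const

lemma cd_inv (B C : Fin dm) : ContDiffOn ℝ ∞ (fun y : Cfg dh => (S.Dy φ 8 y)⁻¹ B C) (UU S φ) :=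
  contDiffOn_inv (M := fun y : Cfg dh => S.Dy φ 8 y) (fun i j => contDiff_Dy S φ 8 i j) B C

lemma cd_log (A : Fin dh) : ContDiffOn ℝ ∞ (fun y : Cfg dh =>
    fderiv ℝ (fun y' => Real.log (S.Jd φ y')) y (EuclideanSpace.single ((8 : Fin 9), A) 1)) (UU S φ) := by
  have h1 : ContDiffOn ℝ ∞ (fun y : Cfg dh =>
      ∑ B, ∑ C, (S.Dy φ 8 y)⁻¹ B C * S.f (φ (Sum.inr C)) (φ (Sum.inl A)) (φ (Sum.inr B))) (UU S φ) :=
    ContDiffOn.sum fun B _ => ContDiffOn.sum fun C _ => (cd_inv S φ B C).mul contDiffOn_const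
  exact h1.congr fun y hy => logJ S φ hy A

lemma t_loc (hA : CalcA dh dm F) {Y : Cfg dh} {ε0 C0 R : ℝ} (hbd : S.CoefBd φ Y ε0 C0) (hR : 0 < R)
    {c : Cfg dh → ℝ} (hc : ContDiffOn ℝ ∞ c (UU S φ)) {v : Cfg dh → Wsp dm → F} (hv : Tst2 v)
    (hs : ∀ y w, v y w ≠ 0 → ‖y - R • Y‖ ≤ ε0 * R) : Tst2 (fun y w => ((c y : ℝ) : ℂ) • v y w) := by
  refine hA.mulOn c v {y | ‖y - R • Y‖ ≤ ε0 * R} (UU S φ) ?_ (isOpen_UU S φ) ?_ hc hs hv
  · exact isClosed_le (by fun_prop) continuous_const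
  · intro y hy
    exact hbd.det R hR y hy

lemma cd_Dy (i : Fin 9) (B C : Fin dm) :
    ContDiff ℝ ∞ (fun p : Cfg dh × Wsp dm => S.Dy φ i p.1 B C) :=
  (contDiff_Dy S φ i B C).comp contDiff_fst

lemma cd_FL (B : Fin dm) (i j : Fin 9) :
    ContDiff ℝ ∞ (fun p : Cfg dh × Wsp dm => S.FL φ B i j p.1 p.2) := by
  unfold Setup.FL
  refine contDiff_const.mul (ContDiff.sub (ContDiff.sum fun C _ => ?_) (ContDiff.sum fun C _ => ?_))
  · exact (cd_Dy S φ i B C).mul (contDiff_wt j C)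
  · exact (cd_Dy S φ j B C).mul (contDiff_wt i C)

lemma t_Q1 (hA : CalcA dh dm F) {Y : Cfg dh} {ε0 C0 R : ℝ} (hbd : S.CoefBd φ Y ε0 C0) (hR : 0 < R)
    (v : Cfg dh → Wsp dm → F) (hv : Tst2 v) (hs : Sup2 Y ε0 R v) (β : Fin 16) :
    Tst2 (S.Q1 φ β v) := by
  have h1 : Tst2 (fun y w => (-Complex.I) • (∑ j : Fin 8, ∑ B,
      S.vec (S.g j.castSucc) (φ (Sum.inr B)) β (pw j B v y w))) :=
    hA.smul _ _ (t_sum hA _ _ fun j _ => t_sum hA _ _ fun B _ => hA.clm _ _ (hA.pw j B v hv))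
  have h2 : ∀ C : Fin dm, Tst2 (fun y w => ∑ j : Fin 8, ∑ E,
      ((S.Dy φ j.castSucc y C E : ℝ) : ℂ) • pw j E v y w) := fun C =>
    t_sum hA _ _ fun j _ => t_sum hA _ _ fun E _ =>
      t_mulc hA (fun y _ => S.Dy φ j.castSucc y C E) (cd_Dy S φ _ C E) _ (hA.pw j E v hv)
  have h3 : ∀ (C : Fin dm) (y : Cfg dh) (w : Wsp dm), (∑ j : Fin 8, ∑ E,
      ((S.Dy φ j.castSucc y C E : ℝ) : ℂ) • pw j E v y w) ≠ 0 → ‖y - R • Y‖ ≤ ε0 * R := by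
    intro C y w h
    by_contra hn
    obtain ⟨_, _, h0⟩ := van hA hv hs (y := y) (w := w) fun h' => hn h'.1
    apply h
    simp [h0]
  have h4 : Tst2 (fun y w => Complex.I • (∑ B, S.vec (S.g 8) (φ (Sum.inr B)) β
      (∑ C, (((S.Dy φ 8 y)⁻¹ B C : ℝ) : ℂ) • ∑ j : Fin 8, ∑ E,
        ((S.Dy φ j.castSucc y C E : ℝ) : ℂ) • pw j E v y w))) :=
    hA.smul _ _ (t_sum hA _ _ fun B _ => hA.clm _ _ (t_sum hA _ _ fun C _ =>
      t_loc S φ hA hbd hR (cd_inv S φ B C) (h2 C) (h3 C)))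
  have h5 : Tst2 (fun y w => (1 / 2 : ℂ) • ∑ B, ∑ i, ∑ j, ((S.FL φ B i j y w : ℝ) : ℂ) •
      S.vec (S.g2 i j) (φ (Sum.inr B)) β (v y w)) :=
    hA.smul _ _ (t_sum hA _ _ fun B _ => t_sum hA _ _ fun i _ => t_sum hA _ _ fun j _ =>
      t_mulT hA (fun y w => S.FL φ B i j y w) (cd_FL S φ B i j) _ v hv)
  exact hA.add _ _ (hA.add _ _ h1 h4) h5

lemma cd_ww (f : Fin dm → Fin dm → ℝ) (i j : Fin 9) :
    ContDiff ℝ ∞ (fun p : Cfg dh × Wsp dm => S.κ * ∑ B, ∑ C, f B C * wt p.2 i B * wt p.2 j C) :=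
  contDiff_const.mul (ContDiff.sum fun B _ => ContDiff.sum fun C _ =>
    (contDiff_const.mul (contDiff_wt i B)).mul (contDiff_wt j C))

lemma t_Qr (hA : CalcA dh dm F) {Y : Cfg dh} {ε0 C0 R : ℝ} (hbd : S.CoefBd φ Y ε0 C0) (hR : 0 < R)
    (v : Cfg dh → Wsp dm → F) (hv : Tst2 v) (hs : Sup2 Y ε0 R v) (β : Fin 16) :
    Tst2 (S.Qr φ β v) := by
  have h2 : ∀ C : Fin dm, Tst2 (fun y w =>
      (∑ j : Fin 8, ∑ E, ∑ A, ((S.f (φ (Sum.inr C)) (φ (Sum.inr E)) (φ (Sum.inl A)) * w (j, E) : ℝ) : ℂ) •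
          py j.castSucc A v y w) +
        (∑ j : Fin 8, ∑ E, ∑ G, ((S.f (φ (Sum.inr C)) (φ (Sum.inr E)) (φ (Sum.inr G)) * w (j, E) : ℝ) : ℂ) •
          pw j G v y w) +
        Complex.I • S.cS (φ (Sum.inr C)) (v y w)) := fun C =>
    hA.add _ _ (hA.add _ _
      (t_sum hA _ _ fun j _ => t_sum hA _ _ fun E _ => t_sum hA _ _ fun A _ =>
        t_mulc hA (fun _ w => S.f (φ (Sum.inr C)) (φ (Sum.inr E)) (φ (Sum.inl A)) * w (j, E))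
          (contDiff_const.mul (contDiff_w _)) _ (hA.py _ _ v hv))
      (t_sum hA _ _ fun j _ => t_sum hA _ _ fun E _ => t_sum hA _ _ fun G _ =>
        t_mulc hA (fun _ w => S.f (φ (Sum.inr C)) (φ (Sum.inr E)) (φ (Sum.inr G)) * w (j, E))
          (contDiff_const.mul (contDiff_w _)) _ (hA.pw _ _ v hv)))
      (hA.smul _ _ (hA.clm _ _ hv))
  have h3 : ∀ (C : Fin dm) (y : Cfg dh) (w : Wsp dm), (
      (∑ j : Fin 8, ∑ E, ∑ A, ((S.f (φ (Sum.inr C)) (φ (Sum.inr E)) (φ (Sum.inl A)) * w (j, E) : ℝ) : ℂ) •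
          py j.castSucc A v y w) +
        (∑ j : Fin 8, ∑ E, ∑ G, ((S.f (φ (Sum.inr C)) (φ (Sum.inr E)) (φ (Sum.inr G)) * w (j, E) : ℝ) : ℂ) •
          pw j G v y w) +
        Complex.I • S.cS (φ (Sum.inr C)) (v y w)) ≠ 0 → ‖y - R • Y‖ ≤ ε0 * R := by
    intro C y w h
    by_contra hn
    obtain ⟨h0, h0', h0''⟩ := van hA hv hs (y := y) (w := w) fun h' => hn h'.1
    apply h
    simp [h0, h0', h0'']
  have h4 : Tst2 (fun y w => Complex.I • (∑ B, S.vec (S.g 8) (φ (Sum.inr B)) β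
      (∑ C, (((S.Dy φ 8 y)⁻¹ B C : ℝ) : ℂ) • (
      (∑ j : Fin 8, ∑ E, ∑ A, ((S.f (φ (Sum.inr C)) (φ (Sum.inr E)) (φ (Sum.inl A)) * w (j, E) : ℝ) : ℂ) •
          py j.castSucc A v y w) +
        (∑ j : Fin 8, ∑ E, ∑ G, ((S.f (φ (Sum.inr C)) (φ (Sum.inr E)) (φ (Sum.inr G)) * w (j, E) : ℝ) : ℂ) •
          pw j G v y w) +
        Complex.I • S.cS (φ (Sum.inr C)) (v y w))))) :=
    hA.smul _ _ (t_sum hA _ _ fun B _ => hA.clm _ _ (t_sum hA _ _ fun C _ =>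
      t_loc S φ hA hbd hR (cd_inv S φ B C) (h2 C) (h3 C)))
  have h5 : Tst2 (fun y w => (1 / 2 : ℂ) • (∑ A, ∑ i, ∑ j,
      ((S.κ * ∑ B, ∑ C, S.f (φ (Sum.inl A)) (φ (Sum.inr B)) (φ (Sum.inr C)) * wt w i B * wt w j C : ℝ) : ℂ) •
        S.vec (S.g2 i j) (φ (Sum.inl A)) β (v y w))) :=
    hA.smul _ _ (t_sum hA _ _ fun A _ => t_sum hA _ _ fun i _ => t_sum hA _ _ fun j _ =>
      t_mulT hA (fun _ w => S.κ * ∑ B, ∑ C, S.f (φ (Sum.inl A)) (φ (Sum.inr B)) (φ (Sum.inr C)) *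
        wt w i B * wt w j C) (cd_ww S _ i j) _ v hv)
  have h6 : Tst2 (fun y w => (1 / 2 : ℂ) • (∑ A, ∑ i, ∑ j,
      ((S.κ * ∑ B, ∑ C, S.f (φ (Sum.inr A)) (φ (Sum.inr B)) (φ (Sum.inr C)) * wt w i B * wt w j C : ℝ) : ℂ) •
        S.vec (S.g2 i j) (φ (Sum.inr A)) β (v y w))) :=
    hA.smul _ _ (t_sum hA _ _ fun A _ => t_sum hA _ _ fun i _ => t_sum hA _ _ fun j _ =>
      t_mulT hA (fun _ w => S.κ * ∑ B, ∑ C, S.f (φ (Sum.inr A)) (φ (Sum.inr B)) (φ (Sum.inr C)) *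
        wt w i B * wt w j C) (cd_ww S _ i j) _ v hv)
  have h8 : ∀ (A : Fin dh) (y : Cfg dh) (w : Wsp dm),
      S.vec (S.g 8) (φ (Sum.inl A)) β (v y w) ≠ 0 → ‖y - R • Y‖ ≤ ε0 * R := by
    intro A y w h
    by_contra hn
    obtain ⟨h0, _, _⟩ := van hA hv hs (y := y) (w := w) fun h' => hn h'.1
    apply h
    simp [h0]
  have h7 : Tst2 (fun y w => (Complex.I / 2) • ∑ A, ((fderiv ℝ (fun y' => Real.log (S.Jd φ y')) y
      (EuclideanSpace.single ((8 : Fin 9), A) 1) : ℝ) : ℂ) •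
      S.vec (S.g 8) (φ (Sum.inl A)) β (v y w)) :=
    hA.smul _ _ (t_sum hA _ _ fun A _ =>
      t_loc S φ hA hbd hR (cd_log S φ A) (hA.clm _ _ hv) (h8 A))
  exact hA.add _ _ (hA.add _ _ (hA.add _ _ h4 h5) h6) h7

end Vale.Agent.P353.Z.AN.Op687

namespace Vale.Agent.P353.Z.AN

open Op687

variable {d dh dm : ℕ} {F : Type*} [NormedAddCommGroup F] [InnerProductSpace ℂ F]

/-- C-Op -/
theorem op_stmt (S : Setup d F) (φ : Spl dh dm d) : CalcA dh dm F → CalcB dh dm F → OpStmt S φ := by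
  intro hA hB N hN Y ε0 C0 _ hbd
  refine
    { th := fun v hv m β => (sm_Qhm S φ hA hB N hN m β).1 v hv
      tm := fun v hv β => t_Mw S φ hA N β v hv
      t1 := fun R hR v hv hs β => t_Q1 S φ hA hbd hR v hv hs β
      tr := fun R hR v hv hs β => t_Qr S φ hA hbd hR v hv hs β
      ts := fun R hR v hv hs m β => ?_
      suh := fun ε R v hv hs m β => sup_Qhm S φ hA N Y ε R v hv hs m β
      su1 := fun ε R v hv hs β => sup_Q1 S φ hA Y ε R v hv hs β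
      symm := fun u v hu hv m β => (sm_Qhm S φ hA hB N hN m β).2 u v hu hv }
  exact hA.add _ _ (hA.add _ _ ((sm_Qhm S φ hA hB N hN m β).1 v hv) (t_Q1 S φ hA hbd hR v hv hs β))
    (hA.add _ _ (t_Qr S φ hA hbd hR v hv hs β) (hA.smul _ _ (t_Mw S φ hA N β v hv)))

end Vale.Agent.P353.Z.AN
end

section

/-! # P353, all `N`, block GL: the slice functionals `AD.sfun` of block D are limits of one global functional -/

open MeasureTheory Filter Topology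
open scoped ContDiff

namespace Vale.Agent.P353.Z.AN

variable {d dh dm ds dz : ℕ} {F : Type*} [NormedAddCommGroup F] [InnerProductSpace ℂ F]

/-- swapped splitting (centre first) -/
def swp (ψ : Spl ds dz dh) : Spz dz ds dh := (Equiv.sumComm (Fin dz) (Fin ds)).trans ψ

lemma cmb_swp (ψ : Spl ds dz dh) (ys : Cfg ds) (yz : Cfg dz) : cmb (swp ψ) yz ys = AD.cmb ψ ys yz := by
  ext ⟨i, A⟩
  obtain ⟨a, rfl⟩ := ψ.surjective A
  rcases a with a | a <;> simp [cmb, AD.cmb, swp]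

lemma Dz_swp (S : Setup d F) (φ : Spl dh dm d) (ψ : Spl ds dz dh) (η : Cfg dz) :
    Dz S φ (swp ψ) η = AD.Dz S φ ψ η := by
  funext i
  rw [Dz, AD.Dz, cmb_swp]

/-- smooth cutoff functions: `1` on `(-∞, 1/4]`, `0` on `[1, ∞)` -/
structure Ctf (c : ℝ → ℝ) : Prop where
  sm : ContDiff ℝ ∞ c
  one : ∀ t, t ≤ 1 / 4 → c t = 1
  zero : ∀ t, 1 ≤ t → c t = 0
  bd : ∀ t, 0 ≤ c t ∧ c t ≤ 1

/-- the section `a(η,s) = χ(η) Π_{F0(η)} o(s)` -/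
noncomputable def aP [FiniteDimensional ℂ F] (S : Setup d F) (φ : Spl dh dm d) (ψ : Spl ds dz dh) (χ : Cfg dz → ℝ)
    (o : Cfg ds → F) (η : Cfg dz) (s : Cfg ds) : F :=
  ((χ η : ℝ) : ℂ) • (S.F0 φ (AD.Dz S φ ψ η) (AD.omc S.κ (AD.Dz S φ ψ η))).starProjection (o s)

/-- the global functional:
`R^{3dm-9dz/2} c(|x^s|²/(εR)²) c(|x^m|²/(εR)²) Nf exp(-½⟨x^m, Ω(x^z) x^m⟩) χ(x^z/R) Π_{F0(x^z)} o(x^s)`, `Nf = Nf(κ, Ω(x^z/R))` -/
noncomputable def Zgl [FiniteDimensional ℂ F] (S : Setup d F) (φ : Spl dh dm d) (ψ : Spl ds dz dh) (c : ℝ → ℝ) (ε R : ℝ)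
    (χ : Cfg dz → ℝ) (o : Cfg ds → F) (x : Cfg d) : F :=
  Zb φ (swp ψ) (fun q => ((c (‖q.2.1‖ ^ 2 / (ε * R) ^ 2) * c (‖q.2.2‖ ^ 2 / ((ε * R) ^ 2 * R)) : ℝ) : ℂ) •
    bG S.κ (fun η => AD.omc S.κ (AD.Dz S φ ψ η)) (aP S φ ψ χ o) q) R x

/-- **GL11** the frozen data near `z₀` are continuous. PROOF: `Frz`: `D_i(η)` are linear in `η`, antisymmetric and commute (`z` central, Jacobi),
`D_8` invertible near `z₀`. `omc = Ω` is unique (`OmUStmt`), `Ω² = -κ²∑D_i²` is continuous and the positive square root is continuous.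
`Π_{F0(η)} = U(η)Π_KU(η)⁻¹` with the vacuum bundle of block X, or directly: `Π_{F0}` is the projection onto the kernel of `NF`, whose rank is locally
constant; `F0` is invariant under `D ↦ RD`. -/
def PcStmt (S : Setup d F) : Prop := ∀ _ : FiniteDimensional ℂ F, ∀ (dh dm ds dz : ℕ) (φ : Spl dh dm d)
  (ψ : Spl ds dz dh) (z₀ : Cfg dz), AD.Std2 S φ ψ z₀ → ∃ δ : ℝ, 0 < δ ∧
  (∀ η, ‖η - z₀‖ ≤ δ → AN.Std S φ (AD.cmb ψ 0 η) ∧ Frz (AD.Dz S φ ψ η) ∧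
    IsOm S.κ (AD.Dz S φ ψ η) (AD.omc S.κ (AD.Dz S φ ψ η))) ∧
  ContinuousOn (fun η => AD.omc S.κ (AD.Dz S φ ψ η)) {η | ‖η - z₀‖ ≤ δ} ∧
  (∀ v : F, ContinuousOn (fun η => (S.F0 φ (AD.Dz S φ ψ η) (AD.omc S.κ (AD.Dz S φ ψ η))).starProjection v)
    {η | ‖η - z₀‖ ≤ δ}) ∧
  ∀ η, ‖η - z₀‖ ≤ δ → ∀ R : ℝ, 0 < R → AD.omc S.κ (AD.Dz S φ ψ (R • η)) = R • AD.omc S.κ (AD.Dz S φ ψ η) ∧
    S.F0 φ (AD.Dz S φ ψ (R • η)) (AD.omc S.κ (AD.Dz S φ ψ (R • η))) =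
      S.F0 φ (AD.Dz S φ ψ η) (AD.omc S.κ (AD.Dz S φ ψ η))

/-- **GL12** `sfun` = global functional in the limit, for sequences with bounded mass in shells.
PROOF. (1) Multiply `u_n` with a radial cutoff (`= 1` on the shell `|z₀|R/2 < |x| < 2|z₀|R + …`, still gauge invariant): `‖u_n‖ ≤ C`.
(2) Partition of unity of `χ` into pieces supported in balls of radius `δ_k` around points `z_k ∈ tsupport χ` (compact; `Std` at `z_k` by `PcStmt`);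
`GluStmt` at `z_k` with `a = aP`, cutoffs `χ_n(q) = c(…)c(…)` multiplied with the sharp cutoff `|s|, |X| ≤ δ_kR…` (the difference is a functional of norm
`→ 0`: the mass of `a(η,·)` in `|s| > δ_kR/…` tends to `0`; the Gaussian is exponentially small at `|x^m| > δ_kR`).
(3) `sfun` is the slice integral of `Ts0 (vG aP)` over `|ys| < εR`, `|w| < εR` (`gR` homogeneous: `gR(D(Rη))(RΩ)(w) = gR(D(η))Ω(√R w)`,
`∫gR² = R^{-4dm}∫gR²`); `Nb` at `z_k` and this region differ by a region where the section has mass `→ 0`, and `‖res u_n‖` is bounded on the slice ball of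
radius `2ε` around `R z₀` (`NormStmt`). -/
def SfuStmt (S : Setup d F) : Prop := ∀ _ : FiniteDimensional ℂ F, ∀ (dh dm ds dz : ℕ) (φ : Spl dh dm d)
  (ψ : Spl ds dz dh) (z₀ : Cfg dz), z₀ ≠ 0 → AD.Std2 S φ ψ z₀ → ∃ ε₀ : ℝ, 0 < ε₀ ∧ ∀ ε : ℝ, 0 < ε → ε ≤ ε₀ →
  ∀ c : ℝ → ℝ, Ctf c → ∀ (χ : Cfg dz → ℝ) (o : Cfg ds → F), ContDiff ℝ ∞ χ → tsupport χ ⊆ Metric.ball z₀ ε →
  MemLp o 2 (volume : Measure (Cfg ds)) → ∀ (R : ℕ → ℝ) (u : ℕ → Cfg d → F), Tendsto R atTop atTop →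
  (∀ n, AD.GInv S (u n)) → (∀ s t : ℝ, 0 < s → s < t → ∃ C : ℝ, ∀ n, AD.mas (u n) (AD.shl d (s * R n) (t * R n)) ≤ C) →
  Tendsto (fun n => AD.sfun S φ ψ ε (R n) χ o (u n) - ∫ x, inner ℂ (Zgl S φ ψ c ε (R n) χ o x) (u n x)) atTop (𝓝 0)

/-- **GL13** FINAL: in every frame `R₀ ∈ O(9)` the slice functionals have the same limit as the frame independent global functional.
PROOF: GL12 for `S.rot R₀ 1` and covariance: `AD.Dz (S.rot R₀ 1) (rox η) i = ∑_jR₀_{ij}D_j(η)`, so `∑D_i²`, `omc` (`OmUStmt`), `F0` (`CovF0Stmt` of block X), `qX`, `Nf`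
and all norms are unchanged: `Zgl (S.rot R₀ 1) (χ∘rox⁻¹) (o∘rox⁻¹) (rox x) = Zgl S χ o x`; `rox` preserves the measure (`RotStmt`). -/
def GlobStmt (S : Setup d F) : Prop := ∀ _ : FiniteDimensional ℂ F, ∀ (R₀ : Matrix (Fin 9) (Fin 9) ℝ)
  (hR : R₀ * R₀.transpose = 1) (h1 : (1 : Matrix (Fin d) (Fin d) ℝ) * (1 : Matrix (Fin d) (Fin d) ℝ).transpose = 1)
  (dh dm ds dz : ℕ) (φ : Spl dh dm d)
  (ψ : Spl ds dz dh) (z₀ : Cfg dz), z₀ ≠ 0 → AD.Std2 (S.rot R₀ hR 1 h1) φ ψ (rox R₀ 1 z₀) →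
  ∃ ε₀ : ℝ, 0 < ε₀ ∧ ∀ ε : ℝ, 0 < ε → ε ≤ ε₀ →
  ∀ c : ℝ → ℝ, Ctf c → ∀ (χ : Cfg dz → ℝ) (o : Cfg ds → F), ContDiff ℝ ∞ χ → tsupport χ ⊆ Metric.ball z₀ ε →
  MemLp o 2 (volume : Measure (Cfg ds)) → ∀ (R : ℕ → ℝ) (u : ℕ → Cfg d → F), Tendsto R atTop atTop →
  (∀ n, AD.GInv S (u n)) → (∀ s t : ℝ, 0 < s → s < t → ∃ C : ℝ, ∀ n, AD.mas (u n) (AD.shl d (s * R n) (t * R n)) ≤ C) →
  Tendsto (fun n => AD.sfun (S.rot R₀ hR 1 h1) φ ψ ε (R n) (fun z => χ (rox R₀.transpose 1 z))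
      (fun s => o (rox R₀.transpose 1 s)) (fun x => u n (rox R₀.transpose 1 x)) -
    ∫ x, inner ℂ (Zgl S φ ψ c ε (R n) χ o x) (u n x)) atTop (𝓝 0)

end Vale.Agent.P353.Z.AN
end
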