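import Mathlib
import Vale.Agent.P353.BdA.B1
import Vale.Agent.P353.BdZ.B3

set_option linter.all false

section

/-! # P353, all `N`, block D, L0: the coordinates `cmb ψ` (`CmbStmt`) -/

open MeasureTheory Filter Topology
open scoped ContDiff

namespace Vale.Agent.P353.Z.AD

variable {dh ds dz : ℕ}

/-- index equivalence of `cmb` -/
def cmbEquiv (ψ : Spl ds dz dh) : (Fin 9 × Fin ds) ⊕ (Fin 9 × Fin dz) ≃ Fin 9 × Fin dh where
  toFun := Sum.elim (fun p => (p.1, ψ (Sum.inl p.2))) (fun p => (p.1, ψ (Sum.inr p.2)))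
  invFun p := Sum.elim (fun A => Sum.inl (p.1, A)) (fun B => Sum.inr (p.1, B)) (ψ.symm p.2)
  left_inv := by
    rintro (⟨i, A⟩ | ⟨i, B⟩) <;> simp
  right_inv := by
    rintro ⟨i, C⟩
    obtain ⟨s, rfl⟩ := ψ.surjective C
    rcases s with A | B <;> simp

theorem cmb_inl (ψ : Spl ds dz dh) (ys : Cfg ds) (yz : Cfg dz) (i : Fin 9) (A : Fin ds) :
    cmb ψ ys yz (i, ψ (Sum.inl A)) = ys (i, A) := by
  simp [cmb]

theorem cmb_inr (ψ : Spl ds dz dh) (ys : Cfg ds) (yz : Cfg dz) (i : Fin 9) (B : Fin dz) :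
    cmb ψ ys yz (i, ψ (Sum.inr B)) = yz (i, B) := by
  simp [cmb]

theorem cmb_ext (ψ : Spl ds dz dh) {y y' : Cfg dh} (hs : ∀ i A, y (i, ψ (Sum.inl A)) = y' (i, ψ (Sum.inl A)))
    (hz : ∀ i B, y (i, ψ (Sum.inr B)) = y' (i, ψ (Sum.inr B))) : y = y' := by
  ext ⟨i, C⟩
  obtain ⟨s, rfl⟩ := ψ.surjective C
  rcases s with A | B
  · exact hs i A
  · exact hz i B

theorem cmb_mp (ψ : Spl ds dz dh) :
    MeasurePreserving (fun p : Cfg ds × Cfg dz => cmb ψ p.1 p.2) (volume.prod volume) volume := by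
  have n1 := PiLp.volume_preserving_ofLp (Fin 9 × Fin ds)
  have n2 := PiLp.volume_preserving_ofLp (Fin 9 × Fin dz)
  have m3 := (volume_measurePreserving_sumPiEquivProdPi
    (fun _ : (Fin 9 × Fin ds) ⊕ (Fin 9 × Fin dz) => ℝ)).symm
  have m2 := volume_measurePreserving_piCongrLeft (fun _ : Fin 9 × Fin dh => ℝ) (cmbEquiv ψ)
  have m1 := PiLp.volume_preserving_toLp (Fin 9 × Fin dh)
  have key := m1.comp (m2.comp (m3.comp (n1.prod n2)))
  have hfun : (fun p : Cfg ds × Cfg dz => cmb ψ p.1 p.2) =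
      (WithLp.toLp 2) ∘ (MeasurableEquiv.piCongrLeft (fun _ : Fin 9 × Fin dh => ℝ) (cmbEquiv ψ)) ∘
      (MeasurableEquiv.sumPiEquivProdPi (fun _ : (Fin 9 × Fin ds) ⊕ (Fin 9 × Fin dz) => ℝ)).symm ∘
      (Prod.map WithLp.ofLp WithLp.ofLp) := by
    funext p
    ext q
    obtain ⟨s, rfl⟩ := (cmbEquiv ψ).surjective q
    rcases s with ⟨i, A⟩ | ⟨i, B⟩
    · refine (cmb_inl ψ p.1 p.2 i A).trans ?_
      have := Equiv.piCongrLeft_apply_apply (fun _ : Fin 9 × Fin dh => ℝ) (cmbEquiv ψ)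
        ((MeasurableEquiv.sumPiEquivProdPi
          (fun _ : (Fin 9 × Fin ds) ⊕ (Fin 9 × Fin dz) => ℝ)).symm (p.1.ofLp, p.2.ofLp)) (Sum.inl (i, A))
      exact this.symm
    · refine (cmb_inr ψ p.1 p.2 i B).trans ?_
      have := Equiv.piCongrLeft_apply_apply (fun _ : Fin 9 × Fin dh => ℝ) (cmbEquiv ψ)
        ((MeasurableEquiv.sumPiEquivProdPi
          (fun _ : (Fin 9 × Fin ds) ⊕ (Fin 9 × Fin dz) => ℝ)).symm (p.1.ofLp, p.2.ofLp)) (Sum.inr (i, B))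
      exact this.symm
  rw [hfun]
  exact key

theorem cmbS : CmbStmt := by
  intro ds dz dh ψ
  refine ⟨fun ys yz => ?_, fun ys yz => ?_, fun y => ?_, fun ys yz => ?_, fun ys yz ys' yz' => ?_,
    fun c ys yz => ?_, cmb_mp ψ⟩
  · ext ⟨i, A⟩
    exact cmb_inl ψ ys yz i A
  · ext ⟨i, A⟩
    exact cmb_inr ψ ys yz i A
  · exact cmb_ext ψ (fun i A => cmb_inl ψ _ _ i A) (fun i B => cmb_inr ψ _ _ i B)
  · rw [EuclideanSpace.norm_sq_eq, EuclideanSpace.norm_sq_eq, EuclideanSpace.norm_sq_eq,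
      ← Equiv.sum_comp (cmbEquiv ψ), Fintype.sum_sum_type]
    congr 1
    · refine Finset.sum_congr rfl fun p _ => ?_
      exact congrArg (fun t : ℝ => ‖t‖ ^ 2) (cmb_inl ψ ys yz p.1 p.2)
    · refine Finset.sum_congr rfl fun p _ => ?_
      exact congrArg (fun t : ℝ => ‖t‖ ^ 2) (cmb_inr ψ ys yz p.1 p.2)
  · refine cmb_ext ψ (fun i A => ?_) (fun i B => ?_)
    · rw [PiLp.sub_apply, cmb_inl, cmb_inl, cmb_inl, PiLp.sub_apply]
    · rw [PiLp.sub_apply, cmb_inr, cmb_inr, cmb_inr, PiLp.sub_apply]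
  · refine cmb_ext ψ (fun i A => ?_) (fun i B => ?_)
    · rw [PiLp.smul_apply, cmb_inl, cmb_inl, PiLp.smul_apply]
    · rw [PiLp.smul_apply, cmb_inr, cmb_inr, PiLp.smul_apply]

end Vale.Agent.P353.Z.AD
end

section

/-! # P353, all `N`, block D, L4: splitting of the block diagonal energy

`∑_β Q^h_β Q^h_β v - ∑_β Q^s_β Q^s_β v = -8 ∑ ∂_z² v` pointwise (`sum_QQ` for `h` and for `s`, potentials do not contain `yz`
because `z` is central), both supercharges are symmetric on test functions, and one integration by parts. -/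

open MeasureTheory Filter Topology
open scoped ContDiff

namespace Vale.Agent.P353.Z.AD

variable {d dh dm ds dz : ℕ} {F : Type*} [NormedAddCommGroup F] [InnerProductSpace ℂ F]

/-! ### coordinates -/

lemma sq873_sp (ψ : Spl ds dz dh) (ys : Cfg ds) (yz : Cfg dz) : sp ψ (cmb ψ ys yz) = ys := by
  ext p
  simp [sp, cmb]

lemma sq873_zp (ψ : Spl ds dz dh) (ys : Cfg ds) (yz : Cfg dz) : zp ψ (cmb ψ ys yz) = yz := by
  ext p
  simp [zp, cmb]

lemma sq873_cmb (ψ : Spl ds dz dh) (y : Cfg dh) : cmb ψ (sp ψ y) (zp ψ y) = y := by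
  ext p
  obtain ⟨i, A⟩ := p
  obtain ⟨B, rfl⟩ := ψ.surjective A
  cases B <;> simp [sp, zp, cmb]

/-- the inclusion of the `s` coordinates -/
noncomputable def sq873_inc (ψ : Spl ds dz dh) : Cfg ds →L[ℝ] Cfg dh :=
  LinearMap.toContinuousLinearMap
    { toFun := fun ys => cmb ψ ys 0
      map_add' := by
        intro a b
        ext p
        obtain ⟨i, A⟩ := p
        obtain ⟨B, rfl⟩ := ψ.surjective A
        cases B <;> simp [cmb]
      map_smul' := by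
        intro c a
        ext p
        obtain ⟨i, A⟩ := p
        obtain ⟨B, rfl⟩ := ψ.surjective A
        cases B <;> simp [cmb] }

lemma sq873_cmb_eq (ψ : Spl ds dz dh) (yz : Cfg dz) (ys : Cfg ds) :
    cmb ψ ys yz = sq873_inc ψ ys + cmb ψ 0 yz := by
  ext p
  obtain ⟨i, A⟩ := p
  obtain ⟨B, rfl⟩ := ψ.surjective A
  cases B <;> simp [cmb, sq873_inc]

lemma sq873_inc_single (ψ : Spl ds dz dh) (i : Fin 9) (A : Fin ds) :
    sq873_inc ψ (EuclideanSpace.single (i, A) 1) = EuclideanSpace.single (i, ψ (Sum.inl A)) 1 := by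
  ext p
  obtain ⟨j, C⟩ := p
  obtain ⟨B, rfl⟩ := ψ.surjective C
  cases B <;> simp [cmb, sq873_inc]

lemma sq873_hasFDerivAt (ψ : Spl ds dz dh) (yz : Cfg dz) (ys : Cfg ds) :
    HasFDerivAt (fun ys' => cmb ψ ys' yz) (sq873_inc ψ) ys := by
  have h : (fun ys' => cmb ψ ys' yz) = fun ys' => sq873_inc ψ ys' + cmb ψ 0 yz := by
    funext ys'
    exact sq873_cmb_eq ψ yz ys'
  rw [h]
  exact (sq873_inc ψ).hasFDerivAt.add_const _

lemma sq873_contDiff (ψ : Spl ds dz dh) (yz : Cfg dz) : ContDiff ℝ ∞ (fun ys : Cfg ds => cmb ψ ys yz) := by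
  have h : (fun ys' : Cfg ds => cmb ψ ys' yz) = fun ys' => sq873_inc ψ ys' + cmb ψ 0 yz := by
    funext ys'
    exact sq873_cmb_eq ψ yz ys'
  rw [h]
  exact (sq873_inc ψ).contDiff.add contDiff_const

lemma sq873_pd (ψ : Spl ds dz dh) {u : Cfg dh → F} (hu : ContDiff ℝ ∞ u) (i : Fin 9) (A : Fin ds) (yz : Cfg dz)
    (ys : Cfg ds) : pd i A (fun ys' => u (cmb ψ ys' yz)) ys = pd i (ψ (Sum.inl A)) u (cmb ψ ys yz) := by
  unfold pd
  have h1 := ((hu.differentiable (by simp)) (cmb ψ ys yz)).hasFDerivAt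
  have h2 := HasFDerivAt.comp ys h1 (sq873_hasFDerivAt ψ yz ys)
  have h3 : fderiv ℝ (fun ys' => u (cmb ψ ys' yz)) ys = _ := h2.fderiv
  rw [h3, ContinuousLinearMap.comp_apply, sq873_inc_single]

lemma sq873_sl {v : Cfg dh → Wsp dm → F} (hv : Tst2 v) (w : Wsp dm) : ContDiff ℝ ∞ (fun y => v y w) :=
  hv.1.comp (contDiff_id.prodMk contDiff_const)

lemma sq873_py (ψ : Spl ds dz dh) {v : Cfg dh → Wsp dm → F} (hv : Tst2 v) (i : Fin 9) (A : Fin ds) (y : Cfg dh)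
    (w : Wsp dm) : pd i A (fun ys => v (cmb ψ ys (zp ψ y)) w) (sp ψ y) = py i (ψ (Sum.inl A)) v y w := by
  rw [sq873_pd ψ (u := fun y => v y w) (sq873_sl hv w), sq873_cmb]
  rfl

lemma sq873_sum {M : Type*} [AddCommMonoid M] (ψ : Spl ds dz dh) (g : Fin dh → M)
    (hg : ∀ A, g (ψ (Sum.inr A)) = 0) : ∑ B, g B = ∑ A, g (ψ (Sum.inl A)) := by
  rw [← ψ.sum_comp, Fintype.sum_sum_type]
  simp [hg]

lemma sq873_split {M : Type*} [AddCommMonoid M] (ψ : Spl ds dz dh) (g : Fin dh → M) :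
    ∑ B, g B = (∑ A, g (ψ (Sum.inl A))) + ∑ A, g (ψ (Sum.inr A)) := by
  rw [← ψ.sum_comp, Fintype.sum_sum_type]

/-! ### the supercharge of `s` on slice functions -/

variable {S : Setup d F} {φ : Spl dh dm d} {ψ : Spl ds dz dh} {z₀ : Cfg dz}

/-- explicit form of `Qss` -/
noncomputable def sq873_L (h : Std2 S φ ψ z₀) (β : Fin 16) (v : Cfg dh → Wsp dm → F) (y : Cfg dh) (w : Wsp dm) : F :=
  (∑ i, ∑ A, (-Complex.I) • S.vec (S.g i) (φ (Sum.inl (ψ (Sum.inl A)))) β (py i (ψ (Sum.inl A)) v y w)) +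
    ∑ A, ∑ i, ∑ j, (((1 / 2) * h.ss.FF A i j (sp ψ y) : ℝ) : ℂ) •
      S.vec (S.g2 i j) (φ (Sum.inl (ψ (Sum.inl A)))) β (v y w)

lemma sq873_Qss_eq (h : Std2 S φ ψ z₀) (β : Fin 16) {v : Cfg dh → Wsp dm → F} (hv : Tst2 v) :
    Qss h β v = sq873_L h β v := by
  funext y w
  unfold Qss sq873_L Setup.Q Setup.W
  simp only [sq873_py ψ hv, sq873_cmb, Finset.smul_sum, _root_.sum_apply, _root_.smul_apply, smul_smul]
  congr 1
  refine Finset.sum_congr rfl fun A _ => Finset.sum_congr rfl fun i _ => Finset.sum_congr rfl fun j _ => ?_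
  push_cast
  rfl

lemma sq873_contDiff_sp (A : Fin ds) (i j : Fin 9) (h : Std2 S φ ψ z₀) :
    ContDiff ℝ ∞ (fun p : Cfg dh × Wsp dm => (1 / 2) * h.ss.FF A i j (sp ψ p.1)) := by
  refine contDiff_const.mul ((h.ss.contDiff_FF A i j).comp ?_)
  rw [contDiff_euclidean]
  intro q
  exact ((EuclideanSpace.proj (𝕜 := ℝ) (q.1, ψ (Sum.inl q.2))).contDiff).comp contDiff_fst

lemma sq873_Sm_L (hA : AN.CalcA dh dm F) (hB : AN.CalcB dh dm F) (h : Std2 S φ ψ z₀) (β : Fin 16) :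
    AN.Op687.Sm (dh := dh) (dm := dm) (F := F) (sq873_L h β) := by
  refine AN.Op687.sm_add hA hB ?_ ?_
  · exact AN.Op687.sm_sum hA hB _ _ fun i => AN.Op687.sm_sum hA hB _ _ fun A =>
      AN.Op687.sm_der hA hB i _ _ (S.vec_symm _ (S.g_im i) _ _)
  · exact AN.Op687.sm_sum hA hB _ _ fun A => AN.Op687.sm_sum hA hB _ _ fun i => AN.Op687.sm_sum hA hB _ _ fun j =>
      AN.Op687.sm_mul hA (fun y _ => (1 / 2) * h.ss.FF A i j (sp ψ y)) (sq873_contDiff_sp A i j h) _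
        (S.vec_symm _ (S.g2_im i j) _ _)

lemma sq873_Sm_Qss (hA : AN.CalcA dh dm F) (hB : AN.CalcB dh dm F) (h : Std2 S φ ψ z₀) (β : Fin 16) :
    AN.Op687.Sm (dh := dh) (dm := dm) (F := F) (Qss h β) := by
  have h1 := sq873_Sm_L hA hB h β
  refine ⟨fun u hu => ?_, fun u v hu hv => ?_⟩
  · rw [sq873_Qss_eq h β hu]
    exact h1.1 u hu
  · rw [sq873_Qss_eq h β hu, sq873_Qss_eq h β hv]
    exact h1.2 u v hu hv

lemma sq873_Sm_Qh (hA : AN.CalcA dh dm F) (hB : AN.CalcB dh dm F) (β : Fin 16) :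
    AN.Op687.Sm (dh := dh) (dm := dm) (F := F) (S.Qh φ β) := by
  have h1 := AN.Op687.sm_Qhm S φ hA hB (fun _ => 0) (by simp) 0 β
  have h2 : S.Qhm φ (fun _ => 0) 0 β = S.Qh φ β (dm := dm) := by
    funext v y w
    simp [Setup.Qhm]
  rwa [h2] at h1

/-! ### squares -/

lemma sq873_FF_l (h : Std2 S φ ψ z₀) (A : Fin ds) (i j : Fin 9) (y : Cfg dh) :
    (S.sub φ h.std.sub).FF (ψ (Sum.inl A)) i j y = h.ss.FF A i j (sp ψ y) := by
  have c2 : ∀ A B C, S.f (φ (Sum.inl A)) (φ (Sum.inl (ψ (Sum.inr B)))) (φ (Sum.inl C)) = 0 := by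
    intro A B C
    rw [S.f_cyc]
    exact h.cen _ _ _
  have c3 : ∀ A B C, S.f (φ (Sum.inl A)) (φ (Sum.inl B)) (φ (Sum.inl (ψ (Sum.inr C)))) = 0 := by
    intro A B C
    rw [S.f_cyc, S.f_cyc]
    exact h.cen _ _ _
  unfold Setup.FF
  rw [sq873_sum ψ]
  · refine congrArg _ (Finset.sum_congr rfl fun B _ => ?_)
    rw [sq873_sum ψ]
    · rfl
    · intro C
      change S.f _ _ _ * _ * _ = 0
      rw [c3, zero_mul, zero_mul]
  · intro B
    refine Finset.sum_eq_zero fun C _ => ?_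
    change S.f _ _ _ * _ * _ = 0
    rw [c2, zero_mul, zero_mul]

lemma sq873_FF_r (h : Std2 S φ ψ z₀) (A : Fin dz) (i j : Fin 9) (y : Cfg dh) :
    (S.sub φ h.std.sub).FF (ψ (Sum.inr A)) i j y = 0 := by
  unfold Setup.FF
  have h1 : ∀ B C, (S.sub φ h.std.sub).f (ψ (Sum.inr A)) B C = 0 := fun B C => h.cen A B C
  simp [h1]

lemma sq873_V (h : Std2 S φ ψ z₀) (y : Cfg dh) : (S.sub φ h.std.sub).V y = h.ss.V (sp ψ y) := by
  unfold Setup.V
  rw [sq873_sum ψ]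
  · simp only [sq873_FF_l h]
  · intro A
    simp [sq873_FF_r h]

lemma sq873_Fx (h : Std2 S φ ψ z₀) (y : Cfg dh) : (S.sub φ h.std.sub).Fx y = h.ss.Fx (sp ψ y) := by
  have c1 : ∀ A B C, (S.sub φ h.std.sub).f (ψ (Sum.inr A)) B C = 0 := fun A B C => h.cen A B C
  have c2 : ∀ A B C, (S.sub φ h.std.sub).f A (ψ (Sum.inr B)) C = 0 := by
    intro A B C
    rw [(S.sub φ h.std.sub).f_cyc]
    exact c1 _ _ _
  have c3 : ∀ A B C, (S.sub φ h.std.sub).f A B (ψ (Sum.inr C)) = 0 := by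
    intro A B C
    rw [(S.sub φ h.std.sub).f_cyc, (S.sub φ h.std.sub).f_cyc]
    exact c1 _ _ _
  unfold Setup.Fx
  refine congrArg _ (Finset.sum_congr rfl fun q _ => ?_)
  rw [sq873_sum ψ]
  · refine Finset.sum_congr rfl fun A _ => ?_
    rw [sq873_sum ψ]
    · refine Finset.sum_congr rfl fun B _ => ?_
      rw [sq873_sum ψ]
      · rfl
      · intro C
        simp [c3]
    · intro B
      simp [c2]
  · intro A
    simp [c1]

lemma sq873_Qh_eq (h : Std2 S φ ψ z₀) (β : Fin 16) (v : Cfg dh → Wsp dm → F) (y : Cfg dh) (w : Wsp dm) :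
    S.Qh φ β v y w = (S.sub φ h.std.sub).Q β (fun y' => v y' w) y := by
  unfold Setup.Qh Setup.Q Setup.W
  simp only [_root_.sum_apply, _root_.smul_apply]
  rfl

lemma sq873_QhQh (h : Std2 S φ ψ z₀) {v : Cfg dh → Wsp dm → F} (hv : Tst2 v) (y : Cfg dh) (w : Wsp dm) :
    ∑ β, S.Qh φ β (S.Qh φ β v) y w = -((8 : ℂ) • ∑ i, ∑ A, py i A (py i A v) y w) +
      ((16 * h.ss.V (sp ψ y) : ℝ) : ℂ) • v y w + (16 : ℂ) • h.ss.Fx (sp ψ y) (v y w) := by
  have h1 := (S.sub φ h.std.sub).sum_QQ (sq873_sl hv w) y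
  rw [sq873_V h, sq873_Fx h] at h1
  have h2 : ∀ β, S.Qh φ β (S.Qh φ β v) y w =
      (S.sub φ h.std.sub).Q β ((S.sub φ h.std.sub).Q β (fun y' => v y' w)) y := by
    intro β
    rw [sq873_Qh_eq h]
    congr 1
    funext y'
    exact sq873_Qh_eq h β v y' w
  simp only [h2]
  exact h1

lemma sq873_QsQs (h : Std2 S φ ψ z₀) {v : Cfg dh → Wsp dm → F} (hv : Tst2 v) (y : Cfg dh) (w : Wsp dm) :
    ∑ β, Qss h β (Qss h β v) y w = -((8 : ℂ) • ∑ i, ∑ A, py i (ψ (Sum.inl A)) (py i (ψ (Sum.inl A)) v) y w) +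
      ((16 * h.ss.V (sp ψ y) : ℝ) : ℂ) • v y w + (16 : ℂ) • h.ss.Fx (sp ψ y) (v y w) := by
  have hs : ContDiff ℝ ∞ (fun ys => v (cmb ψ ys (zp ψ y)) w) :=
    (sq873_sl hv w).comp (sq873_contDiff ψ (zp ψ y))
  have h1 := h.ss.sum_QQ hs (sp ψ y)
  have h2 : ∀ β, Qss h β (Qss h β v) y w =
      h.ss.Q β (h.ss.Q β (fun ys => v (cmb ψ ys (zp ψ y)) w)) (sp ψ y) := by
    intro β
    unfold Qss
    simp only [sq873_sp, sq873_zp]
  have h3 : ∀ i A, pd i A (pd i A (fun ys => v (cmb ψ ys (zp ψ y)) w)) (sp ψ y) =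
      py i (ψ (Sum.inl A)) (py i (ψ (Sum.inl A)) v) y w := by
    intro i A
    have e : pd i A (fun ys => v (cmb ψ ys (zp ψ y)) w) =
        fun ys => pd i (ψ (Sum.inl A)) (fun y' => v y' w) (cmb ψ ys (zp ψ y)) := by
      funext ys
      exact sq873_pd ψ (u := fun y => v y w) (sq873_sl hv w) i A _ _
    rw [e, sq873_pd ψ (contDiff_pd (sq873_sl hv w)), sq873_cmb]
    rfl
  simp only [h2]
  rw [h1]
  simp only [h3, sq873_cmb]

/-! ### inner products -/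

lemma sq873_ip_self (u : Cfg dh → Wsp dm → F) : ip2 u u = ((ns2 u : ℝ) : ℂ) := by
  unfold ip2 ns2
  rw [← integral_complex_ofReal]
  refine integral_congr_ae (Eventually.of_forall fun p => ?_)
  simp only [inner_self_eq_norm_sq_to_K]
  norm_cast

lemma sq873_sum_ip {κ : Type*} (hA : AN.CalcA dh dm F) (hB : AN.CalcB dh dm F) (t : Finset κ) (u : Cfg dh → Wsp dm → F)
    (v : κ → Cfg dh → Wsp dm → F) (hu : Tst2 u) (hv : ∀ k, Tst2 (v k)) :
    Tst2 (fun y w => ∑ k ∈ t, v k y w) ∧ ip2 u (fun y w => ∑ k ∈ t, v k y w) = ∑ k ∈ t, ip2 u (v k) := by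
  classical
  induction t using Finset.induction_on with
  | empty =>
    refine ⟨by simpa using hA.zero, ?_⟩
    simp [ip2]
  | insert k t hk ih =>
    simp only [Finset.sum_insert hk]
    refine ⟨hA.add _ _ (hv k) ih.1, ?_⟩
    rw [hB.ip_add u (v k) _ hu (hv k) ih.1, ih.2]

/-- **L4** -/
theorem splitQ (S : Setup d F) : SplitQStmt S := by
  intro hAB dh dm ds dz φ ψ z₀ h v hv
  obtain ⟨hA, hB⟩ := hAB dh dm
  have hs := fun β => sq873_Sm_Qss hA hB h β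
  have hq := fun β => sq873_Sm_Qh (S := S) (φ := φ) hA hB β
  refine ⟨fun β => (hs β).1 v hv, ?_⟩
  have tQ : ∀ β, Tst2 (S.Qh φ β (S.Qh φ β v)) := fun β => (hq β).1 _ ((hq β).1 v hv)
  have tS : ∀ β, Tst2 (Qss h β (Qss h β v)) := fun β => (hs β).1 _ ((hs β).1 v hv)
  have tP : ∀ p : Fin 9 × Fin dz, Tst2 (fun y w => (-8 : ℂ) • py p.1 (ψ (Sum.inr p.2)) (py p.1 (ψ (Sum.inr p.2)) v) y w) :=
    fun p => hA.smul _ _ (hA.py _ _ _ (hA.py _ _ _ hv))
  have e1 : ∀ β, ((ns2 (S.Qh φ β v) : ℝ) : ℂ) = ip2 v (S.Qh φ β (S.Qh φ β v)) := by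
    intro β
    rw [← sq873_ip_self, (hq β).2 v _ hv ((hq β).1 v hv)]
  have e2 : ∀ β, ((ns2 (Qss h β v) : ℝ) : ℂ) = ip2 v (Qss h β (Qss h β v)) := by
    intro β
    rw [← sq873_ip_self, (hs β).2 v _ hv ((hs β).1 v hv)]
  have e3 : ∀ p : Fin 9 × Fin dz, ip2 v (fun y w => (-8 : ℂ) • py p.1 (ψ (Sum.inr p.2)) (py p.1 (ψ (Sum.inr p.2)) v) y w) =
      8 * ((ns2 (py p.1 (ψ (Sum.inr p.2)) v) : ℝ) : ℂ) := by
    intro p
    rw [hB.ip_smul, ← sq873_ip_self, hB.ibp_y _ _ v _ hv (hA.py _ _ _ hv)]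
    ring
  have e4 : (fun y w => ∑ β, S.Qh φ β (S.Qh φ β v) y w) = fun y w => (∑ β, Qss h β (Qss h β v) y w) +
      ∑ p : Fin 9 × Fin dz, (-8 : ℂ) • py p.1 (ψ (Sum.inr p.2)) (py p.1 (ψ (Sum.inr p.2)) v) y w := by
    funext y w
    rw [sq873_QhQh h hv, sq873_QsQs h hv, ← Finset.smul_sum, Fintype.sum_prod_type, neg_smul]
    simp only [sq873_split ψ, Finset.sum_add_distrib, smul_add, neg_add]
    abel
  have f1 := sq873_sum_ip hA hB Finset.univ v (fun β => S.Qh φ β (S.Qh φ β v)) hv tQ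
  have f2 := sq873_sum_ip hA hB Finset.univ v (fun β => Qss h β (Qss h β v)) hv tS
  have f3 := sq873_sum_ip hA hB Finset.univ v (fun (p : Fin 9 × Fin dz) y w => (-8 : ℂ) •
    py p.1 (ψ (Sum.inr p.2)) (py p.1 (ψ (Sum.inr p.2)) v) y w) hv tP
  have g : ((∑ β, ns2 (S.Qh φ β v) : ℝ) : ℂ) =
      (((∑ β, ns2 (Qss h β v)) + 8 * ∑ i, ∑ A, ns2 (py i (ψ (Sum.inr A)) v) : ℝ) : ℂ) := by
    push_cast
    simp only [e1, e2]
    rw [← f1.2, e4, hB.ip_add v _ _ hv f2.1 f3.1, f2.2, f3.2]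
    simp only [e3]
    rw [Fintype.sum_prod_type]
    simp only [Finset.mul_sum]
  exact_mod_cast g

end Vale.Agent.P353.Z.AD
end

section

/-! # P353, all `N`, block X2, X2-Fub, part A: splitting of coordinates and of the energy -/

open MeasureTheory Filter Topology Matrix
open scoped ContDiff

namespace Vale.Agent.P353.Z.AX2


variable {d d1 d2 : ℕ} {F : Type*} [NormedAddCommGroup F] [InnerProductSpace ℂ F]

/-- `S1` is the restriction of `S` to the first summand of `ψ` -/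
structure FuS (S : Setup d F) (S1 : Setup d1 F) (ψ : Spl d1 d2 d) : Prop where
  κ : S1.κ = S.κ
  g : S1.g = S.g
  th : ∀ α A, S1.th α A = S.th α (ψ (Sum.inl A))
  f : ∀ A B C, S.f (ψ (Sum.inl A)) (ψ (Sum.inl B)) (ψ (Sum.inl C)) = S1.f A B C
  m1 : ∀ A B C, S.f (ψ (Sum.inl A)) (ψ (Sum.inl B)) (ψ (Sum.inr C)) = 0
  m2 : ∀ A B C, S.f (ψ (Sum.inr A)) (ψ (Sum.inr B)) (ψ (Sum.inl C)) = 0

variable {S : Setup d F} {S1 : Setup d1 F} {S2 : Setup d2 F} {ψ : Spl d1 d2 d}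

lemma FuS.m3 (h : FuS S S1 ψ) (A : Fin d1) (B : Fin d2) (C : Fin d1) :
    S.f (ψ (Sum.inl A)) (ψ (Sum.inr B)) (ψ (Sum.inl C)) = 0 := by
  rw [S.f_cyc, S.f_cyc]
  exact h.m1 _ _ _

lemma FuS.m4 (h : FuS S S1 ψ) (A : Fin d1) (B C : Fin d2) :
    S.f (ψ (Sum.inl A)) (ψ (Sum.inr B)) (ψ (Sum.inr C)) = 0 := by
  rw [S.f_cyc]
  exact h.m2 _ _ _

lemma FuS.m5 (h : FuS S S1 ψ) (A : Fin d1) (B : Fin d2) (C : Fin d) :
    S.f (ψ (Sum.inl A)) (ψ (Sum.inr B)) C = 0 := by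
  obtain ⟨C, rfl⟩ := ψ.surjective C
  rcases C with C | C
  · exact h.m3 A B C
  · exact h.m4 A B C

lemma fu_cmb_sw (ψ : Spl d1 d2 d) (x1 : Cfg d1) (x2 : Cfg d2) : AD.cmb (spsw ψ) x2 x1 = AD.cmb ψ x1 x2 := by
  refine AD.cmb_ext ψ (fun i A => ?_) (fun i B => ?_)
  · exact (AD.cmb_inr (spsw ψ) x2 x1 i A).trans (AD.cmb_inl ψ x1 x2 i A).symm
  · exact (AD.cmb_inl (spsw ψ) x2 x1 i B).trans (AD.cmb_inr ψ x1 x2 i B).symm

lemma fu_sp_sw (ψ : Spl d1 d2 d) (x : Cfg d) : AD.sp (spsw ψ) x = AD.zp ψ x := rfl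

lemma fu_zp_sw (ψ : Spl d1 d2 d) (x : Cfg d) : AD.zp (spsw ψ) x = AD.sp ψ x := rfl

lemma fu_FF (h : FuS S S1 ψ) (A : Fin d1) (i j : Fin 9) (x1 : Cfg d1) (x2 : Cfg d2) :
    S.FF (ψ (Sum.inl A)) i j (AD.cmb ψ x1 x2) = S1.FF A i j x1 := by
  unfold Setup.FF
  rw [h.κ, AD.sq873_sum ψ]
  · refine congrArg _ (Finset.sum_congr rfl fun B _ => ?_)
    rw [AD.sq873_sum ψ]
    · refine Finset.sum_congr rfl fun C _ => ?_
      rw [h.f, AD.cmb_inl, AD.cmb_inl]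
    · intro C
      rw [h.m1, zero_mul, zero_mul]
  · intro B
    refine Finset.sum_eq_zero fun C _ => ?_
    rw [h.m5, zero_mul, zero_mul]

lemma fu_FF' (h : FuS S S2 (spsw ψ)) (A : Fin d2) (i j : Fin 9) (x1 : Cfg d1) (x2 : Cfg d2) :
    S.FF (ψ (Sum.inr A)) i j (AD.cmb ψ x1 x2) = S2.FF A i j x2 := by
  rw [← fu_cmb_sw ψ x1 x2]
  exact fu_FF h A i j x2 x1

lemma fu_V (h1 : FuS S S1 ψ) (h2 : FuS S S2 (spsw ψ)) (x1 : Cfg d1) (x2 : Cfg d2) :
    S.V (AD.cmb ψ x1 x2) = S1.V x1 + S2.V x2 := by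
  unfold Setup.V
  rw [AD.sq873_split ψ, mul_add]
  simp only [fu_FF h1, fu_FF' h2]

lemma fu_vec (h : FuS S S1 ψ) (N : Matrix (Fin 16) (Fin 16) ℂ) (A : Fin d1) (β : Fin 16) :
    S1.vec N A β = S.vec N (ψ (Sum.inl A)) β := by
  unfold CS.vec
  simp only [h.th]

lemma fu_bil (h : FuS S S1 ψ) (N : Matrix (Fin 16) (Fin 16) ℂ) (A B : Fin d1) :
    S1.bil N A B = S.bil N (ψ (Sum.inl A)) (ψ (Sum.inl B)) := by
  unfold CS.bil
  simp only [h.th, fu_vec h]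

lemma fu_FxA (h : FuS S S1 ψ) (q : Fin 9) (A : Fin d1) (x1 : Cfg d1) (x2 : Cfg d2) :
    (∑ B, ∑ C, ((S.f (ψ (Sum.inl A)) B C : ℂ) * (AD.cmb ψ x1 x2 (q, C) : ℂ)) • S.bil (S.g q) (ψ (Sum.inl A)) B) =
      ∑ B, ∑ C, ((S1.f A B C : ℂ) * (x1 (q, C) : ℂ)) • S1.bil (S1.g q) A B := by
  rw [AD.sq873_sum ψ]
  · refine Finset.sum_congr rfl fun B _ => ?_
    rw [AD.sq873_sum ψ]
    · refine Finset.sum_congr rfl fun C _ => ?_
      rw [h.f, AD.cmb_inl, fu_bil h, h.g]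
    · intro C
      rw [h.m1, Complex.ofReal_zero, zero_mul, zero_smul]
  · intro B
    refine Finset.sum_eq_zero fun C _ => ?_
    rw [h.m5, Complex.ofReal_zero, zero_mul, zero_smul]

lemma fu_Fx (h1 : FuS S S1 ψ) (h2 : FuS S S2 (spsw ψ)) (x1 : Cfg d1) (x2 : Cfg d2) :
    S.Fx (AD.cmb ψ x1 x2) = S1.Fx x1 + S2.Fx x2 := by
  have e2 : ∀ (q : Fin 9) (A : Fin d2),
      (∑ B, ∑ C, ((S.f (ψ (Sum.inr A)) B C : ℂ) * (AD.cmb ψ x1 x2 (q, C) : ℂ)) • S.bil (S.g q) (ψ (Sum.inr A)) B) =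
      ∑ B, ∑ C, ((S2.f A B C : ℂ) * (x2 (q, C) : ℂ)) • S2.bil (S2.g q) A B := by
    intro q A
    rw [← fu_cmb_sw ψ x1 x2]
    exact fu_FxA h2 q A x2 x1
  unfold Setup.Fx
  rw [h1.κ, h2.κ, ← smul_add, ← Finset.sum_add_distrib]
  congr 1
  refine Finset.sum_congr rfl fun q _ => ?_
  rw [AD.sq873_split ψ]
  simp only [fu_FxA h1, e2]

lemma fu_cS (h : FuS S S1 ψ) (C : Fin d1) : S.cS (ψ (Sum.inl C)) = S1.cS C := by
  unfold Setup.cS
  congr 1
  rw [AD.sq873_sum ψ]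
  · refine Finset.sum_congr rfl fun B _ => ?_
    rw [AD.sq873_sum ψ]
    · refine Finset.sum_congr rfl fun D _ => ?_
      rw [h.f, fu_bil h]
    · intro D
      rw [h.m1, Complex.ofReal_zero, zero_smul]
  · intro B
    refine Finset.sum_eq_zero fun D _ => ?_
    rw [h.m5, Complex.ofReal_zero, zero_smul]

lemma fu_G (h : FuS S S1 ψ) (C : Fin d1) {u : Cfg d → F} (hu : ContDiff ℝ ∞ u) (x1 : Cfg d1) (x2 : Cfg d2) :
    S.G (ψ (Sum.inl C)) u (AD.cmb ψ x1 x2) = S1.G C (fun y => u (AD.cmb ψ y x2)) x1 := by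
  unfold Setup.G
  rw [fu_cS h]
  congr 2
  refine Finset.sum_congr rfl fun i _ => ?_
  rw [AD.sq873_sum ψ]
  · refine Finset.sum_congr rfl fun A _ => ?_
    rw [AD.sq873_sum ψ]
    · refine Finset.sum_congr rfl fun B _ => ?_
      rw [h.f, AD.cmb_inl, AD.sq873_pd ψ hu]
    · intro B
      rw [h.m1, Complex.ofReal_zero, zero_mul, zero_smul]
  · intro A
    refine Finset.sum_eq_zero fun B _ => ?_
    rw [h.m5, Complex.ofReal_zero, zero_mul, zero_smul]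

lemma fu_G' (h : FuS S S2 (spsw ψ)) (C : Fin d2) {u : Cfg d → F} (hu : ContDiff ℝ ∞ u) (x1 : Cfg d1)
    (x2 : Cfg d2) : S.G (ψ (Sum.inr C)) u (AD.cmb ψ x1 x2) = S2.G C (fun y => u (AD.cmb ψ x1 y)) x2 := by
  have h1 := fu_G h C hu x2 x1
  simp only [fu_cmb_sw] at h1
  exact h1

/-! ### product integrals -/

/-- the coordinates as a continuous linear map -/
noncomputable def fuE (ψ : Spl d1 d2 d) : Cfg d1 × Cfg d2 →L[ℝ] Cfg d :=
  (AD.sq873_inc ψ).coprod (AD.sq873_inc (spsw ψ))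

lemma fuE_apply (ψ : Spl d1 d2 d) (p : Cfg d1 × Cfg d2) : fuE ψ p = AD.cmb ψ p.1 p.2 := by
  rw [AD.sq873_cmb_eq ψ p.2 p.1, ← fu_cmb_sw ψ 0 p.2]
  rfl

lemma fu_contDiff (ψ : Spl d1 d2 d) : ContDiff ℝ ∞ (fun p : Cfg d1 × Cfg d2 => AD.cmb ψ p.1 p.2) := by
  have : (fun p : Cfg d1 × Cfg d2 => AD.cmb ψ p.1 p.2) = fuE ψ := funext fun p => (fuE_apply ψ p).symm
  rw [this]
  exact (fuE ψ).contDiff

lemma fu_continuous (ψ : Spl d1 d2 d) : Continuous (fun p : Cfg d1 × Cfg d2 => AD.cmb ψ p.1 p.2) :=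
  (fu_contDiff ψ).continuous

lemma fu_inj (ψ : Spl d1 d2 d) : Function.Injective (fun p : Cfg d1 × Cfg d2 => AD.cmb ψ p.1 p.2) := by
  intro p q h
  have h1 : AD.sp ψ (AD.cmb ψ p.1 p.2) = AD.sp ψ (AD.cmb ψ q.1 q.2) := congrArg (AD.sp ψ) h
  have h2 : AD.zp ψ (AD.cmb ψ p.1 p.2) = AD.zp ψ (AD.cmb ψ q.1 q.2) := congrArg (AD.zp ψ) h
  rw [AD.sq873_sp, AD.sq873_sp] at h1
  rw [AD.sq873_zp, AD.sq873_zp] at h2
  exact Prod.ext h1 h2

lemma fu_me (ψ : Spl d1 d2 d) : MeasurableEmbedding (fun p : Cfg d1 × Cfg d2 => AD.cmb ψ p.1 p.2) :=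
  (fu_continuous ψ).measurableEmbedding (fu_inj ψ)

section int

variable {G : Type*} [NormedAddCommGroup G]

lemma fu_intg (ψ : Spl d1 d2 d) {h : Cfg d → G} (hh : Integrable h) :
    Integrable (fun p : Cfg d1 × Cfg d2 => h (AD.cmb ψ p.1 p.2)) (volume.prod volume) :=
  ((AD.cmb_mp ψ).integrable_comp_emb (fu_me ψ)).2 hh

variable [NormedSpace ℝ G]

lemma fu_int1 (ψ : Spl d1 d2 d) {h : Cfg d → G} (hh : Integrable h) :
    ∫ x, h x = ∫ x2, ∫ x1, h (AD.cmb ψ x1 x2) := by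
  rw [← (AD.cmb_mp ψ).integral_comp (fu_me ψ), integral_prod_symm _ (fu_intg ψ hh)]

lemma fu_intr (ψ : Spl d1 d2 d) {h : Cfg d → G} (hh : Integrable h) :
    Integrable (fun x2 => ∫ x1, h (AD.cmb ψ x1 x2)) := (fu_intg ψ hh).integral_prod_right

end int

/-! ### the supercharge of the first summand -/

/-- the supercharge of the first summand on functions on `Cfg d` -/
noncomputable def fuQ (S1 : Setup d1 F) (ψ : Spl d1 d2 d) (β : Fin 16) (u : Cfg d → F) (x : Cfg d) : F :=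
  S1.Q β (fun y => u (AD.cmb ψ y (AD.zp ψ x))) (AD.sp ψ x)

lemma fuQ_cmb (S1 : Setup d1 F) (ψ : Spl d1 d2 d) (β : Fin 16) (u : Cfg d → F) (x1 : Cfg d1) (x2 : Cfg d2) :
    fuQ S1 ψ β u (AD.cmb ψ x1 x2) = S1.Q β (fun y => u (AD.cmb ψ y x2)) x1 := by
  unfold fuQ
  rw [AD.sq873_sp, AD.sq873_zp]

lemma fuQ_eq (S1 : Setup d1 F) (ψ : Spl d1 d2 d) (β : Fin 16) {u : Cfg d → F} (hu : ContDiff ℝ ∞ u) (x : Cfg d) :
    fuQ S1 ψ β u x = (-Complex.I) • ∑ i, ∑ A, S1.vec (S1.g i) A β (pd i (ψ (Sum.inl A)) u x) +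
      S1.W β (AD.sp ψ x) (u x) := by
  unfold fuQ Setup.Q
  simp only [AD.sq873_pd ψ hu, AD.sq873_cmb]

lemma fu_contDiff_sp (ψ : Spl d1 d2 d) : ContDiff ℝ ∞ (AD.sp ψ : Cfg d → Cfg d1) := by
  rw [contDiff_euclidean]
  intro p
  exact Setup.contDiff_coord (p.1, ψ (Sum.inl p.2))

lemma fuQ_tst (S1 : Setup d1 F) (ψ : Spl d1 d2 d) (β : Fin 16) {u : Cfg d → F} (hu : Setup.Tst u) :
    Setup.Tst (fuQ S1 ψ β u) := by
  have h1 : fuQ S1 ψ β u = fun x => (-Complex.I) • ∑ i, ∑ A, S1.vec (S1.g i) A β (pd i (ψ (Sum.inl A)) u x) +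
      S1.W β (AD.sp ψ x) (u x) := funext fun x => fuQ_eq S1 ψ β hu.1 x
  constructor
  · rw [h1]
    refine ContDiff.add (ContDiff.const_smul _ (ContDiff.sum fun i _ => ContDiff.sum fun A _ => ?_)) ?_
    · exact Setup.contDiff_clm_apply' contDiff_const (contDiff_pd hu.1)
    · exact Setup.contDiff_clm_apply' ((S1.contDiff_W β).comp (fu_contDiff_sp ψ)) hu.1
  · refine HasCompactSupport.intro' hu.2.isCompact (isClosed_tsupport u) fun x hx => ?_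
    have hp0 : fderiv ℝ u x = 0 := by
      by_contra h
      exact hx (support_fderiv_subset ℝ h)
    have hp : ∀ i A, pd i A u x = 0 := by
      intro i A
      unfold pd
      rw [hp0]
      rfl
    rw [h1]
    simp only [hp, map_zero, Finset.sum_const_zero, smul_zero, zero_add]
    rw [image_eq_zero_of_notMem_tsupport hx, map_zero]

/-! ### slices -/

lemma fu_sl (ψ : Spl d1 d2 d) {u : Cfg d → F} (hu : Setup.Tst u) (x2 : Cfg d2) :
    Setup.Tst (fun y : Cfg d1 => u (AD.cmb ψ y x2)) := by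
  refine ⟨hu.1.comp (AD.sq873_contDiff ψ x2), ?_⟩
  refine HasCompactSupport.intro (K := AD.sp ψ '' tsupport u)
    (hu.2.isCompact.image (fu_contDiff_sp (d1 := d1) (d2 := d2) ψ).continuous) fun y hy => ?_
  refine image_eq_zero_of_notMem_tsupport fun h => hy ⟨_, h, ?_⟩
  rw [AD.sq873_sp]

lemma fu_sl' (ψ : Spl d1 d2 d) {u : Cfg d → F} (hu : Setup.Tst u) (x1 : Cfg d1) :
    Setup.Tst (fun y : Cfg d2 => u (AD.cmb ψ x1 y)) := by
  have h := fu_sl (spsw ψ) hu x1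
  simp only [fu_cmb_sw] at h
  exact h

/-! ### the energy -/

/-- one half of the energy -/
lemma fu_half (S1 : Setup d1 F) (ψ : Spl d1 d2 d) {u : Cfg d → F} (hu : Setup.Tst u) :
    (1 / 16 : ℝ) * ∑ β, ∫ x, ‖fuQ S1 ψ β u x‖ ^ 2 =
      (1 / 2) * (∑ i, ∑ A, ∫ x, ‖pd i (ψ (Sum.inl A)) u x‖ ^ 2) + (∫ x, S1.V (AD.sp ψ x) * ‖u x‖ ^ 2)
        + (∫ x, (inner ℂ (u x) (S1.Fx (AD.sp ψ x) (u x))).re) := by
  have hsp := fu_contDiff_sp (d1 := d1) (d2 := d2) ψ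
  have i1 : ∀ β, Integrable (fun x => ‖fuQ S1 ψ β u x‖ ^ 2) := fun β => (fuQ_tst S1 ψ β hu).norm_sq_int
  have i2 : ∀ i A, Integrable (fun x => ‖pd i (ψ (Sum.inl A)) u x‖ ^ 2) := fun i A =>
    (hu.pd i _).norm_sq_int
  have i3 : Integrable (fun x => S1.V (AD.sp ψ x) * ‖u x‖ ^ 2) :=
    hu.mul_norm_sq_int ((contDiff_V S1).comp hsp).continuous
  have hF : Setup.Tst (fun x => S1.Fx (AD.sp ψ x) (u x)) := hu.clm ((contDiff_Fx S1).comp hsp)
  have i4 : Integrable (fun x => (inner ℂ (u x) (S1.Fx (AD.sp ψ x) (u x))).re) :=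
    (hu.inner_int hF.1.continuous).re
  have e : ∀ x2 : Cfg d2, (1 / 16 : ℝ) * ∑ β, ∫ x1, ‖fuQ S1 ψ β u (AD.cmb ψ x1 x2)‖ ^ 2 =
      (1 / 2) * (∑ i, ∑ A, ∫ x1, ‖pd i (ψ (Sum.inl A)) u (AD.cmb ψ x1 x2)‖ ^ 2) +
        (∫ x1, S1.V (AD.sp ψ (AD.cmb ψ x1 x2)) * ‖u (AD.cmb ψ x1 x2)‖ ^ 2) +
        (∫ x1, (inner ℂ (u (AD.cmb ψ x1 x2)) (S1.Fx (AD.sp ψ (AD.cmb ψ x1 x2)) (u (AD.cmb ψ x1 x2)))).re) := by
    intro x2
    have := energy_formula S1 _ (fu_sl ψ hu x2)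
    simp only [fuQ_cmb, AD.sq873_sp]
    rw [this]
    simp only [AD.sq873_pd ψ hu.1]
  rw [fu_int1 ψ i3, fu_int1 ψ i4]
  have e1 : ∀ β, ∫ x, ‖fuQ S1 ψ β u x‖ ^ 2 = ∫ x2, ∫ x1, ‖fuQ S1 ψ β u (AD.cmb ψ x1 x2)‖ ^ 2 :=
    fun β => fu_int1 ψ (i1 β)
  have e2 : ∀ i A, ∫ x, ‖pd i (ψ (Sum.inl A)) u x‖ ^ 2 =
      ∫ x2, ∫ x1, ‖pd i (ψ (Sum.inl A)) u (AD.cmb ψ x1 x2)‖ ^ 2 := fun i A => fu_int1 ψ (i2 i A)
  simp only [e1, e2]
  have j2 : ∀ i : Fin 9, Integrable (fun x2 : Cfg d2 => ∑ A, ∫ x1, ‖pd i (ψ (Sum.inl A)) u (AD.cmb ψ x1 x2)‖ ^ 2) :=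
    fun i => integrable_finsetSum _ fun A _ => fu_intr ψ (i2 i A)
  rw [← integral_finsetSum _ fun β _ => fu_intr ψ (i1 β), ← integral_const_mul]
  simp only [← integral_finsetSum _ fun A _ => fu_intr ψ (i2 _ A)]
  rw [← integral_finsetSum _ fun i _ => j2 i, ← integral_const_mul, ← integral_add, ← integral_add]
  · exact integral_congr_ae (Eventually.of_forall e)
  · exact ((integrable_finsetSum _ fun i _ => j2 i).const_mul _).add (fu_intr ψ i3)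
  · exact fu_intr ψ i4
  · exact (integrable_finsetSum _ fun i _ => j2 i).const_mul _
  · exact fu_intr ψ i3

/-- the energy splits -/
theorem fu_energy (h1 : FuS S S1 ψ) (h2 : FuS S S2 (spsw ψ)) {u : Cfg d → F} (hu : Setup.Tst u) :
    ∑ β, ∫ x, ‖S.Q β u x‖ ^ 2 =
      (∑ β, ∫ x, ‖fuQ S1 ψ β u x‖ ^ 2) + ∑ β, ∫ x, ‖fuQ S2 (spsw ψ) β u x‖ ^ 2 := by
  have a := energy_formula S u hu
  have b := fu_half S1 ψ hu
  have c := fu_half S2 (spsw ψ) hu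
  have hsp := fu_contDiff_sp (d1 := d1) (d2 := d2) ψ
  have hzp := fu_contDiff_sp (d1 := d2) (d2 := d1) (spsw ψ)
  have e1 : ∑ i, ∑ A, ∫ x, ‖pd i A u x‖ ^ 2 = (∑ i, ∑ A, ∫ x, ‖pd i (ψ (Sum.inl A)) u x‖ ^ 2) +
      ∑ i, ∑ A, ∫ x, ‖pd i (spsw ψ (Sum.inl A)) u x‖ ^ 2 := by
    rw [← Finset.sum_add_distrib]
    refine Finset.sum_congr rfl fun i _ => ?_
    rw [AD.sq873_split ψ]
    rfl
  have hx : ∀ x : Cfg d, x = AD.cmb ψ (AD.sp ψ x) (AD.zp ψ x) := fun x => (AD.sq873_cmb ψ x).symm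
  have eV : ∀ x : Cfg d, S.V x = S1.V (AD.sp ψ x) + S2.V (AD.sp (spsw ψ) x) := by
    intro x
    conv_lhs => rw [hx x]
    exact fu_V h1 h2 _ _
  have eF : ∀ x : Cfg d, S.Fx x = S1.Fx (AD.sp ψ x) + S2.Fx (AD.sp (spsw ψ) x) := by
    intro x
    conv_lhs => rw [hx x]
    exact fu_Fx h1 h2 _ _
  have e2 : ∫ x, S.V x * ‖u x‖ ^ 2 = (∫ x, S1.V (AD.sp ψ x) * ‖u x‖ ^ 2) +
      ∫ x, S2.V (AD.sp (spsw ψ) x) * ‖u x‖ ^ 2 := by
    have q1 : Integrable (fun x => S1.V (AD.sp ψ x) * ‖u x‖ ^ 2) :=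
      hu.mul_norm_sq_int ((contDiff_V S1).comp hsp).continuous
    have q2 : Integrable (fun x => S2.V (AD.sp (spsw ψ) x) * ‖u x‖ ^ 2) :=
      hu.mul_norm_sq_int ((contDiff_V S2).comp hzp).continuous
    rw [← integral_add q1 q2]
    refine integral_congr_ae (Eventually.of_forall fun x => ?_)
    simp only [eV, add_mul]
  have hF1 : Setup.Tst (fun x => S1.Fx (AD.sp ψ x) (u x)) := hu.clm ((contDiff_Fx S1).comp hsp)
  have hF2 : Setup.Tst (fun x => S2.Fx (AD.sp (spsw ψ) x) (u x)) := hu.clm ((contDiff_Fx S2).comp hzp)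
  have e3 : ∫ x, (inner ℂ (u x) (S.Fx x (u x))).re = (∫ x, (inner ℂ (u x) (S1.Fx (AD.sp ψ x) (u x))).re) +
      ∫ x, (inner ℂ (u x) (S2.Fx (AD.sp (spsw ψ) x) (u x))).re := by
    have q1 : Integrable (fun x => (inner ℂ (u x) (S1.Fx (AD.sp ψ x) (u x))).re) :=
      (hu.inner_int hF1.1.continuous).re
    have q2 : Integrable (fun x => (inner ℂ (u x) (S2.Fx (AD.sp (spsw ψ) x) (u x))).re) :=
      (hu.inner_int hF2.1.continuous).re
    rw [← integral_add q1 q2]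
    refine integral_congr_ae (Eventually.of_forall fun x => ?_)
    simp only [eF, _root_.add_apply, inner_add_right, Complex.add_re]
  rw [e1, e2, e3] at a
  linarith

end Vale.Agent.P353.Z.AX2
end

section

/-! # P353, all `N`, block X2, X2-Fub, part C: slices of zero modes of a direct sum -/

open MeasureTheory Filter Topology Matrix
open scoped ContDiff

namespace Vale.Agent.P353.Z.AX2

variable {d d1 d2 : ℕ} {F : Type*} [NormedAddCommGroup F] [InnerProductSpace ℂ F]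
variable {S : Setup d F} {S1 : Setup d1 F} {S2 : Setup d2 F} {ψ : Spl d1 d2 d}

/-- a nonnegative sequence with integrals tending to zero has a subsequence tending to zero a.e. -/
theorem fc775_sub {α : Type*} [MeasurableSpace α] {μ : Measure α} (f : ℕ → α → ℝ) (h0 : ∀ n x, 0 ≤ f n x)
    (hi : ∀ n, Integrable (f n) μ) (hl : Tendsto (fun n => ∫ x, f n x ∂μ) atTop (𝓝 0)) :
    ∃ l : ℕ → ℕ, StrictMono l ∧ ∀ᵐ x ∂μ, Tendsto (fun n => f (l n) x) atTop (𝓝 0) := by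
  have h1 : TendstoInMeasure μ f atTop (fun _ => (0 : ℝ)) := by
    refine tendstoInMeasure_of_tendsto_eLpNorm (p := 1) one_ne_zero (fun n => (hi n).1) aestronglyMeasurable_const ?_
    have h2 : ∀ n, eLpNorm (f n - fun _ => (0 : ℝ)) 1 μ = ENNReal.ofReal (∫ x, f n x ∂μ) := by
      intro n
      rw [eLpNorm_one_eq_lintegral_enorm, ofReal_integral_eq_lintegral_ofReal (hi n) (ae_of_all _ (h0 n))]
      refine lintegral_congr fun x => ?_
      rw [Pi.sub_apply, sub_zero, Real.enorm_of_nonneg (h0 n x)]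
    simp only [h2]
    have h3 := (ENNReal.continuous_ofReal.tendsto 0).comp hl
    rwa [ENNReal.ofReal_zero] at h3
  exact h1.exists_seq_tendsto_ae

theorem fu_slice (h1 : FuS S S1 ψ) (h2 : FuS S S2 (spsw ψ)) {Ψ : Lp F 2 (volume : Measure (Cfg d))}
    {u : ℕ → Cfg d → F} (hu : S.Apx Ψ u) (g : ℕ → Cfg d2 → ℝ) (hg0 : ∀ n x, 0 ≤ g n x) (hgi : ∀ n, Integrable (g n))
    (hg : Tendsto (fun n => ∫ x, g n x) atTop (𝓝 0)) :
    ∃ l : ℕ → ℕ, StrictMono l ∧ ∀ᵐ x2 : Cfg d2, ∃ hm : MemLp (fun x1 : Cfg d1 => Ψ (AD.cmb ψ x1 x2)) 2 volume,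
      S1.IsZM (hm.toLp _) ∧
      Tendsto (fun n => ∫ x1 : Cfg d1, ‖u (l n) (AD.cmb ψ x1 x2) - Ψ (AD.cmb ψ x1 x2)‖ ^ 2) atTop (𝓝 0) ∧
      Tendsto (fun n => g (l n) x2) atTop (𝓝 0) := by
  obtain ⟨hT, hG, hL, hQ⟩ := hu
  -- the three parts
  have iA : ∀ n, Integrable (fun x => ‖u n x - Ψ x‖ ^ 2) := by
    intro n
    have m1 : MemLp (u n) 2 (volume : Measure (Cfg d)) := (hT n).1.continuous.memLp_of_hasCompactSupport (hT n).2
    have m2 : MemLp (fun x => u n x - Ψ x) 2 (volume : Measure (Cfg d)) := m1.sub (Lp.memLp Ψ)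
    exact m2.integrable_norm_pow (by norm_num)
  have iB : ∀ n β, Integrable (fun x => ‖fuQ S1 ψ β (u n) x‖ ^ 2) := fun n β => (fuQ_tst S1 ψ β (hT n)).norm_sq_int
  obtain ⟨a, ha⟩ : ∃ a : ℕ → Cfg d2 → ℝ, a = fun n x2 => ∫ x1, ‖u n (AD.cmb ψ x1 x2) - Ψ (AD.cmb ψ x1 x2)‖ ^ 2 := ⟨_, rfl⟩
  obtain ⟨b, hb⟩ : ∃ b : ℕ → Cfg d2 → ℝ, b = fun n x2 => ∑ β, ∫ x1, ‖fuQ S1 ψ β (u n) (AD.cmb ψ x1 x2)‖ ^ 2 := ⟨_, rfl⟩
  have a0 : ∀ n x, 0 ≤ a n x := by
    intro n x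
    rw [ha]
    exact integral_nonneg fun _ => by positivity
  have b0 : ∀ n x, 0 ≤ b n x := by
    intro n x
    rw [hb]
    exact Finset.sum_nonneg fun β _ => integral_nonneg fun _ => by positivity
  have ai : ∀ n, Integrable (a n) := by
    intro n
    rw [ha]
    exact fu_intr ψ (iA n)
  have bi : ∀ n, Integrable (b n) := by
    intro n
    rw [hb]
    exact integrable_finsetSum _ fun β _ => fu_intr ψ (iB n β)
  have al : Tendsto (fun n => ∫ x, a n x) atTop (𝓝 0) := by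
    have : ∀ n, ∫ x, a n x = ∫ x, ‖u n x - Ψ x‖ ^ 2 := by
      intro n
      rw [ha, fu_int1 ψ (iA n)]
    simp only [this]
    exact hL
  have bl : Tendsto (fun n => ∫ x, b n x) atTop (𝓝 0) := by
    have e1 : ∀ n, ∫ x, b n x = ∑ β, ∫ x, ‖fuQ S1 ψ β (u n) x‖ ^ 2 := by
      intro n
      rw [hb]
      simp only
      rw [integral_finsetSum _ fun β _ => fu_intr ψ (iB n β)]
      exact Finset.sum_congr rfl fun β _ => (fu_int1 ψ (iB n β)).symm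
    have e2 : ∀ n, ∫ x, b n x ≤ ∑ β, ∫ x, ‖S.Q β (u n) x‖ ^ 2 := by
      intro n
      rw [e1, fu_energy h1 h2 (hT n)]
      have : 0 ≤ ∑ β, ∫ x, ‖fuQ S2 (spsw ψ) β (u n) x‖ ^ 2 :=
        Finset.sum_nonneg fun β _ => integral_nonneg fun _ => by positivity
      linarith
    have e3 : Tendsto (fun n => ∑ β, ∫ x, ‖S.Q β (u n) x‖ ^ 2) atTop (𝓝 0) := by
      have := tendsto_finsetSum (Finset.univ : Finset (Fin 16)) fun β _ => hQ β
      simpa using this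
    exact squeeze_zero (fun n => integral_nonneg (b0 n)) e2 e3
  obtain ⟨l, hl, hae⟩ := fc775_sub (fun n x => a n x + b n x + g n x)
    (fun n x => add_nonneg (add_nonneg (a0 n x) (b0 n x)) (hg0 n x)) (fun n => ((ai n).add (bi n)).add (hgi n)) (by
      have e1 : ∀ n, ∫ x, (a n x + b n x + g n x) = (∫ x, a n x) + (∫ x, b n x) + ∫ x, g n x := by
        intro n
        have k1 : Integrable (fun x => a n x + b n x) := (ai n).add (bi n)
        rw [integral_add k1 (hgi n), integral_add (ai n) (bi n)]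
      simp only [e1]
      simpa using (al.add bl).add hg)
  refine ⟨l, hl, ?_⟩
  have iΨ : Integrable (fun x => ‖Ψ x‖ ^ 2) := (Lp.memLp Ψ).integrable_norm_pow (by norm_num)
  have hs := (fu_intg ψ iΨ).prod_left_ae
  filter_upwards [hae, hs] with x2 hx2 hs2
  have hsm : StronglyMeasurable (fun x1 : Cfg d1 => Ψ (AD.cmb ψ x1 x2)) :=
    (Lp.stronglyMeasurable Ψ).comp_measurable (AD.sq873_contDiff ψ x2).continuous.measurable
  have hm : MemLp (fun x1 : Cfg d1 => Ψ (AD.cmb ψ x1 x2)) 2 volume :=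
    (memLp_two_iff_integrable_sq_norm hsm.aestronglyMeasurable).2 hs2
  have ta : Tendsto (fun n => a (l n) x2) atTop (𝓝 0) :=
    squeeze_zero (fun n => a0 _ _) (fun n => by
      have := b0 (l n) x2
      have := hg0 (l n) x2
      linarith) hx2
  have tb : Tendsto (fun n => b (l n) x2) atTop (𝓝 0) :=
    squeeze_zero (fun n => b0 _ _) (fun n => by
      have := a0 (l n) x2
      have := hg0 (l n) x2
      linarith) hx2
  have tg : Tendsto (fun n => g (l n) x2) atTop (𝓝 0) :=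
    squeeze_zero (fun n => hg0 _ _) (fun n => by
      have := a0 (l n) x2
      have := b0 (l n) x2
      linarith) hx2
  rw [ha] at ta
  refine ⟨hm, ⟨fun n y => u (l n) (AD.cmb ψ y x2), fun n => fu_sl ψ (hT (l n)) x2, fun n C x => ?_, ?_, fun β => ?_⟩,
    ta, tg⟩
  · rw [← fu_G h1 C (hT (l n)).1]
    exact hG _ _ _
  · refine ta.congr fun n => integral_congr_ae ?_
    filter_upwards [hm.coeFn_toLp] with x hx
    rw [hx]
  · refine squeeze_zero (fun n => integral_nonneg fun _ => by positivity) (fun n => ?_) tb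
    rw [hb]
    simp only [fuQ_cmb]
    exact Finset.single_le_sum (f := fun β => ∫ x1, ‖S1.Q β (fun y => u (l n) (AD.cmb ψ y x2)) x1‖ ^ 2)
      (fun β _ => integral_nonneg fun _ => by positivity) (Finset.mem_univ β)

end Vale.Agent.P353.Z.AX2
end

section

/-! # P353, all `N`, block E: the remainder `Q^r` as a linear expression in `D_8⁻¹` (for E-DecR) -/

open MeasureTheory Filter Topology Matrix
open scoped ContDiff

namespace Vale.Agent.P353.Z.AE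

variable {d dh dm r ds : ℕ} {F : Type*} [NormedAddCommGroup F] [InnerProductSpace ℂ F]

/-- bound for finitely many real numbers -/
lemma dr7_bd {ι : Type*} [Fintype ι] (f : ι → ℝ) : ∃ K : ℝ, 0 ≤ K ∧ ∀ i, f i ≤ K :=
  ⟨∑ i, |f i|, Finset.sum_nonneg fun _ _ => abs_nonneg _, fun i => (le_abs_self _).trans
    (Finset.single_le_sum (f := fun i => |f i|) (fun _ _ => abs_nonneg _) (Finset.mem_univ i))⟩

lemma dr7_wt_le (w : Wsp dm) (i : Fin 9) (B : Fin dm) : |wt w i B| ≤ ‖w‖ := by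
  unfold wt
  refine Fin.lastCases (motive := fun i => |Fin.lastCases (motive := fun _ => ℝ) 0 (fun j => w (j, B)) i| ≤ ‖w‖)
    ?_ (fun j => ?_) i
  · rw [Fin.lastCases_last]
    simp
  · rw [Fin.lastCases_castSucc]
    simpa [Real.norm_eq_abs] using PiLp.norm_apply_le w (j, B)

lemma dr7_w_le (w : Wsp dm) (q : Fin 8 × Fin dm) : |w q| ≤ ‖w‖ := by
  simpa [Real.norm_eq_abs] using PiLp.norm_apply_le w q

variable (S : Setup d F) (φ : Spl dh dm d)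

/-- inner part of the terms with `D_8⁻¹` -/
noncomputable def drI (C : Fin dm) (p : Fin 8 → Fin dh → F) (q : Fin 8 → Fin dm → F) (u : F) (w : Wsp dm) : F :=
  (∑ j : Fin 8, ∑ E, ∑ A, ((S.f (φ (Sum.inr C)) (φ (Sum.inr E)) (φ (Sum.inl A)) * w (j, E) : ℝ) : ℂ) • p j A) +
    (∑ j : Fin 8, ∑ E, ∑ G, ((S.f (φ (Sum.inr C)) (φ (Sum.inr E)) (φ (Sum.inr G)) * w (j, E) : ℝ) : ℂ) • q j G) +
    Complex.I • S.cS (φ (Sum.inr C)) u

/-- terms of `Q^r` with `D_8⁻¹ = G`; `p`, `q` stand for `∂_y v`, `∂_w v` -/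
noncomputable def drL (β : Fin 16) (G : Matrix (Fin dm) (Fin dm) ℝ) (p : Fin 8 → Fin dh → F) (q : Fin 8 → Fin dm → F)
    (u : F) (w : Wsp dm) : F :=
  Complex.I • (∑ B, S.vec (S.g 8) (φ (Sum.inr B)) β (∑ C, ((G B C : ℝ) : ℂ) • drI S φ C p q u w)) +
    (Complex.I / 2) • ∑ A, ((∑ B, ∑ C, G B C * S.f (φ (Sum.inr C)) (φ (Sum.inl A)) (φ (Sum.inr B)) : ℝ) : ℂ) •
      S.vec (S.g 8) (φ (Sum.inl A)) β u

/-- terms of `Q^r` quadratic in `w` -/
noncomputable def drW (β : Fin 16) (w : Wsp dm) (u : F) : F :=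
  (1 / 2 : ℂ) • (∑ A, ∑ i, ∑ j,
      ((S.κ * ∑ B, ∑ C, S.f (φ (Sum.inl A)) (φ (Sum.inr B)) (φ (Sum.inr C)) * wt w i B * wt w j C : ℝ) : ℂ) •
        S.vec (S.g2 i j) (φ (Sum.inl A)) β u) +
    (1 / 2 : ℂ) • (∑ A, ∑ i, ∑ j,
      ((S.κ * ∑ B, ∑ C, S.f (φ (Sum.inr A)) (φ (Sum.inr B)) (φ (Sum.inr C)) * wt w i B * wt w j C : ℝ) : ℂ) •
        S.vec (S.g2 i j) (φ (Sum.inr A)) β u)

lemma dr7_Qr (β : Fin 16) (v : Cfg dh → Wsp dm → F) {y : Cfg dh} (hy : (S.Dy φ 8 y).det ≠ 0) (w : Wsp dm) :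
    S.Qr φ β v y w = drL S φ β (S.Dy φ 8 y)⁻¹ (fun j A => py j.castSucc A v y w) (fun j G => pw j G v y w) (v y w) w +
      drW S φ β w (v y w) := by
  unfold Setup.Qr drL drW drI
  simp only [AN.Sy.logJ S φ hy]
  abel

lemma drI_add (C : Fin dm) (p p' : Fin 8 → Fin dh → F) (q q' : Fin 8 → Fin dm → F) (u u' : F) (w : Wsp dm) :
    drI S φ C (fun j A => p j A + p' j A) (fun j G => q j G + q' j G) (u + u') w =
      drI S φ C p q u w + drI S φ C p' q' u' w := by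
  unfold drI
  simp only [smul_add, Finset.sum_add_distrib, map_add]
  abel

lemma drI_smul (C : Fin dm) (c : ℂ) (p : Fin 8 → Fin dh → F) (q : Fin 8 → Fin dm → F) (u : F) (w : Wsp dm) :
    drI S φ C (fun j A => c • p j A) (fun j G => c • q j G) (c • u) w = c • drI S φ C p q u w := by
  unfold drI
  simp only [smul_add, Finset.smul_sum, map_smul]
  congr 1
  · congr 1
    · refine Finset.sum_congr rfl fun j _ => Finset.sum_congr rfl fun E _ => Finset.sum_congr rfl fun A _ => ?_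
      rw [smul_comm]
    · refine Finset.sum_congr rfl fun j _ => Finset.sum_congr rfl fun E _ => Finset.sum_congr rfl fun A _ => ?_
      rw [smul_comm]
  · rw [smul_comm]

lemma drL_add (β : Fin 16) (G : Matrix (Fin dm) (Fin dm) ℝ) (p p' : Fin 8 → Fin dh → F) (q q' : Fin 8 → Fin dm → F)
    (u u' : F) (w : Wsp dm) :
    drL S φ β G (fun j A => p j A + p' j A) (fun j G => q j G + q' j G) (u + u') w =
      drL S φ β G p q u w + drL S φ β G p' q' u' w := by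
  unfold drL
  simp only [drI_add, smul_add, Finset.sum_add_distrib, map_add]
  abel

lemma drL_smul (β : Fin 16) (G : Matrix (Fin dm) (Fin dm) ℝ) (c : ℂ) (p : Fin 8 → Fin dh → F) (q : Fin 8 → Fin dm → F)
    (u : F) (w : Wsp dm) :
    drL S φ β G (fun j A => c • p j A) (fun j G => c • q j G) (c • u) w = c • drL S φ β G p q u w := by
  unfold drL
  simp only [drI_smul, smul_add, Finset.smul_sum, map_smul, map_sum]
  congr 1
  · refine Finset.sum_congr rfl fun B _ => Finset.sum_congr rfl fun C _ => ?_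
    simp only [smul_smul]
    congr 1
    ring
  · refine Finset.sum_congr rfl fun A _ => ?_
    simp only [smul_smul]
    congr 1
    ring

lemma drL_sub (β : Fin 16) (G G' : Matrix (Fin dm) (Fin dm) ℝ) (p : Fin 8 → Fin dh → F) (q : Fin 8 → Fin dm → F)
    (u : F) (w : Wsp dm) :
    drL S φ β (G - G') p q u w = drL S φ β G p q u w - drL S φ β G' p q u w := by
  unfold drL
  have h1 : ∀ B C, (((G - G') B C : ℝ) : ℂ) = ((G B C : ℝ) : ℂ) - ((G' B C : ℝ) : ℂ) := by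
    intro B C
    rw [Matrix.sub_apply]
    push_cast
    ring
  have h2 : ∀ A, ((∑ B, ∑ C, (G - G') B C * S.f (φ (Sum.inr C)) (φ (Sum.inl A)) (φ (Sum.inr B)) : ℝ) : ℂ) =
      ((∑ B, ∑ C, G B C * S.f (φ (Sum.inr C)) (φ (Sum.inl A)) (φ (Sum.inr B)) : ℝ) : ℂ) -
      ((∑ B, ∑ C, G' B C * S.f (φ (Sum.inr C)) (φ (Sum.inl A)) (φ (Sum.inr B)) : ℝ) : ℂ) := by
    intro A
    rw [← Complex.ofReal_sub]
    congr 1
    simp only [Matrix.sub_apply, sub_mul, Finset.sum_sub_distrib]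
  simp only [h1, h2, sub_smul, Finset.sum_sub_distrib, map_sub, smul_sub]
  abel

lemma drW_smul (β : Fin 16) (w : Wsp dm) (c : ℂ) (u : F) : drW S φ β w (c • u) = c • drW S φ β w u := by
  unfold drW
  simp only [smul_add, Finset.smul_sum, map_smul]
  congr 1
  · refine Finset.sum_congr rfl fun A _ => Finset.sum_congr rfl fun i _ => Finset.sum_congr rfl fun j _ => ?_
    simp only [smul_smul]
    congr 1
    ring
  · refine Finset.sum_congr rfl fun A _ => Finset.sum_congr rfl fun i _ => Finset.sum_congr rfl fun j _ => ?_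
    simp only [smul_smul]
    congr 1
    ring

lemma drI_norm : ∃ K : ℝ, 0 ≤ K ∧ ∀ (C : Fin dm) (p : Fin 8 → Fin dh → F) (q : Fin 8 → Fin dm → F) (u : F) (w : Wsp dm),
    ‖drI S φ C p q u w‖ ≤ K * (‖w‖ * ((∑ j, ∑ A, ‖p j A‖) + ∑ j, ∑ G, ‖q j G‖) + ‖u‖) := by
  obtain ⟨b, hb0, hb⟩ := dr7_bd (fun t : Fin d × Fin d × Fin d => |S.f t.1 t.2.1 t.2.2|)
  obtain ⟨e, he0, he⟩ := dr7_bd (fun A : Fin d => ‖S.cS A‖)
  refine ⟨dm * b + e, by positivity, fun C p q u w => ?_⟩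
  unfold drI
  have h1 : ‖∑ j : Fin 8, ∑ E, ∑ A, ((S.f (φ (Sum.inr C)) (φ (Sum.inr E)) (φ (Sum.inl A)) * w (j, E) : ℝ) : ℂ) • p j A‖ ≤
      dm * b * (‖w‖ * ∑ j, ∑ A, ‖p j A‖) := by
    refine (norm_sum_le _ _).trans ?_
    rw [Finset.mul_sum, Finset.mul_sum]
    refine Finset.sum_le_sum fun j _ => ?_
    refine (norm_sum_le _ _).trans ?_
    have : ∀ E ∈ Finset.univ, ‖∑ A, ((S.f (φ (Sum.inr C)) (φ (Sum.inr E)) (φ (Sum.inl A)) * w (j, E) : ℝ) : ℂ) • p j A‖ ≤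
        b * (‖w‖ * ∑ A, ‖p j A‖) := by
      intro E _
      refine (norm_sum_le _ _).trans ?_
      rw [Finset.mul_sum, Finset.mul_sum]
      refine Finset.sum_le_sum fun A _ => ?_
      rw [norm_smul, Complex.norm_real, Real.norm_eq_abs, abs_mul, mul_assoc]
      exact mul_le_mul (hb (_, _, _)) (mul_le_mul_of_nonneg_right (dr7_w_le w _) (norm_nonneg _))
        (by positivity) hb0
    refine (Finset.sum_le_sum this).trans (le_of_eq ?_)
    rw [Finset.sum_const, Finset.card_univ, Fintype.card_fin, nsmul_eq_mul]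
    ring
  have h2 : ‖∑ j : Fin 8, ∑ E, ∑ G, ((S.f (φ (Sum.inr C)) (φ (Sum.inr E)) (φ (Sum.inr G)) * w (j, E) : ℝ) : ℂ) • q j G‖ ≤
      dm * b * (‖w‖ * ∑ j, ∑ A, ‖q j A‖) := by
    refine (norm_sum_le _ _).trans ?_
    rw [Finset.mul_sum, Finset.mul_sum]
    refine Finset.sum_le_sum fun j _ => ?_
    refine (norm_sum_le _ _).trans ?_
    have : ∀ E ∈ Finset.univ, ‖∑ A, ((S.f (φ (Sum.inr C)) (φ (Sum.inr E)) (φ (Sum.inr A)) * w (j, E) : ℝ) : ℂ) • q j A‖ ≤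
        b * (‖w‖ * ∑ A, ‖q j A‖) := by
      intro E _
      refine (norm_sum_le _ _).trans ?_
      rw [Finset.mul_sum, Finset.mul_sum]
      refine Finset.sum_le_sum fun A _ => ?_
      rw [norm_smul, Complex.norm_real, Real.norm_eq_abs, abs_mul, mul_assoc]
      exact mul_le_mul (hb (_, _, _)) (mul_le_mul_of_nonneg_right (dr7_w_le w _) (norm_nonneg _))
        (by positivity) hb0
    refine (Finset.sum_le_sum this).trans (le_of_eq ?_)
    rw [Finset.sum_const, Finset.card_univ, Fintype.card_fin, nsmul_eq_mul]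
    ring
  have h3 : ‖Complex.I • S.cS (φ (Sum.inr C)) u‖ ≤ e * ‖u‖ := by
    rw [norm_smul, Complex.norm_I, one_mul]
    exact (ContinuousLinearMap.le_opNorm _ _).trans (mul_le_mul_of_nonneg_right (he _) (norm_nonneg _))
  refine (norm_add₃_le).trans ((add_le_add (add_le_add h1 h2) h3).trans ?_)
  have e1 : 0 ≤ ∑ j, ∑ A, ‖p j A‖ := by positivity
  have e2 : 0 ≤ ∑ j, ∑ G, ‖q j G‖ := by positivity
  have e3 := norm_nonneg u
  have e4 := norm_nonneg w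
  have e5 : 0 ≤ (dm : ℝ) * b := by positivity
  have e6 : 0 ≤ e * (‖w‖ * ((∑ j, ∑ A, ‖p j A‖) + ∑ j, ∑ G, ‖q j G‖)) := by positivity
  have e7 : 0 ≤ (dm : ℝ) * b * ‖u‖ := by positivity
  nlinarith

lemma drL_norm : ∃ K : ℝ, 0 ≤ K ∧ ∀ (β : Fin 16) (G : Matrix (Fin dm) (Fin dm) ℝ) (g : ℝ) (p : Fin 8 → Fin dh → F)
    (q : Fin 8 → Fin dm → F) (u : F) (w : Wsp dm), 0 ≤ g → (∀ B C, |G B C| ≤ g) →
    ‖drL S φ β G p q u w‖ ≤ K * g * (‖w‖ * ((∑ j, ∑ A, ‖p j A‖) + ∑ j, ∑ G, ‖q j G‖) + ‖u‖) := by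
  obtain ⟨K, hK0, hK⟩ := drI_norm S φ
  obtain ⟨b, hb0, hb⟩ := dr7_bd (fun t : Fin d × Fin d × Fin d => |S.f t.1 t.2.1 t.2.2|)
  obtain ⟨a, ha0, ha⟩ := dr7_bd (fun t : Fin d × Fin 16 => ‖S.vec (S.g 8) t.1 t.2‖)
  refine ⟨dm * (a * (dm * K)) + dh * (dm * dm * b * a), by positivity, fun β G g p q u w hg hG => ?_⟩
  obtain ⟨X, hX⟩ : ∃ X, X = ‖w‖ * ((∑ j, ∑ A, ‖p j A‖) + ∑ j, ∑ G, ‖q j G‖) + ‖u‖ := ⟨_, rfl⟩
  have hX0 : ‖u‖ ≤ X := by
    rw [hX]
    have : 0 ≤ ‖w‖ * ((∑ j, ∑ A, ‖p j A‖) + ∑ j, ∑ G, ‖q j G‖) := by positivity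
    linarith
  have hX1 : 0 ≤ X := (norm_nonneg u).trans hX0
  have hK' : ∀ C, ‖drI S φ C p q u w‖ ≤ K * X := fun C => by rw [hX]; exact hK C p q u w
  rw [← hX]
  unfold drL
  have h1 : ‖Complex.I • (∑ B, S.vec (S.g 8) (φ (Sum.inr B)) β (∑ C, ((G B C : ℝ) : ℂ) • drI S φ C p q u w))‖ ≤
      dm * (a * (dm * (g * (K * X)))) := by
    rw [norm_smul, Complex.norm_I, one_mul]
    refine (norm_sum_le _ _).trans ?_
    have : ∀ B ∈ Finset.univ, ‖S.vec (S.g 8) (φ (Sum.inr B)) β (∑ C, ((G B C : ℝ) : ℂ) • drI S φ C p q u w)‖ ≤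
        a * (dm * (g * (K * X))) := by
      intro B _
      refine (ContinuousLinearMap.le_opNorm _ _).trans ?_
      refine mul_le_mul (ha (_, _)) ?_ (norm_nonneg _) ha0
      refine (norm_sum_le _ _).trans ?_
      have h' : ∀ C ∈ Finset.univ, ‖((G B C : ℝ) : ℂ) • drI S φ C p q u w‖ ≤ g * (K * X) := by
        intro C _
        rw [norm_smul, Complex.norm_real, Real.norm_eq_abs]
        exact mul_le_mul (hG B C) (hK' C) (norm_nonneg _) hg
      refine (Finset.sum_le_sum h').trans (le_of_eq ?_)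
      rw [Finset.sum_const, Finset.card_univ, Fintype.card_fin, nsmul_eq_mul]
    refine (Finset.sum_le_sum this).trans (le_of_eq ?_)
    rw [Finset.sum_const, Finset.card_univ, Fintype.card_fin, nsmul_eq_mul]
  have h2 : ‖(Complex.I / 2) • ∑ A, ((∑ B, ∑ C, G B C * S.f (φ (Sum.inr C)) (φ (Sum.inl A)) (φ (Sum.inr B)) : ℝ) : ℂ) •
      S.vec (S.g 8) (φ (Sum.inl A)) β u‖ ≤ dh * (dm * (dm * (g * b)) * (a * X)) := by
    rw [norm_smul]
    have e1 : ‖Complex.I / 2‖ ≤ 1 := by simp; norm_num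
    refine (mul_le_of_le_one_left (norm_nonneg _) e1).trans ?_
    refine (norm_sum_le _ _).trans ?_
    have : ∀ A ∈ Finset.univ, ‖((∑ B, ∑ C, G B C * S.f (φ (Sum.inr C)) (φ (Sum.inl A)) (φ (Sum.inr B)) : ℝ) : ℂ) •
        S.vec (S.g 8) (φ (Sum.inl A)) β u‖ ≤ dm * (dm * (g * b)) * (a * X) := by
      intro A _
      rw [norm_smul, Complex.norm_real]
      refine mul_le_mul ?_ ?_ (norm_nonneg _) (by positivity)
      · refine (norm_sum_le _ _).trans ?_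
        have h' : ∀ B ∈ Finset.univ, ‖∑ C, G B C * S.f (φ (Sum.inr C)) (φ (Sum.inl A)) (φ (Sum.inr B))‖ ≤
            dm * (g * b) := by
          intro B _
          refine (norm_sum_le _ _).trans ?_
          have h'' : ∀ C ∈ Finset.univ, ‖G B C * S.f (φ (Sum.inr C)) (φ (Sum.inl A)) (φ (Sum.inr B))‖ ≤ g * b := by
            intro C _
            rw [Real.norm_eq_abs, abs_mul]
            exact mul_le_mul (hG B C) (hb (_, _, _)) (abs_nonneg _) hg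
          refine (Finset.sum_le_sum h'').trans (le_of_eq ?_)
          rw [Finset.sum_const, Finset.card_univ, Fintype.card_fin, nsmul_eq_mul]
        refine (Finset.sum_le_sum h').trans (le_of_eq ?_)
        rw [Finset.sum_const, Finset.card_univ, Fintype.card_fin, nsmul_eq_mul]
      · refine (ContinuousLinearMap.le_opNorm _ _).trans ?_
        exact mul_le_mul (ha (_, _)) hX0 (norm_nonneg _) ha0
    refine (Finset.sum_le_sum this).trans (le_of_eq ?_)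
    rw [Finset.sum_const, Finset.card_univ, Fintype.card_fin, nsmul_eq_mul]
  refine (norm_add_le _ _).trans ((add_le_add h1 h2).trans (le_of_eq ?_))
  ring

lemma drW_norm : ∃ K : ℝ, 0 ≤ K ∧ ∀ (β : Fin 16) (w : Wsp dm) (u : F), ‖drW S φ β w u‖ ≤ K * (‖w‖ ^ 2 * ‖u‖) := by
  obtain ⟨b, hb0, hb⟩ := dr7_bd (fun t : Fin d × Fin d × Fin d => |S.f t.1 t.2.1 t.2.2|)
  obtain ⟨a, ha0, ha⟩ := dr7_bd (fun t : (Fin 9 × Fin 9) × Fin d × Fin 16 => ‖S.vec (S.g2 t.1.1 t.1.2) t.2.1 t.2.2‖)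
  have hκ := S.κ_pos.le
  have h0 : ∀ (n : ℕ) (ι : Fin n → Fin d) (β : Fin 16) (w : Wsp dm) (u : F),
      ‖(1 / 2 : ℂ) • (∑ A, ∑ i, ∑ j, ((S.κ * ∑ B, ∑ C, S.f (ι A) (φ (Sum.inr B)) (φ (Sum.inr C)) *
        wt w i B * wt w j C : ℝ) : ℂ) • S.vec (S.g2 i j) (ι A) β u)‖ ≤
        n * (81 * (S.κ * (dm * (dm * b)) * a)) * (‖w‖ ^ 2 * ‖u‖) := by
    intro n ι β w u
    rw [norm_smul]
    have e1 : ‖(1 / 2 : ℂ)‖ ≤ 1 := by norm_num
    refine (mul_le_of_le_one_left (norm_nonneg _) e1).trans ?_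
    refine (norm_sum_le _ _).trans ?_
    have : ∀ A ∈ Finset.univ, ‖∑ i, ∑ j, ((S.κ * ∑ B, ∑ C, S.f (ι A) (φ (Sum.inr B)) (φ (Sum.inr C)) *
        wt w i B * wt w j C : ℝ) : ℂ) • S.vec (S.g2 i j) (ι A) β u‖ ≤
        ∑ i : Fin 9, ∑ j : Fin 9, (S.κ * (dm * (dm * b)) * a) * (‖w‖ ^ 2 * ‖u‖) := by
      intro A _
      refine (norm_sum_le _ _).trans (Finset.sum_le_sum fun i _ => ?_)
      refine (norm_sum_le _ _).trans (Finset.sum_le_sum fun j _ => ?_)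
      rw [norm_smul, Complex.norm_real, Real.norm_eq_abs, abs_mul, abs_of_nonneg hκ]
      have h2 : |∑ B, ∑ C, S.f (ι A) (φ (Sum.inr B)) (φ (Sum.inr C)) * wt w i B * wt w j C| ≤
          dm * (dm * (b * ‖w‖ ^ 2)) := by
        refine (Finset.abs_sum_le_sum_abs _ _).trans ?_
        have h3 : ∀ B ∈ Finset.univ, |∑ C, S.f (ι A) (φ (Sum.inr B)) (φ (Sum.inr C)) * wt w i B * wt w j C| ≤
            dm * (b * ‖w‖ ^ 2) := by
          intro B _
          refine (Finset.abs_sum_le_sum_abs _ _).trans ?_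
          have h4 : ∀ C ∈ Finset.univ, |S.f (ι A) (φ (Sum.inr B)) (φ (Sum.inr C)) * wt w i B * wt w j C| ≤
              b * ‖w‖ ^ 2 := by
            intro C _
            rw [abs_mul, abs_mul, mul_assoc, sq]
            exact mul_le_mul (hb (_, _, _)) (mul_le_mul (dr7_wt_le w _ _) (dr7_wt_le w _ _) (abs_nonneg _)
              (norm_nonneg _)) (by positivity) hb0
          refine (Finset.sum_le_sum h4).trans (le_of_eq ?_)
          rw [Finset.sum_const, Finset.card_univ, Fintype.card_fin, nsmul_eq_mul]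
        refine (Finset.sum_le_sum h3).trans (le_of_eq ?_)
        rw [Finset.sum_const, Finset.card_univ, Fintype.card_fin, nsmul_eq_mul]
      have h5 : ‖S.vec (S.g2 i j) (ι A) β u‖ ≤ a * ‖u‖ :=
        (ContinuousLinearMap.le_opNorm _ _).trans (mul_le_mul_of_nonneg_right (ha ((_, _), _, _)) (norm_nonneg _))
      calc S.κ * |∑ B, ∑ C, S.f (ι A) (φ (Sum.inr B)) (φ (Sum.inr C)) * wt w i B * wt w j C| *
            ‖S.vec (S.g2 i j) (ι A) β u‖ ≤ S.κ * (dm * (dm * (b * ‖w‖ ^ 2))) * (a * ‖u‖) :=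
            mul_le_mul (mul_le_mul_of_nonneg_left h2 hκ) h5 (norm_nonneg _) (by positivity)
        _ = _ := by ring
    refine (Finset.sum_le_sum this).trans (le_of_eq ?_)
    simp only [Finset.sum_const, Finset.card_univ, Fintype.card_fin, nsmul_eq_mul]
    push_cast
    ring
  refine ⟨dh * (81 * (S.κ * (dm * (dm * b)) * a)) + dm * (81 * (S.κ * (dm * (dm * b)) * a)), by positivity,
    fun β w u => ?_⟩
  unfold drW
  refine (norm_add_le _ _).trans ((add_le_add (h0 dh (fun A => φ (Sum.inl A)) β w u)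
    (h0 dm (fun A => φ (Sum.inr A)) β w u)).trans (le_of_eq ?_))
  ring

end Vale.Agent.P353.Z.AE
end

section

/-! # P353, all `N`, block E: vacuum part of the remainder with cutoff (for E-DecR) -/

open MeasureTheory Filter Topology Matrix
open scoped ContDiff

namespace Vale.Agent.P353.Z.AE

variable {d dh dm r ds : ℕ} {F : Type*} [NormedAddCommGroup F] [InnerProductSpace ℂ F]

variable (S : Setup d F) (φ : Spl dh dm d)

lemma drL_cont (β : Fin 16) (G : Matrix (Fin dm) (Fin dm) ℝ) {q : Wsp dm → Fin 8 → Fin dm → F} {u : Wsp dm → F}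
    (hq : ∀ j B, Continuous fun w => q w j B) (hu : Continuous u) :
    Continuous fun w => drL S φ β G (fun _ _ => 0) (q w) (u w) w := by
  unfold drL drI
  simp only [smul_zero, Finset.sum_const_zero, zero_add]
  have hw : ∀ k : Fin 8 × Fin dm, Continuous fun w : Wsp dm => w k := fun k =>
    (EuclideanSpace.proj (𝕜 := ℝ) k).continuous
  refine Continuous.add ?_ ?_
  · refine Continuous.const_smul (continuous_finsetSum _ fun B _ => ?_) _
    refine (ContinuousLinearMap.continuous _).comp ?_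
    refine continuous_finsetSum _ fun C _ => Continuous.const_smul ?_ _
    refine Continuous.add ?_ ?_
    · refine continuous_finsetSum _ fun j _ => continuous_finsetSum _ fun E _ => continuous_finsetSum _ fun G _ => ?_
      exact (Complex.continuous_ofReal.comp (continuous_const.mul (hw _))).smul (hq j G)
    · exact Continuous.const_smul ((ContinuousLinearMap.continuous _).comp hu) _
  · refine Continuous.const_smul (continuous_finsetSum _ fun A _ => ?_) _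
    exact Continuous.const_smul ((ContinuousLinearMap.continuous _).comp hu) _

lemma drW_cont (β : Fin 16) {u : Wsp dm → F} (hu : Continuous u) : Continuous fun w => drW S φ β w (u w) := by
  have hwt : ∀ i B, Continuous fun w : Wsp dm => wt w i B := fun i B =>
    ((AN.Sy.contDiff_wt (dh := 0) i B).continuous).comp (continuous_const.prodMk continuous_id : Continuous fun w : Wsp dm => ((0 : Cfg 0), w))
  unfold drW
  refine Continuous.add ?_ ?_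
  · refine Continuous.const_smul (continuous_finsetSum _ fun A _ => continuous_finsetSum _ fun i _ =>
      continuous_finsetSum _ fun j _ => ?_) _
    refine Continuous.smul ?_ ((ContinuousLinearMap.continuous _).comp hu)
    refine Complex.continuous_ofReal.comp (continuous_const.mul (continuous_finsetSum _ fun B _ =>
      continuous_finsetSum _ fun C _ => (continuous_const.mul (hwt i B)).mul (hwt j C)))
  · refine Continuous.const_smul (continuous_finsetSum _ fun A _ => continuous_finsetSum _ fun i _ =>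
      continuous_finsetSum _ fun j _ => ?_) _
    refine Continuous.smul ?_ ((ContinuousLinearMap.continuous _).comp hu)
    refine Complex.continuous_ofReal.comp (continuous_const.mul (continuous_finsetSum _ fun B _ =>
      continuous_finsetSum _ fun C _ => (continuous_const.mul (hwt i B)).mul (hwt j C)))

/-- derivative of `τ • v` -/
lemma dr7_fd {τ : Wsp dm → ℝ} {w : Wsp dm} (h : DifferentiableAt ℝ τ w) (v : F) (e : Wsp dm) :
    fderiv ℝ (fun w => ((τ w : ℝ) : ℂ) • v) w e = ((fderiv ℝ τ w e : ℝ) : ℂ) • v := by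
  have h1 : HasFDerivAt (fun w => ((τ w : ℝ) : ℂ) • v)
      ((((Complex.ofRealCLM).comp (fderiv ℝ τ w)).smulRight v)) w :=
    ((Complex.ofRealCLM.hasFDerivAt).comp w h.hasFDerivAt).smul_const v
  rw [h1.fderiv]
  rfl

/-- fibre expression `Q^r (τ v)` at the matrix `G` -/
noncomputable def drX (β : Fin 16) (G : Matrix (Fin dm) (Fin dm) ℝ) (τ : Wsp dm → ℝ) (v : F) (w : Wsp dm) : F :=
  drL S φ β G (fun _ _ => 0) (fun j B => ((fderiv ℝ τ w (EuclideanSpace.single (j, B) 1) : ℝ) : ℂ) • v)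
    (((τ w : ℝ) : ℂ) • v) w + drW S φ β w (((τ w : ℝ) : ℂ) • v)

lemma drX_cont (β : Fin 16) (G : Matrix (Fin dm) (Fin dm) ℝ) {τ : Wsp dm → ℝ} (h : ContDiff ℝ 1 τ) (v : F) :
    Continuous (drX S φ β G τ v) := by
  unfold drX
  have h1 : Continuous fun w => ((τ w : ℝ) : ℂ) • v :=
    (Complex.continuous_ofReal.comp h.continuous).smul continuous_const
  refine (drL_cont S φ β G (fun j B => ?_) h1).add (drW_cont S φ β h1)
  exact (Complex.continuous_ofReal.comp ((h.continuous_fderiv (by norm_num)).clm_apply continuous_const)).smul continuous_const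

lemma drX_smul (β : Fin 16) (G : Matrix (Fin dm) (Fin dm) ℝ) (τ : Wsp dm → ℝ) (c : ℂ) (v : F) (w : Wsp dm) :
    drX S φ β G τ (c • v) w = c • drX S φ β G τ v w := by
  unfold drX
  rw [smul_add, ← drL_smul, ← drW_smul]
  congr 1
  · congr 1
    · funext j A
      rw [smul_zero]
    · funext j B
      rw [smul_comm]
    · rw [smul_comm]
  · rw [smul_comm]

/-- product rule -/
lemma drX_mul (β : Fin 16) (G : Matrix (Fin dm) (Fin dm) ℝ) {χ b : Wsp dm → ℝ} (hχ : Differentiable ℝ χ)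
    (hb : Differentiable ℝ b) (v : F) (w : Wsp dm) :
    drX S φ β G (fun w => χ w * b w) v w = ((χ w : ℝ) : ℂ) • drX S φ β G b v w + ((b w : ℝ) : ℂ) •
      drL S φ β G (fun _ _ => 0) (fun j B => ((fderiv ℝ χ w (EuclideanSpace.single (j, B) 1) : ℝ) : ℂ) • v) 0 w := by
  unfold drX
  have h1 : ∀ e, fderiv ℝ (fun w => χ w * b w) w e = χ w * fderiv ℝ b w e + b w * fderiv ℝ χ w e := by
    intro e
    rw [fderiv_fun_mul (hχ w) (hb w)]
    simp only [_root_.add_apply, _root_.smul_apply, smul_eq_mul]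
  rw [smul_add, ← drL_smul, ← drW_smul, ← drL_smul]
  rw [add_right_comm, ← drL_add]
  congr 1
  · congr 1
    · funext j A
      simp
    · funext j B
      rw [h1, smul_smul, smul_smul, ← add_smul]
      congr 1
      push_cast
      ring
    · rw [smul_zero, add_zero, smul_smul]
      congr 1
      push_cast
      ring
  · rw [smul_smul]
    congr 2
    push_cast
    ring

lemma drX_norm : ∃ K : ℝ, 0 ≤ K ∧ ∀ (β : Fin 16) (G : Matrix (Fin dm) (Fin dm) ℝ) (C0 R : ℝ) (τ : Wsp dm → ℝ) (v : F)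
    (t : ℝ) (w : Wsp dm), 0 ≤ C0 → 0 < R → (∀ B C, |G B C| ≤ C0 / R) →
    (∀ j B, |fderiv ℝ τ w (EuclideanSpace.single (j, B) 1)| ≤ C0 * R * ‖w‖ * t) → |τ w| ≤ t →
    ‖drX S φ β G τ v w‖ ≤ K * (1 + C0) ^ 2 * (1 / R + ‖w‖ ^ 2) * t * ‖v‖ := by
  obtain ⟨K, hK0, hK⟩ := drL_norm S φ
  obtain ⟨L, hL0, hL⟩ := drW_norm S φ
  refine ⟨K * (8 * dm + 1) + L, by positivity, fun β G C0 R τ v t w hC0 hR hG hd ht => ?_⟩
  have ht0 : 0 ≤ t := (abs_nonneg _).trans ht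
  have h1 := hK β G (C0 / R) (fun _ _ => 0)
    (fun j B => ((fderiv ℝ τ w (EuclideanSpace.single (j, B) 1) : ℝ) : ℂ) • v) (((τ w : ℝ) : ℂ) • v) w (by positivity) hG
  have h2 := hL β w (((τ w : ℝ) : ℂ) • v)
  have h3 : ‖((τ w : ℝ) : ℂ) • v‖ ≤ t * ‖v‖ := by
    rw [norm_smul, Complex.norm_real, Real.norm_eq_abs]
    exact mul_le_mul_of_nonneg_right ht (norm_nonneg _)
  have h4 : ∑ j : Fin 8, ∑ B : Fin dm, ‖((fderiv ℝ τ w (EuclideanSpace.single (j, B) 1) : ℝ) : ℂ) • v‖ ≤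
      8 * dm * (C0 * R * ‖w‖ * t * ‖v‖) := by
    have : ∀ j ∈ (Finset.univ : Finset (Fin 8)), ∑ B : Fin dm, ‖((fderiv ℝ τ w (EuclideanSpace.single (j, B) 1) : ℝ) : ℂ) • v‖ ≤
        dm * (C0 * R * ‖w‖ * t * ‖v‖) := by
      intro j _
      have h' : ∀ B ∈ (Finset.univ : Finset (Fin dm)), ‖((fderiv ℝ τ w (EuclideanSpace.single (j, B) 1) : ℝ) : ℂ) • v‖ ≤
          C0 * R * ‖w‖ * t * ‖v‖ := by
        intro B _
        rw [norm_smul, Complex.norm_real, Real.norm_eq_abs]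
        exact mul_le_mul_of_nonneg_right (hd j B) (norm_nonneg _)
      refine (Finset.sum_le_sum h').trans (le_of_eq ?_)
      rw [Finset.sum_const, Finset.card_univ, Fintype.card_fin, nsmul_eq_mul]
    refine (Finset.sum_le_sum this).trans (le_of_eq ?_)
    rw [Finset.sum_const, Finset.card_univ, Fintype.card_fin, nsmul_eq_mul]
    push_cast
    ring
  have h5 : ‖drL S φ β G (fun _ _ => 0) (fun j B => ((fderiv ℝ τ w (EuclideanSpace.single (j, B) 1) : ℝ) : ℂ) • v)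
      (((τ w : ℝ) : ℂ) • v) w‖ ≤ K * (C0 / R) * (‖w‖ * (8 * dm * (C0 * R * ‖w‖ * t * ‖v‖)) + t * ‖v‖) := by
    refine h1.trans (mul_le_mul_of_nonneg_left ?_ (by positivity))
    simp only [norm_zero, Finset.sum_const_zero, zero_add]
    exact add_le_add (mul_le_mul_of_nonneg_left h4 (norm_nonneg _)) h3
  have h6 : ‖drW S φ β w (((τ w : ℝ) : ℂ) • v)‖ ≤ L * (‖w‖ ^ 2 * (t * ‖v‖)) :=
    h2.trans (mul_le_mul_of_nonneg_left (mul_le_mul_of_nonneg_left h3 (sq_nonneg _)) hL0)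
  unfold drX
  refine (norm_add_le _ _).trans ((add_le_add h5 h6).trans ?_)
  have e1 : K * (C0 / R) * (‖w‖ * (8 * dm * (C0 * R * ‖w‖ * t * ‖v‖)) + t * ‖v‖) =
      (K * (8 * dm) * C0 ^ 2 * ‖w‖ ^ 2 + K * C0 * (1 / R)) * (t * ‖v‖) := by
    field_simp
  rw [e1]
  have e2 : 0 ≤ t * ‖v‖ := by positivity
  have e3 : 0 ≤ ‖w‖ ^ 2 := by positivity
  have e4 : 0 ≤ 1 / R := by positivity
  have e5 : (1 : ℝ) ≤ (1 + C0) ^ 2 := by nlinarith
  have e6 : C0 ^ 2 ≤ (1 + C0) ^ 2 := by nlinarith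
  have e7 : C0 ≤ (1 + C0) ^ 2 := by nlinarith
  have e8 : 0 ≤ K * (8 * dm) := by positivity
  calc (K * (8 * dm) * C0 ^ 2 * ‖w‖ ^ 2 + K * C0 * (1 / R)) * (t * ‖v‖) + L * (‖w‖ ^ 2 * (t * ‖v‖))
      = (K * (8 * dm) * (C0 ^ 2 * ‖w‖ ^ 2) + K * (C0 * (1 / R)) + L * ‖w‖ ^ 2) * (t * ‖v‖) := by ring
    _ ≤ (K * (8 * dm) * ((1 + C0) ^ 2 * (1 / R + ‖w‖ ^ 2)) + K * ((1 + C0) ^ 2 * (1 / R + ‖w‖ ^ 2)) +
          L * ((1 + C0) ^ 2 * (1 / R + ‖w‖ ^ 2))) * (t * ‖v‖) := by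
        refine mul_le_mul_of_nonneg_right (add_le_add (add_le_add ?_ ?_) ?_) e2
        · refine mul_le_mul_of_nonneg_left ?_ e8
          exact mul_le_mul e6 (by linarith) e3 (by positivity)
        · refine mul_le_mul_of_nonneg_left ?_ hK0
          exact mul_le_mul e7 (by linarith) e4 (by positivity)
        · refine mul_le_mul_of_nonneg_left ?_ hL0
          calc ‖w‖ ^ 2 = 1 * ‖w‖ ^ 2 := (one_mul _).symm
            _ ≤ (1 + C0) ^ 2 * (1 / R + ‖w‖ ^ 2) := mul_le_mul e5 (by linarith) e3 (by positivity)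
    _ = _ := by ring

/-- the derivative of a cutoff is bounded -/
lemma dr7_ct {c : ℝ → ℝ} (hc : IsCt c) : ∃ M : ℝ, 0 ≤ M ∧ ∀ t, |deriv c t| ≤ M := by
  obtain ⟨M, hM⟩ := (isCompact_Icc (a := (1 / 4 : ℝ)) (b := 1)).exists_bound_of_continuousOn
    ((hc.sm.continuous_deriv (by norm_num)).continuousOn)
  have hM0 : 0 ≤ M := (norm_nonneg _).trans (hM (1 / 2) ⟨by norm_num, by norm_num⟩)
  refine ⟨M, hM0, fun t => ?_⟩
  by_cases h1 : t < 1 / 4
  · have : c =ᶠ[𝓝 t] fun _ => 1 := by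
      filter_upwards [Iio_mem_nhds h1] with s hs
      exact hc.one s (le_of_lt hs)
    rw [this.deriv_eq, deriv_const, abs_zero]
    exact hM0
  · by_cases h2 : 1 < t
    · have : c =ᶠ[𝓝 t] fun _ => 0 := by
        filter_upwards [Ioi_mem_nhds h2] with s hs
        exact hc.zero s (le_of_lt hs)
      rw [this.deriv_eq, deriv_const, abs_zero]
      exact hM0
    · exact hM t ⟨not_lt.1 h1, not_lt.1 h2⟩

lemma dr7_chi_sm {c : ℝ → ℝ} (hc : IsCt c) (ρ : ℝ) : ContDiff ℝ ∞ fun w : Wsp dm => c (‖w‖ ^ 2 / ρ ^ 2) :=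
  hc.sm.comp ((contDiff_norm_sq ℝ).div_const _)

lemma dr7_chi_one {c : ℝ → ℝ} (hc : IsCt c) {ρ : ℝ} (hρ : 0 < ρ) {w : Wsp dm} (hw : ‖w‖ < ρ / 2) :
    c (‖w‖ ^ 2 / ρ ^ 2) = 1 := by
  refine hc.one _ ?_
  rw [div_le_iff₀ (by positivity)]
  nlinarith [norm_nonneg w]

lemma dr7_chi_fd {c : ℝ → ℝ} (hc : IsCt c) {ρ M : ℝ} (hρ : 0 < ρ) (hM : ∀ t, |deriv c t| ≤ M) (w : Wsp dm) (k : Fin 8 × Fin dm) :
    |fderiv ℝ (fun w : Wsp dm => c (‖w‖ ^ 2 / ρ ^ 2)) w (EuclideanSpace.single k 1)| ≤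
      if ρ / 2 ≤ ‖w‖ then 2 * M / ρ ^ 2 * ‖w‖ else 0 := by
  have hM0 : 0 ≤ M := (abs_nonneg _).trans (hM 0)
  split_ifs with h
  · have h1 : HasFDerivAt (fun w : Wsp dm => ‖w‖ ^ 2 / ρ ^ 2) ((ρ ^ 2)⁻¹ • ((2 : ℕ) • innerSL ℝ w)) w := by
      have := (hasStrictFDerivAt_norm_sq w).hasFDerivAt.mul_const (ρ ^ 2)⁻¹
      simpa [div_eq_mul_inv] using this
    have h2 : HasDerivAt c (deriv c (‖w‖ ^ 2 / ρ ^ 2)) (‖w‖ ^ 2 / ρ ^ 2) :=
      (hc.sm.differentiable (by norm_num) _).hasDerivAt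
    have h3 := (h2.comp_hasFDerivAt w h1).fderiv
    have h4 : fderiv ℝ (fun w : Wsp dm => c (‖w‖ ^ 2 / ρ ^ 2)) w (EuclideanSpace.single k 1) =
        deriv c (‖w‖ ^ 2 / ρ ^ 2) * ((ρ ^ 2)⁻¹ * (2 * w k)) := by
      have : (fun w : Wsp dm => c (‖w‖ ^ 2 / ρ ^ 2)) = c ∘ fun w : Wsp dm => ‖w‖ ^ 2 / ρ ^ 2 := rfl
      rw [this, h3]
      simp [EuclideanSpace.inner_single_right]
    rw [h4, abs_mul, abs_mul, abs_mul, abs_of_nonneg (by positivity : (0 : ℝ) ≤ (ρ ^ 2)⁻¹), abs_two]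
    calc |deriv c (‖w‖ ^ 2 / ρ ^ 2)| * ((ρ ^ 2)⁻¹ * (2 * |w k|)) ≤ M * ((ρ ^ 2)⁻¹ * (2 * ‖w‖)) :=
          mul_le_mul (hM _) (mul_le_mul_of_nonneg_left (mul_le_mul_of_nonneg_left (dr7_w_le w k) (by norm_num))
            (by positivity)) (by positivity) hM0
      _ = _ := by ring
  · push Not at h
    have h1 : (fun w : Wsp dm => c (‖w‖ ^ 2 / ρ ^ 2)) =ᶠ[𝓝 w] fun _ => 1 := by
      filter_upwards [(isOpen_lt continuous_norm continuous_const).mem_nhds h] with w' hw'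
      exact dr7_chi_one hc hρ hw'
    rw [h1.fderiv_eq]
    simp

/-- the Gaussian in the fibre is smooth -/
lemma dr7_bsm {ψ : Spl r ds dh} {U : Set (Cfg r)} {Om : Cfg r → Matrix (Fin dm) (Fin dm) ℝ} {y₀ : Cfg r} {ε0 C0 : ℝ}
    (hB : BzFacts S φ ψ U Om y₀ ε0 C0) {y : Cfg r} (hy : y ∈ U) : ContDiff ℝ ∞ (S.bz φ ψ Om y) := by
  have h1 : ContDiff ℝ ∞ (fun w : Wsp dm => ((y, w) : Cfg r × Wsp dm)) := contDiff_const.prodMk contDiff_id
  have h2 := hB.sm.comp h1.contDiffOn (s := Set.univ) (fun w _ => ⟨hy, Set.mem_univ _⟩)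
  exact contDiffOn_univ.1 h2

/-- the point `cmb y 0` -/
lemma dr7_cmb0 (ψ : Spl r ds dh) (y y₀ : Cfg r) (R : ℝ) : ‖cmb ψ y 0 - R • cmb ψ y₀ 0‖ = ‖y - R • y₀‖ := by
  have h1 : cmb ψ y 0 - R • cmb ψ y₀ 0 = cmb ψ (y - R • y₀) 0 := by
    ext ⟨i, A⟩
    obtain ⟨q, rfl⟩ := ψ.surjective A
    rcases q with a | b <;> simp [cmb]
  rw [h1]
  have h2 : ‖cmb ψ (y - R • y₀) (0 : Cfg ds)‖ ^ 2 = ‖y - R • y₀‖ ^ 2 := by
    rw [EuclideanSpace.real_norm_sq_eq, EuclideanSpace.real_norm_sq_eq, Fintype.sum_prod_type, Fintype.sum_prod_type]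
    refine Finset.sum_congr rfl fun i _ => ?_
    rw [← ψ.sum_comp, Fintype.sum_sum_type]
    simp [cmb]
  exact (sq_eq_sq₀ (norm_nonneg _) (norm_nonneg _)).1 h2

/-- the vacuum part of `Q^r(b v)` vanishes -/
lemma dr7_vac0 [FiniteDimensional ℂ F] {ψ : Spl r ds dh} (hQ : QrVacStmt S φ ψ) (h1 : S.IsSub φ) (h2 : S.IsCen φ ψ)
    {U : Set (Cfg r)} {Om : Cfg r → Matrix (Fin dm) (Fin dm) ℝ} {V : Cfg r → F →L[ℂ] F} {K : Submodule ℂ F}
    (hV : S.VFr φ ψ U Om V K) {y₀ : Cfg r} {ε0 C0 : ℝ} (hB : BzFacts S φ ψ U Om y₀ ε0 C0) {y : Cfg r} (hy : y ∈ U)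
    {v : F} (hv : v ∈ S.F0 φ (S.Dz φ ψ y) (Om y)) (β : Fin 16) :
    (S.F0 φ (S.Dz φ ψ y) (Om y)).starProjection (∫ w, ((S.bz φ ψ Om y w : ℝ) : ℂ) •
      drX S φ β (S.Dz φ ψ y 8)⁻¹ (S.bz φ ψ Om y) v w) = 0 := by
  obtain ⟨n, hn⟩ : ∃ n, n = Real.sqrt (∫ w', gR (S.Dz φ ψ y) (Om y) 1 w' ^ 2) := ⟨_, rfl⟩
  have hb : ∀ w, S.bz φ ψ Om y w = gR (S.Dz φ ψ y) (Om y) 1 w / n := fun w => by rw [hn]; rfl
  have hn0 : n ≠ 0 := by
    intro h0
    have := hB.pos y hy 0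
    rw [hb, h0, div_zero] at this
    exact lt_irrefl _ this
  have hg : ∀ w, gR (S.Dz φ ψ y) (Om y) 1 w = n * S.bz φ ψ Om y w := fun w => by
    rw [hb]
    field_simp
  have hsm := dr7_bsm S φ hB hy
  by_cases hi : Integrable fun w => ((S.bz φ ψ Om y w : ℝ) : ℂ) • drX S φ β (S.Dz φ ψ y 8)⁻¹ (S.bz φ ψ Om y) v w
  swap
  · rw [integral_undef hi, map_zero]
  refine Submodule.eq_starProjection_of_mem_of_inner_eq_zero (Submodule.zero_mem _) fun v' hv' => ?_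
  rw [sub_zero]
  have h3 := hQ h1 h2 y (Om y) (hV.det y hy) (hV.om y hy) v hv v' hv' β
  have h4 : ∀ w, S.Qr φ β (fun _ w' => ((gR (S.Dz φ ψ y) (Om y) 1 w' : ℝ) : ℂ) • v) (cmb ψ y 0) w =
      (n : ℂ) • drX S φ β (S.Dz φ ψ y 8)⁻¹ (S.bz φ ψ Om y) v w := by
    intro w
    rw [dr7_Qr S φ β _ (show (S.Dy φ 8 (cmb ψ y 0)).det ≠ 0 from hV.det y hy), ← drX_smul]
    unfold drX
    have e1 : ∀ w, ((gR (S.Dz φ ψ y) (Om y) 1 w : ℝ) : ℂ) • v = ((S.bz φ ψ Om y w : ℝ) : ℂ) • ((n : ℂ) • v) := by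
      intro w
      rw [hg, smul_smul]
      congr 1
      push_cast
      ring
    simp only [e1]
    congr 1
    congr 1
    · funext j A
      unfold py pd
      rw [fderiv_const_apply]
      rfl
    · funext j B
      unfold pw
      exact dr7_fd (hsm.differentiable (by norm_num) w) _ _
  simp only [h4] at h3
  simp only [hg] at h3
  have h5 : ∀ w, inner ℂ (((n * S.bz φ ψ Om y w : ℝ) : ℂ) • v') ((n : ℂ) • drX S φ β (S.Dz φ ψ y 8)⁻¹ (S.bz φ ψ Om y) v w) =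
      ((n : ℂ) ^ 2) * inner ℂ v' (((S.bz φ ψ Om y w : ℝ) : ℂ) • drX S φ β (S.Dz φ ψ y 8)⁻¹ (S.bz φ ψ Om y) v w) := by
    intro w
    rw [inner_smul_left, inner_smul_right, inner_smul_right, Complex.conj_ofReal]
    push_cast
    ring
  simp only [h5] at h3
  rw [integral_const_mul, integral_inner hi] at h3
  have h6 : ((n : ℂ) ^ 2) ≠ 0 := by
    simpa using hn0
  have h7 := (mul_eq_zero.1 h3).resolve_left h6
  rw [← inner_conj_symm, h7, map_zero]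

/-- the vacuum part of `Q^r(χ b v)` is exponentially small (here: `O(R⁻⁸)`) -/
theorem dr_vac [FiniteDimensional ℂ F] {ψ : Spl r ds dh} (hQ : QrVacStmt S φ ψ) (h1 : S.IsSub φ) (h2 : S.IsCen φ ψ)
    {U : Set (Cfg r)} {Om : Cfg r → Matrix (Fin dm) (Fin dm) ℝ} {V : Cfg r → F →L[ℂ] F} {K : Submodule ℂ F}
    (hV : S.VFr φ ψ U Om V K) {y₀ : Cfg r} {ε0 C0 : ℝ} (hB : BzFacts S φ ψ U Om y₀ ε0 C0)
    (hC : S.CoefBd φ (cmb ψ y₀ 0) ε0 C0) (hC0 : 0 < C0) {c : ℝ → ℝ} (hc : IsCt c) {ε : ℝ} (hε : 0 < ε) :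
    ∃ L : ℝ, 0 ≤ L ∧ ∀ R : ℝ, 1 ≤ R → ∀ y : Cfg r, ‖y - R • y₀‖ ≤ ε0 * R → ∀ v ∈ S.F0 φ (S.Dz φ ψ y) (Om y), ∀ β,
      ‖(S.F0 φ (S.Dz φ ψ y) (Om y)).starProjection (∫ w, ((S.bz φ ψ Om y w : ℝ) : ℂ) •
        drX S φ β (S.Dz φ ψ y 8)⁻¹ (fun w => c (‖w‖ ^ 2 / (ε * R) ^ 2) * S.bz φ ψ Om y w) v w)‖ ≤
          L * (1 / R) ^ 8 * ‖v‖ := by
  obtain ⟨k1, hk1, hX⟩ := drX_norm S φ
  obtain ⟨k2, hk2, hL⟩ := drL_norm S φ
  obtain ⟨M, hM0, hM⟩ := dr7_ct hc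
  obtain ⟨C', hC'⟩ := hB.tail (ε / 2) (by positivity)
  obtain ⟨a, ha⟩ : ∃ a, a = k1 * (1 + C0) ^ 2 + k2 * C0 * (8 * dm * (2 * M / ε ^ 2)) := ⟨_, rfl⟩
  have ha0 : 0 ≤ a := by rw [ha]; positivity
  refine ⟨a * (2 * |C'|), by positivity, fun R hR y hy v hv β => ?_⟩
  have hR0 : 0 < R := by linarith
  have hyU := hB.inU R hR0 y hy
  have hsm := dr7_bsm S φ hB hyU
  have hbp : ∀ w, 0 < S.bz φ ψ Om y w := hB.pos y hyU
  have hG : ∀ B C, |(S.Dz φ ψ y 8)⁻¹ B C| ≤ C0 / R := hC.inv R hR0 (cmb ψ y 0) (by rw [dr7_cmb0]; exact hy)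
  have hRi : 1 / R ≤ 1 := by rw [div_le_one hR0]; exact hR
  obtain ⟨b, hb⟩ : ∃ b, b = S.bz φ ψ Om y := ⟨_, rfl⟩
  obtain ⟨χ, hχ⟩ : ∃ χ : Wsp dm → ℝ, χ = fun w => c (‖w‖ ^ 2 / (ε * R) ^ 2) := ⟨_, rfl⟩
  obtain ⟨G, hGd⟩ : ∃ G, G = (S.Dz φ ψ y 8)⁻¹ := ⟨_, rfl⟩
  have hρ : 0 < ε * R := by positivity
  have hχs : ContDiff ℝ ∞ χ := by rw [hχ]; exact dr7_chi_sm hc _
  have hχ1 : ∀ w, ‖w‖ < ε * R / 2 → χ w = 1 := fun w hw => by rw [hχ]; exact dr7_chi_one hc hρ hw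
  have hχf : ∀ w (k : Fin 8 × Fin dm), |fderiv ℝ χ w (EuclideanSpace.single k 1)| ≤
      if ε * R / 2 ≤ ‖w‖ then 2 * M / (ε * R) ^ 2 * ‖w‖ else 0 := fun w k => by
    rw [hχ]; exact dr7_chi_fd hc hρ hM w k
  have hχb : ∀ w, |χ w - 1| ≤ 1 := fun w => by
    rw [hχ, abs_le]
    constructor <;> linarith [(hc.bd (‖w‖ ^ 2 / (ε * R) ^ 2)).1, (hc.bd (‖w‖ ^ 2 / (ε * R) ^ 2)).2]
  rw [← hb, ← hGd]
  have hfun : (fun w => c (‖w‖ ^ 2 / (ε * R) ^ 2) * b w) = fun w => χ w * b w := by rw [hχ]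
  rw [hfun]
  rw [← hb] at hsm hbp
  rw [← hGd] at hG
  -- the two basic bounds
  have hZ : ∀ w, ‖drX S φ β G b v w‖ ≤ k1 * (1 + C0) ^ 2 * (1 + ‖w‖ ^ 2) * b w * ‖v‖ := by
    intro w
    have e := hX β G C0 R b v (b w) w hC0.le hR0 hG (fun j B => by rw [hb]; exact hB.dw R hR0 y hy w j B)
      (by rw [abs_of_pos (hbp w)])
    refine e.trans ?_
    have := hbp w
    gcongr
  have hbi : ∀ k : ℕ, Integrable fun w : Wsp dm => (‖w‖ ^ k * b w) ^ 2 := fun k => by rw [hb]; exact hB.int y hyU k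
  have hsum : Integrable fun w : Wsp dm => (‖w‖ ^ 0 * b w) ^ 2 + (‖w‖ ^ 1 * b w) ^ 2 := (hbi 0).add (hbi 1)
  have hZc : Continuous fun w => ((b w : ℝ) : ℂ) • drX S φ β G b v w :=
    (Complex.continuous_ofReal.comp hsm.continuous).smul (drX_cont S φ β G (hsm.of_le (by norm_num)) v)
  have hZn : ∀ w, ‖((b w : ℝ) : ℂ) • drX S φ β G b v w‖ ≤
      k1 * (1 + C0) ^ 2 * ‖v‖ * ((‖w‖ ^ 0 * b w) ^ 2 + (‖w‖ ^ 1 * b w) ^ 2) := by
    intro w
    rw [norm_smul, Complex.norm_real, Real.norm_of_nonneg (hbp w).le]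
    refine (mul_le_mul_of_nonneg_left (hZ w) (hbp w).le).trans (le_of_eq ?_)
    ring
  have hZi : Integrable fun w => ((b w : ℝ) : ℂ) • drX S φ β G b v w :=
    (hsum.const_mul (k1 * (1 + C0) ^ 2 * ‖v‖)).mono' hZc.aestronglyMeasurable (Eventually.of_forall hZn)
  -- the difference
  obtain ⟨E, hE⟩ : ∃ E : Wsp dm → F, E = fun w =>
    drL S φ β G (fun _ _ => 0) (fun j B => ((fderiv ℝ χ w (EuclideanSpace.single (j, B) 1) : ℝ) : ℂ) • v) 0 w := ⟨_, rfl⟩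
  have hmul : ∀ w, drX S φ β G (fun w => χ w * b w) v w = ((χ w : ℝ) : ℂ) • drX S φ β G b v w + ((b w : ℝ) : ℂ) • E w := by
    intro w
    rw [hE]
    exact drX_mul S φ β G (hχs.differentiable (by norm_num)) (hsm.differentiable (by norm_num)) v w
  have hEn : ∀ w, ‖E w‖ ≤ k2 * C0 * (8 * dm * (2 * M / ε ^ 2)) * ‖v‖ * (if ε * R / 2 ≤ ‖w‖ then ‖w‖ ^ 2 else 0) := by
    intro w
    have e := hL β G (C0 / R) (fun _ _ => 0) (fun j B => ((fderiv ℝ χ w (EuclideanSpace.single (j, B) 1) : ℝ) : ℂ) • v)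
      0 w (by positivity) hG
    have e1 : ‖E w‖ ≤ k2 * (C0 / R) * (‖w‖ * ∑ j : Fin 8, ∑ B : Fin dm,
        ‖((fderiv ℝ χ w (EuclideanSpace.single (j, B) 1) : ℝ) : ℂ) • v‖) := by
      rw [hE]
      simpa using e
    have e2 : ∑ j : Fin 8, ∑ B : Fin dm, ‖((fderiv ℝ χ w (EuclideanSpace.single (j, B) 1) : ℝ) : ℂ) • v‖ ≤
        8 * (dm * ((if ε * R / 2 ≤ ‖w‖ then 2 * M / (ε * R) ^ 2 * ‖w‖ else 0) * ‖v‖)) := by
      have : ∀ j ∈ (Finset.univ : Finset (Fin 8)), ∑ B : Fin dm,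
          ‖((fderiv ℝ χ w (EuclideanSpace.single (j, B) 1) : ℝ) : ℂ) • v‖ ≤
          dm * ((if ε * R / 2 ≤ ‖w‖ then 2 * M / (ε * R) ^ 2 * ‖w‖ else 0) * ‖v‖) := by
        intro j _
        have h' : ∀ B ∈ (Finset.univ : Finset (Fin dm)),
            ‖((fderiv ℝ χ w (EuclideanSpace.single (j, B) 1) : ℝ) : ℂ) • v‖ ≤
            (if ε * R / 2 ≤ ‖w‖ then 2 * M / (ε * R) ^ 2 * ‖w‖ else 0) * ‖v‖ := by
          intro B _
          rw [norm_smul, Complex.norm_real, Real.norm_eq_abs]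
          exact mul_le_mul_of_nonneg_right (hχf w (j, B)) (norm_nonneg _)
        refine (Finset.sum_le_sum h').trans (le_of_eq ?_)
        rw [Finset.sum_const, Finset.card_univ, Fintype.card_fin, nsmul_eq_mul]
      refine (Finset.sum_le_sum this).trans (le_of_eq ?_)
      rw [Finset.sum_const, Finset.card_univ, Fintype.card_fin, nsmul_eq_mul]
      push_cast
      ring
    refine (e1.trans (mul_le_mul_of_nonneg_left (mul_le_mul_of_nonneg_left e2 (norm_nonneg _)) (by positivity))).trans ?_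
    split_ifs with hw
    · have e3 : C0 / R ≤ C0 := by
        rw [div_le_iff₀ hR0]
        nlinarith
      have e4 : 2 * M / (ε * R) ^ 2 ≤ 2 * M / ε ^ 2 := by
        apply div_le_div_of_nonneg_left (by positivity) (by positivity)
        rw [mul_pow]
        have : 1 ≤ R ^ 2 := by nlinarith
        nlinarith [sq_nonneg ε]
      calc k2 * (C0 / R) * (‖w‖ * (8 * (dm * (2 * M / (ε * R) ^ 2 * ‖w‖ * ‖v‖))))
          ≤ k2 * C0 * (‖w‖ * (8 * (dm * (2 * M / ε ^ 2 * ‖w‖ * ‖v‖)))) := by gcongr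
        _ = _ := by ring
    · simp
  obtain ⟨W, hW⟩ : ∃ W : Wsp dm → F, W = fun w => ((b w : ℝ) : ℂ) • drX S φ β G (fun w => χ w * b w) v w -
    ((b w : ℝ) : ℂ) • drX S φ β G b v w := ⟨_, rfl⟩
  have hWn : ∀ w, ‖W w‖ ≤ a * ‖v‖ * ((if ε / 2 * R ≤ ‖w‖ then (‖w‖ ^ 0 * b w) ^ 2 else 0) +
      (if ε / 2 * R ≤ ‖w‖ then (‖w‖ ^ 1 * b w) ^ 2 else 0)) := by
    intro w
    have e0 : ε / 2 * R = ε * R / 2 := by ring
    have e1 : W w = ((b w * (χ w - 1) : ℝ) : ℂ) • drX S φ β G b v w + ((b w ^ 2 : ℝ) : ℂ) • E w := by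
      rw [hW]
      simp only [hmul, smul_add, smul_smul]
      push_cast
      rw [mul_sub, sub_smul, mul_one]
      rw [sq]
      abel
    have e2 := hEn w
    have e3 := hZ w
    have hbw := (hbp w).le
    rw [e0]
    by_cases hw : ε * R / 2 ≤ ‖w‖
    · rw [if_pos hw] at e2
      rw [if_pos hw, if_pos hw, e1]
      refine (norm_add_le _ _).trans ?_
      rw [norm_smul, norm_smul, Complex.norm_real, Complex.norm_real, Real.norm_eq_abs, Real.norm_eq_abs, abs_mul,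
        abs_of_nonneg hbw, abs_of_nonneg (sq_nonneg (b w))]
      have e4 : b w * |χ w - 1| * ‖drX S φ β G b v w‖ ≤ b w * 1 * (k1 * (1 + C0) ^ 2 * (1 + ‖w‖ ^ 2) * b w * ‖v‖) :=
        mul_le_mul (mul_le_mul_of_nonneg_left (hχb w) hbw) e3 (norm_nonneg _) (by positivity)
      have e5 : b w ^ 2 * ‖E w‖ ≤ b w ^ 2 * (k2 * C0 * (8 * dm * (2 * M / ε ^ 2)) * ‖v‖ * ‖w‖ ^ 2) :=
        mul_le_mul_of_nonneg_left e2 (sq_nonneg _)
      refine (add_le_add e4 e5).trans ?_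
      have e6 : 0 ≤ k2 * C0 * (8 * dm * (2 * M / ε ^ 2)) * ‖v‖ * b w ^ 2 := by positivity
      rw [ha]
      have e7 : (k1 * (1 + C0) ^ 2 + k2 * C0 * (8 * dm * (2 * M / ε ^ 2))) * ‖v‖ *
          ((‖w‖ ^ 0 * b w) ^ 2 + (‖w‖ ^ 1 * b w) ^ 2) =
          b w * 1 * (k1 * (1 + C0) ^ 2 * (1 + ‖w‖ ^ 2) * b w * ‖v‖) +
          b w ^ 2 * (k2 * C0 * (8 * dm * (2 * M / ε ^ 2)) * ‖v‖ * ‖w‖ ^ 2) +
          k2 * C0 * (8 * dm * (2 * M / ε ^ 2)) * ‖v‖ * b w ^ 2 := by ring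
      rw [e7]
      linarith
    · rw [if_neg hw] at e2
      rw [if_neg hw, if_neg hw, e1]
      have e4 : E w = 0 := by
        have := norm_nonneg (E w)
        rw [mul_zero] at e2
        exact norm_eq_zero.1 (le_antisymm e2 this)
      rw [hχ1 w (not_le.1 hw), e4]
      simp
  have hHi : Integrable fun w : Wsp dm => (if ε / 2 * R ≤ ‖w‖ then (‖w‖ ^ 0 * b w) ^ 2 else 0) +
      (if ε / 2 * R ≤ ‖w‖ then (‖w‖ ^ 1 * b w) ^ 2 else 0) := by
    have hms : MeasurableSet {w : Wsp dm | ε / 2 * R ≤ ‖w‖} := measurableSet_le measurable_const measurable_norm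
    exact ((hbi 0).indicator hms).add ((hbi 1).indicator hms)
  have hms : MeasurableSet {w : Wsp dm | ε / 2 * R ≤ ‖w‖} := measurableSet_le measurable_const measurable_norm
  have hWc : Continuous W := by
    rw [hW]
    refine Continuous.sub ?_ hZc
    exact (Complex.continuous_ofReal.comp hsm.continuous).smul
      (drX_cont S φ β G ((hχs.mul hsm).of_le (by norm_num)) v)
  have hWi : Integrable W := (hHi.const_mul (a * ‖v‖)).mono' hWc.aestronglyMeasurable (Eventually.of_forall hWn)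
  have hsplit : ∫ w, ((b w : ℝ) : ℂ) • drX S φ β G (fun w => χ w * b w) v w =
      (∫ w, ((b w : ℝ) : ℂ) • drX S φ β G b v w) + ∫ w, W w := by
    rw [← integral_add hZi hWi]
    refine integral_congr_ae (Eventually.of_forall fun w => ?_)
    simp only [hW]
    abel
  have hvac := dr7_vac0 S φ hQ h1 h2 hV hB hyU hv β
  rw [← hb, ← hGd] at hvac
  rw [hsplit, map_add, hvac, zero_add]
  refine (Submodule.norm_starProjection_apply_le _ _).trans ?_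
  refine (norm_integral_le_integral_norm _).trans ?_
  have hfin : ∫ w, ‖W w‖ ≤ ∫ w, a * ‖v‖ * ((if ε / 2 * R ≤ ‖w‖ then (‖w‖ ^ 0 * b w) ^ 2 else 0) +
      (if ε / 2 * R ≤ ‖w‖ then (‖w‖ ^ 1 * b w) ^ 2 else 0)) :=
    integral_mono hWi.norm (hHi.const_mul (a * ‖v‖)) hWn
  refine hfin.trans ?_
  have hint : ∫ w : Wsp dm, ((if ε / 2 * R ≤ ‖w‖ then (‖w‖ ^ 0 * b w) ^ 2 else 0) +
      (if ε / 2 * R ≤ ‖w‖ then (‖w‖ ^ 1 * b w) ^ 2 else 0)) =
      (∫ w : Wsp dm, (if ε / 2 * R ≤ ‖w‖ then (‖w‖ ^ 0 * b w) ^ 2 else 0)) +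
      ∫ w : Wsp dm, (if ε / 2 * R ≤ ‖w‖ then (‖w‖ ^ 1 * b w) ^ 2 else 0) :=
    integral_add ((hbi 0).indicator hms) ((hbi 1).indicator hms)
  rw [integral_const_mul, hint]
  have t0 := hC' R hR y hy 0 (by norm_num)
  have t1 := hC' R hR y hy 1 (by norm_num)
  rw [← hb] at t0 t1
  have e8 : C' * (1 / R) ^ 8 ≤ |C'| * (1 / R) ^ 8 := mul_le_mul_of_nonneg_right (le_abs_self _) (by positivity)
  calc a * ‖v‖ * ((∫ w : Wsp dm, (if ε / 2 * R ≤ ‖w‖ then (‖w‖ ^ 0 * b w) ^ 2 else 0)) +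
      ∫ w : Wsp dm, (if ε / 2 * R ≤ ‖w‖ then (‖w‖ ^ 1 * b w) ^ 2 else 0))
      ≤ a * ‖v‖ * (|C'| * (1 / R) ^ 8 + |C'| * (1 / R) ^ 8) :=
        mul_le_mul_of_nonneg_left (add_le_add (t0.trans e8) (t1.trans e8)) (by positivity)
    _ = _ := by ring

end Vale.Agent.P353.Z.AE
end
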