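import Mathlib
import Vale.Agent.P353.BdZ.B3
import Vale.Agent.P353.BdA.B1

set_option linter.all false

section

/-! # P353, all `N`, block C: gain from the mass in a central direction (C-Mass) -/

open MeasureTheory Filter Topology
open scoped ContDiff Matrix

namespace Vale.Agent.P353.Z.AN.MassPf

variable {n : ℕ} {F : Type*} [NormedAddCommGroup F] [InnerProductSpace ℂ F]

/-- `-i ∑ a_k ∂_k + T` -/
noncomputable def QG (a : Fin 9 → Fin n → F →L[ℂ] F) (T : Cfg n → F →L[ℂ] F)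
    (u : Cfg n → F) (x : Cfg n) : F :=
  (-Complex.I) • ∑ i, ∑ A, a i A (pd i A u x) + T x (u x)

variable {a b : Fin 9 → Fin n → F →L[ℂ] F} {T X : Cfg n → F →L[ℂ] F}

lemma contDiff_QG (hT : ContDiff ℝ ∞ T) {u : Cfg n → F} (hu : ContDiff ℝ ∞ u) :
    ContDiff ℝ ∞ (QG a T u) := by
  unfold QG
  refine ContDiff.add (contDiff_const.smul (ContDiff.sum fun i _ => ContDiff.sum fun A _ => ?_))
    (Setup.contDiff_clm_apply' hT hu)
  exact Setup.contDiff_clm_apply' contDiff_const (contDiff_pd hu)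

lemma hasCompactSupport_QG {u : Cfg n → F} (hu : HasCompactSupport u) :
    HasCompactSupport (QG a T u) := by
  refine HasCompactSupport.intro' (K := tsupport u) hu (isClosed_tsupport u) ?_
  intro x hx
  have h0 : u x = 0 := image_eq_zero_of_notMem_tsupport hx
  have h1 : ∀ i A, pd i A u x = 0 := by
    intro i A
    have : fderiv ℝ u x = 0 := by
      have h := (tsupport_fderiv_subset ℝ (f := u))
      by_contra hne
      exact hx (h (subset_tsupport _ hne))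
    simp [pd, this]
  simp [QG, h0, h1]

lemma tst_QG (hT : ContDiff ℝ ∞ T) {u : Cfg n → F} (hu : Setup.Tst u) : Setup.Tst (QG a T u) :=
  ⟨contDiff_QG hT hu.1, hasCompactSupport_QG hu.2⟩

/-- symmetry -/
theorem QG_symm (hT : ContDiff ℝ ∞ T) (ha : ∀ i A v w, inner ℂ (a i A v) w = inner ℂ v (a i A w))
    (hs : ∀ x v w, inner ℂ (T x v) w = inner ℂ v (T x w)) (u v : Cfg n → F)
    (hu : Setup.Tst u) (hv : ContDiff ℝ ∞ v) :
    ∫ x, inner ℂ (QG a T u x) (v x) = ∫ x, inner ℂ (u x) (QG a T v x) := by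
  have hv1 : ContDiff ℝ 1 v := hv.of_le (by simp)
  have hu1 : ContDiff ℝ 1 u := hu.1.of_le (by simp)
  have hpt : ∀ x, inner ℂ (QG a T u x) (v x) - inner ℂ (u x) (QG a T v x) =
      ∑ i, ∑ A, Complex.I * (fderiv ℝ (fun y => inner ℂ (u y) (a i A (v y))) x
        (EuclideanSpace.single (i, A) (1 : ℝ))) := by
    intro x
    have hd : ∀ i A, fderiv ℝ (fun y => inner ℂ (u y) (a i A (v y))) x
        (EuclideanSpace.single (i, A) (1 : ℝ)) =
        inner ℂ (u x) (a i A (pd i A v x)) +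
          inner ℂ (pd i A u x) (a i A (v x)) := by
      intro i A
      have hdv : DifferentiableAt ℝ v x := (hv1.differentiable (by simp)) x
      have hdT : DifferentiableAt ℝ (fun y => a i A (v y)) x :=
        ((a i A).restrictScalars ℝ).differentiableAt.comp x hdv
      rw [fderiv_inner_apply ℂ ((hu1.differentiable (by simp)) x) hdT]
      have := pd_clm (i := i) (A := A) (a i A) hdv
      unfold pd at this ⊢
      rw [this]
    simp only [hd, QG, inner_add_left, inner_add_right, inner_smul_left, inner_smul_right,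
      sum_inner, inner_sum, hs, ha]
    simp only [map_neg, Complex.conj_I, neg_neg]
    simp only [mul_add, Finset.sum_add_distrib, Finset.mul_sum]
    simp only [neg_mul, Finset.sum_neg_distrib]
    ring
  have hI : ∫ x, (inner ℂ (QG a T u x) (v x) - inner ℂ (u x) (QG a T v x)) = 0 := by
    simp only [hpt]
    have hw : ∀ i A, ContDiff ℝ 1 (fun y => inner ℂ (u y) (a i A (v y))) := by
      intro i A
      exact hu1.inner ℂ ((a i A).restrictScalars ℝ |>.contDiff.comp hv1)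
    have hcs : ∀ i A, HasCompactSupport (fun y => inner ℂ (u y) (a i A (v y))) :=
      fun i A => hu.inner_cs
    have hint : ∀ i A, Integrable (fun x => fderiv ℝ (fun y => inner ℂ (u y)
        (a i A (v y))) x (EuclideanSpace.single (i, A) (1 : ℝ))) := by
      intro i A
      exact (((hw i A).continuous_fderiv (by simp)).clm_apply
        continuous_const).integrable_of_hasCompactSupport ((hcs i A).fderiv_apply (𝕜 := ℝ) _)
    rw [integral_finsetSum _ fun i _ => integrable_finsetSum _ fun A _ => (hint i A).const_mul _]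
    refine Finset.sum_eq_zero fun i _ => ?_
    rw [integral_finsetSum _ fun A _ => (hint i A).const_mul _]
    refine Finset.sum_eq_zero fun A _ => ?_
    rw [integral_const_mul, integral_fderiv_eq_zero _ (hw i A) (hcs i A), mul_zero]
  rw [integral_sub ((tst_QG hT hu).inner_int hv.continuous)
    (hu.inner_int (contDiff_QG hT hv).continuous)] at hI
  exact sub_eq_zero.mp hI

lemma pd_QG (hT : ContDiff ℝ ∞ T) {u : Cfg n → F} (hu : ContDiff ℝ ∞ u) (j : Fin 9) (B : Fin n)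
    (x : Cfg n) :
    pd j B (QG a T u) x = (-Complex.I) • ∑ i, ∑ A, a i A (pd j B (pd i A u) x)
      + (fderiv ℝ T x (EuclideanSpace.single (j, B) 1)) (u x) + T x (pd j B u x) := by
  have hd : ∀ i A, DifferentiableAt ℝ (pd i A u) x := fun i A =>
    (contDiff_pd hu).differentiable (by simp) x
  have hdv : ∀ i A, DifferentiableAt ℝ (fun y => a i A (pd i A u y)) x := fun i A =>
    ((a i A).restrictScalars ℝ).differentiableAt.comp x (hd i A)
  have hWd : DifferentiableAt ℝ T x := hT.differentiable (by simp) x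
  have hud : DifferentiableAt ℝ u x := hu.differentiable (by simp) x
  have h1 : DifferentiableAt ℝ (fun y => (-Complex.I) • ∑ i, ∑ A, a i A (pd i A u y)) x := by
    refine DifferentiableAt.const_smul ?_ _
    refine DifferentiableAt.fun_sum fun i _ => DifferentiableAt.fun_sum fun A _ => hdv i A
  have h2 : DifferentiableAt ℝ (fun y => T y (u y)) x :=
    (Setup.contDiff_clm_apply' hT hu).differentiable (by simp) x
  have e : QG a T u = fun y => (-Complex.I) • ∑ i, ∑ A, a i A (pd i A u y) + T y (u y) := rfl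
  rw [e, pd_add h1 h2, pd_clm_apply hWd hud, ← add_assoc]
  congr 2
  have h3 : pd j B (fun y => (-Complex.I) • ∑ i, ∑ A, a i A (pd i A u y)) x =
      (-Complex.I) • pd j B (fun y => ∑ i, ∑ A, a i A (pd i A u y)) x := by
    unfold pd
    rw [fderiv_fun_const_smul]
    · rfl
    · exact DifferentiableAt.fun_sum fun i _ => DifferentiableAt.fun_sum fun A _ => hdv i A
  rw [h3]
  congr 1
  rw [pd_sum _ (fun i _ => DifferentiableAt.fun_sum fun A _ => hdv i A)]
  refine Finset.sum_congr rfl fun i _ => ?_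
  rw [pd_sum _ (fun A _ => hdv i A)]
  refine Finset.sum_congr rfl fun A _ => ?_
  rw [pd_clm _ (hd i A)]

/-- composition of two such operators -/
lemma QG_QG (hX : ContDiff ℝ ∞ X) {u : Cfg n → F} (hu : ContDiff ℝ ∞ u) (x : Cfg n) :
    QG a T (QG b X u) x = -(∑ j, ∑ B, ∑ i, ∑ A, a j B (b i A (pd j B (pd i A u) x)))
      + (-Complex.I) • (∑ j, ∑ B, a j B (fderiv ℝ X x (EuclideanSpace.single (j, B) 1) (u x)))
      + (-Complex.I) • (∑ j, ∑ B, a j B (X x (pd j B u x)))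
      + (-Complex.I) • (∑ i, ∑ A, T x (b i A (pd i A u x)))
      + T x (X x (u x)) := by
  conv_lhs => rw [QG]
  simp only [pd_QG hX hu]
  rw [QG]
  simp only [map_add, map_smul, map_sum, Finset.sum_add_distrib, smul_add,
    ← Finset.smul_sum, smul_smul]
  have hI : (-Complex.I) * (-Complex.I) = -1 := by
    rw [neg_mul_neg, Complex.I_mul_I]
  rw [hI, neg_one_smul]
  abel

/-- two anticommuting operators have orthogonal ranges -/
theorem cross_zero (hT : ContDiff ℝ ∞ T) (hX : ContDiff ℝ ∞ X)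
    (ha : ∀ i A v w, inner ℂ (a i A v) w = inner ℂ v (a i A w))
    (hb : ∀ i A v w, inner ℂ (b i A v) w = inner ℂ v (b i A w))
    (hTs : ∀ x v w, inner ℂ (T x v) w = inner ℂ v (T x w))
    (hXs : ∀ x v w, inner ℂ (X x v) w = inner ℂ v (X x w))
    (hab : ∀ i A j B v, a i A (b j B v) + b j B (a i A v) = 0)
    (haX : ∀ i A x v, a i A (X x v) + X x (a i A v) = 0)
    (hTb : ∀ i A x v, T x (b i A v) + b i A (T x v) = 0)
    (hTX : ∀ x v, T x (X x v) + X x (T x v) = 0)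
    (hdX : ∀ x v, ∑ j, ∑ B, a j B (fderiv ℝ X x (EuclideanSpace.single (j, B) 1) v) = 0)
    (hdT : ∀ x v, ∑ j, ∑ B, b j B (fderiv ℝ T x (EuclideanSpace.single (j, B) 1) v) = 0)
    {u : Cfg n → F} (hu : Setup.Tst u) :
    (∫ x, inner ℂ (QG a T u x) (QG b X u x)).re = 0 := by
  have h1 : ∫ x, inner ℂ (QG a T u x) (QG b X u x) = ∫ x, inner ℂ (u x) (QG a T (QG b X u) x) :=
    QG_symm hT ha hTs u _ hu (contDiff_QG hX hu.1)
  have h2 : ∫ x, inner ℂ (QG b X u x) (QG a T u x) = ∫ x, inner ℂ (u x) (QG b X (QG a T u) x) :=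
    QG_symm hX hb hXs u _ hu (contDiff_QG hT hu.1)
  have h3 : (∫ x, inner ℂ (QG a T u x) (QG b X u x)) =
      (starRingEnd ℂ) (∫ x, inner ℂ (QG b X u x) (QG a T u x)) := by
    rw [← integral_conj]
    refine integral_congr_ae (Eventually.of_forall fun x => ?_)
    exact (inner_conj_symm _ _).symm
  have h4 : ∀ x, QG a T (QG b X u) x + QG b X (QG a T u) x = 0 := by
    intro x
    rw [QG_QG hX hu.1, QG_QG hT hu.1, hdX x (u x), hdT x (u x)]
    have e1 : ∑ j, ∑ B, ∑ i, ∑ A, b j B (a i A (pd j B (pd i A u) x)) =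
        -∑ j, ∑ B, ∑ i, ∑ A, a j B (b i A (pd j B (pd i A u) x)) := by
      have e2 : ∑ j, ∑ B, ∑ i, ∑ A, b j B (a i A (pd j B (pd i A u) x)) =
          ∑ i, ∑ A, ∑ j, ∑ B, b j B (a i A (pd j B (pd i A u) x)) := by
        have : ∀ f : (Fin 9 × Fin n) → (Fin 9 × Fin n) → F,
            ∑ j, ∑ B, ∑ i, ∑ A, f (j, B) (i, A) = ∑ i, ∑ A, ∑ j, ∑ B, f (j, B) (i, A) := by
          intro f
          have g1 : ∑ j, ∑ B, ∑ i, ∑ A, f (j, B) (i, A) =
              ∑ p : Fin 9 × Fin n, ∑ q : Fin 9 × Fin n, f p q := by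
            rw [Fintype.sum_prod_type]; simp only [Fintype.sum_prod_type]
          have g2 : ∑ i, ∑ A, ∑ j, ∑ B, f (j, B) (i, A) =
              ∑ q : Fin 9 × Fin n, ∑ p : Fin 9 × Fin n, f p q := by
            rw [Fintype.sum_prod_type]; simp only [Fintype.sum_prod_type]
          rw [g1, g2]; exact Finset.sum_comm
        exact this fun p q => b p.1 p.2 (a q.1 q.2 (pd p.1 p.2 (pd q.1 q.2 u) x))
      rw [e2, ← Finset.sum_neg_distrib]
      refine Finset.sum_congr rfl fun i _ => ?_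
      rw [← Finset.sum_neg_distrib]
      refine Finset.sum_congr rfl fun A _ => ?_
      rw [← Finset.sum_neg_distrib]
      refine Finset.sum_congr rfl fun j _ => ?_
      rw [← Finset.sum_neg_distrib]
      refine Finset.sum_congr rfl fun B _ => ?_
      rw [pd_comm hu.1 j i B A x]
      exact eq_neg_of_add_eq_zero_right (hab _ _ _ _ _)
    have e3 : ∑ j, ∑ B, a j B (X x (pd j B u x)) + ∑ i, ∑ A, X x (a i A (pd i A u x)) = 0 := by
      rw [← Finset.sum_add_distrib]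
      refine Finset.sum_eq_zero fun j _ => ?_
      rw [← Finset.sum_add_distrib]
      exact Finset.sum_eq_zero fun B _ => haX _ _ _ _
    have e4 : ∑ i, ∑ A, T x (b i A (pd i A u x)) + ∑ j, ∑ B, b j B (T x (pd j B u x)) = 0 := by
      rw [← Finset.sum_add_distrib]
      refine Finset.sum_eq_zero fun j _ => ?_
      rw [← Finset.sum_add_distrib]
      exact Finset.sum_eq_zero fun B _ => hTb _ _ _ _
    have e5 := hTX x (u x)
    rw [e1]
    rw [eq_neg_of_add_eq_zero_left e3, eq_neg_of_add_eq_zero_left e4, eq_neg_of_add_eq_zero_left e5]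
    simp only [smul_zero, smul_neg, neg_neg]
    abel
  have h5 : (∫ x, inner ℂ (QG a T u x) (QG b X u x)) + ∫ x, inner ℂ (QG b X u x) (QG a T u x) = 0 := by
    rw [h1, h2, ← integral_add (hu.inner_int (contDiff_QG hT (contDiff_QG hX hu.1)).continuous)
      (hu.inner_int (contDiff_QG hX (contDiff_QG hT hu.1)).continuous)]
    simp only [← inner_add_right, h4, inner_zero_right, integral_zero]
  have h6 := congrArg Complex.re h5
  rw [Complex.add_re, Complex.zero_re] at h6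
  have h7 := congrArg Complex.re h3
  rw [Complex.conj_re] at h7
  linarith

/-- the norm of a sum -/
lemma nsq_add {u v : Cfg n → F} (hu : Setup.Tst u) (hv : Setup.Tst v) :
    nsq (fun x => u x + v x) = nsq u + nsq v + 2 * (∫ x, inner ℂ (u x) (v x)).re := by
  have h1 : ∀ x, ‖u x + v x‖ ^ 2 = ‖u x‖ ^ 2 + ‖v x‖ ^ 2 + 2 * (inner ℂ (u x) (v x)).re := by
    intro x
    have := norm_add_sq (𝕜 := ℂ) (u x) (v x)
    simp only [RCLike.re_to_complex] at this
    rw [this]; ring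
  have hi : Integrable (fun x => inner ℂ (u x) (v x)) := hu.inner_int hv.1.continuous
  have h2 : (∫ x, inner ℂ (u x) (v x)).re = ∫ x, (inner ℂ (u x) (v x)).re := by
    have := integral_re hi
    simpa using this.symm
  unfold nsq
  rw [h2]
  simp only [h1]
  have j1 : Integrable (fun x => ‖u x‖ ^ 2 + ‖v x‖ ^ 2) := hu.norm_sq_int.add hv.norm_sq_int
  have j2 : Integrable (fun x => 2 * (inner ℂ (u x) (v x)).re) := hi.re.const_mul 2
  rw [integral_add j1 j2, integral_add hu.norm_sq_int hv.norm_sq_int, integral_const_mul]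

lemma nsq_nonneg (u : Cfg n → F) : 0 ≤ nsq u := integral_nonneg fun x => by positivity

/-- lower bound for a family of operators whose first order terms cancel -/
theorem fam_lower (a : Fin 16 → Fin 9 → Fin n → F →L[ℂ] F) (T : Fin 16 → Cfg n → F →L[ℂ] F)
    (hT : ∀ β, ContDiff ℝ ∞ (T β))
    (ha : ∀ β i A v w, inner ℂ (a β i A v) w = inner ℂ v (a β i A w))
    (hTs : ∀ β x v w, inner ℂ (T β x v) w = inner ℂ v (T β x w))
    (hfirst : ∀ i A x v, ∑ β, (a β i A (T β x v) + T β x (a β i A v)) = 0)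
    (q : Cfg n → ℝ) (hq : Continuous q) (hTT : ∀ x v, ∑ β, T β x (T β x v) = ((q x : ℝ) : ℂ) • v)
    (K : F →L[ℂ] F) (hK : ∀ x v, (-Complex.I) • ∑ β, ∑ j, ∑ B,
      a β j B (fderiv ℝ (T β) x (EuclideanSpace.single (j, B) 1) v) = K v)
    {u : Cfg n → F} (hu : Setup.Tst u) :
    (∫ x, q x * ‖u x‖ ^ 2) - ‖K‖ * nsq u ≤ ∑ β, nsq (QG (a β) (T β) u) := by
  -- split off the derivative part
  set Z : Cfg n → F →L[ℂ] F := fun _ => 0 with hZ
  have hZc : ContDiff ℝ ∞ Z := contDiff_const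
  have hZs : ∀ x v w, inner ℂ (Z x v) w = inner ℂ v (Z x w) := by
    intro x v w; simp [hZ]
  have hTu : ∀ β, Setup.Tst (fun x => T β x (u x)) := fun β => Setup.Tst.clm (hT β) hu
  have hDu : ∀ β, Setup.Tst (QG (a β) Z u) := fun β => tst_QG hZc hu
  have e0 : ∀ β, QG (a β) (T β) u = fun x => QG (a β) Z u x + T β x (u x) := by
    intro β; funext x; simp [QG, hZ]
  have e1 : ∀ β, nsq (QG (a β) (T β) u) = nsq (QG (a β) Z u) + nsq (fun x => T β x (u x)) +
      2 * (∫ x, inner ℂ (QG (a β) Z u x) (T β x (u x))).re := by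
    intro β
    rw [e0 β, nsq_add (hDu β) (hTu β)]
  -- the norm of the multiplier
  have e2 : ∑ β, nsq (fun x => T β x (u x)) = ∫ x, q x * ‖u x‖ ^ 2 := by
    unfold nsq
    rw [← integral_finsetSum _ fun β _ => (hTu β).norm_sq_int]
    refine integral_congr_ae (Eventually.of_forall fun x => ?_)
    have h1 : ∀ β, ((‖T β x (u x)‖ ^ 2 : ℝ) : ℂ) = inner ℂ (u x) (T β x (T β x (u x))) := by
      intro β
      rw [← hTs, inner_self_eq_norm_sq_to_K]
      norm_cast
    have h2 : ((∑ β, ‖T β x (u x)‖ ^ 2 : ℝ) : ℂ) = ((q x * ‖u x‖ ^ 2 : ℝ) : ℂ) := by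
      rw [Complex.ofReal_sum]
      simp only [h1]
      rw [← inner_sum, hTT, inner_smul_right, inner_self_eq_norm_sq_to_K]
      push_cast
      rfl
    exact_mod_cast h2
  -- the cross terms
  have e3 : ∑ β, 2 * (∫ x, inner ℂ (QG (a β) Z u x) (T β x (u x))).re =
      (∫ x, inner ℂ (u x) (K (u x))).re := by
    have h1 : ∀ β, ∫ x, inner ℂ (QG (a β) Z u x) (T β x (u x)) =
        ∫ x, inner ℂ (u x) (QG (a β) Z (fun y => T β y (u y)) x) := fun β =>
      QG_symm hZc (ha β) hZs u _ hu (Setup.contDiff_clm_apply' (hT β) hu.1)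
    have h2 : ∀ β, ∫ x, inner ℂ (T β x (u x)) (QG (a β) Z u x) =
        ∫ x, inner ℂ (u x) (T β x (QG (a β) Z u x)) := by
      intro β
      refine integral_congr_ae (Eventually.of_forall fun x => ?_)
      exact hTs _ _ _ _
    have h3 : ∀ β, (∫ x, inner ℂ (QG (a β) Z u x) (T β x (u x))).re =
        (∫ x, inner ℂ (T β x (u x)) (QG (a β) Z u x)).re := by
      intro β
      have : (∫ x, inner ℂ (QG (a β) Z u x) (T β x (u x))) =
          (starRingEnd ℂ) (∫ x, inner ℂ (T β x (u x)) (QG (a β) Z u x)) := by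
        rw [← integral_conj]
        refine integral_congr_ae (Eventually.of_forall fun x => ?_)
        exact (inner_conj_symm _ _).symm
      rw [this, Complex.conj_re]
    have i1 : ∀ β, Integrable fun x => inner ℂ (u x) (QG (a β) Z (fun y => T β y (u y)) x) :=
      fun β => hu.inner_int (contDiff_QG hZc (Setup.contDiff_clm_apply' (hT β) hu.1)).continuous
    have i2 : ∀ β, Integrable fun x => inner ℂ (u x) (T β x (QG (a β) Z u x)) :=
      fun β => hu.inner_int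
        (Setup.contDiff_clm_apply' (hT β) (contDiff_QG hZc hu.1)).continuous
    have h4 : ∀ β, 2 * (∫ x, inner ℂ (QG (a β) Z u x) (T β x (u x))).re =
        (∫ x, (inner ℂ (u x) (QG (a β) Z (fun y => T β y (u y)) x) +
          inner ℂ (u x) (T β x (QG (a β) Z u x)))).re := by
      intro β
      rw [integral_add (i1 β) (i2 β), Complex.add_re, ← h1 β, ← h2 β, ← h3 β]
      ring
    simp only [h4]
    have i3 : ∀ β ∈ (Finset.univ : Finset (Fin 16)), Integrable fun x =>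
        (inner ℂ (u x) (QG (a β) Z (fun y => T β y (u y)) x) +
          inner ℂ (u x) (T β x (QG (a β) Z u x))) := fun β _ => (i1 β).add (i2 β)
    rw [← Complex.re_sum, ← integral_finsetSum _ i3]
    congr 1
    refine integral_congr_ae (Eventually.of_forall fun x => ?_)
    show ∑ β, (inner ℂ (u x) (QG (a β) Z (fun y => T β y (u y)) x) +
      inner ℂ (u x) (T β x (QG (a β) Z u x))) = inner ℂ (u x) (K (u x))
    simp only [← inner_add_right]
    rw [← inner_sum]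
    congr 1
    have hp : ∀ β j B, pd j B (fun y => T β y (u y)) x =
        (fderiv ℝ (T β) x (EuclideanSpace.single (j, B) 1)) (u x) + T β x (pd j B u x) :=
      fun β j B => pd_clm_apply ((hT β).differentiable (by simp) x) (hu.diff x)
    have h5 : ∀ β, QG (a β) Z (fun y => T β y (u y)) x + T β x (QG (a β) Z u x) =
        (-Complex.I) • (∑ j, ∑ B, a β j B (fderiv ℝ (T β) x (EuclideanSpace.single (j, B) 1) (u x))) +
        (-Complex.I) • ∑ j, ∑ B, (a β j B (T β x (pd j B u x)) + T β x (a β j B (pd j B u x))) := by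
      intro β
      simp only [QG, hZ, hp, _root_.zero_apply, add_zero, map_add, map_smul, map_sum,
        Finset.sum_add_distrib, smul_add]
      abel
    simp only [h5]
    rw [Finset.sum_add_distrib, ← Finset.smul_sum, hK, ← Finset.smul_sum]
    have h6 : ∑ β, ∑ j, ∑ B, (a β j B (T β x (pd j B u x)) + T β x (a β j B (pd j B u x))) = 0 := by
      rw [Finset.sum_comm]
      refine Finset.sum_eq_zero fun j _ => ?_
      rw [Finset.sum_comm]
      exact Finset.sum_eq_zero fun B _ => hfirst _ _ _ _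
    rw [h6, smul_zero, add_zero]
  -- the constant term
  have e4 : -(‖K‖ * nsq u) ≤ (∫ x, inner ℂ (u x) (K (u x))).re := by
    have hi : Integrable fun x => inner ℂ (u x) (K (u x)) :=
      hu.inner_int (K.continuous.comp hu.1.continuous)
    have h1 : (∫ x, inner ℂ (u x) (K (u x))).re = ∫ x, (inner ℂ (u x) (K (u x))).re := by
      have := integral_re hi
      simpa using this.symm
    rw [h1, nsq, ← integral_const_mul, ← integral_neg]
    refine integral_mono (hu.norm_sq_int.const_mul _).neg (hi.re.congr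
      (Eventually.of_forall fun x => by simp)) fun x => ?_
    have h2 : |(inner ℂ (u x) (K (u x))).re| ≤ ‖K‖ * ‖u x‖ ^ 2 := by
      calc |(inner ℂ (u x) (K (u x))).re| ≤ ‖inner ℂ (u x) (K (u x))‖ := Complex.abs_re_le_norm _
        _ ≤ ‖u x‖ * ‖K (u x)‖ := norm_inner_le_norm _ _
        _ ≤ ‖u x‖ * (‖K‖ * ‖u x‖) := by gcongr; exact K.le_opNorm _
        _ = ‖K‖ * ‖u x‖ ^ 2 := by ring
    exact neg_le_of_abs_le h2
  have e5 : 0 ≤ ∑ β, nsq (QG (a β) Z u) := Finset.sum_nonneg fun β _ => nsq_nonneg _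
  simp only [e1, Finset.sum_add_distrib, e2, e3]
  linarith

end Vale.Agent.P353.Z.AN.MassPf

namespace Vale.Agent.P353.Z.AN.MassPf

variable {d dh dm : ℕ} {F : Type*} [NormedAddCommGroup F] [InnerProductSpace ℂ F]
variable (S : Setup d F) (φ : Spl dh dm d) (c : Fin dh → ℝ)

/-- `(N θ_c)_β` -/
noncomputable def Vc (N : Matrix (Fin 16) (Fin 16) ℂ) (β : Fin 16) : F →L[ℂ] F :=
  ∑ A, ((c A : ℝ) : ℂ) • S.vec N (φ (Sum.inl A)) β

/-- `(N θ^A)_β` minus its component along `c` -/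
noncomputable def Vp (N : Matrix (Fin 16) (Fin 16) ℂ) (A : Fin dh) (β : Fin 16) : F →L[ℂ] F :=
  S.vec N (φ (Sum.inl A)) β - ((c A : ℝ) : ℂ) • Vc S φ c N β

lemma Vc_vec (N M : Matrix (Fin 16) (Fin 16) ℂ) (B : Fin dh) (β δ : Fin 16) :
    Vc S φ c N β * S.vec M (φ (Sum.inl B)) δ + S.vec M (φ (Sum.inl B)) δ * Vc S φ c N β =
      (((c B : ℝ) : ℂ) * (N * Mᵀ) β δ) • (1 : F →L[ℂ] F) := by
  unfold Vc
  rw [Finset.sum_mul, Finset.mul_sum, ← Finset.sum_add_distrib]
  have h : ∀ A, ((c A : ℝ) : ℂ) • S.vec N (φ (Sum.inl A)) β * S.vec M (φ (Sum.inl B)) δ +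
      S.vec M (φ (Sum.inl B)) δ * ((c A : ℝ) : ℂ) • S.vec N (φ (Sum.inl A)) β =
      if A = B then (((c A : ℝ) : ℂ) * (N * Mᵀ) β δ) • (1 : F →L[ℂ] F) else 0 := by
    intro A
    rw [smul_mul_assoc, mul_smul_comm, ← smul_add, S.vec_anti]
    simp only [EmbeddingLike.apply_eq_iff_eq, Sum.inl.injEq]
    by_cases hAB : A = B
    · simp [hAB, smul_smul]
    · simp [hAB]
  simp only [h, Finset.sum_ite_eq', Finset.mem_univ, if_true]

lemma Vc_Vc (hc : ∑ A, c A ^ 2 = 1) (N M : Matrix (Fin 16) (Fin 16) ℂ) (β δ : Fin 16) :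
    Vc S φ c N β * Vc S φ c M δ + Vc S φ c M δ * Vc S φ c N β =
      ((N * Mᵀ) β δ) • (1 : F →L[ℂ] F) := by
  have e : Vc S φ c M δ = ∑ B, ((c B : ℝ) : ℂ) • S.vec M (φ (Sum.inl B)) δ := rfl
  conv_lhs => rw [e]
  rw [Finset.sum_mul, Finset.mul_sum, ← Finset.sum_add_distrib]
  simp only [smul_mul_assoc, mul_smul_comm, ← smul_add, Vc_vec, smul_smul]
  rw [← Finset.sum_smul]
  congr 1
  have h1 : ∑ x, ((c x : ℝ) : ℂ) * (((c x : ℝ) : ℂ) * (N * Mᵀ) β δ) =
      (((∑ A, c A ^ 2 : ℝ)) : ℂ) * (N * Mᵀ) β δ := by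
    push_cast
    rw [Finset.sum_mul]
    exact Finset.sum_congr rfl fun x _ => by ring
  rw [h1, hc]
  simp

lemma anti (hc : ∑ A, c A ^ 2 = 1) (N M : Matrix (Fin 16) (Fin 16) ℂ) (B : Fin dh)
    (β δ : Fin 16) : Vc S φ c N β * Vp S φ c M B δ + Vp S φ c M B δ * Vc S φ c N β = 0 := by
  unfold Vp
  rw [mul_sub, sub_mul, mul_smul_comm, smul_mul_assoc, sub_add_sub_comm, ← smul_add,
    Vc_vec, Vc_Vc S φ c hc, smul_smul, sub_self]

lemma anti_apply (hc : ∑ A, c A ^ 2 = 1) (N M : Matrix (Fin 16) (Fin 16) ℂ) (B : Fin dh)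
    (β δ : Fin 16) (v : F) :
    Vc S φ c N β (Vp S φ c M B δ v) + Vp S φ c M B δ (Vc S φ c N β v) = 0 := by
  have h := congrArg (fun T : F →L[ℂ] F => T v) (anti S φ c hc N M B β δ)
  simpa only [_root_.add_apply, mul_apply_eq_comp, _root_.zero_apply] using h

lemma sum_Vp (hc : ∑ A, c A ^ 2 = 1) (N : Matrix (Fin 16) (Fin 16) ℂ) (β : Fin 16) :
    ∑ A, ((c A : ℝ) : ℂ) • Vp S φ c N A β = 0 := by
  unfold Vp
  simp only [smul_sub, Finset.sum_sub_distrib, smul_smul]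
  rw [← Finset.sum_smul]
  have h1 : ∑ A, ((c A : ℝ) : ℂ) * ((c A : ℝ) : ℂ) = 1 := by
    have : ∑ A, ((c A : ℝ) : ℂ) * ((c A : ℝ) : ℂ) = (((∑ A, c A ^ 2 : ℝ)) : ℂ) := by
      push_cast
      exact Finset.sum_congr rfl fun x _ => by ring
    rw [this, hc]; simp
  rw [h1, one_smul]
  exact sub_self _

lemma Vc_symm {N : Matrix (Fin 16) (Fin 16) ℂ} (hN : ∀ α β, (N α β).im = 0) (β : Fin 16) (v w : F) :
    inner ℂ (Vc S φ c N β v) w = inner ℂ v (Vc S φ c N β w) := by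
  unfold Vc
  simp only [_root_.sum_apply, _root_.smul_apply, sum_inner, inner_sum, inner_smul_left,
    inner_smul_right, S.vec_symm _ hN, Complex.conj_ofReal]

lemma Vp_symm {N : Matrix (Fin 16) (Fin 16) ℂ} (hN : ∀ α β, (N α β).im = 0) (A : Fin dh)
    (β : Fin 16) (v w : F) :
    inner ℂ (Vp S φ c N A β v) w = inner ℂ v (Vp S φ c N A β w) := by
  unfold Vp
  simp only [_root_.sub_apply, _root_.smul_apply, inner_sub_left, inner_sub_right, inner_smul_left,
    inner_smul_right, S.vec_symm _ hN, Vc_symm S φ c hN, Complex.conj_ofReal]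

lemma Vc_smul (s : ℂ) (N : Matrix (Fin 16) (Fin 16) ℂ) (β : Fin 16) :
    Vc S φ c (s • N) β = s • Vc S φ c N β := by
  unfold Vc
  simp only [S.vec_smul, Finset.smul_sum]
  exact Finset.sum_congr rfl fun A _ => smul_comm _ _ _

lemma Vc_sum {ι : Type*} (s : Finset ι) (N : ι → Matrix (Fin 16) (Fin 16) ℂ) (β : Fin 16) :
    Vc S φ c (∑ i ∈ s, N i) β = ∑ i ∈ s, Vc S φ c (N i) β := by
  unfold Vc
  simp only [S.vec_sum, Finset.smul_sum]
  rw [Finset.sum_comm]

/-- `y_{i,c}` -/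
noncomputable def yc (i : Fin 9) (y : Cfg dh) : ℝ := ∑ A, c A * y (i, A)

/-- mass matrix in direction `c` -/
noncomputable def tc (N : Fin 9 → Matrix (Fin 16) (Fin 16) ℂ) (m : ℝ) (y : Cfg dh) :
    Matrix (Fin 16) (Fin 16) ℂ := (m : ℂ) • ∑ i, ((yc c i y : ℝ) : ℂ) • N i

/-- multiplier of the `c` part -/
noncomputable def Tc (N : Fin 9 → Matrix (Fin 16) (Fin 16) ℂ) (m : ℝ) (β : Fin 16) (y : Cfg dh) :
    F →L[ℂ] F := (m : ℂ) • ∑ i, ((yc c i y : ℝ) : ℂ) • Vc S φ c (N i) β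

lemma Tc_eq (N : Fin 9 → Matrix (Fin 16) (Fin 16) ℂ) (m : ℝ) (β : Fin 16) (y : Cfg dh) :
    Tc S φ c N m β y = Vc S φ c (tc c N m y) β := by
  unfold Tc tc
  rw [Vc_smul, Vc_sum]
  simp only [Vc_smul]

/-- field strength of the subalgebra -/
noncomputable def FFh (A : Fin dh) (i j : Fin 9) (y : Cfg dh) : ℝ :=
  S.κ * ∑ B, ∑ C, S.f (φ (Sum.inl A)) (φ (Sum.inl B)) (φ (Sum.inl C)) * y (i, B) * y (j, C)

/-- multiplier of the rest -/
noncomputable def Xc (N : Fin 9 → Matrix (Fin 16) (Fin 16) ℂ) (m : ℝ) (β : Fin 16) (y : Cfg dh) :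
    F →L[ℂ] F :=
  (1 / 2 : ℂ) • (∑ A, ∑ i, ∑ j, ((FFh S φ A i j y : ℝ) : ℂ) • Vp S φ c (S.g2 i j) A β) +
    (m : ℂ) • ∑ i, ∑ A, ((y (i, A) : ℝ) : ℂ) • Vp S φ c (N i) A β

/-- coefficients -/
noncomputable def ac (β : Fin 16) (i : Fin 9) (A : Fin dh) : F →L[ℂ] F :=
  ((c A : ℝ) : ℂ) • Vc S φ c (S.g i) β

/-- coefficients -/
noncomputable def bc (β : Fin 16) (i : Fin 9) (A : Fin dh) : F →L[ℂ] F := Vp S φ c (S.g i) A β

variable {c}

/-- the decomposition of the block supercharge -/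
lemma Qhm_eq (hcen : ∀ B C, ∑ A, S.f (φ (Sum.inl A)) (φ (Sum.inl B)) (φ (Sum.inl C)) * c A = 0)
    (N : Fin 9 → Matrix (Fin 16) (Fin 16) ℂ) (m : ℝ) (β : Fin 16) (v : Cfg dh → Wsp dm → F)
    (y : Cfg dh) (w : Wsp dm) :
    S.Qhm φ N m β v y w = QG (ac S φ c β) (Tc S φ c N m β) (fun y' => v y' w) y +
      QG (bc S φ c β) (Xc S φ c N m β) (fun y' => v y' w) y := by
  have hF : ∀ i j, ∑ A, ((FFh S φ A i j y : ℝ) : ℂ) * ((c A : ℝ) : ℂ) = 0 := by
    intro i j
    have : ∑ A, FFh S φ A i j y * c A = 0 := by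
      unfold FFh
      have e : ∀ A, (S.κ * ∑ B, ∑ C, S.f (φ (Sum.inl A)) (φ (Sum.inl B)) (φ (Sum.inl C)) *
          y (i, B) * y (j, C)) * c A = ∑ B, ∑ C, S.κ * (y (i, B) * y (j, C)) *
          (S.f (φ (Sum.inl A)) (φ (Sum.inl B)) (φ (Sum.inl C)) * c A) := by
        intro A
        rw [mul_assoc, Finset.sum_mul, Finset.mul_sum]
        refine Finset.sum_congr rfl fun B _ => ?_
        rw [Finset.sum_mul, Finset.mul_sum]
        exact Finset.sum_congr rfl fun C _ => by ring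
      simp only [e]
      rw [Finset.sum_comm]
      refine Finset.sum_eq_zero fun B _ => ?_
      rw [Finset.sum_comm]
      refine Finset.sum_eq_zero fun C _ => ?_
      rw [← Finset.mul_sum, hcen, mul_zero]
    exact_mod_cast congrArg (fun t : ℝ => (t : ℂ)) this
  have h1 : (∑ A, ∑ i, ∑ j, ((FFh S φ A i j y : ℝ) : ℂ) • Vp S φ c (S.g2 i j) A β) (v y w) =
      ∑ A, ∑ i, ∑ j, ((FFh S φ A i j y : ℝ) : ℂ) • S.vec (S.g2 i j) (φ (Sum.inl A)) β (v y w) := by
    have e1 : ∀ A i j, (((FFh S φ A i j y : ℝ) : ℂ) • Vp S φ c (S.g2 i j) A β) (v y w) =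
        ((FFh S φ A i j y : ℝ) : ℂ) • S.vec (S.g2 i j) (φ (Sum.inl A)) β (v y w) -
        (((FFh S φ A i j y : ℝ) : ℂ) * ((c A : ℝ) : ℂ)) • Vc S φ c (S.g2 i j) β (v y w) := by
      intro A i j
      unfold Vp
      rw [_root_.smul_apply, _root_.sub_apply, _root_.smul_apply, smul_sub, smul_smul]
    simp only [_root_.sum_apply, e1, Finset.sum_sub_distrib]
    have e2 : ∑ A, ∑ i, ∑ j, (((FFh S φ A i j y : ℝ) : ℂ) * ((c A : ℝ) : ℂ)) •
        Vc S φ c (S.g2 i j) β (v y w) = 0 := by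
      rw [Finset.sum_comm]
      refine Finset.sum_eq_zero fun i _ => ?_
      rw [Finset.sum_comm]
      refine Finset.sum_eq_zero fun j _ => ?_
      rw [← Finset.sum_smul, hF, zero_smul]
    rw [e2, sub_zero]
  have h2 : (∑ i, ∑ A, ((y (i, A) : ℝ) : ℂ) • Vp S φ c (N i) A β) (v y w) +
      (∑ i, ((yc c i y : ℝ) : ℂ) • Vc S φ c (N i) β) (v y w) =
      ∑ i, ∑ A, ((y (i, A) : ℝ) : ℂ) • S.vec (N i) (φ (Sum.inl A)) β (v y w) := by
    have e1 : ∀ i A, (((y (i, A) : ℝ) : ℂ) • Vp S φ c (N i) A β) (v y w) =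
        ((y (i, A) : ℝ) : ℂ) • S.vec (N i) (φ (Sum.inl A)) β (v y w) -
        (((c A * y (i, A) : ℝ)) : ℂ) • Vc S φ c (N i) β (v y w) := by
      intro i A
      unfold Vp
      rw [_root_.smul_apply, _root_.sub_apply, _root_.smul_apply, smul_sub, smul_smul]
      push_cast
      rw [mul_comm ((c A : ℝ) : ℂ)]
    simp only [_root_.sum_apply, e1, Finset.sum_sub_distrib, _root_.smul_apply]
    have e2 : ∑ i, ∑ A, (((c A * y (i, A) : ℝ)) : ℂ) • Vc S φ c (N i) β (v y w) =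
        ∑ i, ((yc c i y : ℝ) : ℂ) • Vc S φ c (N i) β (v y w) := by
      refine Finset.sum_congr rfl fun i _ => ?_
      rw [← Finset.sum_smul, yc]
      push_cast
      rfl
    rw [e2, sub_add_cancel]
  have h3 : ∑ i, ∑ A, ac S φ c β i A (pd i A (fun y' => v y' w) y) +
      ∑ i, ∑ A, bc S φ c β i A (pd i A (fun y' => v y' w) y) =
      ∑ i, ∑ A, S.vec (S.g i) (φ (Sum.inl A)) β (py i A v y w) := by
    rw [← Finset.sum_add_distrib]
    refine Finset.sum_congr rfl fun i _ => ?_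
    rw [← Finset.sum_add_distrib]
    refine Finset.sum_congr rfl fun A _ => ?_
    unfold ac bc Vp
    rw [_root_.sub_apply]
    exact add_sub_cancel _ _
  unfold Setup.Qhm Setup.Qh Setup.Mh QG Tc Xc
  rw [← h3]
  simp only [_root_.add_apply, _root_.smul_apply]
  rw [h1]
  have h4 : (∑ i, ∑ A, ((y (i, A) : ℝ) : ℂ) • S.vec (N i) (φ (Sum.inl A)) β) (v y w) =
      (∑ i, ∑ A, ((y (i, A) : ℝ) : ℂ) • Vp S φ c (N i) A β) (v y w) +
      (∑ i, ((yc c i y : ℝ) : ℂ) • Vc S φ c (N i) β) (v y w) := by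
    rw [h2]
    simp only [_root_.sum_apply, _root_.smul_apply]
  rw [h4]
  simp only [smul_add]
  unfold FFh
  abel

end Vale.Agent.P353.Z.AN.MassPf

namespace Vale.Agent.P353.Z.AN.MassPf

variable {d dh dm : ℕ} {F : Type*} [NormedAddCommGroup F] [InnerProductSpace ℂ F]
variable (S : Setup d F) (φ : Spl dh dm d) {c : Fin dh → ℝ}
variable (N : Fin 9 → Matrix (Fin 16) (Fin 16) ℂ) (m : ℝ) (β : Fin 16)

lemma contDiff_yc (i : Fin 9) : ContDiff ℝ ∞ (yc c i) := by
  unfold yc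
  exact ContDiff.sum fun A _ => contDiff_const.mul (Setup.contDiff_coord _)

lemma contDiff_Tc : ContDiff ℝ ∞ (Tc S φ c N m β) := by
  unfold Tc
  refine ContDiff.const_smul (m : ℂ) (ContDiff.sum fun i _ => ?_)
  exact (Setup.contDiff_ofReal (contDiff_yc i)).smul contDiff_const

lemma contDiff_FFh (A : Fin dh) (i j : Fin 9) : ContDiff ℝ ∞ (FFh S φ A i j) := by
  unfold FFh
  refine contDiff_const.mul (ContDiff.sum fun B _ => ContDiff.sum fun C _ => ?_)
  exact (contDiff_const.mul (Setup.contDiff_coord _)).mul (Setup.contDiff_coord _)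

lemma contDiff_Xc : ContDiff ℝ ∞ (Xc S φ c N m β) := by
  unfold Xc
  refine ContDiff.add (ContDiff.const_smul (1 / 2 : ℂ) (ContDiff.sum fun A _ => ContDiff.sum fun i _ =>
    ContDiff.sum fun j _ => ?_)) (ContDiff.const_smul (m : ℂ) (ContDiff.sum fun i _ => ContDiff.sum fun A _ => ?_))
  · exact (Setup.contDiff_ofReal (contDiff_FFh S φ A i j)).smul contDiff_const
  · exact (Setup.contDiff_ofReal (Setup.contDiff_coord _)).smul contDiff_const

lemma ac_symm (i : Fin 9) (A : Fin dh) (v w : F) :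
    inner ℂ (ac S φ c β i A v) w = inner ℂ v (ac S φ c β i A w) := by
  unfold ac
  simp only [_root_.smul_apply, inner_smul_left, inner_smul_right, Vc_symm S φ c (S.g_im i),
    Complex.conj_ofReal]

lemma bc_symm (i : Fin 9) (A : Fin dh) (v w : F) :
    inner ℂ (bc S φ c β i A v) w = inner ℂ v (bc S φ c β i A w) := by
  unfold bc
  exact Vp_symm S φ c (S.g_im i) A β v w

variable {N}

lemma Tc_symm (hN : ∀ i α β, (N i α β).im = 0) (y : Cfg dh) (v w : F) :
    inner ℂ (Tc S φ c N m β y v) w = inner ℂ v (Tc S φ c N m β y w) := by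
  unfold Tc
  simp only [_root_.smul_apply, _root_.sum_apply, sum_inner, inner_sum, inner_smul_left,
    inner_smul_right, Vc_symm S φ c (hN _), Complex.conj_ofReal]

lemma Xc_symm (hN : ∀ i α β, (N i α β).im = 0) (y : Cfg dh) (v w : F) :
    inner ℂ (Xc S φ c N m β y v) w = inner ℂ v (Xc S φ c N m β y w) := by
  unfold Xc
  have h2 : (starRingEnd ℂ) (1 / 2 : ℂ) = 1 / 2 := by
    norm_num [Complex.ext_iff]
  simp only [_root_.add_apply, _root_.smul_apply, _root_.sum_apply, inner_add_left, inner_add_right,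
    sum_inner, inner_sum, inner_smul_left,
    inner_smul_right, Vp_symm S φ c (hN _), Vp_symm S φ c (S.g2_im _ _), Complex.conj_ofReal, h2]

/-- everything built from `θ_c` anticommutes with the rest -/
lemma anti_X (hc : ∑ A, c A ^ 2 = 1) (M : Matrix (Fin 16) (Fin 16) ℂ) (y : Cfg dh) (v : F) :
    Vc S φ c M β (Xc S φ c N m β y v) + Xc S φ c N m β y (Vc S φ c M β v) = 0 := by
  have h : ∀ (M' : Matrix (Fin 16) (Fin 16) ℂ) (A : Fin dh) (v : F),
      Vp S φ c M' A β (Vc S φ c M β v) = -(Vc S φ c M β (Vp S φ c M' A β v)) := fun M' A v =>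
    eq_neg_of_add_eq_zero_right (anti_apply S φ c hc M M' A β β v)
  unfold Xc
  simp only [_root_.add_apply, _root_.smul_apply, _root_.sum_apply, map_add, map_smul, map_sum, h,
    smul_neg, Finset.sum_neg_distrib]
  abel

lemma dTc (y e : Cfg dh) : fderiv ℝ (Tc S φ c N m β) y e =
    (m : ℂ) • ∑ i, ((yc c i e : ℝ) : ℂ) • Vc S φ c (N i) β := by
  have hd : DifferentiableAt ℝ (Tc S φ c N m β) y :=
    (contDiff_Tc S φ N m β).differentiable (by simp) y
  have hlin : ∀ t : ℝ, Tc S φ c N m β (y + t • e) = Tc S φ c N m β y +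
      t • ((m : ℂ) • ∑ i, ((yc c i e : ℝ) : ℂ) • Vc S φ c (N i) β) := by
    intro t
    unfold Tc
    rw [smul_comm t (m : ℂ), ← smul_add]
    congr 1
    rw [Finset.smul_sum, ← Finset.sum_add_distrib]
    refine Finset.sum_congr rfl fun i _ => ?_
    have : yc c i (y + t • e) = yc c i y + t * yc c i e := by
      unfold yc
      rw [Finset.mul_sum, ← Finset.sum_add_distrib]
      refine Finset.sum_congr rfl fun A _ => ?_
      simp only [PiLp.add_apply, PiLp.smul_apply, smul_eq_mul]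
      ring
    rw [this]
    push_cast
    rw [add_smul, mul_smul]
    rfl
  have h1 : lineDeriv ℝ (Tc S φ c N m β) y e = fderiv ℝ (Tc S φ c N m β) y e :=
    hd.lineDeriv_eq_fderiv
  rw [← h1, lineDeriv]
  simp only [hlin]
  rw [deriv_const_add]
  generalize ((m : ℂ) • ∑ i, ((yc c i e : ℝ) : ℂ) • Vc S φ c (N i) β) = K
  have h2 : HasDerivAt (fun t : ℝ => t • K) ((1 : ℝ) • K) 0 :=
    (hasDerivAt_id' (0 : ℝ)).smul_const K
  rw [h2.deriv, one_smul]

lemma yc_single (i j : Fin 9) (B : Fin dh) :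
    yc c i (EuclideanSpace.single (j, B) (1 : ℝ)) = if i = j then c B else 0 := by
  unfold yc
  by_cases h : i = j
  · subst h
    simp [PiLp.single_apply]
  · simp [PiLp.single_apply, h]

lemma dTc_single (y : Cfg dh) (j : Fin 9) (B : Fin dh) :
    fderiv ℝ (Tc S φ c N m β) y (EuclideanSpace.single (j, B) (1 : ℝ)) =
    (m : ℂ) • ((c B : ℝ) : ℂ) • Vc S φ c (N j) β := by
  rw [dTc]
  simp only [yc_single]
  congr 1
  rw [Finset.sum_eq_single j]
  · simp
  · intro i _ hij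
    simp [hij]
  · intro h; exact absurd (Finset.mem_univ _) h

/-- direction `c` in the `k`-th vector component -/
noncomputable def ec (c : Fin dh → ℝ) (k : Fin 9) : Cfg dh := ∑ B, c B • EuclideanSpace.single (k, B) (1 : ℝ)

lemma ec_apply (k i : Fin 9) (A : Fin dh) : ec c k (i, A) = if i = k then c A else 0 := by
  unfold ec
  rw [WithLp.ofLp_sum, Finset.sum_apply]
  simp only [PiLp.smul_apply, PiLp.single_apply, smul_eq_mul, Prod.mk.injEq]
  by_cases h : i = k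
  · subst h
    simp
  · simp [h]

lemma dXc (hc : ∑ A, c A ^ 2 = 1)
    (hcen : ∀ B C, ∑ A, S.f (φ (Sum.inl A)) (φ (Sum.inl B)) (φ (Sum.inl C)) * c A = 0)
    (y : Cfg dh) (k : Fin 9) : fderiv ℝ (Xc S φ c N m β) y (ec c k) = 0 := by
  have hd : DifferentiableAt ℝ (Xc S φ c N m β) y :=
    (contDiff_Xc S φ N m β).differentiable (by simp) y
  have hB : ∀ A C, ∑ B, S.f (φ (Sum.inl A)) (φ (Sum.inl B)) (φ (Sum.inl C)) * c B = 0 := by
    intro A C
    have := hcen A C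
    have e : ∀ B, S.f (φ (Sum.inl A)) (φ (Sum.inl B)) (φ (Sum.inl C)) * c B =
        -(S.f (φ (Sum.inl B)) (φ (Sum.inl A)) (φ (Sum.inl C)) * c B) := by
      intro B; rw [S.f_swap]; ring
    simp only [e, Finset.sum_neg_distrib, this, neg_zero]
  have hC : ∀ A B, ∑ C, S.f (φ (Sum.inl A)) (φ (Sum.inl B)) (φ (Sum.inl C)) * c C = 0 := by
    intro A B
    have := hcen A B
    have e : ∀ C, S.f (φ (Sum.inl A)) (φ (Sum.inl B)) (φ (Sum.inl C)) * c C =
        (S.f (φ (Sum.inl C)) (φ (Sum.inl A)) (φ (Sum.inl B)) * c C) := by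
      intro C; rw [S.f_cyc (φ (Sum.inl C))]
    simp only [e, this]
  have hFF : ∀ (t : ℝ) A i j, FFh S φ A i j (y + t • ec c k) = FFh S φ A i j y := by
    intro t A i j
    unfold FFh
    congr 1
    have e1 : ∀ B C, S.f (φ (Sum.inl A)) (φ (Sum.inl B)) (φ (Sum.inl C)) * (y + t • ec c k) (i, B) *
        (y + t • ec c k) (j, C) = S.f (φ (Sum.inl A)) (φ (Sum.inl B)) (φ (Sum.inl C)) * y (i, B) * y (j, C) +
        (if i = k then t else 0) * (y + t • ec c k) (j, C) *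
          (S.f (φ (Sum.inl A)) (φ (Sum.inl B)) (φ (Sum.inl C)) * c B) +
        (if j = k then t else 0) * y (i, B) *
          (S.f (φ (Sum.inl A)) (φ (Sum.inl B)) (φ (Sum.inl C)) * c C) := by
      intro B C
      simp only [PiLp.add_apply, PiLp.smul_apply, smul_eq_mul, ec_apply]
      split_ifs <;> ring
    simp only [e1, Finset.sum_add_distrib]
    have e2 : ∑ B, ∑ C, (if i = k then t else 0) * (y + t • ec c k) (j, C) *
          (S.f (φ (Sum.inl A)) (φ (Sum.inl B)) (φ (Sum.inl C)) * c B) = 0 := by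
      rw [Finset.sum_comm]
      refine Finset.sum_eq_zero fun C _ => ?_
      rw [← Finset.mul_sum, hB, mul_zero]
    have e3 : ∑ B, ∑ C, (if j = k then t else 0) * y (i, B) *
          (S.f (φ (Sum.inl A)) (φ (Sum.inl B)) (φ (Sum.inl C)) * c C) = 0 := by
      refine Finset.sum_eq_zero fun B _ => ?_
      rw [← Finset.mul_sum, hC, mul_zero]
    rw [e2, e3, add_zero, add_zero]
  have hX : ∀ t : ℝ, Xc S φ c N m β (y + t • ec c k) = Xc S φ c N m β y := by
    intro t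
    unfold Xc
    simp only [hFF]
    congr 2
    have e1 : ∀ i A, (((y + t • ec c k) (i, A) : ℝ) : ℂ) • Vp S φ c (N i) A β =
        ((y (i, A) : ℝ) : ℂ) • Vp S φ c (N i) A β +
        (if i = k then (t : ℂ) else 0) • (((c A : ℝ) : ℂ) • Vp S φ c (N i) A β) := by
      intro i A
      simp only [PiLp.add_apply, PiLp.smul_apply, smul_eq_mul, ec_apply]
      by_cases h : i = k
      · simp only [h, if_true]
        push_cast
        rw [add_smul, mul_smul]
      · simp [h]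
    simp only [e1, Finset.sum_add_distrib]
    have e2 : ∑ i, ∑ A, (if i = k then (t : ℂ) else 0) • (((c A : ℝ) : ℂ) • Vp S φ c (N i) A β) = 0 := by
      refine Finset.sum_eq_zero fun i _ => ?_
      rw [← Finset.smul_sum, sum_Vp S φ c hc, smul_zero]
    rw [e2, add_zero]
  have h1 : lineDeriv ℝ (Xc S φ c N m β) y (ec c k) = fderiv ℝ (Xc S φ c N m β) y (ec c k) :=
    hd.lineDeriv_eq_fderiv
  rw [← h1, lineDeriv]
  simp only [hX]
  simp

variable {m β}

/-- the per-slice inequality -/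
theorem slice_ineq (hN : S.IsMass N) (hc : ∑ A, c A ^ 2 = 1)
    (hcen : ∀ B C, ∑ A, S.f (φ (Sum.inl A)) (φ (Sum.inl B)) (φ (Sum.inl C)) * c A = 0)
    (hm : 0 ≤ m) {u : Cfg dh → F} (hu : Setup.Tst u) (L : ℝ)
    (hL : ∀ y, u y ≠ 0 → L ^ 2 ≤ ∑ i, (yc c i y) ^ 2) :
    8 * m ^ 2 * L ^ 2 * nsq u ≤
      ∑ β, nsq (fun y => QG (ac S φ c β) (Tc S φ c N m β) u y + QG (bc S φ c β) (Xc S φ c N m β) u y) +
      ‖((-Complex.I) • ∑ β, ∑ j, Vc S φ c (S.g j) β * Vc S φ c (N j) β : F →L[ℂ] F)‖ * m * nsq u := by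
  set K0 : F →L[ℂ] F := (-Complex.I) • ∑ β, ∑ j, Vc S φ c (S.g j) β * Vc S φ c (N j) β with hK0
  have hc2 : ∑ A, ((c A : ℝ) : ℂ) * ((c A : ℝ) : ℂ) = 1 := by
    have : ∑ A, ((c A : ℝ) : ℂ) * ((c A : ℝ) : ℂ) = (((∑ A, c A ^ 2 : ℝ)) : ℂ) := by
      push_cast
      exact Finset.sum_congr rfl fun x _ => by ring
    rw [this, hc]; simp
  -- the cross terms vanish
  have hcross : ∀ β, (∫ x, inner ℂ (QG (ac S φ c β) (Tc S φ c N m β) u x)
      (QG (bc S φ c β) (Xc S φ c N m β) u x)).re = 0 := by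
    intro β
    refine cross_zero (contDiff_Tc S φ N m β) (contDiff_Xc S φ N m β) (ac_symm S φ β)
      (bc_symm S φ β) (Tc_symm S φ m β hN.real) (Xc_symm S φ m β hN.real) ?_ ?_ ?_ ?_ ?_ ?_ hu
    · intro i A j B v
      unfold ac bc
      rw [_root_.smul_apply, _root_.smul_apply, map_smul, ← smul_add, anti_apply S φ c hc, smul_zero]
    · intro i A x v
      unfold ac
      rw [_root_.smul_apply, _root_.smul_apply, map_smul, ← smul_add, anti_X S φ m β hc, smul_zero]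
    · intro i A x v
      unfold bc
      rw [Tc_eq]
      exact anti_apply S φ c hc _ _ _ _ _ v
    · intro x v
      rw [Tc_eq]
      exact anti_X S φ m β hc _ x v
    · intro x v
      refine Finset.sum_eq_zero fun j _ => ?_
      unfold ac
      have e1 : ∑ B, (((c B : ℝ) : ℂ) • Vc S φ c (S.g j) β)
          (fderiv ℝ (Xc S φ c N m β) x (EuclideanSpace.single (j, B) 1) v) =
          Vc S φ c (S.g j) β ((fderiv ℝ (Xc S φ c N m β) x (ec c j)) v) := by
        unfold ec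
        rw [map_sum, _root_.sum_apply, map_sum]
        refine Finset.sum_congr rfl fun B _ => ?_
        rw [map_smul, _root_.smul_apply, _root_.smul_apply]
        rw [show (c B • (fderiv ℝ (Xc S φ c N m β) x (EuclideanSpace.single (j, B) 1)) v : F) =
          ((c B : ℝ) : ℂ) • (fderiv ℝ (Xc S φ c N m β) x (EuclideanSpace.single (j, B) 1)) v from
          (Complex.coe_smul _ _).symm, map_smul]
      rw [e1, dXc S φ m β hc hcen]
      simp
    · intro x v
      refine Finset.sum_eq_zero fun j _ => ?_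
      simp only [dTc_single, _root_.smul_apply]
      unfold bc
      have e1 : ∑ B, (Vp S φ c (S.g j) B β) ((m : ℂ) • ((c B : ℝ) : ℂ) • (Vc S φ c (N j) β) v) =
          (m : ℂ) • (∑ B, ((c B : ℝ) : ℂ) • Vp S φ c (S.g j) B β) ((Vc S φ c (N j) β) v) := by
        rw [_root_.sum_apply, Finset.smul_sum]
        refine Finset.sum_congr rfl fun B _ => ?_
        rw [map_smul, map_smul, _root_.smul_apply]
      rw [e1, sum_Vp S φ c hc]
      simp
  -- the trace of the square of the mass matrix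
  have htr : ∀ x, (tc c N m x * (tc c N m x)ᵀ).trace =
      ((m ^ 2 * ∑ i, ∑ j, yc c i x * yc c j x * ((N i * (N j)ᵀ).trace).re : ℝ) : ℂ) := by
    intro x
    have him : ∀ i j, (N i * (N j)ᵀ).trace = ((((N i * (N j)ᵀ).trace).re : ℝ) : ℂ) := by
      intro i j
      apply Complex.ext
      · simp
      · rw [Complex.ofReal_im, Matrix.trace, Complex.im_sum]
        refine Finset.sum_eq_zero fun α _ => ?_
        rw [Matrix.diag_apply, Matrix.mul_apply, Complex.im_sum]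
        refine Finset.sum_eq_zero fun γ _ => ?_
        rw [Matrix.transpose_apply, Complex.mul_im, hN.real, hN.real]
        ring
    obtain ⟨r, hr⟩ : ∃ r : Fin 9 → Fin 9 → ℝ, ∀ i j, (N i * (N j)ᵀ).trace = ((r i j : ℝ) : ℂ) :=
      ⟨fun i j => ((N i * (N j)ᵀ).trace).re, him⟩
    unfold tc
    rw [Matrix.transpose_smul, Matrix.transpose_sum, smul_mul_smul_comm, Finset.sum_mul_sum,
      Matrix.trace_smul, Matrix.trace_sum]
    simp only [Matrix.trace_sum, Matrix.transpose_smul, smul_mul_smul_comm, Matrix.trace_smul]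
    simp only [hr, smul_eq_mul, Complex.ofReal_re]
    push_cast
    ring
  set q : Cfg dh → ℝ := fun x => (1 / 2) *
    (m ^ 2 * ∑ i, ∑ j, yc c i x * yc c j x * ((N i * (N j)ᵀ).trace).re) with hq
  have hqc : Continuous q := by
    refine continuous_const.mul (continuous_const.mul (continuous_finsetSum _ fun i _ =>
      continuous_finsetSum _ fun j _ => ?_))
    exact (((contDiff_yc i).continuous).mul ((contDiff_yc j).continuous)).mul continuous_const
  have hsq : ∀ (M : Matrix (Fin 16) (Fin 16) ℂ) (v : F),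
      ∑ β, Vc S φ c M β (Vc S φ c M β v) = ((1 / 2 : ℂ) * (M * Mᵀ).trace) • v := by
    intro M v
    have h1 : ∀ β, (2 : ℂ) • (Vc S φ c M β (Vc S φ c M β v)) = ((M * Mᵀ) β β) • v := by
      intro β
      have h := congrArg (fun T : F →L[ℂ] F => T v) (Vc_Vc S φ c hc M M β β)
      simp only [_root_.add_apply, mul_apply_eq_comp, _root_.smul_apply,
        _root_.one_apply_eq_self] at h
      rw [two_smul]
      exact h
    have h2 : (2 : ℂ) • ∑ β, Vc S φ c M β (Vc S φ c M β v) = (M * Mᵀ).trace • v := by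
      rw [Finset.smul_sum]
      simp only [h1]
      rw [← Finset.sum_smul]
      rfl
    rw [mul_smul, ← h2, smul_smul]
    norm_num
  have hlow := fam_lower (fun β => ac S φ c β) (fun β => Tc S φ c N m β) (fun β => contDiff_Tc S φ N m β)
    (fun β => ac_symm S φ β) (fun β => Tc_symm S φ m β hN.real) (by
      intro i A x v
      simp only [Tc_eq]
      have h1 : ∀ β, (ac S φ c β i A) ((Vc S φ c (tc c N m x) β) v) +
          (Vc S φ c (tc c N m x) β) ((ac S φ c β i A) v) =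
          (((c A : ℝ) : ℂ) * (S.g i * (tc c N m x)ᵀ) β β) • v := by
        intro β
        unfold ac
        have h := congrArg (fun T : F →L[ℂ] F => T v) (Vc_Vc S φ c hc (S.g i) (tc c N m x) β β)
        simp only [_root_.add_apply, mul_apply_eq_comp, _root_.smul_apply,
          _root_.one_apply_eq_self] at h
        rw [_root_.smul_apply, _root_.smul_apply, map_smul, ← smul_add, h, smul_smul]
      simp only [h1]
      rw [← Finset.sum_smul, ← Finset.mul_sum]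
      have h2 : ∑ β, (S.g i * (tc c N m x)ᵀ) β β = (S.g i * (tc c N m x)ᵀ).trace := rfl
      have h3 : (S.g i * (tc c N m x)ᵀ).trace = 0 := by
        unfold tc
        rw [Matrix.transpose_smul, Matrix.transpose_sum, Matrix.mul_smul, Matrix.trace_smul,
          Finset.mul_sum, Matrix.trace_sum]
        simp only [Matrix.transpose_smul, Matrix.mul_smul, Matrix.trace_smul, hN.tr, smul_zero,
          Finset.sum_const_zero]
      rw [h2, h3, mul_zero, zero_smul]) q hqc (by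
      intro x v
      simp only [Tc_eq]
      rw [hsq, htr, hq]
      push_cast
      rfl) ((m : ℂ) • K0) (by
      intro x v
      simp only [dTc_single, ac, _root_.smul_apply, map_smul]
      rw [hK0, _root_.smul_apply, _root_.sum_apply, smul_comm (m : ℂ)]
      congr 1
      rw [Finset.smul_sum]
      refine Finset.sum_congr rfl fun β _ => ?_
      rw [_root_.sum_apply, Finset.smul_sum]
      refine Finset.sum_congr rfl fun j _ => ?_
      rw [mul_apply_eq_comp]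
      have h1 : ∀ B, (m : ℂ) • ((c B : ℝ) : ℂ) • ((c B : ℝ) : ℂ) • (Vc S φ c (S.g j) β) ((Vc S φ c (N j) β) v) =
          (((c B : ℝ) : ℂ) * ((c B : ℝ) : ℂ)) • ((m : ℂ) • (Vc S φ c (S.g j) β) ((Vc S φ c (N j) β) v)) := by
        intro B
        rw [smul_smul ((c B : ℝ) : ℂ), smul_comm (m : ℂ)]
      simp only [h1]
      rw [← Finset.sum_smul, hc2, one_smul]) hu
  -- sum up
  have hP : ∀ β, Setup.Tst (QG (ac S φ c β) (Tc S φ c N m β) u) := fun β =>
    tst_QG (contDiff_Tc S φ N m β) hu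
  have hR : ∀ β, Setup.Tst (QG (bc S φ c β) (Xc S φ c N m β) u) := fun β =>
    tst_QG (contDiff_Xc S φ N m β) hu
  have hsum : ∑ β, nsq (QG (ac S φ c β) (Tc S φ c N m β) u) ≤
      ∑ β, nsq (fun y => QG (ac S φ c β) (Tc S φ c N m β) u y + QG (bc S φ c β) (Xc S φ c N m β) u y) := by
    refine Finset.sum_le_sum fun β _ => ?_
    rw [nsq_add (hP β) (hR β), hcross β]
    have := nsq_nonneg (QG (bc S φ c β) (Xc S φ c N m β) u)
    linarith
  have hqlow : 8 * m ^ 2 * L ^ 2 * nsq u ≤ ∫ x, q x * ‖u x‖ ^ 2 := by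
    rw [nsq, ← integral_const_mul]
    refine integral_mono (hu.norm_sq_int.const_mul _) (hu.mul_norm_sq_int hqc) fun x => ?_
    show 8 * m ^ 2 * L ^ 2 * ‖u x‖ ^ 2 ≤ q x * ‖u x‖ ^ 2
    by_cases h0 : u x = 0
    · simp [h0]
    · refine mul_le_mul_of_nonneg_right ?_ (by positivity)
      have h1 := hL x h0
      have h2 := hN.pos (fun i => yc c i x)
      have h3 : 0 ≤ m ^ 2 := by positivity
      have h4 : m ^ 2 * (16 * L ^ 2) ≤
          m ^ 2 * ∑ i, ∑ j, yc c i x * yc c j x * ((N i * (N j)ᵀ).trace).re :=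
        mul_le_mul_of_nonneg_left (le_trans (by linarith) h2) h3
      rw [hq]
      show 8 * m ^ 2 * L ^ 2 ≤ (1 / 2) * (m ^ 2 * ∑ i, ∑ j, yc c i x * yc c j x * ((N i * (N j)ᵀ).trace).re)
      linarith
  have hnorm : ‖((m : ℂ) • K0 : F →L[ℂ] F)‖ = m * ‖K0‖ := by
    rw [norm_smul, Complex.norm_real, Real.norm_of_nonneg hm]
  rw [hnorm] at hlow
  have : ‖K0‖ * m * nsq u = m * ‖K0‖ * nsq u := by ring
  rw [this]
  linarith

end Vale.Agent.P353.Z.AN.MassPf

namespace Vale.Agent.P353.Z.AN.MassPf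

variable {d dh dm : ℕ} {F : Type*} [NormedAddCommGroup F] [InnerProductSpace ℂ F]
variable (S : Setup d F) (φ : Spl dh dm d)

lemma tst2_sum (hA : CalcA dh dm F) {ι : Type*} (s : Finset ι) (f : ι → Cfg dh → Wsp dm → F)
    (h : ∀ i ∈ s, Tst2 (f i)) : Tst2 (fun y w => ∑ i ∈ s, f i y w) := by
  classical
  induction s using Finset.induction_on with
  | empty => simpa using hA.zero
  | insert a s ha ih =>
    have h1 := hA.add (f a) (fun y w => ∑ i ∈ s, f i y w) (h a (Finset.mem_insert_self _ _))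
      (ih fun i hi => h i (Finset.mem_insert_of_mem hi))
    simpa only [Finset.sum_insert ha] using h1

lemma tst2_Qhm (hA : CalcA dh dm F) (N : Fin 9 → Matrix (Fin 16) (Fin 16) ℂ) (m : ℝ) (β : Fin 16)
    {v : Cfg dh → Wsp dm → F} (hv : Tst2 v) : Tst2 (S.Qhm φ N m β v) := by
  have h1 : Tst2 (fun y w => (-Complex.I) • ∑ i, ∑ A, S.vec (S.g i) (φ (Sum.inl A)) β (Z.py i A v y w)) :=
    hA.smul _ _ (tst2_sum hA _ _ fun i _ => tst2_sum hA _ _ fun A _ => hA.clm _ _ (hA.py i A v hv))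
  have h2 : Tst2 (fun y w => (1 / 2 : ℂ) • ∑ A, ∑ i, ∑ j, ((FFh S φ A i j y : ℝ) : ℂ) •
      S.vec (S.g2 i j) (φ (Sum.inl A)) β (v y w)) := by
    refine hA.smul _ _ (tst2_sum hA _ _ fun A _ => tst2_sum hA _ _ fun i _ => tst2_sum hA _ _ fun j _ => ?_)
    exact hA.mul (fun y _ => FFh S φ A i j y) (fun y w => S.vec (S.g2 i j) (φ (Sum.inl A)) β (v y w))
      ((contDiff_FFh S φ A i j).comp contDiff_fst) (hA.clm _ _ hv)
  have h3 : Tst2 (fun y w => (m : ℂ) • ∑ i, ∑ A, ((y (i, A) : ℝ) : ℂ) •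
      S.vec (N i) (φ (Sum.inl A)) β (v y w)) := by
    refine hA.smul _ _ (tst2_sum hA _ _ fun i _ => tst2_sum hA _ _ fun A _ => ?_)
    exact hA.mul (fun y _ => y (i, A)) (fun y w => S.vec (N i) (φ (Sum.inl A)) β (v y w))
      ((Setup.contDiff_coord (i, A)).comp contDiff_fst) (hA.clm _ _ hv)
  have h4 := hA.add _ _ (hA.add _ _ h1 h2) h3
  have e : S.Qhm φ N m β v = fun y w => ((-Complex.I) • ∑ i, ∑ A, S.vec (S.g i) (φ (Sum.inl A)) β (Z.py i A v y w) +
      (1 / 2 : ℂ) • ∑ A, ∑ i, ∑ j, ((FFh S φ A i j y : ℝ) : ℂ) •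
      S.vec (S.g2 i j) (φ (Sum.inl A)) β (v y w)) + (m : ℂ) • ∑ i, ∑ A, ((y (i, A) : ℝ) : ℂ) •
      S.vec (N i) (φ (Sum.inl A)) β (v y w) := by
    funext y w
    unfold Setup.Qhm Setup.Qh Setup.Mh FFh
    simp only [_root_.sum_apply, _root_.smul_apply]
  rw [e]
  exact h4

end Vale.Agent.P353.Z.AN.MassPf

namespace Vale.Agent.P353.Z.AN

variable {d dh dm : ℕ} {F : Type*} [NormedAddCommGroup F] [InnerProductSpace ℂ F]

theorem mass_stmt (S : Setup d F) (φ : Spl dh dm d) : CalcA dh dm F → CalcB dh dm F → MassStmt S φ := by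
  intro hA hB _ N hN c hc hcen
  refine ⟨‖((-Complex.I) • ∑ β, ∑ j, MassPf.Vc S φ c (S.g j) β * MassPf.Vc S φ c (N j) β : F →L[ℂ] F)‖,
    norm_nonneg _, ?_⟩
  intro m hm _ v hv L hL0 hL
  have hQ : ∀ β, Tst2 (S.Qhm φ N m β v) := fun β => MassPf.tst2_Qhm S φ hA N m β hv
  have h1 : S.EH φ N m v = ∫ w, ∑ β, nsq (fun y => S.Qhm φ N m β v y w) := by
    unfold Setup.EH
    rw [integral_finsetSum _ fun β _ => (hB.wy _ (hQ β)).1]
    exact Finset.sum_congr rfl fun β _ => (hB.wy _ (hQ β)).2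
  have h2 := hB.wy v hv
  set K := ‖((-Complex.I) • ∑ β, ∑ j, MassPf.Vc S φ c (S.g j) β * MassPf.Vc S φ c (N j) β : F →L[ℂ] F)‖ with hK
  have h3 : ∀ w, 8 * m ^ 2 * L ^ 2 * nsq (fun y => v y w) ≤
      ∑ β, nsq (fun y => S.Qhm φ N m β v y w) + K * m * nsq (fun y => v y w) := by
    intro w
    have h := MassPf.slice_ineq S φ hN hc hcen hm (hA.sly v hv w) L (fun y hy => hL y w hy)
    have e : ∀ β, (fun y => S.Qhm φ N m β v y w) = fun y =>
        MassPf.QG (MassPf.ac S φ c β) (MassPf.Tc S φ c N m β) (fun y' => v y' w) y +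
        MassPf.QG (MassPf.bc S φ c β) (MassPf.Xc S φ c N m β) (fun y' => v y' w) y := by
      intro β
      funext y
      exact MassPf.Qhm_eq S φ hcen N m β v y w
    simp only [e]
    exact h
  have i1 : Integrable fun w => ∑ β, nsq (fun y => S.Qhm φ N m β v y w) :=
    integrable_finsetSum _ fun β _ => (hB.wy _ (hQ β)).1
  rw [h1, h2.2, ← integral_const_mul, ← integral_const_mul, ← integral_add i1 (h2.1.const_mul _)]
  exact integral_mono (h2.1.const_mul _) (i1.add (h2.1.const_mul _)) h3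

end Vale.Agent.P353.Z.AN
end

section

/-! # P353, all `N`, block C: output -/

open MeasureTheory Filter Topology
open scoped ContDiff

namespace Vale.Agent.P353.Z.AN

set_option linter.unusedSectionVars false

variable {d dh dm : ℕ} {F : Type*} [NormedAddCommGroup F] [InnerProductSpace ℂ F]

theorem co359_mono {S : Setup d F} {φ : Spl dh dm d} {Y : Cfg dh} {e e' C : ℝ} (h : S.CoefBd φ Y e C)
    (he : e' ≤ e) : S.CoefBd φ Y e' C := by
  have key : ∀ (R : ℝ), 0 < R → e' * R ≤ e * R := fun R hR => mul_le_mul_of_nonneg_right he hR.le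
  exact ⟨fun R hR y hy => h.det R hR y (hy.trans (key R hR)),
    fun R hR y hy => h.dy R hR y (hy.trans (key R hR)),
    fun R hR y hy => h.inv R hR y (hy.trans (key R hR)),
    fun R hR y hy => h.dcf R hR y (hy.trans (key R hR)),
    fun R hR y hy w hw => h.rem R hR y (hy.trans (key R hR)) w (hw.trans (key R hR))⟩

theorem ff359_mono {S : Setup d F} {φ : Spl dh dm d} {Y : Cfg dh} {e e' C : ℝ} (h : S.FibFacts φ Y e C)
    (he : e' ≤ e) : S.FibFacts φ Y e' C := by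
  have key : ∀ (R : ℝ), 0 < R → e' * R ≤ e * R := fun R hR => mul_le_mul_of_nonneg_right he hR.le
  exact ⟨fun R hR y hy => h.F1 R hR y (hy.trans (key R hR)),
    fun R hR y hy => h.F3 R hR y (hy.trans (key R hR))⟩

theorem su359_mono {Y : Cfg dh} {e e' R : ℝ} {v : Cfg dh → Wsp dm → F} (h : Sup2 Y e' R v) (hR : 0 < R)
    (he : e' ≤ e) : Sup2 Y e R v := by
  intro y w hv
  have key : e' * R ≤ e * R := mul_le_mul_of_nonneg_right he hR.le
  exact ⟨(h y w hv).1.trans key, (h y w hv).2.trans key⟩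

theorem q1359_zero (S : Setup d F) (φ : Spl dh dm d) (D : Fin 9 → Matrix (Fin dm) (Fin dm) ℝ) (β : Fin 16)
    (w : Wsp dm) : S.q1 φ D β (fun _ => (0 : F)) w = 0 := by
  have h : ∀ j B, pf j B (fun _ : Wsp dm => (0 : F)) w = 0 := by
    intro j B
    simp [pf]
  simp [Setup.q1, h]

theorem pr359_zero (S : Setup d F) (φ : Spl dh dm d) [FiniteDimensional ℂ F]
    (D : Fin 9 → Matrix (Fin dm) (Fin dm) ℝ) (Om : Matrix (Fin dm) (Fin dm) ℝ) (R : ℝ)
    (w : Wsp dm) : S.PR φ D Om R (fun _ => (0 : F)) w = 0 := by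
  simp [Setup.PR]

theorem nsf359_nonneg (f : Wsp dm → F) : 0 ≤ nsf f := integral_nonneg fun w => by positivity

theorem nsf359_zero : nsf (fun _ : Wsp dm => (0 : F)) = 0 := by simp [nsf]

/-- integration of a fibrewise bound -/
theorem int359 (u : Cfg dh → Wsp dm → F) (g : Cfg dh → ℝ) (hg : Integrable g) (hg0 : ∀ y, 0 ≤ g y)
    (h : ∀ y, nsf (u y) ≤ g y) : ns2 u ≤ ∫ y, g y := by
  by_cases hi : Integrable (fun p : Cfg dh × Wsp dm => ‖u p.1 p.2‖ ^ 2)
    ((volume : Measure (Cfg dh)).prod (volume : Measure (Wsp dm)))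
  · unfold ns2
    rw [integral_prod _ hi]
    exact integral_mono_of_nonneg (Eventually.of_forall fun y => nsf359_nonneg (u y)) hg
      (Eventually.of_forall h)
  · unfold ns2
    rw [integral_undef hi]
    exact integral_nonneg hg0

theorem e1359_nonneg (S : Setup d F) (φ : Spl dh dm d) (D : Fin 9 → Matrix (Fin dm) (Fin dm) ℝ)
    (f : Wsp dm → F) : 0 ≤ S.e1 φ D f := by
  unfold Setup.e1
  have : 0 ≤ ∑ β, nsf (S.q1 φ D β f) := Finset.sum_nonneg fun β _ => nsf359_nonneg _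
  positivity

/-- the mass gain near `R Y` -/
theorem mass359 (S : Setup d F) (φ : Spl dh dm d) (hMa : MassStmt S φ) (hB : CalcB dh dm F)
    (N : Fin 9 → Matrix (Fin 16) (Fin 16) ℂ) (hN : S.IsMass N) (Y : Cfg dh) (hY : Std S φ Y) :
    ∃ εm Cm : ℝ, 0 < εm ∧ 0 ≤ Cm ∧ (0 < dm → ∀ ε : ℝ, 0 < ε → ε ≤ εm → ∀ R : ℝ, 1 ≤ R →
      ∀ m : ℝ, 0 ≤ m → m ≤ 1 → ∀ v : Cfg dh → Wsp dm → F, Tst2 v → Sup2 Y ε R v →
      m ^ 2 * R ^ 2 * ns2 v ≤ Cm * (S.EH φ N m v + m * ns2 v)) := by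
  by_cases hdm : 0 < dm
  swap
  · exact ⟨1, 0, one_pos, le_rfl, fun h => absurd h hdm⟩
  -- the vector `Y_8`
  set q : ℝ := ∑ A, Y (8, A) ^ 2 with hq
  have hq0 : 0 ≤ q := Finset.sum_nonneg fun A _ => sq_nonneg _
  have hqpos : 0 < q := by
    rcases hq0.lt_or_eq with h | h
    · exact h
    exfalso
    have hz : ∀ A, Y (8, A) = 0 := by
      intro A
      have h1 := (Finset.sum_eq_zero_iff_of_nonneg (fun A _ => sq_nonneg (Y (8, A)))).1 h.symm A
        (Finset.mem_univ A)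
      exact pow_eq_zero_iff (two_ne_zero) |>.1 h1
    have hD : S.Dy φ 8 Y = 0 := by
      ext B C
      simp [Setup.Dy, Setup.Dm, hz]
    apply hY.inv
    rw [hD]
    have : Nonempty (Fin dm) := ⟨⟨0, hdm⟩⟩
    exact Matrix.det_zero
  set ρ : ℝ := Real.sqrt q with hρ
  have hρpos : 0 < ρ := Real.sqrt_pos.2 hqpos
  have hρsq : ρ ^ 2 = q := Real.sq_sqrt hq0
  let c : Fin dh → ℝ := fun A => Y (8, A) / ρ
  have hc1 : ∑ A, c A ^ 2 = 1 := by
    simp only [c, div_pow]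
    rw [← Finset.sum_div, hρsq]
    exact div_self hqpos.ne'
  have hcc : ∀ B C, ∑ A, S.f (φ (Sum.inl A)) (φ (Sum.inl B)) (φ (Sum.inl C)) * c A = 0 := by
    intro B C
    have h1 := hY.cen 8 B C
    have h2 : ∑ A, S.f (φ (Sum.inl A)) (φ (Sum.inl B)) (φ (Sum.inl C)) * c A =
        (∑ A, S.f (φ (Sum.inl A)) (φ (Sum.inl B)) (φ (Sum.inl C)) * Y (8, A)) / ρ := by
      rw [Finset.sum_div]
      exact Finset.sum_congr rfl fun A _ => by simp only [c]; ring
    rw [h2, h1, zero_div]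
  obtain ⟨Cm, hCm0, hCm⟩ := hMa hY.sub N hN c hc1 hcc
  refine ⟨ρ / 2, (1 + Cm) / (2 * ρ ^ 2), by positivity, by positivity, fun _ ε hε hε' R hR m hm hm1 v hv hs => ?_⟩
  have hRpos : 0 < R := by linarith
  have hL : ∀ y w, v y w ≠ 0 → (R * (ρ / 2)) ^ 2 ≤ ∑ i, (∑ A, c A * y (i, A)) ^ 2 := by
    intro y w hvy
    have h1 := (hs y w hvy).1
    have h2 : R * (ρ / 2) ≤ ∑ A, c A * y (8, A) := by
      have e1 : ∑ A, c A * y (8, A) = R * ρ + ∑ A, c A * (y - R • Y) (8, A) := by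
        have e2 : R * ρ = ∑ A, c A * (R * Y (8, A)) := by
          have : ∑ A, c A * (R * Y (8, A)) = R * (∑ A, Y (8, A) ^ 2) / ρ := by
            rw [Finset.mul_sum, Finset.sum_div]
            exact Finset.sum_congr rfl fun A _ => by simp only [c]; ring
          rw [this, ← hq, ← hρsq]
          field_simp
        rw [e2, ← Finset.sum_add_distrib]
        refine Finset.sum_congr rfl fun A _ => ?_
        rw [PiLp.sub_apply, PiLp.smul_apply, smul_eq_mul]
        ring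
      have e3 : |∑ A, c A * (y - R • Y) (8, A)| ≤ ‖y - R • Y‖ := by
        rw [← Real.sqrt_sq_eq_abs]
        apply Real.sqrt_le_iff.2
        refine ⟨norm_nonneg _, ?_⟩
        have h3 := Finset.sum_mul_sq_le_sq_mul_sq Finset.univ c (fun A => (y - R • Y) (8, A))
        rw [hc1, one_mul] at h3
        refine h3.trans ?_
        rw [EuclideanSpace.norm_sq_eq, Fintype.sum_prod_type]
        have h4 : ∑ A, (y - R • Y) (8, A) ^ 2 = ∑ A, ‖(y - R • Y) (8, A)‖ ^ 2 :=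
          Finset.sum_congr rfl fun A _ => by rw [Real.norm_eq_abs, sq_abs]
        rw [h4]
        exact Finset.single_le_sum (f := fun i => ∑ A, ‖(y - R • Y) (i, A)‖ ^ 2)
          (fun i _ => Finset.sum_nonneg fun A _ => by positivity) (Finset.mem_univ (8 : Fin 9))
      have e4 := (abs_le.1 (e3.trans h1)).1
      rw [e1]
      nlinarith [mul_le_mul_of_nonneg_right hε' hRpos.le]
    have h5 : (R * (ρ / 2)) ^ 2 ≤ (∑ A, c A * y (8, A)) ^ 2 :=
      pow_le_pow_left₀ (by positivity) h2 2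
    exact h5.trans (Finset.single_le_sum (f := fun i => (∑ A, c A * y (i, A)) ^ 2)
      (fun i _ => sq_nonneg _) (Finset.mem_univ (8 : Fin 9)))
  have h6 := hCm m hm hm1 v hv (R * (ρ / 2)) (by positivity) hL
  have hEH : 0 ≤ S.EH φ N m v := Finset.sum_nonneg fun β _ => hB.nonneg _
  have hns := hB.nonneg v
  have h7 : 8 * m ^ 2 * (R * (ρ / 2)) ^ 2 * ns2 v = 2 * ρ ^ 2 * (m ^ 2 * R ^ 2 * ns2 v) := by ring
  rw [h7] at h6
  rw [div_mul_eq_mul_div, le_div_iff₀ (by positivity)]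
  have h8 : S.EH φ N m v + Cm * m * ns2 v ≤ (1 + Cm) * (S.EH φ N m v + m * ns2 v) := by
    have : 0 ≤ m * ns2 v := by positivity
    nlinarith [mul_nonneg hCm0 hEH]
  linarith

/-- vacuum projection, integrated -/
theorem vac359 (S : Setup d F) (φ : Spl dh dm d) [FiniteDimensional ℂ F] (Y : Cfg dh)
    (Om : Matrix (Fin dm) (Fin dm) ℝ) {C1 ε R : ℝ} (hC1 : 0 ≤ C1) (hR : 0 < R)
    (v : Cfg dh → Wsp dm → F) (hfib : ∀ y, ‖y - R • Y‖ ≤ ε * R →
      R * nsf (fun w => v y w - S.PR φ (S.DY φ Y) Om R (v y) w) ≤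
        C1 * (S.e1 φ (S.DY φ y) (v y) + ε ^ 2 * R * nsf (v y)))
    (hvz : ∀ y, ¬ ‖y - R • Y‖ ≤ ε * R → v y = fun _ => 0)
    (he1i : Integrable (fun y => S.e1 φ (S.DY φ y) (v y)))
    (he1e : ∫ y, S.e1 φ (S.DY φ y) (v y) = (1 / 16) * S.E1 φ v) (hE1 : 0 ≤ S.E1 φ v)
    (hvi : Integrable (fun y => nsf (v y)) ∧ ns2 v = ∫ y, nsf (v y)) :
    R * ns2 (fun y w => v y w - S.PR φ (S.DY φ Y) Om R (v y) w) ≤ C1 * (S.E1 φ v + ε ^ 2 * R * ns2 v) := by
  have h1 : ns2 (fun y w => v y w - S.PR φ (S.DY φ Y) Om R (v y) w) ≤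
      ∫ y, R⁻¹ * (C1 * (S.e1 φ (S.DY φ y) (v y) + ε ^ 2 * R * nsf (v y))) := by
    refine int359 _ _ (((he1i.add (hvi.1.const_mul (ε ^ 2 * R))).const_mul C1).const_mul R⁻¹) ?_ ?_
    · intro y
      have := e1359_nonneg S φ (S.DY φ y) (v y)
      have := nsf359_nonneg (v y)
      positivity
    · intro y
      rw [inv_mul_eq_div, le_div_iff₀ hR]
      by_cases hy : ‖y - R • Y‖ ≤ ε * R
      · rw [mul_comm]
        exact hfib y hy
      · rw [hvz y hy]
        simp only [pr359_zero, sub_zero, nsf359_zero, zero_mul]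
        have := e1359_nonneg S φ (S.DY φ y) (fun _ => (0 : F))
        positivity
  rw [integral_const_mul, integral_const_mul, integral_add he1i (hvi.1.const_mul (ε ^ 2 * R)),
    integral_const_mul, he1e, ← hvi.2] at h1
  have h2 : R * ns2 (fun y w => v y w - S.PR φ (S.DY φ Y) Om R (v y) w) ≤
      C1 * (1 / 16 * S.E1 φ v + ε ^ 2 * R * ns2 v) := by
    have := mul_le_mul_of_nonneg_left h1 hR.le
    rwa [mul_inv_cancel_left₀ hR.ne'] at this
  exact h2.trans (mul_le_mul_of_nonneg_left (by linarith) hC1)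

/-- frozen coefficients, integrated -/
theorem frz359 (S : Setup d F) (φ : Spl dh dm d) (Y : Cfg dh) (β : Fin 16)
    {C1 ε R : ℝ} (hC1 : 0 ≤ C1) (hR : 0 < R)
    (v : Cfg dh → Wsp dm → F) (hfib : ∀ y, ‖y - R • Y‖ ≤ ε * R →
      nsf (fun w => S.q1 φ (S.DY φ y) β (v y) w - S.q1 φ (fun i => R • S.Dy φ i Y) β (v y) w) ≤
        C1 * ε ^ 2 * (S.e1 φ (S.DY φ y) (v y) + R * nsf (v y)))
    (hvz : ∀ y, ¬ ‖y - R • Y‖ ≤ ε * R → v y = fun _ => 0)
    (he1i : Integrable (fun y => S.e1 φ (S.DY φ y) (v y)))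
    (he1e : ∫ y, S.e1 φ (S.DY φ y) (v y) = (1 / 16) * S.E1 φ v) (hE1 : 0 ≤ S.E1 φ v)
    (hvi : Integrable (fun y => nsf (v y)) ∧ ns2 v = ∫ y, nsf (v y)) :
    ns2 (fun y w => S.Q1 φ β v y w - S.q1 φ (fun i => R • S.Dy φ i Y) β (v y) w) ≤
      C1 * ε ^ 2 * (S.E1 φ v + R * ns2 v) := by
  have h1 : ns2 (fun y w => S.Q1 φ β v y w - S.q1 φ (fun i => R • S.Dy φ i Y) β (v y) w) ≤
      ∫ y, C1 * ε ^ 2 * (S.e1 φ (S.DY φ y) (v y) + R * nsf (v y)) := by
    refine int359 _ _ ((he1i.add (hvi.1.const_mul R)).const_mul (C1 * ε ^ 2)) ?_ ?_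
    · intro y
      have := e1359_nonneg S φ (S.DY φ y) (v y)
      have := nsf359_nonneg (v y)
      positivity
    · intro y
      by_cases hy : ‖y - R • Y‖ ≤ ε * R
      · exact hfib y hy
      · have hz : ∀ w, S.Q1 φ β v y w - S.q1 φ (fun i => R • S.Dy φ i Y) β (v y) w = 0 := by
          intro w
          rw [Setup.Q1_eq, hvz y hy, q1359_zero, q1359_zero, sub_zero]
        have h2 : nsf (fun w => S.Q1 φ β v y w - S.q1 φ (fun i => R • S.Dy φ i Y) β (v y) w) = 0 := by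
          simp only [hz, nsf359_zero]
        rw [h2]
        have := e1359_nonneg S φ (S.DY φ y) (v y)
        have := nsf359_nonneg (v y)
        positivity
  rw [integral_const_mul, integral_add he1i (hvi.1.const_mul R), integral_const_mul, he1e, ← hvi.2] at h1
  exact h1.trans (mul_le_mul_of_nonneg_left (by linarith) (by positivity))

/-- gradient in `y` -/
theorem dy359 {H n D Ce L e R : ℝ} (hH : 0 ≤ H) (hn : 0 ≤ n) (hCe : 0 ≤ Ce) (hL : 0 ≤ L) (he : 0 < e)
    (hR : 1 ≤ R) (h : D ≤ Ce * (H + (1 + (L + e) * R) * n)) :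
    D ≤ Ce * (2 + L + e) * (H + R * n) := by
  refine h.trans ?_
  have h4 : 1 + (L + e) * R ≤ (2 + L + e) * R := by nlinarith
  have h5 : H ≤ (2 + L + e) * H := by nlinarith [mul_nonneg (add_nonneg hL he.le) hH]
  have h6 : (1 + (L + e) * R) * n ≤ (2 + L + e) * (R * n) := by
    have := mul_le_mul_of_nonneg_right h4 hn
    linarith
  have h7 : H + (1 + (L + e) * R) * n ≤ (2 + L + e) * (H + R * n) := by linarith
  calc Ce * (H + (1 + (L + e) * R) * n) ≤ Ce * ((2 + L + e) * (H + R * n)) :=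
        mul_le_mul_of_nonneg_left h7 hCe
    _ = _ := by ring

/-- **C-Out** -/
theorem out_stmt (S : Setup d F) (φ : Spl dh dm d) : CalcA dh dm F → CalcB dh dm F → OpStmt S φ →
    CoefStmt S φ → FibOutStmt S φ → FIntStmt S φ → EnHStmt S φ → MassStmt S φ → CrudeStmt S φ →
    OutStmt S φ := by
  intro hA hB hOp hCo hFib hFI hEn hMa hCr fd N hN Y hY
  obtain ⟨ea, C0, hea, hC0, hcoef⟩ := hCo Y hY
  obtain ⟨Om, eb, C1, hOm, hFrz, heb, hC1, hff, hfib⟩ := hFib fd Y hY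
  set e : ℝ := min ea eb with he
  have hepos : 0 < e := lt_min hea heb
  have hcoef' := co359_mono hcoef (min_le_left ea eb)
  have hff' := ff359_mono hff (min_le_right ea eb)
  rw [← he] at hcoef' hff'
  obtain ⟨e1, R0, Cc, he1, he1e, hR0, hCc, hcr⟩ := hCr fd N hN Y e C0 C1 hY hepos hC0 hcoef' hff' hC1
  have hfi := hFI Y e C0 C1 hepos hcoef' hff' hC1
  obtain ⟨Ce, hCe, hen⟩ := hEn hY.sub N hN
  obtain ⟨em, Cm, hem, hCm, hma⟩ := mass359 S φ hMa hB N hN Y hY
  have hop := hOp N hN.real Y e C0 hepos hcoef'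
  obtain ⟨C, hCpos, bCc, bC1, bCe, bCm⟩ : ∃ C : ℝ, 0 < C ∧ Cc ≤ C ∧ C1 ≤ C ∧
      Ce * (2 + ‖Y‖ + e1) ≤ C ∧ Cm ≤ C := by
    have hCe2 : 0 ≤ Ce * (2 + ‖Y‖ + e1) := by positivity
    exact ⟨1 + Cc + C1 + Ce * (2 + ‖Y‖ + e1) + Cm, by positivity, by linarith, by linarith, by linarith,
      by linarith⟩
  refine ⟨Om, min e1 em, R0, C, hOm, hFrz, lt_min he1 hem, hR0, hCpos, ?_⟩
  intro ε hε hε' R hR m hm hm1 v hv hs
  have hR1 : 1 ≤ R := hR0.trans hR
  have hRpos : 0 < R := by linarith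
  have hεe1 : ε ≤ e1 := hε'.trans (min_le_left _ _)
  have hεe : ε ≤ e := hεe1.trans he1e
  have hεb : ε ≤ eb := hεe.trans (min_le_right _ _)
  have hs1 : Sup2 Y e1 R v := su359_mono hs hRpos hεe1
  have hse : Sup2 Y e R v := su359_mono hs hRpos hεe
  have hEH : 0 ≤ S.EH φ N m v := Finset.sum_nonneg fun β _ => hB.nonneg _
  have hES : 0 ≤ S.ES φ N m v := Finset.sum_nonneg fun β _ => hB.nonneg _
  have hE1 : 0 ≤ S.E1 φ v := Finset.sum_nonneg fun β _ => hB.nonneg _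
  have hns := hB.nonneg v
  -- fibrewise integrals
  have ht1 := hop.t1 R hRpos v hv hse
  have hQi : ∀ β, Integrable (fun y => nsf (S.Q1 φ β v y)) ∧ ns2 (S.Q1 φ β v) = ∫ y, nsf (S.Q1 φ β v y) :=
    fun β => hB.yw _ (ht1 β)
  have he1i : Integrable (fun y => S.e1 φ (S.DY φ y) (v y)) := by
    have : Integrable (fun y => ∑ β, nsf (S.Q1 φ β v y)) := integrable_finsetSum _ fun β _ => (hQi β).1
    exact this.const_mul (1 / 16 : ℝ)
  have he1e : ∫ y, S.e1 φ (S.DY φ y) (v y) = (1 / 16) * S.E1 φ v := by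
    have h1 : (fun y => S.e1 φ (S.DY φ y) (v y)) = fun y => (1 / 16 : ℝ) * ∑ β, nsf (S.Q1 φ β v y) := rfl
    rw [h1, integral_const_mul, integral_finsetSum _ fun β _ => (hQi β).1]
    unfold Setup.E1
    congr 1
    exact Finset.sum_congr rfl fun β _ => ((hQi β).2).symm
  have hvi := hB.yw v hv
  have hvz : ∀ y, ¬ ‖y - R • Y‖ ≤ ε * R → v y = fun _ => 0 := by
    intro y hy
    funext w
    by_contra h
    exact hy (hs y w h).1
  have nn1 : 0 ≤ (1 / R ^ 2 + m ^ 2 / R) * ns2 v := mul_nonneg (by positivity) hns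
  have nn2 : 0 ≤ R * ns2 v := mul_nonneg hRpos.le hns
  have nn3 : 0 ≤ ε ^ 2 * R * ns2 v := mul_nonneg (by positivity) hns
  refine ⟨(hcr R hR m hm hm1 v hv hs1).trans (mul_le_mul_of_nonneg_right bCc (add_nonneg hES nn1)),
    (hfi R hRpos v hv hse).1.trans (mul_le_mul_of_nonneg_right bC1 (add_nonneg hE1 nn2)), ?_, ?_, ?_, ?_⟩
  · have h1 := hen m hm hm1 v hv ((‖Y‖ + e1) * R) (by positivity) (by
      intro y w hvy
      have h2 := (hs y w hvy).1
      have h3 : ‖y‖ ≤ ‖y - R • Y‖ + ‖R • Y‖ := by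
        have := norm_add_le (y - R • Y) (R • Y)
        rwa [sub_add_cancel] at this
      rw [norm_smul, Real.norm_eq_abs, abs_of_pos hRpos] at h3
      have h4 := mul_le_mul_of_nonneg_right hεe1 hRpos.le
      have h5 : (‖Y‖ + e1) * R = R * ‖Y‖ + e1 * R := by ring
      linarith)
    exact (dy359 hEH hns hCe (norm_nonneg Y) he1 hR1 h1).trans
      (mul_le_mul_of_nonneg_right bCe (add_nonneg hEH nn2))
  · exact (vac359 S φ Y Om hC1 hRpos v
      (fun y hy => (hfib R hRpos ε hε.le hεb y hy (v y) (hA.slw v hv y)).1) hvz he1i he1e hE1 hvi).trans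
      (mul_le_mul_of_nonneg_right bC1 (add_nonneg hE1 nn3))
  · intro β
    refine (frz359 S φ Y β hC1 hRpos v
      (fun y hy => (hfib R hRpos ε hε.le hεb y hy (v y) (hA.slw v hv y)).2 β) hvz he1i he1e hE1 hvi).trans ?_
    exact mul_le_mul_of_nonneg_right (mul_le_mul_of_nonneg_right bC1 (sq_nonneg ε)) (add_nonneg hE1 nn2)
  · intro hdm
    have h1 := hma hdm ε hε (hε'.trans (min_le_right _ _)) R hR1 m hm hm1 v hv hs
    exact h1.trans (mul_le_mul_of_nonneg_right bCm (add_nonneg hEH (mul_nonneg hm hns)))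

end Vale.Agent.P353.Z.AN
end

section

/-! # P353, all `N`, block E: negligible errors -/

open MeasureTheory Filter Topology Matrix
open scoped ContDiff

namespace Vale.Agent.P353.Z.AE

namespace Neg817

variable {d dh dm r ds : ℕ} {F : Type*} [NormedAddCommGroup F] [InnerProductSpace ℂ F]

theorem real_cs {t a b : ℝ} (ht : 0 ≤ t) (ha : 0 ≤ a) (hb : 0 ≤ b)
    (h : ∀ s : ℝ, 0 < s → 2 * t ≤ s * a + s⁻¹ * b) : t ^ 2 ≤ a * b := by
  rcases ht.eq_or_lt with h0 | h0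
  · rw [← h0]
    simpa using mul_nonneg ha hb
  rcases ha.eq_or_lt with h1 | h1
  · exfalso
    have h2 := h (b / t + 1) (by positivity)
    rw [← h1, mul_zero, zero_add] at h2
    have h3 : (b / t + 1)⁻¹ * b ≤ t := by
      rw [inv_mul_le_iff₀ (by positivity), add_mul, div_mul_cancel₀ _ h0.ne']
      linarith
    linarith
  · have h2 := h (t / a) (by positivity)
    rw [div_mul_cancel₀ _ h1.ne', inv_div] at h2
    have h3 : t ≤ a / t * b := by linarith
    rw [div_mul_eq_mul_div, le_div_iff₀ h0] at h3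
    nlinarith

theorem lim_of {z b : ℕ → ℝ} (C : ℝ) (hz : ∀ n, 0 ≤ z n) (h : ∀ n, z n ^ 2 ≤ C * b n)
    (hb : Tendsto b atTop (𝓝 0)) : Tendsto z atTop (𝓝 0) := by
  have h1 : Tendsto (fun n => z n ^ 2) atTop (𝓝 0) :=
    squeeze_zero (fun n => sq_nonneg _) h (by simpa using hb.const_mul C)
  have h2 := h1.sqrt
  simpa [Real.sqrt_sq (hz _)] using h2

theorem ip_cs (hA : AN.CalcA dh dm F) (hB : AN.CalcB dh dm F) {u v : Cfg dh → Wsp dm → F}
    (hu : Tst2 u) (hv : Tst2 v) : ‖ip2 u v‖ ^ 2 ≤ ns2 u * ns2 v := by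
  refine real_cs (norm_nonneg _) (hB.nonneg u) (hB.nonneg v) fun s hs => ?_
  have hu0 := hB.nonneg u
  have hv0 := hB.nonneg v
  by_cases h0 : ip2 u v = 0
  · rw [h0, norm_zero, mul_zero]
    positivity
  set z := ip2 u v with hz
  have hz0 : ‖z‖ ≠ 0 := norm_ne_zero_iff.2 h0
  have hz0' : ((‖z‖ : ℝ) : ℂ) ≠ 0 := by exact_mod_cast hz0
  set c : ℂ := (starRingEnd ℂ) z / ((‖z‖ : ℝ) : ℂ) with hc
  have hcn : ‖c‖ = 1 := by
    rw [hc, norm_div, RCLike.norm_conj, Complex.norm_real, norm_norm, div_self hz0]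
  have h1 := hB.cs s u (fun y w => c • v y w) hs hu (hA.smul c v hv)
  rw [hB.ip_smul, hB.ns_smul, hcn, one_pow, one_mul, ← hz] at h1
  have h2 : c * z = ((‖z‖ : ℝ) : ℂ) := by
    rw [hc, div_mul_eq_mul_div, mul_comm ((starRingEnd ℂ) z), Complex.mul_conj,
      Complex.normSq_eq_norm_sq, div_eq_iff hz0']
    push_cast
    ring
  rw [h2, Complex.ofReal_re, abs_of_nonneg (norm_nonneg _)] at h1
  exact h1

theorem nsf_nonneg {E : Type*} [NormedAddCommGroup E] (f : Wsp dm → E) : 0 ≤ nsf f :=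
  integral_nonneg fun w => by positivity

theorem ft_sq {f : Wsp dm → F} (hf : FT f) : Integrable fun w => ‖f w‖ ^ 2 := by
  have h1 : Continuous fun w => ‖f w‖ ^ 2 := hf.1.continuous.norm.pow 2
  refine h1.integrable_of_hasCompactSupport (hf.2.mono' ?_)
  intro w hw
  refine subset_tsupport _ ?_
  intro h0
  apply hw
  simp [h0]

/-- Cauchy-Schwarz for a real weight and a vector function -/
theorem vec_cs (b : Wsp dm → ℝ) (hbi : Integrable fun w => b w ^ 2)
    (hb1 : ∫ w, b w ^ 2 = 1) (f : Wsp dm → F) (hf : Integrable fun w => ‖f w‖ ^ 2) :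
    ‖∫ w, ((b w : ℝ) : ℂ) • f w‖ ^ 2 ≤ nsf f := by
  have h := real_cs (t := ‖∫ w, ((b w : ℝ) : ℂ) • f w‖) (a := 1) (b := nsf f) (norm_nonneg _)
    zero_le_one (nsf_nonneg f) (fun s hs => by
      have h1 : ‖∫ w, ((b w : ℝ) : ℂ) • f w‖ ≤
          ∫ w, (s / 2 * b w ^ 2 + s⁻¹ / 2 * ‖f w‖ ^ 2) := by
        refine norm_integral_le_of_norm_le ((hbi.const_mul _).add (hf.const_mul _))
          (ae_of_all _ fun w => ?_)
        rw [norm_smul, Complex.norm_real, Real.norm_eq_abs]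
        have h2 : 0 ≤ (s * |b w| - ‖f w‖) ^ 2 := sq_nonneg _
        have h3 : s * (2 * (|b w| * ‖f w‖)) ≤ s * (s * b w ^ 2 + s⁻¹ * ‖f w‖ ^ 2) := by
          rw [mul_add, ← mul_assoc s s⁻¹, mul_inv_cancel₀ hs.ne', one_mul, ← sq_abs (b w)]
          nlinarith
        have h4 := le_of_mul_le_mul_left h3 hs
        linarith
      rw [integral_add (hbi.const_mul _) (hf.const_mul _), integral_const_mul,
        integral_const_mul, hb1] at h1
      unfold nsf
      linarith)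
  rwa [one_mul] at h

/-- fibre estimate -/
theorem fib_est [FiniteDimensional ℂ F] (P : Submodule ℂ F) (b : Wsp dm → ℝ) (hbc : Continuous b)
    (hbi : Integrable fun w => b w ^ 2) (hb1 : ∫ w, b w ^ 2 = 1) (e f : Wsp dm → F) (he : FT e)
    (hf : FT f) {s s' : ℝ} (hs : 0 < s) (hs' : 0 < s') :
    2 * ‖∫ w, inner ℂ (e w) (f w)‖ ≤ s * nsf e +
      s⁻¹ * nsf (fun w => f w - ((b w : ℝ) : ℂ) •
        P.starProjection (∫ w', ((b w' : ℝ) : ℂ) • f w')) +
      (s' * ‖P.starProjection (∫ w, ((b w : ℝ) : ℂ) • e w)‖ ^ 2 + s'⁻¹ * nsf f) := by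
  have : CompleteSpace F := FiniteDimensional.complete ℂ F
  set Bf := ∫ w', ((b w' : ℝ) : ℂ) • f w' with hBf
  set c := P.starProjection Bf with hc
  have hbc' : Continuous fun w => ((b w : ℝ) : ℂ) := Complex.continuous_ofReal.comp hbc
  have hec := he.1.continuous
  have hfc := hf.1.continuous
  have hh : Continuous fun w => f w - ((b w : ℝ) : ℂ) • c := hfc.sub (hbc'.smul continuous_const)
  have hsupp : ∀ g : Wsp dm → F, Continuous g → Integrable fun w => inner ℂ (e w) (g w) := by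
    intro g hg
    refine (hec.inner hg).integrable_of_hasCompactSupport (he.2.mono' ?_)
    intro w hw
    refine subset_tsupport _ ?_
    intro h0
    apply hw
    simp only
    rw [h0, inner_zero_left]
  have i1 := hsupp _ hh
  have i2 : Integrable fun w => inner ℂ (e w) (((b w : ℝ) : ℂ) • c) :=
    hsupp (fun w => ((b w : ℝ) : ℂ) • c) (hbc'.smul continuous_const)
  have hsplit : ∫ w, inner ℂ (e w) (f w) = (∫ w, inner ℂ (e w) (f w - ((b w : ℝ) : ℂ) • c)) +
      ∫ w, inner ℂ (e w) (((b w : ℝ) : ℂ) • c) := by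
    rw [← integral_add i1 i2]
    congr 1
    funext w
    rw [← inner_add_right, sub_add_cancel]
  have hbe : Integrable fun w => ((b w : ℝ) : ℂ) • e w :=
    (hbc'.smul hec).integrable_of_hasCompactSupport (he.2.smul_left)
  have h2nd : ∫ w, inner ℂ (e w) (((b w : ℝ) : ℂ) • c) =
      inner ℂ (P.starProjection (∫ w, ((b w : ℝ) : ℂ) • e w)) Bf := by
    have e1 : ∀ w, inner ℂ (e w) (((b w : ℝ) : ℂ) • c) =
        (starRingEnd ℂ) (inner ℂ c (((b w : ℝ) : ℂ) • e w)) := by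
      intro w
      rw [inner_conj_symm, inner_smul_left, inner_smul_right, Complex.conj_ofReal]
    simp only [e1]
    rw [integral_conj, integral_inner hbe, inner_conj_symm, hc,
      Submodule.inner_starProjection_left_eq_right]
  have hh2 : Integrable fun w => ‖f w - ((b w : ℝ) : ℂ) • c‖ ^ 2 := by
    refine Integrable.mono' (((ft_sq hf).const_mul 2).add (hbi.const_mul (2 * ‖c‖ ^ 2)))
      ((hh.norm.pow 2).aestronglyMeasurable) (ae_of_all _ fun w => ?_)
    rw [Real.norm_eq_abs, abs_of_nonneg (sq_nonneg _)]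
    have h1 : ‖f w - ((b w : ℝ) : ℂ) • c‖ ≤ ‖f w‖ + |b w| * ‖c‖ := by
      refine (norm_sub_le _ _).trans ?_
      rw [norm_smul, Complex.norm_real, Real.norm_eq_abs]
    have h2 : ‖f w - ((b w : ℝ) : ℂ) • c‖ ^ 2 ≤ (‖f w‖ + |b w| * ‖c‖) ^ 2 :=
      pow_le_pow_left₀ (norm_nonneg _) h1 2
    have h3 : (|b w| * ‖c‖) ^ 2 = ‖c‖ ^ 2 * b w ^ 2 := by rw [mul_pow, sq_abs]; ring
    simp only [Pi.add_apply]
    nlinarith [sq_nonneg (‖f w‖ - |b w| * ‖c‖)]
  have h1st : 2 * ‖∫ w, inner ℂ (e w) (f w - ((b w : ℝ) : ℂ) • c)‖ ≤ s * nsf e +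
      s⁻¹ * nsf (fun w => f w - ((b w : ℝ) : ℂ) • c) := by
    have h1 : ‖∫ w, inner ℂ (e w) (f w - ((b w : ℝ) : ℂ) • c)‖ ≤
        ∫ w, (s / 2 * ‖e w‖ ^ 2 + s⁻¹ / 2 * ‖f w - ((b w : ℝ) : ℂ) • c‖ ^ 2) := by
      refine norm_integral_le_of_norm_le (((ft_sq he).const_mul _).add (hh2.const_mul _))
        (ae_of_all _ fun w => ?_)
      refine (norm_inner_le_norm _ _).trans ?_
      set X := ‖e w‖
      set Y := ‖f w - ((b w : ℝ) : ℂ) • c‖
      have h2 : 0 ≤ (s * X - Y) ^ 2 := sq_nonneg _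
      have h3 : s * (2 * (X * Y)) ≤ s * (s * X ^ 2 + s⁻¹ * Y ^ 2) := by
        rw [mul_add, ← mul_assoc s s⁻¹, mul_inv_cancel₀ hs.ne', one_mul]
        nlinarith
      have h4 := le_of_mul_le_mul_left h3 hs
      linarith
    rw [integral_add ((ft_sq he).const_mul _) (hh2.const_mul _), integral_const_mul,
      integral_const_mul] at h1
    unfold nsf
    linarith
  have h2st : 2 * ‖inner ℂ (P.starProjection (∫ w, ((b w : ℝ) : ℂ) • e w)) Bf‖ ≤
      s' * ‖P.starProjection (∫ w, ((b w : ℝ) : ℂ) • e w)‖ ^ 2 + s'⁻¹ * nsf f := by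
    have h1 := norm_inner_le_norm (𝕜 := ℂ) (P.starProjection (∫ w, ((b w : ℝ) : ℂ) • e w)) Bf
    have h2 := vec_cs b hbi hb1 f (ft_sq hf)
    rw [← hBf] at h2
    set X := ‖P.starProjection (∫ w, ((b w : ℝ) : ℂ) • e w)‖
    have h3 : s' * (2 * (X * ‖Bf‖)) ≤ s' * (s' * X ^ 2 + s'⁻¹ * ‖Bf‖ ^ 2) := by
      rw [mul_add, ← mul_assoc s' s'⁻¹, mul_inv_cancel₀ hs'.ne', one_mul]
      nlinarith [sq_nonneg (s' * X - ‖Bf‖)]
    have h4 := le_of_mul_le_mul_left h3 hs'
    have h5 := mul_le_mul_of_nonneg_left h2 (inv_nonneg.2 hs'.le)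
    linarith
  rw [hsplit, h2nd]
  have h6 := norm_add_le (∫ w, inner ℂ (e w) (f w - ((b w : ℝ) : ℂ) • c))
    (inner ℂ (P.starProjection (∫ w, ((b w : ℝ) : ℂ) • e w)) Bf)
  linarith

theorem PR_eq [FiniteDimensional ℂ F] (S : Setup d F) (φ : Spl dh dm d)
    (D : Fin 9 → Matrix (Fin dm) (Fin dm) ℝ) (Om : Matrix (Fin dm) (Fin dm) ℝ) (f : Wsp dm → F)
    (w : Wsp dm) :
    S.PR φ D Om 1 f w = ((gR D Om 1 w / Real.sqrt (∫ w', gR D Om 1 w' ^ 2) : ℝ) : ℂ) •
      (S.F0 φ D Om).starProjection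
        (∫ w', ((gR D Om 1 w' / Real.sqrt (∫ w', gR D Om 1 w' ^ 2) : ℝ) : ℂ) • f w') := by
  set G := ∫ w', gR D Om 1 w' ^ 2 with hG
  have hG0 : 0 ≤ G := integral_nonneg fun w => sq_nonneg _
  have h1 : ∫ w', ((gR D Om 1 w' / Real.sqrt G : ℝ) : ℂ) • f w' =
      (((Real.sqrt G)⁻¹ : ℝ) : ℂ) • ∫ w', ((gR D Om 1 w' : ℝ) : ℂ) • f w' := by
    rw [← integral_smul]
    congr 1
    funext w'
    rw [smul_smul, ← Complex.ofReal_mul]
    congr 2
    rw [div_eq_mul_inv, mul_comm]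
  rw [h1, map_smul, smul_smul, ← Complex.ofReal_mul, div_mul_eq_mul_div, ← div_eq_mul_inv,
    div_div, Real.mul_self_sqrt hG0]
  rfl

theorem zpt_cont (ψ : Spl r ds dh) : Continuous (zpt ψ) := by
  unfold zpt
  fun_prop

theorem spt_norm_sq (ψ : Spl r ds dh) (x : Cfg dh) :
    ‖spt ψ x‖ ^ 2 = ∑ p : Fin 9 × Fin ds, x (p.1, ψ (Sum.inr p.2)) ^ 2 := by
  rw [EuclideanSpace.norm_sq_eq]
  exact Finset.sum_congr rfl fun p _ => by rw [Real.norm_eq_abs, sq_abs]; rfl

theorem spt_smooth (ψ : Spl r ds dh) : ContDiff ℝ ∞ fun x : Cfg dh => ‖spt ψ x‖ ^ 2 := by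
  simp only [spt_norm_sq]
  refine ContDiff.sum fun p _ => ContDiff.pow ?_ 2
  exact (EuclideanSpace.proj (𝕜 := ℝ) (p.1, ψ (Sum.inr p.2))).contDiff

theorem zpt_le (ψ : Spl r ds dh) (z : Cfg dh) : ‖zpt ψ z‖ ≤ ‖z‖ := by
  refine le_of_sq_le_sq ?_ (norm_nonneg _)
  rw [EuclideanSpace.norm_sq_eq, EuclideanSpace.norm_sq_eq, Fintype.sum_prod_type,
    Fintype.sum_prod_type]
  refine Finset.sum_le_sum fun i _ => ?_
  rw [← ψ.sum_comp, Fintype.sum_sum_type]
  have : ∑ a : Fin r, ‖zpt ψ z (i, a)‖ ^ 2 = ∑ a : Fin r, ‖z (i, ψ (Sum.inl a))‖ ^ 2 := rfl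
  rw [this]
  have h2 : 0 ≤ ∑ b : Fin ds, ‖z (i, ψ (Sum.inr b))‖ ^ 2 :=
    Finset.sum_nonneg fun b _ => sq_nonneg _
  linarith

theorem zpt_near (ψ : Spl r ds dh) (x : Cfg dh) (y₀ : Cfg r) (R : ℝ) :
    ‖zpt ψ x - R • y₀‖ ≤ ‖x - R • cmb ψ y₀ 0‖ := by
  have h : zpt ψ x - R • y₀ = zpt ψ (x - R • cmb ψ y₀ 0) := by
    ext p
    simp [zpt, cmb]
  rw [h]
  exact zpt_le ψ _

theorem inner_iso {V : F →L[ℂ] F} (hn : ∀ v, ‖V v‖ = ‖v‖) (u v : F) :
    inner ℂ (V u) (V v) = inner ℂ u v := by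
  let L : F →ₗᵢ[ℂ] F := ⟨V.toLinearMap, hn⟩
  exact L.inner_map_map u v

theorem proj_eq [FiniteDimensional ℂ F] [CompleteSpace F] {V : F →L[ℂ] F} (hn : ∀ v, ‖V v‖ = ‖v‖)
    (hs : ∀ w, ∃ v, V v = w) {K K' : Submodule ℂ F} (hm : ∀ v, v ∈ K ↔ V v ∈ K') (w : F) :
    K'.starProjection w = V (K.starProjection (ContinuousLinearMap.adjoint V w)) := by
  obtain ⟨u, rfl⟩ := hs w
  have h1 : ContinuousLinearMap.adjoint V (V u) = u := by
    refine ext_inner_right ℂ fun v => ?_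
    rw [ContinuousLinearMap.adjoint_inner_left, inner_iso hn]
  rw [h1]
  refine Submodule.eq_starProjection_of_mem_of_inner_eq_zero
    ((hm _).1 (Submodule.starProjection_apply_mem _ _)) ?_
  intro w' hw'
  obtain ⟨k, rfl⟩ := hs w'
  rw [← map_sub, inner_iso hn]
  exact Submodule.starProjection_inner_eq_zero u k ((hm k).2 hw')

theorem vc_meas [FiniteDimensional ℂ F] {S : Setup d F} {φ : Spl dh dm d} {ψ : Spl r ds dh}
    {U : Set (Cfg r)} {Om : Cfg r → Matrix (Fin dm) (Fin dm) ℝ} {V : Cfg r → F →L[ℂ] F}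
    {K : Submodule ℂ F} (hV : S.VFr φ ψ U Om V K)
    (hsm : ContDiffOn ℝ ∞ (fun p : Cfg r × Wsp dm => S.bz φ ψ Om p.1 p.2) (U ×ˢ Set.univ))
    {E : Cfg dh → Wsp dm → F} (hE : Tst2 E) :
    AEStronglyMeasurable (vc S φ ψ Om E) (volume.restrict (zpt ψ ⁻¹' U)) := by
  have : CompleteSpace F := FiniteDimensional.complete ℂ F
  have hAo : IsOpen (zpt ψ ⁻¹' U) := hV.opn.preimage (zpt_cont ψ)
  have hAm := hAo.measurableSet
  have h1 : ContinuousOn (fun p : Cfg dh × Wsp dm =>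
      ((S.bz φ ψ Om (zpt ψ p.1) p.2 : ℝ) : ℂ) • E p.1 p.2) ((zpt ψ ⁻¹' U) ×ˢ Set.univ) := by
    have h2 : ContinuousOn (fun p : Cfg dh × Wsp dm => S.bz φ ψ Om (zpt ψ p.1) p.2)
        ((zpt ψ ⁻¹' U) ×ˢ Set.univ) := by
      refine hsm.continuousOn.comp (f := fun p : Cfg dh × Wsp dm => (zpt ψ p.1, p.2))
        (((zpt_cont ψ).comp continuous_fst).prodMk continuous_snd).continuousOn ?_
      rintro p ⟨hp, -⟩
      exact ⟨hp, Set.mem_univ _⟩
    exact (Complex.continuous_ofReal.comp_continuousOn h2).smul hE.1.continuous.continuousOn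
  have h2 : AEStronglyMeasurable (fun p : Cfg dh × Wsp dm =>
      ((S.bz φ ψ Om (zpt ψ p.1) p.2 : ℝ) : ℂ) • E p.1 p.2)
      (((volume : Measure (Cfg dh)).restrict (zpt ψ ⁻¹' U)).prod (volume : Measure (Wsp dm))) := by
    have h3 := h1.aestronglyMeasurable (μ := (volume : Measure (Cfg dh)).prod
      (volume : Measure (Wsp dm))) (hAm.prod MeasurableSet.univ)
    rwa [← Measure.prod_restrict, Measure.restrict_univ] at h3
  have h3 := h2.integral_prod_right'
  have h4 : ContinuousOn (fun x => V (zpt ψ x)) (zpt ψ ⁻¹' U) :=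
    hV.v_c.continuousOn.comp (zpt_cont ψ).continuousOn fun x hx => hx
  have h5 : ContinuousOn (fun x => ContinuousLinearMap.adjoint (V (zpt ψ x))) (zpt ψ ⁻¹' U) :=
    (ContinuousLinearMap.adjoint (𝕜 := ℂ) (E := F) (F := F)).continuous.comp_continuousOn h4
  have hap : Continuous (Function.uncurry fun (T : F →L[ℂ] F) (v : F) => T v) :=
    (isBoundedBilinearMap_apply (𝕜 := ℂ) (E := F) (F := F)).continuous
  have h6 := hap.comp_aestronglyMeasurable₂ (h5.aestronglyMeasurable hAm) h3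
  have h7 := K.starProjection.continuous.comp_aestronglyMeasurable h6
  have h8 := hap.comp_aestronglyMeasurable₂ (h4.aestronglyMeasurable hAm) h7
  refine h8.congr ?_
  filter_upwards [ae_restrict_mem hAm] with x hx
  exact (proj_eq (hV.v_n _ hx) (hV.v_s _ hx) (hV.v_m _ hx) _).symm

theorem bz_PR [FiniteDimensional ℂ F] (S : Setup d F) (φ : Spl dh dm d) (ψ : Spl r ds dh)
    (Om : Cfg r → Matrix (Fin dm) (Fin dm) ℝ) (y : Cfg r) (f : Wsp dm → F) (w : Wsp dm) :
    S.PR φ (S.Dz φ ψ y) (Om y) 1 f w = ((S.bz φ ψ Om y w : ℝ) : ℂ) •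
      (S.F0 φ (S.Dz φ ψ y) (Om y)).starProjection (∫ w', ((S.bz φ ψ Om y w' : ℝ) : ℂ) • f w') :=
  PR_eq S φ (S.Dz φ ψ y) (Om y) f w

theorem bz_int {S : Setup d F} {φ : Spl dh dm d} {ψ : Spl r ds dh}
    {U : Set (Cfg r)} {Om : Cfg r → Matrix (Fin dm) (Fin dm) ℝ} {y₀ : Cfg r} {ε C : ℝ}
    (hb : BzFacts S φ ψ U Om y₀ ε C) {y : Cfg r} (hy : y ∈ U) :
    Integrable fun w => S.bz φ ψ Om y w ^ 2 := by
  have := hb.int y hy 0
  simpa using this

theorem bz_cont {S : Setup d F} {φ : Spl dh dm d} {ψ : Spl r ds dh}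
    {U : Set (Cfg r)} {Om : Cfg r → Matrix (Fin dm) (Fin dm) ℝ} {y₀ : Cfg r} {ε C : ℝ}
    (hb : BzFacts S φ ψ U Om y₀ ε C) {y : Cfg r} (hy : y ∈ U) :
    Continuous fun w => S.bz φ ψ Om y w := by
  have h1 : ContinuousOn (fun w : Wsp dm => S.bz φ ψ Om y w) Set.univ :=
    hb.sm.continuousOn.comp (f := fun w : Wsp dm => (y, w))
      (continuous_const.prodMk continuous_id).continuousOn fun w _ => ⟨hy, Set.mem_univ _⟩
  exact continuousOn_univ.1 h1

theorem vc_le [FiniteDimensional ℂ F] {S : Setup d F} {φ : Spl dh dm d} {ψ : Spl r ds dh}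
    {U : Set (Cfg r)} {Om : Cfg r → Matrix (Fin dm) (Fin dm) ℝ} {y₀ : Cfg r} {ε C : ℝ}
    (hb : BzFacts S φ ψ U Om y₀ ε C) {E : Cfg dh → Wsp dm → F} {x : Cfg dh} (hE : FT (E x))
    (hx : zpt ψ x ∈ U) : ‖vc S φ ψ Om E x‖ ^ 2 ≤ nsf (E x) := by
  refine le_trans ?_ (vec_cs _ (bz_int hb hx) (hb.norm _ hx) (E x) (ft_sq hE))
  exact pow_le_pow_left₀ (norm_nonneg _) (Submodule.norm_starProjection_apply_le _ _) 2

theorem vc_int [FiniteDimensional ℂ F] (hA : AN.CalcA dh dm F) (hB : AN.CalcB dh dm F)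
    {S : Setup d F} {φ : Spl dh dm d} {ψ : Spl r ds dh}
    {U : Set (Cfg r)} {Om : Cfg r → Matrix (Fin dm) (Fin dm) ℝ} {V : Cfg r → F →L[ℂ] F}
    {K : Submodule ℂ F} (hV : S.VFr φ ψ U Om V K) {y₀ : Cfg r} {ε C : ℝ}
    (hb : BzFacts S φ ψ U Om y₀ ε C) {E : Cfg dh → Wsp dm → F} (hE : Tst2 E) {R : ℝ} (hR : 0 < R)
    (hEs : Sup2 (cmb ψ y₀ 0) ε R E) : Integrable fun x => ‖vc S φ ψ Om E x‖ ^ 2 := by
  have hAm : MeasurableSet (zpt ψ ⁻¹' U) := (hV.opn.preimage (zpt_cont ψ)).measurableSet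
  have hsupp : Function.support (fun x => ‖vc S φ ψ Om E x‖ ^ 2) ⊆ zpt ψ ⁻¹' U := by
    intro x hx
    by_contra hcon
    apply hx
    have h0 : ∀ w, E x w = 0 := by
      intro w
      by_contra h1
      exact hcon (hb.inU R hR _ ((zpt_near ψ x y₀ R).trans (hEs x w h1).1))
    have h2 : vc S φ ψ Om E x = 0 := by simp [vc, h0]
    simp [h2]
  rw [← integrableOn_iff_integrable_of_support_subset hsupp]
  refine Integrable.mono' ((hB.yw E hE).1.integrableOn) ((vc_meas hV hb.sm hE).norm.pow 2) ?_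
  filter_upwards [ae_restrict_mem hAm] with x hx
  rw [Real.norm_eq_abs, abs_of_nonneg (sq_nonneg _)]
  exact vc_le hb (hA.slw E hE x) hx

/-- a cutoff function -/
noncomputable def ct (t : ℝ) : ℝ := Real.smoothTransition ((1 - t) * (4 / 3))

theorem ct_sm : ContDiff ℝ ∞ ct := by
  refine Real.smoothTransition.contDiff.comp ?_
  fun_prop

theorem ct_one {t : ℝ} (h : t ≤ 1 / 4) : ct t = 1 :=
  Real.smoothTransition.one_of_one_le (by linarith)

theorem ct_zero {t : ℝ} (h : 1 ≤ t) : ct t = 0 :=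
  Real.smoothTransition.zero_of_nonpos (by linarith)

theorem ct_nonneg (t : ℝ) : 0 ≤ ct t := Real.smoothTransition.nonneg _

theorem ct_le (t : ℝ) : ct t ≤ 1 := Real.smoothTransition.le_one _

theorem Q1_mul (hA : AN.CalcA dh dm F) (S : Setup d F) (φ : Spl dh dm d) (β : Fin 16)
    (c : Cfg dh → ℝ) {v : Cfg dh → Wsp dm → F} (hv : Tst2 v) (x : Cfg dh) (w : Wsp dm) :
    S.Q1 φ β (mul2 (fun y _ => c y) v) x w = ((c x : ℝ) : ℂ) • S.Q1 φ β v x w := by
  have h1 : ∀ j B, pw j B (mul2 (fun y _ => c y) v) x w = ((c x : ℝ) : ℂ) • pw j B v x w :=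
    fun j B => hA.pw_mul j B c v hv x w
  have h2 : mul2 (fun y _ => c y) v x w = ((c x : ℝ) : ℂ) • v x w := rfl
  unfold Setup.Q1
  simp only [h1, h2]
  generalize ((c x : ℝ) : ℂ) = z
  simp only [map_smul, smul_add, Finset.smul_sum, smul_comm z, map_sum]

theorem E1_mul_le (hA : AN.CalcA dh dm F) (hB : AN.CalcB dh dm F) (S : Setup d F)
    (φ : Spl dh dm d) (c : Cfg dh → ℝ) (hc0 : ∀ x, 0 ≤ c x) (hc1 : ∀ x, c x ≤ 1)
    {v : Cfg dh → Wsp dm → F} (hv : Tst2 v)
    (h1 : ∀ β, Tst2 (S.Q1 φ β (mul2 (fun y _ => c y) v))) (h2 : ∀ β, Tst2 (S.Q1 φ β v)) :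
    S.E1 φ (mul2 (fun y _ => c y) v) ≤ S.E1 φ v := by
  refine Finset.sum_le_sum fun β _ => ?_
  have := hB.mono 1 _ _ (h1 β) (h2 β) (fun x w => by
    rw [Q1_mul hA S φ β c hv, norm_smul, Complex.norm_real, Real.norm_eq_abs,
      abs_of_nonneg (hc0 x), one_mul]
    refine pow_le_pow_left₀ (mul_nonneg (hc0 x) (norm_nonneg _)) ?_ 2
    exact mul_le_of_le_one_left (norm_nonneg _) (hc1 x))
  rwa [one_mul] at this

theorem one_n [FiniteDimensional ℂ F] (hA : AN.CalcA dh dm F) (hB : AN.CalcB dh dm F)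
    {S : Setup d F} {φ : Spl dh dm d} {ψ : Spl r ds dh}
    {U : Set (Cfg r)} {Om : Cfg r → Matrix (Fin dm) (Fin dm) ℝ} {V : Cfg r → F →L[ℂ] F}
    {K : Submodule ℂ F} (hV : S.VFr φ ψ U Om V K) {y₀ : Cfg r} {ε εb Cb C0 Cg : ℝ}
    (hb : BzFacts S φ ψ U Om y₀ εb Cb) (hεb : ε ≤ εb) (hCg : 0 < Cg) (hε : 0 < ε)
    (hco : S.CoefBd φ (cmb ψ y₀ 0) ε C0)
    (hgap : ∀ R : ℝ, 1 ≤ R → ∀ x : Cfg dh, ‖x - R • cmb ψ y₀ 0‖ ≤ ε * R → ∀ f : Wsp dm → F,
      FT f → R * nsf (fun w => f w - S.PR φ (S.Dz φ ψ (zpt ψ x)) (Om (zpt ψ x)) 1 f w) ≤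
        Cg * (S.e1 φ (S.DY φ x) f + (‖spt ψ x‖ / R) ^ 2 * R * nsf f))
    {R η : ℝ} (hR : 1 ≤ R) (hη : 0 < η) {E v : Cfg dh → Wsp dm → F} (hE : Tst2 E)
    (hEs : Sup2 (cmb ψ y₀ 0) ε R E) (hv : Tst2 v) (hvs : Sup2 (cmb ψ y₀ 0) ε R v)
    (hEη : ∀ x w, E x w ≠ 0 → ‖spt ψ x‖ ≤ η * R) :
    (R * ‖ip2 E v‖) ^ 2 ≤ (R ^ 2 * ns2 E + ns2 v) *
      (Cg * (S.E1 φ v / R + 4 * η ^ 2 * ns2 v) + R ^ 2 * ∫ x, ‖vc S φ ψ Om E x‖ ^ 2) := by
  have hRpos : 0 < R := by linarith
  have hηR : 0 < 2 * η * R := by positivity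
  set χ : Cfg dh → ℝ := fun x => ct (‖spt ψ x‖ ^ 2 / (2 * η * R) ^ 2) with hχ
  have hχ0 : ∀ x, 0 ≤ χ x := fun x => ct_nonneg _
  have hχ1 : ∀ x, χ x ≤ 1 := fun x => ct_le _
  have hχs : ContDiff ℝ ∞ χ := ct_sm.comp ((spt_smooth ψ).div_const _)
  set v' : Cfg dh → Wsp dm → F := mul2 (fun y _ => χ y) v with hv'
  have hv't : Tst2 v' := hA.mul _ v (hχs.comp contDiff_fst) hv
  have hv's : Sup2 (cmb ψ y₀ 0) ε R v' := by
    intro x w h
    refine hvs x w fun h0 => h ?_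
    simp [hv', mul2, h0]
  have hop := AN.op_stmt S φ hA hB (fun _ => 0) (by simp) (cmb ψ y₀ 0) ε C0 hε hco
  have hQ := fun β => hop.t1 R hRpos v hv hvs β
  have hQ' := fun β => hop.t1 R hRpos v' hv't hv's β
  have hE1 : S.E1 φ v' ≤ S.E1 φ v := E1_mul_le hA hB S φ χ hχ0 hχ1 hv hQ' hQ
  have hns : ns2 v' ≤ ns2 v := by
    have := hB.mono 1 v' v hv't hv (fun x w => by
      rw [one_mul, hv']
      change ‖((χ x : ℝ) : ℂ) • v x w‖ ^ 2 ≤ _
      rw [norm_smul, Complex.norm_real, Real.norm_eq_abs, abs_of_nonneg (hχ0 x)]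
      refine pow_le_pow_left₀ (mul_nonneg (hχ0 x) (norm_nonneg _)) ?_ 2
      exact mul_le_of_le_one_left (norm_nonneg _) (hχ1 x))
    rwa [one_mul] at this
  have hip : ip2 E v = ip2 E v' := by
    unfold ip2
    congr 1
    funext p
    by_cases h0 : E p.1 p.2 = 0
    · rw [h0, inner_zero_left, inner_zero_left]
    · have h1 := hEη _ _ h0
      have h2 : χ p.1 = 1 := by
        refine ct_one ?_
        rw [div_le_iff₀ (by positivity)]
        have := pow_le_pow_left₀ (norm_nonneg _) h1 2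
        nlinarith
      have h3 : v' p.1 p.2 = v p.1 p.2 := by
        change ((χ p.1 : ℝ) : ℂ) • v p.1 p.2 = _
        rw [h2, Complex.ofReal_one, one_smul]
      rw [h3]
  have hnsE := hB.nonneg E
  have hnsv := hB.nonneg v
  have hnsv' := hB.nonneg v'
  have hE10 : 0 ≤ S.E1 φ v := Finset.sum_nonneg fun β _ => hB.nonneg _
  have hE10' : 0 ≤ S.E1 φ v' := Finset.sum_nonneg fun β _ => hB.nonneg _
  have hvcI := vc_int hA hB hV (ε := εb) hb hE hRpos (AN.su359_mono hEs hRpos hεb)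
  set q := ∫ x, ‖vc S φ ψ Om E x‖ ^ 2 with hq
  have hq0 : 0 ≤ q := integral_nonneg fun x => sq_nonneg _
  -- energy densities
  have hQi : ∀ β, Integrable (fun y => nsf (S.Q1 φ β v' y)) ∧
      ns2 (S.Q1 φ β v') = ∫ y, nsf (S.Q1 φ β v' y) := fun β => hB.yw _ (hQ' β)
  have he1i : Integrable (fun y => S.e1 φ (S.DY φ y) (v' y)) := by
    have : Integrable (fun y => ∑ β, nsf (S.Q1 φ β v' y)) :=
      integrable_finsetSum _ fun β _ => (hQi β).1
    exact this.const_mul (1 / 16 : ℝ)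
  have he1e : ∫ y, S.e1 φ (S.DY φ y) (v' y) = (1 / 16) * S.E1 φ v' := by
    have h1 : (fun y => S.e1 φ (S.DY φ y) (v' y)) =
        fun y => (1 / 16 : ℝ) * ∑ β, nsf (S.Q1 φ β v' y) := rfl
    rw [h1, integral_const_mul, integral_finsetSum _ fun β _ => (hQi β).1]
    unfold Setup.E1
    congr 1
    exact Finset.sum_congr rfl fun β _ => ((hQi β).2).symm
  have hvi := hB.yw v' hv't
  have hEi := hB.yw E hE
  rw [hip]
  refine real_cs (by positivity) (by positivity) (by positivity) fun s hs => ?_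
  -- pointwise bound
  have hpt : ∀ x, ‖∫ w, inner ℂ (E x w) (v' x w)‖ ≤
      (R * s) / 2 * nsf (E x) + (R * s)⁻¹ / 2 * (R⁻¹ * (Cg * (S.e1 φ (S.DY φ x) (v' x) +
        4 * η ^ 2 * R * nsf (v' x)))) + ((R * s⁻¹) / 2 * ‖vc S φ ψ Om E x‖ ^ 2 +
        (R * s⁻¹)⁻¹ / 2 * nsf (v' x)) := by
    intro x
    have n1 := AN.e1359_nonneg S φ (S.DY φ x) (v' x)
    have n2 := nsf_nonneg (v' x)
    have n3 := nsf_nonneg (E x)
    by_cases hx : ‖x - R • cmb ψ y₀ 0‖ ≤ ε * R
    swap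
    · have h0 : ∀ w, E x w = 0 := by
        intro w
        by_contra h
        exact hx (hEs x w h).1
      simp only [h0, inner_zero_left, integral_zero, norm_zero]
      have h1 : nsf (E x) = 0 := by simp [nsf, h0]
      positivity
    have hxU : zpt ψ x ∈ U := hb.inU R hRpos _ ((zpt_near ψ x y₀ R).trans
      (hx.trans (mul_le_mul_of_nonneg_right hεb hRpos.le)))
    have h1 := fib_est (S.F0 φ (S.Dz φ ψ (zpt ψ x)) (Om (zpt ψ x)))
      (fun w => S.bz φ ψ Om (zpt ψ x) w) (bz_cont hb hxU) (bz_int hb hxU) (hb.norm _ hxU)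
      (E x) (v' x) (hA.slw E hE x) (hA.slw v' hv't x) (s := R * s) (s' := R * s⁻¹)
      (by positivity) (by positivity)
    have h2 := hgap R hR x hx (v' x) (hA.slw v' hv't x)
    simp only [bz_PR] at h2
    have h3 : (‖spt ψ x‖ / R) ^ 2 * R * nsf (v' x) ≤ 4 * η ^ 2 * R * nsf (v' x) := by
      by_cases h4 : 1 ≤ ‖spt ψ x‖ ^ 2 / (2 * η * R) ^ 2
      · have h5 : ∀ w, v' x w = 0 := by
          intro w
          change ((χ x : ℝ) : ℂ) • v x w = 0
          have : χ x = 0 := ct_zero h4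
          rw [this, Complex.ofReal_zero, zero_smul]
        have h6 : nsf (v' x) = 0 := by simp [nsf, h5]
        rw [h6, mul_zero, mul_zero]
      · push Not at h4
        rw [div_lt_one (by positivity)] at h4
        have h5 : (‖spt ψ x‖ / R) ^ 2 ≤ 4 * η ^ 2 := by
          rw [div_pow, div_le_iff₀ (by positivity)]
          nlinarith
        exact mul_le_mul_of_nonneg_right (mul_le_mul_of_nonneg_right h5 hRpos.le) n2
    have h4 : nsf (fun w => v' x w - ((S.bz φ ψ Om (zpt ψ x) w : ℝ) : ℂ) •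
        (S.F0 φ (S.Dz φ ψ (zpt ψ x)) (Om (zpt ψ x))).starProjection
          (∫ w', ((S.bz φ ψ Om (zpt ψ x) w' : ℝ) : ℂ) • v' x w')) ≤
        R⁻¹ * (Cg * (S.e1 φ (S.DY φ x) (v' x) + 4 * η ^ 2 * R * nsf (v' x))) := by
      rw [inv_mul_eq_div, le_div_iff₀ hRpos, mul_comm]
      exact h2.trans (mul_le_mul_of_nonneg_left (by linarith) hCg.le)
    have h5 := mul_le_mul_of_nonneg_left h4 (inv_nonneg.2 (mul_nonneg hRpos.le hs.le))
    have h6 : vc S φ ψ Om E x = (S.F0 φ (S.Dz φ ψ (zpt ψ x)) (Om (zpt ψ x))).starProjection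
      (∫ w, ((S.bz φ ψ Om (zpt ψ x) w : ℝ) : ℂ) • E x w) := rfl
    rw [h6]
    linarith
  have hipe : ip2 E v' = ∫ x, ∫ w, inner ℂ (E x w) (v' x w) := by
    unfold ip2
    exact integral_prod _ (hB.int_ip E v' hE hv't)
  have hI1 : Integrable fun x => (R * s) / 2 * nsf (E x) := hEi.1.const_mul _
  have hI2 : Integrable fun x => (R * s)⁻¹ / 2 * (R⁻¹ * (Cg * (S.e1 φ (S.DY φ x) (v' x) +
      4 * η ^ 2 * R * nsf (v' x)))) :=
    (((he1i.add (hvi.1.const_mul (4 * η ^ 2 * R))).const_mul Cg).const_mul R⁻¹).const_mul _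
  have hI3 : Integrable fun x => (R * s⁻¹) / 2 * ‖vc S φ ψ Om E x‖ ^ 2 := hvcI.const_mul _
  have hI4 : Integrable fun x => (R * s⁻¹)⁻¹ / 2 * nsf (v' x) := hvi.1.const_mul _
  have hI12 : Integrable fun x => (R * s) / 2 * nsf (E x) + (R * s)⁻¹ / 2 * (R⁻¹ * (Cg *
      (S.e1 φ (S.DY φ x) (v' x) + 4 * η ^ 2 * R * nsf (v' x)))) := hI1.add hI2
  have hI34 : Integrable fun x => (R * s⁻¹) / 2 * ‖vc S φ ψ Om E x‖ ^ 2 +
      (R * s⁻¹)⁻¹ / 2 * nsf (v' x) := hI3.add hI4
  have hbound := norm_integral_le_of_norm_le (hI12.add hI34) (ae_of_all _ hpt)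
  rw [← hipe] at hbound
  have hval : ∫ x, ((R * s) / 2 * nsf (E x) + (R * s)⁻¹ / 2 * (R⁻¹ * (Cg *
        (S.e1 φ (S.DY φ x) (v' x) + 4 * η ^ 2 * R * nsf (v' x)))) +
        ((R * s⁻¹) / 2 * ‖vc S φ ψ Om E x‖ ^ 2 + (R * s⁻¹)⁻¹ / 2 * nsf (v' x))) =
      (R * s) / 2 * ns2 E + (R * s)⁻¹ / 2 * (R⁻¹ * (Cg * ((1 / 16) * S.E1 φ v' +
        4 * η ^ 2 * R * ns2 v'))) + ((R * s⁻¹) / 2 * q + (R * s⁻¹)⁻¹ / 2 * ns2 v') := by
    rw [integral_add hI12 hI34, integral_add hI1 hI2, integral_add hI3 hI4,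
      integral_const_mul, integral_const_mul, integral_const_mul, integral_const_mul,
      integral_const_mul, integral_const_mul, integral_add he1i (hvi.1.const_mul _),
      integral_const_mul, he1e, ← hvi.2, ← hEi.2]
  have hbound' : ‖ip2 E v'‖ ≤ (R * s) / 2 * ns2 E + (R * s)⁻¹ / 2 * (R⁻¹ * (Cg * ((1 / 16) *
      S.E1 φ v' + 4 * η ^ 2 * R * ns2 v'))) + ((R * s⁻¹) / 2 * q + (R * s⁻¹)⁻¹ / 2 * ns2 v') := by
    rw [← hval]
    exact hbound
  have h7 := mul_le_mul_of_nonneg_left hbound' (by positivity : 0 ≤ 2 * R)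
  have h8 : 2 * R * ((R * s) / 2 * ns2 E + (R * s)⁻¹ / 2 * (R⁻¹ * (Cg * ((1 / 16) *
      S.E1 φ v' + 4 * η ^ 2 * R * ns2 v'))) + ((R * s⁻¹) / 2 * q + (R * s⁻¹)⁻¹ / 2 * ns2 v')) =
      s * (R ^ 2 * ns2 E + ns2 v') + s⁻¹ * (Cg * ((1 / 16) * S.E1 φ v' / R +
        4 * η ^ 2 * ns2 v') + R ^ 2 * q) := by
    field_simp
    ring
  rw [h8] at h7
  have h9 : s * (R ^ 2 * ns2 E + ns2 v') ≤ s * (R ^ 2 * ns2 E + ns2 v) :=
    mul_le_mul_of_nonneg_left (by linarith) hs.le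
  have h10 : (1 / 16) * S.E1 φ v' / R ≤ S.E1 φ v / R :=
    div_le_div_of_nonneg_right (by linarith) hRpos.le
  have h11 : 4 * η ^ 2 * ns2 v' ≤ 4 * η ^ 2 * ns2 v :=
    mul_le_mul_of_nonneg_left hns (by positivity)
  have h12 : s⁻¹ * (Cg * ((1 / 16) * S.E1 φ v' / R + 4 * η ^ 2 * ns2 v') + R ^ 2 * q) ≤
      s⁻¹ * (Cg * (S.E1 φ v / R + 4 * η ^ 2 * ns2 v) + R ^ 2 * q) := by
    refine mul_le_mul_of_nonneg_left ?_ (inv_nonneg.2 hs.le)
    have := mul_le_mul_of_nonneg_left (add_le_add h10 h11) hCg.le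
    linarith
  linarith

theorem ip_neg (u v : Cfg dh → Wsp dm → F) : ip2 (fun y w => -u y w) v = -ip2 u v := by
  unfold ip2
  simp only [inner_neg_left, integral_neg]

/-- an odd function only sees the odd part -/
theorem ip_odd (hB : AN.CalcB dh dm F) {E v : Cfg dh → Wsp dm → F} (hE : Tst2 E)
    (hev : Tst2 (evp v)) (hod : Tst2 (odp v)) (hodd : ∀ x w, E x (-w) = -E x w) :
    ip2 E v = ip2 E (odp v) := by
  have h1 : ip2 E v = ip2 E (evp v) + ip2 E (odp v) := by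
    rw [← hB.ip_add E (evp v) (odp v) hE hev hod]
    congr 1
    funext y w
    unfold evp odp
    module
  have h2 : ip2 E (evp v) = 0 := by
    have h3 := hB.refl E (evp v)
    have h4 : (fun y w => E y (-w)) = fun y w => -E y w := by
      funext y w
      exact hodd y w
    have h5 : (fun y w => evp v y (-w)) = evp v := by
      funext y w
      unfold evp
      rw [neg_neg, add_comm]
    rw [h4, h5, ip_neg] at h3
    have h6 : (2 : ℂ) * ip2 E (evp v) = 0 := by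
      linear_combination -h3
    simpa using h6
  rw [h1, h2, zero_add]

end Neg817

open Neg817

/-- **E-Neg** -/
theorem neg {d dh dm r ds : ℕ} {F : Type*} [NormedAddCommGroup F] [InnerProductSpace ℂ F]
    (S : Setup d F) (φ : Spl dh dm d) (ψ : Spl r ds dh) : UGapStmt S φ ψ →
    AN.CalcA dh dm F → AN.CalcB dh dm F → AN.FIntStmt S φ → AN.ParStmt S φ → AN.CoefStmt S φ →
    AN.FibOutStmt S φ → BzStmt S φ ψ → NegStmt S φ ψ := by
  intro hUG hA hB hFI hPar hCoef hFib hBz fd hsub hcen U Om V K hV y₀ hy₀ hStd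
  obtain ⟨εg, Cg, hεg, hCg, hgap⟩ := hUG fd hsub hcen U Om V K hV y₀ hy₀ hStd
  obtain ⟨εb, Cb, hεb, hCb, hb⟩ := hBz hsub hcen U Om V K hV y₀ hy₀
  obtain ⟨εc, C0, hεc, hC0, hco⟩ := hCoef _ hStd
  obtain ⟨Om', εf, C1, hOm', hFrz, hεf, hC1, hff, -⟩ := hFib fd _ hStd
  set ε := min (min εg εb) (min εc εf) with hεdef
  have hε : 0 < ε := lt_min (lt_min hεg hεb) (lt_min hεc hεf)
  have l1 : ε ≤ εg := (min_le_left _ _).trans (min_le_left _ _)
  have l2 : ε ≤ εb := (min_le_left _ _).trans (min_le_right _ _)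
  have l3 : ε ≤ εc := (min_le_right _ _).trans (min_le_left _ _)
  have l4 : ε ≤ εf := (min_le_right _ _).trans (min_le_right _ _)
  have hco' := AN.co359_mono hco l3
  have hff' := AN.ff359_mono hff l4
  refine ⟨ε, hε, ?_⟩
  intro R η E v C hRt hη hηt hR hE hEs hv hvs hnv hE1 hcond
  have hC : 0 ≤ C := (hB.nonneg (v 0)).trans (hnv 0)
  have hRp : ∀ n, 0 < R n := fun n => lt_of_lt_of_le one_pos (hR n)
  rw [tendsto_zero_iff_norm_tendsto_zero]
  have hnorm : (fun n => ‖(R n : ℂ) * ip2 (E n) (v n)‖) = fun n => R n * ‖ip2 (E n) (v n)‖ := by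
    funext n
    rw [norm_mul, Complex.norm_real, Real.norm_eq_abs, abs_of_pos (hRp n)]
  rw [hnorm]
  have hz : ∀ n, 0 ≤ R n * ‖ip2 (E n) (v n)‖ := fun n => mul_nonneg (hRp n).le (norm_nonneg _)
  have hE1' : ∀ n, S.E1 φ (v n) ≤ C := by
    intro n
    have h0 : 0 ≤ S.E1 φ (v n) := Finset.sum_nonneg fun β _ => hB.nonneg _
    have h1 : 1 ≤ R n ^ 2 := one_le_pow₀ (hR n)
    have := hE1 n
    nlinarith
  rcases hcond with h1 | ⟨h2a, h2b, h2c⟩ | ⟨h3a, h3b⟩
  · refine lim_of C hz (fun n => ?_) h1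
    have h2 := ip_cs hA hB (hE n) (hv n)
    have h3 := hB.nonneg (E n)
    rw [mul_pow]
    have h4 : ns2 (E n) * ns2 (v n) ≤ ns2 (E n) * C := mul_le_mul_of_nonneg_left (hnv n) h3
    have h5 := mul_le_mul_of_nonneg_left (h2.trans h4) (sq_nonneg (R n))
    linarith
  · have hlim : Tendsto (fun n => Cg * (C * (R n)⁻¹ + 4 * (η n ^ 2 * C)) +
        R n ^ 2 * ∫ x, ‖vc S φ ψ Om (E n) x‖ ^ 2) atTop (𝓝 0) := by
      have e1 : Tendsto (fun n => (R n)⁻¹) atTop (𝓝 0) := tendsto_inv_atTop_zero.comp hRt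
      have e2 : Tendsto (fun n => η n ^ 2) atTop (𝓝 0) := by simpa using hηt.pow 2
      have e3 := (((e1.const_mul C).add ((e2.mul_const C).const_mul 4)).const_mul Cg).add h2c
      simpa using e3
    refine lim_of (2 * C) hz (fun n => ?_) hlim
    have h3 := one_n hA hB hV hb l2 hCg hε hco'
      (fun R hR x hx f hf => hgap R hR x (hx.trans (mul_le_mul_of_nonneg_right l1
        (by linarith))) f hf) (hR n) (hη n) (hE n) (hEs n) (hv n) (hvs n) (h2b n)
    have n1 := hB.nonneg (E n)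
    have n2 := hB.nonneg (v n)
    have n3 : 0 ≤ S.E1 φ (v n) := Finset.sum_nonneg fun β _ => hB.nonneg _
    have n4 : 0 ≤ ∫ x, ‖vc S φ ψ Om (E n) x‖ ^ 2 := integral_nonneg fun x => sq_nonneg _
    have h4 : R n ^ 2 * ns2 (E n) + ns2 (v n) ≤ 2 * C := by
      have := h2a n
      have := hnv n
      linarith
    have h5 : Cg * (S.E1 φ (v n) / R n + 4 * η n ^ 2 * ns2 (v n)) +
        R n ^ 2 * ∫ x, ‖vc S φ ψ Om (E n) x‖ ^ 2 ≤
        Cg * (C * (R n)⁻¹ + 4 * (η n ^ 2 * C)) + R n ^ 2 * ∫ x, ‖vc S φ ψ Om (E n) x‖ ^ 2 := by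
      have e1 : S.E1 φ (v n) / R n ≤ C * (R n)⁻¹ := by
        rw [div_eq_mul_inv]
        exact mul_le_mul_of_nonneg_right (hE1' n) (inv_nonneg.2 (hRp n).le)
      have e2 : 4 * η n ^ 2 * ns2 (v n) ≤ 4 * (η n ^ 2 * C) := by
        have := mul_le_mul_of_nonneg_left (hnv n) (sq_nonneg (η n))
        linarith
      have := mul_le_mul_of_nonneg_left (add_le_add e1 e2) hCg.le
      linarith
    have hRn := hRp n
    refine h3.trans (mul_le_mul h4 h5 ?_ (by positivity))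
    positivity
  · have h3b' : Tendsto (fun n => ns2 (E n) / R n) atTop (𝓝 0) := h3b
    refine lim_of (C1 * C) hz (fun n => ?_) h3b'
    obtain ⟨p1, p2, p3, p4, p5, p6, p7, -⟩ := hPar (fun _ => 0) (by simp) (cmb ψ y₀ 0) ε C0 hε
      hco' (R n) (hRp n) 0 (v n) (hv n) (hvs n)
    rw [ip_odd hB (hE n) p1 p2 (h3a n)]
    have h2 := ip_cs hA hB (hE n) p2
    have h4 := (hFI (cmb ψ y₀ 0) ε C0 C1 hε hco' hff' hC1 (R n) (hRp n) (odp (v n)) p2 p4).2 p5
    have n1 := hB.nonneg (E n)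
    have n3 : 0 ≤ S.E1 φ (evp (v n)) := Finset.sum_nonneg fun β _ => hB.nonneg _
    have h5 : R n * ns2 (odp (v n)) ≤ C1 * S.E1 φ (v n) :=
      h4.trans (mul_le_mul_of_nonneg_left (by linarith) hC1)
    have hRn := hRp n
    have h6 : R n ^ 3 * ns2 (odp (v n)) ≤ C1 * C := by
      have e1 := mul_le_mul_of_nonneg_left h5 (sq_nonneg (R n))
      have e2 := mul_le_mul_of_nonneg_left (hE1 n) hC1
      nlinarith
    rw [mul_pow]
    have h7 := mul_le_mul_of_nonneg_left h2 (sq_nonneg (R n))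
    have h8 : R n ^ 2 * (ns2 (E n) * ns2 (odp (v n))) =
        ns2 (E n) / R n * (R n ^ 3 * ns2 (odp (v n))) := by
      field_simp
    have h9 := mul_le_mul_of_nonneg_left h6 (div_nonneg n1 hRn.le)
    linarith

end Vale.Agent.P353.Z.AE
end
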