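import Mathlib
import Vale.Agent.P353.BdA.B1

set_option linter.all false

section

/-! # P353, all `N`, block B-Om: existence of `Ω` -/

open MeasureTheory Filter Topology Matrix
open scoped ContDiff

namespace Vale.Agent.P353.Z

namespace OmPf

open Unitary

variable {n : Type*} [Fintype n] [DecidableEq n]

/-- positive square root of a positive definite real matrix which commutes with the commutant -/
lemma omp_sqrt {A : Matrix n n ℝ} (hA : A.PosDef) : ∃ Om : Matrix n n ℝ, Om.PosDef ∧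
    Om * Om = A ∧ ∀ M : Matrix n n ℝ, M * A = A * M → M * Om = Om * M := by
  set U := hA.1.eigenvectorUnitary with hU
  set ev := hA.1.eigenvalues with hev
  have hpos : ∀ i, 0 < ev i := hA.eigenvalues_pos
  have hsp : A = conjStarAlgAut ℝ _ U (diagonal ev) := by
    have := hA.1.spectral_theorem
    rw [← hU, ← hev] at this
    exact this
  refine ⟨conjStarAlgAut ℝ _ U (diagonal fun i => Real.sqrt (ev i)), ?_, ?_, ?_⟩
  · simp [isUnit_coe.posDef_star_right_conjugate_iff, hpos]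
  · rw [← map_mul, diagonal_mul_diagonal, hsp]
    congr 2
    funext i
    exact Real.mul_self_sqrt (hpos i).le
  · intro M hM
    obtain ⟨M', hM'⟩ : ∃ M', conjStarAlgAut ℝ (Matrix n n ℝ) U M' = M :=
      ⟨(conjStarAlgAut ℝ (Matrix n n ℝ) U).symm M, StarAlgEquiv.apply_symm_apply _ _⟩
    subst hM'
    rw [← map_mul, ← map_mul]
    congr 1
    rw [hsp, ← map_mul, ← map_mul] at hM
    have h1 := (conjStarAlgAut ℝ (Matrix n n ℝ) U).injective hM
    ext i j
    have h2 := congrFun (congrFun h1 i) j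
    rw [mul_diagonal, diagonal_mul] at h2 ⊢
    rcases eq_or_ne (M' i j) 0 with h3 | h3
    · rw [h3, zero_mul, mul_zero]
    · have h4 : ev j = ev i := by
        have : M' i j * (ev j - ev i) = 0 := by linear_combination h2
        exact sub_eq_zero.1 ((mul_eq_zero.1 this).resolve_left h3)
      rw [h4, mul_comm]

end OmPf

/-- **B-Om** -/
theorem om : OmStmt := by
  intro dm κ D hκ hD
  have hq : ∀ (i : Fin 9) (v : Fin dm → ℝ), v ⬝ᵥ ((D i * D i) *ᵥ v) = -((D i *ᵥ v) ⬝ᵥ (D i *ᵥ v)) := by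
    intro i v
    rw [← mulVec_mulVec, dotProduct_mulVec, ← mulVec_transpose, hD.anti i, neg_mulVec,
      neg_dotProduct]
  have hA : (-(κ ^ 2 • ∑ i, D i * D i)).PosDef := by
    refine PosDef.of_dotProduct_mulVec_pos ?_ ?_
    · have h1 : ∀ i, (D i * D i)ᵀ = D i * D i := by
        intro i
        rw [transpose_mul, hD.anti i, neg_mul_neg]
      change (-(κ ^ 2 • ∑ i, D i * D i))ᴴ = _
      rw [conjTranspose_eq_transpose_of_trivial, transpose_neg, transpose_smul, transpose_sum]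
      simp only [h1]
    · intro v hv
      rw [star_trivial, neg_mulVec, smul_mulVec, sum_mulVec, dotProduct_neg, dotProduct_smul,
        dotProduct_sum]
      simp only [hq]
      rw [Finset.sum_neg_distrib, smul_neg, neg_neg, smul_eq_mul]
      refine mul_pos (by positivity) ?_
      refine Finset.sum_pos' (fun i _ => ?_) ⟨8, Finset.mem_univ _, ?_⟩
      · exact Finset.sum_nonneg fun j _ => mul_self_nonneg _
      · have h8 : D 8 *ᵥ v ≠ 0 := by
          intro h0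
          apply hv
          have h1 : (D 8)⁻¹ *ᵥ (D 8 *ᵥ v) = 0 := by rw [h0, mulVec_zero]
          rwa [mulVec_mulVec, nonsing_inv_mul _ (isUnit_iff_ne_zero.2 hD.inv), one_mulVec] at h1
        have h9 := (dotProduct_self_eq_zero (v := D 8 *ᵥ v)).not.2 h8
        exact lt_of_le_of_ne (Finset.sum_nonneg fun j _ => mul_self_nonneg _) (Ne.symm h9)
  obtain ⟨Om, h1, h2, h3⟩ := OmPf.omp_sqrt hA
  refine ⟨Om, ?_, ?_, h2, ?_⟩
  · have := h1.1
    rwa [IsHermitian, conjTranspose_eq_transpose_of_trivial] at this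
  · intro v hv
    have := h1.dotProduct_mulVec_pos hv
    rwa [star_trivial] at this
  · intro M hM
    refine h3 M ?_
    rw [mul_neg, neg_mul, mul_smul_comm, smul_mul_assoc, hM]

end Vale.Agent.P353.Z
end

section

/-! # P353, all `N`, block X-Root: root data exist -/

open MeasureTheory Filter Topology Matrix
open scoped ContDiff

namespace Vale.Agent.P353.Z.AX

namespace RootPf

/-- simultaneous diagonalisation of commuting real symmetric matrices -/
lemma rtp_simdiag {ι : Type*} [Finite ι] {n : ℕ} (T : ι → Matrix (Fin n) (Fin n) ℝ)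
    (hs : ∀ a, (T a)ᵀ = T a) (hc : ∀ a b, T a * T b = T b * T a) :
    ∃ (E : Matrix (Fin n) (Fin n) ℝ) (l : Fin n → ι → ℝ), E * Eᵀ = 1 ∧
      ∀ a, T a = Eᵀ * diagonal (fun k => l k a) * E := by
  classical
  have hap : ∀ (A : Matrix (Fin n) (Fin n) ℝ) (x : EuclideanSpace ℝ (Fin n)),
      (toEuclideanLin A x).ofLp = A *ᵥ x.ofLp := fun _ _ => rfl
  set L : ι → (EuclideanSpace ℝ (Fin n) →ₗ[ℝ] EuclideanSpace ℝ (Fin n)) :=
    fun a => toEuclideanLin (T a) with hL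
  have hsym : ∀ a, (L a).IsSymmetric := by
    intro a
    rw [hL]
    refine isSymmetric_toEuclideanLin_iff.2 ?_
    rw [IsHermitian, conjTranspose_eq_transpose_of_trivial]
    exact hs a
  have hcomm : Pairwise (Function.onFun Commute L) := by
    intro a b _
    change L a * L b = L b * L a
    refine LinearMap.ext fun x => ?_
    apply (WithLp.equiv 2 (Fin n → ℝ)).injective
    change (toEuclideanLin (T a) (toEuclideanLin (T b) x)).ofLp =
      (toEuclideanLin (T b) (toEuclideanLin (T a) x)).ofLp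
    rw [hap, hap, hap, hap, mulVec_mulVec, mulVec_mulVec, hc]
  have hV := LinearMap.IsSymmetric.directSum_isInternal_of_pairwise_commute hsym hcomm
  have hV' := LinearMap.IsSymmetric.orthogonalFamily_iInf_eigenspaces hsym
  have hW := DirectSum.isInternal_ne_bot_iff.2 hV
  have hfin : Set.Finite {χ : ι → ℝ | (⨅ a, Module.End.eigenspace (L a) (χ a)) ≠ ⊥} :=
    WellFoundedGT.finite_ne_bot_of_iSupIndep hV.submodule_iSupIndep
  have : Fintype {χ : ι → ℝ // (⨅ a, Module.End.eigenspace (L a) (χ a)) ≠ ⊥} := hfin.fintype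
  have hW' := hV'.comp (Subtype.val_injective
    (p := fun χ : ι → ℝ => (⨅ a, Module.End.eigenspace (L a) (χ a)) ≠ ⊥))
  have hn : Module.finrank ℝ (EuclideanSpace ℝ (Fin n)) = n := finrank_euclideanSpace_fin
  set b := hW.subordinateOrthonormalBasis hn hW' with hb
  have hmem : ∀ k, ∃ χ : ι → ℝ, ∀ a, L a (b k) = χ a • b k := by
    intro k
    have h1 := hW.subordinateOrthonormalBasis_subordinate hn k hW'
    refine ⟨(hW.subordinateOrthonormalBasisIndex hn k hW').1, fun a => ?_⟩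
    rw [Submodule.mem_iInf] at h1
    exact Module.End.mem_eigenspace_iff.1 (h1 a)
  choose l hl using hmem
  have hE : (Matrix.of fun i j => b i j) * (Matrix.of fun i j => b i j)ᵀ =
      (1 : Matrix (Fin n) (Fin n) ℝ) := by
    ext i j
    rw [mul_apply]
    have h1 : inner ℝ (b i) (b j) = if i = j then (1 : ℝ) else 0 :=
      orthonormal_iff_ite.1 b.orthonormal i j
    rw [one_apply, ← h1, PiLp.inner_apply]
    simp [mul_comm]
  refine ⟨Matrix.of fun i j => b i j, l, hE, fun a => ?_⟩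
  have hE2 := mul_eq_one_comm.1 hE
  have h2 : T a * (Matrix.of fun i j => b i j)ᵀ =
      (Matrix.of fun i j => b i j)ᵀ * diagonal (fun k => l k a) := by
    ext i k
    rw [mul_diagonal, mul_apply]
    have h3 := congrArg (fun x : EuclideanSpace ℝ (Fin n) => x.ofLp i) (hl k a)
    simp only [hL] at h3
    rw [hap] at h3
    simp only [WithLp.ofLp_smul, Pi.smul_apply, smul_eq_mul] at h3
    simp only [transpose_apply, of_apply]
    rw [mul_comm]
    exact h3
  calc T a = T a * ((Matrix.of fun i j => b i j)ᵀ * (Matrix.of fun i j => b i j)) := by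
        rw [hE2, mul_one]
    _ = _ := by rw [← Matrix.mul_assoc, h2]

end RootPf

/-- **X-Root** -/
theorem root : RootStmt := by
  intro r dm M t hM
  set A := ∑ a, t a • M a with hA
  have hAT : Aᵀ = -A := by
    rw [hA, transpose_sum, ← Finset.sum_neg_distrib]
    refine Finset.sum_congr rfl fun a _ => ?_
    rw [transpose_smul, hM.anti, smul_neg]
  have hMA : ∀ a, M a * A = A * M a := by
    intro a
    rw [hA, Finset.mul_sum, Finset.sum_mul]
    refine Finset.sum_congr rfl fun b _ => ?_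
    rw [mul_smul_comm, smul_mul_assoc, hM.comm]
  have hB : (-(A * A)).PosDef := by
    refine PosDef.of_dotProduct_mulVec_pos ?_ ?_
    · change (-(A * A))ᴴ = _
      rw [conjTranspose_eq_transpose_of_trivial, transpose_neg, transpose_mul, hAT, neg_mul_neg]
    · intro v hv
      rw [star_trivial, neg_mulVec, dotProduct_neg, ← mulVec_mulVec, dotProduct_mulVec,
        ← mulVec_transpose, hAT, neg_mulVec, neg_dotProduct, neg_neg]
      have h8 : A *ᵥ v ≠ 0 := by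
        intro h0
        apply hv
        have h1 : A⁻¹ *ᵥ (A *ᵥ v) = 0 := by rw [h0, mulVec_zero]
        rwa [mulVec_mulVec, nonsing_inv_mul _ (isUnit_iff_ne_zero.2 hM.reg), one_mulVec] at h1
      have h9 := (dotProduct_self_eq_zero (v := A *ᵥ v)).not.2 h8
      exact lt_of_le_of_ne (Finset.sum_nonneg fun j _ => mul_self_nonneg _) (Ne.symm h9)
  obtain ⟨P, hP, hPP, hPc⟩ := OmPf.omp_sqrt hB
  have hPT : Pᵀ = P := by
    have := hP.1
    rwa [IsHermitian, conjTranspose_eq_transpose_of_trivial] at this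
  have hPu : IsUnit P.det := isUnit_iff_ne_zero.2 hP.det_pos.ne'
  set Pi := P⁻¹ with hPi
  have hPPi : P * Pi = 1 := mul_nonsing_inv _ hPu
  have hPiP : Pi * P = 1 := nonsing_inv_mul _ hPu
  have cinv : ∀ X : Matrix (Fin dm) (Fin dm) ℝ, X * P = P * X → X * Pi = Pi * X := by
    intro X hX
    calc X * Pi = (Pi * P) * X * Pi := by rw [hPiP, Matrix.one_mul]
      _ = Pi * (P * X) * Pi := by rw [Matrix.mul_assoc Pi P X]
      _ = Pi * (X * P) * Pi := by rw [hX]
      _ = Pi * X * (P * Pi) := by simp only [Matrix.mul_assoc]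
      _ = Pi * X := by rw [hPPi, Matrix.mul_one]
  have hMP : ∀ a, M a * P = P * M a := by
    intro a
    refine hPc _ ?_
    rw [mul_neg, neg_mul, ← Matrix.mul_assoc, hMA, Matrix.mul_assoc, hMA, Matrix.mul_assoc]
  have hAP : A * P = P * A := by
    refine hPc _ ?_
    rw [mul_neg, neg_mul, Matrix.mul_assoc]
  have hMPi := fun a => cinv _ (hMP a)
  have hAPi : A * Pi = Pi * A := cinv _ hAP
  obtain ⟨Kc, hKc⟩ : ∃ Kc, Kc = A * Pi := ⟨_, rfl⟩
  have hPiT : Piᵀ = Pi := by rw [hPi, transpose_nonsing_inv, hPT]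
  have hanti : Kcᵀ = -Kc := by
    rw [hKc, transpose_mul, hAT, hPiT, mul_neg, hAPi]
  have hAA : A * A = -(P * P) := by rw [hPP, neg_neg]
  have hsq : Kc * Kc = -1 := by
    calc Kc * Kc = A * (Pi * A) * Pi := by rw [hKc]; simp only [Matrix.mul_assoc]
      _ = A * A * Pi * Pi := by rw [← hAPi]; simp only [Matrix.mul_assoc]
      _ = -(P * (P * Pi) * Pi) := by rw [hAA]; simp only [neg_mul, Matrix.mul_assoc]
      _ = -1 := by rw [hPPi, Matrix.mul_one, hPPi]
  have hMK : ∀ a, M a * Kc = Kc * M a := by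
    intro a
    rw [hKc, ← Matrix.mul_assoc, hMA, Matrix.mul_assoc, hMPi, Matrix.mul_assoc]
  have hTs : ∀ a, (-(M a * Kc))ᵀ = -(M a * Kc) := by
    intro a
    rw [transpose_neg, transpose_mul, hanti, hM.anti, neg_mul_neg, hMK]
  have hMKM : ∀ a b, M a * Kc * (M b * Kc) = -(M a * M b) := by
    intro a b
    calc M a * Kc * (M b * Kc) = M a * (Kc * M b) * Kc := by simp only [Matrix.mul_assoc]
      _ = M a * M b * (Kc * Kc) := by rw [← hMK]; simp only [Matrix.mul_assoc]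
      _ = -(M a * M b) := by rw [hsq, mul_neg, Matrix.mul_one]
  have hTc : ∀ a b, -(M a * Kc) * -(M b * Kc) = -(M b * Kc) * -(M a * Kc) := by
    intro a b
    rw [neg_mul_neg, neg_mul_neg, hMKM, hMKM, hM.comm]
  obtain ⟨E, l, hE, hT⟩ := RootPf.rtp_simdiag (fun a => -(M a * Kc)) hTs hTc
  have hE2 := mul_eq_one_comm.1 hE
  have hTK : ∀ a, -(M a * Kc) * Kc = M a := by
    intro a
    rw [neg_mul, Matrix.mul_assoc, hsq, mul_neg, Matrix.mul_one, neg_neg]
  refine ⟨Kc, E, l, hanti, hsq, hE, fun a => ?_, fun k => ?_, fun f => ?_⟩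
  · rw [sp, ← hT a, hTK]
  · -- positivity
    have h1 : P = Eᵀ * diagonal (fun k => ∑ a, l k a * t a) * E := by
      have h2 : P = ∑ a, t a • -(M a * Kc) := by
        have h3 : ∑ a, t a • -(M a * Kc) = -(A * Kc) := by
          rw [hA, Finset.sum_mul, ← Finset.sum_neg_distrib]
          refine Finset.sum_congr rfl fun a _ => ?_
          rw [smul_neg, smul_mul_assoc]
        rw [h3, hKc, ← Matrix.mul_assoc, hAA, neg_mul, neg_neg, Matrix.mul_assoc, hPPi,
          Matrix.mul_one]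
      rw [h2]
      have h4 : diagonal (fun k => ∑ a, l k a * t a) =
          ∑ a, t a • diagonal (fun k => l k a) := by
        ext i j
        rw [Matrix.sum_apply]
        simp only [diagonal_apply, Matrix.smul_apply, smul_eq_mul]
        by_cases hij : i = j
        · simp [hij, mul_comm]
        · simp [hij]
      rw [h4, Finset.mul_sum, Finset.sum_mul]
      refine Finset.sum_congr rfl fun a _ => ?_
      rw [hT a, mul_smul_comm, smul_mul_assoc]
    have h5 : E * P * Eᵀ = diagonal (fun k => ∑ a, l k a * t a) := by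
      rw [h1]
      calc E * (Eᵀ * diagonal (fun k => ∑ a, l k a * t a) * E) * Eᵀ =
            (E * Eᵀ) * diagonal (fun k => ∑ a, l k a * t a) * (E * Eᵀ) := by
              simp only [Matrix.mul_assoc]
        _ = _ := by rw [hE, Matrix.one_mul, Matrix.mul_one]
    have h6 : (E * P * Eᵀ) k k = E k ⬝ᵥ (P *ᵥ E k) := by
      rw [Matrix.mul_assoc, mul_apply, dotProduct]
      refine Finset.sum_congr rfl fun j _ => ?_
      congr 1
    have h7 : E k ≠ 0 := by
      intro h0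
      have h8 : (E * Eᵀ) k k = 1 := by rw [hE, one_apply_eq]
      rw [mul_apply] at h8
      simp [h0] at h8
    have h9 := hP.dotProduct_mulVec_pos h7
    rw [star_trivial, ← h6, h5, diagonal_apply_eq] at h9
    exact h9
  · -- commutation
    have hKT : ∀ a, Kc * -(M a * Kc) = -(M a * Kc) * Kc := by
      intro a
      rw [mul_neg, neg_mul, ← Matrix.mul_assoc, ← hMK]
    set N := E * Kc * Eᵀ with hN
    have hKN : Kc = Eᵀ * N * E := by
      rw [hN]
      calc Kc = (Eᵀ * E) * Kc * (Eᵀ * E) := by rw [hE2, Matrix.one_mul, Matrix.mul_one]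
        _ = _ := by simp only [Matrix.mul_assoc]
    have hNd : ∀ a, N * diagonal (fun k => l k a) = diagonal (fun k => l k a) * N := by
      intro a
      have h1 := hKT a
      have h1' : -(M a * Kc) = Eᵀ * diagonal (fun k => l k a) * E := hT a
      rw [h1'] at h1
      calc N * diagonal (fun k => l k a) =
            E * (Kc * (Eᵀ * diagonal (fun k => l k a) * E)) * Eᵀ := by
              rw [hN]
              calc E * Kc * Eᵀ * diagonal (fun k => l k a) =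
                  E * Kc * Eᵀ * diagonal (fun k => l k a) * (E * Eᵀ) := by
                    rw [hE, Matrix.mul_one]
                _ = _ := by simp only [Matrix.mul_assoc]
        _ = E * (Eᵀ * diagonal (fun k => l k a) * E * Kc) * Eᵀ := by rw [h1]
        _ = (E * Eᵀ) * diagonal (fun k => l k a) * (E * Kc * Eᵀ) := by
              simp only [Matrix.mul_assoc]
        _ = diagonal (fun k => l k a) * N := by rw [hE, Matrix.one_mul]
    have hNf : N * diagonal (fun k => f (l k)) = diagonal (fun k => f (l k)) * N := by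
      ext i j
      rw [mul_diagonal, diagonal_mul]
      by_cases h0 : N i j = 0
      · rw [h0, zero_mul, mul_zero]
      · have h1 : l i = l j := by
          funext a
          have h2 := congrFun (congrFun (hNd a) i) j
          rw [mul_diagonal, diagonal_mul] at h2
          have h3 : N i j * (l j a - l i a) = 0 := by linear_combination h2
          exact (sub_eq_zero.1 ((mul_eq_zero.1 h3).resolve_left h0)).symm
        rw [h1, mul_comm]
    rw [sp, hKN]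
    calc Eᵀ * N * E * (Eᵀ * diagonal (fun k => f (l k)) * E) =
          Eᵀ * N * (E * Eᵀ) * diagonal (fun k => f (l k)) * E := by simp only [Matrix.mul_assoc]
      _ = Eᵀ * (N * diagonal (fun k => f (l k))) * E := by
            rw [hE, Matrix.mul_one]; simp only [Matrix.mul_assoc]
      _ = Eᵀ * (diagonal (fun k => f (l k)) * N) * E := by rw [hNf]
      _ = Eᵀ * diagonal (fun k => f (l k)) * (E * Eᵀ) * N * E := by
            rw [hE, Matrix.mul_one]; simp only [Matrix.mul_assoc]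
      _ = _ := by simp only [Matrix.mul_assoc]

end Vale.Agent.P353.Z.AX
end

section

/-! # P353, all `N`, block X: uniqueness of `Ω`, functions of one root, calculus of `sp` -/

open MeasureTheory Filter Topology Matrix
open scoped ContDiff

namespace Vale.Agent.P353.Z.AX

/-- **X-OmU** -/
theorem omU : OmUStmt := by
  intro dm κ D Om Om' hκ h h'
  have hk : (κ ^ 2 : ℝ) ≠ 0 := (pow_pos hκ 2).ne'
  have h1 : Om' * (∑ i, D i * D i) = (∑ i, D i * D i) * Om' := by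
    have e : Om' * (Om' * Om') = (Om' * Om') * Om' := (Matrix.mul_assoc _ _ _).symm
    rw [h'.sq, mul_neg, neg_mul, mul_smul_comm, smul_mul_assoc, neg_inj] at e
    exact smul_right_injective _ hk e
  have h2 : Om' * Om = Om * Om' := h.comm Om' h1
  have h3 : (Om - Om') * (Om + Om') = 0 := by
    rw [sub_mul, mul_add, mul_add, h.sq, h'.sq, h2]
    abel
  have h4 : (Om + Om').det ≠ 0 := by
    intro h0
    obtain ⟨v, hv, hv0⟩ := Matrix.exists_mulVec_eq_zero_iff.2 h0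
    have p1 := h.pos v hv
    have p2 := h'.pos v hv
    have : v ⬝ᵥ ((Om + Om') *ᵥ v) = 0 := by rw [hv0, dotProduct_zero]
    rw [add_mulVec, dotProduct_add] at this
    linarith
  have h5 : (Om + Om') * (Om + Om')⁻¹ = 1 := mul_nonsing_inv _ (isUnit_iff_ne_zero.2 h4)
  have h6 : Om - Om' = 0 := by
    calc Om - Om' = (Om - Om') * ((Om + Om') * (Om + Om')⁻¹) := by rw [h5, mul_one]
      _ = 0 := by rw [← Matrix.mul_assoc, h3, zero_mul]
  exact sub_eq_zero.1 h6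

/-- **X-Sp** -/
theorem spS : SpStmt := by
  intro dm E hE
  have hE' : Eᵀ * E = 1 := mul_eq_one_comm.1 hE
  have hinj : ∀ v : Fin dm → ℝ, v ≠ 0 → E *ᵥ v ≠ 0 := by
    intro v hv h0
    apply hv
    have : Eᵀ *ᵥ (E *ᵥ v) = 0 := by rw [h0, mulVec_zero]
    rwa [mulVec_mulVec, hE', one_mulVec] at this
  have hq : ∀ f (v : Fin dm → ℝ), v ⬝ᵥ (sp E f *ᵥ v) = ∑ k, f k * (E *ᵥ v) k ^ 2 := by
    intro f v
    rw [sp, ← mulVec_mulVec, ← mulVec_mulVec, dotProduct_mulVec, vecMul_transpose, dotProduct]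
    refine Finset.sum_congr rfl fun k _ => ?_
    rw [mulVec_diagonal]
    ring
  refine ⟨?_, ?_, ?_, ?_, ?_, ?_, hq, ?_, ?_⟩
  · intro f g
    unfold sp
    calc Eᵀ * diagonal f * E * (Eᵀ * diagonal g * E) = Eᵀ * diagonal f * (E * Eᵀ) * (diagonal g * E) := by
          simp only [Matrix.mul_assoc]
      _ = Eᵀ * diagonal (fun k => f k * g k) * E := by
          rw [hE, mul_one, ← Matrix.mul_assoc, Matrix.mul_assoc Eᵀ, diagonal_mul_diagonal]
  · intro f g
    unfold sp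
    rw [← add_mul, ← mul_add, diagonal_add]
  · intro c f
    unfold sp
    rw [← smul_mul_assoc, ← mul_smul_comm, ← diagonal_smul]
    rfl
  · unfold sp
    rw [diagonal_one, mul_one, hE']
  · intro f
    unfold sp
    rw [transpose_mul, transpose_mul, diagonal_transpose, transpose_transpose, Matrix.mul_assoc]
  · intro f
    unfold sp
    rw [det_mul, det_mul, det_diagonal]
    have : Eᵀ.det * E.det = 1 := by rw [← det_mul, hE', det_one]
    calc Eᵀ.det * (∏ i, f i) * E.det = (Eᵀ.det * E.det) * ∏ i, f i := by ring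
      _ = _ := by rw [this, one_mul]
  · intro f hf v hv
    rw [hq]
    have hv' := hinj v hv
    obtain ⟨k, hk⟩ := Function.ne_iff.1 hv'
    refine Finset.sum_pos' (fun i _ => mul_nonneg (hf i).le (sq_nonneg _)) ⟨k, Finset.mem_univ _, ?_⟩
    exact mul_pos (hf k) (by
      have : (E *ᵥ v) k ≠ 0 := hk
      positivity)
  · intro f g M hfg hM
    have c1 : ∀ h : Fin dm → ℝ, E * (sp E h) = diagonal h * E := by
      intro h
      unfold sp
      rw [← Matrix.mul_assoc, ← Matrix.mul_assoc, hE, one_mul]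
    have c2 : ∀ h : Fin dm → ℝ, (sp E h) * Eᵀ = Eᵀ * diagonal h := by
      intro h
      unfold sp
      rw [Matrix.mul_assoc, hE, mul_one]
    have hM2 : (E * M * Eᵀ) * diagonal f = diagonal f * (E * M * Eᵀ) := by
      calc (E * M * Eᵀ) * diagonal f = E * M * (Eᵀ * diagonal f) := by simp only [Matrix.mul_assoc]
        _ = E * (M * sp E f) * Eᵀ := by rw [← c2]; simp only [Matrix.mul_assoc]
        _ = (E * sp E f) * (M * Eᵀ) := by rw [hM]; simp only [Matrix.mul_assoc]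
        _ = diagonal f * (E * M * Eᵀ) := by rw [c1]; simp only [Matrix.mul_assoc]
    have hM3 : (E * M * Eᵀ) * diagonal g = diagonal g * (E * M * Eᵀ) := by
      ext j k
      have h2 := congrFun (congrFun hM2 j) k
      rw [mul_diagonal, diagonal_mul] at h2 ⊢
      rcases eq_or_ne ((E * M * Eᵀ) j k) 0 with h3 | h3
      · rw [h3, zero_mul, mul_zero]
      · have h4 : f j = f k := by
          have : (E * M * Eᵀ) j k * (f j - f k) = 0 := by linear_combination -h2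
          exact sub_eq_zero.1 ((mul_eq_zero.1 this).resolve_left h3)
        rw [hfg j k h4, mul_comm]
    calc M * sp E g = (Eᵀ * E) * M * (Eᵀ * E) * sp E g := by rw [hE', one_mul, mul_one]
      _ = Eᵀ * (E * M * Eᵀ) * (E * sp E g) := by simp only [Matrix.mul_assoc]
      _ = Eᵀ * ((E * M * Eᵀ) * diagonal g) * E := by rw [c1]; simp only [Matrix.mul_assoc]
      _ = (Eᵀ * diagonal g) * (E * M * (Eᵀ * E)) := by rw [hM3]; simp only [Matrix.mul_assoc]
      _ = sp E g * M := by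
          rw [hE', mul_one, ← Matrix.mul_assoc]
          rfl

private theorem nn8 (τ : ℝ) (z : Fin 9 → ℝ) : nn τ z 8 = Real.cos (τ * ang z) :=
  Fin.lastCases_last (motive := fun _ : Fin 9 => ℝ)

private theorem nnj (τ : ℝ) (z : Fin 9 → ℝ) (j : Fin 8) :
    nn τ z j.castSucc = Real.sin (τ * ang z) * (z j.castSucc / nz8 z) :=
  Fin.lastCases_castSucc (motive := fun _ : Fin 9 => ℝ) j

private theorem nz_sq (z : Fin 9 → ℝ) : nz z ^ 2 = nz8 z ^ 2 + z 8 ^ 2 := by
  rw [nz, nz8, Real.sq_sqrt (Finset.sum_nonneg fun i _ => sq_nonneg _),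
    Real.sq_sqrt (Finset.sum_nonneg fun i _ => sq_nonneg _), Fin.sum_univ_castSucc]
  rfl

private theorem sq8 (z : Fin 9 → ℝ) : nz8 z ^ 2 = ∑ j : Fin 8, z j.castSucc ^ 2 := by
  rw [nz8, Real.sq_sqrt (Finset.sum_nonneg fun i _ => sq_nonneg _)]

/-- **X-Vec** -/
theorem vecS : VecStmt := by
  intro z hz
  have hs : 0 < nz8 z := lt_of_le_of_ne (Real.sqrt_nonneg _) (Ne.symm hz)
  have hr2 := nz_sq z
  have hr : 0 < nz z := by
    refine lt_of_le_of_ne (Real.sqrt_nonneg _) fun h => ?_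
    rw [← h] at hr2
    nlinarith [sq_nonneg (z 8), pow_pos hs 2]
  have hu : ∑ j : Fin 8, (z j.castSucc / nz8 z) ^ 2 = 1 := by
    simp_rw [div_pow]
    rw [← Finset.sum_div, ← sq8, div_self (pow_pos hs 2).ne']
  have hz8 : (z 8 / nz z) ^ 2 ≤ 1 := by
    rw [div_pow, div_le_one (pow_pos hr 2)]
    nlinarith [sq_nonneg (nz8 z)]
  have hab := abs_le.1 ((sq_le_one_iff_abs_le_one _).1 hz8)
  have hcos : Real.cos (ang z) = z 8 / nz z := Real.cos_arccos hab.1 hab.2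
  have hsin : Real.sin (ang z) = nz8 z / nz z := by
    rw [ang, Real.sin_arccos]
    have : 1 - (z 8 / nz z) ^ 2 = (nz8 z / nz z) ^ 2 := by
      field_simp
      linarith
    rw [this, Real.sqrt_sq (by positivity)]
  refine ⟨hr, ?_, ?_, ⟨?_, ?_⟩, ?_, ?_, ?_, ?_⟩
  · intro i
    refine Fin.lastCases ?_ (fun j => ?_) i
    · change nn 1 z 8 = z 8 / nz z
      rw [nn8, one_mul, hcos]
    · rw [nnj, one_mul, hsin]
      field_simp
  · intro τ
    rw [Fin.sum_univ_castSucc]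
    change ∑ j : Fin 8, nn τ z j.castSucc ^ 2 + nn τ z 8 ^ 2 = 1
    rw [nn8]
    simp_rw [nnj, mul_pow]
    rw [← Finset.mul_sum, hu, mul_one]
    exact Real.sin_sq_add_cos_sq _
  · rw [nn8, zero_mul, Real.cos_zero]
  · intro j
    rw [nnj, zero_mul, Real.sin_zero, zero_mul]
  · intro τ
    have e : -2 * ∑ j : Fin 8, be z j * nn τ z j.castSucc = -Real.sin (τ * ang z) * ang z := by
      have : ∀ j : Fin 8, be z j * nn τ z j.castSucc =
          (ang z / 2 * Real.sin (τ * ang z)) * (z j.castSucc / nz8 z) ^ 2 := by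
        intro j
        rw [nnj, be]
        ring
      simp_rw [this]
      rw [← Finset.mul_sum, hu]
      ring
    rw [e]
    simp_rw [nn8]
    have h1 : HasDerivAt (fun s : ℝ => s * ang z) (ang z) τ := by
      simpa using (hasDerivAt_id τ).mul_const (ang z)
    exact h1.cos
  · intro τ j
    simp_rw [nnj, nn8, be]
    have h1 : HasDerivAt (fun s : ℝ => s * ang z) (ang z) τ := by
      simpa using (hasDerivAt_id τ).mul_const (ang z)
    have e : 2 * (ang z / 2 * (z j.castSucc / nz8 z)) * Real.cos (τ * ang z) =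
        Real.cos (τ * ang z) * ang z * (z j.castSucc / nz8 z) := by ring
    rw [e]
    exact h1.sin.mul_const _
  · intro τ i j
    rw [nnj, nnj, be, be]
    ring
  · intro R hR
    have e1 : nz (fun i => R * z i) = R * nz z := by
      rw [nz, nz]
      simp_rw [mul_pow]
      rw [← Finset.mul_sum, Real.sqrt_mul (sq_nonneg R), Real.sqrt_sq hR.le]
    have e2 : nz8 (fun i => R * z i) = R * nz8 z := by
      rw [nz8, nz8]
      simp_rw [mul_pow]
      rw [← Finset.mul_sum, Real.sqrt_mul (sq_nonneg R), Real.sqrt_sq hR.le]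
    refine ⟨fun j => ?_, e1⟩
    rw [be, be, ang, ang, e1, e2, mul_div_mul_left _ _ hR.ne', mul_div_mul_left _ _ hR.ne']

end Vale.Agent.P353.Z.AX
end

section

/-! # P353, all `N`, block B-Lam: the fermionic energy and its gap -/

open MeasureTheory Filter Topology Matrix Kronecker
open scoped ContDiff

namespace Vale.Agent.P353.Z

variable {d dh dm : ℕ} {F : Type*} [NormedAddCommGroup F] [InnerProductSpace ℂ F]

namespace LamPf

/-- complexification of a real matrix -/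
noncomputable def lc {n : Type*} (M : Matrix n n ℝ) : Matrix n n ℂ := M.map (fun x : ℝ => (x : ℂ))

lemma lc_mul {n : Type*} [Fintype n] (A B : Matrix n n ℝ) : lc (A * B) = lc A * lc B := by
  ext i j
  simp [lc, Matrix.mul_apply]

lemma lc_one {n : Type*} [DecidableEq n] : lc (1 : Matrix n n ℝ) = 1 := by
  ext i j
  by_cases h : i = j <;> simp [lc, Matrix.one_apply, h]

lemma lc_ct {n : Type*} (A : Matrix n n ℝ) : (lc A)ᴴ = lc Aᵀ := by
  ext i j
  simp [lc, Matrix.conjTranspose_apply]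

/-- `1 ⊗ M` -/
noncomputable def l1 (M : Matrix (Fin dm) (Fin dm) ℝ) : Matrix (Fin 16 × Fin dm) (Fin 16 × Fin dm) ℂ :=
  (1 : Matrix (Fin 16) (Fin 16) ℂ) ⊗ₖ lc M

lemma l1_mul (A B : Matrix (Fin dm) (Fin dm) ℝ) : l1 A * l1 B = l1 (A * B) := by
  rw [l1, l1, l1, ← mul_kronecker_mul, one_mul, lc_mul]

lemma l1_one : l1 (1 : Matrix (Fin dm) (Fin dm) ℝ) = 1 := by
  rw [l1, lc_one, one_kronecker_one]

lemma l1_ct (A : Matrix (Fin dm) (Fin dm) ℝ) (hA : Aᵀ = A) : (l1 A)ᴴ = l1 A := by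
  rw [l1, conjTranspose_kronecker, conjTranspose_one, lc_ct, hA]

variable (S : Setup d F) (D : Fin 9 → Matrix (Fin dm) (Fin dm) ℝ) (Om : Matrix (Fin dm) (Fin dm) ℝ)

lemma g_ct (i : Fin 9) : (S.g i)ᴴ = S.g i := by
  ext a b
  rw [conjTranspose_apply]
  have h1 : S.g i b a = S.g i a b := congrFun (congrFun (S.g_symm i) a) b
  rw [h1]
  exact Complex.conj_eq_iff_im.2 (S.g_real i a b)

lemma PP_eq : S.PP D = (S.κ : ℂ) • ∑ i, S.g i ⊗ₖ lc (D i) := by
  ext p q
  simp [Setup.PP, Matrix.sum_apply, lc, kroneckerMap_apply]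

lemma Lam_eq : S.Lam D Om = (1 / 2 : ℂ) • (l1 Om - Complex.I • S.PP D) := by
  ext p q
  simp only [Setup.Lam, l1, lc, Matrix.smul_apply, Matrix.sub_apply, kroneckerMap_apply,
    Matrix.map_apply, Matrix.of_apply, smul_eq_mul, Matrix.one_apply]
  by_cases h : p.1 = q.1 <;> simp [h]

lemma PP_ct (hD : ∀ i, (D i)ᵀ = -D i) : (S.PP D)ᴴ = -S.PP D := by
  rw [PP_eq, conjTranspose_smul, conjTranspose_sum, ← smul_neg, ← Finset.sum_neg_distrib]
  congr 1
  · exact Complex.conj_ofReal _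
  · refine Finset.sum_congr rfl fun i _ => ?_
    rw [conjTranspose_kronecker, g_ct, lc_ct, hD i]
    ext p q
    simp [lc, kroneckerMap_apply]

lemma l1_PP (M : Matrix (Fin dm) (Fin dm) ℝ) (hM : ∀ i, D i * M = M * D i) :
    l1 M * S.PP D = S.PP D * l1 M := by
  rw [PP_eq, mul_smul_comm, smul_mul_assoc, Finset.mul_sum, Finset.sum_mul]
  congr 1
  refine Finset.sum_congr rfl fun i _ => ?_
  rw [l1, ← mul_kronecker_mul, ← mul_kronecker_mul, one_mul, mul_one, ← lc_mul, ← lc_mul, hM i]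

lemma PP_sq (hc : ∀ i j, D i * D j = D j * D i) :
    S.PP D * S.PP D = l1 (S.κ ^ 2 • ∑ i, D i * D i) := by
  have h1 : ∀ i j, S.g i ⊗ₖ lc (D i) * S.g j ⊗ₖ lc (D j) = (S.g i * S.g j) ⊗ₖ lc (D i * D j) := by
    intro i j
    rw [← mul_kronecker_mul, lc_mul]
  have h2 : (∑ i, S.g i ⊗ₖ lc (D i)) * (∑ i, S.g i ⊗ₖ lc (D i)) =
      ∑ i, ∑ j, (S.g i * S.g j) ⊗ₖ lc (D i * D j) := by
    rw [Finset.sum_mul_sum]
    simp only [h1]
  have h3 : (∑ i, ∑ j, (S.g i * S.g j) ⊗ₖ lc (D i * D j)) =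
      ∑ i, ∑ j, (S.g j * S.g i) ⊗ₖ lc (D i * D j) := by
    rw [Finset.sum_comm]
    refine Finset.sum_congr rfl fun i _ => Finset.sum_congr rfl fun j _ => ?_
    rw [hc j i]
  have h4 : (2 : ℂ) • (∑ i, ∑ j, (S.g i * S.g j) ⊗ₖ lc (D i * D j)) =
      (2 : ℂ) • ∑ i, (1 : Matrix (Fin 16) (Fin 16) ℂ) ⊗ₖ lc (D i * D i) := by
    rw [two_smul]
    nth_rw 2 [h3]
    rw [← Finset.sum_add_distrib, Finset.smul_sum]
    refine Finset.sum_congr rfl fun i _ => ?_
    rw [← Finset.sum_add_distrib]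
    have h5 : ∀ j, (S.g i * S.g j) ⊗ₖ lc (D i * D j) + (S.g j * S.g i) ⊗ₖ lc (D i * D j) =
        if i = j then (2 : ℂ) • ((1 : Matrix (Fin 16) (Fin 16) ℂ) ⊗ₖ lc (D i * D i)) else 0 := by
      intro j
      rw [← add_kronecker, S.g_anti]
      by_cases h : i = j
      · subst h
        rw [if_pos rfl, if_pos rfl, ← smul_kronecker]
        congr 1
        ext a b
        simp [Matrix.one_apply, Matrix.ofNat_apply]
      · rw [if_neg h, if_neg h, zero_kronecker]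
    simp only [h5, Finset.sum_ite_eq, Finset.mem_univ, if_true]
  have h6 := (smul_right_injective _ (two_ne_zero (α := ℂ))) h4
  rw [PP_eq, smul_mul_smul_comm, h2, h6]
  ext p q
  simp only [l1, lc, Matrix.smul_apply, Matrix.sum_apply, kroneckerMap_apply, Matrix.map_apply,
    smul_eq_mul, Complex.ofReal_mul, Complex.ofReal_pow, Complex.ofReal_sum]
  rw [Finset.mul_sum, Finset.mul_sum, Finset.mul_sum]
  refine Finset.sum_congr rfl fun i _ => ?_
  ring

lemma Lam_ct (hD : ∀ i, (D i)ᵀ = -D i) (hO : Omᵀ = Om) : (S.Lam D Om)ᴴ = S.Lam D Om := by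
  rw [Lam_eq, conjTranspose_smul, conjTranspose_sub, conjTranspose_smul, PP_ct S D hD, l1_ct _ hO]
  have e1 : star (1 / 2 : ℂ) = 1 / 2 := by simp
  have e2 : star Complex.I = -Complex.I := Complex.conj_I
  rw [e1, e2, smul_neg, neg_smul, neg_neg]

lemma Lam_sq (hD : Frz D) (hO : IsOm S.κ D Om) (hOD : ∀ i, D i * Om = Om * D i) :
    S.Lam D Om * S.Lam D Om = l1 Om * S.Lam D Om := by
  have h1 : S.PP D * S.PP D = -(l1 Om * l1 Om) := by
    rw [PP_sq S D hD.comm, l1_mul, hO.sq]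
    ext p q
    simp [l1, lc, kroneckerMap_apply]
  have h2 := l1_PP S D Om hOD
  rw [Lam_eq, smul_mul_smul_comm, mul_smul_comm]
  have h3 : (l1 Om - Complex.I • S.PP D) * (l1 Om - Complex.I • S.PP D) =
      (2 : ℂ) • (l1 Om * (l1 Om - Complex.I • S.PP D)) := by
    rw [sub_mul, mul_sub, mul_sub, smul_mul_smul_comm, h1, smul_mul_assoc, mul_smul_comm, ← h2,
      Complex.I_mul_I, neg_one_smul, neg_neg, two_smul]
    abel
  rw [h3, smul_smul]
  congr 1
  norm_num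

/-- `Λ = Y Y` with `Y = K⁻¹ Λ` Hermitian -/
lemma exists_root (hD : Frz D) (hO : IsOm S.κ D Om) :
    ∃ K : Matrix (Fin dm) (Fin dm) ℝ, l1 K * l1 K⁻¹ = 1 ∧
      (l1 K⁻¹ * S.Lam D Om)ᴴ = l1 K⁻¹ * S.Lam D Om ∧
      (l1 K⁻¹ * S.Lam D Om) * (l1 K⁻¹ * S.Lam D Om) = S.Lam D Om := by
  have hOD : ∀ i, D i * Om = Om * D i := by
    intro i
    refine hO.comm (D i) ?_
    rw [Finset.mul_sum, Finset.sum_mul]
    refine Finset.sum_congr rfl fun j _ => ?_
    rw [← mul_assoc, hD.comm i j, mul_assoc, hD.comm i j, mul_assoc]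
  have hpd : Om.PosDef := by
    refine PosDef.of_dotProduct_mulVec_pos ?_ ?_
    · change Omᴴ = Om
      rw [conjTranspose_eq_transpose_of_trivial, hO.symm]
    · intro v hv
      rw [star_trivial]
      exact hO.pos v hv
  obtain ⟨K, hK, hKK, hKc⟩ := OmPf.omp_sqrt hpd
  have hKu : IsUnit K.det := isUnit_iff_ne_zero.2 hK.det_pos.ne'
  have hKs : Kᵀ = K := by
    have := hK.1
    rwa [IsHermitian, conjTranspose_eq_transpose_of_trivial] at this
  have hKD : ∀ i, D i * K = K * D i := fun i => hKc (D i) (hOD i)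
  have hKiD : ∀ i, D i * K⁻¹ = K⁻¹ * D i := by
    intro i
    have h1 : K⁻¹ * (D i * K) * K⁻¹ = K⁻¹ * (K * D i) * K⁻¹ := by rw [hKD i]
    rw [← mul_assoc K⁻¹ K, nonsing_inv_mul _ hKu, one_mul, mul_assoc K⁻¹, mul_assoc (D i),
      mul_nonsing_inv _ hKu, mul_one] at h1
    exact h1.symm
  have hKis : (K⁻¹)ᵀ = K⁻¹ := by rw [transpose_nonsing_inv, hKs]
  have hKO : l1 K⁻¹ * l1 Om = l1 Om * l1 K⁻¹ := by
    rw [l1_mul, l1_mul, ← hKK, mul_assoc, mul_nonsing_inv _ hKu, ← mul_assoc,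
      nonsing_inv_mul _ hKu, one_mul, mul_one]
  have hcomm : l1 K⁻¹ * S.Lam D Om = S.Lam D Om * l1 K⁻¹ := by
    rw [Lam_eq, mul_smul_comm, smul_mul_assoc, mul_sub, sub_mul, mul_smul_comm, smul_mul_assoc,
      l1_PP S D _ hKiD, hKO]
  refine ⟨K, ?_, ?_, ?_⟩
  · rw [l1_mul, mul_nonsing_inv _ hKu, l1_one]
  · rw [conjTranspose_mul, Lam_ct S D Om hD.anti hO.symm, l1_ct _ hKis, hcomm]
  · have e : l1 K⁻¹ * l1 K⁻¹ * l1 Om = 1 := by
      rw [l1_mul, l1_mul, ← hKK, mul_assoc, ← mul_assoc K⁻¹ K K, nonsing_inv_mul _ hKu, one_mul,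
        nonsing_inv_mul _ hKu, l1_one]
    calc l1 K⁻¹ * S.Lam D Om * (l1 K⁻¹ * S.Lam D Om)
        = l1 K⁻¹ * (S.Lam D Om * l1 K⁻¹) * S.Lam D Om := by simp only [mul_assoc]
      _ = l1 K⁻¹ * (l1 K⁻¹ * S.Lam D Om) * S.Lam D Om := by rw [hcomm]
      _ = l1 K⁻¹ * l1 K⁻¹ * (S.Lam D Om * S.Lam D Om) := by simp only [mul_assoc]
      _ = l1 K⁻¹ * l1 K⁻¹ * (l1 Om * S.Lam D Om) := by rw [Lam_sq S D Om hD hO hOD]
      _ = (l1 K⁻¹ * l1 K⁻¹ * l1 Om) * S.Lam D Om := by simp only [mul_assoc]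
      _ = S.Lam D Om := by rw [e, one_mul]

variable (φ : Spl dh dm d)

/-- `Σ_q Y_rq θ_q` -/
noncomputable def Tm (Y : Matrix (Fin 16 × Fin dm) (Fin 16 × Fin dm) ℂ) (r : Fin 16 × Fin dm) :
    F →L[ℂ] F := ∑ q : Fin 16 × Fin dm, Y r q • S.th q.1 (φ (Sum.inr q.2))

lemma inner_NF (Y : Matrix (Fin 16 × Fin dm) (Fin 16 × Fin dm) ℂ) (hY : Yᴴ = Y)
    (hYY : Y * Y = S.Lam D Om) (v : F) :
    inner ℂ v (S.NF φ D Om v) = ∑ r, ((‖Tm S φ Y r v‖ ^ 2 : ℝ) : ℂ) := by
  set θ : Fin 16 × Fin dm → F := fun p => S.th p.1 (φ (Sum.inr p.2)) v with hθ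
  have h1 : inner ℂ v (S.NF φ D Om v) = ∑ p, ∑ q, S.Lam D Om p q * inner ℂ (θ p) (θ q) := by
    rw [Setup.NF, _root_.sum_apply, inner_sum]
    refine Finset.sum_congr rfl fun p _ => ?_
    have h0 : inner ℂ v ((S.th p.1 (φ (Sum.inr p.2)) * S.Lth φ D Om p) v) =
        inner ℂ (θ p) (S.Lth φ D Om p v) := (S.th_sa _ _ _ _).symm
    rw [h0, Setup.Lth, _root_.sum_apply, inner_sum]
    refine Finset.sum_congr rfl fun q _ => ?_
    rw [_root_.smul_apply, inner_smul_right]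
  have h2 : ∀ r, ((‖Tm S φ Y r v‖ ^ 2 : ℝ) : ℂ) =
      ∑ p, ∑ q, (Y p r * Y r q) * inner ℂ (θ p) (θ q) := by
    intro r
    have h3 : ((‖Tm S φ Y r v‖ ^ 2 : ℝ) : ℂ) = inner ℂ (Tm S φ Y r v) (Tm S φ Y r v) := by
      rw [inner_self_eq_norm_sq_to_K]; norm_cast
    rw [h3]
    have h4 : Tm S φ Y r v = ∑ q, Y r q • θ q := by
      rw [Tm, _root_.sum_apply]
      rfl
    rw [h4, sum_inner]
    refine Finset.sum_congr rfl fun p _ => ?_
    rw [inner_sum]
    refine Finset.sum_congr rfl fun q _ => ?_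
    rw [inner_smul_left, inner_smul_right]
    have h5 : (starRingEnd ℂ) (Y r p) = Y p r := by
      have := congrFun (congrFun hY p) r
      rwa [conjTranspose_apply] at this
    rw [h5]
    ring
  rw [h1]
  simp only [h2]
  rw [Finset.sum_comm]
  conv_rhs => rw [Finset.sum_comm]
  have h6 : ∀ p q, S.Lam D Om p q = ∑ r, Y p r * Y r q := by
    intro p q
    rw [← hYY, mul_apply]
  rw [Finset.sum_comm]
  refine Finset.sum_congr rfl fun p _ => ?_
  rw [Finset.sum_comm]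
  refine Finset.sum_congr rfl fun q _ => ?_
  rw [h6, Finset.sum_mul]

lemma Tm_zero (K : Matrix (Fin dm) (Fin dm) ℝ) (h1 : l1 K * l1 K⁻¹ = 1) (v : F) :
    (∀ r, Tm S φ (l1 K⁻¹ * S.Lam D Om) r v = 0) ↔ v ∈ S.F0 φ D Om := by
  have h2 : ∀ (A B : Matrix (Fin 16 × Fin dm) (Fin 16 × Fin dm) ℂ) r,
      Tm S φ (A * B) r v = ∑ p, A r p • Tm S φ B p v := by
    intro A B r
    simp only [Tm, _root_.sum_apply, _root_.smul_apply, Finset.smul_sum, smul_smul, mul_apply,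
      Finset.sum_smul]
    rw [Finset.sum_comm]
  have h3 : ∀ p, Tm S φ (S.Lam D Om) p v = S.Lth φ D Om p v := fun p => rfl
  constructor
  · intro h p
    have h4 : S.Lam D Om = l1 K * (l1 K⁻¹ * S.Lam D Om) := by rw [← mul_assoc, h1, one_mul]
    rw [← h3, h4, h2]
    exact Finset.sum_eq_zero fun q _ => by rw [h q, smul_zero]
  · intro h r
    rw [h2]
    refine Finset.sum_eq_zero fun p _ => ?_
    rw [h3, h p, smul_zero]

end LamPf

open LamPf in
/-- **B-Lam** -/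
theorem lamS (S : Setup d F) (φ : Spl dh dm d) : LamStmt S φ := by
  intro hfin D Om hD hO
  obtain ⟨K, hK1, hK2, hK3⟩ := exists_root S D Om hD hO
  set Y := l1 K⁻¹ * S.Lam D Om with hYdef
  set V := S.F0 φ D Om with hV
  let T : F →ₗ[ℂ] (Fin 16 × Fin dm → F) := LinearMap.pi fun r => (Tm S φ Y r).toLinearMap
  let T' : Vᗮ →ₗ[ℂ] (Fin 16 × Fin dm → F) := T.comp Vᗮ.subtype
  have hker : LinearMap.ker T' = ⊥ := by
    rw [LinearMap.ker_eq_bot']
    intro w hw
    have h1 : (w : F) ∈ V := (Tm_zero S D Om φ K hK1 _).1 fun r => congrFun hw r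
    have h2 : inner ℂ (w : F) (w : F) = 0 := (Submodule.mem_orthogonal _ _).1 w.2 _ h1
    exact Subtype.ext (inner_self_eq_zero.1 h2)
  obtain ⟨c, hc0, hc⟩ := T'.exists_antilipschitzWith hker
  refine ⟨(c : ℝ)⁻¹ ^ 2, by positivity, fun v => ?_⟩
  refine ⟨V.starProjection v, V.starProjection_apply_mem v, ?_, ?_⟩
  · intro u hu
    exact (Submodule.mem_orthogonal _ _).1 (V.sub_starProjection_mem_orthogonal v) u hu
  · set w : Vᗮ := ⟨v - V.starProjection v, V.sub_starProjection_mem_orthogonal v⟩ with hw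
    have h1 : ‖(w : F)‖ ≤ c * ‖T' w‖ := by
      have := hc.le_mul_dist w 0
      rwa [dist_zero_right, map_zero, dist_zero_right] at this
    have h2 : ∀ r, T' w r = Tm S φ Y r v := by
      intro r
      have h3 : Tm S φ Y r (V.starProjection v) = 0 :=
        (Tm_zero S D Om φ K hK1 _).2 (V.starProjection_apply_mem v) r
      change Tm S φ Y r (v - V.starProjection v) = _
      rw [map_sub, h3, sub_zero]
    have h3 : ‖T' w‖ ^ 2 ≤ ∑ r, ‖Tm S φ Y r v‖ ^ 2 := by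
      have h4 : ‖T' w‖ ≤ Real.sqrt (∑ r, ‖Tm S φ Y r v‖ ^ 2) := by
        rw [pi_norm_le_iff_of_nonneg (Real.sqrt_nonneg _)]
        intro r
        rw [h2 r]
        refine Real.le_sqrt_of_sq_le ?_
        exact Finset.single_le_sum (f := fun r => ‖Tm S φ Y r v‖ ^ 2) (fun r _ => by positivity)
          (Finset.mem_univ r)
      calc ‖T' w‖ ^ 2 ≤ Real.sqrt (∑ r, ‖Tm S φ Y r v‖ ^ 2) ^ 2 :=
            pow_le_pow_left₀ (norm_nonneg _) h4 2
        _ = _ := Real.sq_sqrt (Finset.sum_nonneg fun r _ => by positivity)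
    have h5 : (inner ℂ v (S.NF φ D Om v)).re = ∑ r, ‖Tm S φ Y r v‖ ^ 2 := by
      rw [inner_NF S D Om φ Y hK2 hK3 v, ← Complex.ofReal_sum, Complex.ofReal_re]
    rw [h5]
    have hcpos : (0 : ℝ) < c := by exact_mod_cast hc0
    have h6 : ‖v - V.starProjection v‖ ^ 2 ≤ (c : ℝ) ^ 2 * ‖T' w‖ ^ 2 := by
      rw [← mul_pow]
      exact pow_le_pow_left₀ (norm_nonneg _) h1 2
    calc (c : ℝ)⁻¹ ^ 2 * ‖v - V.starProjection v‖ ^ 2
        ≤ (c : ℝ)⁻¹ ^ 2 * ((c : ℝ) ^ 2 * ‖T' w‖ ^ 2) :=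
          mul_le_mul_of_nonneg_left h6 (by positivity)
      _ = ‖T' w‖ ^ 2 := by
          rw [← mul_assoc, ← mul_pow, inv_mul_cancel₀ hcpos.ne', one_pow, one_mul]
      _ ≤ _ := h3

end Vale.Agent.P353.Z
end

section

/-! # P353, all `N`, block B: task F0 -/

namespace Vale.Agent.P353.Z

variable {d dh dm : ℕ} {F : Type*} [NormedAddCommGroup F] [InnerProductSpace ℂ F]

private lemma fzero_Lam_smul (S : Setup d F) (D : Fin 9 → Matrix (Fin dm) (Fin dm) ℝ)
    (Om : Matrix (Fin dm) (Fin dm) ℝ) (R : ℝ) (p q : Fin 16 × Fin dm) :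
    S.Lam (fun i => R • D i) (R • Om) p q = (R : ℂ) * S.Lam D Om p q := by
  simp only [Setup.Lam, Setup.PP, Matrix.of_apply, Matrix.smul_apply, smul_eq_mul,
    Complex.ofReal_mul]
  have h1 : ∑ i, S.g i p.1 q.1 * ((R : ℂ) * ((D i p.2 q.2 : ℝ) : ℂ)) =
      (R : ℂ) * ∑ i, S.g i p.1 q.1 * ((D i p.2 q.2 : ℝ) : ℂ) := by
    rw [Finset.mul_sum]
    exact Finset.sum_congr rfl fun i _ => by ring
  rw [h1]
  split_ifs <;> ring

private lemma fzero_Lth_smul (S : Setup d F) (φ : Spl dh dm d)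
    (D : Fin 9 → Matrix (Fin dm) (Fin dm) ℝ)
    (Om : Matrix (Fin dm) (Fin dm) ℝ) (R : ℝ) (p : Fin 16 × Fin dm) :
    S.Lth φ (fun i => R • D i) (R • Om) p = (R : ℂ) • S.Lth φ D Om p := by
  simp only [Setup.Lth, fzero_Lam_smul, Finset.smul_sum, smul_smul]

private lemma fzero_Lth_th (S : Setup d F) (φ : Spl dh dm d)
    (D : Fin 9 → Matrix (Fin dm) (Fin dm) ℝ)
    (Om : Matrix (Fin dm) (Fin dm) ℝ) (p : Fin 16 × Fin dm) (α : Fin 16) (A : Fin dh) (v : F) :
    S.Lth φ D Om p (S.th α (φ (Sum.inl A)) v) = -S.th α (φ (Sum.inl A)) (S.Lth φ D Om p v) := by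
  have h0 : ∀ q : Fin 16 × Fin dm, S.th q.1 (φ (Sum.inr q.2)) (S.th α (φ (Sum.inl A)) v) =
      -S.th α (φ (Sum.inl A)) (S.th q.1 (φ (Sum.inr q.2)) v) := by
    intro q
    have h := S.th_anti q.1 (φ (Sum.inr q.2)) α (φ (Sum.inl A))
    rw [if_neg (by simp)] at h
    have h2 := congrArg (fun T : F →L[ℂ] F => T v) h
    exact eq_neg_of_add_eq_zero_left h2
  have h1 : ∀ u : F, S.Lth φ D Om p u =
      ∑ q : Fin 16 × Fin dm, S.Lam D Om p q • S.th q.1 (φ (Sum.inr q.2)) u := by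
    intro u
    simp only [Setup.Lth, _root_.sum_apply, _root_.smul_apply]
  rw [h1, h1, map_sum, ← Finset.sum_neg_distrib]
  exact Finset.sum_congr rfl fun q _ => by rw [h0, map_smul, smul_neg]

theorem f0S (S : Setup d F) (φ : Spl dh dm d) : F0Stmt S φ := by
  intro D Om
  refine ⟨fun α A v hv p => ?_, fun R hR => ?_⟩
  · rw [fzero_Lth_th, hv p, map_zero, neg_zero]
  · ext v
    have hR' : (R : ℂ) ≠ 0 := by exact_mod_cast hR.ne'
    constructor
    · intro h p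
      have h2 : S.Lth φ (fun i => R • D i) (R • Om) p v = 0 := h p
      rw [fzero_Lth_smul] at h2
      exact (smul_eq_zero.1 h2).resolve_left hR'
    · intro h p
      change S.Lth φ (fun i => R • D i) (R • Om) p v = 0
      rw [fzero_Lth_smul]
      change (R : ℂ) • S.Lth φ D Om p v = 0
      rw [h p, smul_zero]

end Vale.Agent.P353.Z
end

section

/-! # P353, all `N`, block GL11: the frozen data near `z₀` are continuous (`PcStmt`)

The square root is continuous by a Hilbert–Schmidt estimate; the projection onto the fermionic vacuum space is a polynomial in the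
number operator `∑ ((1 ⊗ Ω⁻¹)Λ)_{pq} θ_p θ_q`, whose spectrum consists of natural numbers. -/

section

open Filter Topology Matrix

namespace Vale.Agent.P353.Z.AN.Pc518

section fermi

variable {ι : Type*} [Fintype ι] [DecidableEq ι] {F : Type*} [NormedAddCommGroup F] [InnerProductSpace ℂ F]

/-- `∑_q A_{pq} θ_q` -/
noncomputable def aa (θ : ι → F →L[ℂ] F) (A : Matrix ι ι ℂ) (p : ι) : F →L[ℂ] F := ∑ q, A p q • θ q

/-- `∑_{pq} A_{pq} θ_p θ_q` -/
noncomputable def HH (θ : ι → F →L[ℂ] F) (A : Matrix ι ι ℂ) : F →L[ℂ] F := ∑ p, ∑ q, A p q • (θ p * θ q)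

/-- common kernel of the `aa` -/
noncomputable def KK (θ : ι → F →L[ℂ] F) (A : Matrix ι ι ℂ) : Submodule ℂ F := ⨅ p, LinearMap.ker (aa θ A p).toLinearMap

/-- `∏_{k<m} (1 - T/(k+1))` -/
noncomputable def Pk (T : F →L[ℂ] F) : ℕ → F →L[ℂ] F
  | 0 => 1
  | m + 1 => Pk T m * (1 - ((m + 1 : ℕ) : ℂ)⁻¹ • T)

lemma mem_KK (θ : ι → F →L[ℂ] F) (A : Matrix ι ι ℂ) (v : F) : v ∈ KK θ A ↔ ∀ p, aa θ A p v = 0 := by
  simp [KK, Submodule.mem_iInf]

lemma continuous_Pk (m : ℕ) : Continuous fun T : F →L[ℂ] F => Pk T m := by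
  induction m with
  | zero => exact continuous_const
  | succ m ih =>
    simp only [Pk]
    exact ih.mul (continuous_const.sub (continuous_const_smul _))

lemma Pk_eigen (T : F →L[ℂ] F) {v : F} {μ : ℂ} (h : T v = μ • v) (m : ℕ) :
    Pk T m v = (∏ k ∈ Finset.range m, (1 - ((k + 1 : ℕ) : ℂ)⁻¹ * μ)) • v := by
  induction m with
  | zero => simp [Pk]
  | succ m ih =>
    rw [Pk, Finset.prod_range_succ]
    change Pk T m ((1 - ((m + 1 : ℕ) : ℂ)⁻¹ • T) v) = _
    have h1 : (1 - ((m + 1 : ℕ) : ℂ)⁻¹ • T) v = (1 - ((m + 1 : ℕ) : ℂ)⁻¹ * μ) • v := by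
      rw [_root_.sub_apply, _root_.smul_apply, h, one_apply_eq_self, sub_smul, one_smul, smul_smul]
    rw [h1, map_smul, ih, smul_smul, mul_comm]

variable {θ : ι → F →L[ℂ] F} (hθ : ∀ p q, θ p * θ q + θ q * θ p = if p = q then 1 else 0)
  (hs : ∀ p v w, inner ℂ (θ p v) w = inner ℂ v (θ p w))

include hs in
lemma inner_HH {A : Matrix ι ι ℂ} (hA : Aᴴ = A) (hAA : A * A = A) (v w : F) :
    inner ℂ v (HH θ A w) = ∑ r, inner ℂ (aa θ A r v) (aa θ A r w) := by
  have h1 : inner ℂ v (HH θ A w) = ∑ p, ∑ q, A p q * inner ℂ (θ p v) (θ q w) := by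
    rw [HH, _root_.sum_apply, inner_sum]
    refine Finset.sum_congr rfl fun p _ => ?_
    rw [_root_.sum_apply, inner_sum]
    refine Finset.sum_congr rfl fun q _ => ?_
    rw [_root_.smul_apply, inner_smul_right, hs]
    rfl
  have h2 : ∀ r, inner ℂ (aa θ A r v) (aa θ A r w) = ∑ p, ∑ q, (A p r * A r q) * inner ℂ (θ p v) (θ q w) := by
    intro r
    rw [aa, _root_.sum_apply, sum_inner]
    refine Finset.sum_congr rfl fun p _ => ?_
    rw [_root_.sum_apply, inner_sum]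
    refine Finset.sum_congr rfl fun q _ => ?_
    have h5 : (starRingEnd ℂ) (A r p) = A p r := by
      have := congrFun (congrFun hA p) r
      rwa [conjTranspose_apply] at this
    rw [_root_.smul_apply, _root_.smul_apply, inner_smul_left, inner_smul_right, h5]
    ring
  rw [h1]
  simp only [h2]
  symm
  rw [Finset.sum_comm]
  refine Finset.sum_congr rfl fun p _ => ?_
  rw [Finset.sum_comm]
  refine Finset.sum_congr rfl fun q _ => ?_
  have h6 : A p q = ∑ r, A p r * A r q := by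
    rw [← mul_apply, hAA]
  rw [h6, Finset.sum_mul]

lemma inner_sq (v : F) : inner ℂ v v = ((‖v‖ ^ 2 : ℝ) : ℂ) := by
  rw [inner_self_eq_norm_sq_to_K]
  norm_cast

include hs in
lemma HH_symm {A : Matrix ι ι ℂ} (hA : Aᴴ = A) (hAA : A * A = A) (v w : F) :
    inner ℂ (HH θ A v) w = inner ℂ v (HH θ A w) := by
  rw [← inner_conj_symm, inner_HH hs hA hAA, inner_HH hs hA hAA, map_sum]
  exact Finset.sum_congr rfl fun r _ => inner_conj_symm _ _

include hs in
lemma HH_nonneg {A : Matrix ι ι ℂ} (hA : Aᴴ = A) (hAA : A * A = A) (v : F) :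
    inner ℂ v (HH θ A v) = ((∑ r, ‖aa θ A r v‖ ^ 2 : ℝ) : ℂ) := by
  rw [inner_HH hs hA hAA, Complex.ofReal_sum]
  exact Finset.sum_congr rfl fun r _ => inner_sq _

include hs in
lemma HH_eig {A : Matrix ι ι ℂ} (hA : Aᴴ = A) (hAA : A * A = A) {v : F} {μ : ℝ} (h : HH θ A v = (μ : ℂ) • v) :
    μ * ‖v‖ ^ 2 = ∑ r, ‖aa θ A r v‖ ^ 2 := by
  have h1 := HH_nonneg hs hA hAA v
  rw [h, inner_smul_right, inner_sq, ← Complex.ofReal_mul] at h1
  exact Complex.ofReal_injective h1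

include hθ in
lemma HH_add {A : Matrix ι ι ℂ} (hAt : A + Aᵀ = 1) :
    HH θ A + HH θ Aᵀ = ((Fintype.card ι : ℂ) / 2) • (1 : F →L[ℂ] F) := by
  have h1 : HH θ A + HH θ Aᵀ = ∑ p, ∑ q, (A + Aᵀ) p q • (θ p * θ q) := by
    rw [HH, HH, ← Finset.sum_add_distrib]
    refine Finset.sum_congr rfl fun p _ => ?_
    rw [← Finset.sum_add_distrib]
    refine Finset.sum_congr rfl fun q _ => ?_
    rw [← add_smul]
    rfl
  have h2 : ∀ p, θ p * θ p = (1 / 2 : ℂ) • (1 : F →L[ℂ] F) := by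
    intro p
    have := hθ p p
    rw [if_pos rfl, ← two_smul ℂ] at this
    rw [← this, smul_smul]
    norm_num
  rw [h1, hAt]
  simp only [Matrix.one_apply, ite_smul, one_smul, zero_smul, Finset.sum_ite_eq, Finset.mem_univ, if_true, h2,
    Finset.sum_const, Finset.card_univ]
  rw [← Nat.cast_smul_eq_nsmul ℂ, smul_smul]
  congr 1
  ring

include hθ in
lemma HH_comm {A : Matrix ι ι ℂ} (hAA : A * A = A) (hAt : A + Aᵀ = 1) (r : ι) :
    HH θ A * aa θ A r = aa θ A r * HH θ A - aa θ A r := by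
  -- `[H, θ_s] = ∑_q (Aᵀ - A)_{sq} θ_q`
  have h1 : ∀ s, HH θ A * θ s = θ s * HH θ A + ∑ q, (Aᵀ - A) s q • θ q := by
    intro s
    have e1 : ∀ p q, (θ p * θ q) * θ s = θ s * (θ p * θ q) + (if q = s then θ p else 0) -
        (if p = s then θ q else 0) := by
      intro p q
      have a1 : θ q * θ s = (if q = s then 1 else 0) - θ s * θ q := by
        rw [← hθ q s]; abel
      have a2 : θ p * θ s = (if p = s then 1 else 0) - θ s * θ p := by
        rw [← hθ p s]; abel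
      rw [mul_assoc, a1, mul_sub, ← mul_assoc (θ p), a2, sub_mul, mul_assoc]
      split_ifs <;> simp <;> abel
    have e2 : HH θ A * θ s = ∑ p, ∑ q, A p q • ((θ p * θ q) * θ s) := by
      simp only [HH, Finset.sum_mul, smul_mul_assoc]
    have e3 : θ s * HH θ A = ∑ p, ∑ q, A p q • (θ s * (θ p * θ q)) := by
      simp only [HH, Finset.mul_sum, mul_smul_comm]
    rw [e2, e3]
    simp only [e1, smul_sub, smul_add, Finset.sum_sub_distrib, Finset.sum_add_distrib]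
    rw [add_sub_assoc]
    congr 1
    simp only [smul_ite, smul_zero, Matrix.sub_apply, Matrix.transpose_apply, sub_smul, Finset.sum_sub_distrib]
    congr 1
    · simp
    · rw [Finset.sum_comm]
      simp
  have h2 : HH θ A * aa θ A r = ∑ s, A r s • (HH θ A * θ s) := by
    simp only [aa, Finset.mul_sum, mul_smul_comm]
  have h3 : aa θ A r * HH θ A = ∑ s, A r s • (θ s * HH θ A) := by
    simp only [aa, Finset.sum_mul, smul_mul_assoc]
  have h4 : A * (Aᵀ - A) = -A := by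
    have : Aᵀ = 1 - A := eq_sub_of_add_eq' hAt
    rw [this, mul_sub, mul_sub, mul_one, hAA]
    abel
  rw [h2, h3]
  simp only [h1, smul_add, Finset.sum_add_distrib]
  have h5 : ∑ s, A r s • ∑ q, (Aᵀ - A) s q • θ q = ∑ q, (A * (Aᵀ - A)) r q • θ q := by
    simp only [Finset.smul_sum, smul_smul, Matrix.mul_apply, Finset.sum_smul]
    rw [Finset.sum_comm]
  have h6 : ∑ q, (-A) r q • θ q = -aa θ A r := by
    simp [aa]
  rw [h5, h4, h6, ← sub_eq_add_neg]

include hθ hs in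
lemma eig_nat {A : Matrix ι ι ℂ} (hA : Aᴴ = A) (hAA : A * A = A) (hAt : A + Aᵀ = 1) :
    ∀ (n : ℕ) (μ : ℝ) (v : F), v ≠ 0 → HH θ A v = (μ : ℂ) • v → μ < n → ∃ k : ℕ, μ = k := by
  intro n
  induction n with
  | zero =>
    intro μ v hv hH hμ
    exfalso
    have h2 := HH_eig hs hA hAA hH
    have h3 : 0 ≤ ∑ r, ‖aa θ A r v‖ ^ 2 := Finset.sum_nonneg fun r _ => by positivity
    have h4 : 0 < ‖v‖ ^ 2 := by
      have := norm_pos_iff.2 hv
      positivity
    rw [Nat.cast_zero] at hμ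
    nlinarith
  | succ n ih =>
    intro μ v hv hH hμ
    by_cases hall : ∀ r, aa θ A r v = 0
    · refine ⟨0, ?_⟩
      have h2 := HH_eig hs hA hAA hH
      simp only [hall, norm_zero] at h2
      have h4 : ‖v‖ ^ 2 ≠ 0 := pow_ne_zero _ (norm_ne_zero_iff.2 hv)
      rw [Nat.cast_zero]
      have h5 : μ * ‖v‖ ^ 2 = 0 := by rw [h2]; simp
      exact (mul_eq_zero.1 h5).resolve_right h4
    · push Not at hall
      obtain ⟨r, hr⟩ := hall
      have h1 : HH θ A (aa θ A r v) = ((μ - 1 : ℝ) : ℂ) • aa θ A r v := by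
        have h2 := DFunLike.congr_fun (HH_comm hθ hAA hAt r) v
        change HH θ A (aa θ A r v) = (aa θ A r * HH θ A - aa θ A r) v at h2
        rw [h2]
        change aa θ A r (HH θ A v) - aa θ A r v = _
        rw [hH, map_smul]
        push_cast
        rw [sub_smul, one_smul]
      obtain ⟨k, hk⟩ := ih (μ - 1) _ hr h1 (by push_cast at hμ; linarith)
      exact ⟨k + 1, by push_cast; linarith⟩

include hθ hs in
lemma eig_le {A : Matrix ι ι ℂ} (hA : Aᴴ = A) (hAA : A * A = A) (hAt : A + Aᵀ = 1) {μ : ℝ} {v : F} (hv : v ≠ 0)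
    (hH : HH θ A v = (μ : ℂ) • v) : 0 ≤ μ ∧ μ ≤ Fintype.card ι := by
  have h2 := HH_eig hs hA hAA hH
  have h3 : 0 ≤ ∑ r, ‖aa θ A r v‖ ^ 2 := Finset.sum_nonneg fun r _ => by positivity
  have h4 : 0 < ‖v‖ ^ 2 := by
    have := norm_pos_iff.2 hv
    positivity
  have hAt' : Aᵀᴴ = Aᵀ := by
    ext i j
    rw [conjTranspose_apply, transpose_apply, transpose_apply]
    exact congrFun (congrFun hA j) i
  have hAAt : Aᵀ * Aᵀ = Aᵀ := by rw [← transpose_mul, hAA]
  have h6 := DFunLike.congr_fun (HH_add hθ hAt) v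
  rw [_root_.add_apply, hH, _root_.smul_apply, one_apply_eq_self] at h6
  have h7 : HH θ Aᵀ v = (((Fintype.card ι : ℝ) / 2 - μ : ℝ) : ℂ) • v := by
    push_cast
    rw [sub_smul, ← h6]
    abel
  have h8 := HH_eig hs hAt' hAAt h7
  have h9 : 0 ≤ ∑ r, ‖aa θ Aᵀ r v‖ ^ 2 := Finset.sum_nonneg fun r _ => by positivity
  have hc : (0 : ℝ) ≤ Fintype.card ι := Nat.cast_nonneg _
  constructor
  · by_contra hneg
    push Not at hneg
    nlinarith
  · by_contra hneg
    push Not at hneg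
    have : (Fintype.card ι : ℝ) / 2 - μ < 0 := by linarith
    nlinarith

include hθ hs in
/-- the projection onto the vacuum space is a polynomial in the number operator -/
theorem proj_eq [FiniteDimensional ℂ F] {A : Matrix ι ι ℂ} (hA : Aᴴ = A) (hAA : A * A = A) (hAt : A + Aᵀ = 1) :
    (KK θ A).starProjection = Pk (HH θ A) (Fintype.card ι) := by
  set T : F →ₗ[ℂ] F := (HH θ A).toLinearMap with hT
  have hsym : T.IsSymmetric := fun v w => HH_symm hs hA hAA v w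
  set b := hsym.eigenvectorBasis (n := Module.finrank ℂ F) rfl with hb
  apply ContinuousLinearMap.coe_injective
  refine b.toBasis.ext fun i => ?_
  rw [OrthonormalBasis.coe_toBasis]
  change (KK θ A).starProjection (b i) = Pk (HH θ A) (Fintype.card ι) (b i)
  have hne : b i ≠ 0 := b.orthonormal.ne_zero i
  have heig : HH θ A (b i) = ((hsym.eigenvalues rfl i : ℝ) : ℂ) • b i := hsym.apply_eigenvectorBasis rfl i
  set μ : ℝ := hsym.eigenvalues rfl i with hμ
  obtain ⟨h0, h1⟩ := eig_le hθ hs hA hAA hAt hne heig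
  obtain ⟨k, hk⟩ := eig_nat hθ hs hA hAA hAt (Fintype.card ι + 1) μ (b i) hne heig (by push_cast; linarith)
  rw [Pk_eigen _ heig]
  rcases Nat.eq_zero_or_pos k with hk0 | hk0
  · have hμ0 : μ = 0 := by rw [hk, hk0, Nat.cast_zero]
    have hmem : b i ∈ KK θ A := by
      rw [mem_KK]
      have h2 := HH_nonneg hs hA hAA (b i)
      rw [heig, hμ0, Complex.ofReal_zero, zero_smul, inner_zero_right] at h2
      have h3 : ∑ r, ‖aa θ A r (b i)‖ ^ 2 = 0 := by exact_mod_cast h2.symm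
      intro p
      have h4 := (Finset.sum_eq_zero_iff_of_nonneg fun r _ => by positivity).1 h3 p (Finset.mem_univ p)
      exact norm_eq_zero.1 (eq_zero_of_pow_eq_zero h4)
    rw [Submodule.starProjection_eq_self_iff.2 hmem, hμ0]
    simp
  · have hkm : k ≤ Fintype.card ι := by
      rw [hk] at h1
      exact_mod_cast h1
    have hprod : ∏ j ∈ Finset.range (Fintype.card ι), (1 - ((j + 1 : ℕ) : ℂ)⁻¹ * (μ : ℂ)) = 0 := by
      refine Finset.prod_eq_zero (i := k - 1) (Finset.mem_range.2 (by omega)) ?_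
      rw [Nat.sub_add_cancel hk0, hk, Complex.ofReal_natCast, inv_mul_cancel₀, sub_self]
      exact_mod_cast hk0.ne'
    rw [hprod, zero_smul]
    rw [Submodule.starProjection_apply_eq_zero_iff, Submodule.mem_orthogonal]
    intro u hu
    have h2 : HH θ A u = 0 := by
      have h3 : ∀ w, inner ℂ w (HH θ A u) = 0 := by
        intro w
        rw [inner_HH hs hA hAA]
        refine Finset.sum_eq_zero fun r _ => ?_
        rw [(mem_KK θ A u).1 hu r, inner_zero_right]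
      exact inner_self_eq_zero.1 (h3 _)
    have h3 := HH_symm hs hA hAA u (b i)
    rw [h2, inner_zero_left, heig, inner_smul_right] at h3
    refine (mul_eq_zero.1 h3.symm).resolve_left ?_
    rw [hk, Complex.ofReal_natCast]
    exact_mod_cast hk0.ne'

omit [DecidableEq ι] in
lemma continuousOn_HH {X : Type*} [TopologicalSpace X] {s : Set X} (θ : ι → F →L[ℂ] F) {A : X → Matrix ι ι ℂ}
    (hA : ∀ p q, ContinuousOn (fun x => A x p q) s) : ContinuousOn (fun x => HH θ (A x)) s := by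
  unfold HH
  exact continuousOn_finsetSum _ fun p _ => continuousOn_finsetSum _ fun q _ => (hA p q).smul continuousOn_const

end fermi

section root

variable {n : Type*} [Fintype n] [DecidableEq n]

omit [DecidableEq n] in
/-- a positive definite matrix has a lower bound -/
lemma exists_lower {P : Matrix n n ℝ} (hp : ∀ v : n → ℝ, v ≠ 0 → 0 < v ⬝ᵥ (P *ᵥ v)) :
    ∃ c : ℝ, 0 < c ∧ ∀ v : n → ℝ, c * (v ⬝ᵥ v) ≤ v ⬝ᵥ (P *ᵥ v) := by
  set K : Set (n → ℝ) := {v | v ⬝ᵥ v = 1} with hK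
  have hcl : IsClosed K := isClosed_eq (by unfold dotProduct; fun_prop) continuous_const
  have hbd : Bornology.IsBounded K := by
    refine (Metric.isBounded_closedBall (x := (0 : n → ℝ)) (r := 1)).subset ?_
    intro v hv
    rw [mem_closedBall_zero_iff, pi_norm_le_iff_of_nonneg zero_le_one]
    intro i
    have h1 : v i * v i ≤ v ⬝ᵥ v := Finset.single_le_sum (f := fun i => v i * v i)
      (fun i _ => mul_self_nonneg _) (Finset.mem_univ i)
    rw [show v ⬝ᵥ v = 1 from hv] at h1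
    rw [Real.norm_eq_abs, abs_le]
    constructor <;> nlinarith
  have hco : IsCompact K := Metric.isCompact_of_isClosed_isBounded hcl hbd
  have hsc : ∀ v : n → ℝ, v ≠ 0 → 0 < v ⬝ᵥ v ∧ (Real.sqrt (v ⬝ᵥ v))⁻¹ • v ∈ K := by
    intro v hv
    have h1 : 0 < v ⬝ᵥ v := by
      have := dotProduct_self_eq_zero (v := v)
      exact lt_of_le_of_ne (Finset.sum_nonneg fun i _ => mul_self_nonneg _) fun h => hv (this.1 h.symm)
    refine ⟨h1, ?_⟩
    change ((Real.sqrt (v ⬝ᵥ v))⁻¹ • v) ⬝ᵥ ((Real.sqrt (v ⬝ᵥ v))⁻¹ • v) = 1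
    rw [smul_dotProduct, dotProduct_smul, smul_smul, smul_eq_mul, ← mul_inv, Real.mul_self_sqrt h1.le,
      inv_mul_cancel₀ h1.ne']
  by_cases hne : K.Nonempty
  · have hcont : ContinuousOn (fun v : n → ℝ => v ⬝ᵥ (P *ᵥ v)) K := by
      refine Continuous.continuousOn ?_
      unfold mulVec dotProduct
      fun_prop
    obtain ⟨v0, hv0, hmin⟩ := hco.exists_isMinOn hne hcont
    have hv0' : v0 ≠ 0 := by
      rintro rfl
      have h1 : (0 : n → ℝ) ⬝ᵥ 0 = 1 := hv0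
      simp at h1
    refine ⟨v0 ⬝ᵥ (P *ᵥ v0), hp v0 hv0', fun v => ?_⟩
    by_cases hv : v = 0
    · subst hv
      simp
    · obtain ⟨h1, h2⟩ := hsc v hv
      have h3 : v0 ⬝ᵥ (P *ᵥ v0) ≤ _ := hmin h2
      simp only [mulVec_smul, smul_dotProduct, dotProduct_smul, smul_eq_mul] at h3
      rw [← mul_assoc, ← mul_inv, Real.mul_self_sqrt h1.le] at h3
      calc v0 ⬝ᵥ (P *ᵥ v0) * (v ⬝ᵥ v) ≤ ((v ⬝ᵥ v)⁻¹ * (v ⬝ᵥ (P *ᵥ v))) * (v ⬝ᵥ v) :=
            mul_le_mul_of_nonneg_right h3 h1.le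
        _ = v ⬝ᵥ (P *ᵥ v) := by
            rw [mul_comm ((v ⬝ᵥ v)⁻¹), mul_assoc, inv_mul_cancel₀ h1.ne', mul_one]
  · refine ⟨1, one_pos, fun v => ?_⟩
    by_cases hv : v = 0
    · subst hv
      simp
    · exact absurd ⟨_, (hsc v hv).2⟩ hne

omit [DecidableEq n] in
/-- Hilbert–Schmidt estimate for the square root -/
lemma root_est {P Q : Matrix n n ℝ} (hP : Pᵀ = P) (hQ : Qᵀ = Q) (hp : ∀ v : n → ℝ, 0 ≤ v ⬝ᵥ (P *ᵥ v)) {c : ℝ} (hc : 0 < c)
    (hq : ∀ v : n → ℝ, c * (v ⬝ᵥ v) ≤ v ⬝ᵥ (Q *ᵥ v)) :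
    c ^ 2 * ∑ i, ∑ j, (P - Q) i j ^ 2 ≤ ∑ i, ∑ j, (P * P - Q * Q) i j ^ 2 := by
  set X := P - Q with hX
  have hXt : Xᵀ = X := by rw [hX, transpose_sub, hP, hQ]
  have hXs : ∀ i j, X i j = X j i := fun i j => congrFun (congrFun hXt j) i
  set B := P * P - Q * Q with hB
  have hBX : B = P * X + X * Q := by
    rw [hB, hX, mul_sub, sub_mul]
    abel
  have hq1 : ∀ M : Matrix n n ℝ, (X * M * X).trace = ∑ j, (fun i => X i j) ⬝ᵥ (M *ᵥ fun i => X i j) := by
    intro M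
    rw [trace]
    refine Finset.sum_congr rfl fun j _ => ?_
    rw [diag_apply, mul_assoc, mul_apply]
    unfold dotProduct
    refine Finset.sum_congr rfl fun i _ => ?_
    rw [hXs j i]
    rfl
  have hT : (B * X).trace = ∑ i, ∑ j, B i j * X i j := by
    rw [trace]
    refine Finset.sum_congr rfl fun i _ => ?_
    rw [diag_apply, mul_apply]
    exact Finset.sum_congr rfl fun j _ => by rw [hXs j i]
  have hT2 : (B * X).trace = (X * P * X).trace + (X * Q * X).trace := by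
    rw [hBX, add_mul, trace_add]
    congr 1
    rw [mul_assoc, trace_mul_comm, mul_assoc, trace_mul_comm]
  have hN : ∑ j, ((fun i => X i j) ⬝ᵥ fun i => X i j) = ∑ i, ∑ j, X i j ^ 2 := by
    rw [Finset.sum_comm]
    unfold dotProduct
    exact Finset.sum_congr rfl fun j _ => Finset.sum_congr rfl fun i _ => by ring
  set N := ∑ i, ∑ j, X i j ^ 2 with hNd
  have h1 : c * N ≤ ∑ i, ∑ j, B i j * X i j := by
    rw [← hT, hT2, hq1, hq1, ← hN, Finset.mul_sum]
    have e1 : 0 ≤ ∑ j, (fun i => X i j) ⬝ᵥ (P *ᵥ fun i => X i j) := Finset.sum_nonneg fun j _ => hp _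
    have e2 : ∑ j, c * ((fun i => X i j) ⬝ᵥ fun i => X i j) ≤ ∑ j, (fun i => X i j) ⬝ᵥ (Q *ᵥ fun i => X i j) :=
      Finset.sum_le_sum fun j _ => hq _
    linarith
  have hN0 : 0 ≤ N := Finset.sum_nonneg fun i _ => Finset.sum_nonneg fun j _ => sq_nonneg _
  have h2 : (∑ i, ∑ j, B i j * X i j) ^ 2 ≤ (∑ i, ∑ j, B i j ^ 2) * N := by
    have := Finset.sum_mul_sq_le_sq_mul_sq (Finset.univ : Finset (n × n)) (fun p => B p.1 p.2) (fun p => X p.1 p.2)
    rwa [Fintype.sum_prod_type, Fintype.sum_prod_type, Fintype.sum_prod_type] at this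
  set M := ∑ i, ∑ j, B i j ^ 2 with hM
  have hM0 : 0 ≤ M := Finset.sum_nonneg fun i _ => Finset.sum_nonneg fun j _ => sq_nonneg _
  rcases hN0.eq_or_lt with h0 | h0
  · rw [← h0, mul_zero]
    exact hM0
  · have h3 : (c * N) ^ 2 ≤ M * N := le_trans (pow_le_pow_left₀ (by positivity) h1 2) h2
    have h4 : (c ^ 2 * N) * N ≤ M * N := by linarith [h3, show (c * N) ^ 2 = (c ^ 2 * N) * N by ring]
    exact le_of_mul_le_mul_right h4 h0

end root

end Vale.Agent.P353.Z.AN.Pc518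

end

open MeasureTheory Filter Topology Matrix
open scoped ContDiff

namespace Vale.Agent.P353.Z.AN

namespace Pc518

open LamPf

variable {d dh dm : ℕ} {F : Type*} [NormedAddCommGroup F] [InnerProductSpace ℂ F]

/-! ### algebra at a frozen point -/

/-- `(1 ⊗ Ω⁻¹) Λ` -/
noncomputable def AA (S : Setup d F) (D : Fin 9 → Matrix (Fin dm) (Fin dm) ℝ) (Om : Matrix (Fin dm) (Fin dm) ℝ) :
    Matrix (Fin 16 × Fin dm) (Fin 16 × Fin dm) ℂ := l1 Om⁻¹ * S.Lam D Om

/-- the fermions of `m` -/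
noncomputable def th' (S : Setup d F) (φ : Spl dh dm d) (p : Fin 16 × Fin dm) : F →L[ℂ] F := S.th p.1 (φ (Sum.inr p.2))

lemma th'_anti (S : Setup d F) (φ : Spl dh dm d) (p q : Fin 16 × Fin dm) :
    th' S φ p * th' S φ q + th' S φ q * th' S φ p = if p = q then 1 else 0 := by
  unfold th'
  rw [S.th_anti]
  by_cases h : p = q
  · subst h
    simp
  · rw [if_neg, if_neg h]
    rintro ⟨h1, h2⟩
    have h3 := φ.injective h2
    simp only [Sum.inr.injEq] at h3
    exact h (Prod.ext h1 h3)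

lemma th'_sa (S : Setup d F) (φ : Spl dh dm d) (p : Fin 16 × Fin dm) (v w : F) :
    inner ℂ (th' S φ p v) w = inner ℂ v (th' S φ p w) := S.th_sa _ _ _ _

lemma l1_t (M : Matrix (Fin dm) (Fin dm) ℝ) : (l1 M)ᵀ = l1 Mᵀ := by
  ext p q
  by_cases h : p.1 = q.1 <;> simp [l1, lc, kroneckerMap_apply, Matrix.one_apply, h, eq_comm]

lemma PP_t (S : Setup d F) {D : Fin 9 → Matrix (Fin dm) (Fin dm) ℝ} (hD : ∀ i, (D i)ᵀ = -D i) :
    (S.PP D)ᵀ = -S.PP D := by
  ext p q
  simp only [Setup.PP, Matrix.transpose_apply, Matrix.of_apply, Matrix.neg_apply]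
  rw [← mul_neg, ← Finset.sum_neg_distrib]
  congr 1
  refine Finset.sum_congr rfl fun i _ => ?_
  have h1 : S.g i q.1 p.1 = S.g i p.1 q.1 := congrFun (congrFun (S.g_symm i) p.1) q.1
  have h2 : D i q.2 p.2 = -D i p.2 q.2 := congrFun (congrFun (hD i) p.2) q.2
  rw [h1, h2]
  push_cast
  ring

section frozen

variable {S : Setup d F} {D : Fin 9 → Matrix (Fin dm) (Fin dm) ℝ} {Om : Matrix (Fin dm) (Fin dm) ℝ}
  (hD : Frz D) (hO : IsOm S.κ D Om)

lemma det_ne {κ : ℝ} {Om : Matrix (Fin dm) (Fin dm) ℝ} (hO : IsOm κ D Om) : Om.det ≠ 0 := by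
  intro h0
  obtain ⟨v, hv, hv0⟩ := Matrix.exists_mulVec_eq_zero_iff.2 h0
  have p1 := hO.pos v hv
  rw [hv0, dotProduct_zero] at p1
  exact lt_irrefl _ p1

include hD in
lemma comm_D {κ : ℝ} {Om : Matrix (Fin dm) (Fin dm) ℝ} (hO : IsOm κ D Om) (i : Fin 9) : D i * Om = Om * D i := by
  refine hO.comm (D i) ?_
  rw [Finset.mul_sum, Finset.sum_mul]
  refine Finset.sum_congr rfl fun j _ => ?_
  rw [← mul_assoc, hD.comm i j, mul_assoc, hD.comm i j, mul_assoc]

include hD in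
lemma comm_Di {κ : ℝ} {Om : Matrix (Fin dm) (Fin dm) ℝ} (hO : IsOm κ D Om) (i : Fin 9) : D i * Om⁻¹ = Om⁻¹ * D i := by
  have hu : IsUnit Om.det := isUnit_iff_ne_zero.2 (det_ne hO)
  have h1 : Om⁻¹ * (D i * Om) * Om⁻¹ = Om⁻¹ * (Om * D i) * Om⁻¹ := by rw [comm_D hD hO i]
  rw [← mul_assoc Om⁻¹ Om, nonsing_inv_mul _ hu, one_mul, mul_assoc Om⁻¹, mul_assoc (D i),
    mul_nonsing_inv _ hu, mul_one] at h1
  exact h1.symm

include hD hO in
lemma AA_comm : l1 Om⁻¹ * S.Lam D Om = S.Lam D Om * l1 Om⁻¹ := by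
  have hu : IsUnit Om.det := isUnit_iff_ne_zero.2 (det_ne hO)
  have h1 : l1 Om⁻¹ * l1 Om = l1 Om * l1 Om⁻¹ := by
    rw [l1_mul, l1_mul, nonsing_inv_mul _ hu, mul_nonsing_inv _ hu]
  rw [Lam_eq, mul_smul_comm, smul_mul_assoc, mul_sub, sub_mul, mul_smul_comm, smul_mul_assoc,
    l1_PP S D _ (comm_Di hD hO), h1]

include hD hO in
lemma AA_ct : (AA S D Om)ᴴ = AA S D Om := by
  have hs : (Om⁻¹)ᵀ = Om⁻¹ := by rw [transpose_nonsing_inv, hO.symm]
  rw [AA, conjTranspose_mul, Lam_ct S D Om hD.anti hO.symm, l1_ct _ hs, AA_comm hD hO]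

include hD hO in
lemma AA_sq : AA S D Om * AA S D Om = AA S D Om := by
  have hu : IsUnit Om.det := isUnit_iff_ne_zero.2 (det_ne hO)
  have h1 : l1 Om⁻¹ * l1 Om = 1 := by rw [l1_mul, nonsing_inv_mul _ hu, l1_one]
  calc l1 Om⁻¹ * S.Lam D Om * (l1 Om⁻¹ * S.Lam D Om)
      = l1 Om⁻¹ * (S.Lam D Om * l1 Om⁻¹) * S.Lam D Om := by simp only [mul_assoc]
    _ = l1 Om⁻¹ * (l1 Om⁻¹ * S.Lam D Om) * S.Lam D Om := by rw [AA_comm hD hO]
    _ = l1 Om⁻¹ * l1 Om⁻¹ * (S.Lam D Om * S.Lam D Om) := by simp only [mul_assoc]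
    _ = l1 Om⁻¹ * l1 Om⁻¹ * (l1 Om * S.Lam D Om) := by rw [Lam_sq S D Om hD hO (comm_D hD hO)]
    _ = l1 Om⁻¹ * (l1 Om⁻¹ * l1 Om) * S.Lam D Om := by simp only [mul_assoc]
    _ = l1 Om⁻¹ * S.Lam D Om := by rw [h1, mul_one]

include hD hO in
lemma AA_add : AA S D Om + (AA S D Om)ᵀ = 1 := by
  have hu : IsUnit Om.det := isUnit_iff_ne_zero.2 (det_ne hO)
  have h1 : l1 Om⁻¹ * l1 Om = 1 := by rw [l1_mul, nonsing_inv_mul _ hu, l1_one]
  have h1' : l1 Om * l1 Om⁻¹ = 1 := by rw [l1_mul, mul_nonsing_inv _ hu, l1_one]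
  have hs : (Om⁻¹)ᵀ = Om⁻¹ := by rw [transpose_nonsing_inv, hO.symm]
  have h2 : (S.Lam D Om)ᵀ = (1 / 2 : ℂ) • (l1 Om + Complex.I • S.PP D) := by
    rw [Lam_eq, transpose_smul, transpose_sub, transpose_smul, PP_t S hD.anti, l1_t, hO.symm, smul_neg,
      sub_neg_eq_add]
  have h3 := l1_PP S D _ (comm_Di hD hO)
  have h4 : (AA S D Om)ᵀ = (1 / 2 : ℂ) • (1 + Complex.I • (S.PP D * l1 Om⁻¹)) := by
    rw [AA, transpose_mul, h2, l1_t, hs, smul_mul_assoc, add_mul, h1', smul_mul_assoc]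
  have h5 : AA S D Om = (1 / 2 : ℂ) • (1 - Complex.I • (S.PP D * l1 Om⁻¹)) := by
    rw [AA, Lam_eq, mul_smul_comm, mul_sub, h1, mul_smul_comm, h3]
  rw [h4, h5, ← smul_add, sub_add_add_cancel, ← two_smul ℂ (1 : Matrix (Fin 16 × Fin dm) (Fin 16 × Fin dm) ℂ), smul_smul]
  norm_num

lemma aa_mul {ι : Type*} [Fintype ι] (θ : ι → F →L[ℂ] F) (M N : Matrix ι ι ℂ) (r : ι) (v : F) :
    aa θ (M * N) r v = ∑ p, M r p • aa θ N p v := by
  simp only [aa, _root_.sum_apply, _root_.smul_apply, Finset.smul_sum, smul_smul, mul_apply, Finset.sum_smul]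
  rw [Finset.sum_comm]

include hO in
lemma F0_eq (φ : Spl dh dm d) : S.F0 φ D Om = KK (th' S φ) (AA S D Om) := by
  have hu : IsUnit Om.det := isUnit_iff_ne_zero.2 (det_ne hO)
  have h1' : l1 Om * l1 Om⁻¹ = 1 := by rw [l1_mul, mul_nonsing_inv _ hu, l1_one]
  have h3 : ∀ p v, aa (th' S φ) (S.Lam D Om) p v = S.Lth φ D Om p v := fun p v => rfl
  ext v
  rw [mem_KK]
  constructor
  · intro h r
    rw [AA, aa_mul]
    refine Finset.sum_eq_zero fun p _ => ?_
    rw [h3, h p, smul_zero]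
  · intro h p
    have h4 : S.Lam D Om = l1 Om * AA S D Om := by rw [AA, ← mul_assoc, h1', one_mul]
    rw [← h3, h4, aa_mul]
    exact Finset.sum_eq_zero fun q _ => by rw [h q, smul_zero]

include hD hO in
lemma F0_proj [FiniteDimensional ℂ F] (φ : Spl dh dm d) :
    (S.F0 φ D Om).starProjection = Pk (HH (th' S φ) (AA S D Om)) (Fintype.card (Fin 16 × Fin dm)) := by
  have h1 := F0_eq hO φ
  rw [← proj_eq (th'_anti S φ) (th'_sa S φ) (AA_ct hD hO) (AA_sq hD hO) (AA_add hD hO)]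
  congr 1

end frozen

/-! ### continuity -/

section cont

variable {X : Type*} [TopologicalSpace X] {s : Set X}

lemma contOn_inv {M : X → Matrix (Fin dm) (Fin dm) ℝ} (hM : ContinuousOn M s) (h0 : ∀ x ∈ s, (M x).det ≠ 0) :
    ContinuousOn (fun x => (M x)⁻¹) s := by
  have h1 : Continuous fun A : Matrix (Fin dm) (Fin dm) ℝ => A.det := continuous_id.matrix_det
  have h2 : Continuous fun A : Matrix (Fin dm) (Fin dm) ℝ => A.adjugate := continuous_id.matrix_adjugate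
  have h3 : (fun x => (M x)⁻¹) = fun x => ((M x).det)⁻¹ • (M x).adjugate := by
    funext x
    rw [Matrix.inv_def, Ring.inverse_eq_inv']
  rw [h3]
  exact ((h1.comp_continuousOn hM).inv₀ h0).smul (h2.comp_continuousOn hM)

lemma contOn_entry {m n R : Type*} [TopologicalSpace R] {M : X → Matrix m n R} :
    ContinuousOn M s ↔ ∀ i j, ContinuousOn (fun x => M x i j) s := by
  constructor
  · intro h i j
    exact (Continuous.matrix_elem continuous_id i j).comp_continuousOn h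
  · intro h
    exact continuousOn_pi.2 fun i => continuousOn_pi.2 fun j => h i j

lemma contOn_mul {m : Type*} [Fintype m] {M N : X → Matrix m m ℂ} (hM : ContinuousOn M s) (hN : ContinuousOn N s) :
    ContinuousOn (fun x => M x * N x) s := by
  rw [contOn_entry]
  intro i j
  simp only [Matrix.mul_apply]
  exact continuousOn_finsetSum _ fun k _ => (contOn_entry.1 hM i k).mul (contOn_entry.1 hN k j)

lemma contOn_l1 {M : X → Matrix (Fin dm) (Fin dm) ℝ} (hM : ContinuousOn M s) : ContinuousOn (fun x => l1 (M x)) s := by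
  rw [contOn_entry]
  intro p q
  simp only [l1, lc, kroneckerMap_apply, Matrix.map_apply]
  exact continuousOn_const.mul (Complex.continuous_ofReal.comp_continuousOn (contOn_entry.1 hM _ _))

lemma contOn_AA (S : Setup d F) {D : X → Fin 9 → Matrix (Fin dm) (Fin dm) ℝ} {Om : X → Matrix (Fin dm) (Fin dm) ℝ}
    (hD : ∀ i, ContinuousOn (fun x => D x i) s) (hO : ContinuousOn Om s) (h0 : ∀ x ∈ s, (Om x).det ≠ 0) :
    ContinuousOn (fun x => AA S (D x) (Om x)) s := by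
  have h1 : ContinuousOn (fun x => l1 (Om x)⁻¹) s := contOn_l1 (contOn_inv hO h0)
  have h2 : ContinuousOn (fun x => S.PP (D x)) s := by
    rw [contOn_entry]
    intro p q
    simp only [Setup.PP, Matrix.of_apply]
    refine continuousOn_const.mul (continuousOn_finsetSum _ fun i _ => continuousOn_const.mul ?_)
    exact Complex.continuous_ofReal.comp_continuousOn (contOn_entry.1 (hD i) _ _)
  have h3 : ContinuousOn (fun x => S.Lam (D x) (Om x)) s := by
    rw [contOn_entry]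
    intro p q
    simp only [Setup.Lam, Matrix.of_apply]
    refine continuousOn_const.mul (ContinuousOn.sub ?_ (continuousOn_const.mul (contOn_entry.1 h2 p q)))
    by_cases h : p.1 = q.1
    · simp only [h, if_true]
      exact Complex.continuous_ofReal.comp_continuousOn (contOn_entry.1 hO _ _)
    · simp only [h, if_false]
      exact continuousOn_const
  unfold AA
  exact contOn_mul h1 h3

/-- continuity of the square root -/
lemma contOn_om {κ : ℝ} {D : X → Fin 9 → Matrix (Fin dm) (Fin dm) ℝ} {Om : X → Matrix (Fin dm) (Fin dm) ℝ}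
    (hD : ∀ i, ContinuousOn (fun x => D x i) s) (hO : ∀ x ∈ s, IsOm κ (D x) (Om x)) : ContinuousOn Om s := by
  have hm : Continuous fun p : Matrix (Fin dm) (Fin dm) ℝ × Matrix (Fin dm) (Fin dm) ℝ => p.1 * p.2 :=
    continuous_fst.matrix_mul continuous_snd
  have hB : ContinuousOn (fun x => -(κ ^ 2 • ∑ i, D x i * D x i)) s := by
    have h1 : ContinuousOn (fun x => ∑ i, D x i * D x i) s :=
      continuousOn_finsetSum _ fun i _ => hm.comp_continuousOn ((hD i).prodMk (hD i))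
    exact (h1.const_smul (κ ^ 2)).neg
  rw [contOn_entry]
  intro i j x0 hx0
  obtain ⟨c, hc, hlow⟩ := exists_lower (hO x0 hx0).pos
  set g : X → ℝ := fun x => ∑ i, ∑ j, ((-(κ ^ 2 • ∑ i, D x i * D x i)) - (-(κ ^ 2 • ∑ i, D x0 i * D x0 i))) i j ^ 2 with hg
  have hgc : ContinuousWithinAt g s x0 := by
    refine ContinuousOn.continuousWithinAt (f := g) ?_ hx0
    refine continuousOn_finsetSum _ fun i _ => continuousOn_finsetSum _ fun j _ => ContinuousOn.pow ?_ 2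
    exact contOn_entry.1 (hB.sub continuousOn_const) i j
  have hg0 : g x0 = 0 := by simp [hg]
  have hest : ∀ x ∈ s, |Om x i j - Om x0 i j| ≤ Real.sqrt (g x) / c := by
    intro x hx
    have h1 := root_est (hO x hx).symm (hO x0 hx0).symm (fun v => by
      by_cases hv : v = 0
      · subst hv; simp
      · exact ((hO x hx).pos v hv).le) hc hlow
    rw [(hO x hx).sq, (hO x0 hx0).sq] at h1
    have h2 : (Om x i j - Om x0 i j) ^ 2 ≤ ∑ i, ∑ j, (Om x - Om x0) i j ^ 2 := by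
      have e1 : (Om x i j - Om x0 i j) ^ 2 ≤ ∑ j, (Om x - Om x0) i j ^ 2 :=
        Finset.single_le_sum (f := fun j => (Om x - Om x0) i j ^ 2) (fun j _ => sq_nonneg _) (Finset.mem_univ j)
      have e2 : ∑ j, (Om x - Om x0) i j ^ 2 ≤ ∑ i, ∑ j, (Om x - Om x0) i j ^ 2 :=
        Finset.single_le_sum (f := fun i => ∑ j, (Om x - Om x0) i j ^ 2)
          (fun i _ => Finset.sum_nonneg fun j _ => sq_nonneg _) (Finset.mem_univ i)
      exact e1.trans e2
    have h3 : c ^ 2 * (Om x i j - Om x0 i j) ^ 2 ≤ g x := (mul_le_mul_of_nonneg_left h2 (by positivity)).trans h1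
    rw [le_div_iff₀ hc]
    refine Real.le_sqrt_of_sq_le ?_
    rw [mul_pow, sq_abs, mul_comm]
    exact h3
  have hlim : Tendsto (fun x => Real.sqrt (g x) / c) (𝓝[s] x0) (𝓝 0) := by
    have h1 : Tendsto (fun x => Real.sqrt (g x) / c) (𝓝[s] x0) (𝓝 (Real.sqrt (g x0) / c)) :=
      (hgc.tendsto.sqrt).div_const c
    rwa [hg0, Real.sqrt_zero, zero_div] at h1
  have h4 : Tendsto (fun x => Om x i j) (𝓝[s] x0) (𝓝 (Om x0 i j)) := by
    rw [tendsto_iff_dist_tendsto_zero]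
    refine squeeze_zero' (Eventually.of_forall fun x => dist_nonneg) ?_ hlim
    filter_upwards [self_mem_nhdsWithin] with x hx
    rw [Real.dist_eq]
    exact hest x hx
  exact h4

end cont

/-! ### homogeneity -/

lemma isOm_smul {κ R : ℝ} (hR : 0 < R) {D : Fin 9 → Matrix (Fin dm) (Fin dm) ℝ} {Om : Matrix (Fin dm) (Fin dm) ℝ}
    (h : IsOm κ D Om) : IsOm κ (fun i => R • D i) (R • Om) := by
  have h1 : ∑ i, (R • D i) * (R • D i) = R ^ 2 • ∑ i, D i * D i := by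
    rw [Finset.smul_sum]
    refine Finset.sum_congr rfl fun i _ => ?_
    rw [smul_mul_smul_comm, sq]
  refine ⟨?_, ?_, ?_, ?_⟩
  · rw [transpose_smul, h.symm]
  · intro v hv
    rw [smul_mulVec, dotProduct_smul, smul_eq_mul]
    exact mul_pos hR (h.pos v hv)
  · rw [h1, smul_mul_smul_comm, h.sq, smul_neg, smul_smul, smul_smul, ← sq, mul_comm]
  · intro M hM
    rw [h1, mul_smul_comm, smul_mul_assoc] at hM
    have h2 := smul_right_injective _ (pow_ne_zero 2 hR.ne') hM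
    rw [mul_smul_comm, smul_mul_assoc, h.comm M h2]

end Pc518

open Pc518 in
/-- **GL11** -/
theorem pc_stmt {d : ℕ} {F : Type*} [NormedAddCommGroup F] [InnerProductSpace ℂ F] (S : Setup d F) : PcStmt S := by
  intro hfin dh dm ds dz φ ψ z₀ h
  have hDM : ∀ η, AD.Dz S φ ψ η = DM (AX.Mz S φ ψ) η := fun η => (AX.DM_Mz S φ ψ η).symm
  have hDc : ∀ i, Continuous fun η => AD.Dz S φ ψ η i := by
    intro i
    simp only [hDM]
    unfold DM
    fun_prop
  have hDs : ∀ (R : ℝ) (η : Cfg dz), AD.Dz S φ ψ (R • η) = fun i => R • AD.Dz S φ ψ η i := by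
    intro R η
    funext i
    simp only [hDM, DM, PiLp.smul_apply, smul_eq_mul, Finset.smul_sum, smul_smul]
  have hopen : IsOpen {η : Cfg dz | (AD.Dz S φ ψ η 8).det ≠ 0} :=
    isOpen_ne_fun (hDc 8).matrix_det continuous_const
  have hz : z₀ ∈ {η : Cfg dz | (AD.Dz S φ ψ η 8).det ≠ 0} := h.std.inv
  obtain ⟨ε, hε, hball⟩ := Metric.isOpen_iff.1 hopen z₀ hz
  have hdet : ∀ η : Cfg dz, ‖η - z₀‖ ≤ ε / 2 → (AD.Dz S φ ψ η 8).det ≠ 0 := by
    intro η hη
    refine hball ?_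
    rw [Metric.mem_ball, dist_eq_norm]
    linarith
  have hfrz : ∀ η : Cfg dz, ‖η - z₀‖ ≤ ε / 2 → Frz (AD.Dz S φ ψ η) := fun η hη => AX.frz_Dz h η (hdet η hη)
  have hom : ∀ η : Cfg dz, ‖η - z₀‖ ≤ ε / 2 → IsOm S.κ (AD.Dz S φ ψ η) (AD.omc S.κ (AD.Dz S φ ψ η)) := by
    intro η hη
    obtain ⟨Om, hOm⟩ := _root_.Vale.Agent.P353.Z.om dm S.κ _ S.κ_pos (hfrz η hη)
    rw [AX.omc_eq AX.omU S.κ_pos hOm]
    exact hOm
  have hcont : ContinuousOn (fun η => AD.omc S.κ (AD.Dz S φ ψ η)) {η : Cfg dz | ‖η - z₀‖ ≤ ε / 2} :=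
    contOn_om (fun i => (hDc i).continuousOn) fun η hη => hom η hη
  refine ⟨ε / 2, by positivity, fun η hη => ⟨⟨h.std.sub, ?_, hdet η hη⟩, hfrz η hη, hom η hη⟩, hcont, ?_, ?_⟩
  · intro i B C
    rw [← ψ.sum_comp, Fintype.sum_sum_type]
    have e1 : ∀ A : Fin ds, AD.cmb ψ 0 η (i, ψ (Sum.inl A)) = 0 := by
      intro A
      simp [AD.cmb]
    have e2 : ∀ A : Fin dz, S.f (φ (Sum.inl (ψ (Sum.inr A)))) (φ (Sum.inl B)) (φ (Sum.inl C)) = 0 :=
      fun A => h.cen A B C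
    simp [e1, e2]
  · intro v
    have hA : ContinuousOn (fun η => AA S (AD.Dz S φ ψ η) (AD.omc S.κ (AD.Dz S φ ψ η)))
        {η : Cfg dz | ‖η - z₀‖ ≤ ε / 2} :=
      contOn_AA S (fun i => (hDc i).continuousOn) hcont fun η hη => det_ne (hom η hη)
    have hH : ContinuousOn (fun η => HH (th' S φ) (AA S (AD.Dz S φ ψ η) (AD.omc S.κ (AD.Dz S φ ψ η))))
        {η : Cfg dz | ‖η - z₀‖ ≤ ε / 2} := continuousOn_HH (th' S φ) fun p q => contOn_entry.1 hA p q
    have hP := (continuous_Pk (F := F) (Fintype.card (Fin 16 × Fin dm))).comp_continuousOn hH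
    have hE : ContinuousOn (fun η => Pk (HH (th' S φ) (AA S (AD.Dz S φ ψ η) (AD.omc S.κ (AD.Dz S φ ψ η))))
        (Fintype.card (Fin 16 × Fin dm)) v) {η : Cfg dz | ‖η - z₀‖ ≤ ε / 2} :=
      hP.clm_apply continuousOn_const
    refine hE.congr fun η hη => ?_
    change (S.F0 φ (AD.Dz S φ ψ η) (AD.omc S.κ (AD.Dz S φ ψ η))).starProjection v = _
    rw [F0_proj (hfrz η hη) (hom η hη) φ]
  · intro η hη R hR
    have h1 : AD.omc S.κ (AD.Dz S φ ψ (R • η)) = R • AD.omc S.κ (AD.Dz S φ ψ η) := by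
      refine AX.omc_eq AX.omU S.κ_pos ?_
      rw [hDs]
      exact isOm_smul hR (hom η hη)
    refine ⟨h1, ?_⟩
    rw [h1, hDs]
    exact (f0S S φ (AD.Dz S φ ψ η) (AD.omc S.κ (AD.Dz S φ ψ η))).2 R hR

end Vale.Agent.P353.Z.AN
end

section

/-! # P353, all `N`, block E: E-DecM, the mass term applied to the trial function -/

open MeasureTheory Filter Topology Matrix
open scoped ContDiff

namespace Vale.Agent.P353.Z.AE

variable {d dh dm r ds : ℕ} {F : Type*} [NormedAddCommGroup F] [InnerProductSpace ℂ F]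

/-! ### splitting of the slice variable -/

theorem dcm_mp (ψ : Spl r ds dh) : MeasurePreserving (fun x : Cfg dh => (zpt ψ x, spt ψ x))
    (volume : Measure (Cfg dh)) ((volume : Measure (Cfg r)).prod (volume : Measure (Cfg ds))) := by
  let e : (Fin 9 × Fin r) ⊕ (Fin 9 × Fin ds) ≃ Fin 9 × Fin dh :=
    (Equiv.prodSumDistrib (Fin 9) (Fin r) (Fin ds)).symm.trans (Equiv.prodCongr (Equiv.refl _) ψ)
  have h1 : MeasurePreserving (WithLp.ofLp : Cfg dh → (Fin 9 × Fin dh → ℝ)) volume volume :=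
    PiLp.volume_preserving_ofLp (Fin 9 × Fin dh)
  have h2 : MeasurePreserving (MeasurableEquiv.piCongrLeft (fun _ : Fin 9 × Fin dh => ℝ) e).symm
      volume volume :=
    (volume_measurePreserving_piCongrLeft (fun _ : Fin 9 × Fin dh => ℝ) e).symm
  have h3 := volume_measurePreserving_sumPiEquivProdPi
    (fun _ : (Fin 9 × Fin r) ⊕ (Fin 9 × Fin ds) => ℝ)
  have h4 : MeasurePreserving (WithLp.toLp 2 : (Fin 9 × Fin r → ℝ) → Cfg r) volume volume :=
    PiLp.volume_preserving_toLp (Fin 9 × Fin r)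
  have h5 : MeasurePreserving (WithLp.toLp 2 : (Fin 9 × Fin ds → ℝ) → Cfg ds) volume volume :=
    PiLp.volume_preserving_toLp (Fin 9 × Fin ds)
  have h6 := (h4.prod h5).comp (h3.comp (h2.comp h1))
  exact h6

theorem dcm_int (ψ : Spl r ds dh) {G : Cfg r → ℝ} {H : Cfg ds → ℝ} (hG : Continuous G)
    (hH : Continuous H) : ∫ x : Cfg dh, G (zpt ψ x) * H (spt ψ x) = (∫ y, G y) * ∫ s, H s := by
  rw [← integral_prod_mul, ← (dcm_mp ψ).map_eq, integral_map (dcm_mp ψ).measurable.aemeasurable]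
  exact ((hG.comp continuous_fst).mul (hH.comp continuous_snd)).aestronglyMeasurable

theorem dcm_int' (ψ : Spl r ds dh) {G : Cfg r → ℝ} {H : Cfg ds → ℝ}
    (hGi : Integrable G) (hHi : Integrable H) :
    Integrable fun x : Cfg dh => G (zpt ψ x) * H (spt ψ x) := by
  have h1 := hGi.mul_prod hHi
  have h2 := ((dcm_mp ψ).integrable_comp h1.aestronglyMeasurable).2 h1
  exact h2

/-! ### elementary bounds -/

theorem dcm_co {ι : Type*} [Fintype ι] (x : EuclideanSpace ℝ ι) (p : ι) : |x p| ≤ ‖x‖ :=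
  PiLp.norm_apply_le x p

theorem dcm_wt (w : Wsp dm) (i : Fin 9) (B : Fin dm) : |wt w i B| ≤ ‖w‖ := by
  refine Fin.lastCases ?_ (fun j => ?_) i
  · unfold wt
    rw [Fin.lastCases_last]
    simp
  · unfold wt
    rw [Fin.lastCases_castSucc]
    exact dcm_co w (j, B)

theorem dcm_wt_c (i : Fin 9) (B : Fin dm) : ContDiff ℝ ∞ fun w : Wsp dm => wt w i B := by
  refine Fin.lastCases ?_ (fun j => ?_) i
  · simp only [wt, Fin.lastCases_last]
    exact contDiff_const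
  · simp only [wt, Fin.lastCases_castSucc]
    exact (EuclideanSpace.proj (j, B) : Wsp dm →L[ℝ] ℝ).contDiff

theorem dcm_cd {E : Type*} [NormedAddCommGroup E] [NormedSpace ℝ E] (A : F →L[ℂ] F) {g : E → F}
    (hg : ContDiff ℝ ∞ g) : ContDiff ℝ ∞ fun p => A (g p) :=
  (A.restrictScalars ℝ).contDiff.comp hg

/-- error term: `∑ s_i^b N_iθ^b + ∑ w_i^B N_iθ^B` -/
noncomputable def dcmX (S : Setup d F) (φ : Spl dh dm d) (ψ : Spl r ds dh)
    (N : Fin 9 → Matrix (Fin 16) (Fin 16) ℂ) (β : Fin 16) (x : Cfg dh) (w : Wsp dm) (v : F) : F :=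
  (∑ i, ∑ b, ((spt ψ x (i, b) : ℝ) : ℂ) • S.vec (N i) (φ (Sum.inl (ψ (Sum.inr b)))) β v) +
    ∑ i, ∑ B, ((wt w i B : ℝ) : ℂ) • S.vec (N i) (φ (Sum.inr B)) β v

/-- the constant -/
noncomputable def dcmK (S : Setup d F) (φ : Spl dh dm d) (ψ : Spl r ds dh)
    (N : Fin 9 → Matrix (Fin 16) (Fin 16) ℂ) : ℝ :=
  ∑ β, ((∑ i, ∑ b, ‖(S.vec (N i) (φ (Sum.inl (ψ (Sum.inr b)))) β : F →L[ℂ] F)‖) +
    ∑ i, ∑ B, ‖(S.vec (N i) (φ (Sum.inr B)) β : F →L[ℂ] F)‖)

theorem dcmK_nonneg (S : Setup d F) (φ : Spl dh dm d) (ψ : Spl r ds dh)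
    (N : Fin 9 → Matrix (Fin 16) (Fin 16) ℂ) : 0 ≤ dcmK S φ ψ N := by
  unfold dcmK
  positivity

theorem dcmX_le (S : Setup d F) (φ : Spl dh dm d) (ψ : Spl r ds dh)
    (N : Fin 9 → Matrix (Fin 16) (Fin 16) ℂ) (β : Fin 16) (x : Cfg dh) (w : Wsp dm) (v : F) :
    ‖dcmX S φ ψ N β x w v‖ ≤ dcmK S φ ψ N * (‖spt ψ x‖ + ‖w‖) * ‖v‖ := by
  have h1 : ‖∑ i, ∑ b, ((spt ψ x (i, b) : ℝ) : ℂ) •
      S.vec (N i) (φ (Sum.inl (ψ (Sum.inr b)))) β v‖ ≤
      (∑ i, ∑ b, ‖(S.vec (N i) (φ (Sum.inl (ψ (Sum.inr b)))) β : F →L[ℂ] F)‖) *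
        ((‖spt ψ x‖ + ‖w‖) * ‖v‖) := by
    rw [Finset.sum_mul]
    refine norm_sum_le_of_le _ fun i _ => ?_
    rw [Finset.sum_mul]
    refine norm_sum_le_of_le _ fun b _ => ?_
    rw [norm_smul, Complex.norm_real, Real.norm_eq_abs]
    have h2 : |spt ψ x (i, b)| ≤ ‖spt ψ x‖ + ‖w‖ :=
      (dcm_co (spt ψ x) (i, b)).trans (le_add_of_nonneg_right (norm_nonneg _))
    calc |spt ψ x (i, b)| * ‖S.vec (N i) (φ (Sum.inl (ψ (Sum.inr b)))) β v‖
        ≤ (‖spt ψ x‖ + ‖w‖) *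
          (‖(S.vec (N i) (φ (Sum.inl (ψ (Sum.inr b)))) β : F →L[ℂ] F)‖ * ‖v‖) :=
          mul_le_mul h2 (ContinuousLinearMap.le_opNorm _ _) (norm_nonneg _) (by positivity)
      _ = _ := by ring
  have h1' : ‖∑ i, ∑ B, ((wt w i B : ℝ) : ℂ) • S.vec (N i) (φ (Sum.inr B)) β v‖ ≤
      (∑ i, ∑ B, ‖(S.vec (N i) (φ (Sum.inr B)) β : F →L[ℂ] F)‖) *
        ((‖spt ψ x‖ + ‖w‖) * ‖v‖) := by
    rw [Finset.sum_mul]
    refine norm_sum_le_of_le _ fun i _ => ?_
    rw [Finset.sum_mul]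
    refine norm_sum_le_of_le _ fun b _ => ?_
    rw [norm_smul, Complex.norm_real, Real.norm_eq_abs]
    have h2 : |wt w i b| ≤ ‖spt ψ x‖ + ‖w‖ :=
      (dcm_wt w i b).trans (le_add_of_nonneg_left (norm_nonneg _))
    calc |wt w i b| * ‖S.vec (N i) (φ (Sum.inr b)) β v‖
        ≤ (‖spt ψ x‖ + ‖w‖) *
          (‖(S.vec (N i) (φ (Sum.inr b)) β : F →L[ℂ] F)‖ * ‖v‖) :=
          mul_le_mul h2 (ContinuousLinearMap.le_opNorm _ _) (norm_nonneg _) (by positivity)
      _ = _ := by ring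
  have h3 : (∑ i, ∑ b, ‖(S.vec (N i) (φ (Sum.inl (ψ (Sum.inr b)))) β : F →L[ℂ] F)‖) +
      (∑ i, ∑ B, ‖(S.vec (N i) (φ (Sum.inr B)) β : F →L[ℂ] F)‖) ≤ dcmK S φ ψ N :=
    Finset.single_le_sum (f := fun β => (∑ i, ∑ b,
      ‖(S.vec (N i) (φ (Sum.inl (ψ (Sum.inr b)))) β : F →L[ℂ] F)‖) +
      ∑ i, ∑ B, ‖(S.vec (N i) (φ (Sum.inr B)) β : F →L[ℂ] F)‖)
      (fun β _ => by positivity) (Finset.mem_univ β)
  have h4 : 0 ≤ (‖spt ψ x‖ + ‖w‖) * ‖v‖ := by positivity
  have h5 := mul_le_mul_of_nonneg_right h3 h4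
  unfold dcmX
  refine (norm_add_le _ _).trans ?_
  linarith

theorem dcmX_cd (S : Setup d F) (φ : Spl dh dm d) (ψ : Spl r ds dh)
    (N : Fin 9 → Matrix (Fin 16) (Fin 16) ℂ) (β : Fin 16) {T : Cfg dh → Wsp dm → F}
    (hT : ContDiff ℝ ∞ fun p : Cfg dh × Wsp dm => T p.1 p.2) :
    ContDiff ℝ ∞ fun p : Cfg dh × Wsp dm => dcmX S φ ψ N β p.1 p.2 (T p.1 p.2) := by
  unfold dcmX
  refine ContDiff.add ?_ ?_
  · refine ContDiff.sum fun i _ => ContDiff.sum fun b _ => ContDiff.smul ?_ (dcm_cd _ hT)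
    refine Complex.ofRealCLM.contDiff.comp ?_
    exact (EuclideanSpace.proj (i, ψ (Sum.inr b)) : Cfg dh →L[ℝ] ℝ).contDiff.comp contDiff_fst
  · refine ContDiff.sum fun i _ => ContDiff.sum fun b _ => ContDiff.smul ?_ (dcm_cd _ hT)
    exact Complex.ofRealCLM.contDiff.comp ((dcm_wt_c i b).comp contDiff_snd)

theorem dcm_Mh (S : Setup d F) (φ : Spl dh dm d) (ψ : Spl r ds dh)
    (N : Fin 9 → Matrix (Fin 16) (Fin 16) ℂ) (β : Fin 16) (x : Cfg dh) (w : Wsp dm) (v : F) :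
    S.Mh φ N β x v + S.Mw φ N β w v =
      (∑ i, ∑ a, ((zpt ψ x (i, a) : ℝ) : ℂ) • S.vec (N i) (φ (Sum.inl (ψ (Sum.inl a)))) β v) +
        dcmX S φ ψ N β x w v := by
  have h1 : S.Mh φ N β x v = ∑ i, ∑ A, ((x (i, A) : ℝ) : ℂ) • S.vec (N i) (φ (Sum.inl A)) β v := by
    simp [Setup.Mh]
  have h2 : S.Mw φ N β w v = ∑ i, ∑ B, ((wt w i B : ℝ) : ℂ) • S.vec (N i) (φ (Sum.inr B)) β v := by
    simp [Setup.Mw]
  have h3 : ∀ i, ∑ A, ((x (i, A) : ℝ) : ℂ) • S.vec (N i) (φ (Sum.inl A)) β v =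
      (∑ a, ((zpt ψ x (i, a) : ℝ) : ℂ) • S.vec (N i) (φ (Sum.inl (ψ (Sum.inl a)))) β v) +
      ∑ b, ((spt ψ x (i, b) : ℝ) : ℂ) • S.vec (N i) (φ (Sum.inl (ψ (Sum.inr b)))) β v := by
    intro i
    rw [← ψ.sum_comp, Fintype.sum_sum_type]
    rfl
  rw [h1, h2, dcmX]
  simp only [h3, Finset.sum_add_distrib]
  abel

/-! ### the main term and the weighted norm -/

theorem dcm_vec (S : Setup d F) (φ : Spl dh dm d) (A : Fin dh) (N : Matrix (Fin 16) (Fin 16) ℂ)
    (β : Fin 16) (B : F →L[ℂ] F)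
    (h : ∀ α A v, B (S.th α (φ (Sum.inl A)) v) = S.th α (φ (Sum.inl A)) (B v)) (v : F) :
    B (S.vec N (φ (Sum.inl A)) β v) = S.vec N (φ (Sum.inl A)) β (B v) := by
  simp [CS.vec, h]

theorem dcm_DF (S : Setup d F) (φ : Spl dh dm d) (ψ : Spl r ds dh)
    (N : Fin 9 → Matrix (Fin 16) (Fin 16) ℂ) (μ : ℝ) (β : Fin 16) (a : Cfg r → Cfg ds → F)
    (y : Cfg r) (s : Cfg ds) :
    S.DF φ ψ N μ β a y s = S.DF φ ψ (fun _ => 0) 0 β a y s +
      (μ : ℂ) • ∑ i, ∑ A, ((y (i, A) : ℝ) : ℂ) • S.vec (N i) (φ (Sum.inl (ψ (Sum.inl A)))) β (a y s) := by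
  simp [Setup.DF]

theorem dcm_main (S : Setup d F) (φ : Spl dh dm d) (ψ : Spl r ds dh)
    (N : Fin 9 → Matrix (Fin 16) (Fin 16) ℂ) (μ : ℝ) (β : Fin 16)
    (Om : Cfg r → Matrix (Fin dm) (Fin dm) ℝ) (V : Cfg r → F →L[ℂ] F) (c : ℝ → ℝ) (ε R : ℝ)
    (a : Cfg r → Cfg ds → F) (x : Cfg dh) (w : Wsp dm)
    (h : (∀ α A v, V (zpt ψ x) (S.th α (φ (Sum.inl A)) v) =
      S.th α (φ (Sum.inl A)) (V (zpt ψ x) v)) ∨ a (R⁻¹ • zpt ψ x) (spt ψ x) = 0) :
    ((R⁻¹ : ℝ) : ℂ) • (S.TR φ ψ Om V c ε R (S.DF φ ψ N μ β a) x w -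
      S.TR φ ψ Om V c ε R (S.DF φ ψ (fun _ => 0) 0 β a) x w) =
    ((μ / R ^ 2 : ℝ) : ℂ) • ∑ i, ∑ A, ((zpt ψ x (i, A) : ℝ) : ℂ) •
      S.vec (N i) (φ (Sum.inl (ψ (Sum.inl A)))) β (S.TR φ ψ Om V c ε R a x w) := by
  have e1 : S.TR φ ψ Om V c ε R (S.DF φ ψ N μ β a) x w -
      S.TR φ ψ Om V c ε R (S.DF φ ψ (fun _ => 0) 0 β a) x w =
      (((Real.sqrt R ^ (9 * r))⁻¹ * c (‖w‖ ^ 2 / (ε * R) ^ 2) * S.bz φ ψ Om (zpt ψ x) w : ℝ) : ℂ) •
      V (zpt ψ x) ((μ : ℂ) • ∑ i, ∑ A, (((R⁻¹ • zpt ψ x) (i, A) : ℝ) : ℂ) •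
        S.vec (N i) (φ (Sum.inl (ψ (Sum.inl A)))) β (a (R⁻¹ • zpt ψ x) (spt ψ x))) := by
    unfold Setup.TR
    rw [← smul_sub, ← map_sub, dcm_DF S φ ψ N μ β a, add_sub_cancel_left]
  rw [e1]
  rcases h with h | h
  · unfold Setup.TR
    rw [map_smul, map_sum, Finset.smul_sum, Finset.smul_sum, Finset.smul_sum, Finset.smul_sum]
    refine Finset.sum_congr rfl fun i _ => ?_
    rw [map_sum, Finset.smul_sum, Finset.smul_sum, Finset.smul_sum, Finset.smul_sum]
    refine Finset.sum_congr rfl fun A _ => ?_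
    rw [map_smul, map_smul, dcm_vec S φ _ (N i) β _ h, smul_smul, smul_smul, smul_smul, smul_smul,
      smul_smul]
    congr 1
    have : (R⁻¹ • zpt ψ x) (i, A) = R⁻¹ * zpt ψ x (i, A) := rfl
    rw [this]
    push_cast
    ring
  · unfold Setup.TR
    rw [h]
    simp

theorem dcm_in {ζ : Cfg r → ℂ} {y₀ : Cfg r} {ε ε0 R : ℝ} (hε : 0 < ε) (hle : ε ≤ ε0) (hR : 1 ≤ R)
    (hs : tsupport ζ ⊆ Metric.ball y₀ (ε / 2)) {z : Cfg r} (hz : ζ (R⁻¹ • z) ≠ 0) :
    ‖z - R • y₀‖ ≤ ε0 * R := by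
  have h1 := hs (subset_tsupport _ hz)
  rw [Metric.mem_ball, dist_eq_norm] at h1
  have h2 : z - R • y₀ = R • (R⁻¹ • z - y₀) := by
    rw [smul_sub, smul_smul, mul_inv_cancel₀ (by linarith), one_smul]
  rw [h2, norm_smul, Real.norm_of_nonneg (by linarith), mul_comm]
  exact mul_le_mul_of_nonneg_right (by linarith) (by linarith)

theorem dcm_sc {ζ : Cfg r → ℂ} {R : ℝ} (hR : 1 ≤ R) :
    ((Real.sqrt R ^ (9 * r))⁻¹) ^ 2 * (∫ y, ‖ζ (R⁻¹ • y)‖ ^ 2) = ∫ y, ‖ζ y‖ ^ 2 := by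
  have hR0 : 0 < R := by linarith
  have h1 := Measure.integral_comp_inv_smul_of_nonneg (volume : Measure (Cfg r))
    (fun y => ‖ζ y‖ ^ 2) hR0.le
  have h2 : Module.finrank ℝ (Cfg r) = 9 * r := by simp
  rw [h2] at h1
  rw [h1, smul_eq_mul, ← mul_assoc, ← inv_pow, ← pow_mul, mul_comm (9 * r) 2, pow_mul, inv_pow,
    Real.sq_sqrt hR0.le, ← mul_pow, inv_mul_cancel₀ hR0.ne', one_pow, one_mul]

/-- weighted norm of the trial function -/
theorem dcm_W (S : Setup d F) (φ : Spl dh dm d) (ψ : Spl r ds dh) {U : Set (Cfg r)}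
    {Om : Cfg r → Matrix (Fin dm) (Fin dm) ℝ} {V : Cfg r → F →L[ℂ] F} {K : Submodule ℂ F}
    (hV : S.VFr φ ψ U Om V K) {y₀ : Cfg r} {ε0 C0 : ℝ}
    (hB : BzFacts S φ ψ U Om y₀ ε0 C0) {c : ℝ → ℝ} (hc : IsCt c) {ε : ℝ} (hε : 0 < ε)
    (hle : ε ≤ ε0) {ζ : Cfg r → ℂ} (hζ : ContDiff ℝ ∞ ζ)
    (hs : tsupport ζ ⊆ Metric.ball y₀ (ε / 2)) {R : ℝ} (hR : 1 ≤ R) {Φ : Cfg ds → F}
    (hΦ : Setup.Tst Φ) (hT : Tst2 (S.TR φ ψ Om V c ε R (pp ζ Φ))) :
    ∫ p, (‖p.2‖ * ‖S.TR φ ψ Om V c ε R (pp ζ Φ) p.1 p.2‖) ^ 2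
      ∂((volume : Measure (Cfg dh)).prod (volume : Measure (Wsp dm))) ≤
      C0 * (1 / R) * ((∫ y, ‖ζ y‖ ^ 2) * nsq Φ) := by
  have hR0 : 0 < R := by linarith
  have hfi : Integrable (fun p : Cfg dh × Wsp dm =>
      (‖p.2‖ * ‖S.TR φ ψ Om V c ε R (pp ζ Φ) p.1 p.2‖) ^ 2)
      ((volume : Measure (Cfg dh)).prod (volume : Measure (Wsp dm))) := by
    have h1 : Continuous (fun p : Cfg dh × Wsp dm =>
        (‖p.2‖ * ‖S.TR φ ψ Om V c ε R (pp ζ Φ) p.1 p.2‖) ^ 2) :=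
      (continuous_snd.norm.mul hT.1.continuous.norm).pow 2
    refine h1.integrable_of_hasCompactSupport (hT.2.mono ?_)
    intro p hp
    simp only [Function.mem_support] at hp ⊢
    intro h0
    exact hp (by simp [h0])
  have hζc : HasCompactSupport ζ :=
    (isCompact_closedBall y₀ (ε / 2)).of_isClosed_subset (isClosed_tsupport ζ)
      (hs.trans Metric.ball_subset_closedBall)
  have hζs : HasCompactSupport fun y : Cfg r => ζ (R⁻¹ • y) :=
    hζc.comp_homeomorph (Homeomorph.smulOfNeZero R⁻¹ (inv_ne_zero hR0.ne'))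
  have hGc : Continuous fun y : Cfg r =>
      ((Real.sqrt R ^ (9 * r))⁻¹) ^ 2 * (C0 * (1 / R)) * ‖ζ (R⁻¹ • y)‖ ^ 2 := by
    refine continuous_const.mul (Continuous.pow (Continuous.norm ?_) 2)
    exact hζ.continuous.comp (continuous_const_smul R⁻¹)
  have hGi : Integrable fun y : Cfg r =>
      ((Real.sqrt R ^ (9 * r))⁻¹) ^ 2 * (C0 * (1 / R)) * ‖ζ (R⁻¹ • y)‖ ^ 2 := by
    refine hGc.integrable_of_hasCompactSupport (hζs.mono ?_)
    intro y hy
    simp only [Function.mem_support] at hy ⊢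
    intro h0
    exact hy (by simp [h0])
  have hHc : Continuous fun s : Cfg ds => ‖Φ s‖ ^ 2 := hΦ.1.continuous.norm.pow 2
  have hHi : Integrable fun s : Cfg ds => ‖Φ s‖ ^ 2 := hΦ.norm_sq_int
  rw [integral_prod _ hfi]
  have key : ∀ x : Cfg dh, ∫ w : Wsp dm,
      (‖w‖ * ‖S.TR φ ψ Om V c ε R (pp ζ Φ) x w‖) ^ 2 ≤
      (((Real.sqrt R ^ (9 * r))⁻¹) ^ 2 * (C0 * (1 / R)) * ‖ζ (R⁻¹ • zpt ψ x)‖ ^ 2) *
        ‖Φ (spt ψ x)‖ ^ 2 := by
    intro x
    by_cases hz : ζ (R⁻¹ • zpt ψ x) = 0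
    · have h0 : ∀ w, S.TR φ ψ Om V c ε R (pp ζ Φ) x w = 0 := by
        intro w
        simp [Setup.TR, pp, hz]
      simp [h0, hz]
    · have h1 := dcm_in hε hle hR hs hz
      have h2 := hB.inU R hR0 _ h1
      have h3 := hB.mom R hR0 _ h1 1 (by norm_num)
      have h4 := hB.int _ h2 1
      have h5 : ∀ w, (‖w‖ * ‖S.TR φ ψ Om V c ε R (pp ζ Φ) x w‖) ^ 2 ≤
          (((Real.sqrt R ^ (9 * r))⁻¹) ^ 2 * ‖ζ (R⁻¹ • zpt ψ x)‖ ^ 2 * ‖Φ (spt ψ x)‖ ^ 2) *
            (‖w‖ ^ 1 * S.bz φ ψ Om (zpt ψ x) w) ^ 2 := by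
        intro w
        unfold Setup.TR pp
        rw [norm_smul, Complex.norm_real, hV.v_n _ h2, norm_smul, Real.norm_eq_abs, abs_mul, abs_mul,
          pow_one]
        have h6 : |c (‖w‖ ^ 2 / (ε * R) ^ 2)| ≤ 1 := by
          rw [abs_of_nonneg (hc.bd _).1]
          exact (hc.bd _).2
        have h7 : |c (‖w‖ ^ 2 / (ε * R) ^ 2)| ^ 2 ≤ 1 := pow_le_one₀ (abs_nonneg _) h6
        have h8 : 0 ≤ (‖w‖ * |(Real.sqrt R ^ (9 * r))⁻¹| * |S.bz φ ψ Om (zpt ψ x) w| *
            ‖ζ (R⁻¹ • zpt ψ x)‖ * ‖Φ (spt ψ x)‖) ^ 2 := by positivity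
        have h9 := mul_le_mul_of_nonneg_left h7 h8
        calc _ = (‖w‖ * |(Real.sqrt R ^ (9 * r))⁻¹| * |S.bz φ ψ Om (zpt ψ x) w| *
            ‖ζ (R⁻¹ • zpt ψ x)‖ * ‖Φ (spt ψ x)‖) ^ 2 * |c (‖w‖ ^ 2 / (ε * R) ^ 2)| ^ 2 := by ring
          _ ≤ _ := h9
          _ = _ := by
            rw [mul_one, mul_pow, mul_pow, mul_pow, mul_pow, sq_abs, sq_abs]
            ring
      have h10 : ∫ w : Wsp dm, (‖w‖ * ‖S.TR φ ψ Om V c ε R (pp ζ Φ) x w‖) ^ 2 ≤
          ∫ w : Wsp dm, (((Real.sqrt R ^ (9 * r))⁻¹) ^ 2 * ‖ζ (R⁻¹ • zpt ψ x)‖ ^ 2 *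
            ‖Φ (spt ψ x)‖ ^ 2) * (‖w‖ ^ 1 * S.bz φ ψ Om (zpt ψ x) w) ^ 2 :=
        integral_mono_of_nonneg (Filter.Eventually.of_forall fun w => sq_nonneg _)
          (h4.const_mul _) (Filter.Eventually.of_forall h5)
      refine h10.trans ?_
      rw [integral_const_mul]
      have h11 : 0 ≤ ((Real.sqrt R ^ (9 * r))⁻¹) ^ 2 * ‖ζ (R⁻¹ • zpt ψ x)‖ ^ 2 *
            ‖Φ (spt ψ x)‖ ^ 2 := by positivity
      refine (mul_le_mul_of_nonneg_left h3 h11).trans (le_of_eq ?_)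
      rw [pow_one]
      ring
  have h1 := integral_mono hfi.integral_prod_left (dcm_int' ψ hGi hHi) key
  refine h1.trans (le_of_eq ?_)
  rw [dcm_int ψ hGc hHc, integral_const_mul]
  have h2 := dcm_sc (r := r) (ζ := ζ) hR
  rw [← h2]
  unfold nsq
  ring

theorem dcm_zero (Y : Cfg dh) (ε R : ℝ) : Tst2 (fun (_ : Cfg dh) (_ : Wsp dm) => (0 : F)) ∧
    Sup2 Y ε R (fun (_ : Cfg dh) (_ : Wsp dm) => (0 : F)) :=
  ⟨⟨contDiff_const, HasCompactSupport.zero⟩, fun _ _ h => absurd rfl h⟩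

/-- **E-DecM** -/
theorem decM (S : Setup d F) (φ : Spl dh dm d) (ψ : Spl r ds dh) (hTR : TRStmt S φ ψ) :
    DecMStmt S φ ψ := by
  intro N μ hμ hF hφ hcn U Om V K hV y₀ ε0 C0 hy hε0 hC0 hB hCf c hc ε hε hle ζ hζ hζs
  obtain ⟨Z, hZ⟩ : ∃ Z : ℝ, Z = ∫ y, ‖ζ y‖ ^ 2 := ⟨_, rfl⟩
  have hZ0 : 0 ≤ Z := by
    rw [hZ]
    exact integral_nonneg fun y => by positivity
  obtain ⟨k, hk⟩ : ∃ k : ℝ, k = dcmK S φ ψ N := ⟨_, rfl⟩
  have hk0 : 0 ≤ k := hk ▸ dcmK_nonneg S φ ψ N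
  have hCnn : 0 ≤ 2 * μ ^ 2 * k ^ 2 * Z * (1 + C0) := by positivity
  refine ⟨2 * μ ^ 2 * k ^ 2 * Z * (1 + C0), hCnn, ?_⟩
  intro R η hR hη hηε Φ hΦ β
  have hR0 : 0 < R := by linarith
  obtain ⟨t1, t2, t3, t4⟩ := hTR hφ hcn U Om V K hV y₀ ε0 C0 hε0 hB c hc ε hε hle ζ hζ hζs R η hR
    hη hηε Φ hΦ
  have hW := dcm_W S φ ψ hV hB hc hε hle hζ hζs hR hΦ.tst t1
  rw [← hZ] at t4 hW
  obtain ⟨T, hT⟩ : ∃ T : Cfg dh → Wsp dm → F, T = S.TR φ ψ Om V c ε R (pp ζ Φ) := ⟨_, rfl⟩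
  rw [← hT] at t1 t2 t3 t4 hW
  obtain ⟨X, hX⟩ : ∃ X : Cfg dh → Wsp dm → F,
    X = fun x w => ((μ / R ^ 2 : ℝ) : ℂ) • dcmX S φ ψ N β x w (T x w) := ⟨_, rfl⟩
  have hX0 : ∀ x w, X x w ≠ 0 → T x w ≠ 0 := by
    intro x w h1 h2
    apply h1
    rw [hX]
    simp [dcmX, h2]
  have hXt : Tst2 X := by
    refine ⟨?_, t1.2.mono fun p hp => ?_⟩
    · rw [hX]
      exact (dcmX_cd S φ ψ N β t1.1).const_smul ((μ / R ^ 2 : ℝ) : ℂ)
    · exact hX0 p.1 p.2 hp
  have hnq : 0 ≤ nsq Φ := integral_nonneg fun y => by positivity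
  have hpd : 0 ≤ ∑ i, ∑ A, nsq (pd i A Φ) :=
    Finset.sum_nonneg fun i _ => Finset.sum_nonneg fun A _ => integral_nonneg fun y => by positivity
  obtain ⟨z1, z2⟩ := dcm_zero (dm := dm) (F := F) (cmb ψ y₀ 0) ε R
  refine ⟨X, fun _ _ => 0, fun _ _ => 0, hXt, z1, z1, fun x w h => t2 x w (hX0 x w h), z2, z2,
    ?_, ?_, ?_, ?_, ?_, ?_, ?_⟩
  · intro x w
    beta_reduce
    rw [dcm_main S φ ψ N μ β Om V c ε R (pp ζ Φ) x w, ← hT, dcm_Mh, smul_add, hX, add_zero,
      add_zero]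
    by_cases hz : ζ (R⁻¹ • zpt ψ x) = 0
    · right
      simp [pp, hz]
    · left
      intro α A v
      exact hV.v_th _ (hB.inU R hR0 _ (dcm_in hε hle hR hζs hz)) α A v
  · have hTi : Integrable (fun p : Cfg dh × Wsp dm => ‖T p.1 p.2‖ ^ 2)
        ((volume : Measure (Cfg dh)).prod (volume : Measure (Wsp dm))) := by
      refine (t1.1.continuous.norm.pow 2).integrable_of_hasCompactSupport (t1.2.mono ?_)
      intro p hp
      simp only [Function.mem_support] at hp ⊢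
      intro h0
      exact hp (by simp [h0])
    have hWi : Integrable (fun p : Cfg dh × Wsp dm => (‖p.2‖ * ‖T p.1 p.2‖) ^ 2)
        ((volume : Measure (Cfg dh)).prod (volume : Measure (Wsp dm))) := by
      refine ((continuous_snd.norm.mul t1.1.continuous.norm).pow 2).integrable_of_hasCompactSupport
        (t1.2.mono ?_)
      intro p hp
      simp only [Function.mem_support] at hp ⊢
      intro h0
      exact hp (by simp [h0])
    have hpt : ∀ p : Cfg dh × Wsp dm, ‖X p.1 p.2‖ ^ 2 ≤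
        2 * (μ / R ^ 2) ^ 2 * k ^ 2 * ((η * R) ^ 2 * ‖T p.1 p.2‖ ^ 2 +
          (‖p.2‖ * ‖T p.1 p.2‖) ^ 2) := by
      intro p
      by_cases h0 : T p.1 p.2 = 0
      · have : X p.1 p.2 = 0 := by
          by_contra h
          exact hX0 _ _ h h0
        rw [this]
        simp [h0]
      · have h1 := t3 p.1 p.2 h0
        have h2 := dcmX_le S φ ψ N β p.1 p.2 (T p.1 p.2)
        rw [← hk] at h2
        have h3 : ‖X p.1 p.2‖ ≤ (μ / R ^ 2) * (k * (η * R + ‖p.2‖) * ‖T p.1 p.2‖) := by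
          rw [hX]
          change ‖((μ / R ^ 2 : ℝ) : ℂ) • dcmX S φ ψ N β p.1 p.2 (T p.1 p.2)‖ ≤ _
          rw [norm_smul, Complex.norm_real, Real.norm_of_nonneg (by positivity)]
          refine mul_le_mul_of_nonneg_left (h2.trans ?_) (by positivity)
          refine mul_le_mul_of_nonneg_right ?_ (norm_nonneg _)
          exact mul_le_mul_of_nonneg_left (by linarith) hk0
        have h4 := pow_le_pow_left₀ (norm_nonneg _) h3 2
        refine h4.trans ?_
        have h5 : (η * R + ‖p.2‖) ^ 2 ≤ 2 * ((η * R) ^ 2 + ‖p.2‖ ^ 2) := by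
          nlinarith [sq_nonneg (η * R - ‖p.2‖)]
        have h6 : 0 ≤ (μ / R ^ 2) ^ 2 * k ^ 2 * ‖T p.1 p.2‖ ^ 2 := by positivity
        have h7 := mul_le_mul_of_nonneg_left h5 h6
        calc _ = (μ / R ^ 2) ^ 2 * k ^ 2 * ‖T p.1 p.2‖ ^ 2 * (η * R + ‖p.2‖) ^ 2 := by ring
          _ ≤ _ := h7
          _ = _ := by ring
    have h1 : ns2 X ≤ 2 * (μ / R ^ 2) ^ 2 * k ^ 2 * ((η * R) ^ 2 * ns2 T +
        ∫ p, (‖p.2‖ * ‖T p.1 p.2‖) ^ 2
          ∂((volume : Measure (Cfg dh)).prod (volume : Measure (Wsp dm)))) := by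
      have h2 := integral_mono_of_nonneg (μ := (volume : Measure (Cfg dh)).prod
        (volume : Measure (Wsp dm))) (f := fun p : Cfg dh × Wsp dm => ‖X p.1 p.2‖ ^ 2)
        (Filter.Eventually.of_forall fun p => sq_nonneg _)
        (((hTi.const_mul ((η * R) ^ 2)).add hWi).const_mul (2 * (μ / R ^ 2) ^ 2 * k ^ 2))
        (Filter.Eventually.of_forall hpt)
      refine h2.trans (le_of_eq ?_)
      rw [integral_const_mul]
      congr 1
      have h3 := integral_add (hTi.const_mul ((η * R) ^ 2)) hWi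
      rw [integral_const_mul] at h3
      exact h3
    have h2 : (η * R) ^ 2 * ns2 T + ∫ p, (‖p.2‖ * ‖T p.1 p.2‖) ^ 2
          ∂((volume : Measure (Cfg dh)).prod (volume : Measure (Wsp dm))) ≤
        R ^ 2 * (1 + C0) * Z * (η ^ 2 + 1 / R) * nsq Φ := by
      have h3 : (η * R) ^ 2 * ns2 T ≤ (η * R) ^ 2 * (Z * nsq Φ) :=
        mul_le_mul_of_nonneg_left t4 (by positivity)
      have h4 : 0 ≤ Z * nsq Φ := mul_nonneg hZ0 hnq
      have h5 : (1 : ℝ) ≤ R ^ 2 := one_le_pow₀ hR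
      have h6 : 0 ≤ 1 / R := by positivity
      have h7 : 0 ≤ (R ^ 2 - 1) * (C0 * (1 / R) * (Z * nsq Φ)) :=
        mul_nonneg (by linarith) (by positivity)
      have h8 : 0 ≤ R ^ 2 * (C0 * η ^ 2 + 1 / R) * (Z * nsq Φ) := by positivity
      nlinarith
    have h3 : R ^ 2 * ns2 X ≤ 2 * μ ^ 2 * k ^ 2 * Z * (1 + C0) * (η ^ 2 + 1 / R) * nsq Φ := by
      have h4 := h1.trans (mul_le_mul_of_nonneg_left h2 (by positivity))
      have h5 := mul_le_mul_of_nonneg_left h4 (sq_nonneg R)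
      refine h5.trans (le_of_eq ?_)
      field_simp
    refine h3.trans ?_
    rw [mul_assoc]
    refine mul_le_mul_of_nonneg_left ?_ hCnn
    have h4 : 0 ≤ 1 / R := by positivity
    have h5 := mul_nonneg h4 hpd
    linarith
  · have : ns2 (fun (_ : Cfg dh) (_ : Wsp dm) => (0 : F)) = 0 := by simp [ns2]
    rw [this, mul_zero]
    exact mul_nonneg hCnn hnq
  · intro x w h
    exact absurd rfl h
  · have : ∀ x, vc S φ ψ Om (fun (_ : Cfg dh) (_ : Wsp dm) => (0 : F)) x = 0 := by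
      intro x
      simp [vc]
    simp only [this]
    simp only [norm_zero, ne_eq, OfNat.ofNat_ne_zero, not_false_eq_true, zero_pow, integral_zero,
      mul_zero]
    have : 0 ≤ 1 / R := by positivity
    exact mul_nonneg (div_nonneg hCnn hR0.le) hnq
  · intro x w
    simp
  · have : ns2 (fun (_ : Cfg dh) (_ : Wsp dm) => (0 : F)) = 0 := by simp [ns2]
    rw [this]
    positivity

end Vale.Agent.P353.Z.AE
end
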