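import Mathlib
import Vale.Agent.P353.BdZ.B5
import Vale.Agent.P353.BdZ.B2
import Vale.Agent.P353.BdZ.B17

set_option linter.all false

section

/-! # P353, all `N`, block H (counting): definitions

`InvP P` = gauge invariant test functions that are also invariant under the rotations in the planes `P k l`.
`P = pl0` (empty): `GInv`. `P = plT`: the four commuting planes `(1,2),(3,4),(5,6),(7,8)`. `P = Same`: the library's `Inv`. -/

open MeasureTheory Filter Topology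
open scoped ContDiff

namespace Vale.Agent.P353.Z

variable {d : ℕ} {F : Type*} [NormedAddCommGroup F] [InnerProductSpace ℂ F]

/-- the four commuting planes (ordered pairs) -/
def plT (k l : Fin 9) : Prop := k ≠ 0 ∧ l = U.pt k

/-- the `L²` pairing -/
noncomputable def ipr (f g : Cfg d → F) : ℂ := ∫ x, inner ℂ (f x) (g x)

namespace Setup

variable (S : Setup d F)

/-- gauge invariant test functions, invariant under the rotations in the planes `P` -/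
def InvP (P : Fin 9 → Fin 9 → Prop) (u : Cfg d → F) : Prop :=
  Tst u ∧ (∀ C x, S.G C u x = 0) ∧ ∀ k l, P k l → ∀ x, S.J k l u x = 0

/-- gauge invariant test functions -/
def GInv (u : Cfg d → F) : Prop := Tst u ∧ ∀ C x, S.G C u x = 0

/-- `k` dimensional low energy space of `InvP P` functions -/
def LowP (P : Fin 9 → Fin 9 → Prop) (k : ℕ) (m c : ℝ) : Prop :=
  ∃ u : Fin k → Cfg d → F, (∀ j, S.InvP P (u j)) ∧ ∀ a : Fin k → ℂ, a ≠ 0 →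
    ∑ β, nsq (S.Qm m β (fun x => ∑ j, a j • u j x)) < c * nsq (fun x => ∑ j, a j • u j x)

/-- energy `∑_β ‖Q_β u‖²` -/
noncomputable def en (m : ℝ) (u : Cfg d → F) : ℝ := ∑ β, nsq (S.Qm m β u)

end Setup

/-- **Profile system** at infinity: for every cluster type `i` (a partition of `N` with at least two parts) a Hilbert space `H i` of
profiles (`L²` functions on `ℝ^9 ⊗ 𝔷` with values in the fibre, symmetric under the exchange of equal blocks), a dense submodule `D i` of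
test profiles (smooth, supported off the collisions), the free BMN supercharges `Ds i β` of mass `1`, the ground state `g i`
(Gaussian times vacuum vector) and the trial map `J i R a ∈ GInv` at scale `R = m^{-1/2}` (defined for `R ≥ R₀(a)`).
No linearity of `J i R` is required: it follows asymptotically from `gram`. -/
structure Prof {d : ℕ} {F : Type*} [NormedAddCommGroup F] [InnerProductSpace ℂ F] (S : Setup d F) (ι : Type) where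
  H : ι → Type
  [ng : ∀ i, NormedAddCommGroup (H i)]
  [ips : ∀ i, InnerProductSpace ℂ (H i)]
  [cs : ∀ i, CompleteSpace (H i)]
  D : ∀ i, Submodule ℂ (H i)
  Ds : ∀ i, Fin 16 → D i → D i
  g : ∀ i, H i
  J : ∀ i, ℝ → D i → Cfg d → F
  dense : ∀ i, Dense (D i : Set (H i))
  g_norm : ∀ i, ‖g i‖ = 1
  /-- (F) the ground state is a zero mode, weakly off the collisions -/
  Ds_g : ∀ i β (a : D i), inner ℂ (Ds i β a : H i) (g i) = 0
  /-- (F) the weak joint kernel is spanned by the ground state -/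
  ker : ∀ i (w : H i), (∀ β (a : D i), inner ℂ (Ds i β a : H i) w = 0) → ∃ c : ℂ, w = c • g i
  /-- (F) resolvent equation: `D_β w = v_β`, `∑_β D_β v_β = 16 (s - w)` weakly off the collisions give `‖w‖ ≤ ‖s‖` -/
  res : ∀ i (w s : H i) (v : Fin 16 → H i),
    (∀ β (a : D i), inner ℂ (Ds i β a : H i) w = inner ℂ (a : H i) (v β)) →
    (∀ a : D i, ∑ β, inner ℂ (Ds i β a : H i) (v β) = 16 * inner ℂ (a : H i) (s - w)) → ‖w‖ ≤ ‖s‖
  /-- the trial functions are gauge invariant test functions -/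
  J_inv : ∀ i (a : D i), ∀ᶠ R in atTop, S.GInv (J i R a)
  /-- they live at distances of order `R` -/
  J_supp : ∀ i (a : D i), ∃ c : ℝ, 0 < c ∧ ∀ᶠ R in atTop, ∀ x : Cfg d, ‖x‖ ≤ c * R → J i R a x = 0
  /-- (J1) asymptotic isometry -/
  gram : ∀ i (a b : D i), Tendsto (fun R => ipr (J i R a) (J i R b)) atTop (𝓝 (inner ℂ (a : H i) (b : H i)))
  /-- (J2) different types are asymptotically orthogonal -/
  orth : ∀ i j, i ≠ j → ∀ (a : D i) (b : D j), Tendsto (fun R => ipr (J i R a) (J j R b)) atTop (𝓝 0)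

attribute [instance] Prof.ng Prof.ips Prof.cs

namespace Prof

variable {S : Setup d F} {ι : Type} (P : Prof S ι)

/-- bounded sequences at scale `R n → ∞` (mass `m = R^{-2}`) -/
structure Bdd (S : Setup d F) (R : ℕ → ℝ) (Ψ : ℕ → Cfg d → F) (C : ℝ) : Prop where
  R_lim : Tendsto R atTop atTop
  inv : ∀ n, S.GInv (Ψ n)
  norm : ∀ n, nsq (Ψ n) ≤ C
  energy : ∀ n, R n ^ 2 * S.en ((R n)⁻¹ ^ 2) (Ψ n) ≤ C

/-- **(E) limit equation**: `⟨J_R a, R Q_β Ψ_R⟩ - ⟨J_R (D_β a), Ψ_R⟩ → 0` for bounded sequences -/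
def LimEq : Prop := ∀ (R : ℕ → ℝ) (Ψ : ℕ → Cfg d → F) (C : ℝ), Bdd S R Ψ C → ∀ i β (a : P.D i),
  Tendsto (fun n => (R n : ℂ) * ipr (P.J i (R n) a) (S.Qm ((R n)⁻¹ ^ 2) β (Ψ n)) -
    ipr (P.J i (R n) (P.Ds i β a)) (Ψ n)) atTop (𝓝 0)

/-- **(NL) no loss**: a bounded sequence (tight at scale `R` because of the mass terms) without profiles at scale `R` and without local
limit tends to `0` -/
def NoLoss : Prop := ∀ (R : ℕ → ℝ) (Ψ : ℕ → Cfg d → F) (C : ℝ), Bdd S R Ψ C →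
  (∀ i (a : P.D i), Tendsto (fun n => ipr (P.J i (R n) a) (Ψ n)) atTop (𝓝 0)) →
  (∀ ζ : Cfg d → F, Setup.Tst ζ → Tendsto (fun n => ipr ζ (Ψ n)) atTop (𝓝 0)) →
  Tendsto (fun n => nsq (Ψ n)) atTop (𝓝 0)

end Prof

end Vale.Agent.P353.Z
end

section

/-! # P353, all `N`, block G (`c_N ≥ p(N)`): definitions

Haar measure on `SU(N)`, averages, trial functions around a zero `ξ` of `V_1`. -/

open MeasureTheory Filter Topology
open scoped ContDiff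

namespace Vale.Agent.P353.AN.G

open Vale.Agent.P353.Z Vale.Agent.P353.Z.U

section Haar

variable (N : ℕ)

noncomputable instance : MeasurableSpace (BFSS.SU N) := borel _
instance : BorelSpace (BFSS.SU N) := ⟨rfl⟩

theorem matSecond : SecondCountableTopology (Matrix (Fin N) (Fin N) ℂ) :=
  inferInstanceAs (SecondCountableTopology (Fin N → Fin N → ℂ))

instance : SecondCountableTopology (BFSS.SU N) := by
  have := matSecond N
  exact TopologicalSpace.Subtype.secondCountableTopology _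

instance : IsTopologicalGroup (BFSS.SU N) where
  continuous_mul := by
    refine Continuous.subtype_mk ?_ _
    exact (continuous_subtype_val.comp continuous_fst).mul
      (continuous_subtype_val.comp continuous_snd)
  continuous_inv := by
    refine Continuous.subtype_mk ?_ _
    exact Continuous.star continuous_subtype_val

instance : CompactSpace (BFSS.SU N) := by
  refine isCompact_iff_compactSpace.1 ?_
  have h1 : IsClosed {U : Matrix (Fin N) (Fin N) ℂ | U ∈ Matrix.specialUnitaryGroup (Fin N) ℂ} := by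
    have : {U : Matrix (Fin N) (Fin N) ℂ | U ∈ Matrix.specialUnitaryGroup (Fin N) ℂ} =
        {U | U * star U = 1} ∩ {U | U.det = 1} := by
      ext U
      simp only [Set.mem_ofPred_eq, Set.mem_inter_iff, Matrix.mem_specialUnitaryGroup_iff,
        Matrix.mem_unitaryGroup_iff]
    rw [this]
    exact (isClosed_eq (continuous_id.mul continuous_star) continuous_const).inter
      (isClosed_eq (Continuous.matrix_det continuous_id) continuous_const)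
  have h2 : {U : Matrix (Fin N) (Fin N) ℂ | U ∈ Matrix.specialUnitaryGroup (Fin N) ℂ} ⊆
      Set.pi Set.univ fun _ => Set.pi Set.univ fun _ => Metric.closedBall (0 : ℂ) 1 := by
    intro U hU i _ j _
    rw [mem_closedBall_zero_iff]
    exact entry_norm_bound_of_unitary (Matrix.mem_specialUnitaryGroup_iff.1 hU).1 i j
  exact (isCompact_univ_pi fun _ => isCompact_univ_pi fun _ =>
    isCompact_closedBall (0 : ℂ) 1).of_isClosed_subset h1 h2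

/-- normalised Haar measure on `SU(N)` -/
noncomputable def hm : Measure (BFSS.SU N) := Measure.haarMeasure ⊤

instance : (hm N).IsHaarMeasure := by unfold hm; infer_instance

instance : IsProbabilityMeasure (hm N) := ⟨by
  have := Measure.haarMeasure_self (K₀ := (⊤ : TopologicalSpace.PositiveCompacts (BFSS.SU N)))
  simpa [hm] using this⟩

instance : (hm N).IsMulLeftInvariant := by unfold hm; infer_instance
instance : (hm N).IsMulRightInvariant := ⟨fun g => by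
  have h1 : (Measure.map (· * g) (hm N)).IsHaarMeasure := Measure.isHaarMeasure_map_mul_right _ g
  have h2 : IsProbabilityMeasure (Measure.map (· * g) (hm N)) :=
    Measure.isProbabilityMeasure_map (measurable_mul_const g).aemeasurable
  exact Measure.isHaarMeasure_eq_of_isProbabilityMeasure _ _⟩

instance : (hm N).IsInvInvariant := ⟨by
  have h1 : (hm N).inv.IsMulLeftInvariant := inferInstance
  have h2 : IsProbabilityMeasure (hm N).inv :=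
    Measure.isProbabilityMeasure_map measurable_inv.aemeasurable
  have h3 : (hm N).inv.IsHaarMeasure :=
    Measure.isHaarMeasure_of_isCompact_nonempty_interior _ Set.univ isCompact_univ
      (by rw [interior_univ]; exact Set.univ_nonempty) (by simp) (by simp)
  exact Measure.isHaarMeasure_eq_of_isProbabilityMeasure _ _⟩

end Haar

section Defs

variable {N d : ℕ} {F : Type*} [NormedAddCommGroup F] [InnerProductSpace ℂ F]

/-- average of an `F`-valued function over `SU(N)`; it satisfies `avg v (U·x) = S(U) avg v (x)` -/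
noncomputable def avg (M : BFSS.Model N d F) (v : Cfg d → F) (x : Cfg d) : F :=
  ∫ U, M.S U (v (M.act U⁻¹ x)) ∂(hm N)

/-- average of a scalar function over `SU(N)` -/
noncomputable def avs (M : BFSS.Model N d F) (φ : Cfg d → ℝ) (x : Cfg d) : ℝ :=
  ∫ U, φ (M.act U⁻¹ x) ∂(hm N)

/-- measure of the set of group elements that move `p` by at most `r` -/
noncomputable def mu (M : BFSS.Model N d F) (p : Cfg d) (r : ℝ) : ℝ :=
  (hm N).real {U | ‖M.act U p - p‖ ≤ r}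

/-- derivative of `W_β + M_β` at `ξ` in direction `x` -/
noncomputable def Lb (S : Setup d F) (ξ : Cfg d) (β : Fin 16) (x : Cfg d) : F →L[ℂ] F :=
  S.MM β x + S.DW ξ β x

/-- fermionic Hamiltonian at `ξ` -/
noncomputable def Hf (S : Setup d F) (ξ : Cfg d) : F →L[ℂ] F := S.Fx ξ - (3 / 4 : ℂ) • S.FG

/-- `E` is the lowest eigenvalue of `Hf S ξ`; it is simple, with unit eigenvector `Ω` -/
structure IsLow (S : Setup d F) (ξ : Cfg d) (E : ℝ) (Ω : F) : Prop where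
  norm : ‖Ω‖ = 1
  eig : Hf S ξ Ω = (E : ℂ) • Ω
  low : ∀ v, E * ‖v‖ ^ 2 ≤ (inner ℂ v (Hf S ξ v)).re
  uniq : ∀ v, Hf S ξ v = (E : ℂ) • v → ∃ c : ℂ, v = c • Ω

/-- `∑ D_{pq} θ_p θ_q` -/
noncomputable def bD (S : Setup d F) (D : Matrix (Fin 16 × Fin d) (Fin 16 × Fin d) ℝ) : F →L[ℂ] F :=
  ∑ p, ∑ q, (D p q : ℂ) • (S.th p.1 p.2 * S.th q.1 q.2)

/-- vector field of `J_{kl} + ∑ a_C G_C`: direction of the first order part at `x` -/
noncomputable def vf (S : Setup d F) (k l : Fin 9) (a : Fin d → ℝ) (x : Cfg d) : Cfg d :=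
  WithLp.toLp 2 fun p => (if p.1 = l then x (k, p.2) else 0) - (if p.1 = k then x (l, p.2) else 0) +
    ∑ C, ∑ A, a C * S.f C A p.2 * x (p.1, A)

/-- smooth cutoff: `1` for `t ≤ 1`, `0` for `4 ≤ t` -/
noncomputable def cut (t : ℝ) : ℝ := Real.smoothTransition ((4 - t) / 3)

/-- rescaled coordinate around `m ξ` -/
noncomputable def om (m : ℝ) (ξ x : Cfg d) : Cfg d := Real.sqrt m • (x - m • ξ)

/-- `⟨ω, Kω⟩` -/
noncomputable def qK (m : ℝ) (ξ : Cfg d) (K : Cfg d →L[ℝ] Cfg d) (x : Cfg d) : ℝ :=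
  inner ℝ (om m ξ x) (K (om m ξ x))

/-- cut off Gaussian -/
noncomputable def ph (m L : ℝ) (ξ : Cfg d) (K : Cfg d →L[ℝ] Cfg d) (x : Cfg d) : ℝ :=
  cut (‖om m ξ x‖ ^ 2 / L ^ 2) * Real.exp (-(1 / 2) * qK m ξ K x)

open Classical in
/-- Gaussian times the indicator of the ball `‖ω‖ ≤ 2L` -/
noncomputable def ph2 (m L : ℝ) (ξ : Cfg d) (K : Cfg d →L[ℝ] Cfg d) (x : Cfg d) : ℝ :=
  if ‖om m ξ x‖ ≤ 2 * L then Real.exp (-(1 / 2) * qK m ξ K x) else 0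

/-- the local trial function -/
noncomputable def tv (m L : ℝ) (ξ : Cfg d) (K : Cfg d →L[ℝ] Cfg d) (Ω : F) (x : Cfg d) : F :=
  ((ph m L ξ K x : ℝ) : ℂ) • Ω

end Defs

end Vale.Agent.P353.AN.G
end

section

/-! # P353, all `N`, block G: `c_N ≥ p(N)` (statements)

Goal: `GStmt M` : the BMN model of `SU(N)` has, for every `m > 0` and `c > 0`, a `p(N)` dimensional space of invariant test
functions with `∑‖Q_βu‖² < c‖u‖²`.
Every `…Stmt` is a proposition; a prover delivers `theorem … : …Stmt …` in a file of its own `Vale/Agent/P353/AN/G/<Name>.lean`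
(other `…Stmt`s that are used are written as hypotheses of the theorem; then nobody waits for anybody).
`[FiniteDimensional ℂ F]` may be assumed everywhere (`finiteDimensional_of_model`). -/

open MeasureTheory Filter Topology
open scoped ContDiff

namespace Vale.Agent.P353.AN.G

open Vale.Agent.P353.Z Vale.Agent.P353.Z.U

universe w

/-! ## Part 1: general facts (no model) -/

/-- **G01 SmInt** smoothness of averages. `X` compact with a finite Borel measure, `s : X → (F₁ →L F₂)`, `ρ : X → (E →L E)`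
continuous in operator norm, `v : E → F₁` smooth. Then `x ↦ ∫ s(a)(v(ρ(a)x)) dμ(a)` is smooth with the expected derivative.
PROOF. `hasFDerivAt_integral_of_dominated_of_fderiv_le` on a ball (bounds: continuity on the compact `X × closedBall`); the
derivative is `∫ s(a)∘v'(ρ(a)x)∘ρ(a)`, of the same form with `F₁' = E →L F₁`, `F₂' = E →L F₂`, `s'(a) = (T ↦ s(a)∘T∘ρ(a))`
(continuous in `a`), `v' = fderiv v`: induction on `n` in `ContDiff ℝ n`. (Everything in one universe.) -/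
def SmIntStmt (X E : Type) [TopologicalSpace X] [CompactSpace X] [SecondCountableTopology X] [MeasurableSpace X]
    [BorelSpace X] [NormedAddCommGroup E] [NormedSpace ℝ E] [FiniteDimensional ℝ E] : Prop :=
  ∀ (μ : Measure X) [IsFiniteMeasure μ] (ρ : X → E →L[ℝ] E), Continuous ρ →
  ∀ (F₁ F₂ : Type w) [NormedAddCommGroup F₁] [NormedSpace ℝ F₁] [FiniteDimensional ℝ F₁]
    [NormedAddCommGroup F₂] [NormedSpace ℝ F₂] [FiniteDimensional ℝ F₂]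
    (s : X → F₁ →L[ℝ] F₂), Continuous s → ∀ v : E → F₁, ContDiff ℝ ∞ v →
  ContDiff ℝ ∞ (fun x => ∫ a, s a (v (ρ a x)) ∂μ) ∧
    ∀ x w, fderiv ℝ (fun x => ∫ a, s a (v (ρ a x)) ∂μ) x w =
      ∫ a, s a (fderiv ℝ v (ρ a x) (ρ a w)) ∂μ

/-- **G02 SqComm** an operator commuting with the square of a positive symmetric operator `K` commutes with `K`.
PROOF. `D = XK - KX` satisfies `KD + DK = XK² - K²X + … = 0` (expand: `KXK - K²X + XK² - KXK = 0`). Eigenbasis of `K`: if `Kx = λx`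
then `K(Dx) = -λDx`; `λ > 0`: `0 ≤ ⟨Dx,KDx⟩ = -λ|Dx|²` gives `Dx = 0`; `λ = 0`: `Dx = -KXx`, `K(KXx) = 0`, so `|KXx|² = ⟨Xx,KKXx⟩ = 0`. -/
def SqCommStmt : Prop := ∀ (E : Type) [NormedAddCommGroup E] [InnerProductSpace ℝ E]
  [FiniteDimensional ℝ E] (K X : E →L[ℝ] E), (∀ x y, inner ℝ (K x) y = inner ℝ x (K y)) →
  (∀ x, 0 ≤ inner ℝ x (K x)) → (∀ x, X (K (K x)) = K (K (X x))) → ∀ x, X (K x) = K (X x)

/-- **G03 Cas** the nonzero eigenvalues of the Casimir of a real representation of `so(3)` are `≥ 3/4`.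
PROOF. Complexify: `h = 2iD_2`, `e = iD_0 - D_1`, `f = iD_0 + D_1` (signs as needed) is an `sl₂` triple on `E = EuclideanSpace ℂ (Fin d)`
(`Cnt.HTr`, or `Cnt.JT` for the Hermitian matrices `J_k = ±iD_k`: `[J_i,J_j] = iJ_k`, `Cnt.JT.htr`). The eigenspace of the Casimir `J_0²+J_1²+J_2²`
with eigenvalue `c` is invariant and nonzero; `Cnt.exists_hw` gives a highest weight vector in it with weight `n ∈ ℕ`, and
`J² = (h/2)² + h/2 + f e` gives `c = (n/2)(n/2+1)`, which is `0` or `≥ 3/4`. -/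
def CasStmt (d : ℕ) : Prop := ∀ D : Fin 3 → Matrix (Fin d) (Fin d) ℝ,
  (∀ k, (D k).transpose = -D k) → (∀ k, D (k + 1) * D (k + 2) - D (k + 2) * D (k + 1) = D k) →
  ∀ (c : ℝ) (v : Fin d → ℝ), v ≠ 0 → -(∑ k, (D k * D k).mulVec v) = c • v → c = 0 ∨ 3 / 4 ≤ c

/-- **G04 Gap3** `|w|² ≤ 4|w - D×w|²` if `D·w = 0`.
PROOF. `(𝒟w)_k = D_{k+1}w_{k+2} - D_{k+2}w_{k+1}` is symmetric, preserves `X = {D·w = 0}` and on `X` `𝒟²w - 𝒟w = Cw`, `C = -∑D_k²`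
componentwise (`hes_core`). On an eigenvector `𝒟w = yw`, `w ∈ X`: `C w_k = (y²-y)w_k`, some `w_k ≠ 0`, so by G03 `y²-y = 0` or
`≥ 3/4`. If `y² - y = 0`: `∑_i|D_iw_k|² = ⟨w_k,Cw_k⟩ = 0`, so `𝒟w = 0`, `y = 0`, `|1-y| = 1`. If `y²-y ≥ 3/4`: `y ≥ 3/2` or `y ≤ -1/2`. So
`|1-y| ≥ 1/2` for all eigenvalues of the symmetric operator `𝒟|_X`; diagonalise. -/
def Gap3Stmt (d : ℕ) : Prop := ∀ D : Fin 3 → Matrix (Fin d) (Fin d) ℝ,
  (∀ k, (D k).transpose = -D k) → (∀ k, D (k + 1) * D (k + 2) - D (k + 2) * D (k + 1) = D k) →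
  ∀ w : Fin 3 → Fin d → ℝ, ∑ k, (D k).mulVec (w k) = 0 →
  ∑ k, ∑ A, w k A ^ 2 ≤
    4 * ∑ k, ∑ A, (w k A - ((D (k + 1)).mulVec (w (k + 2)) A - (D (k + 2)).mulVec (w (k + 1)) A)) ^ 2

/-- **G05 Rep** for every partition an angular momentum triple; different partitions give inequivalent triples.
PROOF. Spin matrices on `Fin n`: `J_z = diag((n-1)/2 - k)`, `J_+e_{k+1} = √((k+1)(n-1-k)) e_k`, `J_- = J_+^*`, `J_0 = (J_++J_-)/2`,
`J_1 = (J_+-J_-)/(2i)`, `J_2 = J_z`; `[J_+,J_-] = 2J_z`, `[J_z,J_±] = ±J_±`. Block diagonal over the parts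
(`Matrix.blockDiagonal'`, reindexed by an equivalence `(Σ i : Fin (#parts), Fin (part i)) ≃ Fin N`).
If `J' = VJV*` then `J_2`, `J_2'` have the same eigenvalue multiplicities (same characteristic polynomial); `J_2` is diagonal and the
multiplicity of the eigenvalue `s/2` minus that of `s/2+1` (`s ≥ 0`) is the number of parts equal to `s+1`. -/
def RepStmt (N : ℕ) : Prop := ∃ J : Nat.Partition N → Fin 3 → Matrix (Fin N) (Fin N) ℂ,
  (∀ π, Cnt.JT (J π)) ∧ ∀ π π' (V : BFSS.SU N),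
    (∀ k, J π' k = V.val * J π k * V.val.conjTranspose) → π = π'

section S

variable {d : ℕ} {F : Type*} [NormedAddCommGroup F] [InnerProductSpace ℂ F]

/-! ## Part 2: the Hessian and the fermions at a zero `ξ` of `V_1` -/

/-- **G06 PerpK** the gauge directions are in the kernel of `K` (so `Perp ξ (Kx)` for all `x`).
PROOF. `τ_C = (i,B) ↦ ∑_A f_{CAB}ξ_i^A` satisfies `hq ξ τ_C = 0` (Jacobi: `LG ξ k A τ_C = ` gauge rotation of `GG 1 k · ξ = 0`, `LF ξ A i j τ_C = ` gauge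
rotation of `FF · i j ξ`, which is `0` unless `i,j ∈ I3`; `τ_C` vanishes on `I6`), so `‖Kτ_C‖² = 2hq = 0` and `⟨τ_C,Kx⟩ = ⟨Kτ_C,x⟩ = 0`. -/
def PerpKStmt (S : Setup d F) : Prop := ∀ ξ : Cfg d, S.Vm 1 ξ = 0 → ∀ K : Cfg d →L[ℝ] Cfg d, S.IsK ξ K →
  ∀ x, S.Perp ξ (K x)

/-- **G07 Gap** `|x|² ≤ |Kx|²` orthogonally to the gauge directions. PROOF. `‖Kx‖² = 2hq ξ x ≥ ∑_{k,A}LG² + ∑_{I6}x²`,
`LG ξ k A x = 2(x_k - (D×x)_k)^A` with `D_k = hesD S ξ k` (`hesD_mulVec`, `hesD_transpose`, `hesD_comm`, `hes_perp`), and G04. -/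
def GapStmt (S : Setup d F) : Prop := ∀ ξ : Cfg d, S.Vm 1 ξ = 0 → ∀ K : Cfg d →L[ℝ] Cfg d, S.IsK ξ K →
  ∀ x, S.Perp ξ x → ‖x‖ ^ 2 ≤ ‖K x‖ ^ 2

/-- **G08 Tan** `L_β(a) = 0` if `Ka = 0`. PROOF. `‖Ka‖² = 2hq ξ a = 0`, and `∑_β Lb_β(a)² = 16 hq ξ a` (`Z/U/En.lean`: `TT_N1c`, `N1c_sq`), each
`Lb_β(a)` is self-adjoint (`TT_symm`), so `∑_β‖Lb_β(a)v‖² = 0`. Or directly: all squares in `hq` vanish and `Lb_β(a)` is a linear combination
of `LG ξ k A a`, `a_i (i ∈ I6)`, `LF ξ A i j a` (not both in `I3`). -/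
def TanStmt (S : Setup d F) : Prop := ∀ ξ : Cfg d, S.Vm 1 ξ = 0 → ∀ K : Cfg d →L[ℝ] Cfg d, S.IsK ξ K →
  ∀ a, K a = 0 → ∀ β, Lb S ξ β a = 0

/-- **G09 LinN** `[H_f, N_β(a)] = iL_β(a) - (i/2)(ΓN(a))_β` for `Perp ξ a`; `N_β(a) = a_i^A(γ^iθ^A)_β = S.B β a`.
PROOF. Apply `A4Stmt` (`m = 1`) to `u(x) = ⟨a,x-ξ⟩φ` at `x = ξ` (`V_1`, `dV_1`, `W_β+M_β` vanish at `ξ`, `CritStmt`): `Q_αu(x) = -iN_α(a)φ + (W+M)_α(x)⟨a,x-ξ⟩φ`;
`H(Q_αu)(ξ) = -L_α(a)φ - iH_fN_α(a)φ` (`W+M` is harmonic, `-½Δ` of the product is `-∇(W+M)·a`); `Q_α(Hu)(ξ) = -iN_α(a)H_fφ`; right side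
`-(i/2)∑Γ_{αβ}(-iN_β(a)φ)`, and `G_Cu(ξ) = -i∑f_{CAB}ξ_i^Aa_i^Bφ = 0`. (`dV_1(ξ) = 0`: `V_1 ≥ 0`, or `SqStmt`.) -/
def LinNStmt (S : Setup d F) : Prop := ∀ ξ : Cfg d, S.Vm 1 ξ = 0 → ∀ a, S.Perp ξ a → ∀ (β : Fin 16) (v : F),
  Hf S ξ (S.B β a v) - S.B β a (Hf S ξ v) =
    Complex.I • Lb S ξ β a v - (Complex.I / 2) • ∑ γ, S.Gam β γ • S.B γ a v

/-- **G10 LinL** `[H_f, L_β(a)] = -iN_β(K²a) - (i/2)(ΓL(a))_β` for all `a`.
PROOF. Apply `A4Stmt` (`m = 1`) to the constant function `u = φ` at `x = ξ + ta` and differentiate at `t = 0`: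
`H(Q_αu)(x) = (V_1(x)+Fx x-¾FG)(W+M)_α(x)φ`; `Q_α(Hu)(x) = -i(γ^iθ^A)_α(∂_i^AV_1(x)+Fx(e_{iA}))φ + (W+M)_α(x)(V_1(x)+Fx x-¾FG)φ`;
right side `-(i/2)∑Γ_{αβ}(W+M)_β(x)φ - iκ∑θ_α^C𝒮_Cφ`. At `ξ`: `W+M = 0`, `V_1 = 0`, `dV_1 = 0`, Hessian of `V_1` = `K²` (`V_1(ξ+w) = hq ξ w + O(|w|³)`,
`⟨Kx,Ky⟩` = polarisation of `hq`). -/
def LinLStmt (S : Setup d F) : Prop := ∀ ξ : Cfg d, S.Vm 1 ξ = 0 → ∀ K : Cfg d →L[ℝ] Cfg d, S.IsK ξ K →
  ∀ (a : Cfg d) (β : Fin 16) (v : F), Hf S ξ (Lb S ξ β a v) - Lb S ξ β a (Hf S ξ v) =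
    -(Complex.I • S.B β (K (K a)) v) - (Complex.I / 2) • ∑ γ, S.Gam β γ • Lb S ξ γ a v

/-- **G11 LowEx** the lowest eigenvalue of `H_f` is simple. PROOF. `H_f` is self-adjoint on the finite dimensional `F ≠ 0`
(`InvStmt`: `H_f = i∑R_{pq}θ_pθ_q`); let `E` be its smallest eigenvalue; apply `QuaStmt` with `c₀ = -E`. -/
def LowExStmt (S : Setup d F) : Prop := S.Irr → (∃ v : F, v ≠ 0) → ∀ ξ : Cfg d, S.Vm 1 ξ = 0 →
  ∃ (E : ℝ) (Ω : F), IsLow S ξ E Ω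

/-- **G12 Kill** `L_β(x)Ω + iN_β(Kx)Ω = 0` for all `x`. PROOF. By linearity and an orthonormal eigenbasis of the symmetric `K` it is enough to
take `Kx = ωx`. If `ω = 0`: G08. If `ω ≠ 0` (`ω > 0`): `x = K(x/ω)` is `Perp` (G06), so `ω² ≥ 1` (G07). `B_β = L_β(x)+iωN_β(x)` satisfies by G09, G10
`[H_f,B_β] = -ωB_β - (i/2)∑Γ_{βγ}B_γ`. For `s = ±1` put `B^s_β = B_β + s i∑Γ_{βγ}B_γ` (`(iΓ)² = 1`): `[H_f,B^s_β] = -(ω+s/2)B^s_β`, so
`H_f(B^s_βΩ) = (E-ω-s/2)B^s_βΩ` with `ω+s/2 ≥ 1/2 > 0`: `B^s_βΩ = 0` (`low`), and `2B_β = B^+_β + B^-_β`. -/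
def KillStmt (S : Setup d F) : Prop := ∀ ξ : Cfg d, S.Vm 1 ξ = 0 → ∀ K : Cfg d →L[ℝ] Cfg d, S.IsK ξ K →
  ∀ (E : ℝ) (Ω : F), IsLow S ξ E Ω → ∀ (β : Fin 16) (x : Cfg d),
    Lb S ξ β x Ω + Complex.I • S.B β (K x) Ω = 0

/-! ## Part 3: symmetries of the vacuum -/

/-- **G13 VacD** symmetry bilinears kill the vacuum.
PROOF. Index `p = (α,A)`. `H_f = i∑R_{pq}θ_pθ_q`, `R = ∑_{q∈I3}γ^q⊗T_q - ¾Γ⊗1` real antisymmetric invertible (`InvStmt`, `Inv.lean`; `ξ_q = 0` on `I6`),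
`[H_f,θ(z)] = θ(2iRz)`, `θ(z) = ∑z_pθ_p`. `2iR` is Hermitian and invertible, `ℂ^n = E_- ⊕ E_+`; `θ(z)Ω = 0` for `z ∈ E_-` (it lowers the energy).
Put `P_{pq} = ⟨Ω,θ_pθ_qΩ⟩`; `P + Pᵀ = 1`. `Pz = 0` for `z ∈ E_-`. For `z ∈ E_+`: `z̄ ∈ E_-`, so `∑_pz_pP_{pq} = ⟨θ(z̄)Ω,θ_qΩ⟩ = 0`, so `Pz = z`.
`Γ_j = γ^j⊗1` (`j ∈ I6`) is real orthogonal symmetric, `Γ_jRΓ_j = -R` (`γ^j` anticommutes with `γ^q`, `q ∈ I3`, and with `Γ`), so it exchanges `E_±`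
and `Γ_jPΓ_j = 1 - P = Pᵀ`. So `tr(DP) = tr(Γ_jDΓ_jΓ_jPΓ_j) = tr(DPᵀ) = tr(PDᵀ) = -tr(PD)`, `tr(DP) = 0`, `⟨Ω,bD D Ω⟩ = ∑D_{pq}P_{pq} = 0`. Finally
`H_f(bD D Ω) = E·bD D Ω`, so `bD D Ω = λΩ` (`uniq`) and `λ = ⟨Ω,bD D Ω⟩ = 0`. -/
def VacDStmt (S : Setup d F) : Prop := ∀ ξ : Cfg d, S.Vm 1 ξ = 0 → ∀ (E : ℝ) (Ω : F), IsLow S ξ E Ω →
  ∀ D : Matrix (Fin 16 × Fin d) (Fin 16 × Fin d) ℝ, D.transpose = -D →
  (∀ v, Hf S ξ (bD S D v) = bD S D (Hf S ξ v)) → ∀ j : Fin 9, 3 ≤ j.val →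
  (∀ α β A B, ∑ α', ∑ β', (S.g j α α').re * D (α', A) (β', B) * (S.g j β' β).re = D (α, A) (β, B)) →
  bD S D Ω = 0

/-- **G14 HKill** `∑h_C𝒮_CΩ = 0` if `h` commutes with `ξ`. PROOF. `∑h_C𝒮_C = bD D` up to the factor `i`: `D_{(α,A),(β,B)} = -½δ_{αβ}∑_Ch_Cf_{CAB}`
(real antisymmetric; `𝒮_C = -(i/2)∑f_{CDE}θ^D·θ^E`); `γ^jDγ^j = D`. It commutes with `H_f`: `[𝒮_C, Fx ξ] = ` the bilinear `Fx` with `ξ` replaced by its gauge
rotation, `[𝒮_C,FG] = 0`; or: `[G_C,H_m] = 0` from `A3Stmt`, `A7Stmt`, evaluated at `ξ` on a constant function (the vector field of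
`∑h_CG_C` vanishes at `ξ`). Then G13. -/
def HKillStmt (S : Setup d F) : Prop := ∀ ξ : Cfg d, S.Vm 1 ξ = 0 → ∀ (E : ℝ) (Ω : F), IsLow S ξ E Ω →
  ∀ h : Fin d → ℝ, (∀ i B, ∑ C, ∑ A, h C * S.f C A B * ξ (i, A) = 0) → ∑ C, (h C : ℂ) • S.cS C Ω = 0

/-- **G15 Vf** rotations in a block can be compensated by gauge transformations at `ξ`. PROOF. `k,l ∈ I6`: `a = 0` (`ξ_i = 0` on `I6`).
`k,l ∈ I3`, `(k,l,n)` cyclic: `a_C = -(κ/2)ξ_n^C` (and the opposite sign for `(l,k,n)` cyclic): the gauge part of the field at `(i,B)` is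
`∑a_Cf_{CAB}ξ_i^A = -(1/2)F^B_{ni}(ξ)`, `F_{nk} = -2ξ_l`, `F_{nl} = 2ξ_k`. -/
def VfStmt (S : Setup d F) : Prop := ∀ ξ : Cfg d, S.Vm 1 ξ = 0 → ∀ k l : Fin 9, Same k l →
  ∃ a : Fin d → ℝ, vf S k l a ξ = 0

/-- **G16 VfK** the compensated rotation commutes with `K`. PROOF. `X = vf S k l a` is linear antisymmetric with `Xξ = 0`, and the quadratic
form `hq ξ` is infinitesimally invariant under `X` (`hq ξ` is the quadratic part of `w ↦ V_1(ξ+w)`, `V_1` is invariant under the rotations `J_{kl}` of a block and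
gauge rotations: the polarised form satisfies `hq(ξ;Xw,w) = 0`; direct computation from the definition of `hq`, or
from `d/dt V_1(e^{tX}y) = 0`). Since `⟨Kx,Ky⟩` is the polarisation of `2hq`, `⟨KXx,Kx⟩ = 0` for all `x`, so `K²X` is antisymmetric, `K²X = XK²`; G02. -/
def VfKStmt (S : Setup d F) : Prop := ∀ ξ : Cfg d, S.Vm 1 ξ = 0 → ∀ K : Cfg d →L[ℝ] Cfg d, S.IsK ξ K →
  ∀ k l : Fin 9, Same k l → ∀ a : Fin d → ℝ, vf S k l a ξ = 0 → ∀ x, K (vf S k l a x) = vf S k l a (K x)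

/-- **G17 JKill** `(S_{kl} + ∑a_C𝒮_C)Ω = 0`. PROOF. `s = S_{kl}+∑a_C𝒮_C = i·bD D`, `D = -¼γ^{kl}⊗1 - ½1⊗(∑a_Cf_C)` real antisymmetric, `γ^jDγ^j = D` for
`j ∈ I6`, `j ≠ k,l`. `s` commutes with `H_f`: `J_{kl}` and `G_C` commute with `H_1 = (1/16)∑Q_β²` (A2, A3, A7; `∑_β[J,Q_β]Q_β+Q_β[J,Q_β] = 0` by antisymmetry of
`γ^{kl}`); evaluate `(J_{kl}+∑a_CG_C)H_1u = H_1(J_{kl}+∑a_CG_C)u` for the constant function `u = φ` at `ξ` (the vector field vanishes at `ξ`, `V_1(ξ) = 0`).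
Then G13. -/
def JKillStmt (S : Setup d F) : Prop := ∀ ξ : Cfg d, S.Vm 1 ξ = 0 → ∀ (E : ℝ) (Ω : F), IsLow S ξ E Ω →
  ∀ k l : Fin 9, Same k l → ∀ a : Fin d → ℝ, vf S k l a ξ = 0 →
    S.Skl k l Ω + ∑ C, (a C : ℂ) • S.cS C Ω = 0

/-! ## Part 4: the local trial function -/

/-- **G18 TvTst** the trial function is a test function supported in `‖ω‖ ≤ 2L`, and `0 ≤ ph ≤ ph2`, equality for `‖ω‖ ≤ L`. PROOF: `Real.smoothTransition`. -/
def TvTstStmt (d : ℕ) (F : Type*) [NormedAddCommGroup F] [InnerProductSpace ℂ F] : Prop :=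
  ∀ (ξ : Cfg d) (K : Cfg d →L[ℝ] Cfg d) (m L : ℝ), 0 < m → 0 < L →
  (∀ Ω : F, Setup.Tst (tv m L ξ K Ω)) ∧ ContDiff ℝ ∞ (ph m L ξ K) ∧ HasCompactSupport (ph m L ξ K) ∧
  (∀ x, 0 ≤ ph m L ξ K x ∧ ph m L ξ K x ≤ ph2 m L ξ K x) ∧
  (∀ x, ‖om m ξ x‖ ≤ L → ph m L ξ K x = ph2 m L ξ K x) ∧ (∀ x, ph m L ξ K x ≠ 0 → ‖om m ξ x‖ ≤ 2 * L)

/-- **G19 TvQ** local energy bound. PROOF. With `ω = √m(x-mξ)`, `g(ω) = exp(-½⟨ω,Kω⟩)`, `c = cut(‖ω‖²/L²)`: `W_β(x)+mM_β(x) = m²(W_β+M_β)(ξ) + √m Lb_β(ω) + m⁻¹W_β(ω)`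
(`W` quadratic, `M` linear, `CritStmt`), `∂_i^A = √m∂_ω`, so `Q_βtv = √m·c·g·(Lb_β(ω)+iN_β(Kω))Ω + √m·g·(-i)(γθ∇_ωc)_βΩ + m⁻¹c·g·W_β(ω)Ω`; the first term is `0` by hypothesis,
`|∇_ωc| ≤ C/L` and vanishes for `‖ω‖ > 2L`, `|m⁻¹W_β(ω)| ≤ Cm⁻¹L² ≤ C√m/L` for `m ≥ L²`, `L ≥ 1`. -/
def TvQStmt (S : Setup d F) : Prop := ∀ ξ : Cfg d, S.Vm 1 ξ = 0 → ∀ K : Cfg d →L[ℝ] Cfg d, S.IsK ξ K →
  ∀ Ω : F, ‖Ω‖ = 1 → (∀ (β : Fin 16) (x : Cfg d), Lb S ξ β x Ω + Complex.I • S.B β (K x) Ω = 0) →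
  ∃ C : ℝ, 0 ≤ C ∧ ∀ L m : ℝ, 1 ≤ L → L ^ 2 ≤ m → ∀ (β : Fin 16) (x : Cfg d),
    ‖S.Qm m β (tv m L ξ K Ω) x‖ ≤ Real.sqrt m * (C / L) * ph2 m L ξ K x

/-- **G20 TvJ** invariance of the trial function under the compensated rotation. PROOF. The first order part of `J_{kl}+∑a_CG_C` is
`-i∂_{vf(x)}`; `vf` is linear antisymmetric (`⟨x, vf x⟩ = 0`, `k ≠ l`, `f` antisymmetric) and kills `ξ`, so `vf(x) = m^{-1/2}vf(ω)`; the derivatives of `‖ω‖²` and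
`⟨ω,Kω⟩` along it are `2⟨ω,vf ω⟩ = 0`, `2⟨Kω,vf ω⟩ = ⟨Kω,vf ω⟩ + ⟨ω, K vf ω⟩ = ⟨ω,Kvfω⟩ - ⟨ω,vf Kω⟩ = 0`. -/
def TvJStmt (S : Setup d F) : Prop := ∀ (ξ : Cfg d) (K : Cfg d →L[ℝ] Cfg d),
  (∀ x y, inner ℝ (K x) y = inner ℝ x (K y)) → ∀ (Ω : F) (k l : Fin 9), k ≠ l → ∀ a : Fin d → ℝ,
  vf S k l a ξ = 0 → (∀ x, K (vf S k l a x) = vf S k l a (K x)) →
  S.Skl k l Ω + ∑ C, (a C : ℂ) • S.cS C Ω = 0 → ∀ m L : ℝ, 0 < m → 0 < L → ∀ x,
    S.J k l (tv m L ξ K Ω) x + ∑ C, (a C : ℂ) • S.G C (tv m L ξ K Ω) x = 0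

/-- **G21 GRat** scaling of Gaussian integrals. PROOF. Substitute `ω = 4ω'` (`qK ≥ 0`, `exp(-16q) ≤ exp(-q)`), dimension `9d`. -/
def GRatStmt (d : ℕ) : Prop := ∀ (ξ : Cfg d) (K : Cfg d →L[ℝ] Cfg d), (∀ x, 0 ≤ inner ℝ x (K x)) →
  ∀ m L : ℝ, 0 < m → 0 < L → (∫ x, ph2 m L ξ K x ^ 2) ≤
    4 ^ (9 * d) * ∫ x, (if ‖om m ξ x‖ ≤ L / 2 then ph2 m L ξ K x ^ 2 else 0)

end S

/-! ## Part 5: averages over `SU(N)` -/

section M

variable {N d : ℕ} {F : Type w} [NormedAddCommGroup F] [InnerProductSpace ℂ F]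

/-- **G22 Act** `SU(N)` acts by linear isometries, jointly continuously. PROOF: `adCoeff` is orthogonal and multiplicative. -/
def ActStmt (M : BFSS.Model N d F) : Prop :=
  (∀ U V x, M.act (U * V) x = M.act U (M.act V x)) ∧ (∀ x, M.act 1 x = x) ∧
  (∀ U x y, M.act U (x + y) = M.act U x + M.act U y) ∧ (∀ U (c : ℝ) x, M.act U (c • x) = c • M.act U x) ∧
  (∀ U x, ‖M.act U x‖ = ‖x‖) ∧ (Continuous fun p : BFSS.SU N × Cfg d => M.act p.1 p.2) ∧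
  ∀ S : Setup d F, Rep M S → ∀ U m x, S.Vm m (M.act U x) = S.Vm m x

/-- **G23 QAct** the supercharges, `J_{kl}` and `G_C` are covariant. PROOF. Chain rule, `S_rotates`, orthogonality of `adCoeff` and invariance of `f`
(`f_{ABC}` is determined by commutators of `T`). -/
def QActStmt (M : BFSS.Model N d F) : Prop := ∀ S : Setup d F, Rep M S → ∀ (U : BFSS.SU N) (v : Cfg d → F),
  ContDiff ℝ ∞ v →
  (∀ (m : ℝ) (β : Fin 16) (x : Cfg d), S.Qm m β (fun y => M.S U (v (M.act U⁻¹ y))) x =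
    M.S U (S.Qm m β v (M.act U⁻¹ x))) ∧
  (∀ (k l : Fin 9) (x : Cfg d), S.J k l (fun y => M.S U (v (M.act U⁻¹ y))) x =
    M.S U (S.J k l v (M.act U⁻¹ x)))

/-- **G24 AvgD** averages of test functions. PROOF: G01 for `X = SU(N)`, `ρ(U) = act U⁻¹`, `s(U) = S(U)` (norm continuous, `F` finite
dimensional), compact support by `‖act U x‖ = ‖x‖`; `Q_β(avg v)(x) = ∫Q_β(ρ(U)v)(x)dU` from the derivative formula, then G23. -/
def AvgDStmt (M : BFSS.Model N d F) : Prop := ∀ S : Setup d F, Rep M S → ∀ v : Cfg d → F, Setup.Tst v →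
  Setup.Tst (avg M v) ∧ (∀ m β x, S.Qm m β (avg M v) x = avg M (S.Qm m β v) x) ∧
    ∀ k l x, S.J k l (avg M v) x = avg M (S.J k l v) x

/-- **G25 AvgC** averages are in the core. PROOF: left invariance of Haar measure: `avg v(act V x) = ∫S(U)v(act(U⁻¹V)x)dU`, `U = VU'`. -/
def AvgCStmt (M : BFSS.Model N d F) : Prop := ∀ v : Cfg d → F, Setup.Tst v →
  (Setup.Tst (avg M v) → M.IsCore (avg M v))

/-- **G26 AvgG** `avg (G_Cv) = 0`. PROOF. `f = G_Cv`, `w = avg f` is in the core (G25), so `G_Cw = 0` (`gaussLaw`).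
`‖w‖² = ∫⟨w(x),∫S(U)f(act U⁻¹x)dU⟩dx = ∫∫⟨S(U)⁻¹w(x),f(act U⁻¹x)⟩dx dU = ∫⟨w,f⟩ = ∫⟨w,G_Cv⟩ = ∫⟨G_Cw,v⟩ = 0` (`G_symm`; `w(act U y) = S(U)w(y)`,
`act U` preserves Lebesgue measure); `w` is continuous, so `w = 0`. -/
def AvgGStmt (M : BFSS.Model N d F) : Prop := ∀ S : Setup d F, Rep M S → ∀ v : Cfg d → F, Setup.Tst v →
  ∀ C x, avg M (S.G C v) x = 0

/-- **G27 AvgB** pointwise bounds for averages. PROOF. (1) `norm_integral_le_integral_norm`, `S` isometric. (2) If `φ(act U₀⁻¹x) ≠ 0` for some `U₀`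
(otherwise trivial), then for all `U` with `φ(act U⁻¹x) ≠ 0`: `Re⟨S(U₀)Ω,S(U)Ω⟩ = Re⟨Ω,S(U₀⁻¹U)Ω⟩ ≥ 1/2`, so `‖avg(φΩ)(x)‖ ≥ Re⟨S(U₀)Ω,avg(φΩ)(x)⟩ ≥ ½avs φ(x)`. -/
def AvgBStmt (M : BFSS.Model N d F) : Prop :=
  (∀ (f : Cfg d → F) (φ : Cfg d → ℝ) (B : ℝ), Continuous f → Measurable φ → (∀ x, ‖f x‖ ≤ φ x) → (∀ x, φ x ≤ B) →
    ∀ x, ‖avg M f x‖ ≤ avs M φ x) ∧
  (∀ (φ : Cfg d → ℝ) (Ω : F), Continuous φ → HasCompactSupport φ → (∀ x, 0 ≤ φ x) → ‖Ω‖ = 1 →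
    (∀ U x, φ x ≠ 0 → φ (M.act U x) ≠ 0 → 1 / 2 ≤ (inner ℂ Ω (M.S U Ω)).re) →
    ∀ x, 1 / 2 * avs M φ x ≤ ‖avg M (fun y => ((φ y : ℝ) : ℂ) • Ω) x‖)

/-- **G28 Dbl** doubling. PROOF (Fubini). `N_ρ(x) = μ{U : |Up-x| ≤ ρ}`; `∫_{B(p,R)}N_ρ(x)dx = ∫_U vol(B(Up,ρ) ∩ B(p,R))dU`. It is `≥ vol(B_ρ)·mu(R-ρ)`
(for `|Up-p| ≤ R-ρ` the ball `B(Up,ρ)` is inside) and `≤ vol(B_R)·mu(2ρ)` (`N_ρ(x) ≤ mu(2ρ)`: if `|U₀p-x| ≤ ρ` then `|Up-x| ≤ ρ` implies `|U₀⁻¹Up-p| ≤ 2ρ`, and left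
invariance). `ρ = r/8`, `R = 17r/8`: `mu(2r) ≤ 17^{9d}mu(r/4)`. Positivity: `{U : |Up-p| < r}` is open and nonempty. -/
def DblStmt (M : BFSS.Model N d F) : Prop := ∀ (p : Cfg d) (r : ℝ), 0 < r →
  0 < mu M p r ∧ mu M p (2 * r) ≤ 17 ^ (9 * d) * mu M p (r / 4)

/-- **G29 Rat** comparison of averages. PROOF. `p = mξ`, `r = 2L/√m` (so `‖ω‖ ≤ 2L` iff `|x-p| ≤ r`), `φ₂ = ph2`, `φ = ph`.
Invariance (`act` preserves Lebesgue measure, Fubini): `∫(avs φ₂)² = ∫φ₂·avs φ₂`, `∫(avs φ)² = ∫φ·avs φ`. For `|x-p| ≤ r`: `φ₂(act U⁻¹x) ≠ 0` implies `|act U⁻¹p - p| ≤ 2r`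
and `φ₂(act U⁻¹x) ≤ eφ₂(x)`, so `avs φ₂(x) ≤ e·mu(2r)φ₂(x)` (Haar measure is inversion invariant). For `|x-p| ≤ r/4`: if `|act U⁻¹p-p| ≤ r/4` then `|act U⁻¹x-p| ≤ r/2`,
`φ(act U⁻¹x) = φ₂(act U⁻¹x) ≥ e⁻¹φ₂(x)`, so `avs φ(x) ≥ e⁻¹mu(r/4)φ₂(x)`. So `∫(avs φ₂)² ≤ e·mu(2r)∫φ₂² ≤ e·17^{9d}mu(r/4)·4^{9d}∫_{|x-p| ≤ r/4}φ₂² ≤ e²68^{9d}∫(avs φ)²` (G21, G28). The
last integral is positive. -/
def RatStmt (M : BFSS.Model N d F) : Prop := ∀ (ξ : Cfg d) (K : Cfg d →L[ℝ] Cfg d),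
  (∀ x, 0 ≤ inner ℝ x (K x)) → ∀ m L : ℝ, 0 < m → 0 < L →
  (∀ U x, ‖om m ξ x‖ ≤ 2 * L → ‖om m ξ (M.act U x)‖ ≤ 2 * L →
    |qK m ξ K (M.act U x) - qK m ξ K x| ≤ 2) →
  Integrable (fun x => avs M (ph m L ξ K) x ^ 2) ∧ Integrable (fun x => avs M (ph2 m L ξ K) x ^ 2) ∧
  0 < (∫ x, avs M (ph m L ξ K) x ^ 2) ∧
  (∫ x, avs M (ph2 m L ξ K) x ^ 2) ≤ Real.exp 2 * 68 ^ (9 * d) * ∫ x, avs M (ph m L ξ K) x ^ 2

/-- **G30 NearCon** near constancy of the Gaussian along the group. PROOF. `y = act U x`, `ω(y) = Uω(x) + √m·m(Uξ-ξ)`. Both `ω(x), ω(y)` have norm `≤ 2L`, so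
`m^{3/2}|Uξ-ξ| ≤ 4L`. `V_1(Uξ) = 0` and `TayStmt`: `½hq ξ (Uξ-ξ) ≤ C|Uξ-ξ|⁴`, so `|K(Uξ-ξ)| ≤ C'|Uξ-ξ|²`, `m^{3/2}|K(Uξ-ξ)| ≤ C''L²m^{-3/2}`; so
`|⟨ω(y),Kω(y)⟩ - ⟨Uω(x),KUω(x)⟩| ≤ C'''L³m^{-3/2}`. Compactness of `SU(N)`: for every `ε > 0` there is `δ > 0` with `|⟨Uw,KUw⟩ - ⟨w,Kw⟩| ≤ ε|w|²` if `|Uξ-ξ| ≤ δ`
(if `Uξ = ξ` then `U⁻¹KU` is also `IsK ξ` as `hq ξ (Uw) = hq ξ w`, so `U` commutes with `K²`, hence with `K`: G02). `|Uξ-ξ| ≤ 4Lm^{-3/2} → 0`. -/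
def NearConStmt (M : BFSS.Model N d F) : Prop := ∀ S : Setup d F, Rep M S → ∀ ξ : Cfg d, S.Vm 1 ξ = 0 →
  ∀ K : Cfg d →L[ℝ] Cfg d, S.IsK ξ K → ∀ L : ℝ, 0 < L → ∃ m₀ : ℝ, 0 < m₀ ∧ ∀ m : ℝ, m₀ ≤ m →
  ∀ U x, ‖om m ξ x‖ ≤ 2 * L → ‖om m ξ (M.act U x)‖ ≤ 2 * L → |qK m ξ K (M.act U x) - qK m ξ K x| ≤ 2

/-- **G31 Half** PROOF: compactness of `SU(N)`, continuity of `U ↦ (act U ξ, ⟨Ω,S(U)Ω⟩)`. -/
def HalfStmt (M : BFSS.Model N d F) : Prop := ∀ (ξ : Cfg d) (Ω : F), ‖Ω‖ = 1 →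
  (∀ U, M.act U ξ = ξ → M.S U Ω = Ω) →
  ∃ δ : ℝ, 0 < δ ∧ ∀ U, ‖M.act U ξ - ξ‖ ≤ δ → 1 / 2 ≤ (inner ℂ Ω (M.S U Ω)).re

/-- **G32 ExpH** the action of `exp(iH)` on vectors killed by the generator. If `H = ∑h_AT_A`, `∑h_C𝒮_Cv = 0` and `V ∈ SU(N)`, `V = exp(iH)`, then `S(V)v = v`.
PROOF. `mg_diag`: `H = U diag(x) U*`, `mgS_conj`: `S(U·mgtor(x)·U⁻¹) = exp(Z(H))`, `Z(H) = mgz M H` is a multiple of `∑h_C𝒮_C` (`S.cS`, `Rep`; `tr(T_C[T_D,T_E]) = if_{DEC}`),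
`U·mgtor x·U⁻¹ = exp(iH) = V`. -/
def ExpHStmt (M : BFSS.Model N d F) : Prop := 0 < d → ∀ S : Setup d F, Rep M S → ∀ (h : Fin d → ℝ) (v : F),
  ∑ C, (h C : ℂ) • S.cS C v = 0 → ∀ V : BFSS.SU N,
  V.val = NormedSpace.exp (Complex.I • ∑ A, (h A : ℂ) • M.T A) → M.S V v = v

/-- **G33 Cen** the centre acts trivially. PROOF. `U = z·1`. `adCoeff U = 1`, so `S(U)` commutes with all `θ` and is a scalar `c` (`mg_schur`). Take `Ω₀` with `IsLow S 0 E Ω₀`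
(G11, `V_1(0) = 0`). By G14 with `ξ = 0`: `∑h_C𝒮_CΩ₀ = 0` for all `h`. `z^N = 1`, `z = e^{iφ}`, `Nφ = 2πk`; `U = exp(iH)` with the traceless diagonal
`H = diag(φ,…,φ,φ-2πk)`. G32: `cΩ₀ = S(U)Ω₀ = Ω₀`, `c = 1`. -/
def CenStmt (M : BFSS.Model N d F) : Prop := 0 < d → ∀ (U : BFSS.SU N) (z : ℂ),
  U.val = z • (1 : Matrix (Fin N) (Fin N) ℂ) → ∀ v, M.S U v = v

/-- **G34 Stab** the stabiliser of `ξ` fixes the vacuum. PROOF. `act U ξ = ξ` means that `U` commutes with `X_i = ∑ξ_i^AT_A` (all `i`). As in `mad_log`: `U = exp(iK)`,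
`K = cfc arg U` Hermitian, commuting with everything that commutes with `U` and `U*` (`Commute.cfc` or similar; or: `K` is a polynomial in `U`), in particular with
the `X_i`. `det U = 1`: `tr K = 2πk`; `H = K - (tr K/N)1 = ∑h_AT_A` commutes with `X_i`, i.e. `∑h_Cf_{CAB}ξ_i^A = 0`; `V = exp(iH) ∈ SU(N)`, `U = zV`, `z = e^{2πik/N}`.
G14, G32: `S(V)Ω = Ω`; G33: `S(z1) = 1`. -/
def StabStmt (M : BFSS.Model N d F) : Prop := 0 < d → ∀ S : Setup d F, Rep M S → ∀ ξ : Cfg d,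
  S.Vm 1 ξ = 0 → ∀ (E : ℝ) (Ω : F), IsLow S ξ E Ω → ∀ U, M.act U ξ = ξ → M.S U Ω = Ω

/-- **G35 Zer** zeros of `V_1` for all partitions, in different orbits. PROOF. From G05: `ξ_π(c3 k,A) = -2 Re tr(T_AJ^π_k)`, `0` on `I6`; `J^π_k` is traceless (a commutator), so
`∑ξ(c3 k,A)T_A = -2J_k` (`mad_complete`), `[X_i,X_j] = 4iJ_n = -2iX_n`, i.e. `F_{ij} = -2ξ_n`, and `SqStmt` gives `V_1(ξ_π) = 0`. `act U ξ_π = ξ_π'` gives `UJ^πU* = J^π'`. -/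
def ZerStmt (M : BFSS.Model N d F) : Prop := ∀ S : Setup d F, Rep M S →
  ∃ ξ : Nat.Partition N → Cfg d, (∀ π, S.Vm 1 (ξ π) = 0) ∧
    ∀ π π' (U : BFSS.SU N), M.act U (ξ π) = ξ π' → π = π'

/-- **G36 One** one low state for every zero. PROOF. `K` from `SqrStmt`, `(E,Ω)` from G11, G12; `u = avg M (tv m L ξ K Ω)`. `Inv`: G24, G25 + `gaussLaw`; `J_{kl}u = avg(J_{kl}tv)
= -∑a_Cavg(G_Ctv) = 0` (G15, G16, G17, G20, G26). `‖Q_βu(x)‖ ≤ √m(C/L)avs ph2(x)` (G19, G24, G27), `‖u(x)‖ ≥ ½avs ph(x)` (G27, G31, G34: if `ph(x) ≠ 0 ≠ ph(act U x)` then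
`|Uξ-ξ| ≤ 4Lm^{-3/2} ≤ δ`). G29, G30: `∑‖Q_βu‖² ≤ 16m(C/L)²·4e²68^{9d}‖u‖²`; choose `L` large, then `m₀`. Support: `u(x) ≠ 0` gives `U` with `ph(act U⁻¹x) ≠ 0`. -/
def OneStmt (M : BFSS.Model N d F) : Prop := 0 < d → ∀ S : Setup d F, Rep M S → ∀ ξ : Cfg d,
  S.Vm 1 ξ = 0 → ∀ ε : ℝ, 0 < ε → ∃ C m₀ : ℝ, 0 < m₀ ∧ ∀ m : ℝ, m₀ ≤ m → ∃ u : Cfg d → F, S.Inv u ∧
    0 < nsq u ∧ ∑ β, nsq (S.Qm m β u) ≤ ε * m * nsq u ∧
    ∀ x, u x ≠ 0 → ∃ U, ‖x - m • M.act U ξ‖ ≤ C / Real.sqrt m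

/-- **G37 Main** `c_N ≥ p(N)`. PROOF. `ThmBStmt` (`thmB_all`): enough to find one `m > 0` with `Low p(N) m (8m)`. `ξ_π` from G35, `u_π` from G36 with `ε = 1` for one large `m`. The orbits
`{act U ξ_π}` are compact and pairwise disjoint, at distance `≥ η > 0`; the support of `u_π` is within `C/√m` of `m·orbit`, and `2C/√m < mη` for `m` large, so the supports are
disjoint; for `a ≠ 0`: `∑_β‖Q_β∑a_πu_π‖² = ∑|a_π|²∑_β‖Q_βu_π‖² ≤ m∑|a_π|²‖u_π‖² < 8m‖∑a_πu_π‖²` (`Q_β` is local: `Q_βu_π = 0` where `u_π` vanishes near; at points of the closure of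
one support the other functions vanish in a neighbourhood). -/
def GStmt (M : BFSS.Model N d F) : Prop := 0 < d → ∀ S : Setup d F, Rep M S → ∀ m : ℝ, 0 < m →
  ∀ c : ℝ, 0 < c → S.Low (Fintype.card (Nat.Partition N)) m c

end M

end Vale.Agent.P353.AN.G
end

section

/-! # P353, all `N`, block JN (helper714): the weak profile system `PW`

Interface between the analysis (blocks D, E, GL, TW, X) and the counting (S6, S7, Top). No Gram matrices, no symmetrisation: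
the functionals `u ↦ ipr (Z i R a) u` act on gauge invariant functions only. -/

open MeasureTheory Filter Topology
open scoped ContDiff

namespace Vale.Agent.P353.Z

variable {d : ℕ} {F : Type*} [NormedAddCommGroup F] [InnerProductSpace ℂ F]

/-- bounded sequences of gauge invariant test functions at scales `R n → ∞` (no energy bound) -/
structure BdL (S : Setup d F) (R : ℕ → ℝ) (u : ℕ → Cfg d → F) (A : ℝ) : Prop where
  R_lim : Tendsto R atTop atTop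
  inv : ∀ n, S.GInv (u n)
  norm : ∀ n, nsq (u n) ≤ A

/-- **Weak profile system**. For every cluster type `i`: Hilbert space `H i` of profiles (`L²(Cfg r; K)`, not symmetrised), dense submodule
`D i` of test profiles (smooth, compactly supported off the collisions), free BMN supercharges `Ds i β` of mass `1`, ground state `g i`, and the
global functionals `u ↦ ipr (Z i R a) u`. -/
structure PW (S : Setup d F) (ι : Type) where
  H : ι → Type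
  [ng : ∀ i, NormedAddCommGroup (H i)]
  [ips : ∀ i, InnerProductSpace ℂ (H i)]
  [cs : ∀ i, CompleteSpace (H i)]
  D : ∀ i, Submodule ℂ (H i)
  Ds : ∀ i, Fin 16 → D i → D i
  g : ∀ i, H i
  Z : ∀ i, ℝ → D i → Cfg d → F
  g_norm : ∀ i, ‖g i‖ = 1
  dense : ∀ i, Dense (D i : Set (H i))
  /-- (F-App) the ground state is a limit in the graph norm -/
  app : ∀ i (ε : ℝ), 0 < ε → ∃ a : D i, ‖(a : H i) - g i‖ ≤ ε ∧ ∀ β, ‖(Ds i β a : H i)‖ ≤ ε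
  /-- (F-Ker) the weak joint kernel is spanned by the ground state -/
  ker : ∀ i (w : H i), (∀ β (a : D i), inner ℂ (Ds i β a : H i) w = 0) → ∃ c : ℂ, w = c • g i
  Z_mem : ∀ i (a : D i), ∀ᶠ R in atTop, MemLp (Z i R a) 2 (volume : Measure (Cfg d))
  /-- asymptotic conjugate linearity in the profile -/
  Z_lin : ∀ i (a b : D i) (c : ℂ) (R : ℕ → ℝ) (u : ℕ → Cfg d → F) (A : ℝ), BdL S R u A →
    Tendsto (fun n => ipr (Z i (R n) (c • a + b)) (u n) -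
      ((starRingEnd ℂ) c * ipr (Z i (R n) a) (u n) + ipr (Z i (R n) b) (u n))) atTop (𝓝 0)
  /-- (UB) uniform bound of the functionals (mass bound up to the collisions) -/
  ub : ∀ i, ∃ C : ℝ, 0 ≤ C ∧ ∀ (a : D i) (R : ℕ → ℝ) (u : ℕ → Cfg d → F) (A : ℝ), BdL S R u A → ∀ ε : ℝ, 0 < ε →
    ∀ᶠ n in atTop, ‖ipr (Z i (R n) a) (u n)‖ ≤ C * ‖(a : H i)‖ * Real.sqrt A + ε

attribute [instance] PW.ng PW.ips PW.cs

namespace PW

variable {S : Setup d F} {ι : Type} (P : PW S ι)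

/-- **(E) limit equation** for bounded sequences (`m = R^{-2}`) -/
def LimEq : Prop := ∀ (R : ℕ → ℝ) (Ψ : ℕ → Cfg d → F) (C : ℝ), Prof.Bdd S R Ψ C → ∀ i β (a : P.D i),
  Tendsto (fun n => (R n : ℂ) * ipr (P.Z i (R n) a) (S.Qm ((R n)⁻¹ ^ 2) β (Ψ n)) -
    ipr (P.Z i (R n) (P.Ds i β a)) (Ψ n)) atTop (𝓝 0)

/-- **(NL) no loss** -/
def NoLoss : Prop := ∀ (R : ℕ → ℝ) (Ψ : ℕ → Cfg d → F) (C : ℝ), Prof.Bdd S R Ψ C →
  (∀ i (a : P.D i), Tendsto (fun n => ipr (P.Z i (R n) a) (Ψ n)) atTop (𝓝 0)) →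
  (∀ ζ : Cfg d → F, Setup.Tst ζ → Tendsto (fun n => ipr ζ (Ψ n)) atTop (𝓝 0)) →
  Tendsto (fun n => nsq (Ψ n)) atTop (𝓝 0)

/-- **(REP)** gauge invariant representatives `J i a ε R` of the functionals (Haar averages of truncated `Z`), only needed for S7 -/
structure Rep (J : ∀ i, P.D i → ℝ → ℝ → Cfg d → F) : Prop where
  inv : ∀ i (a : P.D i) (ε : ℝ), 0 < ε → ∀ᶠ R in atTop, S.GInv (J i a ε R)
  supp : ∀ i (a : P.D i) (ε : ℝ), 0 < ε → ∃ c : ℝ, 0 < c ∧ ∀ᶠ R in atTop, ∀ x : Cfg d, ‖x‖ ≤ c * R → J i a ε R x = 0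
  disj : ∀ i j, i ≠ j → ∀ (a : P.D i) (b : P.D j) (ε ε' : ℝ), 0 < ε → 0 < ε' → ∀ᶠ R in atTop, ∀ x : Cfg d,
    J i a ε R x = 0 ∨ J j b ε' R x = 0
  rep : ∀ i (a : P.D i) (ε : ℝ), 0 < ε → ∀ (R : ℕ → ℝ) (u : ℕ → Cfg d → F) (A : ℝ), BdL S R u A →
    ∀ᶠ n in atTop, ‖ipr (J i a ε (R n)) (u n) - ipr (P.Z i (R n) a) (u n)‖ ≤ ε * Real.sqrt A
  low : ∀ i, ∃ c₀ ε₀ : ℝ, 0 < c₀ ∧ 0 < ε₀ ∧ ∀ (a : P.D i), ‖(a : P.H i) - P.g i‖ ≤ ε₀ → ∀ ε : ℝ, 0 < ε → ε ≤ ε₀ →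
    ∀ᶠ R in atTop, c₀ ≤ nsq (J i a ε R)

end PW

namespace AJ

variable (S : Setup d F)

/-- **J1 (S6)** existence count. PROOF. Let `m_j = R_j^{-2} → 0`, `Low (card ι + 1) m_j (m_j/(j+1))`; choose `a_i ∈ D i` with `‖a_i - g_i‖ ≤ 1/4`
(`app`). A vector `u_j` in the low space with `nsq u_j = 1` and `ipr (Z i R_j a_i) u_j = 0` for all `i ∈ ι` exists by dimension (`ipr` is linear
in the second argument). Suppose all zero modes vanish. Along an ultrafilter `𝒰` on `ℕ`: `l_i(a) = lim ipr (Z i R_j a) u_j` is conjugate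
linear (`Z_lin`) and bounded by `C‖a‖` (`ub`), so `l_i(a) = ⟨a, f_i⟩` (`dense`, Riesz); `LimEq` and `R_j²en(u_j) → 0` (`ub`-free: apply `ub` to the
sequence `R_jQ_βu_j`, whose norm tends to `0`) give `⟨Ds β a, f_i⟩ = 0`, so `f_i = c g_i` (`ker`), `0 = ⟨a_i,f_i⟩ = c⟨a_i,g_i⟩`, `|⟨a_i,g_i⟩| ≥ 3/4`: `f_i = 0`.
Local limits: `LocStmt` (H10) gives zero modes, so they vanish. Every ultrafilter limit is `0`, so the sequences tend to `0`; `NoLoss` gives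
`nsq u_j → 0`: contradiction. -/
def S6Stmt {ι : Type} [Fintype ι] (P : PW S ι) : Prop := P.LimEq → P.NoLoss →
  (∀ m : ℝ, 0 < m → ∀ c : ℝ, 0 < c → S.Low (Fintype.card ι + 1) m c) →
    ∃ Ψ : Lp F 2 (volume : Measure (Cfg d)), S.IsZM Ψ ∧ Ψ ≠ 0

/-- **J2 (S7)** uniqueness count. PROOF. Fix `a_i ∈ D i` with `‖a_i - g_i‖ ≤ ε`, `‖Ds β a_i‖ ≤ ε`, and `f_R = J i a_i ε R`, `nsq f_R ≥ c₀`, `f̂ = f/‖f‖`.
`w ∈ GInv` with `‖(T+1)w - f̂‖ ≤ δ`, `T = (R²/16)HH` (H7). `‖w‖ ≤ 2`, `⟨w,Tw⟩ ≤ 4`, `‖Tw‖ ≤ 4`; `v_β = R Q_βw`: `nsq v_β ≤ C`, `R²en(v_β) ≤ C` (H1, `m = R^{-2}`), so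
`w`, `v_β` are `Bdd`, and `R Q_βv_β` is bounded. `⟨f̂,R²HHw⟩ = ∑_β⟨f̂,RQ_βv_β⟩ = ‖f‖⁻¹∑_β ipr (Z a)(R Q_βv_β) + O(ε) = ‖f‖⁻¹∑_β ipr (Z (Ds β a)) v_β + O(ε) = O(ε)` (`rep`,
`LimEq`, `ub`). So `⟨w,Tw⟩ + ‖Tw‖² = ⟨(T+1)w,Tw⟩ = O(ε + δ)`: `‖f̂ - w‖` and `R²en(w)` and `R⁴‖HHw‖²` are small. H2: `‖J_{kl}w‖` small; H4: torus average `w'`,
`‖w' - f̂‖` small, `R²en(w')` small. Kernel vectors: H9; `⟨f̂,Ψ⟩ → 0` (`supp`). Different types: disjoint supports. So `b + card ι` almost orthonormal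
`InvP plT` functions with `en ≤ κm`, `κ` small. -/
def S7Stmt {ι : Type} [Fintype ι] (P : PW S ι) : Prop := P.LimEq → (∃ J, P.Rep J) →
  ∀ (b : ℕ) (Ψ : Fin b → Lp F 2 (volume : Measure (Cfg d))), (∀ j, S.IsZM (Ψ j)) → LinearIndependent ℂ Ψ →
    ∃ m : ℝ, 0 < m ∧ S.LowP plT (b + Fintype.card ι) m (8 * m)

/-- **J3 (Top)** `dim ker = 1` -/
def TopStmt : Prop := S.Irr → (∃ v : F, v ≠ 0) → ∀ (ι : Type) [Fintype ι] (P : PW S ι),
  P.LimEq → P.NoLoss → (∃ J, P.Rep J) → S.OrbCount (Fintype.card ι + 1) →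
  (∀ m : ℝ, 0 < m → ∀ c : ℝ, 0 < c → S.Low (Fintype.card ι + 1) m c) →
    ∃ Ψ₀ : Lp F 2 (volume : Measure (Cfg d)), S.IsZM Ψ₀ ∧ Ψ₀ ≠ 0 ∧
      ∀ Ψ : Lp F 2 (volume : Measure (Cfg d)), S.IsZM Ψ → ∃ c : ℂ, Ψ = c • Ψ₀

end AJ

end Vale.Agent.P353.Z
end

section

/-! # P353, all `N`, block G, G08: `L_β(a) = 0` if `K a = 0` -/

open MeasureTheory Filter Topology
open scoped ContDiff Matrix

namespace Vale.Agent.P353.AN.G

open Vale.Agent.P353.Z Vale.Agent.P353.Z.U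

namespace Tan

/-- a real matrix with `tr (M Mᵀ) = 0` vanishes; family version -/
lemma zero_of_trace {ι n : Type*} [Fintype ι] [Fintype n] (M : ι → Matrix n n ℂ)
    (him : ∀ A α β, (M A α β).im = 0) (h : ∑ A, (M A * (M A)ᵀ).trace = 0) (A : ι) : M A = 0 := by
  have h1 : ∀ A, (M A * (M A)ᵀ).trace = ((∑ α, ∑ β, (M A α β).re ^ 2 : ℝ) : ℂ) := by
    intro A
    simp only [Matrix.trace, Matrix.diag, Matrix.mul_apply, Matrix.transpose_apply]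
    push_cast
    refine Finset.sum_congr rfl fun α _ => Finset.sum_congr rfl fun β _ => ?_
    have : M A α β = ((M A α β).re : ℂ) := by
      apply Complex.ext
      · simp
      · simp [him A α β]
    rw [this]
    simp [sq]
  simp only [h1] at h
  rw [← Complex.ofReal_sum] at h
  have h2 := Complex.ofReal_eq_zero.1 h
  rw [Finset.sum_eq_zero_iff_of_nonneg fun A _ => Finset.sum_nonneg fun α _ =>
    Finset.sum_nonneg fun β _ => sq_nonneg _] at h2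
  have h3 := h2 A (Finset.mem_univ _)
  rw [Finset.sum_eq_zero_iff_of_nonneg fun α _ => Finset.sum_nonneg fun β _ => sq_nonneg _] at h3
  ext α β
  have h4 := h3 α (Finset.mem_univ _)
  rw [Finset.sum_eq_zero_iff_of_nonneg fun β _ => sq_nonneg _] at h4
  have h5 := h4 β (Finset.mem_univ _)
  have h6 : (M A α β).re = 0 := by
    simpa using h5
  apply Complex.ext
  · simpa using h6
  · simpa using him A α β

end Tan

theorem tan {d : ℕ} {F : Type*} [NormedAddCommGroup F] [InnerProductSpace ℂ F] (S : Setup d F) :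
    TanStmt S := by
  intro ξ _ K hK a ha β
  have hq : S.hq ξ a = 0 := by
    have := hK.sq a
    rw [ha] at this
    simp at this
    linarith
  have h1 := En.N1c_sq S ξ a
  rw [hq] at h1
  have h2 : ∑ A, (En.NX (En.N1c S ξ) a A * (En.NX (En.N1c S ξ) a A)ᵀ).trace = 0 := by
    simpa using h1
  have h3 := Tan.zero_of_trace (fun A => En.NX (En.N1c S ξ) a A)
    (fun A α β => En.NX_im (En.N1c S ξ) (En.N1c_im S ξ) a A α β) h2
  unfold Lb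
  rw [← En.TT_N1c, En.TT_eq]
  refine Finset.sum_eq_zero fun A _ => ?_
  have h4 := h3 A
  rw [h4, S.vec_zero]

end Vale.Agent.P353.AN.G
end

section

/-! # P353, all `N`, block G, G11: the lowest eigenvalue of `H_f` is simple -/

open MeasureTheory Filter Topology
open scoped ContDiff

namespace Vale.Agent.P353.AN.G

open Vale.Agent.P353.Z Vale.Agent.P353.Z.U

variable {d : ℕ} {F : Type*} [NormedAddCommGroup F] [InnerProductSpace ℂ F]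

/-- `i ∑ R_{pq} θ_p θ_q` is symmetric for real antisymmetric `R` -/
theorem lowEx_symm (S : Setup d F) (R : Matrix (Fin 16 × Fin d) (Fin 16 × Fin d) ℝ)
    (hR : R.transpose = -R) (v w : F) :
    inner ℂ (Complex.I • ∑ p, ∑ q, (R p q : ℂ) • S.th p.1 p.2 (S.th q.1 q.2 v)) w =
      inner ℂ v (Complex.I • ∑ p, ∑ q, (R p q : ℂ) • S.th p.1 p.2 (S.th q.1 q.2 w)) := by
  have hRs : ∀ p q, R q p = -R p q := fun p q => by
    have := congrFun (congrFun hR p) q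
    simpa using this
  rw [inner_smul_left, inner_smul_right, sum_inner, inner_sum]
  simp only [sum_inner, inner_sum, inner_smul_left, inner_smul_right, S.th_sa, Complex.conj_I,
    Complex.conj_ofReal]
  rw [Finset.sum_comm, Finset.mul_sum, Finset.mul_sum]
  refine Finset.sum_congr rfl fun p _ => ?_
  rw [Finset.mul_sum, Finset.mul_sum]
  refine Finset.sum_congr rfl fun q _ => ?_
  rw [hRs p q]
  push_cast
  ring

/-- `H_f` is symmetric at a zero of `V_1` -/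
theorem lowEx_Hf_symm (S : Setup d F) (ξ : Cfg d) (hξ : S.Vm 1 ξ = 0) (v w : F) :
    inner ℂ (Hf S ξ v) w = inner ℂ v (Hf S ξ w) := by
  obtain ⟨R, hR, -, hH⟩ := inv S ξ hξ
  have h : ∀ v : F, Hf S ξ v =
      Complex.I • ∑ p, ∑ q, (R p q : ℂ) • S.th p.1 p.2 (S.th q.1 q.2 v) := fun v => hH v
  rw [h, h]
  exact lowEx_symm S R hR v w

/-- **G11** the lowest eigenvalue of `H_f` is simple -/
theorem lowEx [FiniteDimensional ℂ F] (S : Setup d F) : LowExStmt S := by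
  intro hirr hF ξ hξ
  obtain ⟨R, hR, hRi, hH⟩ := inv S ξ hξ
  have h : ∀ v : F, Hf S ξ v =
      Complex.I • ∑ p, ∑ q, (R p q : ℂ) • S.th p.1 p.2 (S.th q.1 q.2 v) := fun v => hH v
  have hsym : ((Hf S ξ : F →L[ℂ] F) : F →ₗ[ℂ] F).IsSymmetric := fun v w =>
    lowEx_Hf_symm S ξ hξ v w
  have : Nontrivial F := by
    obtain ⟨v, hv⟩ := hF
    exact nontrivial_of_ne v 0 hv
  obtain ⟨E, hE⟩ : ∃ E : ℝ, E = (⨅ x : { x : F // x ≠ 0 },
      RCLike.re (inner ℂ ((((Hf S ξ : F →L[ℂ] F) : F →ₗ[ℂ] F)) (x : F)) (x : F)) /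
        ‖(x : F)‖ ^ 2 : ℝ) := ⟨_, rfl⟩
  have hev := hsym.hasEigenvalue_iInf_of_finiteDimensional
  obtain ⟨v₀, hv₀⟩ := hev.exists_hasEigenvector
  have hv₀n : v₀ ≠ 0 := hv₀.2
  have hv₀e : Hf S ξ v₀ = (E : ℂ) • v₀ := by
    have := hv₀.apply_eq_smul
    rw [hE]
    exact this
  -- lower bound
  have hbdd : BddBelow (Set.range fun x : { x : F // x ≠ 0 } =>
      RCLike.re (inner ℂ ((((Hf S ξ : F →L[ℂ] F) : F →ₗ[ℂ] F)) (x : F)) (x : F)) /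
        ‖(x : F)‖ ^ 2) := by
    refine ⟨-‖(Hf S ξ : F →L[ℂ] F)‖, ?_⟩
    rintro _ ⟨x, rfl⟩
    have hx : 0 < ‖(x : F)‖ := norm_pos_iff.2 x.2
    have h1 : |RCLike.re (inner ℂ ((((Hf S ξ : F →L[ℂ] F) : F →ₗ[ℂ] F)) (x : F)) (x : F))| ≤
        ‖(Hf S ξ : F →L[ℂ] F)‖ * ‖(x : F)‖ ^ 2 := by
      refine (RCLike.abs_re_le_norm _).trans ((norm_inner_le_norm _ _).trans ?_)
      have h2 := (Hf S ξ).le_opNorm (x : F)
      calc ‖Hf S ξ (x : F)‖ * ‖(x : F)‖ ≤ (‖Hf S ξ‖ * ‖(x : F)‖) * ‖(x : F)‖ :=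
            mul_le_mul_of_nonneg_right h2 hx.le
        _ = _ := by ring
    show -‖(Hf S ξ : F →L[ℂ] F)‖ ≤ _
    rw [le_div_iff₀ (by positivity)]
    have := (abs_le.1 h1).1
    linarith
  have hlow : ∀ v : F, E * ‖v‖ ^ 2 ≤ (inner ℂ v (Hf S ξ v)).re := by
    intro v
    by_cases hv : v = 0
    · subst hv
      simp
    · have h1 := ciInf_le hbdd (⟨v, hv⟩ : { x : F // x ≠ 0 })
      rw [← hE] at h1
      have h2 : 0 < ‖v‖ ^ 2 := by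
        have := norm_pos_iff.2 hv
        positivity
      have h3 := (le_div_iff₀ h2).1 h1
      refine h3.trans (le_of_eq ?_)
      have h4 : inner ℂ (Hf S ξ v) v = inner ℂ v (Hf S ξ v) := lowEx_Hf_symm S ξ hξ v v
      show RCLike.re (inner ℂ (Hf S ξ v) v) = _
      rw [h4]
      rfl
  have hre : ∀ v : F, (inner ℂ v (((-E : ℝ) : ℂ) • v + Complex.I • ∑ p : Fin 16 × Fin d,
      ∑ q : Fin 16 × Fin d, (R p q : ℂ) • S.th p.1 p.2 (S.th q.1 q.2 v))).re =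
      (inner ℂ v (Hf S ξ v)).re - E * ‖v‖ ^ 2 := by
    intro v
    have h0 : inner ℂ v v = ((‖v‖ ^ 2 : ℝ) : ℂ) := by
      rw [inner_self_eq_norm_sq_to_K]
      simp
    rw [← h v, inner_add_right, inner_smul_right, h0, ← Complex.ofReal_mul, Complex.add_re,
      Complex.ofReal_re]
    ring
  obtain ⟨Ω, hΩ, huniq⟩ := qua S (vac S) hirr hF R (-E) hR hRi (fun v => by
    rw [hre v]
    linarith [hlow v])
  have hkey : ∀ v : F, Hf S ξ v = (E : ℂ) • v → ∃ c : ℂ, v = c • Ω := by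
    intro v hv
    refine huniq v ?_
    rw [hre v, hv, inner_smul_right]
    have h0 : inner ℂ v v = ((‖v‖ ^ 2 : ℝ) : ℂ) := by
      rw [inner_self_eq_norm_sq_to_K]
      simp
    rw [h0, ← Complex.ofReal_mul, Complex.ofReal_re]
    ring
  refine ⟨E, Ω, hΩ, ?_, hlow, hkey⟩
  obtain ⟨c, hc⟩ := hkey v₀ hv₀e
  have hc0 : c ≠ 0 := by
    rintro rfl
    exact hv₀n (by rw [hc, zero_smul])
  have h1 : Ω = c⁻¹ • v₀ := by
    rw [hc, smul_smul, inv_mul_cancel₀ hc0, one_smul]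
  rw [h1, map_smul, hv₀e, smul_comm]

end Vale.Agent.P353.AN.G
end

section

/-! # P353, all `N`: from the setup back to the model as posed (statements)

A prover delivers `theorem <name> … : XStmt …` in `Vale/Agent/P353/AN/Fin/<File>.lean`. -/

open MeasureTheory Filter Topology
open scoped ContDiff

namespace Vale.Agent.P353.Z.Fin1

variable {N d : ℕ} {F : Type*} [NormedAddCommGroup F] [InnerProductSpace ℂ F]

/-- the space of zero modes is one dimensional -/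
def One (S : Setup d F) : Prop := ∃ Ψ₀ : Lp F 2 (volume : Measure (Cfg d)), S.IsZM Ψ₀ ∧ Ψ₀ ≠ 0 ∧
  ∀ Ψ : Lp F 2 (volume : Measure (Cfg d)), S.IsZM Ψ → ∃ c : ℂ, Ψ = c • Ψ₀

/-- **BR1** converse Gauss law. PROOF. Every `U ∈ SU(N)` is `exp(iH)` times a phase, `H` Hermitian traceless (`MAd.lean: mad_log, mad_complete`); a phase in `SU(N)` acts
trivially on `x`, and `S(phase)` commutes with all `θ`, so it is a scalar; better: `U = V diag(e^{ia_j}) V*` with `∑a_j = 0` after shifting one `a_j` by a multiple of `2π`, so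
`U = exp(iH)` exactly with `H` traceless. `MGaussC.lean / MGauss.lean` prove `M.S (exp(itH)) = mgE (mgz M H) t` (the step `hS` in `mg_gauss`), and
`d/dt [S(g_t)⁻¹u(g_t·x)] = 0` because `∑h_C G_Cu = 0` (same computation as in `mg_gauss`, at every `t`). -/
def CoreStmt (M : BFSS.Model N d F) : Prop := FiniteDimensional ℂ F → 2 ≤ N → ∀ S : Setup d F, U.Rep M S → ∀ u : Cfg d → F,
  Setup.Tst u → (∀ C x, S.G C u x = 0) → M.IsCore u

/-- **BR2** zero modes are zero-energy states. PROOF. `Apx` sequence, BR1; `mb_Q`, `mb_form_eq`, `mb_form_sub_re` of `MBridge.lean`; Cauchy–Schwarz. -/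
def BackStmt (M : BFSS.Model N d F) : Prop := ∀ S : Setup d F, U.Rep M S → ∀ Ψ : Lp F 2 (volume : Measure (Cfg d)),
  S.IsZM Ψ → M.IsZeroEnergyState (fun x => Ψ x)

def BackOfStmt (M : BFSS.Model N d F) : Prop := CoreStmt M → FiniteDimensional ℂ F → 2 ≤ N → BackStmt M

/-- **BR3** the theorem for the model as posed. PROOF. `setS M`, `finiteDimensional_of_model M`, BR2, `bridge_of_gauss M (gaussLaw M)`. -/
def TopOfStmt (M : BFSS.Model N d F) : Prop := 2 ≤ N → (∀ S : Setup d F, U.Rep M S → One S) → BackStmt M →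
  ∃ Φ : BFSS.Conf d → F, M.IsZeroEnergyState Φ ∧ ¬ (∀ᵐ x ∂BFSS.leb d, Φ x = 0) ∧
    ∀ Ψ, M.IsZeroEnergyState Ψ → ∃ c : ℂ, ∀ᵐ x ∂BFSS.leb d, Ψ x = c • Φ x

end Vale.Agent.P353.Z.Fin1
end
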