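import Mathlib
import Vale.Agent.P353.BdA.B2
import Vale.Agent.P353.BdA.B1
import Vale.Agent.P353.BdZ.B17

set_option linter.all false

section

/-! # P353, all `N`, block G, G12: `L_β(x)Ω + iN_β(Kx)Ω = 0` -/

open MeasureTheory Filter Topology
open scoped ContDiff Matrix

namespace Vale.Agent.P353.AN.G

open Vale.Agent.P353.Z Vale.Agent.P353.Z.U

variable {d : ℕ} {F : Type*} [NormedAddCommGroup F] [InnerProductSpace ℂ F]

namespace Kill

theorem B_add (S : Setup d F) (β : Fin 16) (x y : Cfg d) :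
    S.B β (x + y) = S.B β x + S.B β y := by
  unfold Setup.B
  simp only [← Finset.sum_add_distrib, ← add_smul]
  refine Finset.sum_congr rfl fun i _ => Finset.sum_congr rfl fun A _ => ?_
  simp

theorem B_smul (S : Setup d F) (β : Fin 16) (c : ℝ) (x : Cfg d) :
    S.B β (c • x) = (c : ℂ) • S.B β x := by
  unfold Setup.B
  simp only [Finset.smul_sum, smul_smul]
  refine Finset.sum_congr rfl fun i _ => Finset.sum_congr rfl fun A _ => ?_
  simp

theorem Lb_add (S : Setup d F) (ξ : Cfg d) (β : Fin 16) (x y : Cfg d) :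
    Lb S ξ β (x + y) = Lb S ξ β x + Lb S ξ β y := by
  have h1 : S.MM β (x + y) = S.MM β x + S.MM β y := by
    unfold Setup.MM
    simp only [← Finset.sum_add_distrib, ← add_smul]
    refine Finset.sum_congr rfl fun i _ => Finset.sum_congr rfl fun A _ => ?_
    congr 1
    simp [mul_add]
  have h2 : S.DW ξ β (x + y) = S.DW ξ β x + S.DW ξ β y := by
    unfold Setup.DW
    rw [← smul_add]
    congr 1
    simp only [← Finset.sum_add_distrib, ← add_smul]
    refine Finset.sum_congr rfl fun A _ => Finset.sum_congr rfl fun B _ =>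
      Finset.sum_congr rfl fun C _ => Finset.sum_congr rfl fun i _ =>
      Finset.sum_congr rfl fun j _ => ?_
    congr 1
    simp [mul_add]
  unfold Lb
  rw [h1, h2]
  abel

theorem Lb_smul (S : Setup d F) (ξ : Cfg d) (β : Fin 16) (c : ℝ) (x : Cfg d) :
    Lb S ξ β (c • x) = (c : ℂ) • Lb S ξ β x := by
  have h1 : S.MM β (c • x) = (c : ℂ) • S.MM β x := by
    unfold Setup.MM
    simp only [Finset.smul_sum, smul_smul]
    refine Finset.sum_congr rfl fun i _ => Finset.sum_congr rfl fun A _ => ?_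
    congr 1
    simp
    ring
  have h2 : S.DW ξ β (c • x) = (c : ℂ) • S.DW ξ β x := by
    unfold Setup.DW
    rw [smul_comm (c : ℂ)]
    congr 1
    simp only [Finset.smul_sum, smul_smul]
    refine Finset.sum_congr rfl fun A _ => Finset.sum_congr rfl fun B _ =>
      Finset.sum_congr rfl fun C _ => Finset.sum_congr rfl fun i _ =>
      Finset.sum_congr rfl fun j _ => ?_
    congr 1
    simp
    ring
  unfold Lb
  rw [h1, h2, smul_add]

/-- a vector with energy below the lowest eigenvalue vanishes -/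
theorem eq_zero_of_low {S : Setup d F} {ξ : Cfg d} {E : ℝ} {Ω : F} (hL : IsLow S ξ E Ω) {w : F}
    {E' : ℝ} (hw : Hf S ξ w = (E' : ℂ) • w) (hE : E' < E) : w = 0 := by
  have h1 := hL.low w
  rw [hw, inner_smul_right, inner_self_eq_norm_sq_to_K] at h1
  have h2 : (((E' : ℂ)) * (((‖w‖ : ℝ) : ℂ)) ^ 2).re = E' * ‖w‖ ^ 2 := by
    rw [← Complex.ofReal_pow, ← Complex.ofReal_mul, Complex.ofReal_re]
  have h3 : E * ‖w‖ ^ 2 ≤ E' * ‖w‖ ^ 2 := by
    refine h1.trans (le_of_eq ?_)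
    simpa using h2
  have h4 : ‖w‖ ^ 2 = 0 := by nlinarith [sq_nonneg ‖w‖]
  simpa using h4

/-- the algebra behind `Kill`: `v_β` satisfies `H v_β = (E - r) v_β - (i/2) ∑ Γ_{βγ} v_γ` -/
theorem core {S : Setup d F} {ξ : Cfg d} {E : ℝ} {Ω : F} (hL : IsLow S ξ E Ω) {r : ℝ} (hr : 1 ≤ r)
    (v : Fin 16 → F)
    (hv : ∀ β, Hf S ξ (v β) = ((E - r : ℝ) : ℂ) • v β -
      (Complex.I / 2) • ∑ γ, S.Gam β γ • v γ) (β : Fin 16) : v β = 0 := by
  -- `Γ² = -1`
  have hG : ∀ β, ∑ γ, S.Gam β γ • ∑ δ, S.Gam γ δ • v δ = -v β := by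
    intro β
    simp only [Finset.smul_sum, smul_smul]
    rw [Finset.sum_comm]
    simp only [← Finset.sum_smul]
    have h1 : ∀ δ, ∑ γ, S.Gam β γ * S.Gam γ δ = -(if β = δ then 1 else 0) := by
      intro δ
      have h2 := congrFun (congrFun S.Gam_sq β) δ
      rw [Matrix.mul_apply] at h2
      rw [h2]
      simp [Matrix.one_apply]
    simp only [h1]
    simp
  have hw : ∀ s : ℝ, s * s = 1 → v β + ((s : ℂ) * Complex.I) • ∑ γ, S.Gam β γ • v γ = 0 := by
    intro s hs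
    have hsC : (s : ℂ) * (s : ℂ) = 1 := by exact_mod_cast hs
    have hs1 : -1 ≤ s := by nlinarith
    refine eq_zero_of_low hL (E' := E - r - s / 2) ?_ (by nlinarith)
    have h1 : Hf S ξ (∑ γ, S.Gam β γ • v γ) =
        ((E - r : ℝ) : ℂ) • (∑ γ, S.Gam β γ • v γ) + (Complex.I / 2) • v β := by
      rw [map_sum]
      simp only [map_smul, hv, smul_sub, Finset.sum_sub_distrib]
      have e1 : ∑ γ, S.Gam β γ • ((E - r : ℝ) : ℂ) • v γ =
          ((E - r : ℝ) : ℂ) • ∑ γ, S.Gam β γ • v γ := by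
        rw [Finset.smul_sum]
        refine Finset.sum_congr rfl fun γ _ => ?_
        rw [smul_comm]
      have e2 : ∑ γ, S.Gam β γ • (Complex.I / 2) • ∑ δ, S.Gam γ δ • v δ =
          (Complex.I / 2) • ∑ γ, S.Gam β γ • ∑ δ, S.Gam γ δ • v δ := by
        rw [Finset.smul_sum]
        refine Finset.sum_congr rfl fun γ _ => ?_
        rw [smul_comm]
      rw [e1, e2, hG, smul_neg, sub_neg_eq_add]
    rw [map_add, map_smul, hv, h1]
    set g := ∑ γ, S.Gam β γ • v γ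
    have hI : Complex.I * Complex.I = -1 := Complex.I_mul_I
    have e3 : ((s : ℂ) * Complex.I) • ((Complex.I / 2) • v β) = (-(s : ℂ) / 2) • v β := by
      rw [smul_smul]
      congr 1
      linear_combination ((s : ℂ) / 2) * hI
    have e4 : (((E - r - s / 2 : ℝ)) : ℂ) • (((s : ℂ) * Complex.I) • g) =
        ((s : ℂ) * Complex.I) • (((E - r : ℝ) : ℂ) • g) - (Complex.I / 2) • g := by
      rw [smul_smul, smul_smul, ← sub_smul]
      congr 1
      push_cast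
      linear_combination (-Complex.I / 2) * hsC
    rw [smul_add, smul_add, e3, e4]
    have e5 : (((E - r - s / 2 : ℝ)) : ℂ) • v β =
        ((E - r : ℝ) : ℂ) • v β + (-(s : ℂ) / 2) • v β := by
      rw [← add_smul]
      congr 1
      push_cast
      ring
    rw [e5]
    abel
  have hp := hw 1 (by norm_num)
  have hm := hw (-1) (by norm_num)
  have h2 : (2 : ℂ) • v β = 0 := by
    have h3 : v β + (((1 : ℝ) : ℂ) * Complex.I) • (∑ γ, S.Gam β γ • v γ) +
        (v β + (((-1 : ℝ) : ℂ) * Complex.I) • (∑ γ, S.Gam β γ • v γ)) = 0 := by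
      rw [hp, hm, add_zero]
    rw [two_smul, ← h3]
    have h4 : (((-1 : ℝ) : ℂ) * Complex.I) • (∑ γ, S.Gam β γ • v γ) =
        -((((1 : ℝ) : ℂ) * Complex.I) • (∑ γ, S.Gam β γ • v γ)) := by
      rw [← neg_smul]
      congr 1
      push_cast
      ring
    rw [h4]
    abel
  exact (smul_eq_zero.1 h2).resolve_left two_ne_zero

/-- the case of an eigenvector of `K` -/
theorem eig {S : Setup d F} (h6 : PerpKStmt S) (h7 : GapStmt S) (h8 : TanStmt S)
    (h9 : LinNStmt S) (h10 : LinLStmt S) {ξ : Cfg d} (h0 : S.Vm 1 ξ = 0) {K : Cfg d →L[ℝ] Cfg d}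
    (hK : S.IsK ξ K) {E : ℝ} {Ω : F} (hL : IsLow S ξ E Ω) {r : ℝ} {x : Cfg d} (hx : K x = r • x)
    (β : Fin 16) : Lb S ξ β x Ω + Complex.I • S.B β (K x) Ω = 0 := by
  rcases eq_or_ne r 0 with h | hr
  · have hx0 : K x = 0 := by rw [hx, h, zero_smul]
    have hB : S.B β (0 : Cfg d) = 0 := by
      have := B_smul S β 0 (0 : Cfg d)
      simpa using this
    rw [h8 ξ h0 K hK x hx0 β, hx0, hB]
    simp
  rcases eq_or_ne x 0 with rfl | hx1
  · have hB : S.B β (0 : Cfg d) = 0 := by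
      have := B_smul S β 0 (0 : Cfg d)
      simpa using this
    have hLb : Lb S ξ β (0 : Cfg d) = 0 := by
      have := Lb_smul S ξ β 0 (0 : Cfg d)
      simpa using this
    rw [map_zero, hB, hLb]
    simp
  have hn : 0 < ‖x‖ ^ 2 := by positivity
  have hperp : S.Perp ξ x := by
    have h1 := h6 ξ h0 K hK (r⁻¹ • x)
    rw [map_smul, hx, smul_smul, inv_mul_cancel₀ hr, one_smul] at h1
    exact h1
  have hpos : 0 ≤ r := by
    have h1 := hK.pos x
    rw [hx, inner_smul_right, real_inner_self_eq_norm_sq] at h1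
    by_contra hneg
    push Not at hneg
    nlinarith
  have hgap : 1 ≤ r := by
    have h1 := h7 ξ h0 K hK x hperp
    rw [hx, norm_smul, mul_pow, Real.norm_eq_abs, sq_abs] at h1
    by_contra hlt
    push Not at hlt
    have h2 : r ^ 2 < 1 := by nlinarith
    nlinarith
  have hBx : ∀ γ, S.B γ (K x) = (r : ℂ) • S.B γ x := fun γ => by rw [hx, B_smul]
  have hBxx : ∀ γ, S.B γ (K (K x)) = ((r * r : ℝ) : ℂ) • S.B γ x := fun γ => by
    rw [hx, map_smul, hx, smul_smul, B_smul]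
  refine core hL hgap (fun β => Lb S ξ β x Ω + Complex.I • S.B β (K x) Ω) (fun β => ?_) β
  have e9 := h9 ξ h0 x hperp β Ω
  have e10 := h10 ξ h0 K hK x β Ω
  rw [hL.eig, map_smul] at e9 e10
  rw [sub_eq_iff_eq_add] at e9 e10
  simp only [hBx, smul_apply, map_add, map_smul, smul_add,
    Finset.sum_add_distrib]
  rw [e9, e10, hBxx]
  have hI : Complex.I * Complex.I = -1 := Complex.I_mul_I
  have e1 : ∑ γ, S.Gam β γ • Complex.I • (r : ℂ) • S.B γ x Ω =
      (Complex.I * (r : ℂ)) • ∑ γ, S.Gam β γ • S.B γ x Ω := by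
    rw [Finset.smul_sum]
    refine Finset.sum_congr rfl fun γ _ => ?_
    rw [smul_smul, smul_smul, smul_smul]
    congr 1
    ring
  rw [e1]
  set p := Lb S ξ β x Ω
  set q := S.B β x Ω
  set P := ∑ γ, S.Gam β γ • Lb S ξ γ x Ω
  set Q := ∑ γ, S.Gam β γ • S.B γ x Ω
  simp only [smul_apply, smul_add, smul_sub, smul_smul]
  match_scalars
  · ring
  · ring
  · linear_combination (r : ℂ) * hI
  · ring

end Kill

/-- **G12** -/
theorem kill [FiniteDimensional ℂ F] (S : Setup d F) (h6 : PerpKStmt S) (h7 : GapStmt S)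
    (h8 : TanStmt S) (h9 : LinNStmt S) (h10 : LinLStmt S) : KillStmt S := by
  intro ξ h0 K hK E Ω hL β x
  let W : Submodule ℝ (Cfg d) :=
    { carrier := {x | Lb S ξ β x Ω + Complex.I • S.B β (K x) Ω = 0}
      add_mem' := fun {x y} hx hy => by
        simp only [Set.mem_ofPred_eq] at hx hy ⊢
        rw [map_add, Kill.B_add, Kill.Lb_add, add_apply, add_apply, smul_add]
        calc _ = (Lb S ξ β x Ω + Complex.I • S.B β (K x) Ω) +
              (Lb S ξ β y Ω + Complex.I • S.B β (K y) Ω) := by abel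
          _ = 0 := by rw [hx, hy, add_zero]
      zero_mem' := by
        simp only [Set.mem_ofPred_eq]
        have hB : S.B β (0 : Cfg d) = 0 := by
          have := Kill.B_smul S β 0 (0 : Cfg d)
          simpa using this
        have hLb : Lb S ξ β (0 : Cfg d) = 0 := by
          have := Kill.Lb_smul S ξ β 0 (0 : Cfg d)
          simpa using this
        rw [map_zero, hB, hLb]
        simp
      smul_mem' := fun c x hx => by
        simp only [Set.mem_ofPred_eq] at hx ⊢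
        rw [map_smul, Kill.B_smul, Kill.Lb_smul, smul_apply, smul_apply, smul_comm, ← smul_add, hx,
          smul_zero] }
  have hsymm : (K : Cfg d →ₗ[ℝ] Cfg d).IsSymmetric := fun x y => hK.symm x y
  have htop : ⨆ μ, Module.End.eigenspace (K : Cfg d →ₗ[ℝ] Cfg d) μ = ⊤ := by
    have := hsymm.orthogonalComplement_iSup_eigenspaces_eq_bot
    rwa [Submodule.orthogonal_eq_bot_iff] at this
  have hle : (⊤ : Submodule ℝ (Cfg d)) ≤ W := by
    rw [← htop]
    exact iSup_le fun μ y hy =>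
      Kill.eig h6 h7 h8 h9 h10 h0 hK hL (Module.End.mem_eigenspace_iff.1 hy) β
  exact hle Submodule.mem_top

end Vale.Agent.P353.AN.G
end

section

/-! # P353, all `N`, block G: G31 -/

open MeasureTheory Filter Topology
open scoped ContDiff

namespace Vale.Agent.P353.AN.G

open Vale.Agent.P353.Z Vale.Agent.P353.Z.U

theorem half {N d : ℕ} {F : Type*} [NormedAddCommGroup F] [InnerProductSpace ℂ F]
    [FiniteDimensional ℂ F] (M : BFSS.Model N d F) (h22 : ActStmt M) : HalfStmt M := by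
  unfold HalfStmt
  intro ξ Ω hΩ hst
  unfold ActStmt at h22
  obtain ⟨_, _, _, _, _, hcont, _⟩ := h22
  have hact : Continuous fun U : BFSS.SU N => M.act U ξ :=
    Continuous.comp (g := fun p : BFSS.SU N × Cfg d => M.act p.1 p.2) (f := fun U => (U, ξ))
      hcont (by fun_prop)
  have hc1 : Continuous fun U : BFSS.SU N => ‖M.act U ξ - ξ‖ := (hact.sub continuous_const).norm
  have hc2 : Continuous fun U : BFSS.SU N => (inner ℂ Ω (M.S U Ω)).re :=
    Complex.continuous_re.comp (continuous_const.inner (M.S_continuous Ω))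
  have hB : IsCompact {U : BFSS.SU N | (inner ℂ Ω (M.S U Ω)).re ≤ 1 / 2} :=
    (isClosed_le hc2 continuous_const).isCompact
  rcases Set.eq_empty_or_nonempty {U : BFSS.SU N | (inner ℂ Ω (M.S U Ω)).re ≤ 1 / 2} with he | hne
  · refine ⟨1, one_pos, fun U _ => ?_⟩
    by_contra h
    have h2 : U ∈ {U : BFSS.SU N | (inner ℂ Ω (M.S U Ω)).re ≤ 1 / 2} := (not_le.1 h).le
    rw [he] at h2
    exact h2
  · obtain ⟨U0, hU0, hmin⟩ := hB.exists_isMinOn hne hc1.continuousOn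
    have hpos : 0 < ‖M.act U0 ξ - ξ‖ := by
      rw [norm_pos_iff, sub_ne_zero]
      intro h
      have h2 := hst U0 h
      have h3 : (inner ℂ Ω (M.S U0 Ω)).re ≤ 1 / 2 := hU0
      rw [h2, inner_self_eq_norm_sq_to_K, hΩ] at h3
      norm_num at h3
    refine ⟨‖M.act U0 ξ - ξ‖ / 2, by positivity, fun U hU => ?_⟩
    by_contra h
    have h4 : U ∈ {U : BFSS.SU N | (inner ℂ Ω (M.S U Ω)).re ≤ 1 / 2} := (not_le.1 h).le
    have h5 : ‖M.act U0 ξ - ξ‖ ≤ ‖M.act U ξ - ξ‖ := hmin h4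
    linarith

end Vale.Agent.P353.AN.G
end

section

/-! # P353, all `N`, block COV: every commuting tuple reaches a frame point, different types are disjoint (architect helper725)

Frames: `NFr n T φ ψ` of `AN/NF/Defs.lean` (helper679; `ψ : Spl ds dz dh`, `inl` = `s`, `inr` = centre, as in block D). Matrices `X_i(x) = ∑_A x_i^A T_A`.
A prover delivers `theorem <name> … : <Stmt> …` in `Vale/Agent/P353/AN/COV/<File>.lean`, sorry free, standard axioms, less than 60 s per file. -/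

open MeasureTheory Filter Topology Matrix
open scoped ContDiff

namespace Vale.Agent.P353.Z.ACov

universe u

variable {N d dh dm ds dz k : ℕ}

/-- rotated basis -/
noncomputable def rT (T : Fin d → Matrix (Fin N) (Fin N) ℂ) (O : Matrix (Fin d) (Fin d) ℝ) (A : Fin d) :
    Matrix (Fin N) (Fin N) ℂ := ∑ B, ((O A B : ℝ) : ℂ) • T B

/-- the nine matrices of `x` -/
noncomputable def mx (T : Fin d → Matrix (Fin N) (Fin N) ℂ) (x : Cfg d) (i : Fin 9) : Matrix (Fin N) (Fin N) ℂ :=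
  ∑ A, ((x (i, A) : ℝ) : ℂ) • T A

/-- multiset of the fibre sizes of `y` -/
def fsz {X : Type*} [DecidableEq X] (y : Fin N → X) : Multiset ℕ :=
  (Finset.univ.image y).val.map fun a => (Finset.univ.filter fun p => y p = a).card

/-- the values of the frame point `η` differ for different blocks -/
def Dif {n : Fin k → ℕ} {T : Fin d → Matrix (Fin N) (Fin N) ℂ} {φ : Spl dh dm d} {ψ : Spl ds dz dh} (fr : NFr n T φ ψ) (η : Cfg dz) : Prop :=
  ∀ a b, a ≠ b → ∃ i, fr.val η i a ≠ fr.val η i b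

/-- **COV1** matrices: the basis of a model, the action, rotated frames, injectivity. PROOF. `basM_stmt` (`AN/NF/RotM.lean`), `Rep.hf`; `act_conj` (`AN/G/Act.lean`); `OᵀO = 1`;
linear independence of `T` (`ortho`). -/
def MxStmt {F : Type u} [NormedAddCommGroup F] [InnerProductSpace ℂ F] (M : BFSS.Model N d F) : Prop := 0 < N → ∀ S : Setup d F, U.Rep M S →
  Bas N d M.T S.f ∧ (∀ (U : BFSS.SU N) (x : Cfg d) (i : Fin 9), mx M.T (M.act U x) i = U.val * mx M.T x i * U.val.conjTranspose) ∧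
  (∀ (R : Matrix (Fin 9) (Fin 9) ℝ) (hR : R * R.transpose = 1) (O : Matrix (Fin d) (Fin d) ℝ) (hO : O * O.transpose = 1),
    Bas N d (rT M.T O) (S.rot R hR O hO).f ∧ (∀ x i, mx (rT M.T O) (rox 1 O x) i = mx M.T x i) ∧
    ∀ x y : Cfg d, (∀ i, mx (rT M.T O) x i = mx (rT M.T O) y i) → x = y) ∧
  ∀ (x : Cfg d) (i : Fin 9), (mx M.T x i).conjTranspose = mx M.T x i ∧ (mx M.T x i).trace = 0

/-- **COV2** scalar points of a frame: matrices. PROOF: `z_eq`, definition of `emb`, `AD.cmb`; then `bd` is diagonal in the positions `E s`. -/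
def PtStmt : Prop := ∀ (N d k dh dm ds dz : ℕ) (n : Fin k → ℕ) (T : Fin d → Matrix (Fin N) (Fin N) ℂ) (φ : Spl dh dm d) (ψ : Spl ds dz dh)
  (fr : NFr n T φ ψ) (η : Cfg dz) (i : Fin 9),
    mx T (emb φ (AD.cmb ψ 0 η) 0) i = Matrix.diagonal fun p => ((fr.val η i (fr.E.symm p).1 : ℝ) : ℂ)

/-- **COV3** joint diagonalisation. PROOF. `S.V Y = 0` gives `[X_i,X_j] = 0` (`Bas.comm`, the `FF` vanish, cf. `Std2A.comm_of_V` in `AN/D/Std2.lean`); nine commuting hermitian matrices have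
an orthonormal basis of joint eigenvectors (`LinearMap.IsSymmetric.directSum_isInternal_of_pairwise_commute`, `Mathlib.Analysis.InnerProductSpace.JointEigenspace`; or: by induction on the
number of matrices, diagonalising on the joint eigenspaces; or: induction on `N` via a joint eigenvector and its orthogonal complement); multiply one basis vector by a phase to get
determinant `1`. -/
def DiagStmt : Prop := ∀ (N : ℕ), 0 < N → ∀ X : Fin 9 → Matrix (Fin N) (Fin N) ℂ, (∀ i, (X i).conjTranspose = X i) →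
  (∀ i j, X i * X j = X j * X i) →
    ∃ (V : BFSS.SU N) (y : Fin N → Fin 9 → ℝ), ∀ i, V.val * X i * V.val.conjTranspose = Matrix.diagonal fun p => ((y p i : ℝ) : ℂ)

/-- **COV4** zeros of the potential are commuting tuples. PROOF: see COV3 (`S.κ_pos`, `Setup.V`, `Setup.FF`). -/
def VcomStmt {F : Type u} [NormedAddCommGroup F] [InnerProductSpace ℂ F] (S : Setup d F) : Prop :=
  ∀ (N : ℕ) (T : Fin d → Matrix (Fin N) (Fin N) ℂ), Bas N d T S.f → ∀ Y : Cfg d, S.V Y = 0 → ∀ i j, mx T Y i * mx T Y j = mx T Y j * mx T Y i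

/-- **COV5** permutations in `SU(N)`. PROOF: permutation matrix with one row multiplied by the sign of `π`. -/
def PermStmt : Prop := ∀ (N : ℕ), 0 < N → ∀ π : Equiv.Perm (Fin N), ∃ P : BFSS.SU N, ∀ y : Fin N → ℂ,
  P.val * Matrix.diagonal (fun p => y (π p)) * P.val.conjTranspose = Matrix.diagonal y

/-- **COV6** fibre sizes and partitions. PROOF. (1) `∑` of the fibre sizes is `N` (`Finset.card_eq_sum_card_image`), fibres over the image are not empty. (2) all `n_a ≥ 1`: the fibre sizes of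
`p ↦ (E.symm p).1` are the `n_a`; equal multisets of fibre sizes: a bijection of `Fin k` with the image of `y` preserving the sizes, bijections of the fibres. (3) if `y` separates
exactly the blocks, its fibre sizes are the `n_a`. (4) `∑` and `card` of a multiset; `Nat.Partition.parts_pos`; `n` is a listing of `p.parts`. -/
def CombStmt : Prop := ∀ N : ℕ, 0 < N → (∀ (X : Type) [DecidableEq X] (y : Fin N → X), ∃ p : Nat.Partition N, p.parts = fsz y) ∧
  (∀ (X : Type) [DecidableEq X] (y : Fin N → X) (k : ℕ) (n : Fin k → ℕ) (E : (Σ a, Fin (n a)) ≃ Fin N), (∀ a, 1 ≤ n a) →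
    Finset.univ.val.map n = fsz y → ∃ π : Equiv.Perm (Fin N), ∀ s t : Σ a, Fin (n a), y (π (E s)) = y (π (E t)) ↔ s.1 = t.1) ∧
  (∀ (X : Type) [DecidableEq X] (y : Fin N → X) (k : ℕ) (n : Fin k → ℕ) (E : (Σ a, Fin (n a)) ≃ Fin N), (∀ a, 1 ≤ n a) →
    (∀ s t : Σ a, Fin (n a), y (E s) = y (E t) ↔ s.1 = t.1) → fsz y = Finset.univ.val.map n) ∧
  (∀ p : Nat.Partition N, ∃ n : Fin (Multiset.card p.parts) → ℕ, Finset.univ.val.map n = p.parts ∧ (∀ a, 1 ≤ n a) ∧ ∑ a, n a = N) ∧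
  (∀ (X : Type) [DecidableEq X] (y : Fin N → X), Multiset.card (fsz y) < 2 → ∀ p q, y p = y q) ∧
  ∃ p₀ : Nat.Partition N, Multiset.card p₀.parts = 1 ∧ ∀ p : Nat.Partition N, p ≠ p₀ ↔ 2 ≤ Multiset.card p.parts

open Classical in
/-- **COV7** unitarily equivalent diagonal tuples have the same fibre sizes. PROOF. For `v : Fin 9 → ℝ` the joint eigenspace `{w | ∀ i, X_iw = v_iw}` of the diagonal tuple `y` is
`{w | ∀ p, y p ≠ v → w p = 0}`, of dimension `card {p | y p = v}`; `U` maps one to the other. So `card {p | y p = v} = card {p | y' p = v}` for all `v`. -/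
def SpecStmt : Prop := ∀ (N : ℕ) (U : Matrix (Fin N) (Fin N) ℂ), U.conjTranspose * U = 1 → U * U.conjTranspose = 1 → ∀ y y' : Fin N → Fin 9 → ℝ,
  (∀ i, U * (Matrix.diagonal fun p => ((y p i : ℝ) : ℂ)) * U.conjTranspose = Matrix.diagonal fun p => ((y' p i : ℝ) : ℂ)) → fsz y = fsz y'

/-- **COV** OUTPUT, first part: every commuting `Y ≠ 0` has a partition `p` with at least two parts such that it is conjugate to a point with different block values of EVERY frame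
of type `p` (in any colour frame `O`). PROOF. COV1, COV4, COV3: `V X_i(Y) V* = diag(y)`; `p.parts = fsz y` (COV6); `y` is not constant (`∑_py p i = tr = 0` and `Y ≠ 0`, COV1), so
`2 ≤ card p.parts`. Given a frame: `π` of COV6 (2), `P` of COV5 with `P diag(y ∘ π) … `: `(PV)X_i(PV)* = diag(y(π ·))` (use COV5 for `π⁻¹`), constant on the blocks, different on different blocks,
weighted sums `0`: `ANF.ValStmt` (second part) gives `η`, COV2 and the injectivity in COV1 give the equality. -/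
def CovStmt {F : Type u} [NormedAddCommGroup F] [InnerProductSpace ℂ F] (M : BFSS.Model N d F) : Prop := 2 ≤ N →
  ∀ S : Setup d F, U.Rep M S → ∀ Y : Cfg d, Y ≠ 0 → S.V Y = 0 → ∃ p : Nat.Partition N, 2 ≤ Multiset.card p.parts ∧
    ∀ (k dh dm ds dz : ℕ) (n : Fin k → ℕ) (O : Matrix (Fin d) (Fin d) ℝ) (_ : O * O.transpose = 1) (φ : Spl dh dm d) (ψ : Spl ds dz dh)
      (fr : NFr n (rT M.T O) φ ψ), Finset.univ.val.map n = p.parts →
      ∃ (U : BFSS.SU N) (η : Cfg dz), Dif fr η ∧ rox 1 O (M.act U Y) = emb φ (AD.cmb ψ 0 η) 0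

/-- **COV** OUTPUT, second part: points with different block values of frames of different types are not conjugate. PROOF. COV1, COV2: `X_i(Y) = diag(y)`, `X_i(act U Y) = diag(y')`,
COV6 (3): `fsz y`, `fsz y'` are the types, COV7. -/
def DisStmt {F : Type u} [NormedAddCommGroup F] [InnerProductSpace ℂ F] (M : BFSS.Model N d F) : Prop := 2 ≤ N →
  ∀ S : Setup d F, U.Rep M S →
    ∀ (k dh dm ds dz : ℕ) (n : Fin k → ℕ) (O : Matrix (Fin d) (Fin d) ℝ) (_ : O * O.transpose = 1) (φ : Spl dh dm d) (ψ : Spl ds dz dh)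
      (fr : NFr n (rT M.T O) φ ψ) (η : Cfg dz), Dif fr η →
    ∀ (k' dh' dm' ds' dz' : ℕ) (n' : Fin k' → ℕ) (O' : Matrix (Fin d) (Fin d) ℝ) (_ : O' * O'.transpose = 1) (φ' : Spl dh' dm' d)
      (ψ' : Spl ds' dz' dh') (fr' : NFr n' (rT M.T O') φ' ψ') (η' : Cfg dz'), Dif fr' η' →
    ∀ (U : BFSS.SU N) (Y : Cfg d), rox 1 O Y = emb φ (AD.cmb ψ 0 η) 0 → rox 1 O' (M.act U Y) = emb φ' (AD.cmb ψ' 0 η') 0 →
      Finset.univ.val.map n = Finset.univ.val.map n'

/-- **COV8** assembly of both parts -/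
def CovOfStmt {F : Type u} [NormedAddCommGroup F] [InnerProductSpace ℂ F] (M : BFSS.Model N d F) : Prop :=
  MxStmt M → PtStmt → DiagStmt → (∀ S : Setup d F, VcomStmt S) → PermStmt → CombStmt → SpecStmt →
  (∀ (k dh dm ds dz : ℕ) (n : Fin k → ℕ) (T : Fin d → Matrix (Fin N) (Fin N) ℂ) (φ : Spl dh dm d) (ψ : Spl ds dz dh)
    (f : Fin d → Fin d → Fin d → ℝ) (fr : NFr n T φ ψ), ANF.ValStmt f fr) → CovStmt M ∧ DisStmt M

end Vale.Agent.P353.Z.ACov
end

section

/-! # P353, all `N`, block COV, COV3: joint diagonalisation of nine commuting hermitian matrices -/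

open Matrix Module Module.End

namespace Vale.Agent.P353.Z.ACov

/-- joint orthonormal eigenbasis -/
theorem dg930_basis {N : ℕ} (X : Fin 9 → Matrix (Fin N) (Fin N) ℂ) (hX : ∀ i, (X i).conjTranspose = X i)
    (hc : ∀ i j, X i * X j = X j * X i) :
    ∃ (b : OrthonormalBasis (Fin N) ℂ (EuclideanSpace ℂ (Fin N))) (y : Fin N → Fin 9 → ℂ),
      ∀ p i, Matrix.toEuclideanLin (X i) (b p) = y p i • b p := by
  classical
  have hT : ∀ i, (Matrix.toEuclideanLin (X i)).IsSymmetric := fun i =>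
    Matrix.isSymmetric_toEuclideanLin_iff.2 (hX i)
  have hC : Pairwise (Function.onFun Commute fun i => Matrix.toEuclideanLin (X i)) := by
    intro i j _
    show Matrix.toEuclideanLin (X i) * Matrix.toEuclideanLin (X j) =
      Matrix.toEuclideanLin (X j) * Matrix.toEuclideanLin (X i)
    have e1 := Matrix.toLpLin_mul_same 2 (X i) (X j)
    have e2 := Matrix.toLpLin_mul_same 2 (X j) (X i)
    rw [hc i j] at e1
    exact e1.symm.trans e2
  have h1 := LinearMap.IsSymmetric.directSum_isInternal_of_pairwise_commute hT hC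
  have h2 := LinearMap.IsSymmetric.orthogonalFamily_iInf_eigenspaces hT
  have h3 : {α : Fin 9 → ℂ | (⨅ j, eigenspace (Matrix.toEuclideanLin (X j)) (α j)) ≠ ⊥}.Finite :=
    WellFoundedGT.finite_ne_bot_of_iSupIndep h1.submodule_iSupIndep
  have h4 := DirectSum.isInternal_ne_bot_iff.2 h1
  have : Fintype {α : Fin 9 → ℂ // (⨅ j, eigenspace (Matrix.toEuclideanLin (X j)) (α j)) ≠ ⊥} := h3.fintype
  have h5 := h2.comp (Subtype.val_injective
    (p := fun α : Fin 9 → ℂ => (⨅ j, eigenspace (Matrix.toEuclideanLin (X j)) (α j)) ≠ ⊥))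
  have hn : finrank ℂ (EuclideanSpace ℂ (Fin N)) = N := by simp
  refine ⟨h4.subordinateOrthonormalBasis hn h5, fun p => (h4.subordinateOrthonormalBasisIndex hn p h5).1, ?_⟩
  intro p i
  have h6 := h4.subordinateOrthonormalBasis_subordinate hn p h5
  exact Module.End.mem_eigenspace_iff.1 ((Submodule.mem_iInf _).1 h6 i)

/-- the matrix of the basis -/
noncomputable def dg930V {N : ℕ} (b : OrthonormalBasis (Fin N) ℂ (EuclideanSpace ℂ (Fin N))) :
    Matrix (Fin N) (Fin N) ℂ := Matrix.of fun p q => star ((b p) q)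

theorem dg930_inner {N : ℕ} (b : OrthonormalBasis (Fin N) ℂ (EuclideanSpace ℂ (Fin N))) (p p' : Fin N) :
    ∑ q, star ((b p) q) * (b p') q = if p = p' then 1 else 0 := by
  have h := (orthonormal_iff_ite.1 b.orthonormal) p p'
  rw [← h, PiLp.inner_apply]
  refine Finset.sum_congr rfl fun q _ => ?_
  rw [RCLike.inner_apply, mul_comm]
  rfl

theorem dg930_unit {N : ℕ} (b : OrthonormalBasis (Fin N) ℂ (EuclideanSpace ℂ (Fin N))) :
    dg930V b * (dg930V b).conjTranspose = 1 := by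
  ext p p'
  rw [Matrix.mul_apply, Matrix.one_apply, ← dg930_inner b p p']
  refine Finset.sum_congr rfl fun q _ => ?_
  rw [Matrix.conjTranspose_apply]
  simp only [dg930V, Matrix.of_apply, star_star]

theorem dg930_diag {N : ℕ} (b : OrthonormalBasis (Fin N) ℂ (EuclideanSpace ℂ (Fin N)))
    (A : Matrix (Fin N) (Fin N) ℂ) (y : Fin N → ℂ)
    (h : ∀ p, Matrix.toEuclideanLin A (b p) = y p • b p) :
    dg930V b * A * (dg930V b).conjTranspose = Matrix.diagonal y := by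
  ext p p'
  have h1 : ∀ q, ∑ r, A q r * (b p') r = y p' * (b p') q := by
    intro q
    have h2 := congrArg (fun v : EuclideanSpace ℂ (Fin N) => v q) (h p')
    exact h2
  have h3 : (dg930V b * A * (dg930V b).conjTranspose) p p' = ∑ q, star ((b p) q) * ∑ r, A q r * (b p') r := by
    rw [Matrix.mul_assoc, Matrix.mul_apply]
    refine Finset.sum_congr rfl fun q _ => ?_
    rw [Matrix.mul_apply]
    simp only [dg930V, Matrix.of_apply, Matrix.conjTranspose_apply, star_star]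
  rw [h3]
  simp only [h1]
  have h4 : ∑ q, star ((b p) q) * (y p' * (b p') q) = y p' * ∑ q, star ((b p) q) * (b p') q := by
    rw [Finset.mul_sum]
    exact Finset.sum_congr rfl fun q _ => by ring
  rw [h4, dg930_inner, Matrix.diagonal_apply]
  by_cases hp : p = p'
  · subst hp
    simp
  · rw [if_neg hp, if_neg hp, mul_zero]

/-- **COV3** -/
theorem diagS : DiagStmt := by
  intro N hN X hX hc
  obtain ⟨b, y, hy⟩ := dg930_basis X hX hc
  have hV := dg930_unit b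
  have hD : ∀ i, dg930V b * X i * (dg930V b).conjTranspose = Matrix.diagonal fun p => y p i :=
    fun i => dg930_diag b (X i) (fun p => y p i) fun p => hy p i
  have hreal : ∀ p i, y p i = (((y p i).re : ℝ) : ℂ) := by
    intro p i
    have h1 := congrArg Matrix.conjTranspose (hD i)
    rw [Matrix.conjTranspose_mul, Matrix.conjTranspose_mul, Matrix.conjTranspose_conjTranspose, hX i,
      ← Matrix.mul_assoc, hD i, Matrix.diagonal_conjTranspose] at h1
    have h2 := congrFun (congrFun h1 p) p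
    rw [Matrix.diagonal_apply_eq, Matrix.diagonal_apply_eq] at h2
    exact (Complex.conj_eq_iff_re.1 h2.symm).symm
  have hdet : (dg930V b).det * star (dg930V b).det = 1 := by
    rw [← Matrix.det_conjTranspose, ← Matrix.det_mul, hV, Matrix.det_one]
  let D : Fin N → ℂ := Function.update (fun _ => 1) ⟨0, hN⟩ (star (dg930V b).det)
  have hD1 : ∀ p, D p * star (D p) = 1 := by
    intro p
    by_cases hp : p = ⟨0, hN⟩
    · subst hp
      simp only [D, Function.update_self, star_star]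
      rw [mul_comm]
      exact hdet
    · simp only [D, Function.update_of_ne hp, star_one, mul_one]
  have hDD : Matrix.diagonal D * (Matrix.diagonal D).conjTranspose = 1 := by
    rw [Matrix.diagonal_conjTranspose, Matrix.diagonal_mul_diagonal]
    have : (fun i => D i * star D i) = fun _ => 1 := funext hD1
    rw [this, Matrix.diagonal_one]
  have hdetD : (Matrix.diagonal D).det = star (dg930V b).det := by
    rw [Matrix.det_diagonal, Finset.prod_eq_single (⟨0, hN⟩ : Fin N)]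
    · simp only [D, Function.update_self]
    · intro p _ hp
      simp only [D, Function.update_of_ne hp]
    · intro h
      exact absurd (Finset.mem_univ _) h
  have hmem : Matrix.diagonal D * dg930V b ∈ Matrix.specialUnitaryGroup (Fin N) ℂ := by
    refine Matrix.mem_specialUnitaryGroup_iff.2 ⟨Matrix.mem_unitaryGroup_iff.2 ?_, ?_⟩
    · rw [Matrix.star_eq_conjTranspose, Matrix.conjTranspose_mul, Matrix.mul_assoc,
        ← Matrix.mul_assoc (dg930V b), hV, Matrix.one_mul, hDD]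
    · rw [Matrix.det_mul, hdetD, mul_comm]
      exact hdet
  refine ⟨⟨Matrix.diagonal D * dg930V b, hmem⟩, fun p i => (y p i).re, fun i => ?_⟩
  show Matrix.diagonal D * dg930V b * X i * (Matrix.diagonal D * dg930V b).conjTranspose = _
  have h1 : Matrix.diagonal D * dg930V b * X i * (Matrix.diagonal D * dg930V b).conjTranspose =
      Matrix.diagonal D * (dg930V b * X i * (dg930V b).conjTranspose) * (Matrix.diagonal D).conjTranspose := by
    rw [Matrix.conjTranspose_mul]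
    simp only [Matrix.mul_assoc]
  rw [h1, hD i, Matrix.diagonal_conjTranspose, Matrix.diagonal_mul_diagonal, Matrix.diagonal_mul_diagonal]
  congr 1
  funext p
  have h2 := hD1 p
  calc D p * y p i * star (D p) = (D p * star (D p)) * y p i := by ring
    _ = y p i := by rw [h2, one_mul]
    _ = _ := hreal p i

end Vale.Agent.P353.Z.ACov
end

section

/-! # P353, all `N`, block COV: COV2 (helper155, hedge) -/

open MeasureTheory Filter Topology Matrix
open scoped ContDiff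

namespace Vale.Agent.P353.Z.ACov.C155

theorem ptH : PtStmt := by
  intro N d k dh dm ds dz n T φ ψ fr η i
  unfold mx
  rw [← Equiv.sum_comp φ, Fintype.sum_sum_type, ← Equiv.sum_comp ψ, Fintype.sum_sum_type]
  have e1 : ∀ A, (((emb φ (AD.cmb ψ 0 η) 0) (i, φ (Sum.inl (ψ (Sum.inl A)))) : ℝ) : ℂ) = 0 := by
    intro A
    simp [emb, AD.cmb]
  have e2 : ∀ B, (((emb φ (AD.cmb ψ 0 η) 0) (i, φ (Sum.inl (ψ (Sum.inr B)))) : ℝ) : ℂ) = ((η (i, B) : ℝ) : ℂ) := by
    intro B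
    simp [emb, AD.cmb]
  have e3 : ∀ C, (((emb φ (AD.cmb ψ 0 η) 0) (i, φ (Sum.inr C)) : ℝ) : ℂ) = 0 := by
    intro C
    simp only [emb, PiLp.toLp_apply, Equiv.symm_apply_apply, Sum.elim_inr]
    refine Fin.lastCases ?_ (fun j => ?_) i
    · rw [Fin.lastCases_last, Complex.ofReal_zero]
    · rw [Fin.lastCases_castSucc]
      simp
  simp only [e1, e2, e3, zero_smul, Finset.sum_const_zero, zero_add, add_zero, fr.z_eq]
  ext p p'
  rw [Matrix.sum_apply, Matrix.diagonal_apply]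
  simp only [Matrix.smul_apply, bd, Matrix.submatrix_apply, Matrix.diagonal_apply, EmbeddingLike.apply_eq_iff_eq]
  by_cases hp : p = p'
  · subst hp
    simp only [if_true, NFr.val]
    push_cast
    rfl
  · simp [hp]

end Vale.Agent.P353.Z.ACov.C155
end

section

/-! # P353, all `N`, block A: norms over the tube in slice coordinates -/

open MeasureTheory Filter Topology
open scoped ContDiff

namespace Vale.Agent.P353.Z.AN

variable {d dh dm : ℕ} {F : Type*} [NormedAddCommGroup F] [InnerProductSpace ℂ F]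

theorem nrm_continuous_emb (φ : Spl dh dm d) :
    Continuous fun p : Cfg dh × Wsp dm => emb φ p.1 p.2 := by
  unfold emb
  refine (PiLp.continuous_toLp 2 _).comp (continuous_pi fun q => ?_)
  rcases h : φ.symm q.2 with A | B
  · simp only [Sum.elim_inl]
    fun_prop
  · simp only [Sum.elim_inr]
    rcases q with ⟨i, C⟩
    refine Fin.lastCases ?_ (fun j => ?_) i
    · simp only [Fin.lastCases_last]
      exact continuous_const
    · simp only [Fin.lastCases_castSucc]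
      fun_prop

theorem nrm_continuous_det (S : Setup d F) (φ : Spl dh dm d) :
    Continuous fun y : Cfg dh => (S.Dy φ 8 y).det := by
  refine Continuous.matrix_det ?_
  refine continuous_matrix fun B C => ?_
  show Continuous fun y : Cfg dh => ∑ A, S.f (φ (Sum.inr B)) (φ (Sum.inl A)) (φ (Sum.inr C)) * y (8, A)
  fun_prop

theorem nrm_det_smul (S : Setup d F) (φ : Spl dh dm d) (R : ℝ) (y : Cfg dh) :
    (S.Dy φ 8 (R • y)).det = R ^ dm * (S.Dy φ 8 y).det := by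
  have h : S.Dy φ 8 (R • y) = R • S.Dy φ 8 y := by
    ext B C
    show ∑ A, S.f (φ (Sum.inr B)) (φ (Sum.inl A)) (φ (Sum.inr C)) * (R • y) (8, A) =
      R * ∑ A, S.f (φ (Sum.inr B)) (φ (Sum.inl A)) (φ (Sum.inr C)) * y (8, A)
    rw [Finset.mul_sum]
    refine Finset.sum_congr rfl fun A _ => ?_
    rw [PiLp.smul_apply, smul_eq_mul]
    ring
  rw [h, Matrix.det_smul, Fintype.card_fin]

theorem nrm_det_ne (S : Setup d F) (φ : Spl dh dm d) (y₀ : Cfg dh) (h0 : (S.Dy φ 8 y₀).det ≠ 0) :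
    ∃ ε₁ : ℝ, 0 < ε₁ ∧ ∀ (R : ℝ) (y : Cfg dh), 0 < R → ‖y - R • y₀‖ < ε₁ * R →
      (S.Dy φ 8 y).det ≠ 0 := by
  have h1 := (nrm_continuous_det S φ).continuousAt.eventually_ne h0
  obtain ⟨ε₁, hε, hball⟩ := Metric.eventually_nhds_iff.1 h1
  refine ⟨ε₁, hε, fun R y hR hy => ?_⟩
  have h2 : y = R • (R⁻¹ • y) := by rw [smul_smul, mul_inv_cancel₀ hR.ne', one_smul]
  rw [h2, nrm_det_smul]
  refine mul_ne_zero (pow_ne_zero _ hR.ne') (hball ?_)
  rw [dist_eq_norm]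
  have h3 : R⁻¹ • y - y₀ = R⁻¹ • (y - R • y₀) := by
    rw [smul_sub, smul_smul, inv_mul_cancel₀ hR.ne', one_smul]
  rw [h3, norm_smul, Real.norm_eq_abs, abs_of_pos (inv_pos.2 hR)]
  calc R⁻¹ * ‖y - R • y₀‖ < R⁻¹ * (ε₁ * R) := mul_lt_mul_of_pos_left hy (inv_pos.2 hR)
    _ = ε₁ := by field_simp

theorem nrm_res_sq (S : Setup d F) (φ : Spl dh dm d) (u : Cfg d → F) (y : Cfg dh) (w : Wsp dm) :
    ‖S.res φ u y w‖ ^ 2 = ‖u (emb φ y w)‖ ^ 2 * S.Jd φ y := by
  have hJ : 0 ≤ S.Jd φ y := abs_nonneg _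
  unfold Setup.res
  rw [norm_smul, mul_pow, Complex.norm_real, Real.norm_eq_abs, sq_abs, Real.sq_sqrt hJ, mul_comm]

theorem nrm_gauge_Q (S : Setup d F) {u : Cfg d → F} (hu : Setup.Tst u)
    (hG : ∀ C x, S.G C u x = 0) (β : Fin 16) : ∀ C x, S.G C (S.Q β u) x = 0 := by
  intro C x
  have h1 := U.a3 S 0 C β u hu.1 x
  have h2 : ∀ v : Cfg d → F, S.Qm 0 β v = S.Q β v := by
    intro v
    funext z
    unfold Setup.Qm
    simp
  rw [h2, h2] at h1
  rw [h1]
  have h3 : S.G C u = fun _ => 0 := funext fun z => hG C z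
  rw [h3]
  unfold Setup.Q pd
  simp

theorem nrm_int (S : Setup d F) (φ : Spl dh dm d) (y₀ : Cfg dh) (R ε ρ c : ℝ) (hc : 0 < c)
    (hint : ∀ f : Cfg d → ENNReal, Measurable f →
      (∀ a p, ‖a‖ < ρ → p ∈ Nb y₀ dm R ε → f (tub S φ a p) = f (emb φ p.1 p.2)) →
        ∫⁻ x in Tube S φ y₀ R ε ρ, f x =
          ENNReal.ofReal c * ∫⁻ p in Nb y₀ dm R ε, f (emb φ p.1 p.2) *
            ENNReal.ofReal (S.Jd φ p.1) ∂(volume.prod volume))
    {u : Cfg d → F} (hu : Setup.Tst u) (hG : ∀ C x, S.G C u x = 0) :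
    ∫ x in Tube S φ y₀ R ε ρ, ‖u x‖ ^ 2 =
      c * ∫ p in Nb y₀ dm R ε, ‖S.res φ u p.1 p.2‖ ^ 2 ∂(volume.prod volume) := by
  have hcu : Continuous u := hu.1.continuous
  have hmu : Measurable fun x => ENNReal.ofReal (‖u x‖ ^ 2) :=
    (ENNReal.continuous_ofReal.comp (hcu.norm.pow 2)).measurable
  have h1 := hint (fun x => ENNReal.ofReal (‖u x‖ ^ 2)) hmu (by
    intro a p _ _
    have h := U.gx983_norm S hu hG (exm φ a) 1 (emb φ p.1 p.2)
    rw [one_smul] at h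
    show ENNReal.ofReal (‖u (ro (NormedSpace.exp (S.adm (exm φ a))) (emb φ p.1 p.2))‖ ^ 2) = _
    rw [h])
  rw [integral_eq_lintegral_of_nonneg_ae (Eventually.of_forall fun x => sq_nonneg _)
      (hcu.norm.pow 2).aestronglyMeasurable, h1,
    ENNReal.toReal_mul, ENNReal.toReal_ofReal hc.le]
  congr 1
  have hce : Continuous fun p : Cfg dh × Wsp dm => ‖u (emb φ p.1 p.2)‖ ^ 2 * S.Jd φ p.1 := by
    have e1 := nrm_continuous_emb φ
    have e2 : Continuous fun p : Cfg dh × Wsp dm => S.Jd φ p.1 := by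
      unfold Setup.Jd
      exact ((nrm_continuous_det S φ).comp continuous_fst).abs
    exact ((hcu.comp e1).norm.pow 2).mul e2
  simp only [nrm_res_sq]
  have hnn : ∀ p : Cfg dh × Wsp dm, 0 ≤ ‖u (emb φ p.1 p.2)‖ ^ 2 * S.Jd φ p.1 := fun p =>
    mul_nonneg (sq_nonneg _) (abs_nonneg _)
  rw [integral_eq_lintegral_of_nonneg_ae (Eventually.of_forall hnn) hce.aestronglyMeasurable]
  congr 1
  refine lintegral_congr fun p => ?_
  rw [ENNReal.ofReal_mul (sq_nonneg _)]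

/-- **A6** -/
theorem norm_stmt (S : Setup d F) (h1 : TubeStmt S) (h2 : DecStmt S) : NormStmt S := by
  intro dh dm φ y₀ hstd
  obtain ⟨ε₀, ρ₀, hε₀, hρ₀, hT⟩ := h1 dh dm φ y₀ hstd
  obtain ⟨ε₁, hε₁, hdet⟩ := nrm_det_ne S φ y₀ hstd.inv
  refine ⟨min ε₀ ε₁, ρ₀, lt_min hε₀ hε₁, hρ₀, ?_⟩
  intro ε ρ hε hεle hρ hρle
  obtain ⟨c, δ, hc, hδ, hR⟩ := hT ε ρ hε (hεle.trans (min_le_left _ _)) hρ hρle
  refine ⟨c, δ, hc, hδ, ?_⟩
  intro R hR0
  obtain ⟨-, hball, -, hint⟩ := hR R hR0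
  refine ⟨hball, ?_⟩
  intro u hu hG
  refine ⟨nrm_int S φ y₀ R ε ρ c hc hint hu hG, ?_⟩
  intro β
  rw [nrm_int S φ y₀ R ε ρ c hc hint (Setup.Tst.Q S hu β) (nrm_gauge_Q S hu hG β)]
  congr 1
  have hmeas : MeasurableSet (Nb y₀ dm R ε) := by
    have e1 : IsOpen {p : Cfg dh × Wsp dm | ‖p.1 - R • y₀‖ < ε * R} :=
      isOpen_lt (continuous_fst.sub continuous_const).norm continuous_const
    have e2 : IsOpen {p : Cfg dh × Wsp dm | ‖p.2‖ < ε * R} :=
      isOpen_lt continuous_snd.norm continuous_const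
    exact (e1.inter e2).measurableSet
  refine setIntegral_congr_fun hmeas fun p hp => ?_
  have hd : (S.Dy φ 8 p.1).det ≠ 0 := hdet R p.1 hR0
    (hp.1.trans_le (mul_le_mul_of_nonneg_right (hεle.trans (min_le_right _ _)) hR0.le))
  show ‖S.res φ (S.Q β u) p.1 p.2‖ ^ 2 = _
  rw [h2 dh dm φ hstd.sub u hu.1 hG β p.1 p.2 hd]

end Vale.Agent.P353.Z.AN
end

section

/-! # P353, all `N`, block GL: assembly of `GluStmt` (tools) -/

set_option linter.all false

open MeasureTheory Filter Topology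
open scoped ContDiff ENNReal

namespace Vale.Agent.P353.Z.AN

variable {d dh dm r ds : ℕ} {F : Type*} [NormedAddCommGroup F] [InnerProductSpace ℂ F]

section tools

variable {α : Type*} [MeasurableSpace α] {μ : Measure α}

lemma glu_ip {f g : α → F} (hf : AEStronglyMeasurable f μ) (hg : AEStronglyMeasurable g μ) :
    eLpNorm (fun x => inner ℂ (f x) (g x)) 1 μ ≤ eLpNorm f 2 μ * eLpNorm g 2 μ := by
  have h := eLpNorm_le_eLpNorm_mul_eLpNorm_of_nnnorm (p := 2) (q := 2) (r := 1) hf hg (fun x y => inner ℂ x y) 1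
    (ae_of_all _ fun x => by
      rw [one_mul]
      exact nnnorm_inner_le_nnnorm _ _)
  simpa using h

lemma glu_cs {f g : α → F} (hf : AEStronglyMeasurable f μ) (hg : AEStronglyMeasurable g μ) :
    ‖∫ x, inner ℂ (f x) (g x) ∂μ‖ₑ ≤ eLpNorm f 2 μ * eLpNorm g 2 μ := by
  refine le_trans (enorm_integral_le_lintegral_enorm _) ?_
  rw [← eLpNorm_one_eq_lintegral_enorm]
  exact glu_ip hf hg

lemma glu_int {f g : α → F} (hf : MemLp f 2 μ) (hg : MemLp g 2 μ) : Integrable (fun x => inner ℂ (f x) (g x)) μ := by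
  rw [← memLp_one_iff_integrable]
  exact ⟨hf.1.inner hg.1, lt_of_le_of_lt (glu_ip hf.1 hg.1) (ENNReal.mul_lt_top hf.2 hg.2)⟩

lemma glu_sq {E : Type*} [NormedAddCommGroup E] (f : α → E) : ∫⁻ x, ‖f x‖ₑ ^ 2 ∂μ = eLpNorm f 2 μ ^ 2 := by
  have h := eLpNorm_nnreal_pow_eq_lintegral (μ := μ) (f := f) (p := 2) (by norm_num)
  have h2 : ((2 : NNReal) : ℝ) = ((2 : ℕ) : ℝ) := by norm_num
  have h3 : ((2 : NNReal) : ℝ≥0∞) = 2 := by norm_num
  rw [h2, h3] at h
  simp only [ENNReal.rpow_natCast] at h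
  exact h.symm

lemma glu_le_of_sq {E : Type*} [NormedAddCommGroup E] {f : α → E} {C : ℝ≥0∞} (h : ∫⁻ x, ‖f x‖ₑ ^ 2 ∂μ ≤ C ^ 2) :
    eLpNorm f 2 μ ≤ C := by
  rw [glu_sq] at h
  have := ENNReal.rpow_le_rpow h (by norm_num : (0:ℝ) ≤ 1/2)
  rw [← ENNReal.rpow_natCast, ← ENNReal.rpow_natCast, ← ENNReal.rpow_mul, ← ENNReal.rpow_mul] at this
  norm_num at this
  exact this

end tools

/-- the linear isomorphism `x ↦ (x^z, x^s, x^m)` -/
noncomputable def gluT (φ : Spl dh dm d) (ψ : Spz r ds dh) : Cfg d ≃ₗ[ℝ] Cfg r × Cfg ds × Cfg dm where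
  toFun := fun x => (hz ψ (zy φ x), hs ψ (zy φ x), pm φ x)
  map_add' := by intro x y; rfl
  map_smul' := by intro c x; rfl
  invFun := fun q => WithLp.toLp 2 fun p => Sum.elim (fun A => cmb ψ q.1 q.2.1 (p.1, A)) (fun B => q.2.2 (p.1, B)) (φ.symm p.2)
  left_inv := by
    intro x
    ext ⟨i, A⟩
    obtain ⟨a, rfl⟩ := φ.surjective A
    rcases a with a | a
    · obtain ⟨b, rfl⟩ := ψ.surjective a
      rcases b with b | b <;> simp [cmb, hz, hs, zy, pm]
    · simp [cmb, hz, hs, zy, pm]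
  right_inv := by
    intro q
    refine Prod.ext ?_ (Prod.ext ?_ ?_)
    · ext ⟨i, A⟩; simp [cmb, hz, hs, zy, pm]
    · ext ⟨i, A⟩; simp [cmb, hz, hs, zy, pm]
    · ext ⟨i, A⟩; simp [cmb, hz, hs, zy, pm]

/-- with scales -/
noncomputable def gluTR (φ : Spl dh dm d) (ψ : Spz r ds dh) (R : ℝ) (hR : 0 < R) : Cfg d ≃L[ℝ] Cfg r × Cfg ds × Cfg dm :=
  ((gluT φ ψ).trans ((LinearEquiv.smulOfNeZero ℝ (Cfg r) R⁻¹ (inv_ne_zero hR.ne')).prodCongr
    ((LinearEquiv.refl ℝ (Cfg ds)).prodCongr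
      (LinearEquiv.smulOfNeZero ℝ (Cfg dm) (Real.sqrt R) (Real.sqrt_pos.2 hR).ne')))).toContinuousLinearEquiv

lemma gluTR_apply (φ : Spl dh dm d) (ψ : Spz r ds dh) (R : ℝ) (hR : 0 < R) (x : Cfg d) :
    gluTR φ ψ R hR x = (R⁻¹ • hz ψ (zy φ x), hs ψ (zy φ x), Real.sqrt R • pm φ x) := rfl

lemma glu_Zb (φ : Spl dh dm d) (ψ : Spz r ds dh) (b : Cfg r × Cfg ds × Cfg dm → F) (R : ℝ) (hR : 0 < R) (x : Cfg d) :
    Zb φ ψ b R x = ((R ^ (3 * (dm : ℝ) - 9 * (r : ℝ) / 2) : ℝ) : ℂ) • b (gluTR φ ψ R hR x) := rfl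

lemma glu_memLp (φ : Spl dh dm d) (ψ : Spz r ds dh) {b : Cfg r × Cfg ds × Cfg dm → F} (R : ℝ) (hR : 0 < R)
    (hb : MemLp b 2 ((volume : Measure (Cfg r)).prod ((volume : Measure (Cfg ds)).prod (volume : Measure (Cfg dm))))) :
    MemLp (Zb φ ψ b R) 2 volume := by
  have h1 : (Measure.map (gluTR φ ψ R hR) (volume : Measure (Cfg d))).IsAddHaarMeasure :=
    (gluTR φ ψ R hR).isAddHaarMeasure_map _
  haveI h5 : ((volume : Measure (Cfg ds)).prod (volume : Measure (Cfg dm))).IsAddHaarMeasure :=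
    Measure.prod.instIsAddHaarMeasure _ _
  haveI h6 : ((volume : Measure (Cfg r)).prod ((volume : Measure (Cfg ds)).prod (volume : Measure (Cfg dm)))).IsAddHaarMeasure :=
    Measure.prod.instIsAddHaarMeasure _ _
  have h2 := Measure.isAddLeftInvariant_eq_smul (Measure.map (gluTR φ ψ R hR) (volume : Measure (Cfg d)))
    ((volume : Measure (Cfg r)).prod ((volume : Measure (Cfg ds)).prod (volume : Measure (Cfg dm))))
  have h3 : MemLp b 2 (Measure.map (gluTR φ ψ R hR) (volume : Measure (Cfg d))) := by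
    rw [h2]
    exact hb.smul_measure (by simp)
  have h4 : MemLp (b ∘ gluTR φ ψ R hR) 2 (volume : Measure (Cfg d)) :=
    (memLp_map_measure_iff h3.1 (gluTR φ ψ R hR).continuous.aemeasurable).1 h3
  exact h4.const_smul _

/-! ### the weighted measure -/

lemma glu_w_meas (r ds dm : ℕ) : Measurable fun q : Cfg r × Cfg ds × Cfg dm =>
    ENNReal.ofReal ((1 + ‖q.2.2‖ ^ 2) ^ (dm + 1)) := by
  refine ENNReal.measurable_ofReal.comp ?_
  exact (continuous_const.add ((continuous_snd.comp continuous_snd).norm.pow 2)).pow _ |>.measurable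

lemma glu_w_le (r ds dm : ℕ) :
    ((volume : Measure (Cfg r)).prod ((volume : Measure (Cfg ds)).prod (volume : Measure (Cfg dm)))) ≤ wM r ds dm := by
  have h : ((volume : Measure (Cfg r)).prod ((volume : Measure (Cfg ds)).prod (volume : Measure (Cfg dm)))) =
      ((volume : Measure (Cfg r)).prod ((volume : Measure (Cfg ds)).prod (volume : Measure (Cfg dm)))).withDensity 1 :=
    withDensity_one.symm
  unfold wM
  conv_lhs => rw [h]
  refine withDensity_mono (ae_of_all _ fun q => ?_)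
  show (1 : ℝ≥0∞) ≤ _
  rw [← ENNReal.ofReal_one]
  refine ENNReal.ofReal_le_ofReal (one_le_pow₀ ?_)
  nlinarith [sq_nonneg ‖q.2.2‖]

lemma glu_w_lint {f : Cfg r × Cfg ds × Cfg dm → ℝ≥0∞} (hf : Measurable f) :
    ∫⁻ q, f q ∂(wM r ds dm) = ∫⁻ q, ENNReal.ofReal ((1 + ‖q.2.2‖ ^ 2) ^ (dm + 1)) * f q
      ∂((volume : Measure (Cfg r)).prod ((volume : Measure (Cfg ds)).prod (volume : Measure (Cfg dm)))) := by
  unfold wM
  rw [lintegral_withDensity_eq_lintegral_mul _ (glu_w_meas r ds dm) hf]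
  rfl

lemma glu_w_sq {b : Cfg r × Cfg ds × Cfg dm → F} (hb : StronglyMeasurable b) :
    ∫⁻ q, ENNReal.ofReal ((1 + ‖q.2.2‖ ^ 2) ^ (dm + 1)) * ‖b q‖ₑ ^ 2
      ∂((volume : Measure (Cfg r)).prod ((volume : Measure (Cfg ds)).prod (volume : Measure (Cfg dm)))) =
      eLpNorm b 2 (wM r ds dm) ^ 2 := by
  rw [← glu_sq, glu_w_lint (hb.enorm.pow_const 2)]

/-! ### restriction to the slice ball -/

lemma glu_nb_meas (y₀ : Cfg dh) (dm : ℕ) (R ε : ℝ) : MeasurableSet (Nb y₀ dm R ε) := by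
  have e1 : IsOpen {p : Cfg dh × Wsp dm | ‖p.1 - R • y₀‖ < ε * R} :=
    isOpen_lt (continuous_fst.sub continuous_const).norm continuous_const
  have e2 : IsOpen {p : Cfg dh × Wsp dm | ‖p.2‖ < ε * R} :=
    isOpen_lt continuous_snd.norm continuous_const
  exact (e1.inter e2).measurableSet

lemma glu_res_cont (S : Setup d F) (φ : Spl dh dm d) {u : Cfg d → F} (hu : Continuous u) :
    Continuous fun p : Cfg dh × Wsp dm => S.res φ u p.1 p.2 := by
  have e2 : Continuous fun p : Cfg dh × Wsp dm => ((Real.sqrt (S.Jd φ p.1) : ℝ) : ℂ) := by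
    unfold Setup.Jd
    exact Complex.continuous_ofReal.comp (((nrm_continuous_det S φ).comp continuous_fst).abs.sqrt)
  exact e2.smul (hu.comp (nrm_continuous_emb φ))

lemma glu_res_memLp (S : Setup d F) (φ : Spl dh dm d) {u : Cfg d → F} (hu : Continuous u) (y₀ : Cfg dh) (R ε : ℝ) :
    MemLp (fun p : Cfg dh × Wsp dm => S.res φ u p.1 p.2) 2 ((volume.prod volume).restrict (Nb y₀ dm R ε)) := by
  have hK : IsCompact ((Metric.closedBall (R • y₀) (ε * R)) ×ˢ (Metric.closedBall (0 : Wsp dm) (ε * R))) :=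
    (isCompact_closedBall _ _).prod (isCompact_closedBall _ _)
  have hsub : Nb y₀ dm R ε ⊆ (Metric.closedBall (R • y₀) (ε * R)) ×ˢ (Metric.closedBall (0 : Wsp dm) (ε * R)) := by
    intro p hp
    refine ⟨?_, ?_⟩
    · rw [mem_closedBall_iff_norm]; exact hp.1.le
    · rw [mem_closedBall_zero_iff]; exact hp.2.le
  have h1 : MemLp (fun p : Cfg dh × Wsp dm => S.res φ u p.1 p.2) 2
      ((volume.prod volume).restrict ((Metric.closedBall (R • y₀) (ε * R)) ×ˢ (Metric.closedBall (0 : Wsp dm) (ε * R)))) := by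
    obtain ⟨B, hB⟩ := hK.exists_bound_of_continuousOn (glu_res_cont S φ hu).continuousOn
    haveI : IsFiniteMeasure ((volume.prod volume : Measure (Cfg dh × Wsp dm)).restrict
        ((Metric.closedBall (R • y₀) (ε * R)) ×ˢ (Metric.closedBall (0 : Wsp dm) (ε * R)))) :=
      ⟨by rw [Measure.restrict_apply_univ]; exact hK.measure_lt_top⟩
    refine MemLp.of_bound (glu_res_cont S φ hu).aestronglyMeasurable B ?_
    filter_upwards [ae_restrict_mem hK.measurableSet] with p hp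
    exact hB p hp
  exact h1.mono_measure (Measure.restrict_mono hsub le_rfl)

lemma glu_real_sq {α : Type*} [MeasurableSpace α] {μ : Measure α} {f : α → F} (hf : MemLp f 2 μ) :
    ENNReal.ofReal (∫ x, ‖f x‖ ^ 2 ∂μ) = eLpNorm f 2 μ ^ 2 := by
  rw [← glu_sq, ofReal_integral_eq_lintegral_ofReal ((memLp_two_iff_integrable_sq_norm hf.1).1 hf)
    (ae_of_all _ fun x => sq_nonneg _)]
  refine lintegral_congr fun x => ?_
  rw [ENNReal.ofReal_pow (norm_nonneg _), ofReal_norm_eq_enorm]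

lemma glu_res_le (S : Setup d F) (φ : Spl dh dm d) (y₀ : Cfg dh) (R ε ρ c : ℝ) (hc : 0 < c) {u : Cfg d → F}
    (hu : Setup.Tst u) (h : ∫ x in Tube S φ y₀ R ε ρ, ‖u x‖ ^ 2 =
      c * ∫ p in Nb y₀ dm R ε, ‖S.res φ u p.1 p.2‖ ^ 2 ∂(volume.prod volume)) :
    eLpNorm (fun p : Cfg dh × Wsp dm => S.res φ u p.1 p.2) 2 ((volume.prod volume).restrict (Nb y₀ dm R ε)) ≤
      ENNReal.ofReal (Real.sqrt c)⁻¹ * eLpNorm u 2 volume := by
  have h1 := glu_real_sq (glu_res_memLp S φ hu.1.continuous y₀ R ε)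
  have hu2 : MemLp u 2 (volume : Measure (Cfg d)) := hu.memLp
  have h2 := glu_real_sq (hu2.mono_measure (Measure.restrict_le_self (s := Tube S φ y₀ R ε ρ)))
  have h3 : eLpNorm u 2 ((volume : Measure (Cfg d)).restrict (Tube S φ y₀ R ε ρ)) ≤ eLpNorm u 2 volume :=
    eLpNorm_mono_measure _ Measure.restrict_le_self
  have h4 : (∫ p in Nb y₀ dm R ε, ‖S.res φ u p.1 p.2‖ ^ 2 ∂(volume.prod volume)) =
      c⁻¹ * ∫ x in Tube S φ y₀ R ε ρ, ‖u x‖ ^ 2 := by
    rw [h]; field_simp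
  rw [h4, ENNReal.ofReal_mul (inv_nonneg.2 hc.le), h2] at h1
  have h5 : eLpNorm (fun p : Cfg dh × Wsp dm => S.res φ u p.1 p.2) 2
      ((volume.prod volume).restrict (Nb y₀ dm R ε)) ^ 2 ≤
      (ENNReal.ofReal (Real.sqrt c)⁻¹ * eLpNorm u 2 volume) ^ 2 := by
    rw [← h1, mul_pow, ← ENNReal.ofReal_pow (by positivity), inv_pow, Real.sq_sqrt hc.le]
    gcongr
  have := ENNReal.rpow_le_rpow h5 (by norm_num : (0:ℝ) ≤ 1/2)
  rw [← ENNReal.rpow_natCast, ← ENNReal.rpow_natCast, ← ENNReal.rpow_mul, ← ENNReal.rpow_mul] at this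
  norm_num at this
  exact this

end Vale.Agent.P353.Z.AN
end

section

/-! # P353, all `N`, block GL: uniform bound of the global functional (local form) -/

set_option linter.all false

open MeasureTheory Filter Topology
open scoped ContDiff ENNReal

namespace Vale.Agent.P353.Z.AN

variable {d dh dm r ds : ℕ} {F : Type*} [NormedAddCommGroup F] [InnerProductSpace ℂ F]

/-- the data used by `GluBd` and `Glu`: constants at a standard point -/
structure GluD (S : Setup d F) (φ : Spl dh dm d) (ψ : Spz r ds dh) (z₀ : Cfg r)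
    (j : EuclideanSpace ℝ (Fin dm) → ℝ) (ε ρ δ c Cw : ℝ) : Prop where
  ε_pos : 0 < ε
  ρ_pos : 0 < ρ
  δ_pos : 0 < δ
  c_pos : 0 < c
  Cw_pos : 0 < Cw
  pair : ∀ R : ℝ, 0 < R → ∀ Z u : Cfg d → F, StronglyMeasurable Z → MemLp Z 2 →
    (∀ x, Z x ≠ 0 → x ∈ Tube S φ (cmb ψ z₀ 0) R ε ρ) → Setup.Tst u → (∀ C x, S.G C u x = 0) →
    ∫ x, inner ℂ (Z x) (u x) = ∫ p in Nb (cmb ψ z₀ 0) dm R ε, inner ℂ (Zt S φ j ρ Z p) (S.res φ u p.1 p.2)
      ∂(volume.prod volume)
  wgt : ∀ R : ℝ, 1 ≤ R → ∀ b : Cfg r × Cfg ds × Cfg dm → F, StronglyMeasurable b →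
      ∫⁻ p in Nb (cmb ψ z₀ 0) dm R ε, ‖Zt S φ j ρ (Zb φ ψ b R) p‖ₑ ^ 2 ∂(volume.prod volume) ≤
        ENNReal.ofReal Cw * ∫⁻ q, ENNReal.ofReal ((1 + ‖q.2.2‖ ^ 2) ^ (dm + 1)) * ‖b q‖ₑ ^ 2
          ∂((volume : Measure (Cfg r)).prod ((volume : Measure (Cfg ds)).prod (volume : Measure (Cfg dm))))
  sup : ∀ R : ℝ, 0 < R → ∀ b : Cfg r × Cfg ds × Cfg dm → F,
      (∀ q, b q ≠ 0 → ‖q.1 - z₀‖ ≤ δ ∧ ‖q.2.1‖ ≤ δ * R ∧ ‖q.2.2‖ ≤ δ * (R * Real.sqrt R)) →
      ∀ x, Zb φ ψ b R x ≠ 0 → x ∈ Tube S φ (cmb ψ z₀ 0) R ε ρ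
  nrm : ∀ R : ℝ, 0 < R → ∀ u : Cfg d → F, Setup.Tst u → (∀ C x, S.G C u x = 0) →
    ∫ x in Tube S φ (cmb ψ z₀ 0) R ε ρ, ‖u x‖ ^ 2 =
      c * ∫ p in Nb (cmb ψ z₀ 0) dm R ε, ‖S.res φ u p.1 p.2‖ ^ 2 ∂(volume.prod volume)
  j_cont : Continuous j
  j_nn : ∀ a, 0 ≤ j a
  j_one : j 0 = 1

/-- existence of the constants; `ε₁`, `ρ₁` are additional upper bounds -/
lemma gluD_exists (S : Setup d F) (fd : FiniteDimensional ℂ F) (hp : PairStmt S) (hw : WgtStmt S) (hs : SupStmt S)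
    (hn : NormStmt S) (φ : Spl dh dm d) (ψ : Spz r ds dh) (z₀ : Cfg r) (hst : Std S φ (cmb ψ z₀ 0)) (ρ₁ : ℝ) (hρ₁ : 0 < ρ₁) :
    ∃ (ε₀ ρ : ℝ) (j : EuclideanSpace ℝ (Fin dm) → ℝ), 0 < ε₀ ∧ ρ ≤ ρ₁ ∧ ∀ ε : ℝ, 0 < ε → ε ≤ ε₀ →
      ∃ δ c Cw : ℝ, GluD S φ ψ z₀ j ε ρ δ c Cw := by
  obtain ⟨e1, r1, he1, hr1, j, jc, jn, j1, H1⟩ := hp fd dh dm φ (cmb ψ z₀ 0) hst
  obtain ⟨e2, r2, he2, hr2, H2⟩ := hw fd dh dm r ds φ ψ (cmb ψ z₀ 0) hst
  obtain ⟨e3, r3, he3, hr3, H3⟩ := hs dh dm r ds φ ψ z₀ hst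
  obtain ⟨e4, r4, he4, hr4, H4⟩ := hn dh dm φ (cmb ψ z₀ 0) hst
  refine ⟨min (min e1 e2) (min e3 e4), min (min (min r1 r2) (min r3 r4)) ρ₁, j, by positivity, min_le_right _ _, ?_⟩
  intro ε hε hεle
  have q1 : ε ≤ e1 := hεle.trans ((min_le_left _ _).trans (min_le_left _ _))
  have q2 : ε ≤ e2 := hεle.trans ((min_le_left _ _).trans (min_le_right _ _))
  have q3 : ε ≤ e3 := hεle.trans ((min_le_right _ _).trans (min_le_left _ _))
  have q4 : ε ≤ e4 := hεle.trans ((min_le_right _ _).trans (min_le_right _ _))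
  have hρ : 0 < min (min (min r1 r2) (min r3 r4)) ρ₁ := by positivity
  have p1 : min (min (min r1 r2) (min r3 r4)) ρ₁ ≤ r1 :=
    (min_le_left _ _).trans ((min_le_left _ _).trans (min_le_left _ _))
  have p2 : min (min (min r1 r2) (min r3 r4)) ρ₁ ≤ r2 :=
    (min_le_left _ _).trans ((min_le_left _ _).trans (min_le_right _ _))
  have p3 : min (min (min r1 r2) (min r3 r4)) ρ₁ ≤ r3 :=
    (min_le_left _ _).trans ((min_le_right _ _).trans (min_le_left _ _))
  have p4 : min (min (min r1 r2) (min r3 r4)) ρ₁ ≤ r4 :=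
    (min_le_left _ _).trans ((min_le_right _ _).trans (min_le_right _ _))
  set ρ := min (min (min r1 r2) (min r3 r4)) ρ₁ with hρdef
  obtain ⟨Cw, hCw, G2⟩ := H2 ε ρ hε q2 hρ p2 j jc jn j1 (fun R hR => (H1 ε ρ hε q1 hρ p1 R hR).1)
  obtain ⟨δ, hδ, G3⟩ := H3 ε ρ hε q3 hρ p3
  obtain ⟨c, δ', hc, -, G4⟩ := H4 ε ρ hε q4 hρ p4
  exact ⟨δ, c, Cw, ⟨hε, hρ, hδ, hc, hCw, fun R hR => (H1 ε ρ hε q1 hρ p1 R hR).2, G2, G3,
    fun R hR u hu hG => ((G4 R hR).2 u hu hG).1, jc, jn, j1⟩⟩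

lemma glu_bd (S : Setup d F) (fd : FiniteDimensional ℂ F) (hm : MeaStmt S) {φ : Spl dh dm d} {ψ : Spz r ds dh} {z₀ : Cfg r}
    (hsub : S.IsSub φ) {j : EuclideanSpace ℝ (Fin dm) → ℝ} {ε ρ δ c Cw : ℝ} (D : GluD S φ ψ z₀ j ε ρ δ c Cw)
    (R : ℝ) (hR : 1 ≤ R) (b : Cfg r × Cfg ds × Cfg dm → F) (hb : StronglyMeasurable b)
    (hsup : ∀ q, b q ≠ 0 → ‖q.1 - z₀‖ ≤ δ ∧ ‖q.2.1‖ ≤ δ * R ∧ ‖q.2.2‖ ≤ δ * (R * Real.sqrt R))
    (hbw : MemLp b 2 (wM r ds dm)) (u : Cfg d → F) (hu : Setup.Tst u) (hG : ∀ C x, S.G C u x = 0) :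
    ‖∫ x, inner ℂ (Zb φ ψ b R x) (u x)‖ₑ ≤
      ENNReal.ofReal (Real.sqrt Cw * (Real.sqrt c)⁻¹) * eLpNorm b 2 (wM r ds dm) * eLpNorm u 2 volume := by
  have hR0 : 0 < R := lt_of_lt_of_le one_pos hR
  have hZm := ((hm fd dh dm r ds φ ψ hsub).2.1 R b hb).1
  have hZ2 : MemLp (Zb φ ψ b R) 2 volume := glu_memLp φ ψ R hR0 (hbw.mono_measure (glu_w_le r ds dm))
  rw [D.pair R hR0 (Zb φ ψ b R) u hZm hZ2 (D.sup R hR0 b hsup) hu hG]
  have hZt := (hm fd dh dm r ds φ ψ hsub).1 j ρ (Zb φ ψ b R) D.j_cont hZm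
  refine le_trans (glu_cs hZt.aestronglyMeasurable (glu_res_cont S φ hu.1.continuous).aestronglyMeasurable) ?_
  have h1 := D.wgt R hR b hb
  rw [glu_w_sq hb] at h1
  have h2 : eLpNorm (Zt S φ j ρ (Zb φ ψ b R)) 2 ((volume.prod volume).restrict (Nb (cmb ψ z₀ 0) dm R ε)) ≤
      ENNReal.ofReal (Real.sqrt Cw) * eLpNorm b 2 (wM r ds dm) := by
    refine glu_le_of_sq (le_trans h1 (le_of_eq ?_))
    rw [mul_pow, ← ENNReal.ofReal_pow (Real.sqrt_nonneg _), Real.sq_sqrt D.Cw_pos.le]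
  have h3 := glu_res_le S φ (cmb ψ z₀ 0) R ε ρ c D.c_pos hu (D.nrm R hR0 u hu hG)
  refine le_trans (mul_le_mul' h2 h3) (le_of_eq ?_)
  rw [ENNReal.ofReal_mul (Real.sqrt_nonneg _)]
  ring

theorem gluBd_stmt (S : Setup d F) (hp : PairStmt S) (hm : MeaStmt S) (hw : WgtStmt S) (hs : SupStmt S)
    (hn : NormStmt S) : GluBdStmt S := by
  intro fd dh dm r ds φ ψ z₀ hst
  obtain ⟨ε₀, ρ, j, hε₀, -, H⟩ := gluD_exists S fd hp hw hs hn φ ψ z₀ hst 1 one_pos
  obtain ⟨δ, c, Cw, D⟩ := H ε₀ hε₀ le_rfl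
  refine ⟨δ, Real.sqrt Cw * (Real.sqrt c)⁻¹, 1, D.δ_pos,
    mul_pos (Real.sqrt_pos.2 D.Cw_pos) (inv_pos.2 (Real.sqrt_pos.2 D.c_pos)), one_pos, ?_⟩
  intro R hR b hb hsup hbw u hu hG
  exact glu_bd S fd hm hst.sub D R hR b hb hsup hbw u hu hG

end Vale.Agent.P353.Z.AN
end

section

/-! # P353, all `N`, block GL: Gaussian profiles -/

set_option linter.all false

open MeasureTheory Filter Topology
open scoped ContDiff ENNReal

namespace Vale.Agent.P353.Z.AN

variable {d dh dm r ds : ℕ} {F : Type*} [NormedAddCommGroup F] [InnerProductSpace ℂ F]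

section tools

variable {α : Type*} [MeasurableSpace α] {μ : Measure α}

/-- dominated convergence in `L²` -/
lemma glu_dc {f : ℕ → α → F} {g : α → F} (hf : ∀ k, StronglyMeasurable (f k)) (hg : MemLp g 2 μ)
    (hle : ∀ k x, ‖f k x‖ ≤ ‖g x‖) (hlim : ∀ x, Tendsto (fun k => f k x) atTop (𝓝 0)) :
    Tendsto (fun k => eLpNorm (f k) 2 μ) atTop (𝓝 0) := by
  have h1 : Tendsto (fun k => ∫⁻ x, ‖f k x‖ₑ ^ 2 ∂μ) atTop (𝓝 (∫⁻ x, (0 : ℝ≥0∞) ∂μ)) := by
    refine tendsto_lintegral_of_dominated_convergence (fun x => ‖g x‖ₑ ^ 2) (fun k => (hf k).enorm.pow_const 2)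
      (fun k => ae_of_all _ fun x => ?_) ?_ (ae_of_all _ fun x => ?_)
    · exact pow_le_pow_left₀ (by positivity) (enorm_le_iff_norm_le.2 (hle k x)) 2
    · rw [glu_sq]
      exact (ENNReal.pow_lt_top hg.2).ne
    · have h2 := (continuous_enorm.tendsto (0 : F)).comp (hlim x)
      have h3 := (ENNReal.Tendsto.pow (n := 2) h2)
      simpa using h3
  rw [lintegral_zero] at h1
  have h2 : ∀ k, eLpNorm (f k) 2 μ = (∫⁻ x, ‖f k x‖ₑ ^ 2 ∂μ) ^ (1 / 2 : ℝ) := by
    intro k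
    rw [glu_sq, ← ENNReal.rpow_natCast, ← ENNReal.rpow_mul]
    norm_num
  simp only [h2]
  have h3 := (ENNReal.continuous_rpow_const (y := (1 / 2 : ℝ))).tendsto (0 : ℝ≥0∞)
  have h4 : Tendsto (fun k => (∫⁻ x, ‖f k x‖ₑ ^ 2 ∂μ) ^ (1 / 2 : ℝ)) atTop (𝓝 ((0 : ℝ≥0∞) ^ (1 / 2 : ℝ))) := h3.comp h1
  rwa [ENNReal.zero_rpow_of_pos (by norm_num)] at h4

lemma glu_tri {α β γ : Type*} [MeasurableSpace α] [MeasurableSpace β] [MeasurableSpace γ] {μ : Measure α}
    {ν : Measure β} {σ : Measure γ} [SFinite μ] [SFinite ν] [SFinite σ] {f : α × β × γ → ℝ≥0∞} {g : α × β → ℝ≥0∞}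
    (hf : Measurable f) (hg : Measurable g) (h : ∀ a b, ∫⁻ c, f (a, b, c) ∂σ ≤ g (a, b)) :
    ∫⁻ p, f p ∂(μ.prod (ν.prod σ)) ≤ ∫⁻ p, g p ∂(μ.prod ν) := by
  rw [lintegral_prod _ hf.aemeasurable, lintegral_prod _ hg.aemeasurable]
  refine lintegral_mono fun a => ?_
  have h1 : Measurable fun q : β × γ => f (a, q) := hf.comp (measurable_const.prodMk measurable_id)
  rw [lintegral_prod _ h1.aemeasurable]
  exact lintegral_mono fun b => h a b

end tools

/-- `Nf exp(-½qX)` as a function of `q` -/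
noncomputable def gTh (κ : ℝ) (Om : Cfg r → Matrix (Fin dm) (Fin dm) ℝ) (q : Cfg r × Cfg ds × Cfg dm) : ℝ :=
  Nf κ (Om q.1) * Real.exp (-(1 / 2) * qX (Om q.1) q.2.2)

lemma gTh_nn (κ : ℝ) (Om : Cfg r → Matrix (Fin dm) (Fin dm) ℝ) (q : Cfg r × Cfg ds × Cfg dm) : 0 ≤ gTh κ Om q :=
  mul_nonneg (Real.sqrt_nonneg _) (Real.exp_pos _).le

lemma glu_bG (κ : ℝ) (Om : Cfg r → Matrix (Fin dm) (Fin dm) ℝ) (a : Cfg r → Cfg ds → F) (q : Cfg r × Cfg ds × Cfg dm) :
    bG κ Om a q = ((gTh κ Om q : ℝ) : ℂ) • a q.1 q.2.1 := rfl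

/-- good data near `z₀` -/
structure GOm (S : Setup d F) (φ : Spl dh dm d) (ψ : Spz r ds dh) (z₀ : Cfg r) (δ : ℝ)
    (Om : Cfg r → Matrix (Fin dm) (Fin dm) ℝ) : Prop where
  frz : ∀ η, ‖η - z₀‖ ≤ δ → Frz (Dz S φ ψ η) ∧ IsOm S.κ (Dz S φ ψ η) (Om η)
  cont : ContinuousOn Om {η | ‖η - z₀‖ ≤ δ}
  nf : ContinuousOn (fun η => Nf S.κ (Om η)) {η | ‖η - z₀‖ ≤ δ}

variable {S : Setup d F} {φ : Spl dh dm d} {ψ : Spz r ds dh} {z₀ : Cfg r} {δ : ℝ} {Om : Cfg r → Matrix (Fin dm) (Fin dm) ℝ}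

lemma gTh_contOn (h : GOm S φ ψ z₀ δ Om) :
    ContinuousOn (gTh S.κ Om : Cfg r × Cfg ds × Cfg dm → ℝ) {q | ‖q.1 - z₀‖ ≤ δ} := by
  have hmap : Set.MapsTo (fun q : Cfg r × Cfg ds × Cfg dm => q.1) {q | ‖q.1 - z₀‖ ≤ δ} {η | ‖η - z₀‖ ≤ δ} := fun q hq => hq
  have h1 : ContinuousOn (fun q : Cfg r × Cfg ds × Cfg dm => Nf S.κ (Om q.1)) {q | ‖q.1 - z₀‖ ≤ δ} :=
    h.nf.comp continuous_fst.continuousOn hmap
  have h2 : ContinuousOn (fun q : Cfg r × Cfg ds × Cfg dm => Om q.1) {q | ‖q.1 - z₀‖ ≤ δ} :=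
    h.cont.comp continuous_fst.continuousOn hmap
  have h3 : ∀ B C, ContinuousOn (fun q : Cfg r × Cfg ds × Cfg dm => Om q.1 B C) {q | ‖q.1 - z₀‖ ≤ δ} := by
    intro B C
    exact (continuousOn_pi.1 ((continuousOn_pi.1 h2) B)) C
  have h4 : ContinuousOn (fun q : Cfg r × Cfg ds × Cfg dm => qX (Om q.1) q.2.2) {q | ‖q.1 - z₀‖ ≤ δ} := by
    unfold qX
    refine continuousOn_finset_sum _ fun i _ => continuousOn_finset_sum _ fun B _ => continuousOn_finset_sum _ fun C _ => ?_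
    have e1 : ∀ B, Continuous fun q : Cfg r × Cfg ds × Cfg dm => q.2.2 (i, B) := by
      intro B
      fun_prop
    exact ((e1 B).continuousOn.mul (h3 B C)).mul (e1 C).continuousOn
  exact h1.mul (Real.continuous_exp.comp_continuousOn (continuousOn_const.mul h4))

lemma glu_closed (z₀ : Cfg r) (δ : ℝ) (ds dm : ℕ) : IsClosed {q : Cfg r × Cfg ds × Cfg dm | ‖q.1 - z₀‖ ≤ δ} :=
  isClosed_le (continuous_fst.sub continuous_const).norm continuous_const

lemma glu_bG_meas (h : GOm S φ ψ z₀ δ Om) {a : Cfg r → Cfg ds → F}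
    (ha : StronglyMeasurable (fun q : Cfg r × Cfg ds => a q.1 q.2)) (hsup : ∀ η s, a η s ≠ 0 → ‖η - z₀‖ ≤ δ) :
    StronglyMeasurable (bG S.κ Om a : Cfg r × Cfg ds × Cfg dm → F) := by
  classical
  set K : Set (Cfg r × Cfg ds × Cfg dm) := {q | ‖q.1 - z₀‖ ≤ δ} with hK
  have h1 : Measurable (K.piecewise (gTh S.κ Om) (fun _ => (0 : ℝ))) :=
    ContinuousOn.measurable_piecewise (gTh_contOn h) continuousOn_const (glu_closed z₀ δ ds dm).measurableSet
  have h2 : (bG S.κ Om a : Cfg r × Cfg ds × Cfg dm → F) =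
      fun q => ((K.piecewise (gTh S.κ Om) (fun _ => (0 : ℝ)) q : ℝ) : ℂ) • a q.1 q.2.1 := by
    funext q
    rw [glu_bG]
    by_cases hq : q ∈ K
    · rw [Set.piecewise_eq_of_mem _ _ _ hq]
    · have : a q.1 q.2.1 = 0 := by
        by_contra hne
        exact hq (hsup _ _ hne)
      rw [this, smul_zero, smul_zero]
  rw [h2]
  have h3 : Measurable fun q : Cfg r × Cfg ds × Cfg dm => (q.1, q.2.1) :=
    measurable_fst.prodMk (measurable_fst.comp measurable_snd)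
  exact ((Complex.measurable_ofReal.comp h1).stronglyMeasurable).smul (ha.comp_measurable h3)

lemma glu_bG_in {C : ℝ} {η : Cfg r} {s : Cfg ds} {a : Cfg r → Cfg ds → F}
    (hmom : a η s ≠ 0 → ∫⁻ X : Cfg dm, ENNReal.ofReal ((1 + ‖X‖ ^ 2) ^ (dm + 1) *
      (Nf S.κ (Om η) * Real.exp (-(1 / 2) * qX (Om η) X)) ^ 2) ≤ ENNReal.ofReal C) :
    ∫⁻ X : Cfg dm, ENNReal.ofReal ((1 + ‖X‖ ^ 2) ^ (dm + 1)) * ‖bG S.κ Om a (η, s, X)‖ₑ ^ 2 ≤
      ENNReal.ofReal C * ‖a η s‖ₑ ^ 2 := by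
  by_cases hz : a η s = 0
  · have : ∀ X : Cfg dm, bG S.κ Om a (η, s, X) = 0 := fun X => by rw [glu_bG]; simp [hz]
    simp [this]
  · have h1 : ∀ X : Cfg dm, ENNReal.ofReal ((1 + ‖X‖ ^ 2) ^ (dm + 1)) * ‖bG S.κ Om a (η, s, X)‖ₑ ^ 2 =
        ENNReal.ofReal ((1 + ‖X‖ ^ 2) ^ (dm + 1) * (Nf S.κ (Om η) * Real.exp (-(1 / 2) * qX (Om η) X)) ^ 2) * ‖a η s‖ₑ ^ 2 := by
      intro X
      rw [glu_bG, enorm_smul, mul_pow, ← mul_assoc]
      congr 1
      rw [ENNReal.ofReal_mul (by positivity)]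
      congr 1
      rw [← ofReal_norm_eq_enorm, Complex.norm_real, Real.norm_eq_abs, abs_of_nonneg (gTh_nn _ _ _),
        ← ENNReal.ofReal_pow (gTh_nn _ _ _)]
      rfl
    simp only [h1]
    rw [lintegral_mul_const' _ _ (by simp)]
    gcongr
    exact hmom hz

/-- weighted norm of Gaussian profiles -/
lemma glu_bG_norm (h : GOm S φ ψ z₀ δ Om) {C : ℝ} (hC : 0 < C)
    (hmom : ∀ η, ‖η - z₀‖ ≤ δ → ∫⁻ X : Cfg dm, ENNReal.ofReal ((1 + ‖X‖ ^ 2) ^ (dm + 1) *
      (Nf S.κ (Om η) * Real.exp (-(1 / 2) * qX (Om η) X)) ^ 2) ≤ ENNReal.ofReal C)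
    {a : Cfg r → Cfg ds → F}
    (ha : StronglyMeasurable (fun q : Cfg r × Cfg ds => a q.1 q.2)) (hsup : ∀ η s, a η s ≠ 0 → ‖η - z₀‖ ≤ δ) :
    eLpNorm (bG S.κ Om a : Cfg r × Cfg ds × Cfg dm → F) 2 (wM r ds dm) ≤
      ENNReal.ofReal (Real.sqrt C) * eLpNorm (fun q : Cfg r × Cfg ds => a q.1 q.2) 2 (volume.prod volume) := by
  have hb := glu_bG_meas h ha hsup
  have hm1 : Measurable fun q : Cfg r × Cfg ds × Cfg dm =>
      ENNReal.ofReal ((1 + ‖q.2.2‖ ^ 2) ^ (dm + 1)) * ‖bG S.κ Om a q‖ₑ ^ 2 :=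
    (glu_w_meas r ds dm).mul (hb.enorm.pow_const 2)
  have hm2 : Measurable fun q : Cfg r × Cfg ds => ENNReal.ofReal C * ‖a q.1 q.2‖ₑ ^ 2 :=
    (ha.enorm.pow_const 2).const_mul _
  have key := glu_tri (μ := (volume : Measure (Cfg r))) (ν := (volume : Measure (Cfg ds)))
    (σ := (volume : Measure (Cfg dm))) hm1 hm2 (fun η s => glu_bG_in fun hne => hmom η (hsup _ _ hne))
  rw [lintegral_const_mul' _ _ ENNReal.ofReal_ne_top, glu_w_sq hb, glu_sq] at key
  refine glu_le_of_sq ?_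
  rw [glu_sq, mul_pow, ← ENNReal.ofReal_pow (Real.sqrt_nonneg _), Real.sq_sqrt hC.le]
  exact key

/-- `vG a = Vb (bG a)` -/
lemma glu_vG [CompleteSpace F] (hg : GauStmt) (h : GOm S φ ψ z₀ δ Om) {a : Cfg r → Cfg ds → F} (hsup : ∀ η s, a η s ≠ 0 → ‖η - z₀‖ ≤ δ)
    (η : Cfg r) (s : Cfg ds) (w : Wsp dm) : vG S φ ψ Om a η s w = Vb S φ ψ (bG S.κ Om a) η s w := by
  by_cases hz : a η s = 0
  · have h1 : ∀ X : Cfg dm, bG S.κ Om a (η, s, X) = 0 := fun X => by rw [glu_bG]; simp [hz]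
    simp only [vG, Vb, hz, h1, smul_zero, integral_zero]
  · obtain ⟨h1, h2⟩ := h.frz η (hsup _ _ hz)
    obtain ⟨-, -, -, -, -, h3⟩ := hg dm S.κ (Dz S φ ψ η) (Om η) S.κ_pos h1 h2
    obtain ⟨-, h4⟩ := h3 w
    have h5 : (∫ a' : EuclideanSpace ℝ (Fin dm), bG S.κ Om a (η, s, xi (Dz S φ ψ η) w a')) =
        ((Nf S.κ (Om η) * ∫ a' : EuclideanSpace ℝ (Fin dm), Real.exp (-(1 / 2) * qX (Om η) (xi (Dz S φ ψ η) w a')) : ℝ) : ℂ) •
          a η s := by
      have e1 : ∀ a' : EuclideanSpace ℝ (Fin dm), bG S.κ Om a (η, s, xi (Dz S φ ψ η) w a') =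
          (Nf S.κ (Om η) * Real.exp (-(1 / 2) * qX (Om η) (xi (Dz S φ ψ η) w a'))) • a η s := by
        intro a'
        rw [glu_bG, Complex.coe_smul]
        rfl
      simp only [e1]
      rw [integral_smul_const, integral_const_mul, Complex.coe_smul]
    rw [vG, Vb, h5, smul_smul, ← Complex.ofReal_mul, h4]

end Vale.Agent.P353.Z.AN
end

section

/-! # P353, all `N`, block GL3: measurability and scaling -/

open MeasureTheory Filter Topology
open scoped ContDiff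

namespace Vale.Agent.P353.Z.AN

variable {d dh dm r ds : ℕ} {F : Type*} [NormedAddCommGroup F] [InnerProductSpace ℂ F]

theorem mea824_hzs (ψ : Spz r ds dh) :
    MeasurePreserving (fun y : Cfg dh => (hz ψ y, hs ψ y)) volume (volume.prod volume) := by
  let e : Fin 9 × Fin dh ≃ (Fin 9 × Fin r) ⊕ (Fin 9 × Fin ds) :=
    (Equiv.prodCongr (Equiv.refl _) ψ.symm).trans (Equiv.prodSumDistrib _ _ _)
  have m1 := PiLp.volume_preserving_ofLp (Fin 9 × Fin dh)
  have m2 := (volume_measurePreserving_piCongrLeft (fun _ : Fin 9 × Fin dh => ℝ) e.symm).symm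
  have m3 := volume_measurePreserving_sumPiEquivProdPi
    (fun _ : (Fin 9 × Fin r) ⊕ (Fin 9 × Fin ds) => ℝ)
  have n2 := PiLp.volume_preserving_toLp (Fin 9 × Fin r)
  have n3 := PiLp.volume_preserving_toLp (Fin 9 × Fin ds)
  exact (n2.prod n3).comp (m3.comp (m2.comp m1))

theorem mea824_chz (ψ : Spz r ds dh) : Continuous (hz ψ) := by
  unfold hz; fun_prop

theorem mea824_chs (ψ : Spz r ds dh) : Continuous (hs ψ) := by
  unfold hs; fun_prop

theorem mea824_cpm (φ : Spl dh dm d) : Continuous (pm φ) := by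
  unfold pm; fun_prop

theorem mea824_czy (φ : Spl dh dm d) : Continuous (zy φ : Cfg d → Cfg dh) := by
  unfold zy; fun_prop

theorem mea824_cDy (S : Setup d F) (φ : Spl dh dm d) (i : Fin 9) : Continuous fun y : Cfg dh => S.Dy φ i y := by
  unfold Setup.Dy Setup.Dm
  refine continuous_matrix fun B C => ?_
  simp only [Matrix.of_apply]
  fun_prop

theorem mea824_cJd (S : Setup d F) (φ : Spl dh dm d) : Continuous fun y : Cfg dh => S.Jd φ y :=
  ((mea824_cDy S φ 8).matrix_det).abs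

theorem mea824_ccmb (ψ : Spz r ds dh) : Continuous fun η : Cfg r => cmb ψ η 0 := by
  unfold cmb
  refine (PiLp.continuous_toLp 2 _).comp (continuous_pi fun p => ?_)
  rcases ψ.symm p.2 with a | b
  · simp only [Sum.elim_inl]; fun_prop
  · simp only [Sum.elim_inr]; fun_prop

theorem mea824_cDz (S : Setup d F) (φ : Spl dh dm d) (ψ : Spz r ds dh) (i : Fin 9) :
    Continuous fun η : Cfg r => Dz S φ ψ η i := (mea824_cDy S φ i).comp (mea824_ccmb ψ)

theorem mea824_cxi (S : Setup d F) (φ : Spl dh dm d) (ψ : Spz r ds dh) :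
    Continuous fun q : (Cfg r × Cfg ds × Wsp dm) × EuclideanSpace ℝ (Fin dm) => xi (Dz S φ ψ q.1.1) q.1.2.2 q.2 := by
  unfold xi
  refine (PiLp.continuous_toLp 2 _).comp (continuous_pi fun p => ?_)
  refine Continuous.sub ?_ ?_
  · unfold wt
    rcases p with ⟨i, B⟩
    refine Fin.lastCases ?_ (fun j => ?_) i
    · simp only [Fin.lastCases_last]; fun_prop
    · simp only [Fin.lastCases_castSucc]; fun_prop
  · refine continuous_finsetSum _ fun C _ => ?_
    refine Continuous.mul ?_ (by fun_prop)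
    exact ((mea824_cDz S φ ψ p.1).comp (continuous_fst.comp continuous_fst)).matrix_elem _ _

theorem mea824_ctub (S : Setup d F) (φ : Spl dh dm d) (h : ContDiff ℝ ∞ (tz S φ)) :
    Continuous fun q : (Cfg dh × Wsp dm) × EuclideanSpace ℝ (Fin dm) => tub S φ q.2 q.1 := by
  let g : (Cfg dh × Wsp dm) × EuclideanSpace ℝ (Fin dm) → Cfg d := fun q =>
    WithLp.toLp 2 fun p => Sum.elim (fun A => q.1.1 (p.1, A))
      (fun B => Fin.lastCases (motive := fun _ => ℝ) (q.2 B) (fun j => q.1.2 (j, B)) p.1) (φ.symm p.2)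
  have hg : Continuous g := by
    refine (PiLp.continuous_toLp 2 _).comp (continuous_pi fun p => ?_)
    rcases φ.symm p.2 with a | b
    · simp only [Sum.elim_inl]; fun_prop
    · simp only [Sum.elim_inr]
      rcases p with ⟨i, B⟩
      refine Fin.lastCases ?_ (fun j => ?_) i
      · simp only [Fin.lastCases_last]; fun_prop
      · simp only [Fin.lastCases_castSucc]; fun_prop
  have h8 : (8 : Fin 9) = Fin.last 8 := rfl
  have h1 : ∀ q, zm φ (g q) = q.2 := by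
    intro q
    ext B
    simp only [zm, g, Equiv.symm_apply_apply, Sum.elim_inr, h8, Fin.lastCases_last]
  have h2 : ∀ q, zy φ (g q) = q.1.1 := by
    intro q
    ext p
    simp [zy, g]
  have h3 : ∀ q, zw φ (g q) = q.1.2 := by
    intro q
    ext p
    simp [zw, g]
  have : (fun q : (Cfg dh × Wsp dm) × EuclideanSpace ℝ (Fin dm) => tub S φ q.2 q.1) = fun q => tz S φ (g q) := by
    funext q
    simp only [tz, h1, h2, h3]
  rw [this]
  exact h.continuous.comp hg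

theorem mea824_cexm (φ : Spl dh dm d) : Continuous (exm φ : EuclideanSpace ℝ (Fin dm) → Fin d → ℝ) := by
  unfold exm
  refine continuous_pi fun A => ?_
  rcases φ.symm A with a | b
  · simp only [Sum.elim_inl]; fun_prop
  · simp only [Sum.elim_inr]; fun_prop

theorem mea824_sc (ψ : Spz r ds dh) (R : ℝ) (v : Cfg r → Cfg ds → Wsp dm → F) (hR : 0 < R)
    (hv : StronglyMeasurable (fun q : Cfg r × Cfg ds × Wsp dm => v q.1 q.2.1 q.2.2)) :
    StronglyMeasurable (fun p : Cfg dh × Wsp dm => Ts0 ψ v R p.1 p.2) ∧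
    ∫⁻ p : Cfg dh × Wsp dm, ‖Ts0 ψ v R p.1 p.2‖ₑ ^ 2 ∂(volume.prod volume) =
      ∫⁻ q : Cfg r × Cfg ds × Wsp dm, ‖v q.1 q.2.1 q.2.2‖ₑ ^ 2 ∂(volume.prod (volume.prod volume)) := by
  have hc : Continuous fun p : Cfg dh × Wsp dm => ((R⁻¹ • hz ψ p.1, hs ψ p.1, Real.sqrt R • p.2) : Cfg r × Cfg ds × Wsp dm) := by
    have a1 := mea824_chz ψ
    have a2 := mea824_chs ψ
    fun_prop
  have hS : StronglyMeasurable (fun p : Cfg dh × Wsp dm => Ts0 ψ v R p.1 p.2) := by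
    unfold Ts0
    exact (hv.comp_measurable hc.measurable).const_smul _
  refine ⟨hS, ?_⟩
  set c : ℝ := R ^ (2 * (dm : ℝ) - 9 * (r : ℝ) / 2) with hcdef
  have hc0 : 0 < c := Real.rpow_pos_of_pos hR _
  have e1 : ∀ p : Cfg dh × Wsp dm, ‖Ts0 ψ v R p.1 p.2‖ₑ ^ 2 =
      ENNReal.ofReal (c ^ 2) * ‖v (R⁻¹ • hz ψ p.1) (hs ψ p.1) (Real.sqrt R • p.2)‖ₑ ^ 2 := by
    intro p
    unfold Ts0
    rw [enorm_smul, mul_pow, ← hcdef]
    congr 1
    rw [ENNReal.ofReal_pow hc0.le]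
    congr 1
    rw [← ofReal_norm, Complex.norm_real, Real.norm_of_nonneg hc0.le]
  simp only [e1]
  have hvm : Measurable fun q : Cfg r × Cfg ds × Wsp dm => ‖v q.1 q.2.1 q.2.2‖ₑ ^ 2 := (hv.enorm).pow_const 2
  have hm2 : Measurable fun p : Cfg dh × Wsp dm =>
      ‖v (R⁻¹ • hz ψ p.1) (hs ψ p.1) (Real.sqrt R • p.2)‖ₑ ^ 2 := hvm.comp hc.measurable
  rw [lintegral_const_mul _ hm2]
  -- rearrangement
  have m1 : MeasurePreserving (fun p : Cfg dh × Wsp dm => (hz ψ p.1, (hs ψ p.1, p.2)))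
      (volume.prod volume) (volume.prod (volume.prod volume)) := by
    have k1 := (mea824_hzs ψ).prod (MeasurePreserving.id (volume : Measure (Wsp dm)))
    exact (measurePreserving_prodAssoc (volume : Measure (Cfg r)) (volume : Measure (Cfg ds))
      (volume : Measure (Wsp dm))).comp k1
  have hsq : 0 < Real.sqrt R := Real.sqrt_pos.2 hR
  have e2 : ∫⁻ p : Cfg dh × Wsp dm, ‖v (R⁻¹ • hz ψ p.1) (hs ψ p.1) (Real.sqrt R • p.2)‖ₑ ^ 2 ∂(volume.prod volume) =
      ∫⁻ q : Cfg r × Cfg ds × Wsp dm, ‖v (R⁻¹ • q.1) q.2.1 (Real.sqrt R • q.2.2)‖ₑ ^ 2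
        ∂(volume.prod (volume.prod volume)) := by
    have hm3 : Measurable fun q : Cfg r × Cfg ds × Wsp dm =>
        ‖v (R⁻¹ • q.1) q.2.1 (Real.sqrt R • q.2.2)‖ₑ ^ 2 := by
      have : Continuous fun q : Cfg r × Cfg ds × Wsp dm =>
          ((R⁻¹ • q.1, q.2.1, Real.sqrt R • q.2.2) : Cfg r × Cfg ds × Wsp dm) := by fun_prop
      exact hvm.comp this.measurable
    exact m1.lintegral_comp hm3
  rw [e2]
  have e3 : Measure.map (fun q : Cfg r × Cfg ds × Wsp dm =>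
      ((R⁻¹ • q.1, (q.2.1, Real.sqrt R • q.2.2)) : Cfg r × Cfg ds × Wsp dm)) (volume.prod (volume.prod volume)) =
      (ENNReal.ofReal |((R⁻¹) ^ Module.finrank ℝ (Cfg r))⁻¹| • (volume : Measure (Cfg r))).prod
        ((volume : Measure (Cfg ds)).prod
          (ENNReal.ofReal |((Real.sqrt R) ^ Module.finrank ℝ (Wsp dm))⁻¹| • (volume : Measure (Wsp dm)))) := by
    rw [← Measure.map_addHaar_smul (volume : Measure (Cfg r)) (inv_pos.2 hR).ne',
      ← Measure.map_addHaar_smul (volume : Measure (Wsp dm)) hsq.ne']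
    have k1 : (volume : Measure (Cfg ds)).prod (Measure.map (fun x : Wsp dm => Real.sqrt R • x) volume) =
        Measure.map (Prod.map id (fun x : Wsp dm => Real.sqrt R • x)) ((volume : Measure (Cfg ds)).prod volume) := by
      conv_lhs => rw [← Measure.map_id (μ := (volume : Measure (Cfg ds)))]
      rw [Measure.map_prod_map _ _ measurable_id (measurable_const_smul _)]
    rw [k1, Measure.map_prod_map _ _ (measurable_const_smul _)
      (measurable_id.prodMap (measurable_const_smul _))]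
    rfl
  have e4 : ∫⁻ q : Cfg r × Cfg ds × Wsp dm, ‖v (R⁻¹ • q.1) q.2.1 (Real.sqrt R • q.2.2)‖ₑ ^ 2
        ∂(volume.prod (volume.prod volume)) =
      ∫⁻ q : Cfg r × Cfg ds × Wsp dm, ‖v q.1 q.2.1 q.2.2‖ₑ ^ 2 ∂(Measure.map (fun q : Cfg r × Cfg ds × Wsp dm =>
      ((R⁻¹ • q.1, (q.2.1, Real.sqrt R • q.2.2)) : Cfg r × Cfg ds × Wsp dm)) (volume.prod (volume.prod volume))) := by
    rw [lintegral_map hvm (by fun_prop)]
  rw [e4, e3, Measure.prod_smul_right, Measure.prod_smul_left, Measure.prod_smul_right]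
  rw [lintegral_smul_measure, lintegral_smul_measure, smul_eq_mul, smul_eq_mul, ← mul_assoc, ← mul_assoc]
  have e5 : ENNReal.ofReal (c ^ 2) * ENNReal.ofReal |((R⁻¹) ^ Module.finrank ℝ (Cfg r))⁻¹| *
      ENNReal.ofReal |((Real.sqrt R) ^ Module.finrank ℝ (Wsp dm))⁻¹| = 1 := by
    rw [← ENNReal.ofReal_mul (by positivity), ← ENNReal.ofReal_mul (by positivity)]
    rw [← ENNReal.ofReal_one]
    congr 1
    have f1 : Module.finrank ℝ (Cfg r) = 9 * r := by simp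
    have f2 : Module.finrank ℝ (Wsp dm) = 8 * dm := by simp
    rw [f1, f2, abs_of_pos (by positivity), abs_of_pos (by positivity)]
    have g1 : Real.sqrt R ^ (8 * dm) = R ^ ((4 * dm : ℕ) : ℝ) := by
      rw [Real.rpow_natCast, show 8 * dm = 2 * (4 * dm) by ring, pow_mul, Real.sq_sqrt hR.le]
    have g2 : (R⁻¹ ^ (9 * r))⁻¹ = R ^ ((9 * r : ℕ) : ℝ) := by
      rw [Real.rpow_natCast, inv_pow, inv_inv]
    rw [g1, g2, hcdef, ← Real.rpow_natCast (R ^ (2 * (dm : ℝ) - 9 * (r : ℝ) / 2)) 2, ← Real.rpow_mul hR.le,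
      ← Real.rpow_neg hR.le, ← Real.rpow_add hR, ← Real.rpow_add hR]
    have : (2 * (dm : ℝ) - 9 * (r : ℝ) / 2) * ((2 : ℕ) : ℝ) + ((9 * r : ℕ) : ℝ) + -((4 * dm : ℕ) : ℝ) = 0 := by
      push_cast; ring
    rw [this, Real.rpow_zero]
  rw [e5, one_mul]

theorem mea_stmt (S : Setup d F) (h : DetStmt S) (h1 : EqvStmt S) : MeaStmt S := by
  intro hF dh dm r ds φ ψ hsub
  obtain ⟨-, -, hspn, -, -⟩ := h1 hF
  obtain ⟨htz, -⟩ := h dh dm φ hsub
  refine ⟨fun j ρ Z hj hZ => ?_, fun R b hb => ⟨?_, ?_⟩, fun R v hR hv => mea824_sc ψ R v hR hv⟩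
  · unfold Zt
    refine StronglyMeasurable.smul ?_ ?_
    · have : Continuous fun p : Cfg dh × Wsp dm => ((Real.sqrt (S.Jd φ p.1) : ℝ) : ℂ) :=
        Complex.continuous_ofReal.comp (Real.continuous_sqrt.comp ((mea824_cJd S φ).comp continuous_fst))
      exact this.stronglyMeasurable
    · refine StronglyMeasurable.integral_prod_right' (f := fun q : (Cfg dh × Wsp dm) × EuclideanSpace ℝ (Fin dm) =>
        ((j q.2 : ℝ) : ℂ) • spn S (-(exm φ q.2)) (Z (tub S φ q.2 q.1))) ?_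
      refine StronglyMeasurable.smul ?_ ?_
      · exact (Complex.continuous_ofReal.comp (hj.comp continuous_snd)).stronglyMeasurable
      · have k1 : StronglyMeasurable fun q : (Cfg dh × Wsp dm) × EuclideanSpace ℝ (Fin dm) =>
            spn S (-(exm φ q.2)) :=
          (hspn.comp ((mea824_cexm φ).comp continuous_snd).neg).stronglyMeasurable
        have k2 : StronglyMeasurable fun q : (Cfg dh × Wsp dm) × EuclideanSpace ℝ (Fin dm) =>
            Z (tub S φ q.2 q.1) := hZ.comp_measurable (mea824_ctub S φ htz).measurable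
        exact (isBoundedBilinearMap_apply (𝕜 := ℂ) (E := F) (F := F)).continuous.comp_stronglyMeasurable (k1.prodMk k2)
  · unfold Zb
    refine StronglyMeasurable.const_smul ?_ _
    have a1 := mea824_chz ψ
    have a2 := mea824_chs ψ
    have a3 := mea824_cpm φ
    have a4 := mea824_czy φ
    have : Continuous fun x : Cfg d => ((R⁻¹ • hz ψ (zy φ x), hs ψ (zy φ x), Real.sqrt R • pm φ x) :
        Cfg r × Cfg ds × Cfg dm) := by fun_prop
    exact hb.comp_measurable this.measurable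
  · unfold Vb
    refine StronglyMeasurable.smul ?_ ?_
    · have : Continuous fun q : Cfg r × Cfg ds × Wsp dm => ((Real.sqrt |(Dz S φ ψ q.1 8).det| : ℝ) : ℂ) :=
        Complex.continuous_ofReal.comp (Real.continuous_sqrt.comp
          ((mea824_cDz S φ ψ 8).matrix_det.abs.comp continuous_fst))
      exact this.stronglyMeasurable
    · refine StronglyMeasurable.integral_prod_right' (f := fun q : (Cfg r × Cfg ds × Wsp dm) × EuclideanSpace ℝ (Fin dm) =>
        b (q.1.1, q.1.2.1, xi (Dz S φ ψ q.1.1) q.1.2.2 q.2)) ?_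
      have a1 := mea824_cxi (ds := ds) S φ ψ
      have : Continuous fun q : (Cfg r × Cfg ds × Wsp dm) × EuclideanSpace ℝ (Fin dm) =>
          ((q.1.1, q.1.2.1, xi (Dz S φ ψ q.1.1) q.1.2.2 q.2) : Cfg r × Cfg ds × Cfg dm) := by fun_prop
      exact hb.comp_measurable this.measurable

end Vale.Agent.P353.Z.AN
end

section

/-! # P353, all `N`, block GL: GL12, scaling of the normalised vacuum and the pointwise identity -/

open MeasureTheory Filter Topology Matrix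
open scoped ContDiff

namespace Vale.Agent.P353.Z.AN.SfuA

variable {d dh dm ds dz : ℕ} {F : Type*} [NormedAddCommGroup F] [InnerProductSpace ℂ F]

/-! ### scaling of the quadratic form -/

lemma fin_W (dm : ℕ) : Module.finrank ℝ (Wsp dm) = 8 * dm := by
  rw [finrank_euclideanSpace, Fintype.card_prod, Fintype.card_fin, Fintype.card_fin]

lemma int_sq {E : Type*} [NormedAddCommGroup E] [NormedSpace ℝ E] {R : ℝ} (hR : 0 < R)
    (u : Wsp dm → E) :
    ∫ w, u (Real.sqrt R • w) = (Real.sqrt R ^ (8 * dm))⁻¹ • ∫ w, u w := by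
  have h := Measure.integral_comp_smul (volume : Measure (Wsp dm)) u (Real.sqrt R)
  rw [fin_W] at h
  rw [h, abs_of_nonneg]
  have := Real.sqrt_nonneg R
  positivity

lemma wt_smul (c : ℝ) (w : Wsp dm) (i : Fin 9) : wt (c • w) i = c • wt w i := by
  funext B
  refine Fin.lastCases ?_ (fun j => ?_) i
  · simp only [wt, Pi.smul_apply, Fin.lastCases_last, smul_zero]
  · simp only [wt, Pi.smul_apply, Fin.lastCases_castSucc, PiLp.smul_apply]

lemma sV_smul (D : Fin 9 → Matrix (Fin dm) (Fin dm) ℝ) (c : ℝ) (w : Wsp dm) :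
    sV D (c • w) = c • sV D w := by
  unfold sV
  simp only [wt_smul, Matrix.mulVec_smul, ← Finset.smul_sum]

lemma VV_smul (D : Fin 9 → Matrix (Fin dm) (Fin dm) ℝ) (c : ℝ) (w : Wsp dm) (i : Fin 9) :
    VV D (c • w) i = c • VV D w i := by
  unfold VV
  rw [wt_smul, sV_smul, Matrix.mulVec_smul, smul_sub]

lemma qf_smul (D : Fin 9 → Matrix (Fin dm) (Fin dm) ℝ) (Om : Matrix (Fin dm) (Fin dm) ℝ)
    (c : ℝ) (w : Wsp dm) : qf D Om (c • w) = c ^ 2 * qf D Om w := by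
  unfold qf
  simp only [VV_smul, Matrix.mulVec_smul, smul_dotProduct, dotProduct_smul, smul_eq_mul,
    Finset.mul_sum]
  exact Finset.sum_congr rfl fun i _ => by ring

lemma inv_smul' {R : ℝ} (hR : R ≠ 0) (M : Matrix (Fin dm) (Fin dm) ℝ) :
    (R • M)⁻¹ = R⁻¹ • M⁻¹ := by
  by_cases h : IsUnit M.det
  · exact Matrix.inv_smul' M (Units.mk0 R hR) h
  · rw [Matrix.nonsing_inv_apply_not_isUnit _ h, smul_zero]
    refine Matrix.nonsing_inv_apply_not_isUnit _ ?_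
    rw [Matrix.det_smul]
    intro h1
    exact h (isUnit_of_mul_isUnit_right h1)

lemma tI_smul {R : ℝ} (hR : R ≠ 0) (D : Fin 9 → Matrix (Fin dm) (Fin dm) ℝ) (i : Fin 9) :
    tI (fun i => R • D i) i = tI D i := by
  unfold tI
  rw [inv_smul' hR, Matrix.smul_mul, Matrix.mul_smul, smul_smul, inv_mul_cancel₀ hR, one_smul]

lemma qf_scale {R : ℝ} (hR : R ≠ 0) (D : Fin 9 → Matrix (Fin dm) (Fin dm) ℝ)
    (Om : Matrix (Fin dm) (Fin dm) ℝ) (w : Wsp dm) :
    qf (fun i => R • D i) (R • Om) w = R * qf D Om w := by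
  have h2 : t2 (fun i => R • D i) = t2 D := by
    unfold t2
    exact Finset.sum_congr rfl fun i _ => by rw [tI_smul hR]
  have hV : ∀ i, VV (fun i => R • D i) w i = VV D w i := by
    intro i
    unfold VV sV
    simp only [tI_smul hR, h2]
  unfold qf
  rw [Finset.mul_sum]
  refine Finset.sum_congr rfl fun i _ => ?_
  rw [hV, Matrix.smul_mulVec, dotProduct_smul, smul_eq_mul]

/-- normalised boson vacuum of frozen data -/
noncomputable def gh (D : Fin 9 → Matrix (Fin dm) (Fin dm) ℝ) (Om : Matrix (Fin dm) (Fin dm) ℝ) (w : Wsp dm) : ℝ :=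
  gR D Om 1 w / Real.sqrt (∫ w', gR D Om 1 w' ^ 2)

lemma gR_scale {R : ℝ} (hR : 0 < R) (D : Fin 9 → Matrix (Fin dm) (Fin dm) ℝ)
    (Om : Matrix (Fin dm) (Fin dm) ℝ) (w : Wsp dm) :
    gR (fun i => R • D i) (R • Om) 1 w = gR D Om 1 (Real.sqrt R • w) := by
  unfold gR
  rw [qf_scale hR.ne', qf_smul, Real.sq_sqrt hR.le]

lemma gh_scale {R : ℝ} (hR : 0 < R) (D : Fin 9 → Matrix (Fin dm) (Fin dm) ℝ)
    (Om : Matrix (Fin dm) (Fin dm) ℝ) (w : Wsp dm) :
    gh (fun i => R • D i) (R • Om) w = R ^ (2 * dm) * gh D Om (Real.sqrt R • w) := by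
  unfold gh
  have hs : 0 < Real.sqrt R := Real.sqrt_pos.2 hR
  have h1 : (∫ w' : Wsp dm, gR (fun i => R • D i) (R • Om) 1 w' ^ 2) =
      (R ^ (4 * dm))⁻¹ * ∫ w' : Wsp dm, gR D Om 1 w' ^ 2 := by
    simp only [gR_scale hR]
    rw [int_sq hR (fun w' : Wsp dm => gR D Om 1 w' ^ 2), smul_eq_mul]
    congr 2
    calc Real.sqrt R ^ (8 * dm) = (Real.sqrt R ^ 2) ^ (4 * dm) := by rw [← pow_mul]; congr 1; ring
      _ = R ^ (4 * dm) := by rw [Real.sq_sqrt hR.le]
  rw [h1, gR_scale hR]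
  have h2 : Real.sqrt ((R ^ (4 * dm))⁻¹ * ∫ w' : Wsp dm, gR D Om 1 w' ^ 2) =
      (R ^ (2 * dm))⁻¹ * Real.sqrt (∫ w' : Wsp dm, gR D Om 1 w' ^ 2) := by
    rw [Real.sqrt_mul (by positivity)]
    congr 1
    have : (R ^ (4 * dm))⁻¹ = ((R ^ (2 * dm))⁻¹) ^ 2 := by
      rw [inv_pow, ← pow_mul]; congr 2; ring
    rw [this, Real.sqrt_sq (by positivity)]
  rw [h2]
  have h3 : R ^ (2 * dm) ≠ 0 := (pow_pos hR _).ne'
  by_cases h4 : Real.sqrt (∫ w' : Wsp dm, gR D Om 1 w' ^ 2) = 0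
  · rw [h4]; simp
  · field_simp

/-! ### coordinates -/

lemma Dz_smul (S : Setup d F) (φ : Spl dh dm d) (ψ : Spl ds dz dh) (R : ℝ) (η : Cfg dz) :
    AD.Dz S φ ψ (R • η) = fun i => R • AD.Dz S φ ψ η i := by
  funext i
  ext B C
  simp only [AD.Dz, Setup.Dy, Setup.Dm, Matrix.of_apply, Matrix.smul_apply, smul_eq_mul, Finset.mul_sum]
  refine Finset.sum_congr rfl fun A => ?_
  intro _
  have h1 : AD.cmb ψ 0 (R • η) (i, A) = R * AD.cmb ψ 0 η (i, A) := by
    obtain ⟨a, rfl⟩ := ψ.surjective A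
    rcases a with a | a <;> simp [AD.cmb]
  rw [h1]
  ring

lemma hz_swp (ψ : Spl ds dz dh) (y : Cfg dh) : hz (swp ψ) y = AD.zp ψ y := rfl

lemma hs_swp (ψ : Spl ds dz dh) (y : Cfg dh) : hs (swp ψ) y = AD.sp ψ y := rfl

lemma sp_congr [FiniteDimensional ℂ F] {K K' : Submodule ℂ F} (h : K = K') :
    K.starProjection = K'.starProjection := by
  subst h
  rfl

/-- the slice section at scale one -/
noncomputable def vv [FiniteDimensional ℂ F] (S : Setup d F) (φ : Spl dh dm d) (ψ : Spl ds dz dh) (χ : Cfg dz → ℝ)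
    (o : Cfg ds → F) : Cfg dz → Cfg ds → Wsp dm → F :=
  vG S φ (swp ψ) (fun η => AD.omc S.κ (AD.Dz S φ ψ η)) (aP S φ ψ χ o)

lemma vv_eq [FiniteDimensional ℂ F] (S : Setup d F) (φ : Spl dh dm d) (ψ : Spl ds dz dh) (χ : Cfg dz → ℝ)
    (o : Cfg ds → F) (η : Cfg dz) (s : Cfg ds) (w : Wsp dm) :
    vv S φ ψ χ o η s w = ((gh (AD.Dz S φ ψ η) (AD.omc S.κ (AD.Dz S φ ψ η)) w : ℝ) : ℂ) • aP S φ ψ χ o η s := by
  unfold vv vG gh
  rw [Dz_swp]

/-- the pointwise identity between the integrand of `sfun` and the slice section -/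
lemma pt_id [FiniteDimensional ℂ F] (S : Setup d F) (φ : Spl dh dm d) (ψ : Spl ds dz dh) (hCmb : AD.CmbStmt) {z₀ : Cfg dz}
    {δ : ℝ} (hPc : ∀ η, ‖η - z₀‖ ≤ δ → ∀ R : ℝ, 0 < R →
      AD.omc S.κ (AD.Dz S φ ψ (R • η)) = R • AD.omc S.κ (AD.Dz S φ ψ η) ∧
      S.F0 φ (AD.Dz S φ ψ (R • η)) (AD.omc S.κ (AD.Dz S φ ψ (R • η))) =
        S.F0 φ (AD.Dz S φ ψ η) (AD.omc S.κ (AD.Dz S φ ψ η))) (χ : Cfg dz → ℝ)
    (hχ : ∀ η, χ η ≠ 0 → ‖η - z₀‖ ≤ δ) (o : Cfg ds → F) {R : ℝ} (hR : 0 < R) (ys : Cfg ds) (yz : Cfg dz) (w : Wsp dm)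
    (r : F) :
    ((R ^ (-(9 * (dz : ℝ) / 2)) : ℝ) : ℂ) * (((χ (R⁻¹ • yz) : ℝ) : ℂ) * inner ℂ (AD.vcz S φ ψ yz (o ys) w) r) =
      inner ℂ (Ts0 (swp ψ) (vv S φ ψ χ o) R (AD.cmb ψ ys yz) w) r := by
  obtain ⟨hsp, hzp, -⟩ := hCmb ds dz dh ψ
  have e1 : hz (swp ψ) (AD.cmb ψ ys yz) = yz := hzp ys yz
  have e2 : hs (swp ψ) (AD.cmb ψ ys yz) = ys := hsp ys yz
  unfold Ts0
  rw [e1, e2, vv_eq]
  by_cases h0 : χ (R⁻¹ • yz) = 0
  · have ha : aP S φ ψ χ o (R⁻¹ • yz) ys = 0 := by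
      unfold aP
      rw [h0]
      simp
    rw [ha, h0]
    simp
  · obtain ⟨η, hη⟩ : ∃ η, η = R⁻¹ • yz := ⟨_, rfl⟩
    have hyz : yz = R • η := by rw [hη, smul_smul, mul_inv_cancel₀ hR.ne', one_smul]
    rw [← hη] at h0 ⊢
    obtain ⟨h1, h2⟩ := hPc η (hχ η h0) R hR
    have hv : AD.vcz S φ ψ yz (o ys) w = ((R ^ (2 * dm) * gh (AD.Dz S φ ψ η) (AD.omc S.κ (AD.Dz S φ ψ η))
        (Real.sqrt R • w) : ℝ) : ℂ) •
        (S.F0 φ (AD.Dz S φ ψ η) (AD.omc S.κ (AD.Dz S φ ψ η))).starProjection (o ys) := by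
      unfold AD.vcz
      rw [hyz, sp_congr h2]
      congr 2
      rw [← gh_scale hR, ← h1, ← Dz_smul]
      rfl
    rw [hv]
    unfold aP
    simp only [inner_smul_left, Complex.conj_ofReal]
    have h3 : R ^ (2 * (dm : ℝ) - 9 * (dz : ℝ) / 2) = R ^ (-(9 * (dz : ℝ) / 2)) * R ^ (2 * dm) := by
      rw [← Real.rpow_natCast R (2 * dm), ← Real.rpow_add hR]
      congr 1
      push_cast
      ring
    rw [h3]
    push_cast
    ring

end Vale.Agent.P353.Z.AN.SfuA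
end

section

/-! # P353, all `N`, block GL: GL12, the slice functional as one integral over the slice -/

open MeasureTheory Filter Topology Matrix
open scoped ContDiff ENNReal

namespace Vale.Agent.P353.Z.AN.SfuA

variable {d dh dm ds dz : ℕ} {F : Type*} [NormedAddCommGroup F] [InnerProductSpace ℂ F]

/-! ### the slice box -/

/-- the slice box -/
def Eb (ψ : Spl ds dz dh) (dm : ℕ) (ε R : ℝ) : Set (Cfg dh × Wsp dm) :=
  {p | ‖AD.sp ψ p.1‖ < ε * R ∧ ‖p.2‖ < ε * R}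

lemma cont_sp (ψ : Spl ds dz dh) : Continuous (AD.sp ψ) := mea824_chs (swp ψ)

lemma cont_zp (ψ : Spl ds dz dh) : Continuous (AD.zp ψ) := mea824_chz (swp ψ)

lemma meas_Eb (ψ : Spl ds dz dh) (ε R : ℝ) : MeasurableSet (Eb ψ dm ε R) := by
  have e1 : IsOpen {p : Cfg dh × Wsp dm | ‖AD.sp ψ p.1‖ < ε * R} :=
    isOpen_lt ((cont_sp ψ).comp continuous_fst).norm continuous_const
  have e2 : IsOpen {p : Cfg dh × Wsp dm | ‖p.2‖ < ε * R} :=
    isOpen_lt continuous_snd.norm continuous_const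
  exact (e1.inter e2).measurableSet

lemma meas_Nb (y₀ : Cfg dh) (R ε : ℝ) : MeasurableSet (Nb y₀ dm R ε) := by
  have e1 : IsOpen {p : Cfg dh × Wsp dm | ‖p.1 - R • y₀‖ < ε * R} :=
    isOpen_lt (continuous_fst.sub continuous_const).norm continuous_const
  have e2 : IsOpen {p : Cfg dh × Wsp dm | ‖p.2‖ < ε * R} :=
    isOpen_lt continuous_snd.norm continuous_const
  exact (e1.inter e2).measurableSet

/-! ### restriction to the slice -/

lemma cont_res (S : Setup d F) (φ : Spl dh dm d) {u : Cfg d → F} (hu : Continuous u) :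
    Continuous fun p : Cfg dh × Wsp dm => S.res φ u p.1 p.2 := by
  unfold Setup.res
  refine Continuous.smul ?_ (hu.comp (nrm_continuous_emb φ))
  exact Complex.continuous_ofReal.comp (Real.continuous_sqrt.comp ((mea824_cJd S φ).comp continuous_fst))

lemma norm_emb_sq (φ : Spl dh dm d) (y : Cfg dh) (w : Wsp dm) :
    ‖emb φ y w‖ ^ 2 = ‖y‖ ^ 2 + ‖w‖ ^ 2 := by
  rw [EuclideanSpace.norm_sq_eq, EuclideanSpace.norm_sq_eq, EuclideanSpace.norm_sq_eq]
  rw [Fintype.sum_prod_type, Fintype.sum_prod_type, Fintype.sum_prod_type]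
  have h : ∀ i : Fin 9, ∑ A, ‖emb φ y w (i, A)‖ ^ 2 = (∑ A, ‖y (i, A)‖ ^ 2) + ∑ B, ‖wt w i B‖ ^ 2 := by
    intro i
    rw [← φ.sum_comp, Fintype.sum_sum_type]
    simp [emb, wt]
  simp only [h, Finset.sum_add_distrib]
  congr 1
  rw [Fin.sum_univ_castSucc]
  have h9 : ∑ B, ‖wt w (Fin.last 8) B‖ ^ 2 = 0 := Finset.sum_eq_zero fun B _ => by
    unfold wt
    rw [Fin.lastCases_last]
    norm_num
  rw [h9, add_zero]
  refine Finset.sum_congr rfl fun j _ => Finset.sum_congr rfl fun B _ => ?_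
  unfold wt
  rw [Fin.lastCases_castSucc]

lemma cs_res (S : Setup d F) (φ : Spl dh dm d) {u : Cfg d → F} (hu : HasCompactSupport u) :
    HasCompactSupport fun p : Cfg dh × Wsp dm => S.res φ u p.1 p.2 := by
  obtain ⟨L, hL⟩ := hu.isCompact.isBounded.subset_closedBall (0 : Cfg d)
  refine HasCompactSupport.of_support_subset_isCompact
    (isCompact_closedBall (0 : Cfg dh × Wsp dm) L) ?_
  intro p hp
  have h1 : u (emb φ p.1 p.2) ≠ 0 := by
    intro h0
    apply hp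
    show S.res φ u p.1 p.2 = 0
    unfold Setup.res
    rw [h0, smul_zero]
  have h2 := hL (subset_tsupport _ h1)
  rw [mem_closedBall_zero_iff] at h2 ⊢
  have h3 := norm_emb_sq φ p.1 p.2
  have h0 : 0 ≤ ‖emb φ p.1 p.2‖ := norm_nonneg _
  rw [Prod.norm_def]
  refine max_le ?_ ?_
  · refine le_trans ?_ h2
    refine le_of_pow_le_pow_left₀ two_ne_zero h0 ?_
    rw [h3]
    nlinarith [sq_nonneg ‖p.2‖]
  · refine le_trans ?_ h2
    refine le_of_pow_le_pow_left₀ two_ne_zero h0 ?_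
    rw [h3]
    nlinarith [sq_nonneg ‖p.1‖]

lemma memLp_res (S : Setup d F) (φ : Spl dh dm d) {u : Cfg d → F} (hu : Setup.Tst u) :
    MemLp (fun p : Cfg dh × Wsp dm => S.res φ u p.1 p.2) 2 (volume.prod volume) :=
  (cont_res S φ hu.1.continuous).memLp_of_hasCompactSupport (cs_res S φ hu.2)

/-! ### products of square integrable functions -/

lemma int_inner {X : Type*} [MeasurableSpace X] {μ : Measure X} {f g : X → F} (hf : MemLp f 2 μ) (hg : MemLp g 2 μ) :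
    Integrable (fun x => (inner ℂ (f x) (g x) : ℂ)) μ := by
  have h1 : Integrable (fun x => ‖f x‖ ^ 2) μ := hf.integrable_norm_pow (by norm_num)
  have h2 : Integrable (fun x => ‖g x‖ ^ 2) μ := hg.integrable_norm_pow (by norm_num)
  refine (h1.add h2).mono' (hf.1.inner hg.1) (Eventually.of_forall fun x => ?_)
  refine (norm_inner_le_norm (𝕜 := ℂ) _ _).trans ?_
  show ‖f x‖ * ‖g x‖ ≤ ‖f x‖ ^ 2 + ‖g x‖ ^ 2
  nlinarith [sq_nonneg (‖f x‖ - ‖g x‖), sq_nonneg ‖f x‖, sq_nonneg ‖g x‖]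

/-! ### the slice functional -/

/-- integrals over the slice in the coordinates of `cmb` -/
lemma int_cmb (hCmb : AD.CmbStmt) (ψ : Spl ds dz dh) (g : Cfg dh × Wsp dm → ℂ)
    (hg : Integrable g (volume.prod volume)) :
    ∫ yz : Cfg dz, ∫ ys : Cfg ds, ∫ w : Wsp dm, g (AD.cmb ψ ys yz, w) =
      ∫ p, g p ∂((volume : Measure (Cfg dh)).prod (volume : Measure (Wsp dm))) := by
  obtain ⟨-, -, -, -, -, -, hmp⟩ := hCmb ds dz dh ψ
  rw [integral_prod g hg]
  have hH : Integrable (fun y : Cfg dh => ∫ w : Wsp dm, g (y, w)) volume := hg.integral_prod_left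
  have h1 : ∫ y : Cfg dh, ∫ w : Wsp dm, g (y, w) =
      ∫ q : Cfg ds × Cfg dz, (∫ w : Wsp dm, g (AD.cmb ψ q.1 q.2, w)) ∂(volume.prod volume) := by
    have h2 := integral_map (μ := (volume : Measure (Cfg ds)).prod (volume : Measure (Cfg dz)))
      hmp.measurable.aemeasurable (f := fun y : Cfg dh => ∫ w : Wsp dm, g (y, w))
      (by rw [hmp.map_eq]; exact hH.1)
    rw [hmp.map_eq] at h2
    exact h2
  rw [h1]
  have h3 : Integrable (fun q : Cfg ds × Cfg dz => ∫ w : Wsp dm, g (AD.cmb ψ q.1 q.2, w)) (volume.prod volume) :=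
    hmp.integrable_comp_of_integrable hH
  rw [integral_prod_symm _ h3]

/-- `sfun` as one integral over the slice box -/
lemma sfun_eq [FiniteDimensional ℂ F] (S : Setup d F) (φ : Spl dh dm d) (ψ : Spl ds dz dh) (hCmb : AD.CmbStmt) {z₀ : Cfg dz}
    {δ : ℝ} (hPc : ∀ η, ‖η - z₀‖ ≤ δ → ∀ R : ℝ, 0 < R →
      AD.omc S.κ (AD.Dz S φ ψ (R • η)) = R • AD.omc S.κ (AD.Dz S φ ψ η) ∧
      S.F0 φ (AD.Dz S φ ψ (R • η)) (AD.omc S.κ (AD.Dz S φ ψ (R • η))) =
        S.F0 φ (AD.Dz S φ ψ η) (AD.omc S.κ (AD.Dz S φ ψ η))) (χ : Cfg dz → ℝ)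
    (hχ : ∀ η, χ η ≠ 0 → ‖η - z₀‖ ≤ δ) (o : Cfg ds → F) {R : ℝ} (hR : 0 < R) (ε : ℝ) (u : Cfg d → F) (hu : Setup.Tst u)
    (hv : MemLp (fun p : Cfg dh × Wsp dm => Ts0 (swp ψ) (vv S φ ψ χ o) R p.1 p.2) 2 (volume.prod volume)) :
    AD.sfun S φ ψ ε R χ o u = ∫ p in Eb ψ dm ε R,
      inner ℂ (Ts0 (swp ψ) (vv S φ ψ χ o) R p.1 p.2) (S.res φ u p.1 p.2) ∂(volume.prod volume) := by
  obtain ⟨hsp, hzp, -⟩ := hCmb ds dz dh ψ
  have hg : Integrable (fun p : Cfg dh × Wsp dm => (inner ℂ (Ts0 (swp ψ) (vv S φ ψ χ o) R p.1 p.2)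
      (S.res φ u p.1 p.2) : ℂ)) (volume.prod volume) := int_inner hv (memLp_res S φ hu)
  rw [← integral_indicator (meas_Eb ψ ε R), ← int_cmb hCmb ψ _ (hg.indicator (meas_Eb ψ ε R))]
  unfold AD.sfun
  rw [← integral_const_mul]
  refine integral_congr_ae (Eventually.of_forall fun yz => ?_)
  simp only
  rw [← mul_assoc, ← integral_indicator measurableSet_ball, ← integral_const_mul]
  refine integral_congr_ae (Eventually.of_forall fun ys => ?_)
  simp only
  by_cases hys : ys ∈ Metric.ball (0 : Cfg ds) (ε * R)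
  · rw [Set.indicator_of_mem hys, ← integral_indicator measurableSet_ball, ← integral_const_mul]
    refine integral_congr_ae (Eventually.of_forall fun w => ?_)
    simp only
    by_cases hw : w ∈ Metric.ball (0 : Wsp dm) (ε * R)
    · rw [Set.indicator_of_mem hw, Set.indicator_of_mem, mul_assoc]
      · exact pt_id S φ ψ hCmb hPc χ hχ o hR ys yz w _
      · refine ⟨?_, ?_⟩
        · show ‖AD.sp ψ (AD.cmb ψ ys yz)‖ < ε * R
          rw [hsp]
          exact mem_ball_zero_iff.1 hys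
        · exact mem_ball_zero_iff.1 hw
    · rw [Set.indicator_of_notMem hw, Set.indicator_of_notMem, mul_zero]
      intro h
      exact hw (mem_ball_zero_iff.2 h.2)
  · rw [Set.indicator_of_notMem hys, mul_zero]
    symm
    refine integral_eq_zero_of_ae (Eventually.of_forall fun w => ?_)
    simp only [Pi.zero_apply]
    rw [Set.indicator_of_notMem]
    intro h
    have h1 : ‖AD.sp ψ (AD.cmb ψ ys yz)‖ < ε * R := h.1
    rw [hsp] at h1
    exact hys (mem_ball_zero_iff.2 h1)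

end Vale.Agent.P353.Z.AN.SfuA
end

section

/-! # P353, all `N`, block GL: GL12 for sequences with bounded norm -/

open MeasureTheory Filter Topology Matrix
open scoped ContDiff ENNReal

namespace Vale.Agent.P353.Z.AN.SfuA

variable {d dh dm ds dz : ℕ} {F : Type*} [NormedAddCommGroup F] [InnerProductSpace ℂ F]

lemma diff_le {X : Type*} [MeasurableSpace X] {μ : Measure X} {f g : X → F} (hf : MemLp f 2 μ) (hg : MemLp g 2 μ)
    {E N : Set X} (hE : MeasurableSet E) (hN : MeasurableSet N) (h : ∀ x ∈ E, f x ≠ 0 → x ∈ N) :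
    ‖(∫ x in E, (inner ℂ (f x) (g x) : ℂ) ∂μ) - ∫ x in N, inner ℂ (f x) (g x) ∂μ‖ₑ ≤
      (∫⁻ x in Eᶜ, ‖f x‖ₑ ^ 2 ∂μ) ^ (1 / 2 : ℝ) * (∫⁻ x in N, ‖g x‖ₑ ^ 2 ∂μ) ^ (1 / 2 : ℝ) := by
  have hi : Integrable (fun x => (inner ℂ (f x) (g x) : ℂ)) μ := int_inner hf hg
  have e1 : (∫ x in E, (inner ℂ (f x) (g x) : ℂ) ∂μ) - ∫ x in N, inner ℂ (f x) (g x) ∂μ =
      -∫ x in N \ E, inner ℂ (f x) (g x) ∂μ := by
    rw [← integral_indicator hE, ← integral_indicator hN, ← integral_indicator (hN.diff hE),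
      ← integral_sub (hi.indicator hE) (hi.indicator hN), ← integral_neg]
    refine integral_congr_ae (Eventually.of_forall fun x => ?_)
    simp only
    by_cases h1 : x ∈ E
    · by_cases h2 : x ∈ N
      · rw [Set.indicator_of_mem h1, Set.indicator_of_mem h2, Set.indicator_of_notMem (fun h3 => h3.2 h1), sub_self,
          neg_zero]
      · have h3 : f x = 0 := by
          by_contra h3
          exact h2 (h x h1 h3)
        rw [Set.indicator_of_mem h1, Set.indicator_of_notMem h2, Set.indicator_of_notMem (fun h3 => h3.2 h1), h3]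
        simp
    · by_cases h2 : x ∈ N
      · rw [Set.indicator_of_notMem h1, Set.indicator_of_mem h2, Set.indicator_of_mem (show x ∈ N \ E from ⟨h2, h1⟩),
          zero_sub]
      · rw [Set.indicator_of_notMem h1, Set.indicator_of_notMem h2, Set.indicator_of_notMem (fun h3 => h2 h3.1),
          sub_self, neg_zero]
  rw [e1, enorm_neg]
  refine (enorm_integral_le_lintegral_enorm _).trans ?_
  have e2 : ∫⁻ x in N \ E, ‖(inner ℂ (f x) (g x) : ℂ)‖ₑ ∂μ ≤ ∫⁻ x in N \ E, ‖f x‖ₑ * ‖g x‖ₑ ∂μ := by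
    refine lintegral_mono fun x => ?_
    rw [← ofReal_norm, ← ofReal_norm, ← ofReal_norm, ← ENNReal.ofReal_mul (norm_nonneg _)]
    exact ENNReal.ofReal_le_ofReal (norm_inner_le_norm (𝕜 := ℂ) _ _)
  refine e2.trans ?_
  have e3 := ENNReal.lintegral_mul_le_Lp_mul_Lq (μ.restrict (N \ E)) Real.HolderConjugate.two_two
    (f := fun x => ‖f x‖ₑ) (g := fun x => ‖g x‖ₑ) hf.1.enorm.restrict hg.1.enorm.restrict
  refine e3.trans ?_
  simp only [ENNReal.rpow_ofNat]
  refine mul_le_mul' (ENNReal.rpow_le_rpow (lintegral_mono_set fun x hx => hx.2) (by norm_num))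
    (ENNReal.rpow_le_rpow (lintegral_mono_set fun x hx => hx.1) (by norm_num))

lemma lint_sq {X : Type*} [MeasurableSpace X] {μ : Measure X} {f : X → F} (hm : MemLp f 2 μ) (N : Set X) :
    ∫⁻ p in N, ‖f p‖ₑ ^ 2 ∂μ = ENNReal.ofReal (∫ p in N, ‖f p‖ ^ 2 ∂μ) := by
  have h1 : Integrable (fun p => ‖f p‖ ^ 2) (μ.restrict N) :=
    (hm.integrable_norm_pow (by norm_num)).restrict
  rw [ofReal_integral_eq_lintegral_ofReal h1 (Eventually.of_forall fun p => sq_nonneg _)]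
  refine lintegral_congr fun p => ?_
  rw [← ofReal_norm, ENNReal.ofReal_pow (norm_nonneg _)]

lemma int_le {u : Cfg d → F} (hu : Setup.Tst u) (T : Set (Cfg d)) :
    ∫ x in T, ‖u x‖ ^ 2 ≤ ∫ x, ‖u x‖ ^ 2 := by
  have h3 : Integrable (fun x => ‖u x‖ ^ 2) (volume : Measure (Cfg d)) :=
    (hu.1.continuous.memLp_of_hasCompactSupport hu.2 (p := 2)).integrable_norm_pow (by norm_num)
  exact setIntegral_le_integral h3 (Eventually.of_forall fun x => sq_nonneg _)

lemma lint_res {S : Setup d F} {φ : Spl dh dm d} {u : Cfg d → F} (hu : Setup.Tst u) {T : Set (Cfg d)}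
    {N : Set (Cfg dh × Wsp dm)} {c C : ℝ} (hc : 0 < c)
    (h : ∫ x in T, ‖u x‖ ^ 2 = c * ∫ p in N, ‖S.res φ u p.1 p.2‖ ^ 2 ∂(volume.prod volume))
    (hC : ∫ x, ‖u x‖ ^ 2 ≤ C) :
    ∫⁻ p in N, ‖S.res φ u p.1 p.2‖ₑ ^ 2 ∂(volume.prod volume) ≤ ENNReal.ofReal (C / c) := by
  rw [lint_sq (memLp_res (dh := dh) (dm := dm) S φ hu) N]
  refine ENNReal.ofReal_le_ofReal ?_
  rw [le_div_iff₀ hc, mul_comm, ← h]
  exact (int_le hu T).trans hC

/-- the support of the slice section inside the box lies in the slice ball -/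
lemma supp_Nb [FiniteDimensional ℂ F] (S : Setup d F) (φ : Spl dh dm d) (ψ : Spl ds dz dh) (hCmb : AD.CmbStmt) {z₀ : Cfg dz}
    {ε εG R : ℝ} (hR : 0 < R) (hε : 0 < ε) (hεG : 2 * ε ≤ εG) (χ : Cfg dz → ℝ) (hχ : ∀ η, χ η ≠ 0 → ‖η - z₀‖ < ε)
    (o : Cfg ds → F) (p : Cfg dh × Wsp dm) (hp : p ∈ Eb ψ dm ε R)
    (h0 : Ts0 (swp ψ) (vv S φ ψ χ o) R p.1 p.2 ≠ 0) : p ∈ Nb (cmb (swp ψ) z₀ 0) dm R εG := by
  obtain ⟨-, -, h3, h4, h5, h6, -⟩ := hCmb ds dz dh ψ
  have h1 : χ (R⁻¹ • AD.zp ψ p.1) ≠ 0 := by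
    intro h
    apply h0
    unfold Ts0
    rw [vv_eq, hz_swp]
    unfold aP
    rw [h]
    simp
  have h2 := hχ _ h1
  have hRe : 0 < ε * R := mul_pos hε hR
  have h2' : ‖AD.zp ψ p.1 - R • z₀‖ < ε * R := by
    have e : AD.zp ψ p.1 - R • z₀ = R • (R⁻¹ • AD.zp ψ p.1 - z₀) := by
      rw [smul_sub, smul_smul, mul_inv_cancel₀ hR.ne', one_smul]
    rw [e, norm_smul, Real.norm_of_nonneg hR.le, mul_comm]
    exact mul_lt_mul_of_pos_right h2 hR
  have hle : 2 * (ε * R) ≤ εG * R := by nlinarith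
  have hp1 : ‖AD.sp ψ p.1‖ < ε * R := hp.1
  refine ⟨?_, ?_⟩
  · show ‖p.1 - R • cmb (swp ψ) z₀ 0‖ < εG * R
    refine lt_of_lt_of_le ?_ hle
    rw [cmb_swp, h6, smul_zero]
    have e : p.1 = AD.cmb ψ (AD.sp ψ p.1) (AD.zp ψ p.1) := (h3 p.1).symm
    rw [e, h5, sub_zero]
    have n1 := h4 (AD.sp ψ p.1) (AD.zp ψ p.1 - R • z₀)
    have hsp : AD.sp ψ (AD.cmb ψ (AD.sp ψ p.1) (AD.zp ψ p.1)) = AD.sp ψ p.1 := by rw [h3]
    have hzp : AD.zp ψ (AD.cmb ψ (AD.sp ψ p.1) (AD.zp ψ p.1)) = AD.zp ψ p.1 := by rw [h3]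
    refine lt_of_pow_lt_pow_left₀ 2 (by positivity) ?_
    rw [n1]
    have m1 := pow_lt_pow_left₀ hp1 (norm_nonneg _) two_ne_zero
    have m2 := pow_lt_pow_left₀ h2' (norm_nonneg _) two_ne_zero
    nlinarith
  · show ‖p.2‖ < εG * R
    have hp2 : ‖p.2‖ < ε * R := hp.2
    linarith

/-! ### the cutoffs -/

/-- the cutoffs of `Zgl` -/
noncomputable def chn (c : ℝ → ℝ) (ε R : ℝ) (q : Cfg dz × Cfg ds × Cfg dm) : ℝ :=
  c (‖q.2.1‖ ^ 2 / (ε * R) ^ 2) * c (‖q.2.2‖ ^ 2 / ((ε * R) ^ 2 * R))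

lemma chn_meas {c : ℝ → ℝ} (hc : Ctf c) (ε R : ℝ) :
    Measurable (chn c ε R : Cfg dz × Cfg ds × Cfg dm → ℝ) := by
  have h := hc.sm.continuous
  have h1 : Continuous (chn c ε R : Cfg dz × Cfg ds × Cfg dm → ℝ) := by
    unfold chn
    refine Continuous.mul (h.comp ?_) (h.comp ?_)
    · exact (continuous_snd.fst.norm.pow 2).div_const _
    · exact (continuous_snd.snd.norm.pow 2).div_const _
  exact h1.measurable

lemma chn_bd {c : ℝ → ℝ} (hc : Ctf c) (ε R : ℝ) (q : Cfg dz × Cfg ds × Cfg dm) :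
    0 ≤ chn c ε R q ∧ chn c ε R q ≤ 1 :=
  ⟨mul_nonneg (hc.bd _).1 (hc.bd _).1, mul_le_one₀ (hc.bd _).2 (hc.bd _).1 (hc.bd _).2⟩

lemma ctf_lt {c : ℝ → ℝ} (hc : Ctf c) {t : ℝ} (h : c t ≠ 0) : t < 1 := by
  by_contra h1
  exact h (hc.zero t (not_lt.1 h1))

lemma chn_supp {c : ℝ → ℝ} (hc : Ctf c) {ε R δ : ℝ} (hε : 0 < ε) (hεδ : ε ≤ δ) (hR : 0 < R)
    (q : Cfg dz × Cfg ds × Cfg dm) (h : chn c ε R q ≠ 0) :
    ‖q.2.1‖ ≤ δ * R ∧ ‖q.2.2‖ ≤ δ * (R * Real.sqrt R) := by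
  have h1 : c (‖q.2.1‖ ^ 2 / (ε * R) ^ 2) ≠ 0 := left_ne_zero_of_mul h
  have h2 : c (‖q.2.2‖ ^ 2 / ((ε * R) ^ 2 * R)) ≠ 0 := right_ne_zero_of_mul h
  have hs0 : 0 < Real.sqrt R := Real.sqrt_pos.2 hR
  have h3 := ctf_lt hc h1
  have h4 := ctf_lt hc h2
  rw [div_lt_one (by positivity)] at h3 h4
  have h5 : ‖q.2.1‖ < ε * R := lt_of_pow_lt_pow_left₀ 2 (by positivity) h3
  have h6 : ‖q.2.2‖ < ε * R * Real.sqrt R := by
    refine lt_of_pow_lt_pow_left₀ 2 (by positivity) ?_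
    rw [mul_pow, Real.sq_sqrt hR.le]
    exact h4
  refine ⟨h5.le.trans (mul_le_mul_of_nonneg_right hεδ hR.le), h6.le.trans ?_⟩
  rw [mul_assoc]
  exact mul_le_mul_of_nonneg_right hεδ (by positivity)

lemma chn_lim {c : ℝ → ℝ} (hc : Ctf c) {ε : ℝ} (hε : 0 < ε) {R : ℕ → ℝ} (hlim : Tendsto R atTop atTop)
    (q : Cfg dz × Cfg ds × Cfg dm) : Tendsto (fun n => chn c ε (R n) q) atTop (𝓝 1) := by
  refine tendsto_nhds_of_eventually_eq ?_
  have h3 : ∀ᶠ n in atTop, max 1 ((2 * ‖q.2.1‖ + 2 * ‖q.2.2‖ + 1) / ε) ≤ R n := hlim.eventually_ge_atTop _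
  filter_upwards [h3] with n hn
  have hn1 : 1 ≤ R n := (le_max_left _ _).trans hn
  have hn2 : (2 * ‖q.2.1‖ + 2 * ‖q.2.2‖ + 1) / ε ≤ R n := (le_max_right _ _).trans hn
  rw [div_le_iff₀ hε] at hn2
  have p1 := norm_nonneg q.2.1
  have p2 := norm_nonneg q.2.2
  have hR : 0 < R n := lt_of_lt_of_le one_pos hn1
  have p3 : 0 < ε * R n := mul_pos hε hR
  have e1 : 2 * ‖q.2.1‖ ≤ ε * R n := by nlinarith
  have e2 : 2 * ‖q.2.2‖ ≤ ε * R n := by nlinarith
  have e3 : (2 * ‖q.2.1‖) ^ 2 ≤ (ε * R n) ^ 2 := pow_le_pow_left₀ (by positivity) e1 2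
  have e4 : (2 * ‖q.2.2‖) ^ 2 ≤ (ε * R n) ^ 2 := pow_le_pow_left₀ (by positivity) e2 2
  have e5 : (ε * R n) ^ 2 ≤ (ε * R n) ^ 2 * R n := le_mul_of_one_le_right (by positivity) hn1
  unfold chn
  rw [hc.one, hc.one, mul_one]
  · rw [div_le_iff₀ (by positivity)]
    nlinarith
  · rw [div_le_iff₀ (by positivity)]
    nlinarith

end Vale.Agent.P353.Z.AN.SfuA
end
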