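import Mathlib
import Vale.Agent.P353.BdA.B2
import Vale.Agent.P353.BdZ.B17
import Vale.Agent.P353.BdA.B1
import Vale.Agent.P353.BdZ.B2
import Vale.Agent.P353.BdZ.B6
import Vale.Agent.P353.BdZ.B16
import Vale.Agent.P353.BdZ.B9

set_option linter.all false

section

/-! # P353, block H: rotations in a plane commute with the gauge generators and with disjoint rotations (helper973) -/

open MeasureTheory Filter Topology
open scoped ContDiff ComplexConjugate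

namespace Vale.Agent.P353.Z.AH.Cir

variable {d : ℕ} {F : Type*} [NormedAddCommGroup F] [InnerProductSpace ℂ F]
variable (S : Setup d F)

lemma tot_eq (M : Matrix (Fin 16) (Fin 16) ℂ) : S.tot M = ∑ A, ∑ δ, S.vec 1 A δ * S.vec M A δ := by
  unfold CS.tot
  refine Finset.sum_congr rfl fun A _ => ?_
  rw [S.sum_vec_mul_vec]
  simp

/-- the spin part of the gauge generator commutes with `θ M θ` -/
lemma cS_tot (C : Fin d) (M : Matrix (Fin 16) (Fin 16) ℂ) : S.cS C * S.tot M = S.tot M * S.cS C := by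
  rw [← sub_eq_zero]
  have h1 : ∀ A δ, S.cS C * (S.vec 1 A δ * S.vec M A δ) - S.vec 1 A δ * S.vec M A δ * S.cS C =
      Complex.I • ∑ E, (S.f C A E : ℂ) • (S.vec 1 E δ * S.vec M A δ + S.vec 1 A δ * S.vec M E δ) := by
    intro A δ
    have e1 := U.comm_cS S C 1 A δ
    have e2 := U.comm_cS S C M A δ
    have e3 : S.cS C * (S.vec 1 A δ * S.vec M A δ) - S.vec 1 A δ * S.vec M A δ * S.cS C =
        (S.cS C * S.vec 1 A δ - S.vec 1 A δ * S.cS C) * S.vec M A δ +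
        S.vec 1 A δ * (S.cS C * S.vec M A δ - S.vec M A δ * S.cS C) := by
      noncomm_ring
    rw [e3, e1, e2]
    simp only [smul_add, Finset.sum_add_distrib, smul_mul_assoc, mul_smul_comm, Finset.sum_mul, Finset.mul_sum]
  rw [tot_eq, Finset.mul_sum, Finset.sum_mul, ← Finset.sum_sub_distrib]
  simp only [Finset.mul_sum, Finset.sum_mul, ← Finset.sum_sub_distrib, h1]
  simp only [← Finset.smul_sum]
  rw [smul_eq_zero]
  right
  have h2 : ∑ A, ∑ δ, ∑ E, (S.f C A E : ℂ) • (S.vec 1 E δ * S.vec M A δ + S.vec 1 A δ * S.vec M E δ) =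
      ∑ δ, ∑ A, ∑ E, (S.f C A E : ℂ) • (S.vec 1 E δ * S.vec M A δ + S.vec 1 A δ * S.vec M E δ) :=
    Finset.sum_comm
  rw [h2]
  refine Finset.sum_eq_zero fun δ _ => ?_
  set Z := ∑ A, ∑ E, (S.f C A E : ℂ) • (S.vec 1 E δ * S.vec M A δ + S.vec 1 A δ * S.vec M E δ) with hZ
  have h3 : Z = -Z := by
    conv_lhs => rw [hZ, Finset.sum_comm]
    rw [hZ, ← Finset.sum_neg_distrib]
    refine Finset.sum_congr rfl fun E _ => ?_
    rw [← Finset.sum_neg_distrib]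
    refine Finset.sum_congr rfl fun A _ => ?_
    rw [S.f_swap' C E A, add_comm (S.vec 1 A δ * S.vec M E δ)]
    push_cast
    rw [neg_smul]
  have h4 : (2 : ℂ) • Z = 0 := by
    rw [two_smul]
    nth_rewrite 1 [h3]
    exact neg_add_cancel Z
  exact (smul_eq_zero.mp h4).resolve_left two_ne_zero

/-- commuting antisymmetric matrices give commuting bilinears -/
lemma tot_tot {M M' : Matrix (Fin 16) (Fin 16) ℂ} (hM : M.transpose = -M)
    (hMM : M * M' = M' * M) : S.tot M' * S.tot M = S.tot M * S.tot M' := by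
  rw [← sub_eq_zero]
  have h1 : ∀ A δ, S.vec 1 A δ * S.vec M' A δ * S.tot M - S.tot M * (S.vec 1 A δ * S.vec M' A δ) =
      (2 : ℂ) • (S.vec M A δ * S.vec M' A δ + S.vec 1 A δ * S.vec (M' * M) A δ) := by
    intro A δ
    have e1 := S.vec_comm_tot 1 M hM A δ
    have e2 := S.vec_comm_tot M' M hM A δ
    have e3 : S.vec 1 A δ * S.vec M' A δ * S.tot M - S.tot M * (S.vec 1 A δ * S.vec M' A δ) =
        (S.vec 1 A δ * S.tot M - S.tot M * S.vec 1 A δ) * S.vec M' A δ +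
        S.vec 1 A δ * (S.vec M' A δ * S.tot M - S.tot M * S.vec M' A δ) := by
      noncomm_ring
    rw [e3, e1, e2, one_mul, smul_mul_assoc, mul_smul_comm, smul_add]
  have h2 : S.tot M' * S.tot M - S.tot M * S.tot M' =
      ∑ A, ∑ δ, (S.vec 1 A δ * S.vec M' A δ * S.tot M - S.tot M * (S.vec 1 A δ * S.vec M' A δ)) := by
    rw [tot_eq S M']
    simp only [Finset.sum_sub_distrib, Finset.sum_mul, Finset.mul_sum]
  rw [h2]
  simp only [h1]
  refine Finset.sum_eq_zero fun A _ => ?_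
  rw [← Finset.smul_sum, Finset.sum_add_distrib, S.sum_vec_mul_vec, S.sum_vec_mul_vec, hM,
    Matrix.transpose_one, one_mul, Matrix.neg_mul, hMM, S.bil_neg, neg_add_cancel, smul_zero]

lemma g2_transpose {k l : Fin 9} (h : k ≠ l) : (S.g2 k l).transpose = -S.g2 k l := by
  rw [S.g2_eq_mul h, Matrix.transpose_mul, S.g_symm, S.g_symm, S.g_swap_ne (Ne.symm h)]

lemma g2_disj {k l a b : Fin 9} (h : k ≠ l) (hab : a ≠ b) (hak : a ≠ k) (hal : a ≠ l) (hbk : b ≠ k)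
    (hbl : b ≠ l) : S.g2 k l * S.g2 a b = S.g2 a b * S.g2 k l := by
  rw [S.g2_eq_mul h, S.g2_eq_mul hab]
  have e1 := S.g_swap_ne hak
  have e2 := S.g_swap_ne hal
  have e3 := S.g_swap_ne hbk
  have e4 := S.g_swap_ne hbl
  calc S.g k * S.g l * (S.g a * S.g b) = S.g k * (S.g l * S.g a) * S.g b := by noncomm_ring
    _ = -(S.g k * S.g a) * (S.g l * S.g b) := by
        rw [show S.g l * S.g a = -(S.g a * S.g l) by rw [e2, neg_neg]]
        noncomm_ring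
    _ = S.g a * (S.g k * S.g b) * -S.g l := by
        rw [show S.g k * S.g a = -(S.g a * S.g k) by rw [e1, neg_neg],
          show S.g l * S.g b = -(S.g b * S.g l) by rw [e4, neg_neg]]
        noncomm_ring
    _ = S.g a * S.g b * (S.g k * S.g l) := by
        rw [show S.g k * S.g b = -(S.g b * S.g k) by rw [e3, neg_neg]]
        noncomm_ring

lemma Skl_cS (k l : Fin 9) (C : Fin d) : Commute (S.cS C) (S.Skl k l) := by
  unfold Setup.Skl
  exact (show Commute (S.cS C) (S.tot (S.g2 k l)) from cS_tot S C _).smul_right _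

lemma Skl_Skl {k l a b : Fin 9} (h : k ≠ l) (hab : a ≠ b) (hak : a ≠ k) (hal : a ≠ l) (hbk : b ≠ k)
    (hbl : b ≠ l) : Commute (S.Skl a b) (S.Skl k l) := by
  unfold Setup.Skl
  have h1 : Commute (S.tot (S.g2 a b)) (S.tot (S.g2 k l)) :=
    tot_tot S (g2_transpose S h) (g2_disj S h hab hak hal hbk hbl)
  exact (h1.smul_right _).smul_left _

variable [CompleteSpace F]

lemma st_comm' {T : F →L[ℂ] F} {k l : Fin 9} (h : Commute T (S.Skl k l)) (t : ℝ) (v : F) :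
    T (S.st k l t v) = S.st k l t (T v) := by
  have h1 : Commute T (S.st k l t) := by
    unfold Setup.st
    apply Commute.exp_right
    exact (h.smul_right _).smul_right _
  have := congrArg (fun T : F →L[ℂ] F => T v) h1.eq
  simpa [mul_apply_eq_comp] using this

lemma RR_gLc (k l : Fin 9) (t : ℝ) (C : Fin d) (x : Cfg d) :
    RR k l t (U.gLc S C x) = U.gLc S C (RR k l t x) := by
  ext ⟨i, B⟩
  rw [RR_apply]
  simp only [U.gLc_apply, RR_apply]
  have e : ∀ A, S.f C A B * (x (i, A) + (Real.cos t - 1) *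
      ((if i = k then x (k, A) else 0) + (if i = l then x (l, A) else 0)) +
      Real.sin t * ((if i = k then x (l, A) else 0) - (if i = l then x (k, A) else 0))) =
      S.f C A B * x (i, A) + (Real.cos t - 1) * ((if i = k then S.f C A B * x (k, A) else 0) +
        (if i = l then S.f C A B * x (l, A) else 0)) +
      Real.sin t * ((if i = k then S.f C A B * x (l, A) else 0) -
        (if i = l then S.f C A B * x (k, A) else 0)) := by
    intro A
    split_ifs <;> ring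
  simp only [e, Finset.sum_add_distrib, ← Finset.mul_sum, Finset.sum_sub_distrib]
  have e5 : ∀ (p : Prop) [Decidable p] (f : Fin d → ℝ), (∑ A, if p then f A else 0) = if p then ∑ A, f A else 0 := by
    intro p _ f
    split_ifs <;> simp
  simp only [e5]

lemma RR_LL' {k l a b : Fin 9} (hak : a ≠ k) (hal : a ≠ l) (hbk : b ≠ k)
    (hbl : b ≠ l) (t : ℝ) (x : Cfg d) : RR k l t (LL a b x) = LL a b (RR k l t x) := by
  ext ⟨i, A⟩
  rw [RR_apply, LL_apply, LL_apply, LL_apply, LL_apply]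
  simp only [RR_apply, if_neg hak, if_neg hal, if_neg hbk, if_neg hbl, if_neg (Ne.symm hak),
    if_neg (Ne.symm hal), if_neg (Ne.symm hbk), if_neg (Ne.symm hbl)]
  by_cases h1 : i = k
  · subst h1
    simp [Ne.symm hak, Ne.symm hbk]
  · by_cases h2 : i = l
    · subst h2
      simp [Ne.symm hal, Ne.symm hbl]
    · simp [h1, h2]

theorem G_Ut {k l : Fin 9} (_h : k ≠ l) (t : ℝ) (C : Fin d) {u : Cfg d → F} (hu : Differentiable ℝ u) (x : Cfg d) :
    S.G C (S.Ut k l t u) x = S.st k l t (S.G C u (RR k l (-t) x)) := by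
  rw [U.G_eq, U.G_eq, S.fderiv_Ut k l t hu, RR_gLc, map_add, map_smul]
  congr 1
  exact st_comm' S (Skl_cS S k l C) t _

theorem J_Ut' {k l : Fin 9} (h : k ≠ l) {a b : Fin 9} (hab : a ≠ b) (hak : a ≠ k) (hal : a ≠ l) (hbk : b ≠ k)
    (hbl : b ≠ l) (t : ℝ) {u : Cfg d → F} (hu : Differentiable ℝ u) (x : Cfg d) :
    S.J a b (S.Ut k l t u) x = S.st k l t (S.J a b u (RR k l (-t) x)) := by
  rw [S.J_eq, S.J_eq, S.fderiv_Ut k l t hu, map_neg (RR k l (-t)), RR_LL' hak hal hbk hbl, map_add, map_smul]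
  congr 1
  exact st_comm' S (Skl_Skl S h hab hak hal hbk hbl) t _

end Vale.Agent.P353.Z.AH.Cir
end

section

/-! # P353, all `N`, block REP: gauge invariant representatives of the global functionals (fields `inv`, `supp`, `disj`, `rep` of `PW.Rep`)

`J i a ε R = avg M (Zb φ ψ b R)` with one `R`-independent `b ∈ C_c^∞`, `η`-support compact in `Reg`. -/

open MeasureTheory Filter Topology
open scoped ContDiff

namespace Vale.Agent.P353.AN.REP

open Vale.Agent.P353.Z Vale.Agent.P353.Z.U Vale.Agent.P353.Z.AN Vale.Agent.P353.AN.G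

variable {N d dh dm r ds : ℕ} {F : Type*} [NormedAddCommGroup F] [InnerProductSpace ℂ F]

/-- slowly growing cutoffs (e.g. `c(|x^s|²/R) c(|x^m|²/R)`) -/
structure IsCo (χ : ℝ → Cfg r × Cfg ds × Cfg dm → ℝ) : Prop where
  meas : ∀ R, Measurable (χ R)
  bd : ∀ R q, 0 ≤ χ R q ∧ χ R q ≤ 1
  lim : ∀ q, Tendsto (fun R => χ R q) atTop (𝓝 1)
  sup : ∀ δ : ℝ, 0 < δ → ∀ᶠ R in atTop, ∀ q, χ R q ≠ 0 → ‖q.2.1‖ ≤ δ * R ∧ ‖q.2.2‖ ≤ δ * (R * Real.sqrt R)

/-- smooth compactly supported profiles with regular `η`-support -/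
structure IsB (S : Setup d F) (φ : Spl dh dm d) (ψ : Spz r ds dh) (b : Cfg r × Cfg ds × Cfg dm → F) : Prop where
  sm : ContDiff ℝ ∞ b
  cs : HasCompactSupport b
  reg : ∀ q ∈ tsupport b, q.1 ∈ Reg S φ ψ

/-- **R0** gauge invariant test functions are equivariant under the group. PROOF. Every `U ∈ SU(N)` is `exp(iH)` with `H` Hermitian traceless
(diagonalise; shift one phase by `2πk`), `H = ∑h_AT_A`; `act(exp(iH)) = ro(exp(ad h))` (sign), `S(exp(iH)) = exp(±i h·𝒮)` (`mg_*` lemmas of `Z/U/MGauss*.lean`, see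
`AN/G/ExpH.lean`, `AN/G/Cen.lean`), and the ODE argument `EqvStmt` (`AN/GL/Eqv.lean`). -/
def CoreStmt (M : BFSS.Model N d F) : Prop := FiniteDimensional ℂ F → ∀ S : Setup d F, Rep M S → ∀ u : Cfg d → F, Setup.Tst u →
  (∀ C x, S.G C u x = 0) → M.IsCore u

/-- **R1** averages do not change the pairing with gauge invariant functions. PROOF: R0, `act U` preserves Lebesgue measure and `S(U)` is unitary, Fubini. -/
def IprStmt (M : BFSS.Model N d F) : Prop := FiniteDimensional ℂ F → ∀ S : Setup d F, Rep M S → ∀ f : Cfg d → F, Setup.Tst f →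
  S.GInv (avg M f) ∧ ∀ u : Cfg d → F, S.GInv u → ipr (avg M f) u = ipr f u

/-- **R2** approximation in the weighted norm by `IsB` functions. PROOF: `MemLp.exist_eLpNorm_sub_le` (Mathlib, `SmoothApprox`) for the measure `wM` (finite on compact
sets), times a smooth cutoff in `η` which is `1` on `K` and has compact support in the open set `Reg` (finite dimensional smooth Urysohn). -/
def ApxStmt (S : Setup d F) : Prop := ∀ (dh dm r ds : ℕ) (φ : Spl dh dm d) (ψ : Spz r ds dh) (K : Set (Cfg r)),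
  IsCompact K → K ⊆ Reg S φ ψ → ∀ f : Cfg r × Cfg ds × Cfg dm → F, MemLp f 2 (wM r ds dm) → (∀ q, f q ≠ 0 → q.1 ∈ K) →
  ∀ ε : ℝ, 0 < ε → ∃ b, IsB S φ ψ b ∧ eLpNorm (fun q => b q - f q) 2 (wM r ds dm) ≤ ENNReal.ofReal ε

/-- **R3** weighted norm of Gaussian profiles. PROOF: `Om` is continuous and positive on a compact set: uniform moments (as `MomStmt`), Tonelli. -/
def WnStmt (S : Setup d F) : Prop := ∀ (dh dm r ds : ℕ) (φ : Spl dh dm d) (ψ : Spz r ds dh) (K : Set (Cfg r))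
  (Om : Cfg r → Matrix (Fin dm) (Fin dm) ℝ), IsCompact K → ContinuousOn Om K →
  (∀ η ∈ K, IsOm S.κ (Dz S φ ψ η) (Om η)) → ∃ C : ℝ, 0 < C ∧ ∀ a : Cfg r → Cfg ds → F,
    StronglyMeasurable (fun q : Cfg r × Cfg ds => a q.1 q.2) → (∀ η s, a η s ≠ 0 → η ∈ K) →
    StronglyMeasurable (bG S.κ Om a : Cfg r × Cfg ds × Cfg dm → F) ∧
    eLpNorm (bG S.κ Om a : Cfg r × Cfg ds × Cfg dm → F) 2 (wM r ds dm) ≤
      ENNReal.ofReal C * eLpNorm (fun q : Cfg r × Cfg ds => a q.1 q.2) 2 (volume.prod volume)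

/-- **R4** one type: representatives. PROOF: R2 and R3 give `b` with `‖b - bG a‖_w ≤ ε'`; `χ_R bG a → bG a` in the weighted norm (dominated convergence); `GluKStmt` for
`b - χ_R bG a` (compact set `K' ⊇` both `η`-supports, support conditions for large `R` by `IsCo.sup` and compactness of the support of `b`); R1; `avg` of `Zb φ ψ b R` (smooth
composition, `R > 0`). Support: `0 ∉ K` since `0 < dm`; `|x|` is preserved by `act`, and `x^z/R ∈ K` forces `|x| ≥ cR`. -/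
def OneStmt (M : BFSS.Model N d F) : Prop := FiniteDimensional ℂ F → ∀ S : Setup d F, Rep M S → ∀ (dh dm r ds : ℕ)
  (φ : Spl dh dm d) (ψ : Spz r ds dh), S.IsSub φ → IsZ S φ ψ → 0 < dm → ∀ (Om : Cfg r → Matrix (Fin dm) (Fin dm) ℝ),
  ContinuousOn Om (Reg S φ ψ) → (∀ η ∈ Reg S φ ψ, IsOm S.κ (Dz S φ ψ η) (Om η)) →
  ∀ (χ : ℝ → Cfg r × Cfg ds × Cfg dm → ℝ), IsCo χ → ∀ (a : Cfg r → Cfg ds → F) (K : Set (Cfg r)), IsCompact K →
  K ⊆ Reg S φ ψ → StronglyMeasurable (fun q : Cfg r × Cfg ds => a q.1 q.2) →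
  MemLp (fun q : Cfg r × Cfg ds => a q.1 q.2) 2 (volume.prod volume) → (∀ η s, a η s ≠ 0 → η ∈ K) → ∀ ε : ℝ, 0 < ε →
  ∃ b : Cfg r × Cfg ds × Cfg dm → F, IsB S φ ψ b ∧
    eLpNorm (fun q => b q - bG S.κ Om a q) 2 (wM r ds dm) ≤ ENNReal.ofReal ε ∧
    (∀ R : ℝ, 0 < R → S.GInv (avg M (Zb φ ψ b R))) ∧
    (∃ c : ℝ, 0 < c ∧ ∀ᶠ R in atTop, ∀ x : Cfg d, ‖x‖ ≤ c * R → avg M (Zb φ ψ b R) x = 0) ∧
    ∀ (R : ℕ → ℝ) (u : ℕ → Cfg d → F) (A : ℝ), BdL S R u A → ∀ᶠ n in atTop,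
      ‖ipr (avg M (Zb φ ψ b (R n))) (u n) -
        ipr (Zb φ ψ (fun q => ((χ (R n) q : ℝ) : ℂ) • bG S.κ Om a q) (R n)) (u n)‖ ≤ ε * Real.sqrt A

/-- **R5** different types have disjoint supports. PROOF: otherwise `x_n = act U_n y_n = act U_n' y_n'`, `y_n/R_n` and `y_n'/R_n` subconverge to `emb φ (Vale.Agent.P353.Z.AN.cmb ψ η 0) 0` and
`emb φ' (Vale.Agent.P353.Z.AN.cmb ψ' η' 0) 0` with `η`, `η'` regular (`x^s/R`, `x^m/R → 0` on the compact supports of `b`, `b'`), `U_n⁻¹U_n'` subconverges in `SU(N)`: contradiction. -/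
def DisjStmt (M : BFSS.Model N d F) : Prop := ∀ S : Setup d F, ∀ (dh dm r ds dh' dm' r' ds' : ℕ)
  (φ : Spl dh dm d) (ψ : Spz r ds dh) (φ' : Spl dh' dm' d) (ψ' : Spz r' ds' dh'),
  (∀ η ∈ Reg S φ ψ, ∀ η' ∈ Reg S φ' ψ', ∀ U, M.act U (emb φ (Vale.Agent.P353.Z.AN.cmb ψ η 0) 0) ≠ emb φ' (Vale.Agent.P353.Z.AN.cmb ψ' η' 0) 0) →
  ∀ b b', IsB S φ ψ b → IsB S φ' ψ' b' → ∀ᶠ R in atTop, ∀ x : Cfg d,
    avg M (Zb φ ψ b R) x = 0 ∨ avg M (Zb φ' ψ' b' R) x = 0

end Vale.Agent.P353.AN.REP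
end

section

/-! # P353, all `N`, block E: limit equation in coefficient form (input of `PW.LimEq`) (helper725) -/

open MeasureTheory Filter Topology Matrix
open scoped ContDiff

namespace Vale.Agent.P353.Z.AE

variable {d : ℕ} {F : Type*} [NormedAddCommGroup F] [InnerProductSpace ℂ F]

/-- **EG-LimD** limit equation for `Z = Zb(χ_R bG(sc U o b))`, mass `R^{-2}`. PROOF. `GLimStmt S φ ψ` with `N = N0 S`, `μ = 1` for each pair `(b_j, o_j)` (`ZmStmt` gives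
`IZm`; `K` is `θ^h`-invariant: `Bun.K_th`); `S.Qm m β u = QN S (N0 S) m β u` (`FrameStmt`). `sc U o b = ∑_j U(pp b_j o_j)`; `sc U o (T.FD β b) = ∑_jU(DF (N0 S) 1 β (pp b_j o_j))` for almost every
`s` (`Dat.thT`, `Dat.gam`; `MM`: `N0 S i = a_i γ^iΓ`), hence a.e. on `Cfg d`; linearity by `ZIntStmt`. The cutoffs `χ (R k)` satisfy `CutA δ` for large `k` (change finitely many terms;
also `R k ≥ 1` only for large `k`: pass to the tail of the sequence). -/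
def LimDStmt (S : Setup d F) : Prop := ∀ _ : FiniteDimensional ℂ F, ∀ (dh dm r ds n : ℕ) (φ : Spl dh dm d) (ψ : Spl r ds dh)
  (L : Finset (Fin r → ℝ)) (Om : Cfg r → Matrix (Fin dm) (Fin dm) ℝ) (K : Submodule ℂ F) (U : Cfg r → F →L[ℂ] F)
  (o : Fin n → Cfg ds → F) (T : Setup r (AL.Ek n)), AL.Dat S φ ψ L Om K U o T →
  ∀ χ : ℝ → Cfg r × Cfg ds × Cfg dm → ℝ, AN.REP.IsCo χ → ∀ (R : ℕ → ℝ) (Ψ : ℕ → Cfg d → F) (C : ℝ), Prof.Bdd S R Ψ C →
  ∀ β, ∀ b : Cfg r → AL.Ek n, TstOff L b →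
    Tendsto (fun k => (R k : ℂ) * ipr (AN.Zb φ ψ (fun q => ((χ (R k) q : ℝ) : ℂ) • AN.bG S.κ Om (AL.sc U o b) q) (R k))
        (S.Qm ((R k)⁻¹ ^ 2) β (Ψ k)) -
      ipr (AN.Zb φ ψ (fun q => ((χ (R k) q : ℝ) : ℂ) • AN.bG S.κ Om (AL.sc U o (T.FD β b)) q) (R k)) (Ψ k)) atTop (𝓝 0)

/-- **EG-Chi** the sharp cutoffs of block L are admissible. PROOF: `√R ≤ δR`, `R ≤ δR√R` for large `R`. -/
def ChiStmt : Prop := ∀ r ds dm : ℕ, AN.REP.IsCo (fun (R : ℝ) (q : Cfg r × Cfg ds × Cfg dm) => AL.chi R q)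

end Vale.Agent.P353.Z.AE
end

section

/-! # P353, all `N`, block E: limit equation for types given in a rotated colour frame (helper725) -/

open MeasureTheory Filter Topology Matrix
open scoped ContDiff

namespace Vale.Agent.P353.Z.AE

variable {d : ℕ} {F : Type*} [NormedAddCommGroup F] [InnerProductSpace ℂ F]

/-- **EG-RotO** transport by a colour rotation `O`: `S'' = S.rot 1 O`, `u''(x) = u(rox 1 Oᵀ x)`. PROOF: `RotStmt S` (`R = 1`), `FrameStmt S`; `S''.g i = ∑_j 1_{ij} S.g j = S.g i`,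
hence `S''.Gam = S.Gam`, `N0 S'' = N0 S`, `rotN 1 N = N`; change of variables `x = rox 1 O z` (measure preserving homeomorphism). -/
def RotOStmt (S : Setup d F) : Prop := ∀ (h9 : (1 : Matrix (Fin 9) (Fin 9) ℝ) * (1 : Matrix (Fin 9) (Fin 9) ℝ)ᵀ = 1)
  (O : Matrix (Fin d) (Fin d) ℝ) (hO : O * Oᵀ = 1),
  (∀ u : Cfg d → F, S.GInv u → (S.rot 1 h9 O hO).GInv (fun x => u (rox 1 Oᵀ x)) ∧ nsq (fun x => u (rox 1 Oᵀ x)) = nsq u ∧
    ∀ (m : ℝ) (β : Fin 16), (S.rot 1 h9 O hO).Qm m β (fun x => u (rox 1 Oᵀ x)) = fun x => S.Qm m β u (rox 1 Oᵀ x)) ∧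
  (∀ (R : ℕ → ℝ) (Ψ : ℕ → Cfg d → F) (C : ℝ), Prof.Bdd S R Ψ C → Prof.Bdd (S.rot 1 h9 O hO) R (fun n x => Ψ n (rox 1 Oᵀ x)) C) ∧
  ∀ Z u : Cfg d → F, ipr (fun x => Z (rox 1 O x)) u = ipr Z (fun x => u (rox 1 Oᵀ x))

/-- **EG-LimO** limit equation for a type in the colour frame `O`. PROOF: `LimDStmt` for `S.rot 1 O` and EG-RotO. -/
def LimOStmt (S : Setup d F) : Prop := ∀ _ : FiniteDimensional ℂ F,
  ∀ (h9 : (1 : Matrix (Fin 9) (Fin 9) ℝ) * (1 : Matrix (Fin 9) (Fin 9) ℝ)ᵀ = 1)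
  (O : Matrix (Fin d) (Fin d) ℝ) (hO : O * Oᵀ = 1) (dh dm r ds n : ℕ) (φ : Spl dh dm d) (ψ : Spl r ds dh)
  (L : Finset (Fin r → ℝ)) (Om : Cfg r → Matrix (Fin dm) (Fin dm) ℝ) (K : Submodule ℂ F) (U : Cfg r → F →L[ℂ] F)
  (o : Fin n → Cfg ds → F) (T : Setup r (AL.Ek n)), AL.Dat (S.rot 1 h9 O hO) φ ψ L Om K U o T →
  ∀ χ : ℝ → Cfg r × Cfg ds × Cfg dm → ℝ, AN.REP.IsCo χ → ∀ (R : ℕ → ℝ) (Ψ : ℕ → Cfg d → F) (C : ℝ), Prof.Bdd S R Ψ C →
  ∀ β, ∀ b : Cfg r → AL.Ek n, TstOff L b →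
    Tendsto (fun k => (R k : ℂ) *
        ipr (fun x => AN.Zb φ ψ (fun q => ((χ (R k) q : ℝ) : ℂ) • AN.bG S.κ Om (AL.sc U o b) q) (R k) (rox 1 O x))
        (S.Qm ((R k)⁻¹ ^ 2) β (Ψ k)) -
      ipr (fun x => AN.Zb φ ψ (fun q => ((χ (R k) q : ℝ) : ℂ) • AN.bG S.κ Om (AL.sc U o (T.FD β b)) q) (R k) (rox 1 O x))
        (Ψ k)) atTop (𝓝 0)

end Vale.Agent.P353.Z.AE
end

section

/-! # P353, all `N`, block A: covariance under rotations (`RotStmt`) -/

open MeasureTheory Filter Topology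
open scoped ContDiff

namespace Vale.Agent.P353.Z.AN

section sums

variable {n : ℕ} {K : Type*} [CommRing K] {M : Type*} [AddCommGroup M] [Module K M]

theorem rt_one (o : Fin n → Fin n → K) (ho : ∀ k l, ∑ E, o E k * o E l = if k = l then 1 else 0)
    (k : Fin n) (q : Fin n → M) : ∑ A, o A k • ∑ l, o A l • q l = q k := by
  simp only [Finset.smul_sum, smul_smul]
  rw [Finset.sum_comm]
  simp only [← Finset.sum_smul, ho, ite_smul, one_smul, zero_smul, Finset.sum_ite_eq,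
    Finset.mem_univ, if_true]

theorem rt_con (o : Fin n → Fin n → K) (ho : ∀ k l, ∑ E, o E k * o E l = if k = l then 1 else 0)
    (p : Fin n → K) (q : Fin n → M) :
    ∑ A, (∑ k, o A k * p k) • (∑ l, o A l • q l) = ∑ k, p k • q k := by
  have h1 : ∀ A, (∑ k, o A k * p k) • (∑ l, o A l • q l) =
      ∑ k, p k • (o A k • ∑ l, o A l • q l) := by
    intro A
    rw [Finset.sum_smul]
    refine Finset.sum_congr rfl fun k _ => ?_
    rw [smul_smul, mul_comm]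
  simp only [h1]
  rw [Finset.sum_comm]
  refine Finset.sum_congr rfl fun k _ => ?_
  rw [← Finset.smul_sum, rt_one o ho]

theorem rt_two (o : Fin n → Fin n → K) (ho : ∀ k l, ∑ E, o E k * o E l = if k = l then 1 else 0)
    (k l : Fin n) (U : Fin n → Fin n → M) :
    ∑ B, ∑ C, (o B k * o C l) • (∑ b, o B b • ∑ c, o C c • U b c) = U k l := by
  have h1 : ∀ B, ∑ C, (o B k * o C l) • (∑ b, o B b • ∑ c, o C c • U b c) =
      o B k • ∑ b, o B b • U b l := by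
    intro B
    have h2 : ∀ C, (o B k * o C l) • (∑ b, o B b • ∑ c, o C c • U b c) =
        o B k • ∑ b, o B b • (o C l • ∑ c, o C c • U b c) := by
      intro C
      simp only [Finset.smul_sum, smul_smul]
      refine Finset.sum_congr rfl fun b _ => Finset.sum_congr rfl fun c _ => ?_
      congr 1
      ring
    simp only [h2]
    rw [← Finset.smul_sum, Finset.sum_comm]
    simp only [← Finset.smul_sum]
    congr 1
    refine Finset.sum_congr rfl fun b _ => ?_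
    rw [rt_one o ho]
  simp only [h1]
  rw [rt_one o ho]

/-- contraction of the rotated structure constants -/
theorem rt_f (o : Fin n → Fin n → K) (ho : ∀ k l, ∑ E, o E k * o E l = if k = l then 1 else 0)
    (f : Fin n → Fin n → Fin n → K) (U : Fin n → Fin n → M) (A : Fin n) :
    ∑ B, ∑ C, (∑ a, ∑ b, ∑ c, o A a * o B b * o C c * f a b c) •
      (∑ b, o B b • ∑ c, o C c • U b c) = ∑ a, o A a • ∑ b, ∑ c, f a b c • U b c := by
  have h1 : ∀ B C, (∑ a, ∑ b, ∑ c, o A a * o B b * o C c * f a b c) •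
      (∑ b, o B b • ∑ c, o C c • U b c) =
      ∑ a, ∑ b, ∑ c, (o A a * f a b c) •
        ((o B b * o C c) • (∑ b, o B b • ∑ c, o C c • U b c)) := by
    intro B C
    simp only [Finset.sum_smul]
    refine Finset.sum_congr rfl fun a _ => Finset.sum_congr rfl fun b _ =>
      Finset.sum_congr rfl fun c _ => ?_
    rw [smul_smul]
    congr 1
    ring
  simp only [h1]
  have h2 : ∀ g : Fin n → Fin n → Fin n → Fin n → Fin n → M,
      ∑ B, ∑ C, ∑ a, ∑ b, ∑ c, g B C a b c = ∑ a, ∑ b, ∑ c, ∑ B, ∑ C, g B C a b c := by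
    intro g
    have e1 : ∀ B, ∑ C, ∑ a, ∑ b, ∑ c, g B C a b c = ∑ a, ∑ b, ∑ c, ∑ C, g B C a b c := by
      intro B
      rw [Finset.sum_comm]
      refine Finset.sum_congr rfl fun a _ => ?_
      rw [Finset.sum_comm]
      refine Finset.sum_congr rfl fun b _ => ?_
      rw [Finset.sum_comm]
    simp only [e1]
    rw [Finset.sum_comm]
    refine Finset.sum_congr rfl fun a _ => ?_
    rw [Finset.sum_comm]
    refine Finset.sum_congr rfl fun b _ => ?_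
    rw [Finset.sum_comm]
  rw [h2]
  refine Finset.sum_congr rfl fun a _ => ?_
  rw [Finset.smul_sum]
  refine Finset.sum_congr rfl fun b _ => ?_
  rw [Finset.smul_sum]
  refine Finset.sum_congr rfl fun c _ => ?_
  simp only [← Finset.smul_sum]
  rw [rt_two o ho, smul_smul]

/-- triple contraction -/
theorem rt_con3 {m : ℕ} (o : Fin n → Fin n → K)
    (ho : ∀ k l, ∑ E, o E k * o E l = if k = l then 1 else 0)
    (r : Fin m → Fin m → K) (hr : ∀ k l, ∑ E, r E k * r E l = if k = l then 1 else 0)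
    (P : Fin n → Fin m → Fin m → K) (Q : Fin n → Fin m → Fin m → M) :
    ∑ A, ∑ i, ∑ j, (∑ a, o A a * ∑ k, r i k * ∑ l, r j l * P a k l) •
      (∑ a, o A a • ∑ k, r i k • ∑ l, r j l • Q a k l) = ∑ a, ∑ k, ∑ l, P a k l • Q a k l := by
  have h1 : ∑ A, ∑ i, ∑ j, (∑ a, o A a * ∑ k, r i k * ∑ l, r j l * P a k l) •
      (∑ a, o A a • ∑ k, r i k • ∑ l, r j l • Q a k l) =
      ∑ i, ∑ j, ∑ A, (∑ a, o A a * ∑ k, r i k * ∑ l, r j l * P a k l) •
      (∑ a, o A a • ∑ k, r i k • ∑ l, r j l • Q a k l) := by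
    rw [Finset.sum_comm]
    refine Finset.sum_congr rfl fun i _ => ?_
    rw [Finset.sum_comm]
  rw [h1]
  simp only [rt_con o ho]
  have h2 : ∀ g : Fin m → Fin m → Fin n → M, ∑ i, ∑ j, ∑ a, g i j a = ∑ a, ∑ j, ∑ i, g i j a := by
    intro g
    rw [Finset.sum_comm]
    have e1 : ∀ j, ∑ i, ∑ a, g i j a = ∑ a, ∑ i, g i j a := fun j => Finset.sum_comm
    simp only [e1]
    rw [Finset.sum_comm]
  rw [h2]
  refine Finset.sum_congr rfl fun a _ => ?_
  simp only [rt_con r hr]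
  rw [Finset.sum_comm]
  refine Finset.sum_congr rfl fun k _ => ?_
  rw [rt_con r hr]

end sums

variable {d dh dm : ℕ} {F : Type*} [NormedAddCommGroup F] [InnerProductSpace ℂ F]

theorem rt_orth {n : ℕ} {O : Matrix (Fin n) (Fin n) ℝ} (hO : O * O.transpose = 1) (k l : Fin n) :
    ∑ E, O E k * O E l = if k = l then 1 else 0 := by
  have hO' : O.transpose * O = 1 := mul_eq_one_comm.1 hO
  have := congrFun (congrFun hO' k) l
  rw [Matrix.mul_apply, Matrix.one_apply] at this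
  simpa [Matrix.transpose_apply] using this

theorem rt_orthc {n : ℕ} {O : Matrix (Fin n) (Fin n) ℝ} (hO : O * O.transpose = 1) (k l : Fin n) :
    ∑ E, (O E k : ℂ) * (O E l : ℂ) = if k = l then 1 else 0 := by
  have h := congrArg (fun t : ℝ => (t : ℂ)) (rt_orth hO k l)
  push_cast at h
  rw [h]
  split_ifs <;> simp

theorem rt_apply (R : Matrix (Fin 9) (Fin 9) ℝ) (O : Matrix (Fin d) (Fin d) ℝ) (x : Cfg d)
    (p : Fin 9 × Fin d) : rox R O x p = ∑ j, ∑ B, R p.1 j * O p.2 B * x (j, B) := rfl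

/-- `x'_i^A = ∑_B O_{AB} ∑_j R_{ij} x_j^B` -/
theorem rt_apply' (R : Matrix (Fin 9) (Fin 9) ℝ) (O : Matrix (Fin d) (Fin d) ℝ) (x : Cfg d)
    (i : Fin 9) (A : Fin d) : rox R O x (i, A) = ∑ B, O A B * ∑ j, R i j * x (j, B) := by
  rw [rt_apply, Finset.sum_comm]
  refine Finset.sum_congr rfl fun B _ => ?_
  rw [Finset.mul_sum]
  refine Finset.sum_congr rfl fun j _ => ?_
  ring

theorem rt_FF (S : Setup d F) {R : Matrix (Fin 9) (Fin 9) ℝ} (hR : R * R.transpose = 1)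
    {O : Matrix (Fin d) (Fin d) ℝ} (hO : O * O.transpose = 1) (A : Fin d) (i j : Fin 9) (x : Cfg d) :
    (S.rot R hR O hO).FF A i j (rox R O x) =
      ∑ a, O A a * ∑ k, R i k * ∑ l, R j l * S.FF a k l x := by
  have h0 : (S.rot R hR O hO).FF A i j (rox R O x) = S.κ * ∑ B, ∑ C,
      (∑ a, ∑ b, ∑ c, O A a * O B b * O C c * S.f a b c) *
        (∑ b, O B b * ∑ c, O C c * ((∑ k, R i k * x (k, b)) * ∑ l, R j l * x (l, c))) := by
    unfold Setup.FF
    congr 1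
    refine Finset.sum_congr rfl fun B _ => Finset.sum_congr rfl fun C _ => ?_
    rw [rt_apply', rt_apply', mul_assoc]
    congr 1
    rw [Finset.sum_mul]
    refine Finset.sum_congr rfl fun b _ => ?_
    rw [mul_assoc, Finset.mul_sum]
    congr 1
    refine Finset.sum_congr rfl fun c _ => ?_
    ring
  rw [h0]
  have h1 := rt_f (K := ℝ) (M := ℝ) (fun A B => O A B) (rt_orth hO) S.f
    (fun b c => (∑ k, R i k * x (k, b)) * ∑ l, R j l * x (l, c)) A
  simp only [smul_eq_mul] at h1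
  rw [h1, Finset.mul_sum]
  refine Finset.sum_congr rfl fun a _ => ?_
  rw [← mul_assoc, mul_comm S.κ, mul_assoc]
  congr 1
  unfold Setup.FF
  have h2 : ∀ k l, R i k * (R j l * (S.κ * ∑ B, ∑ C, S.f a B C * x (k, B) * x (l, C))) =
      S.κ * ∑ B, ∑ C, S.f a B C * ((R i k * x (k, B)) * (R j l * x (l, C))) := by
    intro k l
    simp only [Finset.mul_sum]
    refine Finset.sum_congr rfl fun b _ => Finset.sum_congr rfl fun c _ => ?_
    ring
  have h3 : ∀ k, R i k * ∑ l, R j l * (S.κ * ∑ B, ∑ C, S.f a B C * x (k, B) * x (l, C)) =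
      ∑ l, S.κ * ∑ B, ∑ C, S.f a B C * ((R i k * x (k, B)) * (R j l * x (l, C))) := by
    intro k
    rw [Finset.mul_sum]
    exact Finset.sum_congr rfl fun l _ => h2 k l
  simp only [h3, ← Finset.mul_sum]
  congr 1
  have h4 : ∀ b c, (∑ k, R i k * x (k, b)) * ∑ l, R j l * x (l, c) =
      ∑ k, ∑ l, (R i k * x (k, b)) * (R j l * x (l, c)) := fun b c => Finset.sum_mul_sum _ _ _ _
  simp only [h4, Finset.mul_sum]
  have h5 : ∀ g : Fin d → Fin d → Fin 9 → Fin 9 → ℝ,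
      ∑ b, ∑ c, ∑ k, ∑ l, g b c k l = ∑ k, ∑ l, ∑ b, ∑ c, g b c k l := by
    intro g
    have e1 : ∀ b, ∑ c, ∑ k, ∑ l, g b c k l = ∑ k, ∑ l, ∑ c, g b c k l := by
      intro b
      rw [Finset.sum_comm]
      refine Finset.sum_congr rfl fun k _ => ?_
      rw [Finset.sum_comm]
    simp only [e1]
    rw [Finset.sum_comm]
    refine Finset.sum_congr rfl fun k _ => ?_
    rw [Finset.sum_comm]
  rw [h5]

theorem rt_V (S : Setup d F) {R : Matrix (Fin 9) (Fin 9) ℝ} (hR : R * R.transpose = 1)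
    {O : Matrix (Fin d) (Fin d) ℝ} (hO : O * O.transpose = 1) (x : Cfg d) :
    (S.rot R hR O hO).V (rox R O x) = S.V x := by
  unfold Setup.V
  congr 1
  have h := rt_con3 (K := ℝ) (M := ℝ) (fun A B => O A B) (rt_orth hO) (fun i j => R i j)
    (rt_orth hR) (fun a k l => S.FF a k l x) (fun a k l => S.FF a k l x)
  simp only [smul_eq_mul] at h
  simp only [rt_FF, sq]
  exact h

/-- `(N' θ'^A)` -/
theorem rt_vec (S : Setup d F) {R : Matrix (Fin 9) (Fin 9) ℝ} (hR : R * R.transpose = 1)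
    {O : Matrix (Fin d) (Fin d) ℝ} (hO : O * O.transpose = 1) (N : Matrix (Fin 16) (Fin 16) ℂ)
    (A : Fin d) (β : Fin 16) :
    (S.rot R hR O hO).vec N A β = ∑ B, (O A B : ℂ) • S.vec N B β := by
  have h0 : (S.rot R hR O hO).vec N A β = ∑ γ, N β γ • ∑ B, (O A B : ℂ) • S.th γ B := rfl
  rw [h0]
  simp only [CS.vec, Finset.smul_sum]
  rw [Finset.sum_comm]
  refine Finset.sum_congr rfl fun B _ => Finset.sum_congr rfl fun γ _ => ?_
  rw [smul_comm]

theorem rt_g2 (S : Setup d F) {R : Matrix (Fin 9) (Fin 9) ℝ} (hR : R * R.transpose = 1)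
    {O : Matrix (Fin d) (Fin d) ℝ} (hO : O * O.transpose = 1) (i j : Fin 9) :
    (S.rot R hR O hO).g2 i j = ∑ k, (R i k : ℂ) • ∑ l, (R j l : ℂ) • S.g2 k l := by
  have h0 : (S.rot R hR O hO).g2 i j = (1 / 2 : ℂ) • ((∑ k, (R i k : ℂ) • S.g k) *
    (∑ l, (R j l : ℂ) • S.g l) - (∑ l, (R j l : ℂ) • S.g l) * (∑ k, (R i k : ℂ) • S.g k)) := rfl
  rw [h0, Finset.sum_mul_sum, Finset.sum_mul_sum, Finset.sum_comm (s := Finset.univ) (t := Finset.univ)
        (f := fun l k => ((R j l : ℂ) • S.g l) * ((R i k : ℂ) • S.g k)), ← Finset.sum_sub_distrib,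
        Finset.smul_sum]
  refine Finset.sum_congr rfl fun k _ => ?_
  rw [← Finset.sum_sub_distrib, Finset.smul_sum, Finset.smul_sum]
  refine Finset.sum_congr rfl fun l _ => ?_
  unfold CS.g2
  rw [smul_mul_smul_comm, smul_mul_smul_comm, mul_comm (R j l : ℂ), ← smul_sub, smul_smul, smul_smul,
    smul_smul]
  congr 1
  ring

theorem rt_vec2 (S : Setup d F) {R : Matrix (Fin 9) (Fin 9) ℝ} (hR : R * R.transpose = 1)
    {O : Matrix (Fin d) (Fin d) ℝ} (hO : O * O.transpose = 1) (i j : Fin 9) (A : Fin d) (β : Fin 16) :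
    (S.rot R hR O hO).vec ((S.rot R hR O hO).g2 i j) A β =
      ∑ a, (O A a : ℂ) • ∑ k, (R i k : ℂ) • ∑ l, (R j l : ℂ) • S.vec (S.g2 k l) a β := by
  rw [rt_vec, rt_g2]
  refine Finset.sum_congr rfl fun a _ => ?_
  rw [CS.vec_sum]
  congr 1
  refine Finset.sum_congr rfl fun k _ => ?_
  rw [CS.vec_smul, CS.vec_sum]
  congr 1
  refine Finset.sum_congr rfl fun l _ => ?_
  rw [CS.vec_smul]

theorem rt_W (S : Setup d F) {R : Matrix (Fin 9) (Fin 9) ℝ} (hR : R * R.transpose = 1)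
    {O : Matrix (Fin d) (Fin d) ℝ} (hO : O * O.transpose = 1) (β : Fin 16) (x : Cfg d) :
    (S.rot R hR O hO).W β (rox R O x) = S.W β x := by
  unfold Setup.W
  congr 1
  have h := rt_con3 (K := ℂ) (M := F →L[ℂ] F) (fun A B => (O A B : ℂ)) (rt_orthc hO)
    (fun i j => (R i j : ℂ)) (rt_orthc hR) (fun a k l => ((S.FF a k l x : ℝ) : ℂ))
    (fun a k l => S.vec (S.g2 k l) a β)
  rw [← h]
  refine Finset.sum_congr rfl fun A _ => Finset.sum_congr rfl fun i _ =>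
    Finset.sum_congr rfl fun j _ => ?_
  rw [rt_vec2, rt_FF]
  push_cast
  rfl

theorem rt_bil (S : Setup d F) {R : Matrix (Fin 9) (Fin 9) ℝ} (hR : R * R.transpose = 1)
    {O : Matrix (Fin d) (Fin d) ℝ} (hO : O * O.transpose = 1) (D E : Fin d) :
    (S.rot R hR O hO).bil 1 D E = ∑ a, (O D a : ℂ) • ∑ b, (O E b : ℂ) • S.bil 1 a b := by
  have h0 : (S.rot R hR O hO).bil 1 D E =
      ∑ α, (∑ a, (O D a : ℂ) • S.th α a) * (S.rot R hR O hO).vec 1 E α := rfl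
  rw [h0]
  simp only [rt_vec, Finset.sum_mul_sum, smul_mul_smul_comm]
  rw [Finset.sum_comm]
  refine Finset.sum_congr rfl fun a _ => ?_
  rw [Finset.sum_comm, Finset.smul_sum]
  refine Finset.sum_congr rfl fun b _ => ?_
  rw [← Finset.smul_sum, smul_smul]
  rfl

theorem rt_cS (S : Setup d F) {R : Matrix (Fin 9) (Fin 9) ℝ} (hR : R * R.transpose = 1)
    {O : Matrix (Fin d) (Fin d) ℝ} (hO : O * O.transpose = 1) (C : Fin d) :
    (S.rot R hR O hO).cS C = ∑ a, (O C a : ℂ) • S.cS a := by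
  have h0 : (S.rot R hR O hO).cS C = (-Complex.I / 2) • ∑ D, ∑ E,
      ((∑ a, ∑ b, ∑ c, O C a * O D b * O E c * S.f a b c : ℝ) : ℂ) •
        (S.rot R hR O hO).bil 1 D E := rfl
  rw [h0]
  have h := rt_f (K := ℂ) (M := F →L[ℂ] F) (fun A B => (O A B : ℂ)) (rt_orthc hO)
    (fun a b c => (S.f a b c : ℂ)) (fun a b => S.bil 1 a b) C
  push_cast
  simp only [rt_bil]
  rw [h, Finset.smul_sum]
  refine Finset.sum_congr rfl fun a _ => ?_
  unfold Setup.cS
  rw [smul_comm]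

/-- `rox` as a linear map -/
noncomputable def rtL (R : Matrix (Fin 9) (Fin 9) ℝ) (O : Matrix (Fin d) (Fin d) ℝ) :
    Cfg d →ₗ[ℝ] Cfg d where
  toFun := rox R O
  map_add' := by
    intro x y
    ext p
    simp only [rt_apply, PiLp.add_apply, mul_add, Finset.sum_add_distrib]
  map_smul' := by
    intro c x
    ext p
    simp only [rt_apply, PiLp.smul_apply, smul_eq_mul, RingHom.id_apply, Finset.mul_sum]
    refine Finset.sum_congr rfl fun j _ => Finset.sum_congr rfl fun B _ => ?_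
    ring

theorem rt_norm {R : Matrix (Fin 9) (Fin 9) ℝ} (hR : R * R.transpose = 1)
    {O : Matrix (Fin d) (Fin d) ℝ} (hO : O * O.transpose = 1) (x : Cfg d) : ‖rox R O x‖ = ‖x‖ := by
  have h1 : ‖rox R O x‖ ^ 2 = ‖x‖ ^ 2 := by
    rw [EuclideanSpace.norm_sq_eq, EuclideanSpace.norm_sq_eq, Fintype.sum_prod_type,
      Fintype.sum_prod_type]
    simp only [Real.norm_eq_abs, sq_abs]
    simp only [sq, rt_apply']
    have h := fun i : Fin 9 => rt_con (K := ℝ) (M := ℝ) (fun A B => O A B) (rt_orth hO)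
      (fun B => ∑ j, R i j * x (j, B)) (fun B => ∑ j, R i j * x (j, B))
    simp only [smul_eq_mul] at h
    simp only [h]
    rw [Finset.sum_comm, Finset.sum_comm (s := Finset.univ) (t := Finset.univ)
      (f := fun (i : Fin 9) (A : Fin d) => x (i, A) * x (i, A))]
    refine Finset.sum_congr rfl fun A _ => ?_
    have h' := rt_con (K := ℝ) (M := ℝ) (fun i j => R i j) (rt_orth hR)
      (fun j => x (j, A)) (fun j => x (j, A))
    simpa only [smul_eq_mul] using h'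
  exact (sq_eq_sq₀ (norm_nonneg _) (norm_nonneg _)).1 h1

theorem rt_inv {R : Matrix (Fin 9) (Fin 9) ℝ} (hR : R * R.transpose = 1)
    {O : Matrix (Fin d) (Fin d) ℝ} (hO : O * O.transpose = 1) (x : Cfg d) :
    rox R.transpose O.transpose (rox R O x) = x := by
  ext ⟨i, A⟩
  rw [rt_apply]
  simp only [Matrix.transpose_apply]
  have h1 : ∀ j B, R j i * O B A * rox R O x (j, B) =
      R j i * (O B A * ∑ C, O B C * ∑ k, R j k * x (k, C)) := by
    intro j B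
    rw [rt_apply', mul_assoc]
  simp only [h1, ← Finset.mul_sum]
  have h2 : ∀ j, ∑ B, O B A * ∑ C, O B C * ∑ k, R j k * x (k, C) = ∑ k, R j k * x (k, A) := by
    intro j
    have := rt_one (K := ℝ) (M := ℝ) (fun A B => O A B) (rt_orth hO) A
      (fun C => ∑ k, R j k * x (k, C))
    simpa only [smul_eq_mul] using this
  simp only [h2]
  have := rt_one (K := ℝ) (M := ℝ) (fun i j => R i j) (rt_orth hR) i (fun k => x (k, A))
  simpa only [smul_eq_mul] using this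

/-- `rox` as a linear isometric equivalence -/
noncomputable def rtE (R : Matrix (Fin 9) (Fin 9) ℝ) (hR : R * R.transpose = 1)
    (O : Matrix (Fin d) (Fin d) ℝ) (hO : O * O.transpose = 1) : Cfg d ≃ₗᵢ[ℝ] Cfg d :=
  LinearIsometry.toLinearIsometryEquiv (F := Cfg d) ⟨rtL R O, rt_norm hR hO⟩ rfl

theorem rt_mp {R : Matrix (Fin 9) (Fin 9) ℝ} (hR : R * R.transpose = 1)
    {O : Matrix (Fin d) (Fin d) ℝ} (hO : O * O.transpose = 1) :
    MeasurePreserving (rox R O : Cfg d → Cfg d) volume volume := by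
  have h := (rtE R hR O hO).measurePreserving
  exact h

theorem rt_pd (R : Matrix (Fin 9) (Fin 9) ℝ)
    (O : Matrix (Fin d) (Fin d) ℝ) (v : Cfg d → F) (hv : Differentiable ℝ v)
    (i : Fin 9) (A : Fin d) (x : Cfg d) :
    pd i A (fun z => v (rox R O z)) x =
      ∑ j, (R j i : ℂ) • ∑ B, (O B A : ℂ) • pd j B v (rox R O x) := by
  have h1 : HasFDerivAt (rox R O : Cfg d → Cfg d) (LinearMap.toContinuousLinearMap (rtL R O)) x :=
    (LinearMap.toContinuousLinearMap (rtL R O)).hasFDerivAt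
  have h2 := (hv (rox R O x)).hasFDerivAt.comp x h1
  have h3 : fderiv ℝ (fun z => v (rox R O z)) x = _ := h2.fderiv
  unfold pd
  rw [h3]
  have h4 : rox R O (EuclideanSpace.single (i, A) 1) =
      ∑ j, R j i • ∑ B, O B A • (EuclideanSpace.single (j, B) 1 : Cfg d) := by
    ext ⟨k, C⟩
    rw [rt_apply]
    simp only [WithLp.ofLp_sum, WithLp.ofLp_smul, Finset.sum_apply, Pi.smul_apply, smul_eq_mul,
      PiLp.single_apply, Prod.mk.injEq, mul_ite, mul_one, mul_zero]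
    have e1 : ∀ j B, (if j = i ∧ B = A then R k j * O C B else 0) =
        if j = i then (if B = A then R k j * O C B else 0) else 0 := by
      intro j B
      by_cases h : j = i <;> simp [h]
    have e2 : ∀ j B, (if k = j ∧ C = B then O B A else 0) =
        if k = j then (if C = B then O B A else 0) else 0 := by
      intro j B
      by_cases h : k = j <;> simp [h]
    simp only [e1, e2]
    have e3 : ∀ j, (∑ B, if j = i then (if B = A then R k j * O C B else 0) else 0) =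
        if j = i then R k j * O C A else 0 := by
      intro j
      by_cases h : j = i <;> simp [h]
    have e4 : ∀ j, (∑ B, if k = j then (if C = B then O B A else 0) else 0) =
        if k = j then O C A else 0 := by
      intro j
      by_cases h : k = j <;> simp [h]
    simp only [e3, e4, mul_ite, mul_zero, Finset.sum_ite_eq, Finset.sum_ite_eq', Finset.mem_univ,
      if_true]
  have h5 : (fderiv ℝ v (rox R O x)) (rox R O (EuclideanSpace.single (i, A) 1)) =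
      ∑ j, (R j i : ℂ) • ∑ B, (O B A : ℂ) •
        (fderiv ℝ v (rox R O x)) (EuclideanSpace.single (j, B) 1) := by
    rw [h4, map_sum]
    refine Finset.sum_congr rfl fun j _ => ?_
    rw [map_smul, map_sum]
    rw [← Complex.coe_smul]
    congr 1
    refine Finset.sum_congr rfl fun B _ => ?_
    rw [map_smul, ← Complex.coe_smul]
  exact h5

theorem rt_vec1 (S : Setup d F) {R : Matrix (Fin 9) (Fin 9) ℝ} (hR : R * R.transpose = 1)
    {O : Matrix (Fin d) (Fin d) ℝ} (hO : O * O.transpose = 1) (i : Fin 9) (A : Fin d) (β : Fin 16) :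
    (S.rot R hR O hO).vec ((S.rot R hR O hO).g i) A β =
      ∑ a, (O A a : ℂ) • ∑ j, (R i j : ℂ) • S.vec (S.g j) a β := by
  rw [rt_vec]
  refine Finset.sum_congr rfl fun a _ => ?_
  have h0 : (S.rot R hR O hO).g i = ∑ j, (R i j : ℂ) • S.g j := rfl
  rw [h0, CS.vec_sum]
  congr 1
  refine Finset.sum_congr rfl fun j _ => ?_
  rw [CS.vec_smul]

theorem rt_Q (S : Setup d F) {R : Matrix (Fin 9) (Fin 9) ℝ} (hR : R * R.transpose = 1)
    {O : Matrix (Fin d) (Fin d) ℝ} (hO : O * O.transpose = 1) (v : Cfg d → F)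
    (hv : Differentiable ℝ v) (β : Fin 16) (x : Cfg d) :
    (S.rot R hR O hO).Q β v (rox R O x) = S.Q β (fun z => v (rox R O z)) x := by
  unfold Setup.Q
  rw [rt_W]
  congr 2
  have h1 : ∀ i A, ((S.rot R hR O hO).vec ((S.rot R hR O hO).g i) A β) (pd i A v (rox R O x)) =
      ∑ a, ∑ j, ((O A a : ℂ) * (R i j : ℂ)) • (S.vec (S.g j) a β) (pd i A v (rox R O x)) := by
    intro i A
    rw [rt_vec1]
    simp only [_root_.sum_apply, _root_.smul_apply, Finset.smul_sum, smul_smul]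
  have h2 : ∀ j a, (S.vec (S.g j) a β) (pd j a (fun z => v (rox R O z)) x) =
      ∑ i, ∑ A, ((O A a : ℂ) * (R i j : ℂ)) • (S.vec (S.g j) a β) (pd i A v (rox R O x)) := by
    intro j a
    rw [rt_pd R O v hv]
    simp only [map_sum, map_smul, Finset.smul_sum, smul_smul]
    refine Finset.sum_congr rfl fun i _ => Finset.sum_congr rfl fun A _ => ?_
    rw [mul_comm]
  simp only [h1, h2]
  have h3 : ∀ g : Fin 9 → Fin d → Fin d → Fin 9 → F,
      ∑ i, ∑ A, ∑ a, ∑ j, g i A a j = ∑ j, ∑ a, ∑ i, ∑ A, g i A a j := by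
    intro g
    have e1 : ∀ i, ∑ A, ∑ a, ∑ j, g i A a j = ∑ j, ∑ a, ∑ A, g i A a j := by
      intro i
      have e2 : ∀ A, ∑ a, ∑ j, g i A a j = ∑ j, ∑ a, g i A a j := fun A => Finset.sum_comm
      simp only [e2]
      rw [Finset.sum_comm]
      refine Finset.sum_congr rfl fun j _ => ?_
      rw [Finset.sum_comm]
    simp only [e1]
    rw [Finset.sum_comm]
    refine Finset.sum_congr rfl fun j _ => ?_
    rw [Finset.sum_comm]
  rw [h3]

theorem rt_G (S : Setup d F) {R : Matrix (Fin 9) (Fin 9) ℝ} (hR : R * R.transpose = 1)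
    {O : Matrix (Fin d) (Fin d) ℝ} (hO : O * O.transpose = 1) (v : Cfg d → F)
    (hv : Differentiable ℝ v) (C : Fin d) (x : Cfg d) :
    (S.rot R hR O hO).G C v (rox R O x) = ∑ C', (O C C' : ℂ) • S.G C' (fun z => v (rox R O z)) x := by
  set q : Fin 9 → Fin d → F := fun i b => ∑ B, (O B b : ℂ) • pd i B v (rox R O x) with hq
  set y : Fin 9 → Fin d → ℂ := fun i a => ∑ k, (R i k : ℂ) * (x (k, a) : ℂ) with hy
  set U : Fin d → Fin d → F := fun a b => ∑ i, y i a • q i b with hU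
  have h1 : ∀ i B, ∑ b, (O B b : ℂ) • q i b = pd i B v (rox R O x) := by
    intro i B
    refine rt_one (K := ℂ) (M := F) (fun b B => (O B b : ℂ)) ?_ B (fun B => pd i B v (rox R O x))
    intro k l
    have hO' : O.transpose * O.transpose.transpose = 1 := by
      rw [Matrix.transpose_transpose]
      exact mul_eq_one_comm.1 hO
    have := rt_orthc hO' k l
    simpa only [Matrix.transpose_apply] using this
  have h2 : ∀ i A, (rox R O x (i, A) : ℂ) = ∑ a, (O A a : ℂ) * y i a := by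
    intro i A
    rw [rt_apply']
    push_cast
    rfl
  have h3 : ∀ A B, ∑ i, (rox R O x (i, A) : ℂ) • pd i B v (rox R O x) =
      ∑ a, (O A a : ℂ) • ∑ b, (O B b : ℂ) • U a b := by
    intro A B
    have e1 : ∀ i, (rox R O x (i, A) : ℂ) • pd i B v (rox R O x) =
        ∑ a, ∑ b, (O A a : ℂ) • (O B b : ℂ) • (y i a • q i b) := by
      intro i
      rw [h2, Finset.sum_smul]
      refine Finset.sum_congr rfl fun a _ => ?_
      rw [← h1 i B, Finset.smul_sum]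
      refine Finset.sum_congr rfl fun b _ => ?_
      simp only [smul_smul]
      congr 1
      ring
    simp only [e1]
    rw [Finset.sum_comm]
    refine Finset.sum_congr rfl fun a _ => ?_
    rw [Finset.sum_comm, Finset.smul_sum]
    refine Finset.sum_congr rfl fun b _ => ?_
    simp only [hU, Finset.smul_sum]
  have h4 : ∀ a b, ∑ k, (x (k, a) : ℂ) • pd k b (fun z => v (rox R O z)) x = U a b := by
    intro a b
    simp only [rt_pd R O v hv, hU, hy, Finset.smul_sum, Finset.sum_smul]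
    rw [Finset.sum_comm]
    refine Finset.sum_congr rfl fun i _ => Finset.sum_congr rfl fun k _ => ?_
    rw [hq]
    simp only [Finset.smul_sum, smul_smul]
    refine Finset.sum_congr rfl fun B _ => ?_
    congr 1
    ring
  have h5 : ∑ i, ∑ A, ∑ B, (((S.rot R hR O hO).f C A B : ℂ) * (rox R O x (i, A) : ℂ)) •
      pd i B v (rox R O x) = ∑ C', (O C C' : ℂ) • ∑ a, ∑ b, (S.f C' a b : ℂ) • U a b := by
    have h := rt_f (K := ℂ) (M := F) (fun A B => (O A B : ℂ)) (rt_orthc hO)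
      (fun a b c => (S.f a b c : ℂ)) U C
    rw [← h, Finset.sum_comm]
    refine Finset.sum_congr rfl fun A _ => ?_
    rw [Finset.sum_comm]
    refine Finset.sum_congr rfl fun B _ => ?_
    rw [← h3, Finset.smul_sum]
    refine Finset.sum_congr rfl fun i _ => ?_
    rw [smul_smul]
    congr 2
    have e0 : (S.rot R hR O hO).f C A B =
      ∑ a, ∑ b, ∑ c, O C a * O A b * O B c * S.f a b c := rfl
    rw [e0]
    push_cast
    rfl
  have h6 : ∀ C', ∑ i, ∑ A, ∑ B, ((S.f C' A B : ℂ) * (x (i, A) : ℂ)) •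
      pd i B (fun z => v (rox R O z)) x = ∑ a, ∑ b, (S.f C' a b : ℂ) • U a b := by
    intro C'
    rw [Finset.sum_comm]
    refine Finset.sum_congr rfl fun A _ => ?_
    rw [Finset.sum_comm]
    refine Finset.sum_congr rfl fun B _ => ?_
    rw [← h4, Finset.smul_sum]
    refine Finset.sum_congr rfl fun i _ => ?_
    rw [smul_smul]
  unfold Setup.G
  rw [h5, rt_cS]
  simp only [h6, smul_add, Finset.sum_add_distrib, _root_.sum_apply, _root_.smul_apply]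
  congr 1
  rw [Finset.smul_sum]
  refine Finset.sum_congr rfl fun C' _ => ?_
  rw [smul_comm]

theorem rot_stmt (S : Setup d F) : RotStmt S := fun _ hR _ hO =>
  ⟨rt_norm hR hO, rt_mp hR hO, rt_inv hR hO, rt_V S hR hO, rt_W S hR hO,
    fun v hv β x => rt_Q S hR hO v hv β x, fun v hv C x => rt_G S hR hO v hv C x⟩

end Vale.Agent.P353.Z.AN
end

section

/-! # P353, all `N`, block P (helper714): injectivity of the tube coordinates along a whole stratum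

`z` = abelian subalgebra, `h = cen z`. Used for the mass bound of profiles up to the collision set. -/

open MeasureTheory Filter Topology
open scoped ContDiff

namespace Vale.Agent.P353.Z
namespace AP

/-- bracket of colour vectors -/
noncomputable def br {d : ℕ} {F : Type} [NormedAddCommGroup F] [InnerProductSpace ℂ F] (S : Setup d F)
    (a b : Fin d → ℝ) : Fin d → ℝ := (S.adm a).mulVec b

/-- centraliser of a set of colour vectors -/
def cen {d : ℕ} {F : Type} [NormedAddCommGroup F] [InnerProductSpace ℂ F] (S : Setup d F)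
    (T : Set (Fin d → ℝ)) : Set (Fin d → ℝ) := {v | ∀ w ∈ T, br S w v = 0}

/-- **P-Inj** the stratum is parametrised injectively, uniformly up to the collisions. `z` = abelian subalgebra, `h = cen z` its
centraliser, `y_i ∈ z` with centraliser exactly `h`, `ξ ⊥ h` small. PROOF: `g = exp(-ad ξ')exp(ad ξ)` is an automorphism of `f`, close to
`1`, `g y = y'`; it maps `cen y = h` onto `cen y' = h`; `z' = center of h ⊇ z`; replace `z` by `z'`: `g z' = z'`. The operators `i·ad v`, `v ∈ z'`,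
commute, their joint eigenvalues (weights) are a finite set of covectors on `z'`, permuted by `g`; `g` near `1` fixes each of them; the
weights separate the points of `z'` (semisimple), so `g = 1` on `z'`: `y = y'` and `exp(ad ξ) = exp(ad ξ')` on `z'`. The map
`m ∋ ξ ↦ exp(ad ξ)|_{z'}` is `C¹` with injective derivative `ξ ↦ ad ξ|_{z'}` at `0` (kernel `⊆ cen z' = h`), hence injective near `0`. -/
def InjStmt {d : ℕ} {F : Type} [NormedAddCommGroup F] [InnerProductSpace ℂ F] (S : Setup d F) : Prop :=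
  (∀ a : Fin d → ℝ, (∀ b, br S a b = 0) → a = 0) → ∀ z : Set (Fin d → ℝ), (∀ a ∈ z, ∀ b ∈ z, br S a b = 0) →
  ∃ δ : ℝ, 0 < δ ∧ ∀ (y y' : Fin 9 → Fin d → ℝ) (ξ ξ' : Fin d → ℝ), (∀ i, y i ∈ z) → (∀ i, y' i ∈ z) →
    cen S (Set.range y) = cen S z → cen S (Set.range y') = cen S z →
    (∀ v ∈ cen S z, ∑ A, ξ A * v A = 0) → (∀ v ∈ cen S z, ∑ A, ξ' A * v A = 0) →
    (∑ A, ξ A ^ 2 < δ) → (∑ A, ξ' A ^ 2 < δ) →
    (∀ i, (NormedSpace.exp (S.adm ξ)).mulVec (y i) = (NormedSpace.exp (S.adm ξ')).mulVec (y' i)) → y = y' ∧ ξ = ξ'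

end AP
end Vale.Agent.P353.Z
end

section

/-! # P353, all `N`, block TW (helper714): tightness at the scale `m^{-1/2}`

`en_m u = ∑_β ‖Q^m_β u‖²`. Output: `m² ∫ |x|² |u|² ≤ C (en_m u + m ‖u‖²)` for gauge invariant test functions, `0 < m ≤ 1`.
A prover delivers `theorem <name> (S : Setup d F) … : XStmt S` in `Vale/Agent/P353/AN/TW/<File>.lean`. -/

open MeasureTheory Filter Topology
open scoped ContDiff

namespace Vale.Agent.P353.Z.AT

variable {d dh dm : ℕ} {F : Type*} [NormedAddCommGroup F] [InnerProductSpace ℂ F]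

/-- energy with mass in a set -/
noncomputable def enm (S : Setup d F) (m : ℝ) (u : Cfg d → F) (A : Set (Cfg d)) : ℝ :=
  ∑ β, ∫ x in A, ‖S.Qm m β u x‖ ^ 2

/-- everything the local estimate needs from blocks A and C, in the frame `S'` -/
structure Inp (S' : Setup d F) : Prop where
  tube : AN.TubeStmt S'
  dec : AN.DecStmt S'
  bd : AN.BdStmt S'
  gh : AN.GhStmt S'
  cut : AN.CutStmt S'
  frame : AN.FrameStmt S'
  out : ∀ (dh dm : ℕ) (φ : Spl dh dm d), AN.OutStmt S' φ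

/-- **TW1** local estimate in one tube. `S' = S.rot R hR O hO`, `u'(z) = u(rox Rᵀ Oᵀ z)` (so `u = u' ∘ rox R O`; by `RotStmt` `u'` is a gauge
invariant test function of `S'`, the masses agree, and `Q^m_β u (x) = (S'.Q β u' + m S'.Mx N' β u')(rox R O x)`, `N' = rotN R (N0 S)`
(`FrameStmt S`, linearity of `S.MM`)).
PROOF. Let `ε` be smaller than the `ε0`'s of `OutStmt S'` (mass matrices `N'`), `TubeStmt`, `CutStmt`, `BdStmt`, and `4ε < σ`; `ρ = ρ₀`.
`TubeStmt` for `(ε/2, ρ)` gives `c', δ`, for `(ε, ρ)` it gives `c`. On the slice let `χ(y,w) = χ₀((y - sY)/s) χ₀(w/s)`, `= 1` for `‖·‖ ≤ ε/2`,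
support in `‖·‖ ≤ ¾ε`, `|∇χ| ≤ C/s`; `v = χ·res u'` is `Tst2` (`GhStmt`, `BdStmt`: `det ≠ 0`), `Sup2 Y ε s v`.
(1) mass: `mas u {rox x ∈ ball (sY) (δs)} ≤ ∫_{Tube(ε/2)}‖u'‖² = c'∫_{Nb(ε/2)}‖res u'‖² ≤ c' ns2 v` (`‖u'‖` is constant along the gauge directions:
`Z/U/GrpExp` `gx983_norm`, as in `AN/A/Norm.lean`).
(2) energy: `QS φ N' m β v = χ·QS φ N' m β (res u') + [Qs_β,χ]res u'` (`CutStmt`; the mass terms commute with `χ`),
`QS φ N' m β (res u') = res(Q^m_β u')` (`FrameStmt S'`, last part, with `DecStmt`), so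
`ES v ≤ 2∑_β∫_{Nb(ε)}‖res(Q^m_βu')‖² + (C/s²)∫_{Nb(ε)}‖res u'‖² ≤ C(enm + s⁻² mas)` on the tube `⊆` shell (`‖tub a p‖ = ‖emb p‖`,
`|‖emb p‖ - s‖Y‖| ≤ 2εs`; `Q^m_βu` is gauge invariant).
(3) `OutStmt` (1), (6): `m²s²ns2 v ≤ C(EH v + m ns2 v) ≤ C(ES v + (s⁻² + m²/s + m)ns2 v)`, `m²/s ≤ m`. -/
def TubStmt (S : Setup d F) : Prop := FiniteDimensional ℂ F → AN.RotStmt S → AN.FrameStmt S →
  ∀ (R : Matrix (Fin 9) (Fin 9) ℝ) (hR : R * R.transpose = 1) (O : Matrix (Fin d) (Fin d) ℝ) (hO : O * O.transpose = 1),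
  Inp (S.rot R hR O hO) → ∀ (dh dm : ℕ) (φ : Spl dh dm d) (Y : Cfg dh), AN.Std (S.rot R hR O hO) φ Y → 0 < dm → Y ≠ 0 →
  ∀ σ : ℝ, 0 < σ → ∃ δ R₁ C : ℝ, 0 < δ ∧ δ ≤ σ ∧ 1 ≤ R₁ ∧ 0 ≤ C ∧ ∀ s : ℝ, R₁ ≤ s → ∀ m : ℝ, 0 < m → m ≤ 1 → ∀ u, AD.GInv S u →
    m ^ 2 * s ^ 2 * AD.mas u {x | rox R O x ∈ Metric.ball (s • emb φ Y 0) (δ * s)} ≤
      C * (enm S m u (AD.shl d ((‖Y‖ - σ) * s) ((‖Y‖ + σ) * s)) +
        (1 / s ^ 2 + m) * AD.mas u (AD.shl d ((‖Y‖ - σ) * s) ((‖Y‖ + σ) * s)))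

/-- **TW2** the non commuting part of a shell. PROOF. `V_m ≥ ½V - Cm²|x|²` (`U.SqStmt`: `GG = F + 2mx`, `(a+b)² ≥ ½a² - b²`; or
`|6mκ det3| ≤ Cm|x|√V`) and `V_m ≥ 0` everywhere, so `V_m ≥ ¼ηs⁴` on the set, `s ≥ R₁(η)`. Radial cutoff `χ = 1` on `s ≤ |x| ≤ 2s`, support in
`(s/2,4s)`, `|∇χ| ≤ C/s`: `en_m(χu) ≤ 2 enm + Cs⁻²mas`; energy formula `en_m(w) = 8‖∇w‖² + 16∫V_m‖w‖² + Re⟨w,(16Fx - 12m FG)w⟩`
(`Z/U/En.lean`) `≥ 4ηs⁴∫_{set}‖u‖² - Cs‖χu‖²`. Multiply by `m²s^{-2} ≤ 1`. -/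
def NcStmt (S : Setup d F) : Prop := FiniteDimensional ℂ F → ∀ η : ℝ, 0 < η → ∃ R₁ C : ℝ, 1 ≤ R₁ ∧ 0 ≤ C ∧
  ∀ s : ℝ, R₁ ≤ s → ∀ m : ℝ, 0 < m → m ≤ 1 → ∀ u, AD.GInv S u →
    m ^ 2 * s ^ 2 * AD.mas u {x | s ≤ ‖x‖ ∧ ‖x‖ ≤ 2 * s ∧ η * s ^ 4 ≤ S.V x} ≤
      C * (enm S m u (AD.shl d (s / 2) (4 * s)) + (1 / s ^ 2 + m) * AD.mas u (AD.shl d (s / 2) (4 * s)))

/-- **TW3** one shell. PROOF: `CovStmt S` with `ε = 1`, `L = 2` and `P … r δ :=` (`δ ≤ 1/4` and the estimate of TW1 holds with `σ = 1/4`, this `δ`, some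
`R₁`, `C`); a ball that meets `{s ≤ |x| ≤ 2s}` has `3/4 ≤ ‖Y‖ ≤ 9/4`, so its shell is inside `(s/2, 4s)`; TW2 for the rest. -/
def ShStmt (S : Setup d F) : Prop := FiniteDimensional ℂ F → AN.Cless S → AN.RotStmt S → AN.FrameStmt S →
  (∀ (R : Matrix (Fin 9) (Fin 9) ℝ) (hR : R * R.transpose = 1) (O : Matrix (Fin d) (Fin d) ℝ) (hO : O * O.transpose = 1),
    Inp (S.rot R hR O hO)) → AN.CovStmt S → TubStmt S → NcStmt S →
  ∃ R₁ C : ℝ, 1 ≤ R₁ ∧ 0 ≤ C ∧ ∀ s : ℝ, R₁ ≤ s → ∀ m : ℝ, 0 < m → m ≤ 1 → ∀ u, AD.GInv S u →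
    m ^ 2 * s ^ 2 * AD.mas u {x | s ≤ ‖x‖ ∧ ‖x‖ ≤ 2 * s} ≤
      C * (enm S m u (AD.shl d (s / 2) (4 * s)) + (1 / s ^ 2 + m) * AD.mas u (AD.shl d (s / 2) (4 * s)))

/-- **TW** output -/
def TWStmt (S : Setup d F) : Prop := ∃ C : ℝ, 0 ≤ C ∧ ∀ m : ℝ, 0 < m → m ≤ 1 → ∀ u, AD.GInv S u →
  m ^ 2 * (∫ x, ‖x‖ ^ 2 * ‖u x‖ ^ 2) ≤ C * (S.en m u + m * nsq u)

/-- **TW4** summation over dyadic scales (`hS` is the conclusion of TW3). PROOF: `s_k = 2^k R₁ m^{-1/2} ≥ R₁`, `k ≥ 0`: `1/s_k² ≤ m`;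
`∫_{|x| ≥ s_0} m²|x|²|u|² ≤ ∑_k 4m²s_k² mas u {s_k ≤ |x| ≤ 2s_k}` (finite sum, compact support); the shells `(s_k/2, 4s_k)` have overlap `≤ 3`
(bounded finite overlap); `∫_{|x| ≤ s_0} m²|x|²|u|² ≤ m²s_0²‖u‖² = R₁² m‖u‖²`. -/
def SumStmt (S : Setup d F) : Prop := (∃ R₁ C : ℝ, 1 ≤ R₁ ∧ 0 ≤ C ∧ ∀ s : ℝ, R₁ ≤ s → ∀ m : ℝ, 0 < m → m ≤ 1 → ∀ u, AD.GInv S u →
    m ^ 2 * s ^ 2 * AD.mas u {x | s ≤ ‖x‖ ∧ ‖x‖ ≤ 2 * s} ≤
      C * (enm S m u (AD.shl d (s / 2) (4 * s)) + (1 / s ^ 2 + m) * AD.mas u (AD.shl d (s / 2) (4 * s)))) → TWStmt S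

/-- **TW5** massless energy bound: `∑‖Q_βu‖² ≤ 2en_m(u) + C m²∫|x|²|u|²`, hence for bounded sequences at scale `R` (`m = R^{-2}`)
`R² En(u)` is bounded and the mass outside `LR` is `≤ C/L²`. PROOF: `Q = Q^m - mM`, `‖M_β(x)‖ ≤ C|x|`; TW; Chebyshev. -/
def BdStmt (S : Setup d F) : Prop := TWStmt S → ∃ C : ℝ, 0 ≤ C ∧ ∀ R : ℝ, 1 ≤ R → ∀ u, AD.GInv S u → ∀ A : ℝ,
  nsq u ≤ A → R ^ 2 * S.en (R⁻¹ ^ 2) u ≤ A → R ^ 2 * AD.En S u ≤ C * A ∧
    ∀ L : ℝ, 0 < L → AD.mas u {x | L * R ≤ ‖x‖} ≤ C * A / L ^ 2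

end Vale.Agent.P353.Z.AT
end

section

/-! # P353, all `N`, block JN (helper714): no loss of mass (statements)

A prover delivers `theorem <name> (S : Setup d F) … : XStmt S` in `Vale/Agent/P353/AN/JN/<File>.lean`, sorry free. -/

open MeasureTheory Filter Topology
open scoped ContDiff

namespace Vale.Agent.P353.Z.AJ

variable {d dh dm ds dz : ℕ} {F : Type*} [NormedAddCommGroup F] [InnerProductSpace ℂ F]

/-- the function in the rotated frame -/
noncomputable def rotu (R : Matrix (Fin 9) (Fin 9) ℝ) (O : Matrix (Fin d) (Fin d) ℝ) (u : Cfg d → F) (x : Cfg d) : F :=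
  u (rox R.transpose O.transpose x)

/-- all slice functionals at `Y` tend to zero, in one standard frame -/
def SpzAt [FiniteDimensional ℂ F] (S : Setup d F) (Y : Cfg d) (Rn : ℕ → ℝ) (u : ℕ → Cfg d → F) : Prop :=
  ∃ (R : Matrix (Fin 9) (Fin 9) ℝ) (hR : R * R.transpose = 1) (O : Matrix (Fin d) (Fin d) ℝ) (hO : O * O.transpose = 1)
    (dh dm ds dz : ℕ) (φ : Spl dh dm d) (ψ : Spl ds dz dh) (z₀ : Cfg dz) (h : AD.Std2 (S.rot R hR O hO) φ ψ z₀),
    rox R O Y = emb φ (AD.cmb ψ 0 z₀) 0 ∧ ∃ ε₁ : ℝ, 0 < ε₁ ∧ ∀ ε : ℝ, 0 < ε → ε ≤ ε₁ →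
      AD.SPZ (S.rot R hR O hO) φ ψ z₀ h ε Rn (fun n => rotu R O (u n))

/-- **N1** all points are null. PROOF: strong induction on `cd S Y`, `Y ≠ 0`, `S.V Y = 0` (D1 `NonCommStmt` otherwise). Let `Y'` be the point of the
hypothesis and take its frame. `h.ss` is centreless (`h.less`), so `ICStmt h.ss` by hypothesis `hIC`. `LocStmt (S.rot R hR O hO)` at `z₀` (`emb … ≠ 0` since
`rox` is an isometry), with `ε = min ε₀ ε₁`: the rotated sequence is `Sq` (`TrStmt`), non commuting points are null (`NonCommStmt` for the rotated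
setup), commuting points with smaller centraliser are null (induction hypothesis, `cd` and `NulE` are transported by `TrStmt`; `cd = dh` at `Y'` by
`GeoStmt`); so `NulE` at `rox R O Y'`, hence at `Y'` (`TrStmt`), hence `Nul` at `Y`. -/
def NulStmt (S : Setup d F) : Prop := ∀ _ : FiniteDimensional ℂ F, AD.TrStmt S → AD.NonCommStmt S →
  (∀ (R : Matrix (Fin 9) (Fin 9) ℝ) (hR : R * R.transpose = 1) (O : Matrix (Fin d) (Fin d) ℝ) (hO : O * O.transpose = 1),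
    AD.LocStmt (S.rot R hR O hO) ∧ AD.NonCommStmt (S.rot R hR O hO) ∧ AD.GeoStmt (S.rot R hR O hO)) →
  (∀ (e : ℕ) (T : Setup e F), AN.Cless T → AD.ICStmt T) →
  ∀ (Rn : ℕ → ℝ) (u : ℕ → Cfg d → F), AD.Sq S Rn u →
    (∀ Y, Y ≠ 0 → S.V Y = 0 → ∃ Y', Y' ≠ 0 ∧ S.V Y' = 0 ∧ AD.cd S Y' = AD.cd S Y ∧
      (AD.Nul Rn u Y' → AD.Nul Rn u Y) ∧ SpzAt S Y' Rn u) →
    ∀ Y, Y ≠ 0 → AD.Nul Rn u Y

/-- **N2** no loss from null points. PROOF. `R_n ≥ 1` eventually. TW5 (`hTW`): `R_n²En(Ψ_n) ≤ C'` and `mas {L R_n ≤ |x|} ≤ C'/L²`. So `Sq S R Ψ` (for the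
finitely many `n` with `R_n < 1` or `R_n ≤ 0`: drop them, e.g. replace the sequences by their tails). `ShellStmt`: `mas (shl (ηR_n) (LR_n)) → 0` for all
`0 < η < L`. Inner part: `ICStmt S` with `ρ = 2ηR_n ≥ 1`: `mas (Ψ_n - ∑⟨o_j,Ψ_n⟩o_j) (ball 0 (2ηR_n)) ≤ C·4η²R_n²En(Ψ_n) ≤ C''η²`; `⟨o_j,Ψ_n⟩ → 0` (`o_j ∈ L²`, `Ψ_n` bounded,
local weak limits `0`; density of test functions), so `limsup mas (ball 0 (2ηR_n)) ≤ 2C''η²`. Total: `limsup nsq Ψ_n ≤ 2C''η² + C'/L²`. -/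
def NlStmt (S : Setup d F) : Prop := ∀ _ : FiniteDimensional ℂ F, AT.TWStmt S → AT.BdStmt S → AD.ICStmt S → AD.ShellStmt S →
  ∀ (Rn : ℕ → ℝ) (Ψ : ℕ → Cfg d → F) (C : ℝ), Prof.Bdd S Rn Ψ C →
    (AD.Sq S (fun n => max (Rn n) 1) Ψ → ∀ Y, Y ≠ 0 → AD.Nul (fun n => max (Rn n) 1) Ψ Y) →
    (∀ ζ : Cfg d → F, Setup.Tst ζ → Tendsto (fun n => ipr ζ (Ψ n)) atTop (𝓝 0)) →
    Tendsto (fun n => nsq (Ψ n)) atTop (𝓝 0)

/-- **N3** rotated frames at regular points of the stratum. PROOF. `S' = S.rot R hR 1`: structure constants, `κ`, `IsSub`, `cen`, `less` are unchanged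
(`O = 1`); `D'_i(rz R η) = ∑_jR_{ij}D_j(η)` (`AX.rot_Dz`, `DM_rz` in `AN/X/VFr.lean`). The `D_i(η₀)` are commuting antisymmetric with `∑D_i²` invertible, so
some combination `∑e_iD_i`, `|e| = 1`, is invertible (maximal rank argument in `AN/A/Std.lean`); `R` = orthogonal matrix with last row `e`. -/
def RegStmt (S : Setup d F) : Prop := ∀ (dh dm ds dz : ℕ) (φ : Spl dh dm d) (ψ : Spl ds dz dh) (z₀ : Cfg dz), AD.Std2 S φ ψ z₀ →
  ∀ η₀ : Cfg dz, (∑ i, AD.Dz S φ ψ η₀ i * AD.Dz S φ ψ η₀ i).det ≠ 0 →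
  ∀ h1 : (1 : Matrix (Fin d) (Fin d) ℝ) * (1 : Matrix (Fin d) (Fin d) ℝ).transpose = 1,
    ∃ (R : Matrix (Fin 9) (Fin 9) ℝ) (hR : R * R.transpose = 1), AD.Std2 (S.rot R hR 1 h1) φ ψ (rox R 1 η₀)

/-- **N4** composition of frames: `(S.rot 1 O).rot R 1 = S.rot R O` as far as needed. PROOF: ext on the fields (`Setup` and `CS` are structures; `1 * O`, sums
with Kronecker deltas). -/
def CompStmt (S : Setup d F) : Prop := ∀ (R : Matrix (Fin 9) (Fin 9) ℝ) (hR : R * R.transpose = 1)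
  (O : Matrix (Fin d) (Fin d) ℝ) (hO : O * O.transpose = 1)
  (h9 : (1 : Matrix (Fin 9) (Fin 9) ℝ) * (1 : Matrix (Fin 9) (Fin 9) ℝ).transpose = 1)
  (h1 : (1 : Matrix (Fin d) (Fin d) ℝ) * (1 : Matrix (Fin d) (Fin d) ℝ).transpose = 1),
  (S.rot 1 h9 O hO).rot R hR 1 h1 = S.rot R hR O hO ∧ (∀ x : Cfg d, rox R 1 (rox 1 O x) = rox R O x) ∧
    ∀ (dh dm : ℕ) (φ : Spl dh dm d) (y : Cfg dh), rox R 1 (emb φ y 0) = emb φ (rox R 1 y) 0

end Vale.Agent.P353.Z.AJ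
end

section

/-! # P353, all `N`, block MB (helper714): mass bound of the profiles, uniform up to the collisions

OUTPUT: `AL.UBStmt S`. The constant does not depend on the compact set of regular points: tubes of a FIXED angular radius `ρ` over disjoint compact
pieces of the stratum are disjoint (`AP.InjStmt`), if their transversal radius `ε` is small enough (depending on the pieces).

A prover delivers `theorem <name> … : XStmt …` in `Vale/Agent/P353/AN/MB/<File>.lean`, importing this file and landed files of `Z`, `Z/U`, `AN`, with other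
statements only as hypotheses. -/

open MeasureTheory Filter Topology Matrix
open scoped ContDiff

namespace Vale.Agent.P353.Z.AM

variable {d dh dm r ds : ℕ} {F : Type} [NormedAddCommGroup F] [InnerProductSpace ℂ F]

/-- tube over the part `R A` of the stratum -/
def Tk (S : Setup d F) (φ : Spl dh dm d) (ψ : Spl r ds dh) (A : Set (Cfg r)) (R ε ρ : ℝ) : Set (Cfg d) :=
  {x | ∃ a, ‖a‖ < ρ ∧ ∃ p ∈ AL.Nr ψ A dm R ε, x = AN.tub S φ a p}

/-- finite family of disjoint compact pieces of the stratum with frames -/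
structure Fam (S : Setup d F) (φ : Spl dh dm d) (ψ : Spl r ds dh) (s t : ℝ) (k : ℕ) (K : Fin k → Set (Cfg r))
    (Q : Fin k → Matrix (Fin 9) (Fin 9) ℝ) : Prop where
  orth : ∀ l, Q l * (Q l).transpose = 1
  comp : ∀ l, IsCompact (K l)
  reg : ∀ l, K l ⊆ AL.Rg S φ ψ
  inv : ∀ l, ∀ η ∈ K l, (S.Dz φ ψ (rox (Q l) 1 η) 8).det ≠ 0
  shl : ∀ l, K l ⊆ AD.shl r s t
  disj : ∀ l l', l ≠ l' → Disjoint (K l) (K l')

/-- **MB1** uniform injectivity along the stratum. PROOF. `z` = colour vectors supported in the indices `φ (inl (ψ (inl a)))`; it is commuting (`IsZ`,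
`IsSub`). For `η ∈ Rg` the centraliser of the nine components of `emb φ (cmb ψ η 0) 0` is `{v | v = 0 on the indices φ (inr B)}`: on `h` the bracket vanishes
(`IsZ`, `IsSub`), on `m` it is `∓D_i(η)` with values in `m`, and `∑|D_ix|² = ⟨x, -∑D_i²x⟩` (antisymmetric matrices), `det ≠ 0`. So it equals `cen z`, and
`exm φ a` is orthogonal to it. `ro (exp (adm a)) x` applies `mulVec` to every component. `Cless` = trivial centre in the sense of `AP.br`. -/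
def InjUStmt (S : Setup d F) : Prop := AN.Cless S → ∀ (dh dm r ds : ℕ) (φ : Spl dh dm d) (ψ : Spl r ds dh), S.IsSub φ → AN.IsZ S φ ψ →
  ∃ ρ : ℝ, 0 < ρ ∧ ∀ (a a' : EuclideanSpace ℝ (Fin dm)) (η η' : Cfg r), ‖a‖ ≤ ρ → ‖a'‖ ≤ ρ → η ∈ AL.Rg S φ ψ → η' ∈ AL.Rg S φ ψ →
    AN.tub S φ a (AN.cmb ψ η 0, 0) = AN.tub S φ a' (AN.cmb ψ η' 0, 0) → a = a' ∧ η = η'

def InjUOfStmt (S : Setup d F) : Prop := AP.InjStmt S → InjUStmt S

/-- **MB2a** the tube coordinates are injective over every piece, for a FIXED angular radius `ρ`, if the transversal radius is small. PROOF. Homogeneity (`tub a (R•p) = R•tub a p`):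
`R = 1`. `ρ₀` = the radius of `InjUStmt`, so small that `j(a) ≠ 0` for `‖a‖ ≤ ρ₀` (`DetStmt`: `j` continuous, `j 0 = 1`). By contradiction and compactness: `ε_n → 0`,
`(a_n,p_n) ≠ (a_n',p_n')` with the same image, `p_n = (cmb ψ η_n s_n, w_n)`, `η_n` in the compact set `rox Q 1 '' K`; limits `(a,η,0,0)`, `(a',η',0,0)` are equal by `InjUStmt` (`Rg` is invariant under
`rox Q 1`: `∑D_i²` does not change); at the limit point `fderiv (tz S φ)` is invertible (`DetStmt`: `|det| = Jd·|j| ≠ 0`, `Fam.inv`), so `tz S φ` is injective in a neighbourhood (inverse function theorem; it is `C^∞`).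
`AN.tub`, `AN.tz`, `S.Jd`, `S.Dz` use the structure constants only: they are the same in the rotated frame. Compare `AN/A/Inj.lean`. -/
def SepAStmt (S : Setup d F) : Prop := InjUStmt S → AN.DetStmt S → AN.Cless S → ∀ (dh dm r ds : ℕ) (φ : Spl dh dm d) (ψ : Spl r ds dh),
  S.IsSub φ → AN.IsZ S φ ψ → ∃ ρ₀ : ℝ, 0 < ρ₀ ∧ ∀ ρ : ℝ, 0 < ρ → ρ ≤ ρ₀ → ∀ (s t : ℝ) (k : ℕ) (K : Fin k → Set (Cfg r))
    (Q : Fin k → Matrix (Fin 9) (Fin 9) ℝ), Fam S φ ψ s t k K Q → ∃ ε₀ : ℝ, 0 < ε₀ ∧ ∀ ε : ℝ, 0 < ε → ε ≤ ε₀ → ∀ R : ℝ, 0 < R →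
      ∀ l, Set.InjOn (fun q : EuclideanSpace ℝ (Fin dm) × (Cfg dh × Wsp dm) => AN.tub S φ q.1 q.2)
        (Metric.ball 0 ρ ×ˢ AL.Nr ψ (rox (Q l) 1 '' K l) dm R ε)

/-- **MB2b** the tubes over disjoint pieces are disjoint and lie in the shell. PROOF. `R = 1` by homogeneity. `Φ(a,η) = tub a (cmb ψ η 0, 0)` is continuous and injective on `closedBall 0 ρ × Rg` (`InjUStmt`,
`ρ₀` = its radius). `rox Qᵀ 1` commutes with `ro` and maps `emb φ (cmb ψ (rox Q 1 η) 0) 0` to `emb φ (cmb ψ η 0) 0`, so the rotated tube of the piece `l` lies in the `√2ε`-neighbourhood of the compact set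
`Φ(closedBall 0 ρ × K_l)` (`exp(ad a)` and `rox` are isometries: `DexpStmt` gives `exp·expᵀ = 1`; `‖emb (cmb ψ η s) w - emb (cmb ψ η 0) 0‖² = ‖s‖² + ‖w‖²`). These compact sets are disjoint, and lie in the open shell
(`‖Φ(a,η)‖ = ‖η‖`); disjoint compact sets have positive distance. -/
def SepBStmt (S : Setup d F) : Prop := InjUStmt S → AN.DexpStmt S → AN.Cless S → ∀ (dh dm r ds : ℕ) (φ : Spl dh dm d) (ψ : Spl r ds dh),
  S.IsSub φ → AN.IsZ S φ ψ → ∃ ρ₀ : ℝ, 0 < ρ₀ ∧ ∀ ρ : ℝ, 0 < ρ → ρ ≤ ρ₀ → ∀ (s t : ℝ) (k : ℕ) (K : Fin k → Set (Cfg r))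
    (Q : Fin k → Matrix (Fin 9) (Fin 9) ℝ), Fam S φ ψ s t k K Q → ∃ ε₀ : ℝ, 0 < ε₀ ∧ ∀ ε : ℝ, 0 < ε → ε ≤ ε₀ → ∀ R : ℝ, 0 < R →
      (∀ l l', l ≠ l' → Disjoint (rox (Q l).transpose 1 '' Tk S φ ψ (rox (Q l) 1 '' K l) R ε ρ)
        (rox (Q l').transpose 1 '' Tk S φ ψ (rox (Q l') 1 '' K l') R ε ρ)) ∧
      ∀ l, rox (Q l).transpose 1 '' Tk S φ ψ (rox (Q l) 1 '' K l) R ε ρ ⊆ AD.shl d (s * R) (t * R)

/-- **MB3** volume of the tubes, with a constant that depends on `ρ` only. PROOF: as `AN/A/TubeF.lean`, `AN/GL/TubeJ.lean`: change of variables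
`lintegral_image_eq_lintegral_abs_det_fderiv_mul` for `tz S φ` on the preimage (`CooStmt`) of `ball 0 ρ ×ˢ Nr`, `c = ∫_{ball 0 ρ}|j|` (`tbf_const`); measurability of the
image: Lusin–Souslin (`MeasurableSet.image_of_continuousOn_injOn`). -/
def VolStmt (S : Setup d F) : Prop := AN.DetStmt S → AN.CooStmt → ∀ (dh dm r ds : ℕ) (φ : Spl dh dm d) (ψ : Spl r ds dh), S.IsSub φ →
  ∀ ρ : ℝ, 0 < ρ → ∃ c : ℝ, 0 < c ∧ ∀ (A : Set (Cfg r)) (R ε : ℝ), MeasurableSet A → 0 < R → 0 < ε →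
    Set.InjOn (fun q : EuclideanSpace ℝ (Fin dm) × (Cfg dh × Wsp dm) => AN.tub S φ q.1 q.2) (Metric.ball 0 ρ ×ˢ AL.Nr ψ A dm R ε) →
    MeasurableSet (Tk S φ ψ A R ε ρ) ∧ ∀ f : Cfg d → ENNReal, Measurable f →
      (∀ (a : Fin d → ℝ) x, f (ro (NormedSpace.exp (S.adm a)) x) = f x) →
      ∫⁻ x in Tk S φ ψ A R ε ρ, f x =
        ENNReal.ofReal c * ∫⁻ p in AL.Nr ψ A dm R ε, f (emb φ p.1 p.2) * ENNReal.ofReal (S.Jd φ p.1) ∂(volume.prod volume)

/-- **MB4** mass in disjoint tubes. PROOF. `u' = rotu (Q l) 1 u`, `f = ‖u'‖ₑ²` is invariant (`EqvStmt`, `u` gauge invariant; `rox Qᵀ 1` commutes with `ro`); `‖res u'‖² = Jd‖u'∘emb‖²`;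
MB3; `rox` preserves the measure (`RotStmt`); the rotated tubes are disjoint and lie in the shell (MB2). `C = 1/c`. -/
def MassStmt (S : Setup d F) : Prop := FiniteDimensional ℂ F → AN.Cless S → ∀ (dh dm r ds : ℕ) (φ : Spl dh dm d) (ψ : Spl r ds dh),
  S.IsSub φ → AN.IsZ S φ ψ → ∃ C : ℝ, 0 < C ∧ ∀ (s t : ℝ) (k : ℕ) (K : Fin k → Set (Cfg r)) (Q : Fin k → Matrix (Fin 9) (Fin 9) ℝ),
    Fam S φ ψ s t k K Q → ∃ ε₀ : ℝ, 0 < ε₀ ∧ ∀ ε : ℝ, 0 < ε → ε ≤ ε₀ → ∀ R : ℝ, 0 < R → ∀ u : Cfg d → F, AD.GInv S u →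
      ∑ l, ∫ p in AL.Nr ψ (rox (Q l) 1 '' K l) dm R ε, ‖S.res φ (AJ.rotu (Q l) 1 u) p.1 p.2‖ ^ 2 ∂(volume.prod volume) ≤
        C * AD.mas u (AD.shl d (s * R) (t * R))

def MassOfStmt (S : Setup d F) : Prop := InjUStmt S → SepAStmt S → SepBStmt S → VolStmt S → AN.DexpStmt S → AN.DetStmt S → AN.CooStmt →
  AN.EqvStmt S → AN.RotStmt S → MassStmt S

/-- **MB5a** covariance of the functionals under rotations of the vector index. PROOF: substitution `x ↦ rox Q 1 x` (measure preserving), see `AN/GL/Glob.lean` (`gb969_hz`, `gb969_hs`, `gb969_pm`,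
`gb969_qX`, `gb969_GInv`, `gb969_mas`). -/
def CovZStmt (F : Type) [NormedAddCommGroup F] [InnerProductSpace ℂ F] : Prop := ∀ (Q : Matrix (Fin 9) (Fin 9) ℝ)
  (hQ : Q * Q.transpose = 1),
  (∀ (d dh dm r ds : ℕ) (φ : Spl dh dm d) (ψ : Spl r ds dh) (κ : ℝ) (Om : Cfg r → Matrix (Fin dm) (Fin dm) ℝ) (a : Cfg r → Cfg ds → F)
    (R : ℝ) (u : Cfg d → F), AL.ZZ κ φ ψ Om a R u = AL.ZZ κ φ ψ (fun η => Om (rox Q.transpose 1 η))
      (fun η s => a (rox Q.transpose 1 η) (rox Q.transpose 1 s)) R (AJ.rotu Q 1 u)) ∧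
  (∀ (r ds : ℕ) (A : Set (Cfg r)) (a : Cfg r → Cfg ds → F), AL.Sec2 A a →
    AL.Sec2 (rox Q 1 '' A) (fun η s => a (rox Q.transpose 1 η) (rox Q.transpose 1 s)) ∧
    AL.n2 (fun η s => a (rox Q.transpose 1 η) (rox Q.transpose 1 s)) = AL.n2 a) ∧
  ∀ (d : ℕ) (S : Setup d F) (h1 : (1 : Matrix (Fin d) (Fin d) ℝ) * (1 : Matrix (Fin d) (Fin d) ℝ).transpose = 1)
    (R : ℕ → ℝ) (u : ℕ → Cfg d → F), AL.SqM S R u → AL.SqM (S.rot Q hQ 1 h1) R (fun n => AJ.rotu Q 1 (u n))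

/-- **MB5b** one piece in a standard frame. PROOF. `Std S φ (cmb ψ η₀ 0)`. `GluStmt` at `η₀` with a slice radius `ε₁ ≤` the radius of `NormStmt` gives `δ₀`; `δ ≤ δ₀`, also so small that `closedBall η₀ δ ⊆ shl s' t'` (`η₀ ≠ 0`) and
`Frz (Dz η)`, `IsOm`, `Om` continuous on the `2δ`-ball. Replace `a` by a strongly measurable representative supported over `A` (`Zb` changes on a null set only), `u` by `u'` of `RadStmt` (`ZZ` sees the shell only: `SupZStmt`;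
`‖u'‖ ≤ ‖u‖` pointwise for the right side). `chi (R n)` is admissible for large `n` (put `0` for the others). So `ZZ = ∫_{Nb}⟨Ts0 (vG a), res u'⟩ + o(1)`; `Ts0 (vG a) ≠ 0` only for `R⁻¹ hz ∈ A`; on `Nr … ε`: Cauchy–Schwarz with
`‖Ts0 (vG a)‖ = √(n2 a)` (`TailStmt`, `VGStmt`); on the rest of `Nb`: `TailStmt` (tail of `Ts0 (vG a)` on `{‖hs‖ ≥ εR or ‖w‖ ≥ εR}` tends to `0`) and `∫_{Nb}‖res u'‖² ≤ C` (`NormStmt`). Compare L-GluA (helper926). -/
def Piece1Stmt (S : Setup d F) : Prop := FiniteDimensional ℂ F → ∀ (dh dm r ds : ℕ) (φ : Spl dh dm d) (ψ : Spl r ds dh), S.IsSub φ →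
  AN.IsZ S φ ψ → ∀ η₀ : Cfg r, η₀ ≠ 0 → (S.Dz φ ψ η₀ 8).det ≠ 0 → ∀ (Om : Cfg r → Matrix (Fin dm) (Fin dm) ℝ) (δ₁ : ℝ), 0 < δ₁ →
  (∀ η ∈ Metric.closedBall η₀ δ₁, IsOm S.κ (S.Dz φ ψ η) (Om η)) → ContinuousOn Om (Metric.closedBall η₀ δ₁) →
  ∃ δ : ℝ, 0 < δ ∧ ∀ A, IsCompact A → A ⊆ Metric.closedBall η₀ δ →
  ∀ ε : ℝ, 0 < ε → ∀ (R : ℕ → ℝ) (u : ℕ → Cfg d → F), AL.SqM S R u → ∀ a, AL.Sec2 A a → ∀ e : ℝ, 0 < e → ∀ᶠ n in atTop,
    ‖AL.ZZ S.κ φ ψ Om a (R n) (u n)‖ ≤ Real.sqrt (AL.n2 a) * Real.sqrt (∫ p in AL.Nr ψ A dm (R n) ε,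
      ‖S.res φ (u n) p.1 p.2‖ ^ 2 ∂(volume.prod volume)) + e

def Piece1OfStmt (S : Setup d F) : Prop := AN.GluStmt S → AN.NormStmt S → AN.MeaStmt S → AN.GauStmt → AlgStmt → AL.TailStmt S → AL.VGStmt S →
  AL.RadStmt S → AL.SupZStmt F → Piece1Stmt S

/-- **MB5** one piece. PROOF. `S' = S.rot Q hQ 1 h1` (structure constants, `κ`, `Jd`, `Dz`, `res` unchanged: `AX.rot_f`, `AX.rot_Dz`), MB5b for `S'` at `rox Q 1 η₀` with `Om' = Om ∘ rox Qᵀ 1`
(`IsOm` is frame independent: `∑D_i²` does not change, `AX.DM_rz`, `covF0`; `Bun.om`, `Bun.om_smooth`: the set `{det ∑D_i² ≠ 0}` is open), and MB5a. -/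
def PieceStmt (S : Setup d F) : Prop := FiniteDimensional ℂ F → ∀ (dh dm r ds : ℕ) (φ : Spl dh dm d) (ψ : Spl r ds dh)
  (z₀ : Cfg r), AD.Std2 S φ (spsw ψ) z₀ → ∀ (L : Finset (Fin r → ℝ)) (Om : Cfg r → Matrix (Fin dm) (Fin dm) ℝ) (K : Submodule ℂ F)
  (U : Cfg r → F →L[ℂ] F), AX.Bun S φ (AX.Mz S φ (spsw ψ)) L Om K U → ∀ η₀ : Cfg r, η₀ ≠ 0 → ∀ Q : Matrix (Fin 9) (Fin 9) ℝ,
  Q * Q.transpose = 1 → (S.Dz φ ψ (rox Q 1 η₀) 8).det ≠ 0 → ∃ δ : ℝ, 0 < δ ∧ ∀ A, IsCompact A → A ⊆ Metric.closedBall η₀ δ →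
  ∀ ε : ℝ, 0 < ε → ∀ (R : ℕ → ℝ) (u : ℕ → Cfg d → F), AL.SqM S R u → ∀ a, AL.Sec2 A a → ∀ e : ℝ, 0 < e → ∀ᶠ n in atTop,
    ‖AL.ZZ S.κ φ ψ Om a (R n) (u n)‖ ≤ Real.sqrt (AL.n2 a) * Real.sqrt (∫ p in AL.Nr ψ (rox Q 1 '' A) dm (R n) ε,
      ‖S.res φ (AJ.rotu Q 1 (u n)) p.1 p.2‖ ^ 2 ∂(volume.prod volume)) + e

def PieceOfStmt (S : Setup d F) : Prop := CovZStmt F → (∀ S' : Setup d F, Piece1Stmt S') → PieceStmt S

/-- **MB6** crude bound over one compact set (the constant depends on `A` and on the sequence; used for a small remainder). PROOF. `u'` of `RadStmt`, `SupZStmt`. `GluKStmt` with `b = chi·bG a` (large `n`: `√R ≤ δR`,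
`R ≤ δR√R`). `‖b‖_{wM} ≤ C_A√(n2 a)`: `∫(1+‖X‖²)^{dm+1}(Nf(Om η)e^{-½qX})²dX` is bounded for `η ∈ A` (`MomStmt` locally, with the rotated matrices `D(η) = Dz (rox Q 1 η)` at points of `A`, `Frz` near the point; finite cover). -/
def RestStmt (S : Setup d F) : Prop := FiniteDimensional ℂ F → ∀ (dh dm r ds : ℕ) (φ : Spl dh dm d) (ψ : Spl r ds dh)
  (z₀ : Cfg r), AD.Std2 S φ (spsw ψ) z₀ → ∀ (L : Finset (Fin r → ℝ)) (Om : Cfg r → Matrix (Fin dm) (Fin dm) ℝ) (K : Submodule ℂ F)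
  (U : Cfg r → F →L[ℂ] F), AX.Bun S φ (AX.Mz S φ (spsw ψ)) L Om K U → ∀ s t : ℝ, 0 < s → s < t → ∀ A, IsCompact A →
  A ⊆ AD.shl r s t → A ⊆ AL.Rg S φ ψ → ∀ (R : ℕ → ℝ) (u : ℕ → Cfg d → F), AL.SqM S R u → ∃ C : ℝ, 0 ≤ C ∧ ∀ a, AL.Sec2 A a →
    ∀ᶠ n in atTop, ‖AL.ZZ S.κ φ ψ Om a (R n) (u n)‖ ≤ C * Real.sqrt (AL.n2 a)

def RestOfStmt (S : Setup d F) : Prop := AN.GluKStmt S → AN.MomStmt → AL.RadStmt S → AL.SupZStmt F → AJ.RegStmt S → RestStmt S

/-- **MB7** disjoint compact pieces carrying almost all of the norm. PROOF. Disjoint Borel pieces `A_l = A ∩ closedBall l \ ⋃_{k<l} closedBall k`; the measure `μ(B) = ∫_{B × Cfg ds}‖a‖²` on `Cfg r` is finite, hence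
inner regular: compact `K_l ⊆ A_l` with `μ(A_l \ K_l) ≤ e/k`. -/
def InRegStmt (F : Type) [NormedAddCommGroup F] [InnerProductSpace ℂ F] : Prop := ∀ (r ds : ℕ) (A : Set (Cfg r)), IsCompact A →
  ∀ (k : ℕ) (c : Fin k → Cfg r) (δ : Fin k → ℝ), A ⊆ (⋃ l, Metric.closedBall (c l) (δ l)) → ∀ a : Cfg r → Cfg ds → F, AL.Sec2 A a →
  ∀ e : ℝ, 0 < e → ∃ K : Fin k → Set (Cfg r), (∀ l, IsCompact (K l)) ∧ (∀ l, K l ⊆ A ∩ Metric.closedBall (c l) (δ l)) ∧
    (∀ l l', l ≠ l' → Disjoint (K l) (K l')) ∧ ∃ (b : Fin k → Cfg r → Cfg ds → F) (b' : Cfg r → Cfg ds → F),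
      (∀ l, AL.Sec2 (K l) (b l)) ∧ AL.Sec2 A b' ∧ (∀ η s, a η s = (∑ l, b l η s) + b' η s) ∧
      (∑ l, AL.n2 (b l)) ≤ AL.n2 a ∧ AL.n2 b' ≤ e

/-- **MB8** assembly. PROOF. `C = √C₄` (MB4). Given `A`, sequence, `a`, `e`. For `η₀ ∈ A`: frame `Q` (`RegStmt`: `det D_8(rox Q 1 η₀) ≠ 0`), `δ(η₀)` of MB5, also so small that `det D_8(rox Q 1 η) ≠ 0` on
`closedBall η₀ δ`. Finite subcover `(c_l, δ_l, Q_l)`; `C₆` of MB6; MB7 with `C₆²e' ≤ (e/3)²`: `K_l`, `b_l`, `b'`. `Fam S φ ψ s t k K Q`; `ε = ε₀` of MB4. `ZZ a = ∑ZZ b_l + ZZ b'` (`LinStmt`, all in `Sec2 A`);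
`|ZZ b'| ≤ e/3`; `|ZZ b_l| ≤ √(n2 b_l)·√m_l + e/(3k+3)` (MB5), `∑√(n2 b_l)√m_l ≤ √(∑n2 b_l)·√(∑m_l) ≤ √(n2 a)·√(C₄ mas)`. `IsSub`, `IsZ` from `Std2`. -/
def UBOfStmt (S : Setup d F) : Prop := MassStmt S → PieceStmt S → RestStmt S → InRegStmt F → AL.LinStmt S → AJ.RegStmt S → AL.UBStmt S

end Vale.Agent.P353.Z.AM
end

section

/-! # P353, all `N`, block JN (helper714): no loss of mass for the concrete weak profile system (statements)

All types are given in the colour frame `O` (`S.rot 1 O`), with the data `AL.Dat`. A prover delivers `theorem <name> … : XStmt …` in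
`Vale/Agent/P353/AN/JN/<File>.lean`, importing this file and landed files, with other statements only as hypotheses. -/

open MeasureTheory Filter Topology Matrix
open scoped ContDiff

namespace Vale.Agent.P353.Z.AJ

variable {d dh dm r ds n : ℕ} {F : Type} [NormedAddCommGroup F] [InnerProductSpace ℂ F]

/-- **C1** sections with values in the profile bundle have coefficients. PROOF. `Coll L` is a null set (`AF.CutStmt`). For almost every `η ∉ Coll L` (Fubini: `a η ∈ L²(Cfg ds)`): `U(η)⁻¹` exists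
(`U_inner`, `U_surj`), commutes with `θ^h` (`U_comm`), so `U(η)⁻¹∘a(η)` is a zero mode (`ZMLStmt`) with values in `K` (`U_mem`), hence `= ∑_jc_j(η)o_j` a.e. (`Dat.full`), and
`c_j(η) = ∫⟨o_j(s), U(η)⁻¹a(η,s)⟩ds = ∫⟨U(η)o_j(s), a(η,s)⟩ds` (`ort`); measurable in `η` (`U` continuous off `Coll L`, `StronglyMeasurable.integral_prod_right`), `∑_j|c_j(η)|² = ∫‖a(η,s)‖²ds`.
Put `c = 0` outside `A` and on `Coll L`. -/
def CoefStmt (S : Setup d F) : Prop := FiniteDimensional ℂ F → (∀ (e : ℕ) (S' : Setup e F), AL.ZMLStmt S') → (∀ r, AF.CutStmt r) →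
  ∀ (dh dm r ds n : ℕ) (φ : Spl dh dm d) (ψ : Spl r ds dh) (L : Finset (Fin r → ℝ)) (Om : Cfg r → Matrix (Fin dm) (Fin dm) ℝ)
  (K : Submodule ℂ F) (U : Cfg r → F →L[ℂ] F) (o : Fin n → Cfg ds → F) (T : Setup r (AL.Ek n)) (hD : AL.Dat S φ ψ L Om K U o T),
  ∀ A, IsCompact A → A ⊆ AL.Rg S φ ψ → ∀ a, AL.Sec2 A a →
  (∀ᵐ η ∂(volume : Measure (Cfg r)), AD.ZM (S.int φ ψ hD.sub hD.cen) (a η) ∧
    ∀ᵐ s ∂(volume : Measure (Cfg ds)), a η s ∈ S.F0 φ (S.Dz φ ψ η) (Om η)) →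
  ∃ c : Cfg r → AL.Ek n, MemLp c 2 (volume : Measure (Cfg r)) ∧ (∀ η, η ∉ A → c η = 0) ∧
    ∀ᵐ q : Cfg r × Cfg ds ∂(volume.prod volume), a q.1 q.2 = AL.sc U o c q.1 q.2

/-- **C2** functionals of bundle valued sections over a compact set of regular points (collisions in eight directions allowed) tend to zero if the
functionals of smooth coefficients off `Coll L` do. PROOF. C1: `a = sc U o c` a.e.; the cutoffs `η_m` of `AF.CutStmt`: `a_m = η_m a`, `n2 (a - a_m) = ∫(1-η_m)²‖a‖² → 0` (dominated convergence, `Coll L` null);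
`η_mc ∈ LC ((Coll L ∪ {0})ᶜ)` (support in `A ∩ {η_m ≠ 0}` closure, `0 ∉ A`); smooth `b ∈ TOff L` supported in a compact neighbourhood inside `(Coll L ∪ {0})ᶜ` with `∫‖η_mc - b‖²` small (mollification / density of test functions);
`n2 (a_m - sc U o b) = ∫‖η_mc - b‖²` (`IsoStmt`; a.e. equal sections have difference of norm `0`). `LinStmt`: `ZZ a = ZZ (a - a_m) + ZZ (a_m - sc U o b) + ZZ (sc U o b)`; `UBStmt` for the first two (compact subsets of `Rg`, inside a shell since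
`0` is not in them; masses are bounded: `SqM.bd`). -/
def SecZStmt (S : Setup d F) : Prop := FiniteDimensional ℂ F → AN.Cless S → ∀ (dh dm r ds n : ℕ) (φ : Spl dh dm d) (ψ : Spl r ds dh)
  (z₀ : Cfg r), AD.Std2 S φ (spsw ψ) z₀ → ∀ (L : Finset (Fin r → ℝ)) (Om : Cfg r → Matrix (Fin dm) (Fin dm) ℝ)
  (K : Submodule ℂ F) (U : Cfg r → F →L[ℂ] F) (o : Fin n → Cfg ds → F) (T : Setup r (AL.Ek n)) (hD : AL.Dat S φ ψ L Om K U o T),
  ∀ (R : ℕ → ℝ) (u : ℕ → Cfg d → F), AL.SqM S R u →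
  (∀ b : Cfg r → AL.Ek n, AD.TOff L b → Tendsto (fun k => AL.ZZ S.κ φ ψ Om (AL.sc U o b) (R k) (u k)) atTop (𝓝 0)) →
  ∀ A, IsCompact A → A ⊆ AL.Rg S φ ψ → (0 : Cfg r) ∉ A → ∀ a, AL.Sec2 A a →
  (∀ᵐ η ∂(volume : Measure (Cfg r)), AD.ZM (S.int φ ψ hD.sub hD.cen) (a η) ∧
    ∀ᵐ s ∂(volume : Measure (Cfg ds)), a η s ∈ S.F0 φ (S.Dz φ ψ η) (Om η)) →
  Tendsto (fun k => AL.ZZ S.κ φ ψ Om a (R k) (u k)) atTop (𝓝 0)

def SecZOfStmt (S : Setup d F) : Prop := CoefStmt S → AL.UBStmt S → AL.LinStmt S → AL.IsoStmt S →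
  (∀ (e : ℕ) (S' : Setup e F), AL.ZMLStmt S') → (∀ r, AF.CutStmt r) → SecZStmt S

/-- **C3** zero modes and the internal setup in a rotated frame. PROOF. (a) ext on the fields (`Setup`, `CS` structures), the structure constants, `th`, `κ` do not see the
rotation of the vector index (`AX.rot_f`). (b) `AN.RotStmt T`: `GInv`, `En`, `L2t` are transported by `x ↦ rox Q 1 x` (measure preserving isometry). -/
def ZmRotStmt (F : Type) [NormedAddCommGroup F] [InnerProductSpace ℂ F] : Prop := ∀ (Q : Matrix (Fin 9) (Fin 9) ℝ)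
  (hQ : Q * Q.transpose = 1),
  (∀ (d dh dm r ds : ℕ) (S : Setup d F) (h1 : (1 : Matrix (Fin d) (Fin d) ℝ) * (1 : Matrix (Fin d) (Fin d) ℝ).transpose = 1)
    (h2 : (1 : Matrix (Fin ds) (Fin ds) ℝ) * (1 : Matrix (Fin ds) (Fin ds) ℝ).transpose = 1) (φ : Spl dh dm d) (ψ : Spl r ds dh)
    (hs : S.IsSub φ) (hc : S.IsCen φ ψ) (hs' : (S.rot Q hQ 1 h1).IsSub φ) (hc' : (S.rot Q hQ 1 h1).IsCen φ ψ),
    (S.rot Q hQ 1 h1).int φ ψ hs' hc' = (S.int φ ψ hs hc).rot Q hQ 1 h2) ∧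
  ∀ (e : ℕ) (T : Setup e F) (h1 : (1 : Matrix (Fin e) (Fin e) ℝ) * (1 : Matrix (Fin e) (Fin e) ℝ).transpose = 1) (o : Cfg e → F),
    AD.ZM (T.rot Q hQ 1 h1) o → AD.ZM T (fun x => o (rox Q 1 x))

/-- **C4** transfer to the rotated frame. PROOF. `a η s = (sc U' o' b') (rox Q 1 η) (rox Q 1 s)`; `CovZStmt` (for `Qᵀ`, or directly) gives `ZZ κ φ ψ Om' (sc U' o' b') R (rotu Q 1 u) = ZZ κ φ ψ (Om' ∘ rox Q 1) a R u`, and
`Om' (rox Q 1 η) = Om η` on `Rg` (uniqueness of the positive root, `OmUStmt`; both are `IsOm` for the same `∑D_i²`: `Bun.om`, `AX.DM_rz`, `covF0`), so the functional is `ZZ κ φ ψ Om a R u` (`ZZ` sees `Om` on the support of `a` only).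
The support `A'` of `b'` is a compact subset of `(Coll L' ∪ {0})ᶜ`, `A = rox Qᵀ 1 '' A' ⊆ Rg S φ ψ` (`Bun.det`, `Rg` is frame independent), `0 ∉ A`; `Sec2 A a` (`IsoStmt`, `CovZStmt`). `a(η,·)`: `o'_j` are zero modes of the rotated internal setup,
`U'(rox Q η)` commutes with `θ^h` (`ZMLStmt`), so `a(η,·)` is a zero mode of the unrotated one (C3), with values in `F0(rotated) = F0(η)` (`Bun.U_mem`, `covF0`). Apply C2. -/
def TrfStmt (S : Setup d F) : Prop := FiniteDimensional ℂ F → AN.Cless S → ∀ (Q : Matrix (Fin 9) (Fin 9) ℝ) (hQ : Q * Q.transpose = 1)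
  (h1 : (1 : Matrix (Fin d) (Fin d) ℝ) * (1 : Matrix (Fin d) (Fin d) ℝ).transpose = 1) (dh dm r ds n n' : ℕ)
  (φ : Spl dh dm d) (ψ : Spl r ds dh) (z₀ : Cfg r), AD.Std2 S φ (spsw ψ) z₀ →
  ∀ (L : Finset (Fin r → ℝ)) (Om : Cfg r → Matrix (Fin dm) (Fin dm) ℝ) (K : Submodule ℂ F) (U : Cfg r → F →L[ℂ] F)
  (o : Fin n → Cfg ds → F) (T : Setup r (AL.Ek n)), AL.Dat S φ ψ L Om K U o T →
  ∀ (L' : Finset (Fin r → ℝ)) (Om' : Cfg r → Matrix (Fin dm) (Fin dm) ℝ) (K' : Submodule ℂ F) (U' : Cfg r → F →L[ℂ] F)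
  (o' : Fin n' → Cfg ds → F) (T' : Setup r (AL.Ek n')), AL.Dat (S.rot Q hQ 1 h1) φ ψ L' Om' K' U' o' T' →
  ∀ (R : ℕ → ℝ) (u : ℕ → Cfg d → F), AL.SqM S R u →
  (∀ b : Cfg r → AL.Ek n, AD.TOff L b → Tendsto (fun k => AL.ZZ S.κ φ ψ Om (AL.sc U o b) (R k) (u k)) atTop (𝓝 0)) →
  ∀ b' : Cfg r → AL.Ek n', AL.LC ((Coll L' ∪ {0})ᶜ) b' →
    Tendsto (fun k => AL.ZZ S.κ φ ψ Om' (AL.sc U' o' b') (R k) (rotu Q 1 (u k))) atTop (𝓝 0)

def TrfOfStmt (S : Setup d F) : Prop := AM.CovZStmt F → ZmRotStmt F → SecZStmt S → (∀ S' : Setup d F, AL.IsoStmt S') →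
  (∀ (e : ℕ) (S' : Setup e F), AL.ZMLStmt S') → TrfStmt S

/-- **C5** all slice functionals vanish at all regular points of the stratum. PROOF. `S₁ = S.rot 1 O` (centreless: `Cless` is invariant under colour rotations), `u₁ = rotu 1 O u` (`SqM S₁`: `RotStmt`/`TrStmt`). `RegStmt S₁` gives `Q` with
`Std2 S₂ φ (spsw ψ) (rox Q 1 η)`, `S₂ = S₁.rot Q 1` (`AD.Dz S₁ φ (spsw ψ) = S₁.Dz φ ψ` up to the order of the summands). `DatStmt S₂` (`h.ss` is centreless by `h.less`, so `ICStmt h.ss`), C4 for `S₁`, `SpzStmt S₂` (`rox Q 1 η ≠ 0`) give `SPZ` for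
all small `ε`. `CompStmt S`: `S₂ = S.rot Q O` (rewrite), `rotu Q 1 (rotu 1 O u) = rotu Q O u`, `rox Q O Y = rox Q 1 (rox 1 O Y) = emb φ (AD.cmb (spsw ψ) 0 (rox Q 1 η)) 0`. -/
def SpzOneStmt (S : Setup d F) : Prop := ∀ _ : FiniteDimensional ℂ F, AN.Cless S →
  (∀ (e : ℕ) (T' : Setup e F), AN.Cless T' → AD.ICStmt T') →
  ∀ (h9 : (1 : Matrix (Fin 9) (Fin 9) ℝ) * (1 : Matrix (Fin 9) (Fin 9) ℝ).transpose = 1) (O : Matrix (Fin d) (Fin d) ℝ)
  (hO : O * O.transpose = 1) (dh dm r ds n : ℕ) (φ : Spl dh dm d) (ψ : Spl r ds dh) (z₀ : Cfg r),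
  AD.Std2 (S.rot 1 h9 O hO) φ (spsw ψ) z₀ → ∀ (L : Finset (Fin r → ℝ)) (Om : Cfg r → Matrix (Fin dm) (Fin dm) ℝ)
  (K : Submodule ℂ F) (U : Cfg r → F →L[ℂ] F) (o : Fin n → Cfg ds → F) (T : Setup r (AL.Ek n)),
  AL.Dat (S.rot 1 h9 O hO) φ ψ L Om K U o T → ∀ (R : ℕ → ℝ) (u : ℕ → Cfg d → F), AL.SqM S R u →
  (∀ b : Cfg r → AL.Ek n, AD.TOff L b → Tendsto (fun k => AL.ZZ S.κ φ ψ Om (AL.sc U o b) (R k) (rotu 1 O (u k))) atTop (𝓝 0)) →
  ∀ (Y : Cfg d) (η : Cfg r), η ≠ 0 → η ∈ AL.Rg (S.rot 1 h9 O hO) φ ψ → rox 1 O Y = emb φ (AN.cmb ψ η 0) 0 → SpzAt S Y R u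

def SpzOneOfStmt (S : Setup d F) : Prop := (∀ S' : Setup d F, AL.SpzStmt S' ∧ AL.DatStmt S' ∧ TrfStmt S' ∧ RegStmt S' ∧ CompStmt S' ∧
  AN.RotStmt S' ∧ AD.TrStmt S') → SpzOneStmt S

/-- **C6** null points, centralisers and the potential are invariant under `SU(N)`. PROOF. `act U = ro (adCoeff U) = rox 1 O_U` with `O_U` orthogonal and `f` invariant under `O_U` (as in `Z/U`, `AN/G/Act.lean`), so `V (act U Y) = V Y` and
`cz S (act U Y) = O_U (cz S Y)`. `‖u(act U x)‖ = ‖S(U)u(x)‖ = ‖u(x)‖` (`CoreStmt`, `S(U)` unitary) and `act U` is a measure preserving linear isometry: `mas u (ball (R act U Y) (εR)) = mas u (ball (R Y) (εR))`. -/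
def ActStmt {N : ℕ} (M : BFSS.Model N d F) : Prop := FiniteDimensional ℂ F → ∀ S : Setup d F, U.Rep M S → AN.REP.CoreStmt M →
  ∀ (U : BFSS.SU N) (Y : Cfg d), S.V (M.act U Y) = S.V Y ∧ AD.cd S (M.act U Y) = AD.cd S Y ∧ (M.act U Y = 0 → Y = 0) ∧
    ∀ (R : ℕ → ℝ) (u : ℕ → Cfg d → F), (∀ k, AD.GInv S (u k)) → AD.Nul R u (M.act U Y) → AD.Nul R u Y

/-- all slice functionals at `Y` vanish if the functionals of type `i` do -/
def TypHyp [FiniteDimensional ℂ F] (S : Setup d F) {ι : Type} (P : PW S ι) (i : ι) (Y : Cfg d) : Prop :=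
  ∀ (R : ℕ → ℝ) (u : ℕ → Cfg d → F), AL.SqM S R u →
    (∀ a : P.D i, Tendsto (fun k => ipr (P.Z i (R k) a) (u k)) atTop (𝓝 0)) → SpzAt S Y R u

/-- **C7** no loss. PROOF. `NlStmt` reduces to `Nul` at all `Y ≠ 0` along `R' = max R 1` (`R'_n = R_n` for large `n`, so the functionals tend to zero along `R'`); `NulStmt` with `Y' ` of the hypothesis (`Sq` gives `SqM`); `LocStmt`, `NonCommStmt`, `GeoStmt` for
all rotated setups. -/
def NoLossOfStmt (S : Setup d F) : Prop := ∀ _ : FiniteDimensional ℂ F, AN.Cless S → AT.TWStmt S → AT.BdStmt S → NlStmt S → NulStmt S →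
  AD.ShellStmt S → (∀ S' : Setup d F, AD.TrStmt S' ∧ AD.NonCommStmt S' ∧ AD.LocStmt S' ∧ AD.GeoStmt S') →
  (∀ (e : ℕ) (T' : Setup e F), AN.Cless T' → AD.ICStmt T') → ∀ (ι : Type) (P : PW S ι),
  (∀ Y, Y ≠ 0 → S.V Y = 0 → ∃ Y', Y' ≠ 0 ∧ S.V Y' = 0 ∧ AD.cd S Y' = AD.cd S Y ∧
    (∀ (R : ℕ → ℝ) (u : ℕ → Cfg d → F), (∀ k, AD.GInv S (u k)) → AD.Nul R u Y' → AD.Nul R u Y) ∧ ∃ i, TypHyp S P i Y') →
  P.NoLoss

end Vale.Agent.P353.Z.AJ
end

section

/-! # P353, all `N`, block GL: the global functional does not depend on the frame (GL13) -/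

open MeasureTheory Filter Topology
open scoped ContDiff

namespace Vale.Agent.P353.Z.AN

variable {d dh dm ds dz n : ℕ} {F : Type*} [NormedAddCommGroup F] [InnerProductSpace ℂ F]
  {R₀ : Matrix (Fin 9) (Fin 9) ℝ}

theorem gb969_one (n : ℕ) :
    (1 : Matrix (Fin n) (Fin n) ℝ) * (1 : Matrix (Fin n) (Fin n) ℝ).transpose = 1 := by
  rw [Matrix.transpose_one, one_mul]

/-- rotation of the vector index only -/
theorem gb969_apply (R : Matrix (Fin 9) (Fin 9) ℝ) (x : Cfg n) (i : Fin 9) (A : Fin n) :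
    rox R 1 x (i, A) = ∑ j, R i j * x (j, A) := by
  rw [rt_apply']
  simp [Matrix.one_apply]

theorem gb969_inv (hR : R₀ * R₀.transpose = 1) (x : Cfg n) : rox R₀.transpose 1 (rox R₀ 1 x) = x := by
  have h := rt_inv hR (gb969_one n) x
  rwa [Matrix.transpose_one] at h

theorem gb969_hR' (hR : R₀ * R₀.transpose = 1) : R₀.transpose * R₀.transpose.transpose = 1 := by
  rw [Matrix.transpose_transpose]
  exact mul_eq_one_comm.1 hR

theorem gb969_inv' (hR : R₀ * R₀.transpose = 1) (x : Cfg n) : rox R₀ 1 (rox R₀.transpose 1 x) = x := by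
  have h := gb969_inv (gb969_hR' hR) x
  rwa [Matrix.transpose_transpose] at h

theorem gb969_smul (R : Matrix (Fin 9) (Fin 9) ℝ) (c : ℝ) (x : Cfg n) :
    rox R 1 (c • x) = c • rox R 1 x := by
  ext ⟨i, A⟩
  rw [gb969_apply, PiLp.smul_apply, gb969_apply, smul_eq_mul, Finset.mul_sum]
  refine Finset.sum_congr rfl fun j _ => ?_
  rw [PiLp.smul_apply, smul_eq_mul]
  ring

theorem gb969_zy (R : Matrix (Fin 9) (Fin 9) ℝ) (φ : Spl dh dm d) (x : Cfg d) :
    zy φ (rox R 1 x) = rox R 1 (zy φ x) := by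
  ext ⟨i, A⟩
  rw [gb969_apply]
  exact gb969_apply R x i _

theorem gb969_pm (R : Matrix (Fin 9) (Fin 9) ℝ) (φ : Spl dh dm d) (x : Cfg d) :
    pm φ (rox R 1 x) = rox R 1 (pm φ x) := by
  ext ⟨i, A⟩
  rw [gb969_apply]
  exact gb969_apply R x i _

theorem gb969_hz (R : Matrix (Fin 9) (Fin 9) ℝ) (ψ : Spz dz ds dh) (x : Cfg dh) :
    hz ψ (rox R 1 x) = rox R 1 (hz ψ x) := by
  ext ⟨i, A⟩
  rw [gb969_apply]
  exact gb969_apply R x i _

theorem gb969_hs (R : Matrix (Fin 9) (Fin 9) ℝ) (ψ : Spz dz ds dh) (x : Cfg dh) :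
    hs ψ (rox R 1 x) = rox R 1 (hs ψ x) := by
  ext ⟨i, A⟩
  rw [gb969_apply]
  exact gb969_apply R x i _

theorem gb969_cmb (R : Matrix (Fin 9) (Fin 9) ℝ) (ψ : Spl ds dz dh) (η : Cfg dz) :
    AD.cmb ψ 0 (rox R 1 η) = rox R 1 (AD.cmb ψ 0 η) := by
  ext ⟨i, A⟩
  rw [gb969_apply]
  obtain ⟨a, rfl⟩ := ψ.surjective A
  rcases a with a | a
  · simp [AD.cmb]
  · simpa [AD.cmb] using gb969_apply R η i a

theorem gb969_f (S : Setup d F) (hR : R₀ * R₀.transpose = 1)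
    (h1 : (1 : Matrix (Fin d) (Fin d) ℝ) * (1 : Matrix (Fin d) (Fin d) ℝ).transpose = 1)
    (A B C : Fin d) : (S.rot R₀ hR 1 h1).f A B C = S.f A B C := by
  show ∑ A', ∑ B', ∑ C', (1 : Matrix (Fin d) (Fin d) ℝ) A A' * (1 : Matrix (Fin d) (Fin d) ℝ) B B' *
    (1 : Matrix (Fin d) (Fin d) ℝ) C C' * S.f A' B' C' = S.f A B C
  simp [Matrix.one_apply]

theorem gb969_Dz (S : Setup d F) (hR : R₀ * R₀.transpose = 1)
    (h1 : (1 : Matrix (Fin d) (Fin d) ℝ) * (1 : Matrix (Fin d) (Fin d) ℝ).transpose = 1)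
    (φ : Spl dh dm d) (ψ : Spl ds dz dh) (η : Cfg dz) :
    AD.Dz (S.rot R₀ hR 1 h1) φ ψ (rox R₀ 1 η) = fun i => ∑ j, R₀ i j • AD.Dz S φ ψ η j := by
  funext i
  ext B C
  rw [Matrix.sum_apply]
  simp only [AD.Dz, Setup.Dy, Setup.Dm, Matrix.smul_apply, Matrix.of_apply, gb969_f, gb969_cmb,
    gb969_apply, smul_eq_mul, Finset.mul_sum]
  rw [Finset.sum_comm]
  refine Finset.sum_congr rfl fun j _ => Finset.sum_congr rfl fun A _ => ?_
  ring

theorem gb969_omc (κ : ℝ) (D D' : Fin 9 → Matrix (Fin dm) (Fin dm) ℝ)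
    (h : ∀ Om, IsOm κ D Om ↔ IsOm κ D' Om) : AD.omc κ D = AD.omc κ D' := by
  have h1 : IsOm κ D = IsOm κ D' := funext fun Om => propext (h Om)
  unfold AD.omc
  rw [h1]

theorem gb969_om (S : Setup d F) (hR : R₀ * R₀.transpose = 1)
    (h1 : (1 : Matrix (Fin d) (Fin d) ℝ) * (1 : Matrix (Fin d) (Fin d) ℝ).transpose = 1)
    (φ : Spl dh dm d) (ψ : Spl ds dz dh) (η : Cfg dz) :
    AD.omc (S.rot R₀ hR 1 h1).κ (AD.Dz (S.rot R₀ hR 1 h1) φ ψ (rox R₀ 1 η)) =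
      AD.omc S.κ (AD.Dz S φ ψ η) := by
  rw [gb969_Dz]
  exact (gb969_omc S.κ _ _ fun Om => (AX.covF0 S φ R₀ hR h1 (AD.Dz S φ ψ η) Om).2.2).symm

theorem gb969_F0 (S : Setup d F) (hR : R₀ * R₀.transpose = 1)
    (h1 : (1 : Matrix (Fin d) (Fin d) ℝ) * (1 : Matrix (Fin d) (Fin d) ℝ).transpose = 1)
    (φ : Spl dh dm d) (ψ : Spl ds dz dh) (η : Cfg dz) (Om : Matrix (Fin dm) (Fin dm) ℝ) :
    (S.rot R₀ hR 1 h1).F0 φ (AD.Dz (S.rot R₀ hR 1 h1) φ ψ (rox R₀ 1 η)) Om =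
      S.F0 φ (AD.Dz S φ ψ η) Om := by
  rw [gb969_Dz]
  exact (AX.covF0 S φ R₀ hR h1 (AD.Dz S φ ψ η) Om).2.1

theorem gb969_proj [FiniteDimensional ℂ F] {K K' : Submodule ℂ F} (h : K = K') (v : F) :
    K.starProjection v = K'.starProjection v := by
  subst h
  rfl

theorem gb969_qX (hR : R₀ * R₀.transpose = 1) (Om : Matrix (Fin dm) (Fin dm) ℝ) (X : Cfg dm) :
    qX Om (rox R₀ 1 X) = qX Om X := by
  unfold qX
  simp only [gb969_apply]
  have key : ∀ B C : Fin dm, ∑ i, (∑ j, R₀ i j * X (j, B)) * Om B C * (∑ j, R₀ i j * X (j, C)) =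
      ∑ i, X (i, B) * Om B C * X (i, C) := by
    intro B C
    have h := rt_con (K := ℝ) (M := ℝ) (fun i j => R₀ i j) (rt_orth hR)
      (fun j => X (j, B)) (fun j => X (j, C))
    simp only [smul_eq_mul] at h
    have e1 : ∀ i, (∑ j, R₀ i j * X (j, B)) * Om B C * (∑ j, R₀ i j * X (j, C)) =
        Om B C * ((∑ j, R₀ i j * X (j, B)) * (∑ j, R₀ i j * X (j, C))) := fun i => by ring
    have e2 : ∀ i, X (i, B) * Om B C * X (i, C) = Om B C * (X (i, B) * X (i, C)) := fun i => by ring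
    simp only [e1, e2, ← Finset.mul_sum, h]
  have sw : ∀ g : Fin 9 → Fin dm → Fin dm → ℝ,
      ∑ i, ∑ B, ∑ C, g i B C = ∑ B, ∑ C, ∑ i, g i B C := by
    intro g
    rw [Finset.sum_comm]
    exact Finset.sum_congr rfl fun B _ => Finset.sum_comm
  rw [sw, sw]
  exact Finset.sum_congr rfl fun B _ => Finset.sum_congr rfl fun C _ => key B C

/-- covariance of the global functional -/
theorem gb969_Zgl [FiniteDimensional ℂ F] (S : Setup d F) (hR : R₀ * R₀.transpose = 1)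
    (h1 : (1 : Matrix (Fin d) (Fin d) ℝ) * (1 : Matrix (Fin d) (Fin d) ℝ).transpose = 1)
    (φ : Spl dh dm d) (ψ : Spl ds dz dh) (c : ℝ → ℝ) (ε r : ℝ) (χ : Cfg dz → ℝ) (o : Cfg ds → F)
    (x : Cfg d) :
    Zgl (S.rot R₀ hR 1 h1) φ ψ c ε r (fun z => χ (rox R₀.transpose 1 z))
      (fun s => o (rox R₀.transpose 1 s)) (rox R₀ 1 x) = Zgl S φ ψ c ε r χ o x := by
  unfold Zgl Zb
  simp only [gb969_zy, gb969_pm, gb969_hz, gb969_hs, ← gb969_smul]
  unfold bG aP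
  simp only [gb969_om, gb969_qX hR, gb969_inv hR, rt_norm hR (gb969_one _)]
  congr 3
  congr 1
  exact gb969_proj (gb969_F0 S hR h1 φ ψ _ _) _

/-- a gauge invariant test function in the rotated frame -/
theorem gb969_GInv (S : Setup d F) (hR : R₀ * R₀.transpose = 1)
    (h1 : (1 : Matrix (Fin d) (Fin d) ℝ) * (1 : Matrix (Fin d) (Fin d) ℝ).transpose = 1)
    {u : Cfg d → F} (hu : AD.GInv S u) :
    AD.GInv (S.rot R₀ hR 1 h1) (fun x => u (rox R₀.transpose 1 x)) := by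
  have hT : Setup.Tst (fun x => u (rox R₀.transpose 1 x)) := by
    refine ⟨hu.1.1.comp (rtE R₀.transpose (gb969_hR' hR) 1 (gb969_one d)).contDiff, ?_⟩
    exact hu.1.2.comp_homeomorph (rtE R₀.transpose (gb969_hR' hR) 1 (gb969_one d)).toHomeomorph
  refine ⟨hT, fun C x => ?_⟩
  have h2 := rt_G S hR h1 (fun x => u (rox R₀.transpose 1 x)) (hT.1.differentiable (by simp)) C
    (rox R₀.transpose 1 x)
  rw [gb969_inv' hR] at h2
  rw [h2]
  simp only [gb969_inv hR]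
  exact Finset.sum_eq_zero fun C' _ => by rw [hu.2 C', smul_zero]

omit [InnerProductSpace ℂ F] in
theorem gb969_mas (hR : R₀ * R₀.transpose = 1) (u : Cfg d → F) (s t : ℝ) :
    AD.mas (fun x => u (rox R₀.transpose 1 x)) (AD.shl d s t) = AD.mas u (AD.shl d s t) := by
  unfold AD.mas
  have hmp := rt_mp (gb969_hR' hR) (gb969_one d)
  have he : MeasurableEmbedding (rox R₀.transpose 1 : Cfg d → Cfg d) :=
    (rtE R₀.transpose (gb969_hR' hR) 1 (gb969_one d)).toHomeomorph.measurableEmbedding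
  have h3 := hmp.setIntegral_preimage_emb he (fun x => ‖u x‖ ^ 2) (AD.shl d s t)
  have h4 : (rox R₀.transpose 1 : Cfg d → Cfg d) ⁻¹' AD.shl d s t = AD.shl d s t := by
    ext x
    show (s < ‖rox R₀.transpose 1 x‖ ∧ ‖rox R₀.transpose 1 x‖ < t) ↔ (s < ‖x‖ ∧ ‖x‖ < t)
    rw [rt_norm (gb969_hR' hR) (gb969_one d)]
  rw [h4] at h3
  exact h3

/-- **GL13** in every frame the slice functionals have the same limit as the frame independent global functional. -/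
theorem glob_stmt (S : Setup d F) (hS : ∀ S' : Setup d F, SfuStmt S') : GlobStmt S := by
  intro hF R₀ hR h1 dh dm ds dz φ ψ z₀ hz hStd
  have hz' : rox R₀ 1 z₀ ≠ 0 := by
    intro h0
    apply hz
    rw [← norm_eq_zero, ← rt_norm hR (gb969_one dz), h0, norm_zero]
  obtain ⟨ε₀, hε₀, H⟩ := hS (S.rot R₀ hR 1 h1) hF dh dm ds dz φ ψ (rox R₀ 1 z₀) hz' hStd
  refine ⟨ε₀, hε₀, fun ε hε hεε c hc χ o hχ hχs ho R u hRt hu hm => ?_⟩
  have hχ' : ContDiff ℝ ∞ (fun z => χ (rox R₀.transpose 1 z)) :=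
    hχ.comp (rtE R₀.transpose (gb969_hR' hR) (1 : Matrix (Fin dz) (Fin dz) ℝ) (gb969_one dz)).contDiff
  have hχs' : tsupport (fun z => χ (rox R₀.transpose 1 z)) ⊆ Metric.ball (rox R₀ 1 z₀) ε := by
    have h2 : tsupport (χ ∘ (rtE R₀.transpose (gb969_hR' hR) (1 : Matrix (Fin dz) (Fin dz) ℝ)
        (gb969_one dz)).toHomeomorph) = _ := tsupport_comp_eq_preimage χ _
    intro z hz2
    have h3 : rox R₀.transpose 1 z ∈ tsupport χ := by
      have h4 : z ∈ tsupport (χ ∘ (rtE R₀.transpose (gb969_hR' hR)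
        (1 : Matrix (Fin dz) (Fin dz) ℝ) (gb969_one dz)).toHomeomorph) := hz2
      rw [h2] at h4
      exact h4
    have h5 := hχs h3
    rw [Metric.mem_ball, dist_eq_norm] at h5 ⊢
    have h6 : rox R₀ 1 (rox R₀.transpose 1 z - z₀) = z - rox R₀ 1 z₀ := by
      have h7 := (rtE R₀ hR (1 : Matrix (Fin dz) (Fin dz) ℝ) (gb969_one dz)).map_sub
        (rox R₀.transpose 1 z) z₀
      have h8 : rox R₀ 1 (rox R₀.transpose 1 z - z₀) =
        rox R₀ 1 (rox R₀.transpose 1 z) - rox R₀ 1 z₀ := h7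
      rw [h8, gb969_inv' hR]
    rw [← h6, rt_norm hR (gb969_one dz)]
    exact h5
  have ho' : MemLp (fun s => o (rox R₀.transpose 1 s)) 2 (volume : Measure (Cfg ds)) :=
    ho.comp_measurePreserving (rt_mp (gb969_hR' hR) (gb969_one ds))
  have h2 := H ε hε hεε c hc (fun z => χ (rox R₀.transpose 1 z)) (fun s => o (rox R₀.transpose 1 s))
    hχ' hχs' ho' R (fun n x => u n (rox R₀.transpose 1 x)) hRt (fun n => gb969_GInv S hR h1 (hu n))
    (fun s t hs hst => by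
      obtain ⟨C, hC⟩ := hm s t hs hst
      exact ⟨C, fun n => (gb969_mas hR (u n) _ _).le.trans (hC n)⟩)
  refine h2.congr fun n => ?_
  congr 1
  have hmp := rt_mp hR (gb969_one d)
  have he : MeasurableEmbedding (rox R₀ 1 : Cfg d → Cfg d) :=
    (rtE R₀ hR 1 (gb969_one d)).toHomeomorph.measurableEmbedding
  rw [← hmp.integral_comp he]
  refine integral_congr_ae (Eventually.of_forall fun x => ?_)
  simp only [gb969_Zgl, gb969_inv hR]

end Vale.Agent.P353.Z.AN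
end

section

/-! # P353, all `N`, block L (LIO): the uniform bound `UBStmt` (mass bound up to the collisions)

Only ONE frame is used: `{det D_8(η) = 0}` is a null set of `Cfg r`. `c = ∫_{|a|<ρ}|j(a)|da` does not depend on the compact set. -/

open MeasureTheory Filter Topology Matrix
open scoped ContDiff

namespace Vale.Agent.P353.Z.AL

variable {d dh dm r ds n : ℕ} {F : Type*} [NormedAddCommGroup F] [InnerProductSpace ℂ F]

/-- scalar points where the frame is standard -/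
def R8 (S : Setup d F) (φ : Spl dh dm d) (ψ : Spl r ds dh) : Set (Cfg r) := {η | (S.Dz φ ψ η 8).det ≠ 0}

/-- **U0** the stratum is parametrised injectively, with a uniform radius. PROOF from `AP.InjStmt` (block P; it only sees the structure constants: apply it to the
setup on `EuclideanSpace ℂ (Fin 0)` with the same `f`, `g`, `κ` and `th = 0`, so that the universe of `F` plays no role). `z` = colour vectors supported on the indices
`φ (inl (ψ (inl a)))`: commuting (`cen`); `cen z = h` = vectors supported on `φ (inl ·)` (`⊇`: `cen`; `⊆`: `[v,z₀(8)] = 0` gives `D_8(z₀)v_m = 0`); for `η ∈ Rg` also `cen (range η) = h`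
(`D_i(η)v_m = 0` for all `i` gives `∑D_i²v_m = 0`). `a ∈ m` is orthogonal to `h`; `tub S φ a (cmb ψ η 0, 0) = ro (exp (ad a)) (emb φ (cmb ψ η 0) 0)`, `ro` acts on each of the nine components. -/
def InjUStmt (S : Setup d F) : Prop := AN.Cless S → ∀ (dh dm r ds : ℕ) (φ : Spl dh dm d) (ψ : Spl r ds dh) (z₀ : Cfg r),
  AD.Std2 S φ (spsw ψ) z₀ → ∃ ρ : ℝ, 0 < ρ ∧ ∀ η ∈ Rg S φ ψ, ∀ η' ∈ Rg S φ ψ, ∀ a a' : EuclideanSpace ℝ (Fin dm),
    ‖a‖ < ρ → ‖a'‖ < ρ → AN.tub S φ a (cmb ψ η 0, 0) = AN.tub S φ a' (cmb ψ η' 0, 0) → a = a' ∧ η = η'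

def InjUOfStmt (S : Setup d F) : Prop := (∀ (d : ℕ) (S' : Setup d (EuclideanSpace ℂ (Fin 0))), AP.InjStmt S') → InjUStmt S

/-- **U1** tubes over compact sets are injective, the radius `ρ` does not depend on the compact set. PROOF. `ρ` smaller than the radius of `InjU` and such that `j(a) ≠ 0` for `|a| ≤ ρ`
(`DetStmt`: `|det D tz(z)| = J(zy z)|j(zm z)|`, `j` continuous, `j 0 = 1`). Suppose there is no `ε₀` for `K`: `(a_n,p_n) ≠ (a_n',p_n')` with `|a_n|, |a_n'| < ρ`, `p_n, p_n' ∈ Nr ψ K dm 1 (1/n)`, same image. Subsequences: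
`a_n → a`, `a_n' → a'` (`≤ ρ`), `p_n → (cmb ψ η 0, 0)`, `p_n' → (cmb ψ η' 0, 0)`, `η, η' ∈ K`. `tub a (η) = tub a' (η')`, so `a = a'`, `η = η'` by U0 (`K ⊆ Rg`: `D_8` invertible, `-∑D_i² > 0`). But `tz S φ` is injective near
the point with coordinates `(a, cmb ψ η 0, 0)` (inverse function theorem, `CooStmt`): contradiction. -/
def TubKStmt (S : Setup d F) : Prop := AN.Cless S → ∀ (dh dm r ds : ℕ) (φ : Spl dh dm d) (ψ : Spl r ds dh) (z₀ : Cfg r),
  AD.Std2 S φ (spsw ψ) z₀ → ∃ ρ₀ : ℝ, 0 < ρ₀ ∧ ∀ K, IsCompact K → K ⊆ R8 S φ ψ → ∃ ε₀ : ℝ, 0 < ε₀ ∧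
    ∀ (a a' : EuclideanSpace ℝ (Fin dm)) (p p' : Cfg dh × Wsp dm), ‖a‖ < ρ₀ → ‖a'‖ < ρ₀ → p ∈ Nr ψ K dm 1 ε₀ →
      p' ∈ Nr ψ K dm 1 ε₀ → AN.tub S φ a p = AN.tub S φ a' p' → a = a' ∧ p = p'

def TubKOfStmt (S : Setup d F) : Prop := InjUStmt S → AN.DetStmt S → AN.CooStmt → TubKStmt S

/-- **U2** mass bound, `C` independent of the compact set. PROOF. Homogeneity (`tub a (R•p) = R•tub a p`, `AN/A/TubeF.lean`; `Nr ψ K dm R ε = R•Nr ψ K dm 1 ε`, `J` homogeneous) or directly at scale `R`.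
Change of variables (`lintegral_image_eq_lintegral_abs_det_fderiv_mul` for `tz` on the measurable box `{|a| < ρ₀} × Nr`, injective by U1; `CooStmt`, `DetStmt`), `‖u‖` is constant along `exp(ad a)` (`gx983_norm`, as in
`AN/A/Norm.lean`): `∫_{tube}‖u‖² = c∫_{Nr}‖res u‖²`, `c = ∫_{|a|<ρ₀}|j(a)|da > 0`. The tube lies in the shell for small `ε` (`‖tub a p‖² = ‖emb p‖² = ‖y^z‖² + ‖y^s‖² + ‖w‖²`, `y^z ∈ R·K`, `K ⊆ shl s t` compact). -/
def MasKStmt (S : Setup d F) : Prop := AN.Cless S → ∀ (dh dm r ds : ℕ) (φ : Spl dh dm d) (ψ : Spl r ds dh) (z₀ : Cfg r),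
  AD.Std2 S φ (spsw ψ) z₀ → ∃ C : ℝ, 0 < C ∧ ∀ s t : ℝ, 0 < s → s < t → ∀ K, IsCompact K → K ⊆ AD.shl r s t →
    K ⊆ R8 S φ ψ → ∃ ε₀ : ℝ, 0 < ε₀ ∧ ∀ ε : ℝ, 0 < ε → ε ≤ ε₀ → ∀ R : ℝ, 0 < R → ∀ u, AD.GInv S u →
      IntegrableOn (fun p : Cfg dh × Wsp dm => ‖S.res φ u p.1 p.2‖ ^ 2) (Nr ψ K dm R ε) (volume.prod volume) ∧
      ∫ p in Nr ψ K dm R ε, ‖S.res φ u p.1 p.2‖ ^ 2 ∂(volume.prod volume) ≤ C * AD.mas u (AD.shl d (s * R) (t * R))

def MasKOfStmt (S : Setup d F) : Prop := TubKStmt S → AN.DetStmt S → AN.CooStmt → MasKStmt S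

/-- **U3** global functional = slice functional over any compact subset of `R8` (general form of L-GluA). PROOF: as L-GluA: for `z ∈ K` `GluStmt` (and `NormStmt`) at `z`; finitely many balls, Borel partition `A_k` of `K`; sections are modified
on a null set to be strongly measurable (`ZZ`, `Sl` do not change); `ε₀` so small that `Nr ψ K dm R ε₀ ⊆ ⋃_kNb(z_k)`; tails by L-Tail, L-VG. -/
def GluCStmt (S : Setup d F) : Prop := FiniteDimensional ℂ F → ∀ (dh dm r ds : ℕ) (φ : Spl dh dm d) (ψ : Spl r ds dh)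
  (z₀ : Cfg r), AD.Std2 S φ (spsw ψ) z₀ → ∀ (L : Finset (Fin r → ℝ)) (Om : Cfg r → Matrix (Fin dm) (Fin dm) ℝ)
  (K : Submodule ℂ F) (U : Cfg r → F →L[ℂ] F), AX.Bun S φ (AX.Mz S φ (spsw ψ)) L Om K U →
  ∀ A, IsCompact A → A ⊆ R8 S φ ψ → (0 : Cfg r) ∉ A → ∃ ε₀ : ℝ, 0 < ε₀ ∧ ∀ ε : ℝ, 0 < ε → ε ≤ ε₀ →
  ∀ (R : ℕ → ℝ) (u : ℕ → Cfg d → F), SqM S R u → ∀ a, Sec2 A a →
    Tendsto (fun n => ZZ S.κ φ ψ Om a (R n) (u n) - Sl S φ ψ Om A ε a (R n) (u n)) atTop (𝓝 0)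

def GluCOfStmt (S : Setup d F) : Prop := AN.GluStmt S → AN.NormStmt S → AN.MeaStmt S → AN.GauStmt → AlgStmt → RadStmt S → SupZStmt F →
  LinStmt S → TailStmt S → VGStmt S → GluCStmt S

/-- **U4** bound with a constant depending on the compact set. PROOF. `A ⊆ Rg ⊆ AN.Reg`; `GluKStmt` with `b = chi·bG κ Om a` (`a` strongly measurable after a change on a null set; support condition for large `R`);
weighted norm: `∫(1+|X|²)^{dm+1}(Nf(Om η)e^{-½qX})²dX ≤ C` for `η ∈ A` (`MomStmt` near every point in a rotated frame `D' = ∑R₀_{ij}D_j`, or directly: `Om` is continuous and positive definite on the compact set `A`);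
`u'` of L-Rad (`∫‖u'‖² ≤ C`), L-Sup. -/
def CrdStmt (S : Setup d F) : Prop := FiniteDimensional ℂ F → ∀ (dh dm r ds : ℕ) (φ : Spl dh dm d) (ψ : Spl r ds dh)
  (z₀ : Cfg r), AD.Std2 S φ (spsw ψ) z₀ → ∀ (L : Finset (Fin r → ℝ)) (Om : Cfg r → Matrix (Fin dm) (Fin dm) ℝ)
  (K : Submodule ℂ F) (U : Cfg r → F →L[ℂ] F), AX.Bun S φ (AX.Mz S φ (spsw ψ)) L Om K U →
  ∀ A, IsCompact A → A ⊆ Rg S φ ψ → (0 : Cfg r) ∉ A → ∀ (R : ℕ → ℝ) (u : ℕ → Cfg d → F), SqM S R u →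
    ∃ C : ℝ, 0 ≤ C ∧ ∀ a, Sec2 A a → ∀ᶠ n in atTop, ‖ZZ S.κ φ ψ Om a (R n) (u n)‖ ≤ C * Real.sqrt (n2 a)

def CrdOfStmt (S : Setup d F) : Prop := AN.GluKStmt S → AN.MomStmt → RadStmt S → SupZStmt F → CrdStmt S

/-- **U5** `{det D_8 = 0}` is a null set. PROOF: `det D_8(η)` is a polynomial in `η`, nonzero at `z₀`; or `tor_Mz`, `RootStmt`, `SpStmt`: `det D_8(η) = ±∏_k l_k(η_8)`, `l_k ≠ 0`: finitely many hyperplanes. -/
def NullStmt (S : Setup d F) : Prop := ∀ (dh dm r ds : ℕ) (φ : Spl dh dm d) (ψ : Spl r ds dh) (z₀ : Cfg r),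
  AD.Std2 S φ (spsw ψ) z₀ → volume {η : Cfg r | (S.Dz φ ψ η 8).det = 0} = 0

/-- **U6** assembly. PROOF. `a ∈ Sec2 A`, `e > 0`; `C_A` of U4. `K_m = A ∩ {|det D_8(η)| ≥ 1/m}` compact `⊆ R8`; `n2 (a - 1_{K_m}a) → 0` (dominated convergence, U5), choose `m` with `C_A n2(…)^{1/2} ≤ e/3`. `ZZ(a) = ZZ(1_Ka) + ZZ(a - 1_Ka)`
(L-Lin), U4 for the second; U3 for the first (`K ⊆ shl s t`, `ε` of U2 and U3), Cauchy–Schwarz: `|Sl| ≤ ‖Ts0(vG 1_Ka)‖(∫_{Nr}‖res u‖²)^{1/2} ≤ n2(a)^{1/2}(C·mas)^{1/2}` (L-Tail first part, L-VG, U2). -/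
def UBOfStmt (S : Setup d F) : Prop := LinStmt S → AN.MeaStmt S → AN.GauStmt → AlgStmt → TailStmt S → VGStmt S → MasKStmt S → GluCStmt S →
  CrdStmt S → NullStmt S → UBStmt S

/-- L-GluA is a special case of U3. PROOF: `closedBall z₀ ε₁ ⊆ R8`, `0 ∉`; `Sl` over `A` and over `closedBall z₀ ε` agree (the section vanishes outside). -/
def GluAOfCStmt (S : Setup d F) : Prop := GluCStmt S → GluAStmt S

end Vale.Agent.P353.Z.AL
end

section

/-! # P353, all `N`, block L: injectivity of the parametrisation of a stratum (`InjUStmt`; helper276) -/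

open MeasureTheory Filter Topology Matrix
open scoped ContDiff

namespace Vale.Agent.P353.Z.AL

variable {d dh dm r ds : ℕ} {F : Type*} [NormedAddCommGroup F] [InnerProductSpace ℂ F]

/-- the same gauge algebra on the trivial fermion space -/
noncomputable def iju (S : Setup d F) : Setup d (EuclideanSpace ℂ (Fin 0)) where
  g := S.g
  g_symm := S.g_symm
  g_anti := S.g_anti
  th := fun _ _ => 0
  th_anti := fun α A β B => Subsingleton.elim _ _
  κ := S.κ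
  κ_pos := S.κ_pos
  f := S.f
  f_swap := S.f_swap
  f_cyc := S.f_cyc
  f_jac := S.f_jac
  g_real := S.g_real
  th_sa := fun α A v w => by
    rw [Subsingleton.elim v 0, Subsingleton.elim w 0]
    simp

/-- colour vectors supported on the first summand -/
noncomputable def ihv (φ : Spl dh dm d) (v : Fin dh → ℝ) : Fin d → ℝ :=
  fun A => Sum.elim v (fun _ => 0) (φ.symm A)

/-- colour vectors supported on the centre indices -/
noncomputable def izv (φ : Spl dh dm d) (ψ : Spl r ds dh) (t : Fin r → ℝ) : Fin d → ℝ :=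
  ihv φ fun B => Sum.elim t (fun _ => 0) (ψ.symm B)

lemma ihv_inl (φ : Spl dh dm d) (v : Fin dh → ℝ) (A : Fin dh) : ihv φ v (φ (Sum.inl A)) = v A := by
  simp [ihv]

lemma ihv_inr (φ : Spl dh dm d) (v : Fin dh → ℝ) (B : Fin dm) : ihv φ v (φ (Sum.inr B)) = 0 := by
  simp [ihv]

lemma iju_adm (S : Setup d F) (φ : Spl dh dm d) (v : Fin dh → ℝ) (A C : Fin d) :
    S.adm (ihv φ v) A C = ∑ B, S.f A (φ (Sum.inl B)) C * v B := by
  change ∑ B, S.f A B C * ihv φ v B = _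
  rw [← φ.sum_comp, Fintype.sum_sum_type]
  simp only [ihv_inl, ihv_inr, mul_zero, Finset.sum_const_zero, add_zero]

lemma iju_inr {S : Setup d F} {φ : Spl dh dm d} (h : S.IsSub φ) (v : Fin dh → ℝ) (u : Fin d → ℝ)
    (B : Fin dm) : (S.adm (ihv φ v)).mulVec u (φ (Sum.inr B)) =
      (S.Dm φ v).mulVec (fun C => u (φ (Sum.inr C))) B := by
  simp only [Matrix.mulVec, dotProduct]
  rw [← φ.sum_comp, Fintype.sum_sum_type]
  have h1 : ∀ C, S.adm (ihv φ v) (φ (Sum.inr B)) (φ (Sum.inl C)) = 0 := by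
    intro C
    rw [iju_adm]
    refine Finset.sum_eq_zero fun E _ => ?_
    rw [S.f_cyc, h, zero_mul]
  have h2 : ∀ C, S.adm (ihv φ v) (φ (Sum.inr B)) (φ (Sum.inr C)) = S.Dm φ v B C := fun C => by
    rw [iju_adm]
    rfl
  simp only [h1, h2, zero_mul, Finset.sum_const_zero, zero_add]

lemma iju_zero {S : Setup d F} {φ : Spl dh dm d} {ψ : Spl r ds dh} (h : S.IsSub φ)
    (hc : S.IsCen φ ψ) (t : Fin r → ℝ) (u : Fin d → ℝ) (hu : ∀ B, u (φ (Sum.inr B)) = 0) :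
    (S.adm (izv φ ψ t)).mulVec u = 0 := by
  funext A
  obtain ⟨A, rfl⟩ := φ.surjective A
  rcases A with A | A
  · simp only [Matrix.mulVec, dotProduct]
    rw [← φ.sum_comp, Fintype.sum_sum_type]
    have h1 : ∀ C, S.adm (izv φ ψ t) (φ (Sum.inl A)) (φ (Sum.inl C)) = 0 := by
      intro C
      rw [izv, iju_adm, ← ψ.sum_comp, Fintype.sum_sum_type]
      have h2 : ∀ b, S.f (φ (Sum.inl A)) (φ (Sum.inl (ψ (Sum.inl b)))) (φ (Sum.inl C)) = 0 := by
        intro b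
        rw [S.f_cyc, hc]
      simp [h2]
    simp [h1, hu]
  · rw [izv, iju_inr h]
    have h1 : (fun C => u (φ (Sum.inr C))) = (0 : Fin dm → ℝ) := funext hu
    rw [h1, Matrix.mulVec_zero]
    rfl

/-- the components of a point with coordinates `cmb ψ η 0` are central colour vectors -/
lemma iju_emb (φ : Spl dh dm d) (ψ : Spl r ds dh) (η : Cfg r) (i : Fin 9) (A : Fin d) :
    emb φ (cmb ψ η 0) 0 (i, A) = izv φ ψ (fun a => η (i, a)) A := by
  obtain ⟨A, rfl⟩ := φ.surjective A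
  rcases A with A | A
  · obtain ⟨A, rfl⟩ := ψ.surjective A
    rcases A with A | A
    · simp [emb, izv, ihv, cmb]
    · simp [emb, izv, ihv, cmb]
  · simp only [emb, izv, ihv, Equiv.symm_apply_apply, Sum.elim_inr]
    refine Fin.lastCases ?_ (fun j => ?_) i
    · exact Fin.lastCases_last
    · exact (Fin.lastCases_castSucc _)

lemma iju_Dm (S : Setup d F) (φ : Spl dh dm d) (ψ : Spl r ds dh) (η : Cfg r) (i : Fin 9) :
    S.Dm φ (fun B => Sum.elim (fun a => η (i, a)) (fun _ => 0) (ψ.symm B)) = S.Dz φ ψ η i := by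
  have h1 : (fun B => Sum.elim (fun a => η (i, a)) (fun _ => 0) (ψ.symm B)) =
      fun A => cmb ψ η 0 (i, A) := by
    funext B
    obtain ⟨B, rfl⟩ := ψ.surjective B
    rcases B with B | B
    · simp [cmb]
    · simp [cmb]
  rw [h1]
  rfl

lemma iju_inv {M : Matrix (Fin dm) (Fin dm) ℝ} (hM : M.det ≠ 0) {u : Fin dm → ℝ}
    (h : M.mulVec u = 0) : u = 0 :=
  Matrix.eq_zero_of_mulVec_eq_zero hM h

/-- **L-InjU** -/
theorem injU_of (S : Setup d F) : InjUOfStmt S := by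
  intro hInj hless dh dm r ds φ ψ z₀ hstd
  have hsub : S.IsSub φ := hstd.std.sub
  have hcen : S.IsCen φ ψ := fun a B C => hstd.cen a B C
  set H : Set (Fin d → ℝ) := {u | ∀ B, u (φ (Sum.inr B)) = 0} with hH
  set z : Set (Fin d → ℝ) := Set.range (izv φ ψ) with hz
  have hzH : ∀ t, izv φ ψ t ∈ H := fun t B => ihv_inr φ _ B
  -- `ad` of the components
  have hcomp : ∀ (η : Cfg r) (i : Fin 9) (u : Fin d → ℝ),
      (S.adm (izv φ ψ fun a => η (i, a))).mulVec u = 0 →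
      (S.Dz φ ψ η i).mulVec (fun C => u (φ (Sum.inr C))) = 0 := by
    intro η i u h
    funext B
    rw [← iju_Dm, ← iju_inr hsub]
    have := congrFun h (φ (Sum.inr B))
    exact this
  have hcz : AP.cen (iju S) z = H := by
    apply Set.Subset.antisymm
    · intro u hu
      have h1 : (S.adm (izv φ ψ fun a => z₀ (8, a))).mulVec u = 0 := hu _ ⟨_, rfl⟩
      have h2 := hcomp z₀ 8 u h1
      have h3 : S.Dz φ ψ z₀ 8 = S.Dy φ 8 (AD.cmb (spsw ψ) 0 z₀) := by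
        have h4 : cmb ψ z₀ 0 = AD.cmb (spsw ψ) 0 z₀ := by
          ext ⟨i, B⟩
          obtain ⟨B, rfl⟩ := ψ.surjective B
          rcases B with B | B
          · simp [cmb, AD.cmb, spsw]
          · simp [cmb, AD.cmb, spsw]
        rw [Setup.Dz, h4]
      rw [h3] at h2
      exact fun B => congrFun (iju_inv hstd.std.inv h2) B
    · rintro u hu _ ⟨t, rfl⟩
      exact iju_zero hsub hcen t u hu
  have hcy : ∀ η ∈ Rg S φ ψ, AP.cen (iju S) (Set.range fun i : Fin 9 =>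
      izv φ ψ fun a => η (i, a)) = AP.cen (iju S) z := by
    intro η hη
    rw [hcz]
    apply Set.Subset.antisymm
    · intro u hu
      have h1 : ∀ i, (S.Dz φ ψ η i).mulVec (fun C => u (φ (Sum.inr C))) = 0 := fun i =>
        hcomp η i u (hu _ ⟨i, rfl⟩)
      have h2 : (∑ i, S.Dz φ ψ η i * S.Dz φ ψ η i).mulVec (fun C => u (φ (Sum.inr C))) = 0 := by
        rw [Matrix.sum_mulVec]
        refine Finset.sum_eq_zero fun i _ => ?_
        rw [← Matrix.mulVec_mulVec, h1, Matrix.mulVec_zero]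
      exact fun B => congrFun (iju_inv hη h2) B
    · rintro u hu _ ⟨i, rfl⟩
      exact iju_zero hsub hcen _ u hu
  have hab : ∀ a ∈ z, ∀ b ∈ z, AP.br (iju S) a b = 0 := by
    rintro _ ⟨t, rfl⟩ _ ⟨t', rfl⟩
    exact iju_zero hsub hcen t _ (hzH t')
  have hl : ∀ a : Fin d → ℝ, (∀ b, AP.br (iju S) a b = 0) → a = 0 := by
    intro a ha
    apply hless
    intro B C
    have h1 := congrFun (ha (Pi.single C 1)) B
    have h2 : (S.adm a).mulVec (Pi.single C 1) B = S.adm a B C := by simp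
    have h3 : S.adm a B C = 0 := h2.symm.trans h1
    change ∑ E, S.f B E C * a E = 0 at h3
    have h4 : ∀ E, S.f E B C * a E = -(S.f B E C * a E) := by
      intro E
      rw [S.f_swap E B C]
      ring
    simp only [h4, Finset.sum_neg_distrib, h3, neg_zero]
  obtain ⟨δ, hδ, hmain⟩ := hInj d (iju S) hl z hab
  refine ⟨Real.sqrt δ, Real.sqrt_pos.2 hδ, ?_⟩
  intro η hη η' hη' a a' ha ha' hE
  have hort : ∀ (a : EuclideanSpace ℝ (Fin dm)), ∀ v ∈ AP.cen (iju S) z, ∑ A, AN.exm φ a A * v A = 0 := by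
    intro a v hv
    rw [hcz] at hv
    rw [← φ.sum_comp, Fintype.sum_sum_type]
    have h1 : ∀ B, v (φ (Sum.inr B)) = 0 := hv
    simp [AN.exm, h1]
  have hnrm : ∀ (a : EuclideanSpace ℝ (Fin dm)), ‖a‖ < Real.sqrt δ → ∑ A, AN.exm φ a A ^ 2 < δ := by
    intro a ha
    rw [← φ.sum_comp, Fintype.sum_sum_type]
    have h1 : ∑ B, a B ^ 2 = ‖a‖ ^ 2 := by
      rw [EuclideanSpace.norm_sq_eq]
      simp
    have h2 : ‖a‖ ^ 2 < δ := by
      have := pow_lt_pow_left₀ ha (norm_nonneg _) two_ne_zero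
      rwa [Real.sq_sqrt hδ.le] at this
    have h3 : (∑ A : Fin dh, AN.exm φ a (φ (Sum.inl A)) ^ 2) + ∑ B : Fin dm, AN.exm φ a (φ (Sum.inr B)) ^ 2 =
        ∑ B, a B ^ 2 := by
      simp [AN.exm]
    rw [h3, h1]
    exact h2
  have hexp : ∀ i, (NormedSpace.exp ((iju S).adm (AN.exm φ a))).mulVec (izv φ ψ fun b => η (i, b)) =
      (NormedSpace.exp ((iju S).adm (AN.exm φ a'))).mulVec (izv φ ψ fun b => η' (i, b)) := by
    intro i
    funext A
    have h1 := congrArg (fun x : Cfg d => x (i, A)) hE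
    simp only [AN.tub, ro] at h1
    simp only [iju_emb] at h1
    exact h1
  have h := hmain (fun i => izv φ ψ fun b => η (i, b)) (fun i => izv φ ψ fun b => η' (i, b))
    (AN.exm φ a) (AN.exm φ a') (fun i => ⟨_, rfl⟩) (fun i => ⟨_, rfl⟩) (hcy η hη) (hcy η' hη')
    (hort a) (hort a') (hnrm a ha) (hnrm a' ha') hexp
  constructor
  · ext B
    have := congrFun h.2 (φ (Sum.inr B))
    simpa [AN.exm] using this
  · ext ⟨i, b⟩
    have h1 := congrFun (congrFun h.1 i) (φ (Sum.inl (ψ (Sum.inl b))))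
    simpa [izv, ihv] using h1

end Vale.Agent.P353.Z.AL
end

section

/-! # P353, all `N`, block L: tubes over compact sets are injective -/

open MeasureTheory Filter Topology Matrix
open scoped ContDiff

namespace Vale.Agent.P353.Z.AL

variable {d dh dm r ds n : ℕ} {F : Type*} [NormedAddCommGroup F] [InnerProductSpace ℂ F]

theorem tk775_anti (S : Setup d F) (φ : Spl dh dm d) (i : Fin 9) (y : Cfg dh) :
    (S.Dy φ i y)ᵀ = -S.Dy φ i y := by
  ext B C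
  simp only [Setup.Dy, Setup.Dm, Matrix.transpose_apply, Matrix.of_apply, Matrix.neg_apply]
  rw [← Finset.sum_neg_distrib]
  refine Finset.sum_congr rfl fun A _ => ?_
  rw [S.f_cyc (φ (Sum.inr C)) (φ (Sum.inl A)) (φ (Sum.inr B)), S.f_swap (φ (Sum.inl A)) (φ (Sum.inr B)) (φ (Sum.inr C))]
  ring

theorem tk775_sq (D : Matrix (Fin dm) (Fin dm) ℝ) (hD : Dᵀ = -D) (v : Fin dm → ℝ) :
    (D *ᵥ v) ⬝ᵥ (D *ᵥ v) = -(((D * D) *ᵥ v) ⬝ᵥ v) := by
  rw [Matrix.dotProduct_mulVec, ← Matrix.mulVec_transpose, hD, Matrix.neg_mulVec, Matrix.mulVec_mulVec, neg_dotProduct]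

theorem tk775_rg (S : Setup d F) (φ : Spl dh dm d) (ψ : Spl r ds dh) : R8 S φ ψ ⊆ Rg S φ ψ := by
  intro η hη h0
  obtain ⟨v, hv, hv0⟩ := Matrix.exists_mulVec_eq_zero_iff.2 h0
  have h1 : ∑ i, (S.Dz φ ψ η i *ᵥ v) ⬝ᵥ (S.Dz φ ψ η i *ᵥ v) = 0 := by
    have h2 : ∀ i, (S.Dz φ ψ η i *ᵥ v) ⬝ᵥ (S.Dz φ ψ η i *ᵥ v) = -(((S.Dz φ ψ η i * S.Dz φ ψ η i) *ᵥ v) ⬝ᵥ v) :=
      fun i => tk775_sq _ (tk775_anti S φ i _) v
    simp only [h2]
    rw [Finset.sum_neg_distrib, ← sum_dotProduct, ← Matrix.sum_mulVec, hv0, zero_dotProduct, neg_zero]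
  have h3 : (S.Dz φ ψ η 8 *ᵥ v) ⬝ᵥ (S.Dz φ ψ η 8 *ᵥ v) = 0 :=
    (Finset.sum_eq_zero_iff_of_nonneg fun i _ => Finset.sum_nonneg fun _ _ => mul_self_nonneg _).1 h1 8 (Finset.mem_univ _)
  rw [dotProduct_self_eq_zero] at h3
  exact hη (Matrix.exists_mulVec_eq_zero_iff.1 ⟨v, hv, h3⟩)

theorem tk775_norm (ψ : Spl r ds dh) (y : Cfg dh) : ‖y - cmb ψ (AN.hz ψ y) 0‖ = ‖AN.hs ψ y‖ := by
  rw [EuclideanSpace.norm_eq, EuclideanSpace.norm_eq]
  congr 1
  rw [Fintype.sum_prod_type, Fintype.sum_prod_type]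
  refine Finset.sum_congr rfl fun i _ => ?_
  rw [← ψ.sum_comp, Fintype.sum_sum_type]
  simp [cmb, AN.hz, AN.hs]

theorem tk775_cont (ψ : Spl r ds dh) : Continuous fun η : Cfg r => cmb ψ η (0 : Cfg ds) := by
  unfold cmb
  refine (PiLp.continuous_toLp 2 _).comp (continuous_pi fun p => ?_)
  rcases ψ.symm p.2 with a | b
  · simp only [Sum.elim_inl]; fun_prop
  · simp only [Sum.elim_inr]; fun_prop

theorem tubK_of (S : Setup d F) : TubKOfStmt S := by
  intro hU hD hC hcl dh dm r ds φ ψ z₀ hS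
  obtain ⟨ρ₁, hρ₁, hinj⟩ := hU hcl dh dm r ds φ ψ z₀ hS
  obtain ⟨hsm, j, hj, hj0, hdet⟩ := hD dh dm φ hS.std.sub
  obtain ⟨e, he, -⟩ := hC d dh dm φ
  have hj1 : ∀ᶠ a in 𝓝 (0 : EuclideanSpace ℝ (Fin dm)), j a ≠ 0 :=
    hj.continuousAt.eventually_ne (by rw [hj0]; exact one_ne_zero)
  obtain ⟨ρ₂, hρ₂, hball⟩ := Metric.eventually_nhds_iff_ball.1 hj1
  obtain ⟨ρ₀, hρ₀, hρ₀1, hρ₀2⟩ : ∃ ρ₀ : ℝ, 0 < ρ₀ ∧ ρ₀ < ρ₁ ∧ ρ₀ < ρ₂ :=
    ⟨min ρ₁ ρ₂ / 2, by positivity, by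
      have := min_le_left ρ₁ ρ₂
      linarith, by
      have := min_le_right ρ₁ ρ₂
      linarith⟩
  refine ⟨ρ₀, hρ₀, fun K hK hK8 => ?_⟩
  -- coordinates
  have hz : ∀ b, (AN.zm φ (e.symm b), (AN.zy φ (e.symm b), AN.zw φ (e.symm b))) = b := fun b => by
    rw [← he, e.apply_symm_apply]
  have htub : ∀ q : EuclideanSpace ℝ (Fin dm) × (Cfg dh × Wsp dm), AN.tub S φ q.1 q.2 = AN.tz S φ (e.symm q) := by
    rintro ⟨a, p1, p2⟩
    have h1 := hz (a, (p1, p2))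
    simp only [Prod.mk.injEq] at h1
    rw [AN.tz, h1.1, h1.2.1, h1.2.2]
  have hcont : Continuous fun q : EuclideanSpace ℝ (Fin dm) × (Cfg dh × Wsp dm) => AN.tub S φ q.1 q.2 := by
    simp only [htub]
    exact hsm.continuous.comp e.symm.continuous
  -- the compact set
  obtain ⟨C, hCdef⟩ : ∃ C : Set (EuclideanSpace ℝ (Fin dm) × (Cfg dh × Wsp dm)),
      C = Metric.closedBall 0 ρ₀ ×ˢ ((fun η : Cfg r => (cmb ψ η (0 : Cfg ds), (0 : Wsp dm))) '' K) := ⟨_, rfl⟩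
  have hCc : IsCompact C := by
    rw [hCdef]
    exact (isCompact_closedBall 0 ρ₀).prod (hK.image ((tk775_cont ψ).prodMk continuous_const))
  have hCinj : Set.InjOn (fun q : EuclideanSpace ℝ (Fin dm) × (Cfg dh × Wsp dm) => AN.tub S φ q.1 q.2) C := by
    rintro ⟨a, p⟩ hq ⟨a', p'⟩ hq' heq
    rw [hCdef] at hq hq'
    obtain ⟨ha, η, hη, rfl⟩ := hq
    obtain ⟨ha', η', hη', rfl⟩ := hq'
    simp only [mem_closedBall_zero_iff] at ha ha'
    obtain ⟨h1, h2⟩ := hinj η (tk775_rg S φ ψ (hK8 hη)) η' (tk775_rg S φ ψ (hK8 hη')) a a' (ha.trans_lt hρ₀1)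
      (ha'.trans_lt hρ₀1) heq
    rw [h1, h2]
  have hloc : ∀ q ∈ C, ∃ u ∈ 𝓝 q, Set.InjOn (fun q : EuclideanSpace ℝ (Fin dm) × (Cfg dh × Wsp dm) =>
      AN.tub S φ q.1 q.2) u := by
    rintro ⟨a, p⟩ hq
    rw [hCdef] at hq
    obtain ⟨ha, η, hη, rfl⟩ := hq
    simp only [mem_closedBall_zero_iff] at ha
    have hd : (fderiv ℝ (AN.tz S φ) (e.symm (a, (cmb ψ η 0, 0)))).det ≠ 0 := by
      intro h0
      have h1 := hdet (e.symm (a, (cmb ψ η 0, 0)))
      have h2 := hz (a, (cmb ψ η 0, 0))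
      simp only [Prod.mk.injEq] at h2
      rw [h0, abs_zero, h2.1, h2.2.1] at h1
      have h3 : S.Jd φ (cmb ψ η 0) ≠ 0 := abs_ne_zero.2 (hK8 hη)
      have h4 : |j a| ≠ 0 := abs_ne_zero.2 (hball a (by
        rw [Metric.mem_ball, dist_zero_right]
        exact ha.trans_lt hρ₀2))
      exact mul_ne_zero h3 h4 h1.symm
    have hf' : HasFDerivAt (AN.tz S φ) (((fderiv ℝ (AN.tz S φ)
        (e.symm (a, (cmb ψ η 0, 0)))).toContinuousLinearEquivOfDetNeZero hd : Cfg d ≃L[ℝ] Cfg d) :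
          Cfg d →L[ℝ] Cfg d) (e.symm (a, (cmb ψ η 0, 0))) := by
      rw [ContinuousLinearMap.coe_toContinuousLinearEquivOfDetNeZero]
      exact ((hsm.differentiable (by simp)) _).hasFDerivAt
    have hsm' : ContDiffAt ℝ ∞ (AN.tz S φ) (e.symm (a, (cmb ψ η 0, 0))) := hsm.contDiffAt
    obtain ⟨G, hG, hz₀⟩ : ∃ G : OpenPartialHomeomorph (Cfg d) (Cfg d), (∀ z, G z = AN.tz S φ z) ∧
        e.symm (a, (cmb ψ η 0, 0)) ∈ G.source :=
      ⟨hsm'.toOpenPartialHomeomorph (AN.tz S φ) hf' (by simp), fun z => rfl,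
        hsm'.mem_toOpenPartialHomeomorph_source hf' (by simp)⟩
    refine ⟨e.symm ⁻¹' G.source, e.symm.continuous.continuousAt.preimage_mem_nhds (G.open_source.mem_nhds hz₀), ?_⟩
    intro q1 h1 q2 h2 h12
    simp only [htub] at h12
    exact e.symm.injective (G.injOn h1 h2 (by rw [hG, hG]; exact h12))
  obtain ⟨t, ht, htinj⟩ := hCinj.exists_mem_nhdsSet hCc (fun x _ => hcont.continuousAt) hloc
  obtain ⟨V, hVo, hCV, hVt⟩ := mem_nhdsSet_iff_exists.1 ht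
  obtain ⟨δ, hδ, hthick⟩ := hCc.exists_thickening_subset_open hVo hCV
  have hmem : ∀ (a : EuclideanSpace ℝ (Fin dm)) (p : Cfg dh × Wsp dm), ‖a‖ < ρ₀ → p ∈ Nr ψ K dm 1 δ → (a, p) ∈ t := by
    intro a p ha hp
    refine hVt (hthick (Metric.mem_thickening_iff.2 ⟨(a, (cmb ψ (AN.hz ψ p.1) 0, 0)), ?_, ?_⟩))
    · rw [hCdef]
      refine ⟨mem_closedBall_zero_iff.2 ha.le, AN.hz ψ p.1, ?_, rfl⟩
      have := hp.1
      rwa [inv_one, one_smul] at this
    · rw [Prod.dist_eq, Prod.dist_eq, max_lt_iff, max_lt_iff]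
      have h2 := hp.2.1
      have h3 := hp.2.2
      rw [mul_one] at h2 h3
      refine ⟨by simpa using hδ, ?_, ?_⟩
      · rw [dist_eq_norm]
        exact (tk775_norm ψ p.1).trans_lt h2
      · rw [dist_zero_right]
        exact h3
  refine ⟨δ, hδ, fun a a' p p' ha ha' hp hp' heq => ?_⟩
  have h := htinj (hmem a p ha hp) (hmem a' p' ha' hp') heq
  exact ⟨congrArg Prod.fst h, congrArg Prod.snd h⟩

end Vale.Agent.P353.Z.AL
end

section

/-! # P353, all `N`, TW2: the non commuting part of a shell -/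

open MeasureTheory Filter Topology
open scoped ContDiff

namespace Vale.Agent.P353.Z.AT

variable {d : ℕ} {F : Type*} [NormedAddCommGroup F] [InnerProductSpace ℂ F]

section pot

theorem nc442_sq (S : Setup d F) : U.SqStmt S := U.sq_stmt S

theorem nc442_a6 (S : Setup d F) : U.A6Stmt S :=
  U.a6 S (U.a7 S (U.a1 S (U.a1a S) (U.a1b S (U.fbmn S (U.f10 S)))))

theorem nc442_nonneg (S : Setup d F) (m : ℝ) (x : Cfg d) : 0 ≤ S.Vm m x := by
  rw [nc442_sq S m x]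
  have h1 : 0 ≤ ∑ k, ∑ A, S.GG m k A x ^ 2 := by positivity
  have h2 : 0 ≤ ∑ i : Fin 9, ∑ A, (if i.val < 3 then 0 else x (i, A) ^ 2) :=
    Finset.sum_nonneg fun i _ => Finset.sum_nonneg fun A _ => by split_ifs <;> positivity
  have h3 : 0 ≤ ∑ i : Fin 9, ∑ j : Fin 9, ∑ A,
      (if i.val < 3 ∧ j.val < 3 then 0 else S.FF A i j x ^ 2) :=
    Finset.sum_nonneg fun i _ => Finset.sum_nonneg fun j _ => Finset.sum_nonneg fun A _ => by
      split_ifs <;> positivity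
  positivity

theorem nc442_xsum (x : Cfg d) : ∑ k : Fin 3, ∑ A, x (Setup.c3 k, A) ^ 2 ≤ ‖x‖ ^ 2 := by
  have h1 : ‖x‖ ^ 2 = ∑ i : Fin 9, ∑ A, x (i, A) ^ 2 := by
    rw [EuclideanSpace.real_norm_sq_eq, Fintype.sum_prod_type]
  rw [h1, U.hes_sum9 fun i => ∑ A, x (i, A) ^ 2]
  have h2 : 0 ≤ ∑ i : Fin 9, (if i.val < 3 then 0 else ∑ A, x (i, A) ^ 2) :=
    Finset.sum_nonneg fun i _ => by split_ifs <;> positivity
  linarith

theorem nc442_lower (S : Setup d F) (m : ℝ) (x : Cfg d) :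
    (1 / 2) * S.V x - 2 * m ^ 2 * ‖x‖ ^ 2 ≤ S.Vm m x := by
  have h0 : S.Vm 0 x = S.V x := by simp [Setup.Vm]
  rw [← h0, nc442_sq S m x, nc442_sq S 0 x]
  have h1 : ∀ k A, (1 / 2) * S.GG 0 k A x ^ 2 - 4 * m ^ 2 * x (Setup.c3 k, A) ^ 2 ≤
      S.GG m k A x ^ 2 := by
    intro k A
    unfold Setup.GG
    nlinarith [sq_nonneg (S.FF A (Setup.c3 (k + 1)) (Setup.c3 (k + 2)) x +
      4 * m * x (Setup.c3 k, A))]
  have h2 : (1 / 2) * (∑ k, ∑ A, S.GG 0 k A x ^ 2) -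
      4 * m ^ 2 * ∑ k : Fin 3, ∑ A, x (Setup.c3 k, A) ^ 2 ≤ ∑ k, ∑ A, S.GG m k A x ^ 2 := by
    simp only [Finset.mul_sum]
    rw [← Finset.sum_sub_distrib]
    refine Finset.sum_le_sum fun k _ => ?_
    rw [← Finset.sum_sub_distrib]
    exact Finset.sum_le_sum fun A _ => h1 k A
  have h3 := mul_le_mul_of_nonneg_left (nc442_xsum x) (by positivity : 0 ≤ 4 * m ^ 2)
  have h4 : 0 ≤ ∑ i : Fin 9, ∑ A, (if i.val < 3 then 0 else x (i, A) ^ 2) :=
    Finset.sum_nonneg fun i _ => Finset.sum_nonneg fun A _ => by split_ifs <;> positivity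
  have h5 : 0 ≤ ∑ i : Fin 9, ∑ j : Fin 9, ∑ A,
      (if i.val < 3 ∧ j.val < 3 then 0 else S.FF A i j x ^ 2) :=
    Finset.sum_nonneg fun i _ => Finset.sum_nonneg fun j _ => Finset.sum_nonneg fun A _ => by
      split_ifs <;> positivity
  have h6 : 0 ≤ m ^ 2 / 2 * ∑ i : Fin 9, ∑ A, (if i.val < 3 then 0 else x (i, A) ^ 2) := by
    positivity
  nlinarith

end pot

section cut

/-- cutoff to a shell -/
structure NcCut (K s : ℝ) (χ : Cfg d → ℝ) : Prop where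
  sm : ContDiff ℝ ∞ χ
  nn : ∀ x, 0 ≤ χ x
  le : ∀ x, χ x ≤ 1
  one : ∀ x, s ≤ ‖x‖ → ‖x‖ ≤ 2 * s → χ x = 1
  supp : ∀ x, χ x ≠ 0 → s / 2 < ‖x‖ ∧ ‖x‖ < 4 * s
  grad : ∀ j B x, |pdr j B χ x| ≤ K / s

theorem nc442_cut : ∃ K : ℝ, 0 ≤ K ∧ ∀ s : ℝ, 0 < s → ∃ χ : Cfg d → ℝ, NcCut K s χ := by
  obtain ⟨K, hK, h⟩ := exists_cut (d := d)
  refine ⟨3 * K, by positivity, fun s hs => ?_⟩
  obtain ⟨a, ha⟩ := h (2 * s) (by positivity)
  obtain ⟨b, hb⟩ := h (s / 2) (by positivity)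
  obtain ⟨a1, a2, a3, a4, a5, a6, a7, a8⟩ := ha
  obtain ⟨b1, b2, b3, b4, b5, b6, b7, b8⟩ := hb
  have hd : ∀ j B x, pdr j B (fun x => a x * (1 - b x)) x =
      pdr j B a x * (1 - b x) - a x * pdr j B b x := by
    intro j B x
    have da : HasFDerivAt a (fderiv ℝ a x) x := (a1.differentiable (by simp) x).hasFDerivAt
    have db : HasFDerivAt b (fderiv ℝ b x) x := (b1.differentiable (by simp) x).hasFDerivAt
    have dc := da.mul (db.const_sub 1)
    have e : fderiv ℝ (fun x => a x * (1 - b x)) x = _ := dc.fderiv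
    rw [pdr, e]
    simp only [pdr, _root_.add_apply, _root_.smul_apply, _root_.neg_apply, smul_eq_mul]
    ring
  refine ⟨fun x => a x * (1 - b x), a1.mul (contDiff_const.sub b1), fun x => ?_, fun x => ?_,
    fun x h1 h2 => ?_, fun x h1 => ?_, fun j B x => ?_⟩
  · exact mul_nonneg (a3 x) (by linarith [b4 x])
  · exact mul_le_one₀ (a4 x) (by linarith [b4 x]) (by linarith [b3 x])
  · rw [a5 x h2, b6 x (by linarith)]
    ring
  · constructor
    · by_contra h2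
      apply h1
      rw [b5 x (by linarith)]
      ring
    · by_contra h2
      apply h1
      rw [a6 x (by linarith)]
      ring
  · rw [hd]
    have k1 : |pdr j B a x| ≤ K / s := by
      by_cases h1 : ‖x‖ < 2 * s
      · rw [a8 j B x h1, abs_zero]
        positivity
      · push Not at h1
        rw [le_div_iff₀ hs]
        calc |pdr j B a x| * s ≤ |pdr j B a x| * ‖x‖ := by
              gcongr
              linarith
          _ ≤ K := a7 j B x
    have k2 : |pdr j B b x| ≤ 2 * K / s := by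
      by_cases h1 : ‖x‖ < s / 2
      · rw [b8 j B x h1, abs_zero]
        positivity
      · push Not at h1
        rw [le_div_iff₀ hs]
        calc |pdr j B b x| * s ≤ |pdr j B b x| * (2 * ‖x‖) := by
              gcongr
              linarith
          _ = 2 * (|pdr j B b x| * ‖x‖) := by ring
          _ ≤ 2 * K := by linarith [b7 j B x]
    calc |pdr j B a x * (1 - b x) - a x * pdr j B b x| ≤
        |pdr j B a x * (1 - b x)| + |a x * pdr j B b x| := abs_sub _ _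
      _ = |pdr j B a x| * (1 - b x) + a x * |pdr j B b x| := by
          rw [abs_mul, abs_mul, abs_of_nonneg (by linarith [b4 x] : 0 ≤ 1 - b x),
            abs_of_nonneg (a3 x)]
      _ ≤ |pdr j B a x| * 1 + 1 * |pdr j B b x| := by
          gcongr
          · linarith [b3 x]
          · exact a4 x
      _ ≤ 3 * K / s := by
          have : 3 * K / s = K / s + 2 * K / s := by ring
          linarith

/-- size of the gradient operator -/
noncomputable def ncVc (S : Setup d F) : ℝ := ∑ β, ∑ i, ∑ A, ‖S.vec (S.g i) A β‖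

theorem ncVc_nonneg (S : Setup d F) : 0 ≤ ncVc S := by unfold ncVc; positivity

variable {K s : ℝ} {χ : Cfg d → ℝ}

theorem nc442_gradOp_le (S : Setup d F) (hK : 0 ≤ K) (hs : 0 < s) (H : NcCut K s χ)
    (β : Fin 16) (x : Cfg d) : ‖S.gradOp χ β x‖ ≤ K * ncVc S / s := by
  have h1 : ∑ i, ∑ A, ‖S.vec (S.g i) A β‖ ≤ ncVc S :=
    Finset.single_le_sum (f := fun β => ∑ i, ∑ A, ‖S.vec (S.g i) A β‖)
      (fun β _ => by positivity) (Finset.mem_univ β)
  have h2 : ‖S.gradOp χ β x‖ ≤ ∑ i, ∑ A, K / s * ‖S.vec (S.g i) A β‖ := by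
    rw [Setup.gradOp, norm_smul, norm_neg, Complex.norm_I, one_mul]
    refine (norm_sum_le _ _).trans (Finset.sum_le_sum fun i _ => ?_)
    refine (norm_sum_le _ _).trans (Finset.sum_le_sum fun A _ => ?_)
    rw [norm_smul, Complex.norm_real]
    exact mul_le_mul_of_nonneg_right (H.grad i A x) (norm_nonneg _)
  refine h2.trans ?_
  simp only [← Finset.mul_sum]
  calc K / s * ∑ i, ∑ A, ‖S.vec (S.g i) A β‖ ≤ K / s * ncVc S := by gcongr
    _ = K * ncVc S / s := by ring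

theorem nc442_gradOp_zero (S : Setup d F) (H : NcCut K s χ) (β : Fin 16) {x : Cfg d}
    (hx : χ x = 0) : S.gradOp χ β x = 0 := by
  have h1 : IsLocalMin χ x := Eventually.of_forall fun y => by rw [hx]; exact H.nn y
  have h2 := h1.fderiv_eq_zero
  simp only [Setup.gradOp, pdr, h2, _root_.zero_apply, Complex.ofReal_zero, zero_smul,
    Finset.sum_const_zero, smul_zero]

theorem nc442_Qm_cut (S : Setup d F) (H : NcCut K s χ) (m : ℝ) (β : Fin 16) {u : Cfg d → F}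
    (hu : Setup.Tst u) (x : Cfg d) :
    S.Qm m β (fun y => ((χ y : ℝ) : ℂ) • u y) x = ((χ x : ℝ) : ℂ) • S.Qm m β u x +
      S.gradOp χ β x (u x) := by
  have e1 := S.Q_cut χ β u x (H.sm.differentiable (by simp) x) (hu.1.differentiable (by simp) x)
  rw [Setup.Qm, e1, Setup.Qm, map_smul, smul_add, smul_comm (m : ℂ) ((χ x : ℝ) : ℂ)]
  abel

theorem nc442_contMM (S : Setup d F) (β : Fin 16) : ContDiff ℝ ∞ (S.MM β) := by
  unfold Setup.MM
  refine ContDiff.sum fun i _ => ContDiff.sum fun A _ => ?_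
  exact (Setup.contDiff_ofReal (contDiff_const.mul (Setup.contDiff_coord _))).smul contDiff_const

theorem nc442_Qm_tst (S : Setup d F) (m : ℝ) (β : Fin 16) {u : Cfg d → F}
    (hu : Setup.Tst u) : Setup.Tst (S.Qm m β u) := by
  have h1 : Setup.Tst (fun x => S.MM β x (u x)) := hu.clm (nc442_contMM S β)
  have h2 : Setup.Tst (fun x => ((m : ℝ) : ℂ) • S.MM β x (u x)) :=
    h1.rsmul (φ := fun _ => m) contDiff_const
  exact (Setup.Tst.Q S hu β).add h2

theorem nc442_shl_meas (s t : ℝ) : MeasurableSet (AD.shl d s t) :=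
  (measurableSet_lt measurable_const measurable_norm).inter
    (measurableSet_lt measurable_norm measurable_const)

/-- upper bound of the energy of the cut off function -/
theorem nc442_upper (S : Setup d F) (hK : 0 ≤ K) (hs : 0 < s) (H : NcCut K s χ) (m : ℝ)
    {u : Cfg d → F} (hu : Setup.Tst u) :
    ∑ β, nsq (S.Qm m β (fun y => ((χ y : ℝ) : ℂ) • u y)) ≤
      2 * enm S m u (AD.shl d (s / 2) (4 * s)) +
        32 * (K * ncVc S / s) ^ 2 * AD.mas u (AD.shl d (s / 2) (4 * s)) := by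
  have hw : Setup.Tst (fun y => ((χ y : ℝ) : ℂ) • u y) := hu.rsmul H.sm
  have h1 : ∀ β, nsq (S.Qm m β (fun y => ((χ y : ℝ) : ℂ) • u y)) ≤
      2 * (∫ x in AD.shl d (s / 2) (4 * s), ‖S.Qm m β u x‖ ^ 2) +
        2 * (K * ncVc S / s) ^ 2 * AD.mas u (AD.shl d (s / 2) (4 * s)) := by
    intro β
    have hQ := nc442_Qm_tst S m β hu
    have hQw := nc442_Qm_tst S m β hw
    have e1 : nsq (S.Qm m β (fun y => ((χ y : ℝ) : ℂ) • u y)) =
        ∫ x in AD.shl d (s / 2) (4 * s), ‖S.Qm m β (fun y => ((χ y : ℝ) : ℂ) • u y) x‖ ^ 2 := by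
      rw [nsq]
      refine (setIntegral_eq_integral_of_forall_compl_eq_zero fun x hx => ?_).symm
      have hx0 : χ x = 0 := by
        by_contra h
        exact hx (H.supp x h)
      rw [nc442_Qm_cut S H m β hu x, nc442_gradOp_zero S H β hx0, hx0]
      simp
    have i1 : Integrable (fun x => 2 * ‖S.Qm m β u x‖ ^ 2 + 2 * (K * ncVc S / s) ^ 2 * ‖u x‖ ^ 2) :=
      (hQ.norm_sq_int.const_mul 2).add (hu.norm_sq_int.const_mul _)
    rw [e1]
    have h2 : ∫ x in AD.shl d (s / 2) (4 * s),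
        ‖S.Qm m β (fun y => ((χ y : ℝ) : ℂ) • u y) x‖ ^ 2 ≤
        ∫ x in AD.shl d (s / 2) (4 * s), (2 * ‖S.Qm m β u x‖ ^ 2 +
          2 * (K * ncVc S / s) ^ 2 * ‖u x‖ ^ 2) := by
      refine setIntegral_mono hQw.norm_sq_int.integrableOn i1.integrableOn fun x => ?_
      simp only
      rw [nc442_Qm_cut S H m β hu x]
      have g1 : ‖((χ x : ℝ) : ℂ) • S.Qm m β u x‖ ≤ ‖S.Qm m β u x‖ := by
        rw [norm_smul, Complex.norm_real, Real.norm_of_nonneg (H.nn x)]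
        exact mul_le_of_le_one_left (norm_nonneg _) (H.le x)
      have g2 : ‖S.gradOp χ β x (u x)‖ ≤ K * ncVc S / s * ‖u x‖ :=
        ((S.gradOp χ β x).le_opNorm _).trans
          (mul_le_mul_of_nonneg_right (nc442_gradOp_le S hK hs H β x) (norm_nonneg _))
      have g3 := (norm_add_le (((χ x : ℝ) : ℂ) • S.Qm m β u x) (S.gradOp χ β x (u x))).trans
        (add_le_add g1 g2)
      calc ‖((χ x : ℝ) : ℂ) • S.Qm m β u x + S.gradOp χ β x (u x)‖ ^ 2 ≤
          (‖S.Qm m β u x‖ + K * ncVc S / s * ‖u x‖) ^ 2 := by gcongr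
        _ ≤ 2 * ‖S.Qm m β u x‖ ^ 2 + 2 * (K * ncVc S / s) ^ 2 * ‖u x‖ ^ 2 := by
            nlinarith [sq_nonneg (‖S.Qm m β u x‖ - K * ncVc S / s * ‖u x‖)]
    refine h2.trans (le_of_eq ?_)
    rw [integral_add (hQ.norm_sq_int.const_mul 2).integrableOn
      (hu.norm_sq_int.const_mul _).integrableOn, integral_const_mul, integral_const_mul]
    rfl
  refine (Finset.sum_le_sum fun β _ => h1 β).trans (le_of_eq ?_)
  rw [Finset.sum_add_distrib, ← Finset.mul_sum, Finset.sum_const, Finset.card_univ,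
    Fintype.card_fin, enm]
  simp only [nsmul_eq_mul]
  push_cast
  ring

end cut

/-- **TW2** -/
theorem nc (S : Setup d F) : NcStmt S := by
  intro _ η hη
  obtain ⟨K, hK, hcut⟩ := nc442_cut (d := d)
  have hV := ncVc_nonneg S
  have hCF := U.CoerZ.CF_nonneg S
  set C1 : ℝ := K * ncVc S with hC1
  set C2 : ℝ := 64 * U.CoerZ.CF S + 12 * ‖S.FG‖ with hC2
  have hC1' : 0 ≤ C1 := by positivity
  have hC2' : 0 ≤ C2 := by positivity
  refine ⟨1 + 32 / η, 1 / (4 * η) * (2 + 32 * C1 ^ 2 + C2), ?_, by positivity, ?_⟩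
  · have : 0 ≤ 32 / η := by positivity
    linarith
  intro s hsR m hm hm1 u hu
  have hs1 : 1 ≤ s := by
    have : 0 ≤ 32 / η := by positivity
    linarith
  have hs : 0 < s := by linarith
  have hsη : 32 / η ≤ s := by linarith
  have hs2 : 32 ≤ η * s ^ 2 := by
    rw [div_le_iff₀ hη] at hsη
    nlinarith
  obtain ⟨χ, H⟩ := hcut s hs
  have hut : Setup.Tst u := hu.1
  set A : Set (Cfg d) := {x | s ≤ ‖x‖ ∧ ‖x‖ ≤ 2 * s ∧ η * s ^ 4 ≤ S.V x} with hA
  have hAm : MeasurableSet A :=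
    (measurableSet_le measurable_const measurable_norm).inter
      ((measurableSet_le measurable_norm measurable_const).inter
        (measurableSet_le measurable_const (contDiff_V S).continuous.measurable))
  set L : Set (Cfg d) := AD.shl d (s / 2) (4 * s) with hL
  have hLm : MeasurableSet L := nc442_shl_meas _ _
  have hw : Setup.Tst (fun y => ((χ y : ℝ) : ℂ) • u y) := hut.rsmul H.sm
  have h1 := U.CoerZ.energy_lower S (nc442_a6 S) hm.le (U.CoerZ.continuous_Vm S m)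
    (fun x => le_rfl) hw
  have h2 := nc442_upper S hK hs H m hut
  have hP : 0 ≤ ∑ i, ∑ A, nsq (pd i A (fun y => ((χ y : ℝ) : ℂ) • u y)) :=
    Finset.sum_nonneg fun i _ => Finset.sum_nonneg fun A _ => nsq_nonneg _
  have h3 : 4 * η * s ^ 4 * AD.mas u A - C2 * s * AD.mas u L ≤
      ∫ x, (16 * S.Vm m x - 16 * U.CoerZ.CF S * ‖x‖ - 12 * m * ‖S.FG‖) *
        ‖((χ x : ℝ) : ℂ) • u x‖ ^ 2 := by
    have iA : Integrable (A.indicator fun x => ‖u x‖ ^ 2) := hut.norm_sq_int.indicator hAm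
    have iL : Integrable (L.indicator fun x => ‖u x‖ ^ 2) := hut.norm_sq_int.indicator hLm
    have e1 : 4 * η * s ^ 4 * AD.mas u A - C2 * s * AD.mas u L =
        ∫ x, (4 * η * s ^ 4 * A.indicator (fun x => ‖u x‖ ^ 2) x -
          C2 * s * L.indicator (fun x => ‖u x‖ ^ 2) x) := by
      rw [integral_sub (iA.const_mul _) (iL.const_mul _), integral_const_mul, integral_const_mul,
        integral_indicator hAm, integral_indicator hLm]
      rfl
    rw [e1]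
    refine integral_mono ((iA.const_mul _).sub (iL.const_mul _))
      (hw.mul_norm_sq_int (φ := fun x => 16 * S.Vm m x - 16 * U.CoerZ.CF S * ‖x‖ -
        12 * m * ‖S.FG‖) ?_) fun x => ?_
    · have := U.CoerZ.continuous_Vm S m
      fun_prop
    simp only
    have hn : ‖((χ x : ℝ) : ℂ) • u x‖ = χ x * ‖u x‖ := by
      rw [norm_smul, Complex.norm_real, Real.norm_of_nonneg (H.nn x)]
    have hu0 : 0 ≤ ‖u x‖ ^ 2 := by positivity
    have hV0 := nc442_nonneg S m x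
    by_cases hxL : x ∈ L
    · have hx4 : ‖x‖ ≤ 4 * s := hxL.2.le
      rw [Set.indicator_of_mem hxL, hn]
      have hneg : 16 * U.CoerZ.CF S * ‖x‖ + 12 * m * ‖S.FG‖ ≤ C2 * s := by
        have q1 : 16 * U.CoerZ.CF S * ‖x‖ ≤ 16 * U.CoerZ.CF S * (4 * s) := by gcongr
        have q2 : 12 * m * ‖S.FG‖ ≤ 12 * s * ‖S.FG‖ := by
          gcongr
          linarith
        rw [hC2]
        linarith
      by_cases hxA : x ∈ A
      · rw [Set.indicator_of_mem hxA, H.one x hxA.1 hxA.2.1, one_mul]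
        have hVA : (1 / 4) * η * s ^ 4 ≤ S.Vm m x := by
          have q1 := nc442_lower S m x
          have q2 : η * s ^ 4 ≤ S.V x := hxA.2.2
          have q3 : ‖x‖ ^ 2 ≤ (2 * s) ^ 2 := by
            have := hxA.2.1
            gcongr
          have q4 : m ^ 2 ≤ 1 := by nlinarith
          have q5 : 2 * m ^ 2 * ‖x‖ ^ 2 ≤ 2 * 1 * (2 * s) ^ 2 := by gcongr
          have q6 : 32 * s ^ 2 ≤ η * s ^ 4 := by
            have : s ^ 4 = s ^ 2 * s ^ 2 := by ring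
            rw [this, ← mul_assoc]
            exact mul_le_mul_of_nonneg_right hs2 (by positivity)
          linarith
        nlinarith
      · rw [Set.indicator_of_notMem hxA]
        have hc2 : χ x ^ 2 ≤ 1 := pow_le_one₀ (H.nn x) (H.le x)
        have q1 : (χ x * ‖u x‖) ^ 2 ≤ ‖u x‖ ^ 2 := by
          rw [mul_pow]
          exact mul_le_of_le_one_left hu0 hc2
        have q2 : 0 ≤ (χ x * ‖u x‖) ^ 2 := by positivity
        have q3 : 0 ≤ C2 * s := by positivity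
        have q4 : -(C2 * s) ≤ 16 * S.Vm m x - 16 * U.CoerZ.CF S * ‖x‖ - 12 * m * ‖S.FG‖ := by
          linarith
        have q5 := mul_le_mul_of_nonneg_right q4 q2
        have q6 := mul_le_mul_of_nonneg_left q1 q3
        linarith
    · have hxA : x ∉ A := fun h => hxL ⟨by linarith [h.1], by linarith [h.2.1]⟩
      have hx0 : χ x = 0 := by
        by_contra h
        exact hxL (H.supp x h)
      rw [Set.indicator_of_notMem hxL, Set.indicator_of_notMem hxA, hn, hx0]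
      simp
  have hmA : 0 ≤ AD.mas u A := setIntegral_nonneg hAm fun x _ => by positivity
  have hmL : 0 ≤ AD.mas u L := setIntegral_nonneg hLm fun x _ => by positivity
  have hE : 0 ≤ enm S m u L := by
    unfold enm
    exact Finset.sum_nonneg fun β _ => setIntegral_nonneg hLm fun x _ => by positivity
  have h4 : 4 * η * s ^ 4 * AD.mas u A ≤ 2 * enm S m u L + 32 * (C1 / s) ^ 2 * AD.mas u L +
      C2 * s * AD.mas u L := by linarith
  set P := AD.mas u A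
  set M := AD.mas u L
  set E := enm S m u L
  -- multiply by `m² / (4 η s²)`
  have h5 : m ^ 2 * s ^ 2 * P = m ^ 2 / s ^ 2 * (1 / (4 * η)) * (4 * η * s ^ 4 * P) := by
    field_simp
  have hms : m ^ 2 / s ^ 2 ≤ 1 := by
    rw [div_le_one (by positivity)]
    have : m ≤ s := by linarith
    gcongr
  have hms2 : m ^ 2 / s ^ 2 * s ≤ m := by
    have : m ^ 2 / s ^ 2 * s = m * (m / s) := by field_simp
    rw [this]
    refine mul_le_of_le_one_right hm.le ?_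
    rw [div_le_one hs]
    linarith
  have h6 : m ^ 2 * s ^ 2 * P ≤ 1 / (4 * η) * (2 * E + 32 * C1 ^ 2 * (1 / s ^ 2 * M) +
      C2 * (m * M)) := by
    rw [h5]
    have r1 : m ^ 2 / s ^ 2 * (1 / (4 * η)) * (4 * η * s ^ 4 * P) ≤
        m ^ 2 / s ^ 2 * (1 / (4 * η)) * (2 * E + 32 * (C1 / s) ^ 2 * M + C2 * s * M) := by
      gcongr
    refine r1.trans ?_
    have r2 : m ^ 2 / s ^ 2 * (1 / (4 * η)) * (2 * E + 32 * (C1 / s) ^ 2 * M + C2 * s * M) =
        1 / (4 * η) * (m ^ 2 / s ^ 2 * (2 * E) + m ^ 2 / s ^ 2 * (32 * C1 ^ 2 * (1 / s ^ 2 * M)) +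
          C2 * (m ^ 2 / s ^ 2 * s * M)) := by
      rw [div_pow]
      ring
    rw [r2]
    have r3 : m ^ 2 / s ^ 2 * (2 * E) ≤ 2 * E := mul_le_of_le_one_left (by positivity) hms
    have r4 : m ^ 2 / s ^ 2 * (32 * C1 ^ 2 * (1 / s ^ 2 * M)) ≤ 32 * C1 ^ 2 * (1 / s ^ 2 * M) :=
      mul_le_of_le_one_left (by positivity) hms
    have r5 : C2 * (m ^ 2 / s ^ 2 * s * M) ≤ C2 * (m * M) := by gcongr
    have r6 : 0 ≤ 1 / (4 * η) := by positivity
    exact mul_le_mul_of_nonneg_left (by linarith) r6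
  refine h6.trans ?_
  have hass : 1 / (4 * η) * (2 + 32 * C1 ^ 2 + C2) * (E + (1 / s ^ 2 + m) * M) =
      1 / (4 * η) * ((2 + 32 * C1 ^ 2 + C2) * (E + (1 / s ^ 2 + m) * M)) := mul_assoc _ _ _
  rw [hass]
  have r7 : 0 ≤ 1 / (4 * η) := by positivity
  refine mul_le_mul_of_nonneg_left ?_ r7
  have t1 : 0 ≤ 1 / s ^ 2 * M := by positivity
  have t2 : 0 ≤ m * M := by positivity
  have t3 : 0 ≤ C1 ^ 2 * E := by positivity
  have t4 : 0 ≤ C2 * E := by positivity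
  have t5 : 0 ≤ C1 ^ 2 * (m * M) := by positivity
  have t6 : 0 ≤ C2 * (1 / s ^ 2 * M) := by positivity
  have e : (2 + 32 * C1 ^ 2 + C2) * (E + (1 / s ^ 2 + m) * M) =
      2 * E + 32 * C1 ^ 2 * (1 / s ^ 2 * M) + C2 * (m * M) + (2 * (1 / s ^ 2 * M) + 2 * (m * M) +
        32 * (C1 ^ 2 * E) + C2 * E + 32 * (C1 ^ 2 * (m * M)) + C2 * (1 / s ^ 2 * M)) := by ring
  rw [e]
  linarith

end Vale.Agent.P353.Z.AT
end

section


/-! # P353, all `N`, TW5: massless energy bound and Chebyshev -/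

open MeasureTheory Filter Topology
open scoped ContDiff

namespace Vale.Agent.P353.Z.AT

variable {d : ℕ} {F : Type*} [NormedAddCommGroup F] [InnerProductSpace ℂ F]

/-- the mass matrices grow at most linearly -/
theorem bd443_MM (S : Setup d F) : ∃ K : ℝ, 0 ≤ K ∧ ∀ β x, ‖S.MM β x‖ ≤ K * ‖x‖ := by
  refine ⟨∑ β : Fin 16, ∑ i, ∑ A, |aw i| * ‖S.vec (S.g i * S.Gam) A β‖, by positivity,
    fun β x => ?_⟩
  have hc : ∀ p : Fin 9 × Fin d, |x p| ≤ ‖x‖ := fun p => by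
    have := PiLp.norm_apply_le x p
    rwa [Real.norm_eq_abs] at this
  have h1 : ‖S.MM β x‖ ≤ ∑ i, ∑ A, |aw i| * ‖S.vec (S.g i * S.Gam) A β‖ * ‖x‖ := by
    refine (norm_sum_le _ _).trans (Finset.sum_le_sum fun i _ => ?_)
    refine (norm_sum_le _ _).trans (Finset.sum_le_sum fun A _ => ?_)
    rw [norm_smul, Complex.norm_real, Real.norm_eq_abs, abs_mul]
    have h2 := mul_le_mul_of_nonneg_left (hc (i, A)) (abs_nonneg (aw i))
    have h3 := mul_le_mul_of_nonneg_right h2 (norm_nonneg (S.vec (S.g i * S.Gam) A β))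
    linarith
  refine h1.trans ?_
  simp only [← Finset.sum_mul]
  refine mul_le_mul_of_nonneg_right ?_ (norm_nonneg x)
  exact Finset.single_le_sum (f := fun β : Fin 16 => ∑ i, ∑ A, |aw i| *
    ‖S.vec (S.g i * S.Gam) A β‖) (fun _ _ => by positivity) (Finset.mem_univ β)

theorem bd443_int (u : Cfg d → F) (hu : Setup.Tst u) :
    Integrable (fun x => ‖x‖ ^ 2 * ‖u x‖ ^ 2) :=
  Setup.Tst.mul_norm_sq_int (by fun_prop) hu

/-- pointwise comparison of the supercharges -/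
theorem bd443_pt (S : Setup d F) {K : ℝ} (hK : ∀ β x, ‖S.MM β x‖ ≤ K * ‖x‖)
    (m : ℝ) (β : Fin 16) (u : Cfg d → F) (x : Cfg d) :
    ‖S.Q β u x‖ ^ 2 ≤ 2 * ‖S.Qm m β u x‖ ^ 2 + 2 * m ^ 2 * K ^ 2 * (‖x‖ ^ 2 * ‖u x‖ ^ 2) := by
  have h1 : S.Q β u x = S.Qm m β u x - (m : ℂ) • S.MM β x (u x) := by
    unfold Setup.Qm; rw [add_sub_cancel_right]
  have h2 : ‖(m : ℂ) • S.MM β x (u x)‖ ≤ |m| * (K * ‖x‖ * ‖u x‖) := by
    rw [norm_smul, Complex.norm_real, Real.norm_eq_abs]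
    refine mul_le_mul_of_nonneg_left ?_ (abs_nonneg m)
    exact ((S.MM β x).le_opNorm _).trans (mul_le_mul_of_nonneg_right (hK β x) (norm_nonneg _))
  have h3 := norm_sub_le (S.Qm m β u x) ((m : ℂ) • S.MM β x (u x))
  rw [← h1] at h3
  have h4 : ‖(m : ℂ) • S.MM β x (u x)‖ ^ 2 ≤ m ^ 2 * K ^ 2 * (‖x‖ ^ 2 * ‖u x‖ ^ 2) := by
    refine (pow_le_pow_left₀ (norm_nonneg _) h2 2).trans (le_of_eq ?_)
    rw [← sq_abs m]; ring
  have h5 := pow_le_pow_left₀ (norm_nonneg _) h3 2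
  nlinarith [sq_nonneg (‖S.Qm m β u x‖ - ‖(m : ℂ) • S.MM β x (u x)‖)]

theorem bd443_En (S : Setup d F) {K : ℝ} (hK : ∀ β x, ‖S.MM β x‖ ≤ K * ‖x‖)
    (m : ℝ) {u : Cfg d → F} (hu : Setup.Tst u) :
    AD.En S u ≤ 2 * S.en m u + 32 * m ^ 2 * K ^ 2 * ∫ x, ‖x‖ ^ 2 * ‖u x‖ ^ 2 := by
  have h1 : ∀ β : Fin 16, nsq (S.Q β u) ≤ 2 * nsq (S.Qm m β u) +
      2 * m ^ 2 * K ^ 2 * ∫ x, ‖x‖ ^ 2 * ‖u x‖ ^ 2 := by
    intro β
    have hQ : Setup.Tst (S.Q β u) := hu.Q S β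
    have hQm : Setup.Tst (S.Qm m β u) := U.HB.Tst_Qm S m β hu
    unfold nsq
    rw [← integral_const_mul, ← integral_const_mul, ← integral_add (hQm.norm_sq_int.const_mul 2)
      ((bd443_int u hu).const_mul _)]
    exact integral_mono hQ.norm_sq_int ((hQm.norm_sq_int.const_mul 2).add
      ((bd443_int u hu).const_mul _)) fun x => bd443_pt S hK m β u x
  have h2 := Finset.sum_le_sum fun β (_ : β ∈ Finset.univ) => h1 β
  rw [Finset.sum_add_distrib, ← Finset.mul_sum, Finset.sum_const, Finset.card_univ,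
    Fintype.card_fin, nsmul_eq_mul] at h2
  unfold AD.En Setup.en
  push_cast at h2
  linarith

/-- **TW5** -/
theorem bd5 (S : Setup d F) : BdStmt S := by
  rintro ⟨C₀, hC₀, hTW⟩
  obtain ⟨K, hK0, hK⟩ := bd443_MM S
  refine ⟨2 + 64 * K ^ 2 * C₀ + 2 * C₀, by positivity, fun R hR u hu A hA hen => ?_⟩
  have hR0 : 0 < R := by linarith
  have hRi : R * R⁻¹ = 1 := mul_inv_cancel₀ hR0.ne'
  set m : ℝ := R⁻¹ ^ 2 with hm
  have hm0 : 0 < m := by positivity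
  have hRm : R ^ 2 * m = 1 := by
    rw [hm, ← mul_pow, hRi, one_pow]
  have hm1 : m ≤ 1 := by
    have : 1 ≤ R ^ 2 := one_le_pow₀ hR
    nlinarith
  have hA0 : 0 ≤ A := by
    refine le_trans ?_ hA
    exact integral_nonneg fun x => by positivity
  set I : ℝ := ∫ x, ‖x‖ ^ 2 * ‖u x‖ ^ 2 with hI
  have hI0 : 0 ≤ I := integral_nonneg fun x => by positivity
  have h1 : m ^ 2 * I ≤ C₀ * (S.en m u + m * nsq u) := hTW m hm0 hm1 u hu
  -- `∫ |x|² |u|² ≤ 2 C₀ A R²`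
  have h2 : S.en m u ≤ A * m := by
    have := mul_le_mul_of_nonneg_right hen hm0.le
    calc S.en m u = R ^ 2 * m * S.en m u := by rw [hRm, one_mul]
      _ = R ^ 2 * S.en m u * m := by ring
      _ ≤ A * m := this
  have h3 : m ^ 2 * I ≤ 2 * C₀ * A * m := by
    have h4 : m * nsq u ≤ A * m := by nlinarith
    have h5 := mul_le_mul_of_nonneg_left (add_le_add h2 h4) hC₀
    linarith
  have h4 : I ≤ 2 * C₀ * A * R ^ 2 := by
    have h5 := mul_le_mul_of_nonneg_left h3 (by positivity : 0 ≤ R ^ 2 * R ^ 2)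
    calc I = (R ^ 2 * m) * (R ^ 2 * m) * I := by rw [hRm]; ring
      _ = R ^ 2 * R ^ 2 * (m ^ 2 * I) := by ring
      _ ≤ R ^ 2 * R ^ 2 * (2 * C₀ * A * m) := h5
      _ = 2 * C₀ * A * R ^ 2 * (R ^ 2 * m) := by ring
      _ = 2 * C₀ * A * R ^ 2 := by rw [hRm, mul_one]
  constructor
  · have h5 := bd443_En S hK m hu.1
    have h6 := mul_le_mul_of_nonneg_left h5 (by positivity : 0 ≤ R ^ 2)
    have h7 : R ^ 2 * (2 * S.en m u + 32 * m ^ 2 * K ^ 2 * I) ≤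
        2 * A + 64 * K ^ 2 * C₀ * A := by
      have h8 : R ^ 2 * (32 * m ^ 2 * K ^ 2 * I) ≤ 64 * K ^ 2 * C₀ * A := by
        have h9 := mul_le_mul_of_nonneg_left h4 (by positivity : 0 ≤ 32 * K ^ 2 * (m ^ 2 * R ^ 2))
        calc R ^ 2 * (32 * m ^ 2 * K ^ 2 * I) = 32 * K ^ 2 * (m ^ 2 * R ^ 2) * I := by ring
          _ ≤ 32 * K ^ 2 * (m ^ 2 * R ^ 2) * (2 * C₀ * A * R ^ 2) := h9
          _ = 64 * K ^ 2 * C₀ * A * ((R ^ 2 * m) * (R ^ 2 * m)) := by ring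
          _ = 64 * K ^ 2 * C₀ * A := by rw [hRm]; ring
      nlinarith
    have h8 : 0 ≤ 2 * C₀ * A := by positivity
    calc R ^ 2 * AD.En S u ≤ R ^ 2 * (2 * S.en m u + 32 * m ^ 2 * K ^ 2 * I) := h6
      _ ≤ 2 * A + 64 * K ^ 2 * C₀ * A := h7
      _ ≤ (2 + 64 * K ^ 2 * C₀ + 2 * C₀) * A := by linarith
  · intro L hL
    have hLR : 0 < (L * R) ^ 2 := by positivity
    have h5 : (L * R) ^ 2 * AD.mas u {x | L * R ≤ ‖x‖} ≤ I := by
      unfold AD.mas
      rw [← integral_const_mul]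
      have hms : MeasurableSet {x : Cfg d | L * R ≤ ‖x‖} :=
        measurableSet_le measurable_const measurable_norm
      calc ∫ x in {x | L * R ≤ ‖x‖}, (L * R) ^ 2 * ‖u x‖ ^ 2
          ≤ ∫ x in {x | L * R ≤ ‖x‖}, ‖x‖ ^ 2 * ‖u x‖ ^ 2 := by
            refine setIntegral_mono_on (hu.1.norm_sq_int.integrableOn.const_mul _)
              (bd443_int u hu.1).integrableOn hms fun x hx => ?_
            exact mul_le_mul_of_nonneg_right (pow_le_pow_left₀ (by positivity) hx 2) (by positivity)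
        _ ≤ I := setIntegral_le_integral (bd443_int u hu.1)
            (Eventually.of_forall fun x => by positivity)
    rw [le_div_iff₀ (by positivity)]
    have h6 : AD.mas u {x | L * R ≤ ‖x‖} * L ^ 2 * R ^ 2 ≤ 2 * C₀ * A * R ^ 2 := by
      calc AD.mas u {x | L * R ≤ ‖x‖} * L ^ 2 * R ^ 2 = (L * R) ^ 2 * AD.mas u {x | L * R ≤ ‖x‖} := by ring
        _ ≤ I := h5
        _ ≤ 2 * C₀ * A * R ^ 2 := h4
    have h7 := le_of_mul_le_mul_right h6 (by positivity : 0 < R ^ 2)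
    have h8 : 0 ≤ (2 + 64 * K ^ 2 * C₀) * A := by positivity
    linarith

end Vale.Agent.P353.Z.AT
end

section

/-! # P353, all `N`, block JN: N4, composition of frames -/

open MeasureTheory Filter Topology
open scoped ContDiff

namespace Vale.Agent.P353.Z.AJ

variable {d dh dm : ℕ} {F : Type*} [NormedAddCommGroup F] [InnerProductSpace ℂ F]

private lemma comp_setup_ext {S T : Setup d F} (hg : S.g = T.g) (hth : S.th = T.th) (hκ : S.κ = T.κ)
    (hf : S.f = T.f) : S = T := by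
  obtain ⟨⟨g, g1, g2, th, th1⟩, κ, k1, f, f1, f2, f3, f4, f5⟩ := S
  obtain ⟨⟨g', g1', g2', th', th1'⟩, κ', k1', f', f1', f2', f3', f4', f5'⟩ := T
  simp only at hg hth hκ hf
  subst hg hth hκ hf
  rfl

private lemma comp_one_smul {n : ℕ} {M : Type*} [AddCommMonoid M] [Module ℂ M] (i : Fin n) (v : Fin n → M) :
    ∑ k, (((1 : Matrix (Fin n) (Fin n) ℝ) i k : ℝ) : ℂ) • v k = v i := by
  have h2 : ∀ k, (((1 : Matrix (Fin n) (Fin n) ℝ) i k : ℝ) : ℂ) • v k = if i = k then v k else 0 := by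
    intro k
    rw [Matrix.one_apply]
    split_ifs <;> simp
  simp only [h2, Finset.sum_ite_eq, Finset.mem_univ, if_true]

private lemma comp_one_mul {n : ℕ} (i : Fin n) (v : Fin n → ℝ) :
    ∑ k, (1 : Matrix (Fin n) (Fin n) ℝ) i k * v k = v i := by
  simp [Matrix.one_apply]

private lemma comp_emb_inl (φ : Spl dh dm d) (y : Cfg dh) (w : Wsp dm) (i : Fin 9) (A : Fin dh) :
    emb φ y w (i, φ (Sum.inl A)) = y (i, A) := by
  simp [emb]

private lemma comp_emb_inr (φ : Spl dh dm d) (y : Cfg dh) (i : Fin 9) (B : Fin dm) :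
    emb φ y 0 (i, φ (Sum.inr B)) = 0 := by
  simp only [emb, Equiv.symm_apply_apply, Sum.elim_inr]
  refine Fin.lastCases ?_ (fun j => ?_) i
  · exact Fin.lastCases_last (motive := fun _ => ℝ)
  · simp

private lemma comp_rox_one (R : Matrix (Fin 9) (Fin 9) ℝ) (x : Cfg d) (p : Fin 9 × Fin d) :
    rox R 1 x p = ∑ j, R p.1 j * x (j, p.2) := by
  have e : rox R 1 x p = ∑ j, ∑ B, R p.1 j * (1 : Matrix (Fin d) (Fin d) ℝ) p.2 B * x (j, B) := rfl
  rw [e]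
  refine Finset.sum_congr rfl fun j _ => ?_
  simp only [mul_assoc, ← Finset.mul_sum]
  rw [comp_one_mul]

/-- **N4** -/
theorem comp (S : Setup d F) : CompStmt S := by
  intro R hR O hO h9 h1
  refine ⟨?_, ?_, ?_⟩
  · apply comp_setup_ext
    · funext i
      show ∑ j, (R i j : ℂ) • (∑ k, (((1 : Matrix (Fin 9) (Fin 9) ℝ) j k : ℝ) : ℂ) • S.g k) = ∑ j, (R i j : ℂ) • S.g j
      refine Finset.sum_congr rfl fun j _ => ?_
      rw [comp_one_smul]
    · funext α A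
      show ∑ B, (((1 : Matrix (Fin d) (Fin d) ℝ) A B : ℝ) : ℂ) • (∑ C, (O B C : ℂ) • S.th α C) =
        ∑ C, (O A C : ℂ) • S.th α C
      rw [comp_one_smul A (fun B => ∑ C, (O B C : ℂ) • S.th α C)]
    · rfl
    · funext A B C
      show ∑ A', ∑ B', ∑ C', (1 : Matrix (Fin d) (Fin d) ℝ) A A' * (1 : Matrix (Fin d) (Fin d) ℝ) B B' *
        (1 : Matrix (Fin d) (Fin d) ℝ) C C' * (∑ A'', ∑ B'', ∑ C'', O A' A'' * O B' B'' * O C' C'' * S.f A'' B'' C'') =
        ∑ A'', ∑ B'', ∑ C'', O A A'' * O B B'' * O C C'' * S.f A'' B'' C''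
      simp only [mul_assoc, ← Finset.mul_sum]
      rw [comp_one_mul A, comp_one_mul B, comp_one_mul C]
  · intro x
    ext p
    rw [comp_rox_one]
    have e : rox R O x p = ∑ j, ∑ B, R p.1 j * O p.2 B * x (j, B) := rfl
    rw [e]
    refine Finset.sum_congr rfl fun j _ => ?_
    have e2 : rox 1 O x (j, p.2) = ∑ j', ∑ B, (1 : Matrix (Fin 9) (Fin 9) ℝ) j j' * O p.2 B * x (j', B) := rfl
    rw [e2]
    simp only [mul_assoc, ← Finset.mul_sum]
    rw [comp_one_mul j (fun j' => ∑ B, O p.2 B * x (j', B))]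
  · intro dh dm φ y
    ext p
    obtain ⟨i, A⟩ := p
    obtain ⟨s, rfl⟩ := φ.surjective A
    rw [comp_rox_one]
    rcases s with A | B
    · rw [comp_emb_inl, comp_rox_one]
      refine Finset.sum_congr rfl fun j _ => ?_
      rw [comp_emb_inl]
    · rw [comp_emb_inr]
      refine Finset.sum_eq_zero fun j _ => ?_
      rw [comp_emb_inr, mul_zero]

end Vale.Agent.P353.Z.AJ
end

section

/-! # P353, all `N`, block JN: C3, zero modes and the internal setup in a rotated frame -/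

open MeasureTheory Filter Topology
open scoped ContDiff

namespace Vale.Agent.P353.Z.AJ

variable {d dh dm r ds : ℕ} {F : Type} [NormedAddCommGroup F] [InnerProductSpace ℂ F]

private lemma zmr686_ext {S T : Setup d F} (hg : S.g = T.g) (hth : S.th = T.th) (hκ : S.κ = T.κ)
    (hf : S.f = T.f) : S = T := by
  obtain ⟨⟨g, g1, g2, th, th1⟩, κ, k1, f, f1, f2, f3, f4, f5⟩ := S
  obtain ⟨⟨g', g1', g2', th', th1'⟩, κ', k1', f', f1', f2', f3', f4', f5'⟩ := T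
  simp only at hg hth hκ hf
  subst hg hth hκ hf
  rfl

private lemma zmr686_one_smul {n : ℕ} {M : Type*} [AddCommMonoid M] [Module ℂ M] (i : Fin n)
    (v : Fin n → M) :
    ∑ k, (((1 : Matrix (Fin n) (Fin n) ℝ) i k : ℝ) : ℂ) • v k = v i := by
  have h2 : ∀ k, (((1 : Matrix (Fin n) (Fin n) ℝ) i k : ℝ) : ℂ) • v k =
      if i = k then v k else 0 := by
    intro k
    rw [Matrix.one_apply]
    split_ifs <;> simp
  simp only [h2, Finset.sum_ite_eq, Finset.mem_univ, if_true]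

private lemma zmr686_f (S : Setup d F) (Q : Matrix (Fin 9) (Fin 9) ℝ) (hQ : Q * Q.transpose = 1)
    (h1 : (1 : Matrix (Fin d) (Fin d) ℝ) * (1 : Matrix (Fin d) (Fin d) ℝ).transpose = 1)
    (A B C : Fin d) : (S.rot Q hQ 1 h1).f A B C = S.f A B C := by
  show ∑ A', ∑ B', ∑ C', (1 : Matrix (Fin d) (Fin d) ℝ) A A' *
    (1 : Matrix (Fin d) (Fin d) ℝ) B B' * (1 : Matrix (Fin d) (Fin d) ℝ) C C' * S.f A' B' C' =
      S.f A B C
  simp [Matrix.one_apply]

private lemma zmr686_th (S : Setup d F) (Q : Matrix (Fin 9) (Fin 9) ℝ) (hQ : Q * Q.transpose = 1)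
    (h1 : (1 : Matrix (Fin d) (Fin d) ℝ) * (1 : Matrix (Fin d) (Fin d) ℝ).transpose = 1)
    (α : Fin 16) (A : Fin d) : (S.rot Q hQ 1 h1).th α A = S.th α A :=
  zmr686_one_smul A fun B => S.th α B

private lemma zmr686_int (Q : Matrix (Fin 9) (Fin 9) ℝ) (hQ : Q * Q.transpose = 1) (S : Setup d F)
    (h1 : (1 : Matrix (Fin d) (Fin d) ℝ) * (1 : Matrix (Fin d) (Fin d) ℝ).transpose = 1)
    (h2 : (1 : Matrix (Fin ds) (Fin ds) ℝ) * (1 : Matrix (Fin ds) (Fin ds) ℝ).transpose = 1)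
    (φ : Spl dh dm d) (ψ : Spl r ds dh)
    (hs : S.IsSub φ) (hc : S.IsCen φ ψ) (hs' : (S.rot Q hQ 1 h1).IsSub φ)
    (hc' : (S.rot Q hQ 1 h1).IsCen φ ψ) :
    (S.rot Q hQ 1 h1).int φ ψ hs' hc' = (S.int φ ψ hs hc).rot Q hQ 1 h2 := by
  apply zmr686_ext
  · rfl
  · funext α A
    refine Eq.trans ?_ (zmr686_th (S.int φ ψ hs hc) Q hQ h2 α A).symm
    exact zmr686_th S Q hQ h1 α (φ (Sum.inl (spsw ψ (Sum.inl A))))
  · rfl
  · funext A B C
    refine Eq.trans ?_ (zmr686_f (S.int φ ψ hs hc) Q hQ h2 A B C).symm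
    exact zmr686_f S Q hQ h1 (φ (Sum.inl (spsw ψ (Sum.inl A))))
      (φ (Sum.inl (spsw ψ (Sum.inl B)))) (φ (Sum.inl (spsw ψ (Sum.inl C))))

omit [InnerProductSpace ℂ F] in
private lemma zmr686_nsq (Q : Matrix (Fin 9) (Fin 9) ℝ) (hQ : Q * Q.transpose = 1)
    (h1 : (1 : Matrix (Fin d) (Fin d) ℝ) * (1 : Matrix (Fin d) (Fin d) ℝ).transpose = 1)
    (u : Cfg d → F) : nsq (fun x => u (rox Q 1 x)) = nsq u := by
  unfold nsq
  have he : MeasurableEmbedding (rox Q 1 : Cfg d → Cfg d) :=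
    (AN.rtE Q hQ 1 h1).toHomeomorph.measurableEmbedding
  exact (AN.rt_mp hQ h1).integral_comp he (fun x => ‖u x‖ ^ 2)

private lemma zmr686_GInv (S : Setup d F) (Q : Matrix (Fin 9) (Fin 9) ℝ)
    (hQ : Q * Q.transpose = 1)
    (h1 : (1 : Matrix (Fin d) (Fin d) ℝ) * (1 : Matrix (Fin d) (Fin d) ℝ).transpose = 1)
    {u : Cfg d → F} (hu : AD.GInv (S.rot Q hQ 1 h1) u) : AD.GInv S (fun x => u (rox Q 1 x)) := by
  refine ⟨⟨hu.1.1.comp (AN.rtE Q hQ 1 h1).contDiff,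
    hu.1.2.comp_homeomorph (AN.rtE Q hQ 1 h1).toHomeomorph⟩, fun C x => ?_⟩
  have h3 := AN.rt_G S hQ h1 u (hu.1.1.differentiable (by simp)) C x
  rw [hu.2, zmr686_one_smul C fun C' => S.G C' (fun z => u (rox Q 1 z)) x] at h3
  exact h3.symm

private lemma zmr686_En (S : Setup d F) (Q : Matrix (Fin 9) (Fin 9) ℝ)
    (hQ : Q * Q.transpose = 1)
    (h1 : (1 : Matrix (Fin d) (Fin d) ℝ) * (1 : Matrix (Fin d) (Fin d) ℝ).transpose = 1)
    {u : Cfg d → F} (hu : Setup.Tst u) :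
    AD.En S (fun x => u (rox Q 1 x)) = AD.En (S.rot Q hQ 1 h1) u := by
  unfold AD.En
  refine Finset.sum_congr rfl fun β _ => ?_
  rw [← zmr686_nsq Q hQ h1 ((S.rot Q hQ 1 h1).Q β u)]
  congr 1
  funext x
  exact (AN.rt_Q S hQ h1 u (hu.1.differentiable (by simp)) β x).symm

private lemma zmr686_L2t (Q : Matrix (Fin 9) (Fin 9) ℝ) (hQ : Q * Q.transpose = 1)
    (h1 : (1 : Matrix (Fin d) (Fin d) ℝ) * (1 : Matrix (Fin d) (Fin d) ℝ).transpose = 1)
    {u : ℕ → Cfg d → F} {o : Cfg d → F} (h : L2t u o) :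
    L2t (fun n x => u n (rox Q 1 x)) (fun x => o (rox Q 1 x)) where
  mem n := (h.mem n).comp_measurePreserving (AN.rt_mp hQ h1)
  mem' := h.mem'.comp_measurePreserving (AN.rt_mp hQ h1)
  lim := by
    have h2 : ∀ n, nsq (fun x => u n (rox Q 1 x) - o (rox Q 1 x)) = nsq (fun x => u n x - o x) :=
      fun n => zmr686_nsq Q hQ h1 fun x => u n x - o x
    simpa only [h2] using h.lim

/-- **C3** -/
theorem zmrot (F : Type) [NormedAddCommGroup F] [InnerProductSpace ℂ F] : ZmRotStmt F := by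
  intro Q hQ
  refine ⟨fun d dh dm r ds S h1 h2 φ ψ hs hc hs' hc' => zmr686_int Q hQ S h1 h2 φ ψ hs hc hs' hc',
    fun e T h1 o ho => ?_⟩
  obtain ⟨u, hu, hL, hE⟩ := ho
  refine ⟨fun n x => u n (rox Q 1 x), fun n => zmr686_GInv T Q hQ h1 (hu n), ?_, ?_⟩
  · exact zmr686_L2t Q hQ h1 hL
  · simp only [zmr686_En T Q hQ h1 (hu _).1]
    exact hE

end Vale.Agent.P353.Z.AJ
end
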