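import Mathlib
import Vale.Agent.P353.BdA.B2
import Vale.Agent.P353.BdZ.B17
import Vale.Agent.P353.BdZ.B14
import Vale.Agent.P353.BdA.B1

set_option linter.all false

section

/-! # P353, all `N`, block H (counting): statements (helper973)

A prover delivers `theorem <name> (S : Setup d F) … : XStmt S` in `Vale/Agent/P353/AN/H/<File>.lean`, importing this file and landed
files (e.g. `Vale.Agent.P353.Z.U.All`), using other statements only as hypotheses. `F` finite dimensional may be assumed. -/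

open MeasureTheory Filter Topology
open scoped ContDiff

namespace Vale.Agent.P353.Z.AH

variable {d : ℕ} {F : Type*} [NormedAddCommGroup F] [InnerProductSpace ℂ F]

/-- **H1** `∑_{αβ}‖Q_βQ_αu‖² ≤ ‖∑Q²u‖² + Cm∑‖Q_αu‖²` for gauge invariant `u`.
PROOF: `∑_β‖Q_βQ_αu‖² = ⟨Q_αu, 16H Q_αu⟩` (`U.HB.inner_HH`, `A7`), `A4`: `16HQ_αu = Q_α(16Hu) - 8im(ΓQ)_αu` (gauge part `0`); sum over `α`:
`⟨∑Q_αQ_αu, 16Hu⟩ - 8im∑Γ_{αβ}⟨Q_αu,Q_βu⟩`, `|Γ_{αβ}| ≤ C`. (`Q_αu` is again gauge invariant: `A3`.) -/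
def QQStmt (S : Setup d F) : Prop := ∃ C : ℝ, 0 ≤ C ∧ ∀ m : ℝ, 0 ≤ m → ∀ u : Cfg d → F, S.GInv u →
  ∑ α, ∑ β, nsq (S.Qm m β (S.Qm m α u)) ≤ nsq (U.HB.HH S m u) + C * m * S.en m u

/-- **H2** the rotation generators are small on low states.
PROOF: multiply `A1` (gauge term `0`) by `conj (Γγ^{kl})_{αβ}` and sum over `α,β`: `tr((Γγ^{kl})ᴴΓγ^{ij}) = 16(δ_{ik}δ_{jl} - δ_{il}δ_{jk})`,
`tr(Γγ^{kl}) = 0`: `32 rc_{kl} m J_{kl}u = ∑ conj(Γγ^{kl})_{αβ}(Q_αQ_βu + Q_βQ_αu)`, `|rc_{kl}| ≥ 1`; then H1. -/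
def JbdStmt (S : Setup d F) : Prop := ∃ C : ℝ, 0 ≤ C ∧ ∀ m : ℝ, 0 < m → ∀ u : Cfg d → F, S.GInv u →
  ∀ k l, Same k l → m ^ 2 * nsq (S.J k l u) ≤ C * (nsq (U.HB.HH S m u) + m * S.en m u)

/-- **H3** average over the circle of rotations in the plane `(k,l)`.
PROOF. `U_t u(x) = exp(itS_{kl}) u(R_t x)` (`R_t` = rotation by `∓t` in the plane `(k,l)`; sign such that `d/dt U_tu = iU_tJ_{kl}u = iJ_{kl}U_tu`).
`exp(4πiS_{kl})` commutes with all `θ` (`e^{itS}θ_αe^{-itS} = ∑(e^{±tγ^{kl}/2})_{αβ}θ_β`, `(γ^{kl})² = -1`), so it is a scalar `c` by irreducibility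
(finite dimensional Schur). If `c ≠ 1`: `|1-c|‖u‖ = ‖u - U_{4π}u‖ ≤ 4π‖J_{kl}u‖`, take `v = 0`. If `c = 1`: `v = (4π)⁻¹∫_0^{4π}U_tu dt`:
smooth (parametric integral, e.g. `Vale/Agent/P205/WK/Ring.lean: contDiff_integral_param`), `J_{kl}v = 0`, `‖u - v‖ ≤ 4π‖J_{kl}u‖`; `U_t` commutes with
`G_C` and with `J_{ab}` for planes disjoint from `{k,l}`, and rotates the supercharges: `∑_β‖Q_βU_tu‖² = ∑_β‖Q_βu‖²` (`A2`). Minkowski for the
integral. -/
def CircStmt (S : Setup d F) : Prop := S.Irr → (∃ v : F, v ≠ 0) → ∀ k l, Same k l →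
  ∃ C : ℝ, 0 ≤ C ∧ ∀ P : Fin 9 → Fin 9 → Prop,
    (∀ a b, P a b → Same a b ∧ ((a = k ∧ b = l) ∨ (a = l ∧ b = k) ∨ (a ≠ k ∧ a ≠ l ∧ b ≠ k ∧ b ≠ l))) →
    ∀ u : Cfg d → F, S.InvP P u →
      ∃ v : Cfg d → F, S.InvP (fun a b => P a b ∨ (a = k ∧ b = l) ∨ (a = l ∧ b = k)) v ∧
        nsq (fun x => u x - v x) ≤ C * nsq (S.J k l u) ∧ (∀ m, S.en m v ≤ S.en m u) ∧
        ∀ a b, Same a b → a ≠ k → a ≠ l → b ≠ k → b ≠ l → nsq (S.J a b v) ≤ nsq (S.J a b u)

/-- **H4** average over the torus: H3 for the planes `(1,2), (3,4), (5,6), (7,8)`. -/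
def AvgStmt (S : Setup d F) : Prop := S.Irr → (∃ v : F, v ≠ 0) → ∃ C : ℝ, 0 ≤ C ∧ ∀ u : Cfg d → F, S.GInv u →
  ∃ v : Cfg d → F, S.InvP plT v ∧ (∀ m, S.en m v ≤ S.en m u) ∧
    nsq (fun x => u x - v x) ≤ C * (nsq (S.J 1 2 u) + nsq (S.J 3 4 u) + nsq (S.J 5 6 u) + nsq (S.J 7 8 u))

/-- **H5** core gap for torus invariant functions. Same proof as `Z/U/CGap.lean`, where `J_{kl}φ = 0` is used only for the planes
`(k, pt k)`, `k ≠ 0`: all other coefficients `ζ†Γγ^{kl}ζ` vanish. -/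
def CGapTStmt (S : Setup d F) : Prop := ∀ m : ℝ, 0 < m → ∀ φ : Cfg d → F, S.InvP plT φ →
  8 * m * S.en m φ ≤ nsq (U.HB.HH S m φ)

/-- **H6** weak = strong, general form. Same proof as `Z/U/WS.lean: ws` (there `P = Same`, `lam = 0`): radial mollification and radial
cutoff preserve `InvP P`; local energy identity `∑‖Q_β(χv)‖² = Re⟨χ²v, HHv⟩ + ∑‖(γθ∇χ)_βv‖²`, `HHv = -lam v + err`. -/
def WSPStmt (S : Setup d F) : Prop := ∀ P : Fin 9 → Fin 9 → Prop, (∀ a b, P a b → Same a b) →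
  ∀ (m lam : ℝ), 0 ≤ lam → ∀ Ψ : Cfg d → F,
  (∃ w : ℕ → Cfg d → F, (∀ n, S.InvP P (w n)) ∧ L2t w Ψ) →
  (∀ φ, S.InvP P φ → ∫ x, inner ℂ (U.HB.HH S m φ x + (lam : ℂ) • φ x) (Ψ x) = 0) →
  ∃ u : ℕ → Cfg d → F, (∀ n, S.InvP P (u n)) ∧ L2t u Ψ ∧
    Tendsto (fun n => S.en m (u n) + lam * nsq (u n)) atTop (𝓝 0)

/-- **H7** density of the range of `HH + lam` on `GInv`. PROOF: the range `{HHw + lam w}` lies in `GInv`; if `f` is not in its closure,
the component `Ψ ≠ 0` of `f` orthogonal to the range lies in the closure of `GInv`, and H6 (`P` empty) gives `nsq Ψ = lim nsq (u n) = 0`. -/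
def DenseStmt (S : Setup d F) : Prop := ∀ m lam : ℝ, 0 < lam → ∀ f : Cfg d → F, S.GInv f → ∀ δ : ℝ, 0 < δ →
  ∃ w : Cfg d → F, S.GInv w ∧ nsq (fun x => U.HB.HH S m w x + (lam : ℂ) • w x - f x) ≤ δ

/-- **H8** torus invariant low spaces give invariant low spaces. PROOF: `U.HB.k_zm` with `InvP plT` and H5 instead of `Inv` and `CGap`:
`k` independent `Ψ_j` in the closure of `InvP plT`, orthogonal to `HH(InvP plT)`; H6 (`lam = 0`) gives `Q_βΨ_j = 0` weakly, hence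
`J_{kl}Ψ_j = 0` weakly for all `Same k l` (test `A1` as in H2) and `G_CΨ_j = 0` weakly; radial mollification + cutoff: `Ψ_j` is a limit of
`Inv` functions (`Z/U/WS.lean: G_mo_zero, J_mo_zero, Inv_mo`), `ws` gives approximants with energy `→ 0`, `U.HB.low_of_lim`. -/
def BridgeStmt (S : Setup d F) : Prop := ∀ (k : ℕ) (m : ℝ), 0 < m → S.LowP plT k m (8 * m) →
  ∀ c : ℝ, 0 < c → S.Low k m c

/-- **H9** cut off kernel vectors. PROOF: `App` (`Z/U/App.lean`) as in `Z/U/Small.lean`. -/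
def KerCutStmt (S : Setup d F) : Prop := ∀ Ψ : Lp F 2 (volume : Measure (Cfg d)), S.IsZM Ψ → ∀ ε : ℝ, 0 < ε →
  ∀ᶠ R : ℝ in atTop, ∃ u : Cfg d → F, S.Inv u ∧ nsq (fun x => u x - Ψ x) ≤ ε ∧ R ^ 2 * S.en (R⁻¹ ^ 2) u ≤ ε

/-- **H10** local limits (along any filter `l`) are zero modes: the weak limit `Ψ` (at scale one) of `Inv` functions with energy `→ 0` and `m → 0` is a zero
mode. PROOF: `Ψ ∈ L²`, `wG`, `wJ`, `wQ 0 β Ψ 0` pass to the limit; `App` with `R → ∞` gives the approximants of `IsZM`. -/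
def LocStmt (S : Setup d F) : Prop := ∀ (l : Filter ℕ) [l.NeBot] (m : ℕ → ℝ) (u : ℕ → Cfg d → F) (C : ℝ)
  (Ψ : Lp F 2 (volume : Measure (Cfg d))),
  Tendsto m l (𝓝 0) → (∀ n, S.Inv (u n)) → (∀ n, nsq (u n) ≤ C) →
  Tendsto (fun n => S.en (m n) (u n)) l (𝓝 0) →
  (∀ ζ : Cfg d → F, Setup.Tst ζ → Tendsto (fun n => ipr ζ (u n)) l (𝓝 (∫ x, inner ℂ (ζ x) (Ψ x)))) → S.IsZM Ψ

/-- **H11 (S7)** uniqueness count -/
def S7Stmt (S : Setup d F) {ι : Type} [Fintype ι] (P : Prof S ι) : Prop := P.LimEq →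
  ∀ (b : ℕ) (Ψ : Fin b → Lp F 2 (volume : Measure (Cfg d))), (∀ j, S.IsZM (Ψ j)) → LinearIndependent ℂ Ψ →
    ∃ m : ℝ, 0 < m ∧ S.LowP plT (b + Fintype.card ι) m (8 * m)

/-- **H12 (S6)** existence count -/
def S6Stmt (S : Setup d F) {ι : Type} [Fintype ι] (P : Prof S ι) : Prop := P.LimEq → P.NoLoss →
  (∀ m : ℝ, 0 < m → ∀ c : ℝ, 0 < c → S.Low (Fintype.card ι + 1) m c) →
    ∃ Ψ : Lp F 2 (volume : Measure (Cfg d)), S.IsZM Ψ ∧ Ψ ≠ 0

/-- **H13 (Top)** `dim ker = 1` -/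
def TopStmt (S : Setup d F) : Prop := S.Irr → (∃ v : F, v ≠ 0) → ∀ (ι : Type) [Fintype ι] (P : Prof S ι),
  P.LimEq → P.NoLoss → S.OrbCount (Fintype.card ι + 1) →
  (∃ m : ℝ, 0 < m ∧ S.LowP plT (Fintype.card ι + 1) m (8 * m)) →
    ∃ Ψ₀ : Lp F 2 (volume : Measure (Cfg d)), S.IsZM Ψ₀ ∧ Ψ₀ ≠ 0 ∧
      ∀ Ψ : Lp F 2 (volume : Measure (Cfg d)), S.IsZM Ψ → ∃ c : ℂ, Ψ = c • Ψ₀

end Vale.Agent.P353.Z.AH
end

section

/-! # P353, all `N`, block H: the average over the torus (H4) from the average over a circle (H3) -/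

open MeasureTheory Filter Topology
open scoped ContDiff

namespace Vale.Agent.P353.Z.AH

variable {d : ℕ} {F : Type*} [NormedAddCommGroup F] [InnerProductSpace ℂ F]

theorem avg969_add {f g : Cfg d → F} (hf : Setup.Tst f) (hg : Setup.Tst g) :
    nsq (fun x => f x + g x) ≤ 2 * nsq f + 2 * nsq g := by
  unfold nsq
  rw [← integral_const_mul, ← integral_const_mul,
    ← integral_add (hf.norm_sq_int.const_mul 2) (hg.norm_sq_int.const_mul 2)]
  refine integral_mono (hf.add hg).norm_sq_int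
    ((hf.norm_sq_int.const_mul 2).add (hg.norm_sq_int.const_mul 2)) fun x => ?_
  have h1 := norm_add_le (f x) (g x)
  have h2 := norm_nonneg (f x + g x)
  have h3 := norm_nonneg (f x)
  have h4 := norm_nonneg (g x)
  show ‖f x + g x‖ ^ 2 ≤ 2 * ‖f x‖ ^ 2 + 2 * ‖g x‖ ^ 2
  nlinarith [sq_nonneg (‖f x‖ - ‖g x‖)]

theorem avg969_four {u v₁ v₂ v₃ v₄ : Cfg d → F} (h0 : Setup.Tst u) (h1 : Setup.Tst v₁)
    (h2 : Setup.Tst v₂) (h3 : Setup.Tst v₃) (h4 : Setup.Tst v₄) :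
    nsq (fun x => u x - v₄ x) ≤ 4 * (nsq (fun x => u x - v₁ x) + nsq (fun x => v₁ x - v₂ x) +
      nsq (fun x => v₂ x - v₃ x) + nsq (fun x => v₃ x - v₄ x)) := by
  have e : (fun x => u x - v₄ x) = fun x => ((u x - v₁ x) + (v₁ x - v₂ x)) +
      ((v₂ x - v₃ x) + (v₃ x - v₄ x)) := by
    funext x
    abel
  have a1 := avg969_add (h0.sub h1) (h1.sub h2)
  have a2 := avg969_add (h2.sub h3) (h3.sub h4)
  have a3 := avg969_add ((h0.sub h1).add (h1.sub h2)) ((h2.sub h3).add (h3.sub h4))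
  rw [e]
  linarith

/-- **H4** the average over the torus. -/
theorem avg (S : Setup d F) (h : CircStmt S) : AvgStmt S := by
  intro hI hne
  obtain ⟨C₁, c₁, H₁⟩ := h hI hne 1 2 (by unfold Same; decide)
  obtain ⟨C₂, c₂, H₂⟩ := h hI hne 3 4 (by unfold Same; decide)
  obtain ⟨C₃, c₃, H₃⟩ := h hI hne 5 6 (by unfold Same; decide)
  obtain ⟨C₄, c₄, H₄⟩ := h hI hne 7 8 (by unfold Same; decide)
  refine ⟨4 * (C₁ + C₂ + C₃ + C₄), by positivity, fun u hu => ?_⟩
  obtain ⟨v₁, i₁, n₁, e₁, J₁⟩ := H₁ (fun _ _ => False) (fun a b hab => hab.elim) u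
    ⟨hu.1, hu.2, fun k l hkl => hkl.elim⟩
  obtain ⟨v₂, i₂, n₂, e₂, J₂⟩ := H₂ _ (by
    intro a b hab
    rcases hab with hab | ⟨rfl, rfl⟩ | ⟨rfl, rfl⟩
    · exact hab.elim
    · unfold Same; decide
    · unfold Same; decide) v₁ i₁
  obtain ⟨v₃, i₃, n₃, e₃, J₃⟩ := H₃ _ (by
    intro a b hab
    rcases hab with (hab | ⟨rfl, rfl⟩ | ⟨rfl, rfl⟩) | ⟨rfl, rfl⟩ | ⟨rfl, rfl⟩
    · exact hab.elim
    all_goals (unfold Same; decide)) v₂ i₂
  obtain ⟨v₄, i₄, n₄, e₄, J₄⟩ := H₄ _ (by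
    intro a b hab
    rcases hab with ((hab | ⟨rfl, rfl⟩ | ⟨rfl, rfl⟩) | ⟨rfl, rfl⟩ | ⟨rfl, rfl⟩) | ⟨rfl, rfl⟩ | ⟨rfl, rfl⟩
    · exact hab.elim
    all_goals (unfold Same; decide)) v₃ i₃
  refine ⟨v₄, ⟨i₄.1, i₄.2.1, ?_⟩, fun m => (e₄ m).trans ((e₃ m).trans ((e₂ m).trans (e₁ m))), ?_⟩
  · intro k l hkl
    refine i₄.2.2 k l ?_
    obtain ⟨hk, rfl⟩ := hkl
    revert hk
    unfold U.pt
    fin_cases k <;> simp
  · have s34 : Same 3 4 := by unfold Same; decide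
    have s56 : Same 5 6 := by unfold Same; decide
    have s78 : Same 7 8 := by unfold Same; decide
    have k1 := J₁ 3 4 s34 (by decide) (by decide) (by decide) (by decide)
    have k2 := J₁ 5 6 s56 (by decide) (by decide) (by decide) (by decide)
    have k3 := J₁ 7 8 s78 (by decide) (by decide) (by decide) (by decide)
    have k4 := J₂ 5 6 s56 (by decide) (by decide) (by decide) (by decide)
    have k5 := J₂ 7 8 s78 (by decide) (by decide) (by decide) (by decide)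
    have k6 := J₃ 7 8 s78 (by decide) (by decide) (by decide) (by decide)
    have hf := avg969_four hu.1 i₁.1 i₂.1 i₃.1 i₄.1
    have p1 := nsq_nonneg (S.J 1 2 u)
    have p2 := nsq_nonneg (S.J 3 4 u)
    have p3 := nsq_nonneg (S.J 5 6 u)
    have p4 := nsq_nonneg (S.J 7 8 u)
    have q2 := n₂.trans (mul_le_mul_of_nonneg_left k1 c₂)
    have q3 := n₃.trans (mul_le_mul_of_nonneg_left (k4.trans k2) c₃)
    have q4 := n₄.trans (mul_le_mul_of_nonneg_left (k6.trans (k5.trans k3)) c₄)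
    refine hf.trans ?_
    have r1 : C₁ * nsq (S.J 1 2 u) ≤ C₁ * (nsq (S.J 1 2 u) + nsq (S.J 3 4 u) + nsq (S.J 5 6 u) +
        nsq (S.J 7 8 u)) := mul_le_mul_of_nonneg_left (by linarith) c₁
    have r2 : C₂ * nsq (S.J 3 4 u) ≤ C₂ * (nsq (S.J 1 2 u) + nsq (S.J 3 4 u) + nsq (S.J 5 6 u) +
        nsq (S.J 7 8 u)) := mul_le_mul_of_nonneg_left (by linarith) c₂
    have r3 : C₃ * nsq (S.J 5 6 u) ≤ C₃ * (nsq (S.J 1 2 u) + nsq (S.J 3 4 u) + nsq (S.J 5 6 u) +
        nsq (S.J 7 8 u)) := mul_le_mul_of_nonneg_left (by linarith) c₃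
    have r4 : C₄ * nsq (S.J 7 8 u) ≤ C₄ * (nsq (S.J 1 2 u) + nsq (S.J 3 4 u) + nsq (S.J 5 6 u) +
        nsq (S.J 7 8 u)) := mul_le_mul_of_nonneg_left (by linarith) c₄
    calc _ ≤ 4 * (C₁ * (nsq (S.J 1 2 u) + nsq (S.J 3 4 u) + nsq (S.J 5 6 u) + nsq (S.J 7 8 u)) +
          C₂ * (nsq (S.J 1 2 u) + nsq (S.J 3 4 u) + nsq (S.J 5 6 u) + nsq (S.J 7 8 u)) +
          C₃ * (nsq (S.J 1 2 u) + nsq (S.J 3 4 u) + nsq (S.J 5 6 u) + nsq (S.J 7 8 u)) +
          C₄ * (nsq (S.J 1 2 u) + nsq (S.J 3 4 u) + nsq (S.J 5 6 u) + nsq (S.J 7 8 u))) := by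
            refine mul_le_mul_of_nonneg_left ?_ (by norm_num)
            linarith
      _ = _ := by ring

end Vale.Agent.P353.Z.AH
end

section

/-! # P353, all `N`, block H8: torus invariant low spaces give invariant low spaces (helper221)

`k_zm` for `InvP plT` with the core gap H5; H6 with `lam = 0` gives weak zero modes; the anticommutator `A1` gives weak rotation
invariance in all planes; radial mollification and cutoff give `Inv` approximants; `ws` and `low_of_lim`. -/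

open MeasureTheory Filter Topology
open scoped ContDiff Matrix

namespace Vale.Agent.P353.Z.AH

variable {d : ℕ} {F : Type*} [NormedAddCommGroup F] [InnerProductSpace ℂ F]

namespace Br

open U.HB U.WS Moll

variable (S : Setup d F) {P : Fin 9 → Fin 9 → Prop}

lemma InvP_add {u v : Cfg d → F} (hu : S.InvP P u) (hv : S.InvP P v) :
    S.InvP P (fun y => u y + v y) := by
  refine ⟨hu.1.add hv.1, fun C x => ?_, fun k l h x => ?_⟩
  · rw [G_add S C hu.1.1 hv.1.1, hu.2.1, hv.2.1, add_zero]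
  · rw [J_add S k l hu.1.1 hv.1.1, hu.2.2 k l h, hv.2.2 k l h, add_zero]

lemma InvP_csmul (c : ℂ) {u : Cfg d → F} (hu : S.InvP P u) : S.InvP P (fun y => c • u y) := by
  refine ⟨Tst_csmul c hu.1, fun C x => ?_, fun k l h x => ?_⟩
  · rw [G_csmul S C c hu.1.1, hu.2.1, smul_zero]
  · rw [J_csmul S k l c hu.1.1, hu.2.2 k l h, smul_zero]

lemma InvP_zero : S.InvP P (fun _ : Cfg d => (0 : F)) := by
  refine ⟨Tst_zero, fun C x => ?_, fun k l h x => ?_⟩
  · have h := G_csmul S C 0 (u := fun _ => (0 : F)) contDiff_const x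
    simpa using h
  · have h := J_csmul S k l 0 (u := fun _ => (0 : F)) contDiff_const x
    simpa using h

lemma InvP_sum {ι : Type*} (s : Finset ι) (a : ι → ℂ) {u : ι → Cfg d → F} (hu : ∀ k, S.InvP P (u k)) :
    S.InvP P (fun y => ∑ k ∈ s, a k • u k y) := by
  classical
  induction s using Finset.induction_on with
  | empty => simpa using InvP_zero S
  | insert b s hb ih =>
    simp only [Finset.sum_insert hb]
    exact InvP_add S (InvP_csmul S (a b) (hu b)) ih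

lemma J_zero (k l : Fin 9) (x : Cfg d) : S.J k l (fun _ => (0 : F)) x = 0 := by
  have h := J_csmul S k l 0 (u := fun _ => (0 : F)) contDiff_const x
  simpa using h

/-- the Hamiltonian preserves `InvP P` -/
lemma InvP_HH (hP : ∀ a b, P a b → Same a b) (hA2 : U.A2Stmt S) (hA3 : U.A3Stmt S) (m : ℝ)
    {u : Cfg d → F} (hu : S.InvP P u) : S.InvP P (HH S m u) := by
  refine ⟨Tst_HH S m hu.1, fun C x => ?_, fun k l h x => ?_⟩
  · have h0 : S.G C u = fun _ => 0 := funext fun y => hu.2.1 C y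
    have h1 : ∀ β, S.G C (S.Qm m β u) = fun _ => 0 := by
      intro β
      funext y
      rw [hA3 m C β u hu.1.1 y, h0, Qm_zero]
    have h2 : ∀ β, S.G C (S.Qm m β (S.Qm m β u)) x = 0 := by
      intro β
      rw [hA3 m C β _ (contDiff_Qm S m β hu.1.1) x, h1, Qm_zero]
    have h3 : ∀ s : Finset (Fin 16), S.G C (fun y => ∑ β ∈ s, S.Qm m β (S.Qm m β u) y) x = 0 := by
      intro s
      classical
      induction s using Finset.induction_on with
      | empty =>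
        have := (Inv_zero S).2.1 C x
        simpa using this
      | insert b s hb ih =>
        simp only [Finset.sum_insert hb]
        rw [G_add S C (contDiff_Qm S m b (contDiff_Qm S m b hu.1.1))
          (ContDiff.sum fun β _ => contDiff_Qm S m β (contDiff_Qm S m β hu.1.1)), h2, ih, add_zero]
    exact h3 Finset.univ
  · have h0 : S.J k l u = fun _ => 0 := funext fun y => hu.2.2 k l h y
    have h1 : ∀ β, S.J k l (S.Qm m β u) = fun y => ∑ γ, (Complex.I / 2 * S.g2 k l β γ) •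
        S.Qm m γ u y := by
      intro β
      funext y
      have h2 := hA2 m k l (hP k l h) β u hu.1.1 y
      rw [h0, Qm_zero, sub_zero, Finset.smul_sum] at h2
      simpa only [smul_smul] using h2
    have h2 : ∀ β, S.J k l (S.Qm m β (S.Qm m β u)) x =
        ∑ γ, (Complex.I / 2 * S.g2 k l β γ) • S.Qm m β (S.Qm m γ u) x +
        ∑ γ, (Complex.I / 2 * S.g2 k l β γ) • S.Qm m γ (S.Qm m β u) x := by
      intro β
      have h3 := hA2 m k l (hP k l h) β _ (contDiff_Qm S m β hu.1.1) x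
      rw [h1, Qm_sum S m β _ _ (fun γ => contDiff_Qm S m γ hu.1.1), sub_eq_iff_eq_add] at h3
      rw [h3, Finset.smul_sum, add_comm]
      simp only [smul_smul]
    have h3 : ∀ s : Finset (Fin 16), S.J k l (fun y => ∑ β ∈ s, S.Qm m β (S.Qm m β u) y) x =
        ∑ β ∈ s, S.J k l (S.Qm m β (S.Qm m β u)) x := by
      intro s
      classical
      induction s using Finset.induction_on with
      | empty =>
        simpa using J_zero S k l x
      | insert b s hb ih =>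
        simp only [Finset.sum_insert hb]
        rw [J_add S k l (contDiff_Qm S m b (contDiff_Qm S m b hu.1.1))
          (ContDiff.sum fun β _ => contDiff_Qm S m β (contDiff_Qm S m β hu.1.1)), ih]
    have h4 : ∀ β γ, S.g2 k l β γ = - S.g2 k l γ β := by
      intro β γ
      have := congrFun (congrFun (Setup.g2_transpose S k l) γ) β
      simpa [Matrix.transpose_apply] using this
    refine (h3 Finset.univ).trans ?_
    simp only [h2, Finset.sum_add_distrib]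
    rw [Finset.sum_comm (f := fun β γ => (Complex.I / 2 * S.g2 k l β γ) • S.Qm m γ (S.Qm m β u) x),
      ← Finset.sum_add_distrib]
    refine Finset.sum_eq_zero fun β _ => ?_
    rw [← Finset.sum_add_distrib]
    refine Finset.sum_eq_zero fun γ _ => ?_
    rw [h4 γ β, ← add_smul]
    simp

/-- `InvP P` test functions in `L²` -/
def InvSubP (P : Fin 9 → Fin 9 → Prop) : Submodule ℂ (Lp F 2 (volume : Measure (Cfg d))) where
  carrier := {f | ∃ φ, S.InvP P φ ∧ f =ᵐ[volume] φ}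
  zero_mem' := ⟨fun _ => 0, InvP_zero S, Lp.coeFn_zero _ _ _⟩
  add_mem' := by
    rintro f g ⟨φ, hφ, hf⟩ ⟨ψ, hψ, hg⟩
    exact ⟨fun y => φ y + ψ y, InvP_add S hφ hψ, (Lp.coeFn_add f g).trans (hf.add hg)⟩
  smul_mem' := by
    rintro c f ⟨φ, hφ, hf⟩
    exact ⟨fun y => c • φ y, InvP_csmul S c hφ, (Lp.coeFn_smul c f).trans (hf.const_smul c)⟩

/-- range of the Hamiltonian on `InvP P` test functions -/
def RngSubP (P : Fin 9 → Fin 9 → Prop) (m : ℝ) : Submodule ℂ (Lp F 2 (volume : Measure (Cfg d))) where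
  carrier := {f | ∃ φ, S.InvP P φ ∧ f =ᵐ[volume] HH S m φ}
  zero_mem' := by
    refine ⟨fun _ => 0, InvP_zero S, ?_⟩
    have h : HH S m (fun _ : Cfg d => (0 : F)) = fun _ => 0 := by
      funext x
      have := HH_csmul S m 0 (u := fun _ => (0 : F)) contDiff_const x
      simpa using this
    rw [h]
    exact Lp.coeFn_zero _ _ _
  add_mem' := by
    rintro f g ⟨φ, hφ, hf⟩ ⟨ψ, hψ, hg⟩
    refine ⟨fun y => φ y + ψ y, InvP_add S hφ hψ, (Lp.coeFn_add f g).trans ?_⟩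
    filter_upwards [hf, hg] with x hx hy
    rw [Pi.add_apply, hx, hy, HH_add S m hφ.1.1 hψ.1.1]
  smul_mem' := by
    rintro c f ⟨φ, hφ, hf⟩
    refine ⟨fun y => c • φ y, InvP_csmul S c hφ, (Lp.coeFn_smul c f).trans ?_⟩
    filter_upwards [hf] with x hx
    rw [Pi.smul_apply, hx, HH_csmul S m c hφ.1.1]

lemma Rng_le_InvP (hP : ∀ a b, P a b → Same a b) (hA2 : U.A2Stmt S) (hA3 : U.A3Stmt S) (m : ℝ) :
    RngSubP S P m ≤ InvSubP S P := by
  rintro f ⟨φ, hφ, hf⟩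
  exact ⟨HH S m φ, InvP_HH S hP hA2 hA3 m hφ, hf⟩

lemma clInvP_of_mem {f : Lp F 2 (volume : Measure (Cfg d))} (hf : f ∈ closure (InvSubP S P : Set _)) :
    ∃ w : ℕ → Cfg d → F, (∀ n, S.InvP P (w n)) ∧ L2t w f := by
  obtain ⟨g, hg, hl⟩ := mem_closure_iff_seq_limit.mp hf
  choose w hw hw2 using hg
  refine ⟨w, hw, fun n => (hw n).1.memLp, Lp.memLp f, ?_⟩
  have h1 : ∀ n, nsq (fun x => w n x - f x) = ‖g n - f‖ ^ 2 := by
    intro n
    rw [norm_Lp (u := fun x => w n x - f x)]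
    refine (Lp.coeFn_sub (g n) f).trans ?_
    filter_upwards [hw2 n] with x hx
    rw [Pi.sub_apply, hx]
  simp only [h1]
  have h2 := (tendsto_iff_norm_sub_tendsto_zero.mp hl).pow 2
  simpa using h2

/-- the range argument -/
lemma range_gapP {m : ℝ} (hG : ∀ φ, S.InvP P φ → 8 * m * S.en m φ ≤ nsq (HH S m φ))
    (hm : 0 < m) {u : Cfg d → F} (hu : S.InvP P u)
    (hr : toL hu.1 ∈ closure (RngSubP S P m : Set (Lp F 2 (volume : Measure (Cfg d))))) :
    8 * m * nsq u ≤ ∑ β, nsq (S.Qm m β u) := by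
  obtain ⟨g, hg, hl⟩ := mem_closure_iff_seq_limit.mp hr
  choose φ hφ hg2 using hg
  set q : ℝ := ∑ β, nsq (S.Qm m β u) with hq
  have hq0 : 0 ≤ q := Finset.sum_nonneg fun β _ => nsq_nonneg _
  have h1 : ∀ n, ‖inner ℂ (g n) (toL hu.1)‖ ≤ Real.sqrt (‖g n‖ ^ 2 / (8 * m)) * Real.sqrt q := by
    intro n
    rw [inner_Lp (hg2 n) (coe_toL hu.1), inner_HH S m (hφ n).1 hu.1]
    refine (form_cs S m (hφ n).1 hu.1).trans ?_
    refine mul_le_mul_of_nonneg_right (Real.sqrt_le_sqrt ?_) (Real.sqrt_nonneg _)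
    rw [le_div_iff₀ (by positivity), norm_Lp (hg2 n), mul_comm]
    exact hG (φ n) (hφ n)
  have h2 : Tendsto (fun n => ‖inner ℂ (g n) (toL hu.1)‖) atTop (𝓝 (nsq u)) := by
    have h3 : Tendsto (fun n => ‖inner ℂ (g n) (toL hu.1)‖) atTop
        (𝓝 ‖(inner ℂ (toL hu.1) (toL hu.1) : ℂ)‖) :=
      (hl.inner tendsto_const_nhds).norm
    rw [inner_self_eq_norm_sq_to_K] at h3
    have h4 : ‖((‖toL hu.1‖ : ℂ)) ^ 2‖ = nsq u := by
      rw [norm_pow, Complex.norm_real, norm_norm, norm_Lp (coe_toL hu.1)]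
    rw [← h4]
    exact h3
  have h5 : Tendsto (fun n => Real.sqrt (‖g n‖ ^ 2 / (8 * m)) * Real.sqrt q) atTop
      (𝓝 (Real.sqrt (nsq u / (8 * m)) * Real.sqrt q)) := by
    refine Tendsto.mul_const _ ?_
    refine (Real.continuous_sqrt.tendsto _).comp ?_
    refine Tendsto.div_const ?_ _
    have h6 := (hl.norm).pow 2
    rwa [norm_Lp (coe_toL hu.1)] at h6
  have h6 := le_of_tendsto_of_tendsto' h2 h5 h1
  rw [← Real.sqrt_mul' _ hq0] at h6
  have hn := nsq_nonneg u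
  have h7 : nsq u ^ 2 ≤ nsq u / (8 * m) * q := by
    have h8 : 0 ≤ nsq u / (8 * m) * q := by positivity
    calc nsq u ^ 2 ≤ Real.sqrt (nsq u / (8 * m) * q) ^ 2 := by gcongr
      _ = _ := Real.sq_sqrt h8
  rcases hn.eq_or_lt with h0 | h0
  · rw [← h0, mul_zero]; exact hq0
  · have h9 : nsq u * (8 * m * nsq u) ≤ nsq u * q := by
      have h10 : nsq u / (8 * m) * q = nsq u * q / (8 * m) := by ring
      rw [h10, le_div_iff₀ (by positivity)] at h7
      nlinarith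
    exact le_of_mul_le_mul_left h9 h0

/-- `k` independent weak zero modes in the closure of `InvP P` -/
lemma k_zmP [CompleteSpace F] (hP : ∀ a b, P a b → Same a b) (hA2 : U.A2Stmt S) (hA3 : U.A3Stmt S)
    {k : ℕ} {m : ℝ} (hG : ∀ φ, S.InvP P φ → 8 * m * S.en m φ ≤ nsq (HH S m φ))
    (hm : 0 < m) (hL : S.LowP P k m (8 * m)) : ∃ Ψ : Fin k → Cfg d → F,
      (∀ j, ∃ w : ℕ → Cfg d → F, (∀ n, S.InvP P (w n)) ∧ L2t w (Ψ j)) ∧
      (∀ j φ, S.InvP P φ → ∫ x, inner ℂ (HH S m φ x) (Ψ j x) = 0) ∧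
      ∀ a : Fin k → ℂ, a ≠ 0 → 0 < nsq (fun x => ∑ j, a j • Ψ j x) := by
  obtain ⟨u, hu, hlow⟩ := hL
  set R := (RngSubP S P m).topologicalClosure with hR
  have hRI : R ≤ (InvSubP S P).topologicalClosure :=
    Submodule.topologicalClosure_mono (Rng_le_InvP S hP hA2 hA3 m)
  have : CompleteSpace R := (Submodule.isClosed_topologicalClosure _).completeSpace_coe
  have hdec : ∀ j, ∃ w ∈ R, ∃ Ψ ∈ Rᗮ, toL (hu j).1 = w + Ψ := fun j =>
    Submodule.exists_add_mem_mem_orthogonal (K := R) (toL (hu j).1)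
  choose w hw Ψ hΨ hsum using hdec
  have hΨe : ∀ j, Ψ j = toL (hu j).1 - w j := fun j => by rw [hsum j]; abel
  refine ⟨fun j => Ψ j, fun j => ?_, fun j φ hφ => ?_, fun a ha => ?_⟩
  · refine clInvP_of_mem S ?_
    have h1 : toL (hu j).1 ∈ (InvSubP S P).topologicalClosure :=
      Submodule.le_topologicalClosure _ ⟨u j, hu j, coe_toL (hu j).1⟩
    have h2 : Ψ j ∈ (InvSubP S P).topologicalClosure := by
      rw [hΨe j]
      exact Submodule.sub_mem _ h1 (hRI (hw j))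
    exact h2
  · have h1 : toL (Tst_HH S m hφ.1) ∈ R :=
      Submodule.le_topologicalClosure _ ⟨φ, hφ, coe_toL _⟩
    have h2 := (Submodule.mem_orthogonal R (Ψ j)).mp (hΨ j) _ h1
    rw [inner_Lp (coe_toL _) (EventuallyEq.rfl (f := (Ψ j : (Cfg d) → F)))] at h2
    exact h2
  · by_contra hneg
    have h0 : nsq (fun x => ∑ j, a j • (Ψ j : (Cfg d) → F) x) = 0 :=
      le_antisymm (not_lt.mp hneg) (nsq_nonneg _)
    have hae : ((∑ j, a j • Ψ j : Lp F 2 (volume : Measure (Cfg d))) : (Cfg d) → F) =ᵐ[volume]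
        fun x => ∑ j, a j • (Ψ j : (Cfg d) → F) x := by
      have h1 := Lp.coeFn_finsetSum (Finset.univ) (fun j => a j • Ψ j)
      refine h1.trans ?_
      have h2 : ∀ j, ((a j • Ψ j : Lp F 2 (volume : Measure (Cfg d))) : (Cfg d) → F) =ᵐ[volume]
          fun x => a j • (Ψ j : (Cfg d) → F) x := fun j => Lp.coeFn_smul (a j) (Ψ j)
      filter_upwards [ae_all_iff.mpr h2] with x hx
      simp only [Finset.sum_apply, hx]
    have hz : (∑ j, a j • Ψ j : Lp F 2 (volume : Measure (Cfg d))) = 0 := by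
      have h1 := norm_Lp hae
      rw [h0] at h1
      exact norm_eq_zero.mp (by nlinarith [norm_nonneg (∑ j, a j • Ψ j)])
    have hui := InvP_sum S Finset.univ a hu
    have htl : toL hui.1 = ∑ j, a j • toL (hu j).1 := by
      refine Lp.ext ?_
      refine (coe_toL hui.1).trans (EventuallyEq.symm ?_)
      refine (Lp.coeFn_finsetSum (Finset.univ) (fun j => a j • toL (hu j).1)).trans ?_
      have h2 : ∀ j, ((a j • toL (hu j).1 : Lp F 2 (volume : Measure (Cfg d))) : (Cfg d) → F) =ᵐ[volume]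
          fun x => a j • u j x := fun j =>
        (Lp.coeFn_smul (a j) (toL (hu j).1)).trans ((coe_toL (hu j).1).const_smul (a j))
      filter_upwards [ae_all_iff.mpr h2] with x hx
      simp only [Finset.sum_apply, hx]
    have hmem : toL hui.1 ∈ R := by
      have h1 : toL hui.1 = ∑ j, a j • w j := by
        rw [htl]
        have : ∀ j, toL (hu j).1 = w j + Ψ j := hsum
        simp only [this, smul_add, Finset.sum_add_distrib, hz, add_zero]
      rw [h1]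
      exact Submodule.sum_mem _ fun j _ => Submodule.smul_mem _ _ (hw j)
    have h1 := range_gapP S hG hm hui hmem
    have h2 := hlow a ha
    linarith

/-! ## weak rotation invariance from the weak supercharge equation -/

/-- `tr ((Γγ^{kl})(Γγ^{ij})ᵀ)` -/
lemma trace_GG (k l i j : Fin 9) :
    ((S.Gam * S.g2 k l) * (S.Gam * S.g2 i j)ᵀ).trace =
      16 * ((if k = i then 1 else 0) * (if l = j then 1 else 0) -
        (if k = j then 1 else 0) * (if l = i then 1 else 0)) := by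
  have h1 : (S.Gam * S.g2 i j)ᵀ = S.g2 i j * S.Gam := by
    rw [Matrix.transpose_mul, S.Gam_transpose, S.g2_transpose, neg_mul, mul_neg, neg_neg]
  have h2 : ((S.Gam * S.g2 k l) * (S.g2 i j * S.Gam)).trace = -(S.g2 k l * S.g2 i j).trace := by
    calc ((S.Gam * S.g2 k l) * (S.g2 i j * S.Gam)).trace
        = (S.Gam * (S.g2 k l * S.g2 i j * S.Gam)).trace := by simp only [mul_assoc]
      _ = (S.g2 k l * S.g2 i j * S.Gam * S.Gam).trace := by rw [Matrix.trace_mul_comm]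
      _ = -(S.g2 k l * S.g2 i j).trace := by
          rw [mul_assoc, S.Gam_sq, mul_neg, mul_one, Matrix.trace_neg]
  rw [h1, h2, S.trace_g2_g2]
  ring

lemma J_swap (k l : Fin 9) (u : Cfg d → F) (x : Cfg d) : S.J l k u x = - S.J k l u x := by
  have h : S.Skl l k = - S.Skl k l := by
    unfold Setup.Skl
    have h2 : S.g2 l k = -S.g2 k l := by
      unfold CS.g2
      rw [← smul_neg, neg_sub]
    rw [h2, S.tot_neg, smul_neg]
  have h3 : ∑ A, ((x (l, A) : ℂ) • pd k A u x - (x (k, A) : ℂ) • pd l A u x) =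
      - ∑ A, ((x (k, A) : ℂ) • pd l A u x - (x (l, A) : ℂ) • pd k A u x) := by
    rw [← Finset.sum_neg_distrib]
    exact Finset.sum_congr rfl fun A _ => (neg_sub _ _).symm
  unfold Setup.J
  rw [h, h3, smul_neg, neg_add, _root_.neg_apply]

lemma rc_symm (k l : Fin 9) : rc k l = rc l k := by
  unfold rc
  simp only [and_comm]

lemma rc_ne {k l : Fin 9} (h : Same k l) : rc k l ≠ 0 := by
  unfold rc
  by_cases hk : k.val < 3
  · rw [if_pos ⟨hk, h.2.mp hk⟩]
    norm_num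
  · have hl : ¬ l.val < 3 := fun h2 => hk (h.2.mpr h2)
    rw [if_neg (fun h2 => hk h2.1), if_pos ⟨not_lt.mp hk, not_lt.mp hl⟩]
    norm_num

/-- the contracted anticommutator -/
lemma contr (hA1 : U.A1Stmt S) (m : ℝ) (k l : Fin 9) {u : Cfg d → F}
    (hu : ContDiff ℝ ∞ u) (x : Cfg d) :
    ∑ α, ∑ β, (S.Gam * S.g2 k l) α β • (S.Qm m α (S.Qm m β u) x + S.Qm m β (S.Qm m α u) x) =
      (32 * (rc k l : ℂ) * (m : ℂ)) • S.J k l u x +
      (2 * S.κ : ℂ) • ∑ j, ∑ C, ((∑ α, ∑ β, (S.Gam * S.g2 k l) α β * S.g j α β) *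
        (x (j, C) : ℂ)) • S.G C u x := by
  set M := S.Gam * S.g2 k l with hM
  have e : ∀ α β, M α β • (S.Qm m α (S.Qm m β u) x + S.Qm m β (S.Qm m α u) x) =
      M α β • (if α = β then (2 : ℂ) • S.Hm m u x else 0) +
      M α β • ((m : ℂ) • (∑ i, ∑ j, ((rc i j : ℂ) * (S.Gam * S.g2 i j) α β) • S.J i j u x)) +
      M α β • ((2 * S.κ : ℂ) • ∑ j, ∑ C, (S.g j α β * (x (j, C) : ℂ)) • S.G C u x) := by
    intro α β
    rw [hA1 m α β u hu x, smul_add, smul_add]
  have t1 : ∑ α, ∑ β, M α β • (if α = β then (2 : ℂ) • S.Hm m u x else 0) = 0 := by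
    have h1 : ∀ α, ∑ β, M α β • (if α = β then (2 : ℂ) • S.Hm m u x else 0) =
        M α α • ((2 : ℂ) • S.Hm m u x) := by
      intro α
      rw [Finset.sum_eq_single α]
      · rw [if_pos rfl]
      · intro β _ hβ
        rw [if_neg (Ne.symm hβ), smul_zero]
      · intro h
        exact absurd (Finset.mem_univ α) h
    rw [Finset.sum_congr rfl fun α _ => h1 α, ← Finset.sum_smul]
    have h2 : ∑ α, M α α = M.trace := rfl
    rw [h2, hM, S.trace_Gam_g2_a1, zero_smul]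
  have t2 : ∑ α, ∑ β, M α β • ((m : ℂ) • (∑ i, ∑ j,
      ((rc i j : ℂ) * (S.Gam * S.g2 i j) α β) • S.J i j u x)) =
      (32 * (rc k l : ℂ) * (m : ℂ)) • S.J k l u x := by
    have h1 : ∀ i j, ∑ α, ∑ β, M α β * (S.Gam * S.g2 i j) α β =
        16 * ((if k = i then 1 else 0) * (if l = j then 1 else 0) -
        (if k = j then 1 else 0) * (if l = i then 1 else 0)) := by
      intro i j
      rw [← trace_GG S k l i j, Matrix.trace]
      refine Finset.sum_congr rfl fun α _ => ?_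
      rw [Matrix.diag_apply, Matrix.mul_apply]
      rfl
    have h2 : ∑ α, ∑ β, M α β • ((m : ℂ) • (∑ i, ∑ j,
        ((rc i j : ℂ) * (S.Gam * S.g2 i j) α β) • S.J i j u x)) =
        ∑ i, ∑ j, ((m : ℂ) * (rc i j : ℂ) * ∑ α, ∑ β, M α β * (S.Gam * S.g2 i j) α β) •
          S.J i j u x := by
      simp only [Finset.smul_sum, smul_smul, Finset.mul_sum, Finset.sum_smul]
      rw [Finset.sum_congr rfl fun α _ => Finset.sum_comm]
      rw [Finset.sum_comm]
      refine Finset.sum_congr rfl fun i _ => ?_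
      rw [Finset.sum_congr rfl fun α _ => Finset.sum_comm]
      rw [Finset.sum_comm]
      refine Finset.sum_congr rfl fun j _ => Finset.sum_congr rfl fun α _ =>
        Finset.sum_congr rfl fun β _ => ?_
      congr 1
      ring
    rw [h2]
    simp only [h1]
    have h3 : ∀ i j, ((m : ℂ) * (rc i j : ℂ) * (16 * ((if k = i then 1 else 0) *
        (if l = j then 1 else 0) - (if k = j then 1 else 0) * (if l = i then 1 else 0)))) •
          S.J i j u x =
        (if k = i then (if l = j then ((m : ℂ) * (rc i j : ℂ) * 16) • S.J i j u x else 0) else 0) -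
        (if l = i then (if k = j then ((m : ℂ) * (rc i j : ℂ) * 16) • S.J i j u x else 0) else 0) := by
      intro i j
      split_ifs <;> simp
    simp only [h3, Finset.sum_sub_distrib, Finset.sum_ite_eq, Finset.mem_univ, if_true,
      Finset.sum_ite_irrel, Finset.sum_const_zero]
    rw [J_swap S k l, rc_symm l k, smul_neg, sub_neg_eq_add, ← add_smul]
    congr 1
    ring
  have t3 : ∑ α, ∑ β, M α β • ((2 * S.κ : ℂ) • ∑ j, ∑ C,
      (S.g j α β * (x (j, C) : ℂ)) • S.G C u x) =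
      (2 * S.κ : ℂ) • ∑ j, ∑ C, ((∑ α, ∑ β, M α β * S.g j α β) *
        (x (j, C) : ℂ)) • S.G C u x := by
    simp only [Finset.smul_sum, smul_smul, Finset.sum_mul, Finset.sum_smul]
    rw [Finset.sum_congr rfl fun α _ => Finset.sum_comm]
    rw [Finset.sum_comm]
    refine Finset.sum_congr rfl fun i _ => ?_
    rw [Finset.sum_congr rfl fun α _ => Finset.sum_comm]
    rw [Finset.sum_comm]
    refine Finset.sum_congr rfl fun j _ => Finset.sum_congr rfl fun α _ =>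
      Finset.sum_congr rfl fun β _ => ?_
    congr 1
    ring
  simp only [e, Finset.sum_add_distrib, t1, t2, t3, zero_add]

lemma fderiv_coord (p : Fin 9 × Fin d) (i : Fin 9) (A : Fin d) (x : Cfg d) :
    fderiv ℝ (fun y : Cfg d => (y p : ℂ)) x (EuclideanSpace.single (i, A) 1) =
      if p = (i, A) then 1 else 0 := by
  have h1 : HasFDerivAt (fun y : Cfg d => (y p : ℂ))
      (Complex.ofRealCLM.comp (EuclideanSpace.proj p : Cfg d →L[ℝ] ℝ)) x :=
    (Complex.ofRealCLM.comp (EuclideanSpace.proj p : Cfg d →L[ℝ] ℝ)).hasFDerivAt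
  rw [h1.fderiv, ContinuousLinearMap.comp_apply]
  have h2 : (EuclideanSpace.proj p : Cfg d →L[ℝ] ℝ) (EuclideanSpace.single (i, A) 1) =
      if p = (i, A) then 1 else 0 := PiLp.single_apply 2 ℝ (i, A) 1 p
  rw [h2]
  split_ifs <;> simp

/-- `G_C` commutes with `x_j^C` -/
lemma G_coord (j : Fin 9) (C : Fin d) {u : Cfg d → F} (hu : ContDiff ℝ ∞ u) (x : Cfg d) :
    S.G C (fun y => (y (j, C) : ℂ) • u y) x = (x (j, C) : ℂ) • S.G C u x := by
  have h1 : ∀ i A, pd i A (fun y => (y (j, C) : ℂ) • u y) x =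
      (if (j, C) = (i, A) then (1 : ℂ) else 0) • u x + (x (j, C) : ℂ) • pd i A u x := by
    intro i A
    rw [pd_csmul ((Setup.contDiff_ofReal (Setup.contDiff_coord (j, C))).differentiable (by simp) x)
      ((hu.differentiable (by simp)) x), fderiv_coord]
  have hf : ∀ A, S.f C A C = 0 := by
    intro A
    have h2 := S.f_cyc C A C
    have h3 := S.f_swap A C C
    have h4 := S.f_cyc A C C
    have h5 := S.f_swap C C A
    linarith
  have h2 : ∑ i, ∑ A, ∑ B, ((S.f C A B : ℂ) * (x (i, A) : ℂ)) • ((if (j, C) = (i, B) then (1 : ℂ) else 0) •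
      u x) = 0 := by
    refine Finset.sum_eq_zero fun i _ => Finset.sum_eq_zero fun A _ => Finset.sum_eq_zero fun B _ => ?_
    by_cases h : (j, C) = (i, B)
    · have hB : B = C := (congrArg Prod.snd h).symm
      rw [hB, hf A]
      simp
    · rw [if_neg h, zero_smul, smul_zero]
  simp only [Setup.G, h1, smul_add, Finset.sum_add_distrib, h2, zero_add, map_smul]
  congr 1
  simp only [Finset.smul_sum, smul_smul]
  refine Finset.sum_congr rfl fun i _ => Finset.sum_congr rfl fun A _ =>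
    Finset.sum_congr rfl fun B _ => ?_
  congr 1
  ring

/-- weak zero modes of the supercharges are weakly rotation invariant -/
lemma wJ_of_wQ (hA1 : U.A1Stmt S) {m : ℝ} (hm : 0 < m) {Ψ : Cfg d → F}
    (hΨ : MemLp Ψ 2 (volume : Measure (Cfg d))) (hG : S.wG Ψ)
    (hQ : ∀ β ζ, Setup.Tst ζ → ∫ x, inner ℂ (S.Qm m β ζ x) (Ψ x) = 0) : S.wJ Ψ := by
  intro k l hkl ζ hζ
  have hI : ∀ {a : Cfg d → F}, Setup.Tst a → Integrable (fun x => inner ℂ (a x) (Ψ x)) := fun ha =>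
    integrable_inner_memLp ha.memLp hΨ
  have h0 : ∀ α β, ∫ x, inner ℂ ((S.Gam * S.g2 k l) α β •
      (S.Qm m α (S.Qm m β ζ) x + S.Qm m β (S.Qm m α ζ) x)) (Ψ x) = 0 := by
    intro α β
    have h1 := hQ α _ (Tst_Qm S m β hζ)
    have h2 := hQ β _ (Tst_Qm S m α hζ)
    simp only [inner_smul_left, inner_add_left]
    rw [integral_const_mul, integral_add (hI (Tst_Qm S m α (Tst_Qm S m β hζ)))
      (hI (Tst_Qm S m β (Tst_Qm S m α hζ))), h1, h2, add_zero, mul_zero]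
  have hT : ∀ α β, Setup.Tst (fun x => (S.Gam * S.g2 k l) α β •
      (S.Qm m α (S.Qm m β ζ) x + S.Qm m β (S.Qm m α ζ) x)) := fun α β =>
    Tst_csmul _ ((Tst_Qm S m α (Tst_Qm S m β hζ)).add (Tst_Qm S m β (Tst_Qm S m α hζ)))
  have h1 : ∫ x, inner ℂ (∑ α, ∑ β, (S.Gam * S.g2 k l) α β •
      (S.Qm m α (S.Qm m β ζ) x + S.Qm m β (S.Qm m α ζ) x)) (Ψ x) = 0 := by
    simp only [sum_inner]
    rw [integral_finsetSum _ fun α _ => integrable_finsetSum _ fun β _ => hI (hT α β)]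
    refine Finset.sum_eq_zero fun α _ => ?_
    rw [integral_finsetSum _ fun β _ => hI (hT α β)]
    exact Finset.sum_eq_zero fun β _ => h0 α β
  have hx : ∀ j C, Setup.Tst (fun y => (y (j, C) : ℂ) • ζ y) := fun j C =>
    hζ.rsmul (Setup.contDiff_coord (j, C))
  have h2 : ∀ j C (c : ℂ), ∫ x, inner ℂ ((c * (x (j, C) : ℂ)) • S.G C ζ x) (Ψ x) = 0 := by
    intro j C c
    have h3 := hG C _ (hx j C)
    simp only [G_coord S j C hζ.1] at h3
    simp only [mul_smul, inner_smul_left _ _ c]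
    rw [integral_const_mul, h3, mul_zero]
  have hTG : ∀ j C (c : ℂ), Setup.Tst (fun x => (c * (x (j, C) : ℂ)) • S.G C ζ x) := by
    intro j C c
    have := Tst_csmul c ((hζ.G S C).rsmul (Setup.contDiff_coord (j, C)))
    simpa only [smul_smul] using this
  have h3 : ∫ x, inner ℂ ((2 * S.κ : ℂ) • ∑ j, ∑ C,
      ((∑ α, ∑ β, (S.Gam * S.g2 k l) α β * S.g j α β) * (x (j, C) : ℂ)) • S.G C ζ x) (Ψ x) = 0 := by
    simp only [inner_smul_left _ _ (2 * S.κ : ℂ), sum_inner]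
    rw [integral_const_mul, integral_finsetSum _ fun j _ => integrable_finsetSum _ fun C _ =>
      hI (hTG j C _)]
    rw [Finset.sum_eq_zero, mul_zero]
    intro j _
    rw [integral_finsetSum _ fun C _ => hI (hTG j C _)]
    exact Finset.sum_eq_zero fun C _ => h2 j C _
  have hTG' : Setup.Tst (fun x => (2 * S.κ : ℂ) • ∑ j, ∑ C,
      ((∑ α, ∑ β, (S.Gam * S.g2 k l) α β * S.g j α β) * (x (j, C) : ℂ)) • S.G C ζ x) :=
    Tst_csmul _ (Tst_sum _ fun j _ => Tst_sum _ fun C _ => hTG j C _)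
  have hTJ : Setup.Tst (fun x => (32 * (rc k l : ℂ) * (m : ℂ)) • S.J k l ζ x) :=
    Tst_csmul _ (hζ.J S k l)
  simp only [contr S hA1 m k l hζ.1, inner_add_left] at h1
  rw [integral_add (hI hTJ) (hI hTG'), h3, add_zero] at h1
  simp only [inner_smul_left] at h1
  rw [integral_const_mul] at h1
  have hne : (starRingEnd ℂ) (32 * (rc k l : ℂ) * (m : ℂ)) ≠ 0 := by
    rw [Ne, map_eq_zero]
    have h4 : (rc k l : ℂ) ≠ 0 := by exact_mod_cast rc_ne hkl
    have h5 : (m : ℂ) ≠ 0 := by exact_mod_cast hm.ne'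
    exact mul_ne_zero (mul_ne_zero (by norm_num) h4) h5
  exact (mul_eq_zero.mp h1).resolve_left hne

/-- weak limits of almost zero modes -/
lemma wQ_of_lim {m : ℝ} {Ψ : Cfg d → F} {u : ℕ → Cfg d → F} (hu : ∀ n, Setup.Tst (u n))
    (hl : L2t u Ψ) (he : Tendsto (fun n => S.en m (u n)) atTop (𝓝 0)) (β : Fin 16)
    {ζ : Cfg d → F} (hζ : Setup.Tst ζ) : ∫ x, inner ℂ (S.Qm m β ζ x) (Ψ x) = 0 := by
  have h1 := (L2t_const (Tst_Qm S m β hζ).memLp).lim_inner hl
  refine tendsto_nhds_unique h1 ?_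
  have h2 : ∀ n, ∫ x, inner ℂ (S.Qm m β ζ x) (u n x) = ∫ x, inner ℂ (ζ x) (S.Qm m β (u n) x) :=
    fun n => U.HB.Qm_symm S m β hζ (hu n).1
  have h3 : ∀ n, ‖∫ x, inner ℂ (S.Qm m β ζ x) (u n x)‖ ≤ Real.sqrt (nsq ζ) *
      Real.sqrt (S.en m (u n)) := by
    intro n
    rw [h2]
    refine (cs_inner hζ.memLp (Tst_Qm S m β (hu n)).memLp).trans ?_
    refine mul_le_mul_of_nonneg_left (Real.sqrt_le_sqrt ?_) (Real.sqrt_nonneg _)
    exact Finset.single_le_sum (f := fun β => nsq (S.Qm m β (u n))) (fun β _ => nsq_nonneg _)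
      (Finset.mem_univ β)
  have h4 : Tendsto (fun n => Real.sqrt (nsq ζ) * Real.sqrt (S.en m (u n))) atTop (𝓝 0) := by
    have := ((Real.continuous_sqrt.tendsto 0).comp he).const_mul (Real.sqrt (nsq ζ))
    simpa using this
  exact squeeze_zero_norm h3 h4

lemma wG_of_limP {Ψ : Cfg d → F} {w : ℕ → Cfg d → F} (hw : ∀ n, S.InvP P (w n)) (hl : L2t w Ψ) :
    S.wG Ψ := by
  intro C ζ hζ
  have h1 := (L2t_const (hζ.G S C).memLp).lim_inner hl
  refine tendsto_nhds_unique h1 (tendsto_const_nhds.congr fun n => ?_)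
  rw [G_symm S C ζ (w n) hζ (hw n).1.1]
  simp [(hw n).2.1]

/-- weakly invariant functions are limits of invariant test functions -/
lemma clInv_of_w [CompleteSpace F] {Ψ : Cfg d → F} (hΨ : MemLp Ψ 2 (volume : Measure (Cfg d)))
    (hwG : S.wG Ψ) (hwJ : S.wJ Ψ) : ∃ w : ℕ → Cfg d → F, (∀ n, S.Inv (w n)) ∧ L2t w Ψ := by
  obtain ⟨K, hK, hcut⟩ := exists_rc
  have hcut' : ∀ n : ℕ, ∃ h : ℝ → ℝ, IsRC K ((n : ℝ) + 1) h := fun n => hcut _ (by positivity)
  choose h hh using hcut'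
  have key : ∀ η : ℝ, 0 < η → ∃ u, S.Inv u ∧ nsq (fun x => u x - Ψ x) ≤ η := by
    intro η hη
    have hη8 : 0 < η / 8 := by positivity
    obtain ⟨n, hn2⟩ := ((cut_tendsto hΨ hh).eventually (gt_mem_nhds hη8)).exists
    set R : ℝ := (n : ℝ) + 1 with hR
    have hR0 : 0 < R := by positivity
    set χ : (Cfg d) → ℝ := rad (h n) with hχ
    have hc := hh n
    have hχs : ContDiff ℝ ∞ χ := contDiff_rad hc.contDiff
    have hχc : HasCompactSupport χ := by
      refine HasCompactSupport.intro (isCompact_closedBall (0 : (Cfg d)) R) fun x hx => ?_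
      rw [Metric.mem_closedBall, dist_zero_right, not_le] at hx
      exact hc.zero x hx.le
    obtain ⟨ε₀, hε₀, happ⟩ := mo_approx hΨ hη8
    obtain ⟨g, hg, hmol⟩ := exists_mol hε₀
    set ρ : (Cfg d) → ℝ := rad g with hρ
    set v : (Cfg d) → F := mo ρ Ψ with hv
    have hvs : ContDiff ℝ ∞ v := contDiff_mo hmol.contDiff hmol.hcs (locInt hΨ)
    obtain ⟨hvm, hvN⟩ := nsq_mo_le hmol hΨ
    have hvG : ∀ C x, S.G C v x = 0 := fun C x => G_mo_zero S hΨ hwG hg hmol.hcs C x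
    have hvJ : ∀ k l, Same k l → ∀ x, S.J k l v x = 0 := fun k l hkl x =>
      J_mo_zero S hΨ hwJ hg hmol.hcs hkl x
    set u : (Cfg d) → F := fun x => ((χ x : ℝ) : ℂ) • v x with hu
    have hui : S.Inv u := Inv_rad S hc.contDiff hχc hvs hvG hvJ
    have hle : ∀ {a : (Cfg d) → F}, MemLp a 2 (volume : Measure (Cfg d)) →
        nsq (fun x => ((χ x : ℝ) : ℂ) • a x) ≤ nsq a := by
      intro a ha
      refine integral_mono_of_nonneg (Eventually.of_forall fun x => by positivity)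
        (memLp_norm_sq_int ha) (Eventually.of_forall fun x => ?_)
      simp only
      rw [norm_smul, Complex.norm_real, Real.norm_of_nonneg (hc.nonneg x), mul_pow]
      have h2 : χ x ^ 2 ≤ 1 := pow_le_one₀ (hc.nonneg x) (hc.le_one x)
      calc χ x ^ 2 * ‖a x‖ ^ 2 ≤ 1 * ‖a x‖ ^ 2 := by gcongr
        _ = _ := one_mul _
    refine ⟨u, hui, ?_⟩
    have m1 : MemLp (fun x => v x - Ψ x) 2 (volume : Measure (Cfg d)) := hvm.sub hΨ
    have m3 : MemLp (fun x => ((χ x : ℝ) : ℂ) • Ψ x) 2 (volume : Measure (Cfg d)) := by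
      refine hΨ.of_le ((Complex.continuous_ofReal.comp hχs.continuous
        ).aestronglyMeasurable.smul hΨ.1) (Eventually.of_forall fun x => ?_)
      rw [norm_smul, Complex.norm_real, Real.norm_of_nonneg (hc.nonneg x)]
      exact mul_le_of_le_one_left (norm_nonneg _) (hc.le_one x)
    have m4 : MemLp (fun x => ((χ x : ℝ) : ℂ) • v x) 2 (volume : Measure (Cfg d)) := hui.1.memLp
    have m2 : MemLp (fun x => ((χ x : ℝ) : ℂ) • (v x - Ψ x)) 2 (volume : Measure (Cfg d)) := by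
      have := m4.sub m3
      refine this.ae_eq (Eventually.of_forall fun x => ?_)
      simp only [Pi.sub_apply, smul_sub]
    have e : (fun x => u x - Ψ x) = fun x => ((χ x : ℝ) : ℂ) • (v x - Ψ x) +
        (((χ x : ℝ) : ℂ) • Ψ x - Ψ x) := by
      funext x
      rw [smul_sub]
      abel
    have h2 := nsq_add_le m2 (m3.sub hΨ)
    have h3 := hle m1
    have h4 := happ ε₀ le_rfl ρ hmol
    rw [e]
    have h5 : nsq (fun x => ((χ x : ℝ) : ℂ) • (v x - Ψ x) + (((χ x : ℝ) : ℂ) • Ψ x - Ψ x)) ≤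
        2 * nsq (fun x => ((χ x : ℝ) : ℂ) • (v x - Ψ x)) +
        2 * nsq (fun x => ((χ x : ℝ) : ℂ) • Ψ x - Ψ x) := h2
    linarith
  have hpos : ∀ n : ℕ, (0 : ℝ) < 1 / ((n : ℝ) + 1) := fun n => by positivity
  choose u hu1 hu2 using fun n : ℕ => key _ (hpos n)
  have ht := tendsto_one_div_add_atTop_nhds_zero_nat (𝕜 := ℝ)
  exact ⟨u, hu1, ⟨fun n => (hu1 n).1.memLp, hΨ, squeeze_zero (fun n => nsq_nonneg _) hu2 ht⟩⟩

end Br

open Br in
/-- **H8** torus invariant low spaces give invariant low spaces -/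
theorem bridge [FiniteDimensional ℂ F] (S : Setup d F) (h5 : CGapTStmt S) (h6 : WSPStmt S) :
    BridgeStmt S := by
  have : CompleteSpace F := FiniteDimensional.complete ℂ F
  intro k m hm hL c hc
  have hP : ∀ a b, plT a b → Same a b := by
    intro a b hab
    obtain ⟨h1, h2⟩ := hab
    rw [h2]
    revert h1
    unfold Same
    fin_cases a <;> simp [U.pt]
  obtain ⟨Ψ, h1, h2, h3⟩ := k_zmP S hP (U.All.A2 S) (U.All.A3 S) (h5 m hm) hm hL
  have h4 : ∀ j, ∃ u : ℕ → (Cfg d) → F, (∀ n, S.Inv (u n)) ∧ L2t u (Ψ j) ∧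
      Tendsto (fun n => ∑ β, nsq (S.Qm m β (u n))) atTop (𝓝 0) := by
    intro j
    obtain ⟨v, hv, hvl, hve⟩ := h6 plT hP m 0 le_rfl (Ψ j) (h1 j) fun φ hφ => by
      have := h2 j φ hφ
      simpa using this
    have hΨ : MemLp (Ψ j) 2 (volume : Measure (Cfg d)) := hvl.mem'
    have hwG : S.wG (Ψ j) := wG_of_limP S hv hvl
    have hwQ : ∀ β ζ, Setup.Tst ζ → ∫ x, inner ℂ (S.Qm m β ζ x) (Ψ j x) = 0 := fun β ζ hζ =>
      wQ_of_lim S (fun n => (hv n).1) hvl (by simpa using hve) β hζ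
    have hwJ : S.wJ (Ψ j) := wJ_of_wQ S (U.All.A1 S) hm hΨ hwG hwQ
    obtain ⟨w, hw, hwl⟩ := clInv_of_w S hΨ hwG hwJ
    refine U.ws S (U.All.A7 S) m (Ψ j) ⟨w, hw, hwl⟩ fun φ hφ => ?_
    refine h2 j φ ⟨hφ.1, hφ.2.1, fun k l h x => hφ.2.2 k l (hP k l h) x⟩
  choose u hu hl hq using h4
  exact U.HB.low_of_lim S hu hl hq h3 hc

end Vale.Agent.P353.Z.AH
end

section

/-! # P353, all `N`, block H: profiles along an ultrafilter (helper973) -/

open MeasureTheory Filter Topology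
open scoped ContDiff ComplexConjugate

namespace Vale.Agent.P353.Z.AH

section abs

variable {H : Type*} [NormedAddCommGroup H] [InnerProductSpace ℂ H]
variable {L : Type*} [NormedAddCommGroup L] [InnerProductSpace ℂ L]

/-- asymptotic isometry on finite combinations -/
lemma comb {D : Submodule ℂ H} {J : ℕ → D → L}
    (hJ : ∀ a b : D, Tendsto (fun n => inner ℂ (J n a) (J n b)) atTop (𝓝 (inner ℂ (a : H) (b : H))))
    {κ : Type*} [Fintype κ] (c : κ → ℂ) (a : κ → D) :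
    Tendsto (fun n => ‖∑ k, c k • J n (a k)‖ ^ 2) atTop (𝓝 (‖∑ k, c k • (a k : H)‖ ^ 2)) := by
  have e1 : ∀ n, ‖∑ k, c k • J n (a k)‖ ^ 2 =
      (∑ k, ∑ l, c l * (conj (c k) * inner ℂ (J n (a k)) (J n (a l)))).re := by
    intro n
    rw [← inner_self_eq_norm_sq (𝕜 := ℂ), sum_inner]
    simp only [inner_sum, inner_smul_left, inner_smul_right]
    rfl
  have e2 : ‖∑ k, c k • (a k : H)‖ ^ 2 =
      (∑ k, ∑ l, c l * (conj (c k) * inner ℂ (a k : H) (a l : H))).re := by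
    rw [← inner_self_eq_norm_sq (𝕜 := ℂ), sum_inner]
    simp only [inner_sum, inner_smul_left, inner_smul_right]
    rfl
  simp only [e1]
  rw [e2]
  refine (Complex.continuous_re.tendsto _).comp ?_
  exact tendsto_finsetSum _ fun k _ => tendsto_finsetSum _ fun l _ =>
    ((hJ (a k) (a l)).const_mul _).const_mul _

/-- profile of a bounded sequence along an ultrafilter -/
lemma profile [CompleteSpace H] {D : Submodule ℂ H} {J : ℕ → D → L}
    (hJ : ∀ a b : D, Tendsto (fun n => inner ℂ (J n a) (J n b)) atTop (𝓝 (inner ℂ (a : H) (b : H))))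
    (U : Ultrafilter ℕ) (hU : (U : Filter ℕ) ≤ atTop) {Ψ : ℕ → L} {C : ℝ} (hC : 0 ≤ C)
    (hΨ : ∀ n, ‖Ψ n‖ ≤ C) :
    ∃ W : H, ‖W‖ ≤ C ∧ ∀ a : D, Tendsto (fun n => inner ℂ (J n a) (Ψ n)) U (𝓝 (inner ℂ (a : H) W)) := by
  have hn : ∀ a : D, Tendsto (fun n => ‖J n a‖) atTop (𝓝 ‖(a : H)‖) := by
    intro a
    have h := comb hJ (κ := Unit) (fun _ => 1) (fun _ => a)
    simp only [Finset.univ_unique, Finset.sum_singleton, one_smul] at h
    have h2 := (Real.continuous_sqrt.tendsto _).comp h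
    simpa [Function.comp_def, Real.sqrt_sq (norm_nonneg _)] using h2
  have hb : ∀ (a : D) n, ‖inner ℂ (J n a) (Ψ n)‖ ≤ ‖J n a‖ * C := fun a n =>
    (norm_inner_le_norm _ _).trans (mul_le_mul_of_nonneg_left (hΨ n) (norm_nonneg _))
  have hlim : ∀ a : D, ∃ z : ℂ, Tendsto (fun n => inner ℂ (J n a) (Ψ n)) U (𝓝 z) := by
    intro a
    have hev : ∀ᶠ n in (U : Filter ℕ), inner ℂ (J n a) (Ψ n) ∈
        Metric.closedBall (0 : ℂ) ((‖(a : H)‖ + 1) * C) := by
      have h1 : ∀ᶠ n in atTop, ‖J n a‖ < ‖(a : H)‖ + 1 :=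
        (hn a).eventually_lt_const (by linarith)
      filter_upwards [hU h1] with n h
      rw [mem_closedBall_zero_iff]
      exact (hb a n).trans (mul_le_mul_of_nonneg_right h.le hC)
    obtain ⟨z, _, hz⟩ := (isCompact_closedBall (0 : ℂ) ((‖(a : H)‖ + 1) * C)).ultrafilter_le_nhds
      (U.map fun n => inner ℂ (J n a) (Ψ n)) (by
        rw [Ultrafilter.coe_map, le_principal_iff, mem_map]
        exact hev)
    exact ⟨z, hz⟩
  choose z hz using hlim
  have hcomb : ∀ {κ : Type} [Fintype κ] (c : κ → ℂ) (a : κ → D), ∑ k, c k • (a k : H) = 0 →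
      ∑ k, conj (c k) * z (a k) = 0 := by
    intro κ _ c a h0
    have h1 : Tendsto (fun n => ∑ k, conj (c k) * inner ℂ (J n (a k)) (Ψ n)) U
        (𝓝 (∑ k, conj (c k) * z (a k))) :=
      tendsto_finsetSum _ fun k _ => (hz (a k)).const_mul _
    have h2 : Tendsto (fun n => ∑ k, conj (c k) * inner ℂ (J n (a k)) (Ψ n)) U (𝓝 0) := by
      have h3 := comb hJ c a
      rw [h0, norm_zero] at h3
      have h4 := (Real.continuous_sqrt.tendsto _).comp h3
      have h5 : Tendsto (fun n => ‖∑ k, c k • J n (a k)‖ * C) atTop (𝓝 0) := by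
        have h6 : Tendsto (fun n => ‖∑ k, c k • J n (a k)‖) atTop (𝓝 0) := by
          simpa [Function.comp_def, Real.sqrt_sq (norm_nonneg _)] using h4
        simpa using h6.mul_const C
      refine squeeze_zero_norm (fun n => ?_) (h5.mono_left hU)
      have e : ∑ k, conj (c k) * inner ℂ (J n (a k)) (Ψ n) =
          inner ℂ (∑ k, c k • J n (a k)) (Ψ n) := by
        rw [sum_inner]
        exact Finset.sum_congr rfl fun k _ => (inner_smul_left _ _ _).symm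
      rw [e]
      exact (norm_inner_le_norm _ _).trans (mul_le_mul_of_nonneg_left (hΨ n) (norm_nonneg _))
    exact tendsto_nhds_unique h1 h2
  have hadd : ∀ a b : D, z (a + b) = z a + z b := by
    intro a b
    have h := hcomb (κ := Fin 3) ![1, -1, -1] ![a + b, a, b] (by
      simp [Fin.sum_univ_three])
    simp [Fin.sum_univ_three] at h
    linear_combination h
  have hsm : ∀ (c : ℂ) (a : D), z (c • a) = conj c * z a := by
    intro c a
    have h := hcomb (κ := Fin 2) ![1, -c] ![c • a, a] (by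
      simp [Fin.sum_univ_two])
    simp [Fin.sum_univ_two] at h
    linear_combination h
  have hzb : ∀ a : D, ‖z a‖ ≤ C * ‖a‖ := by
    intro a
    have h1 : Tendsto (fun n => ‖J n a‖ * C) U (𝓝 (‖(a : H)‖ * C)) :=
      ((hn a).mul_const C).mono_left hU
    have h2 := le_of_tendsto_of_tendsto' (hz a).norm h1 (hb a)
    rw [mul_comm]
    exact h2
  let f : D →ₗ[ℂ] ℂ :=
    { toFun := fun a => conj (z a)
      map_add' := fun a b => by rw [hadd, map_add]
      map_smul' := fun c a => by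
        rw [hsm, map_mul, Complex.conj_conj]
        rfl }
  let f' : D →L[ℂ] ℂ := f.mkContinuous C fun a => by
    change ‖conj (z a)‖ ≤ C * ‖a‖
    rw [RCLike.norm_conj]
    exact hzb a
  obtain ⟨g, hg, hgn⟩ := exists_extension_norm_eq D f'
  refine ⟨(InnerProductSpace.toDual ℂ H).symm g, ?_, fun a => ?_⟩
  · rw [LinearIsometryEquiv.norm_map, hgn]
    exact LinearMap.mkContinuous_norm_le _ hC _
  · have h1 : inner ℂ (a : H) ((InnerProductSpace.toDual ℂ H).symm g) = z a := by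
      rw [← inner_conj_symm, InnerProductSpace.toDual_symm_apply, hg a]
      change conj (conj (z a)) = z a
      exact Complex.conj_conj _
    rw [h1]
    exact hz a

end abs

end Vale.Agent.P353.Z.AH
end

section

/-! # P353, all `N`, block H: the approximate resolvent of a trial function (helper973) -/

open MeasureTheory Filter Topology
open scoped ContDiff ComplexConjugate

namespace Vale.Agent.P353.Z.AH

section abs

variable {L : Type*} [NormedAddCommGroup L] [InnerProductSpace ℂ L]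

lemma est_a {f w h e : L} (hf : w + h = f + e) (hE : 0 ≤ (inner ℂ w h : ℂ).re) :
    ‖w‖ ≤ ‖f + e‖ ∧ ‖h‖ ≤ ‖f + e‖ ∧ 2 * (inner ℂ w h : ℂ).re ≤ ‖f + e‖ ^ 2 := by
  have h1 : ‖f + e‖ ^ 2 = ‖w‖ ^ 2 + 2 * (inner ℂ w h : ℂ).re + ‖h‖ ^ 2 := by
    rw [← hf]
    exact norm_add_sq (𝕜 := ℂ) w h
  have h2 := norm_nonneg w
  have h3 := norm_nonneg h
  have h4 := norm_nonneg (f + e)
  refine ⟨?_, ?_, ?_⟩
  · exact abs_le_of_sq_le_sq' (by nlinarith) h4 |>.2
  · exact abs_le_of_sq_le_sq' (by nlinarith) h4 |>.2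
  · nlinarith

lemma est_b {f w h e : L} (hf : w + h = f + e) :
    (inner ℂ w h : ℂ).re + ‖h‖ ^ 2 ≤
      ‖f‖ ^ 2 - (inner ℂ f w : ℂ).re + (‖w‖ + 2 * ‖h‖) * ‖e‖ := by
  have e1 : f = w + h - e := by rw [hf]; abel
  have e2 : f - w = h - e := by rw [e1]; abel
  have h1 : ‖f‖ ^ 2 - (inner ℂ f w : ℂ).re = (inner ℂ f (f - w) : ℂ).re := by
    rw [inner_sub_right, Complex.sub_re]
    congr 1
    exact (inner_self_eq_norm_sq (𝕜 := ℂ) f).symm
  have h2 : (inner ℂ f (f - w) : ℂ).re = (inner ℂ w h : ℂ).re + ‖h‖ ^ 2 + ‖e‖ ^ 2 -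
      (inner ℂ w e : ℂ).re - (inner ℂ h e : ℂ).re - (inner ℂ e h : ℂ).re := by
    rw [e2, e1]
    simp only [inner_sub_left, inner_sub_right, inner_add_left, Complex.sub_re, Complex.add_re]
    have h3 : (inner ℂ h h : ℂ).re = ‖h‖ ^ 2 := inner_self_eq_norm_sq (𝕜 := ℂ) h
    have h4 : (inner ℂ e e : ℂ).re = ‖e‖ ^ 2 := inner_self_eq_norm_sq (𝕜 := ℂ) e
    rw [h3, h4]
    ring
  have h5 : (inner ℂ w e : ℂ).re ≤ ‖w‖ * ‖e‖ := (Complex.re_le_norm _).trans (norm_inner_le_norm _ _)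
  have h6 : (inner ℂ h e : ℂ).re ≤ ‖h‖ * ‖e‖ := (Complex.re_le_norm _).trans (norm_inner_le_norm _ _)
  have h7 : (inner ℂ e h : ℂ).re ≤ ‖e‖ * ‖h‖ := (Complex.re_le_norm _).trans (norm_inner_le_norm _ _)
  rw [h1, h2]
  nlinarith [sq_nonneg ‖e‖]

end abs

variable {d : ℕ} {F : Type*} [NormedAddCommGroup F] [InnerProductSpace ℂ F]
variable {S : Setup d F} {ι : Type} (P : Prof S ι)

open Classical in
/-- the trial function as an `L²` vector -/
noncomputable def Jv (i : ι) (R : ℝ) (a : P.D i) : Lp F 2 (volume : Measure (Cfg d)) :=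
  if h : S.GInv (P.J i R a) then U.HB.toL h.1 else 0

lemma Jv_of {i : ι} {R : ℝ} {a : P.D i} (h : S.GInv (P.J i R a)) : Jv P i R a = U.HB.toL h.1 := by
  unfold Jv
  rw [dif_pos h]

lemma toL_inner {u v : Cfg d → F} (hu : Setup.Tst u) (hv : Setup.Tst v) :
    inner ℂ (U.HB.toL hu) (U.HB.toL hv) = ipr u v :=
  U.HB.inner_Lp (U.HB.coe_toL hu) (U.HB.coe_toL hv)

lemma toL_norm {u : Cfg d → F} (hu : Setup.Tst u) : ‖U.HB.toL hu‖ ^ 2 = nsq u :=
  U.HB.norm_Lp (U.HB.coe_toL hu)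

lemma Jv_inner {i : ι} (a : P.D i) : ∀ᶠ R in atTop, ∀ (u : Cfg d → F) (hu : Setup.Tst u),
    inner ℂ (Jv P i R a) (U.HB.toL hu) = ipr (P.J i R a) u := by
  filter_upwards [P.J_inv i a] with R h u hu
  rw [Jv_of P h, toL_inner]

lemma Jv_gram {i : ι} (a b : P.D i) : Tendsto (fun R => inner ℂ (Jv P i R a) (Jv P i R b)) atTop
    (𝓝 (inner ℂ (a : P.H i) (b : P.H i))) := by
  refine (P.gram i a b).congr' ?_
  filter_upwards [P.J_inv i a, P.J_inv i b] with R h h'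
  rw [Jv_of P h, Jv_of P h', toL_inner]

lemma Jv_norm {i : ι} (a : P.D i) : Tendsto (fun R => ‖Jv P i R a‖) atTop (𝓝 ‖(a : P.H i)‖) := by
  have h1 : Tendsto (fun R => ‖Jv P i R a‖ ^ 2) atTop (𝓝 (‖(a : P.H i)‖ ^ 2)) := by
    have h := (Complex.continuous_re.tendsto _).comp (Jv_gram P a a)
    have e1 : ∀ R, (inner ℂ (Jv P i R a) (Jv P i R a) : ℂ).re = ‖Jv P i R a‖ ^ 2 := fun R =>
      inner_self_eq_norm_sq (𝕜 := ℂ) _
    have e2 : (inner ℂ (a : P.H i) (a : P.H i) : ℂ).re = ‖(a : P.H i)‖ ^ 2 :=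
      inner_self_eq_norm_sq (𝕜 := ℂ) _
    rw [← e2]
    refine h.congr fun R => ?_
    exact e1 R
  have h2 := (Real.continuous_sqrt.tendsto _).comp h1
  simpa [Function.comp_def, Real.sqrt_sq (norm_nonneg _)] using h2

lemma GInv_csmul (c : ℂ) {u : Cfg d → F} (hu : S.GInv u) : S.GInv (fun y => c • u y) := by
  refine ⟨U.HB.Tst_csmul c hu.1, fun C x => ?_⟩
  rw [U.HB.G_csmul S C c hu.1.1, hu.2, smul_zero]

lemma GInv_Qm (m : ℝ) (β : Fin 16) {u : Cfg d → F} (hu : S.GInv u) : S.GInv (S.Qm m β u) := by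
  refine ⟨U.HB.Tst_Qm S m β hu.1, fun C x => ?_⟩
  have h0 : S.G C u = fun _ => 0 := funext fun y => hu.2 C y
  rw [U.All.A3 S m C β u hu.1.1 x, h0, U.HB.Qm_zero]

lemma nsq_csmul (c : ℂ) (u : Cfg d → F) : nsq (fun x => c • u x) = ‖c‖ ^ 2 * nsq u := by
  unfold nsq
  rw [← integral_const_mul]
  refine integral_congr_ae (Eventually.of_forall fun x => ?_)
  simp only [norm_smul, mul_pow]

lemma en_csmul (m : ℝ) (c : ℂ) {u : Cfg d → F} (hu : Setup.Tst u) :
    S.en m (fun x => c • u x) = ‖c‖ ^ 2 * S.en m u := by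
  unfold Setup.en
  rw [Finset.mul_sum]
  refine Finset.sum_congr rfl fun β _ => ?_
  rw [← nsq_csmul]
  congr 1
  funext x
  exact U.HB.Qm_csmul S m β c hu.1 x

lemma en_nonneg (m : ℝ) (u : Cfg d → F) : 0 ≤ S.en m u :=
  Finset.sum_nonneg fun β _ => nsq_nonneg _

end Vale.Agent.P353.Z.AH
end

section

/-! # P353, all `N`, block H: averages of families of test functions over a compact probability space (helper973) -/

open MeasureTheory Filter Topology
open scoped ContDiff ComplexConjugate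

namespace Vale.Agent.P353.Z.AH.Cir

variable {d : ℕ} {F : Type*} [NormedAddCommGroup F] [InnerProductSpace ℂ F]

lemma ipr_le {u v : Cfg d → F} (hu : Setup.Tst u) (hv : Setup.Tst v) :
    ‖ipr u v‖ ≤ Real.sqrt (nsq u) * Real.sqrt (nsq v) := by
  rw [← toL_inner hu hv]
  refine (norm_inner_le_norm _ _).trans ?_
  rw [← toL_norm hu, ← toL_norm hv, Real.sqrt_sq (norm_nonneg _), Real.sqrt_sq (norm_nonneg _)]

lemma ipr_self' {f : Cfg d → F} (hf : Setup.Tst f) : ipr f f = ((nsq f : ℝ) : ℂ) := by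
  rw [← toL_inner hf hf, inner_self_eq_norm_sq_to_K, ← toL_norm hf]
  norm_cast

variable {X : Type} [TopologicalSpace X] [CompactSpace X] [SecondCountableTopology X] [T2Space X]
  [MeasurableSpace X] [BorelSpace X] (μ : Measure X)

/-- a compactly supported continuous family is integrable on the product -/
lemma fam_int [IsFiniteMeasure μ] {f : X → Cfg d → F} (hf : Continuous fun p : X × Cfg d => f p.1 p.2)
    {r : ℝ} (hr : ∀ a x, r < ‖x‖ → f a x = 0) {g : Cfg d → F} (hg : Continuous g) :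
    Integrable (Function.uncurry fun (x : Cfg d) (a : X) => (inner ℂ (g x) (f a x) : ℂ)) (volume.prod μ) := by
  have hc : Continuous (Function.uncurry fun (x : Cfg d) (a : X) => (inner ℂ (g x) (f a x) : ℂ)) := by
    have h1 : Continuous fun p : Cfg d × X => f p.2 p.1 := hf.comp (continuous_snd.prodMk continuous_fst)
    exact (hg.comp continuous_fst).inner h1
  refine hc.integrable_of_hasCompactSupport ?_
  refine HasCompactSupport.intro ((isCompact_closedBall (0 : Cfg d) r).prod (isCompact_univ (X := X))) ?_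
  rintro ⟨x, a⟩ hx
  have h1 : r < ‖x‖ := by
    by_contra h
    exact hx ⟨by simpa using not_lt.mp h, Set.mem_univ _⟩
  simp only [Function.uncurry, hr a x h1, inner_zero_right]

lemma fam_cont {f : X → Cfg d → F} (hf : Continuous fun p : X × Cfg d => f p.1 p.2) (x : Cfg d) :
    Continuous fun a => f a x := hf.comp (continuous_id.prodMk continuous_const)

lemma int_fam [IsFiniteMeasure μ] {G : Type*} [NormedAddCommGroup G] {f : X → G} (hf : Continuous f) :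
    Integrable f μ :=
  hf.integrable_of_hasCompactSupport (HasCompactSupport.of_compactSpace f)

/-- pairing with an average -/
lemma pair_int [IsFiniteMeasure μ] [CompleteSpace F] {f : X → Cfg d → F}
    (hf : Continuous fun p : X × Cfg d => f p.1 p.2)
    {r : ℝ} (hr : ∀ a x, r < ‖x‖ → f a x = 0) {g : Cfg d → F} (hg : Continuous g) :
    ipr g (fun x => ∫ a, f a x ∂μ) = ∫ a, ipr g (f a) ∂μ := by
  unfold ipr
  have h1 : ∀ x, (inner ℂ (g x) (∫ a, f a x ∂μ) : ℂ) = ∫ a, inner ℂ (g x) (f a x) ∂μ := by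
    intro x
    exact (ContinuousLinearMap.integral_comp_comm (innerSL ℂ (g x)) (int_fam μ (fam_cont hf x))).symm
  simp only [h1]
  exact integral_integral_swap (fam_int μ hf hr hg)

/-- Jensen -/
lemma jensen [IsProbabilityMeasure μ] [CompleteSpace F] {κ : Type*} [Fintype κ] {f : κ → X → Cfg d → F}
    (hf : ∀ b, Continuous fun p : X × Cfg d => f b p.1 p.2)
    {r : ℝ} (hr : ∀ b a x, r < ‖x‖ → f b a x = 0) (hT : ∀ b a, Setup.Tst (f b a))
    {g : κ → Cfg d → F} (hg : ∀ b x, g b x = ∫ a, f b a x ∂μ) (hgT : ∀ b, Setup.Tst (g b))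
    {B : ℝ} (hB : ∀ a, ∑ b, nsq (f b a) ≤ B) : ∑ b, nsq (g b) ≤ B := by
  set G : ℝ := ∑ b, nsq (g b) with hG
  have hG0 : 0 ≤ G := Finset.sum_nonneg fun b _ => nsq_nonneg _
  have h1 : (G : ℂ) = ∫ a, ∑ b, ipr (g b) (f b a) ∂μ := by
    have h2 : ∀ b, ipr (g b) (g b) = ∫ a, ipr (g b) (f b a) ∂μ := by
      intro b
      rw [← pair_int μ (hf b) (hr b) (hgT b).1.continuous]
      congr 1
      funext x
      exact hg b x
    have h3 : ∀ b, Integrable (fun a => ipr (g b) (f b a)) μ := by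
      intro b
      exact (fam_int μ (hf b) (hr b) (hgT b).1.continuous).swap.integral_prod_left
    rw [integral_finsetSum _ fun b _ => h3 b, hG]
    push_cast
    refine Finset.sum_congr rfl fun b _ => ?_
    rw [← h2, ipr_self' (hgT b)]
  have h2 : ∀ a, ‖∑ b, ipr (g b) (f b a)‖ ≤ Real.sqrt G * Real.sqrt B := by
    intro a
    calc ‖∑ b, ipr (g b) (f b a)‖ ≤ ∑ b, Real.sqrt (nsq (g b)) * Real.sqrt (nsq (f b a)) :=
          norm_sum_le_of_le _ fun b _ => ipr_le (hgT b) (hT b a)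
      _ ≤ Real.sqrt (∑ b, nsq (g b)) * Real.sqrt (∑ b, nsq (f b a)) := by
          have h := Real.sum_sqrt_mul_sqrt_le (Finset.univ : Finset κ) (f := fun b => nsq (g b))
            (g := fun b => nsq (f b a)) (fun b => nsq_nonneg _) (fun b => nsq_nonneg _)
          exact h
      _ ≤ _ := mul_le_mul_of_nonneg_left (Real.sqrt_le_sqrt (hB a)) (Real.sqrt_nonneg _)
  have h3 : G ≤ Real.sqrt G * Real.sqrt B := by
    have h4 : ‖(G : ℂ)‖ ≤ Real.sqrt G * Real.sqrt B := by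
      rw [h1]
      have h5 := norm_integral_le_of_norm_le_const (μ := μ) (Eventually.of_forall h2)
      simpa using h5
    rwa [Complex.norm_real, Real.norm_eq_abs, abs_of_nonneg hG0] at h4
  rcases hG0.eq_or_lt with h | h
  · rw [← h]
    have : Nonempty X := by
      by_contra hX
      rw [not_nonempty_iff] at hX
      have h6 := measure_univ (μ := μ)
      rw [Measure.eq_zero_of_isEmpty μ] at h6
      simp at h6
    obtain ⟨a⟩ := this
    exact (Finset.sum_nonneg fun b _ => nsq_nonneg _).trans (hB a)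
  · have h4 : Real.sqrt G ^ 2 = G := Real.sq_sqrt hG0
    have h5 : 0 < Real.sqrt G := Real.sqrt_pos.mpr h
    have h6 : Real.sqrt G ≤ Real.sqrt B := by
      refine le_of_mul_le_mul_left (a := Real.sqrt G) ?_ h5
      rw [← sq, h4]
      exact h3
    by_contra h7
    push Not at h7
    have h8 : Real.sqrt B < Real.sqrt G := by
      rcases le_or_gt 0 B with hB0 | hB0
      · exact Real.sqrt_lt_sqrt hB0 h7
      · rw [Real.sqrt_eq_zero_of_nonpos hB0.le]
        exact h5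
    linarith

end Vale.Agent.P353.Z.AH.Cir
end

section

/-! # P353, all `N`, block G: `SmIntStmt` (smoothness of averages) -/

open MeasureTheory Filter Topology
open scoped ContDiff

namespace Vale.Agent.P353.AN.G

universe w

namespace SmIntAux

section

variable {X E : Type} [TopologicalSpace X] [CompactSpace X] [SecondCountableTopology X]
  [MeasurableSpace X] [BorelSpace X] [NormedAddCommGroup E] [NormedSpace ℝ E]
  [FiniteDimensional ℝ E]

/-- differentiation under the integral over a compact space -/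
theorem hasFDerivAt_int {F : Type w} [NormedAddCommGroup F] [NormedSpace ℝ F]
    (μ : Measure X) [IsFiniteMeasure μ] (G : X → E → F) (G' : X → E → E →L[ℝ] F)
    (hG : Continuous (Function.uncurry G)) (hG' : Continuous (Function.uncurry G'))
    (hd : ∀ a x, HasFDerivAt (G a) (G' a x) x) (x₀ : E) :
    HasFDerivAt (fun x => ∫ a, G a x ∂μ) (∫ a, G' a x₀ ∂μ) x₀ := by
  have hK : IsCompact ((Set.univ : Set X) ×ˢ Metric.closedBall x₀ 1) :=
    isCompact_univ.prod (isCompact_closedBall x₀ 1)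
  obtain ⟨C, hC⟩ := hK.exists_bound_of_continuousOn (f := Function.uncurry G') hG'.continuousOn
  have hm : ∀ x, AEStronglyMeasurable (fun a => G a x) μ := fun x =>
    (hG.comp (continuous_id.prodMk continuous_const)).aestronglyMeasurable
  have hm' : ∀ x, AEStronglyMeasurable (fun a => G' a x) μ := fun x =>
    (hG'.comp (continuous_id.prodMk continuous_const)).aestronglyMeasurable
  have hint : Integrable (fun a => G a x₀) μ := by
    obtain ⟨C₁, hC₁⟩ := (isCompact_univ (X := X)).exists_bound_of_continuousOn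
      (f := fun a => G a x₀) (hG.comp (continuous_id.prodMk continuous_const)).continuousOn
    exact Integrable.of_bound (hm x₀) C₁ (Eventually.of_forall fun a => hC₁ a (Set.mem_univ a))
  refine hasFDerivAt_integral_of_dominated_of_fderiv_le (F := fun x a => G a x)
    (F' := fun x a => G' a x) (s := Metric.closedBall x₀ 1) (bound := fun _ => C)
    (Metric.closedBall_mem_nhds x₀ one_pos) (Eventually.of_forall hm) hint (hm' x₀) ?_
    (integrable_const C) (Eventually.of_forall fun a x _ => hd a x)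
  exact Eventually.of_forall fun a x hx => hC (a, x) ⟨Set.mem_univ a, hx⟩

variable (μ : Measure X) [IsFiniteMeasure μ] (ρ : X → E →L[ℝ] E) (hρ : Continuous ρ)

include hρ in
theorem hasFDerivAt_avg {F₁ F₂ : Type w} [NormedAddCommGroup F₁] [NormedSpace ℝ F₁]
    [NormedAddCommGroup F₂] [NormedSpace ℝ F₂]
    (s : X → F₁ →L[ℝ] F₂) (hs : Continuous s) (v : E → F₁) (hv : ContDiff ℝ ∞ v) (x₀ : E) :
    HasFDerivAt (fun x => ∫ a, s a (v (ρ a x)) ∂μ)
      (∫ a, (s a).comp ((fderiv ℝ v (ρ a x₀)).comp (ρ a)) ∂μ) x₀ := by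
  have hv' : Continuous (fderiv ℝ v) := hv.continuous_fderiv (by simp)
  have hρ2 : Continuous fun p : X × E => ρ p.1 p.2 :=
    (hρ.comp continuous_fst).clm_apply continuous_snd
  refine hasFDerivAt_int μ (fun a x => s a (v (ρ a x)))
    (fun a x => (s a).comp ((fderiv ℝ v (ρ a x)).comp (ρ a))) ?_ ?_ ?_ x₀
  · exact (hs.comp continuous_fst).clm_apply (hv.continuous.comp hρ2)
  · exact (hs.comp continuous_fst).clm_comp ((hv'.comp hρ2).clm_comp (hρ.comp continuous_fst))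
  · intro a x
    have h1 : HasFDerivAt v (fderiv ℝ v (ρ a x)) (ρ a x) :=
      (hv.differentiable (by simp) _).hasFDerivAt
    exact (s a).hasFDerivAt.comp x (h1.comp x (ρ a).hasFDerivAt)

include hρ in
theorem contDiff_avg (n : ℕ) : ∀ (F₁ F₂ : Type w) [NormedAddCommGroup F₁] [NormedSpace ℝ F₁]
    [NormedAddCommGroup F₂] [NormedSpace ℝ F₂]
    (s : X → F₁ →L[ℝ] F₂), Continuous s → ∀ v : E → F₁, ContDiff ℝ ∞ v →
    ContDiff ℝ n (fun x => ∫ a, s a (v (ρ a x)) ∂μ) := by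
  induction n with
  | zero =>
    intro F₁ F₂ _ _ _ _ s hs v hv
    have hd : Differentiable ℝ (fun x => ∫ a, s a (v (ρ a x)) ∂μ) := fun x =>
      (hasFDerivAt_avg μ ρ hρ s hs v hv x).differentiableAt
    exact contDiff_zero.2 hd.continuous
  | succ n ih =>
    intro F₁ F₂ _ _ _ _ s hs v hv
    have hd : Differentiable ℝ (fun x => ∫ a, s a (v (ρ a x)) ∂μ) := fun x =>
      (hasFDerivAt_avg μ ρ hρ s hs v hv x).differentiableAt
    have hf : fderiv ℝ (fun x => ∫ a, s a (v (ρ a x)) ∂μ) = fun x =>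
        ∫ a, ((ContinuousLinearMap.compL ℝ E F₁ F₂ (s a)).comp
          ((ContinuousLinearMap.compL ℝ E E F₁).flip (ρ a))) (fderiv ℝ v (ρ a x)) ∂μ := by
      funext x
      rw [(hasFDerivAt_avg μ ρ hρ s hs v hv x).fderiv]
      rfl
    have hc : Continuous fun a => (ContinuousLinearMap.compL ℝ E F₁ F₂ (s a)).comp
          ((ContinuousLinearMap.compL ℝ E E F₁).flip (ρ a)) :=
      ((ContinuousLinearMap.compL ℝ E F₁ F₂).continuous.comp hs).clm_comp
        (((ContinuousLinearMap.compL ℝ E E F₁).flip).continuous.comp hρ)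
    have hv' : ContDiff ℝ ∞ (fderiv ℝ v) := hv.fderiv_right (m := ∞) (by simp)
    rw [Nat.cast_succ, contDiff_succ_iff_fderiv]
    refine ⟨hd, fun h => absurd h (by simp), ?_⟩
    rw [hf]
    exact ih (E →L[ℝ] F₁) (E →L[ℝ] F₂) _ hc _ hv'

end

end SmIntAux

/-- **G01** `SmIntStmt`. -/
theorem smInt (X E : Type) [TopologicalSpace X] [CompactSpace X] [SecondCountableTopology X]
    [MeasurableSpace X] [BorelSpace X] [NormedAddCommGroup E] [NormedSpace ℝ E]
    [FiniteDimensional ℝ E] : SmIntStmt.{w} X E := by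
  intro μ _ ρ hρ F₁ F₂ _ _ _ _ _ _ s hs v hv
  refine ⟨contDiff_infty.2 fun n => SmIntAux.contDiff_avg μ ρ hρ n F₁ F₂ s hs v hv, ?_⟩
  intro x w
  have : CompleteSpace F₂ := FiniteDimensional.complete ℝ F₂
  rw [(SmIntAux.hasFDerivAt_avg μ ρ hρ s hs v hv x).fderiv,
    ContinuousLinearMap.integral_apply]
  · rfl
  · have hv' : Continuous (fderiv ℝ v) := hv.continuous_fderiv (by simp)
    have hc : Continuous fun a => (s a).comp ((fderiv ℝ v (ρ a x)).comp (ρ a)) :=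
      hs.clm_comp ((hv'.comp (hρ.clm_apply continuous_const)).clm_comp hρ)
    obtain ⟨C₁, hC₁⟩ := (isCompact_univ (X := X)).exists_bound_of_continuousOn hc.continuousOn
    exact Integrable.of_bound hc.aestronglyMeasurable C₁
      (Eventually.of_forall fun a => hC₁ a (Set.mem_univ a))

end Vale.Agent.P353.AN.G
end

section

/-! # P353, all `N`, block H: the approximate resolvent of a trial function is a low state (helper973) -/

open MeasureTheory Filter Topology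
open scoped ContDiff ComplexConjugate

namespace Vale.Agent.P353.Z.AH

variable {d : ℕ} {F : Type*} [NormedAddCommGroup F] [InnerProductSpace ℂ F]
variable {S : Setup d F} {ι : Type} (P : Prof S ι)

/-- data of one approximate resolvent vector: `w + h = f + e`, `h = (R²/16) HH w`, all in `L²` -/
lemma one_step (hD : DenseStmt S) {R : ℝ} (hR : 1 ≤ R) {f : Cfg d → F} (hf : S.GInv f) {δ : ℝ} (hδ : 0 < δ) :
    ∃ (w : Cfg d → F) (hw : S.GInv w) (h e : Lp F 2 (volume : Measure (Cfg d))),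
      U.HB.toL hw.1 + h = U.HB.toL hf.1 + e ∧ ‖e‖ ≤ δ ∧
      h = ((R ^ 2 / 16 : ℝ) : ℂ) • U.HB.toL (U.HB.Tst_HH S (R⁻¹ ^ 2) hw.1) ∧
      inner ℂ (U.HB.toL hw.1) h = ((R ^ 2 / 16 * S.en (R⁻¹ ^ 2) w : ℝ) : ℂ) := by
  have hR0 : 0 < R := by linarith
  set c : ℝ := 16 * R⁻¹ ^ 2 with hc
  have hc0 : 0 < c := by positivity
  obtain ⟨w, hw, hn⟩ := hD (R⁻¹ ^ 2) c hc0 (fun x => (c : ℂ) • f x) (GInv_csmul _ hf) ((c * δ) ^ 2) (by positivity)
  set h : Lp F 2 (volume : Measure (Cfg d)) :=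
    ((R ^ 2 / 16 : ℝ) : ℂ) • U.HB.toL (U.HB.Tst_HH S (R⁻¹ ^ 2) hw.1) with hh
  refine ⟨w, hw, h, U.HB.toL hw.1 + h - U.HB.toL hf.1, by abel, ?_, rfl, ?_⟩
  · have h1 : U.HB.toL hw.1 + h - U.HB.toL hf.1 =ᵐ[volume] fun x =>
        ((c⁻¹ : ℝ) : ℂ) • (U.HB.HH S (R⁻¹ ^ 2) w x + (c : ℂ) • w x - (c : ℂ) • f x) := by
      filter_upwards [Lp.coeFn_sub (U.HB.toL hw.1 + h) (U.HB.toL hf.1), Lp.coeFn_add (U.HB.toL hw.1) h,
        Lp.coeFn_smul ((R ^ 2 / 16 : ℝ) : ℂ) (U.HB.toL (U.HB.Tst_HH S (R⁻¹ ^ 2) hw.1)), U.HB.coe_toL hw.1,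
        U.HB.coe_toL hf.1, U.HB.coe_toL (U.HB.Tst_HH S (R⁻¹ ^ 2) hw.1)] with x h1 h2 h3 h4 h5 h6
      rw [h1, Pi.sub_apply, h2, Pi.add_apply, h3, Pi.smul_apply, h4, h5, h6]
      have e1 : (R ^ 2 / 16 : ℝ) = c⁻¹ := by
        rw [hc]
        field_simp
      rw [e1, smul_sub, smul_add, smul_smul, smul_smul]
      have e2 : ((c⁻¹ : ℝ) : ℂ) * (c : ℂ) = 1 := by
        rw [← Complex.ofReal_mul, inv_mul_cancel₀ hc0.ne', Complex.ofReal_one]
      rw [e2, one_smul, one_smul]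
      abel
    have h2 := U.HB.norm_Lp h1
    rw [nsq_csmul] at h2
    have h3 : ‖((c⁻¹ : ℝ) : ℂ)‖ ^ 2 = (c⁻¹) ^ 2 := by
      rw [Complex.norm_real, Real.norm_eq_abs, sq_abs]
    rw [h3] at h2
    have h4 : ‖U.HB.toL hw.1 + h - U.HB.toL hf.1‖ ^ 2 ≤ δ ^ 2 := by
      rw [h2]
      calc c⁻¹ ^ 2 * nsq _ ≤ c⁻¹ ^ 2 * (c * δ) ^ 2 := by gcongr
        _ = δ ^ 2 := by field_simp
    exact abs_le_of_sq_le_sq' h4 hδ.le |>.2
  · rw [hh, inner_smul_right, toL_inner]
    have h1 : ipr w (U.HB.HH S (R⁻¹ ^ 2) w) = ((S.en (R⁻¹ ^ 2) w : ℝ) : ℂ) := by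
      have h2 := U.HB.inner_HH S (R⁻¹ ^ 2) hw.1 hw.1
      have h3 : ∀ β, ∫ x, inner ℂ (S.Qm (R⁻¹ ^ 2) β w x) (S.Qm (R⁻¹ ^ 2) β w x) =
          ((nsq (S.Qm (R⁻¹ ^ 2) β w) : ℝ) : ℂ) := by
        intro β
        rw [nsq, ← integral_complex_ofReal]
        refine integral_congr_ae (Eventually.of_forall fun x => ?_)
        simp only [inner_self_eq_norm_sq_to_K]
        norm_cast
      simp only [h3] at h2
      have h4 : ipr w (U.HB.HH S (R⁻¹ ^ 2) w) = conj (∫ x, inner ℂ (U.HB.HH S (R⁻¹ ^ 2) w x) (w x)) := by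
        rw [ipr, ← integral_conj]
        simp only [inner_conj_symm]
      rw [h4, h2]
      unfold Setup.en
      push_cast
      simp only [map_sum, Complex.conj_ofReal]
    rw [h1]
    push_cast
    ring

/-- bounds for the approximate resolvent vector -/
lemma one_bounds {R : ℝ} (hR : 1 ≤ R) {C0 : ℝ} (hC0 : 0 ≤ C0)
    (hQQ : ∀ m : ℝ, 0 ≤ m → ∀ u : Cfg d → F, S.GInv u →
      ∑ α, ∑ β, nsq (S.Qm m β (S.Qm m α u)) ≤ nsq (U.HB.HH S m u) + C0 * m * S.en m u)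
    {w : Cfg d → F} (hw : S.GInv w) {h g : Lp F 2 (volume : Measure (Cfg d))} {M : ℝ}
    (hg : ‖g‖ ≤ M) (he : U.HB.toL hw.1 + h = g)
    (hh : h = ((R ^ 2 / 16 : ℝ) : ℂ) • U.HB.toL (U.HB.Tst_HH S (R⁻¹ ^ 2) hw.1))
    (hi : inner ℂ (U.HB.toL hw.1) h = ((R ^ 2 / 16 * S.en (R⁻¹ ^ 2) w : ℝ) : ℂ)) :
    ‖U.HB.toL hw.1‖ ≤ M ∧ ‖h‖ ≤ M ∧ R ^ 4 * nsq (U.HB.HH S (R⁻¹ ^ 2) w) = 256 * ‖h‖ ^ 2 ∧
      R ^ 2 * S.en (R⁻¹ ^ 2) w ≤ 8 * M ^ 2 ∧
      ∀ β, R ^ 4 * S.en (R⁻¹ ^ 2) (S.Qm (R⁻¹ ^ 2) β w) ≤ (256 + 8 * C0) * M ^ 2 := by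
  have hR0 : 0 < R := by linarith
  have hen := en_nonneg (S := S) (R⁻¹ ^ 2) w
  have hE : 0 ≤ (inner ℂ (U.HB.toL hw.1) h : ℂ).re := by
    rw [hi, Complex.ofReal_re]
    positivity
  have h1 := est_a (f := g) (e := 0) (by rw [add_zero]; exact he) hE
  rw [add_zero] at h1
  obtain ⟨h2, h3, h4⟩ := h1
  have hM : 0 ≤ M := (norm_nonneg g).trans hg
  have h5 : ‖g‖ ^ 2 ≤ M ^ 2 := by gcongr
  rw [hi, Complex.ofReal_re] at h4
  have h6 : R ^ 4 * nsq (U.HB.HH S (R⁻¹ ^ 2) w) = 256 * ‖h‖ ^ 2 := by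
    rw [hh, norm_smul, mul_pow, toL_norm, Complex.norm_real, Real.norm_eq_abs, sq_abs]
    ring
  have h7 : R ^ 2 * S.en (R⁻¹ ^ 2) w ≤ 8 * M ^ 2 := by nlinarith
  refine ⟨h2.trans hg, h3.trans hg, h6, h7, fun β => ?_⟩
  have h8 := hQQ (R⁻¹ ^ 2) (by positivity) w hw
  have h9 : S.en (R⁻¹ ^ 2) (S.Qm (R⁻¹ ^ 2) β w) ≤
      ∑ α, ∑ β, nsq (S.Qm (R⁻¹ ^ 2) β (S.Qm (R⁻¹ ^ 2) α w)) :=
    Finset.single_le_sum (f := fun α => ∑ β, nsq (S.Qm (R⁻¹ ^ 2) β (S.Qm (R⁻¹ ^ 2) α w)))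
      (fun α _ => Finset.sum_nonneg fun β _ => nsq_nonneg _) (Finset.mem_univ β)
  have h10 : ‖h‖ ^ 2 ≤ M ^ 2 := by
    have := h3.trans hg
    gcongr
  calc R ^ 4 * S.en (R⁻¹ ^ 2) (S.Qm (R⁻¹ ^ 2) β w)
      ≤ R ^ 4 * (nsq (U.HB.HH S (R⁻¹ ^ 2) w) + C0 * R⁻¹ ^ 2 * S.en (R⁻¹ ^ 2) w) := by
        gcongr
        exact h9.trans h8
    _ = R ^ 4 * nsq (U.HB.HH S (R⁻¹ ^ 2) w) + C0 * (R ^ 2 * S.en (R⁻¹ ^ 2) w) := by
        field_simp
    _ ≤ 256 * M ^ 2 + C0 * (8 * M ^ 2) := by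
        rw [h6]
        gcongr
    _ = _ := by ring

lemma ipr_csmul (f u : Cfg d → F) (c : ℂ) : ipr f (fun x => c • u x) = c * ipr f u := by
  unfold ipr
  rw [← integral_const_mul]
  simp only [inner_smul_right]

/-- `R² ⟨f, HH w⟩ = ∑ R ⟨f, Q_β (R Q_β w)⟩` -/
lemma ipr_HH {R m : ℝ} {f w : Cfg d → F} (hf : S.GInv f) (hw : S.GInv w) :
    ∑ β, (R : ℂ) * ipr f (S.Qm m β (fun x => ((R : ℝ) : ℂ) • S.Qm m β w x)) =
      ((R ^ 2 : ℝ) : ℂ) * ipr f (U.HB.HH S m w) := by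
  have h5 : ∀ β, ipr f (S.Qm m β (fun x => ((R : ℝ) : ℂ) • S.Qm m β w x)) =
      (R : ℂ) * ipr f (S.Qm m β (S.Qm m β w)) := by
    intro β
    rw [← ipr_csmul]
    congr 1
    funext x
    exact U.HB.Qm_csmul S _ β _ (U.HB.contDiff_Qm S _ β hw.1.1) x
  simp only [h5]
  have h6 : ipr f (U.HB.HH S m w) = ∑ β, ipr f (S.Qm m β (S.Qm m β w)) := by
    unfold ipr U.HB.HH
    simp only [inner_sum]
    exact integral_finsetSum _ fun β _ => hf.1.inner_int
      (U.HB.contDiff_Qm S _ β (U.HB.contDiff_Qm S _ β hw.1.1)).continuous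
  rw [h6, Finset.mul_sum]
  refine Finset.sum_congr rfl fun β _ => ?_
  push_cast
  ring

/-- the final estimate of `core` -/
lemma one_end {R ε η : ℝ} (hε0 : 0 < ε) (hε1 : ε ≤ 1) (hε3 : 3000 * ε ≤ η) {f w : Cfg d → F} (hf : S.GInv f)
    (hw : S.GInv w) {h e : Lp F 2 (volume : Measure (Cfg d))}
    (hwh : U.HB.toL hw.1 + h = U.HB.toL hf.1 + e) (he2 : ‖e‖ ≤ ε)
    (hsum : R ^ 2 / 16 * S.en (R⁻¹ ^ 2) w + ‖h‖ ^ 2 ≤ 5 * ε)
    (hH : R ^ 4 * nsq (U.HB.HH S (R⁻¹ ^ 2) w) = 256 * ‖h‖ ^ 2) :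
    nsq (fun x => w x - f x) ≤ η ∧ R ^ 2 * S.en (R⁻¹ ^ 2) w ≤ η ∧
      R ^ 4 * nsq (U.HB.HH S (R⁻¹ ^ 2) w) ≤ η := by
  have hen := en_nonneg (S := S) (R⁻¹ ^ 2) w
  have hp1 : 0 ≤ R ^ 2 / 16 * S.en (R⁻¹ ^ 2) w := by positivity
  have hh2 : ‖h‖ ^ 2 ≤ 5 * ε := by linarith
  refine ⟨?_, ?_, ?_⟩
  · have h1 : U.HB.toL hw.1 - U.HB.toL hf.1 =ᵐ[volume] fun x => w x - f x := by
      filter_upwards [Lp.coeFn_sub (U.HB.toL hw.1) (U.HB.toL hf.1), U.HB.coe_toL hw.1,
        U.HB.coe_toL hf.1] with x h1 h2 h3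
      rw [h1, Pi.sub_apply, h2, h3]
    rw [← U.HB.norm_Lp h1]
    have h2 : U.HB.toL hw.1 - U.HB.toL hf.1 = e - h := by
      have h3 : U.HB.toL hw.1 = U.HB.toL hf.1 + e - h := by rw [← hwh]; abel
      rw [h3]
      abel
    rw [h2]
    have h3 : ‖e - h‖ ^ 2 ≤ 2 * ‖e‖ ^ 2 + 2 * ‖h‖ ^ 2 := by
      have h4 := norm_sub_le e h
      nlinarith [sq_nonneg (‖e‖ - ‖h‖), norm_nonneg (e - h), norm_nonneg e, norm_nonneg h]
    have h5 : ‖e‖ ^ 2 ≤ ε := by
      nlinarith [norm_nonneg e]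
    linarith
  · have := sq_nonneg ‖h‖
    linarith
  · rw [hH]
    linarith

/-- **core of S7**: close to the ground state profile, `J_R a` is close to a low vector with small `‖Hw‖` -/
theorem core (hE : P.LimEq) (hQQ : QQStmt S) (hD : DenseStmt S) (i : ι) {η : ℝ} (hη : 0 < η) :
    ∃ a : P.D i, ‖(a : P.H i) - P.g i‖ ≤ η ∧ ∀ᶠ R : ℝ in atTop, S.GInv (P.J i R a) ∧ ∃ w : Cfg d → F, S.GInv w ∧
      nsq (fun x => w x - P.J i R a x) ≤ η ∧ R ^ 2 * S.en (R⁻¹ ^ 2) w ≤ η ∧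
      R ^ 4 * nsq (U.HB.HH S (R⁻¹ ^ 2) w) ≤ η := by
  classical
  obtain ⟨C0, hC0, hQQ⟩ := hQQ
  set ε : ℝ := min 1 (min η (η / 3000)) with hε
  have hε0 : 0 < ε := lt_min one_pos (lt_min hη (by positivity))
  have hε1 : ε ≤ 1 := min_le_left _ _
  have hε2 : ε ≤ η := (min_le_right _ _).trans (min_le_left _ _)
  have hε3 : 3000 * ε ≤ η := by
    have : ε ≤ η / 3000 := (min_le_right _ _).trans (min_le_right _ _)
    linarith
  obtain ⟨a0, ha0, had⟩ := Metric.mem_closure_iff.mp (P.dense i (P.g i)) ε hε0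
  set a : P.D i := ⟨a0, ha0⟩ with hadef
  have hag : ‖(a : P.H i) - P.g i‖ ≤ ε := by
    rw [← dist_eq_norm, dist_comm]
    exact had.le
  have han : ‖(a : P.H i)‖ ≤ 2 := by
    have h1 : (a : P.H i) = ((a : P.H i) - P.g i) + P.g i := by abel
    rw [h1]
    refine (norm_add_le _ _).trans ?_
    rw [P.g_norm i]
    linarith
  refine ⟨a, hag.trans hε2, ?_⟩
  by_contra hcon
  -- a bad sequence
  have hfr : ∃ᶠ R : ℝ in atTop, (S.GInv (P.J i R a) ∧ 1 ≤ R ∧ ‖Jv P i R a‖ ≤ 3) ∧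
      ¬ (∃ w : Cfg d → F, S.GInv w ∧ nsq (fun x => w x - P.J i R a x) ≤ η ∧
        R ^ 2 * S.en (R⁻¹ ^ 2) w ≤ η ∧ R ^ 4 * nsq (U.HB.HH S (R⁻¹ ^ 2) w) ≤ η) := by
    have h1 : ∀ᶠ R : ℝ in atTop, S.GInv (P.J i R a) ∧ 1 ≤ R ∧ ‖Jv P i R a‖ ≤ 3 := by
      filter_upwards [P.J_inv i a, eventually_ge_atTop (1 : ℝ),
        (Jv_norm P a).eventually_le_const (by linarith : ‖(a : P.H i)‖ < 3)] with R h1 h2 h3
      exact ⟨h1, h2, h3⟩
    have h2 := (not_eventually.mp hcon).and_eventually h1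
    refine h2.mono fun R h3 => ⟨h3.2, fun h4 => h3.1 ⟨h3.2.1, h4⟩⟩
  obtain ⟨R, hRlim, hRp⟩ := exists_seq_forall_of_frequently hfr
  have hδ : ∀ n : ℕ, (0 : ℝ) < 1 / ((n : ℝ) + 1) := fun n => by positivity
  choose w hw h e hwh he hh hi using fun n => one_step hD (hRp n).1.2.1 (hRp n).1.1 (hδ n)
  have hR1 : ∀ n, 1 ≤ R n := fun n => (hRp n).1.2.1
  have hR0 : ∀ n, 0 < R n := fun n => lt_of_lt_of_le one_pos (hR1 n)
  have hfn : ∀ n, ‖U.HB.toL (hRp n).1.1.1‖ ≤ 3 := by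
    intro n
    have := (hRp n).1.2.2
    rwa [Jv_of P (hRp n).1.1] at this
  have hen1 : ∀ n, ‖e n‖ ≤ 1 := by
    intro n
    refine (he n).trans ?_
    rw [div_le_one (by positivity)]
    linarith [Nat.cast_nonneg (α := ℝ) n]
  have hg4 : ∀ n, ‖U.HB.toL (hRp n).1.1.1 + e n‖ ≤ 4 := fun n =>
    (norm_add_le _ _).trans (by linarith [hfn n, hen1 n])
  have hB := fun n => one_bounds (hR1 n) hC0 hQQ (hw n) (hg4 n) (hwh n) (hh n) (hi n)
  set C : ℝ := (256 + 8 * C0) * 4 ^ 2 + 8 * 4 ^ 2 with hC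
  have hCpos : 0 ≤ C := by positivity
  -- `w` is bounded
  have hbw : Prof.Bdd S R w C := by
    refine ⟨hRlim, hw, fun n => ?_, fun n => ?_⟩
    · rw [← toL_norm (hw n).1]
      have h1 := (hB n).1
      have h2 : ‖U.HB.toL (hw n).1‖ ^ 2 ≤ 4 ^ 2 := by gcongr
      rw [hC]
      nlinarith
    · have h1 := (hB n).2.2.2.1
      rw [hC]
      nlinarith
  -- `v_β` is bounded
  set v : Fin 16 → ℕ → Cfg d → F := fun β n x => ((R n : ℝ) : ℂ) • S.Qm ((R n)⁻¹ ^ 2) β (w n) x with hv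
  have hvi : ∀ β n, S.GInv (v β n) := fun β n => GInv_csmul _ (GInv_Qm _ β (hw n))
  have hbv : ∀ β, Prof.Bdd S R (v β) C := by
    intro β
    refine ⟨hRlim, hvi β, fun n => ?_, fun n => ?_⟩
    · have h1 := (hB n).2.2.2.1
      have h2 : nsq (v β n) = R n ^ 2 * nsq (S.Qm ((R n)⁻¹ ^ 2) β (w n)) := by
        rw [hv]
        simp only [nsq_csmul, Complex.norm_real, Real.norm_eq_abs, sq_abs]
      have h3 : nsq (S.Qm ((R n)⁻¹ ^ 2) β (w n)) ≤ S.en ((R n)⁻¹ ^ 2) (w n) :=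
        Finset.single_le_sum (f := fun β => nsq (S.Qm ((R n)⁻¹ ^ 2) β (w n)))
          (fun β _ => nsq_nonneg _) (Finset.mem_univ β)
      rw [h2]
      calc R n ^ 2 * nsq (S.Qm ((R n)⁻¹ ^ 2) β (w n)) ≤ R n ^ 2 * S.en ((R n)⁻¹ ^ 2) (w n) := by gcongr
        _ ≤ C := by rw [hC]; nlinarith
    · have h1 := (hB n).2.2.2.2 β
      have h2 : S.en ((R n)⁻¹ ^ 2) (v β n) =
          R n ^ 2 * S.en ((R n)⁻¹ ^ 2) (S.Qm ((R n)⁻¹ ^ 2) β (w n)) := by
        rw [hv]
        simp only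
        rw [en_csmul _ _ (GInv_Qm _ β (hw n)).1, Complex.norm_real, Real.norm_eq_abs, sq_abs]
      rw [h2]
      calc R n ^ 2 * (R n ^ 2 * S.en ((R n)⁻¹ ^ 2) (S.Qm ((R n)⁻¹ ^ 2) β (w n)))
          = R n ^ 4 * S.en ((R n)⁻¹ ^ 2) (S.Qm ((R n)⁻¹ ^ 2) β (w n)) := by ring
        _ ≤ C := by rw [hC]; nlinarith
  -- ultrafilter and profiles
  set V := Ultrafilter.of (atTop : Filter ℕ) with hV
  have hVle : (V : Filter ℕ) ≤ atTop := Ultrafilter.of_le _
  have hJ : ∀ b c : P.D i, Tendsto (fun n => inner ℂ (Jv P i (R n) b) (Jv P i (R n) c)) atTop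
      (𝓝 (inner ℂ (b : P.H i) (c : P.H i))) := fun b c => (Jv_gram P b c).comp hRlim
  have hbd : ∀ {Ψ : ℕ → Cfg d → F} (hΨ : Prof.Bdd S R Ψ C) n, ‖U.HB.toL (hΨ.inv n).1‖ ≤ Real.sqrt C := by
    intro Ψ hΨ n
    rw [← Real.sqrt_sq (norm_nonneg (U.HB.toL (hΨ.inv n).1)), toL_norm]
    exact Real.sqrt_le_sqrt (hΨ.norm n)
  obtain ⟨W, -, hW⟩ := profile hJ V hVle (Real.sqrt_nonneg C) (hbd hbw)
  choose X hXb hX using fun β => profile hJ V hVle (Real.sqrt_nonneg C) (hbd (hbv β))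
  -- pairings with `J_R b`
  have hpair : ∀ (b : P.D i) {Ψ : ℕ → Cfg d → F} (hΨ : Prof.Bdd S R Ψ C),
      ∀ᶠ n in atTop, ∀ (u : Cfg d → F) (hu : Setup.Tst u),
        inner ℂ (Jv P i (R n) b) (U.HB.toL hu) = ipr (P.J i (R n) b) u := by
    intro b Ψ _
    exact hRlim.eventually (Jv_inner P b)
  have hpw : ∀ b : P.D i, Tendsto (fun n => ipr (P.J i (R n) b) (w n)) V (𝓝 (inner ℂ (b : P.H i) W)) := by
    intro b
    refine (hW b).congr' ?_
    filter_upwards [hVle (hpair b hbw)] with n hn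
    exact hn _ _
  have hpv : ∀ β (b : P.D i), Tendsto (fun n => ipr (P.J i (R n) b) (v β n)) V
      (𝓝 (inner ℂ (b : P.H i) (X β))) := by
    intro β b
    refine (hX β b).congr' ?_
    filter_upwards [hVle (hpair b hbw)] with n hn
    exact hn _ _
  -- first equation
  have heq1 : ∀ β (b : P.D i), inner ℂ (P.Ds i β b : P.H i) W = inner ℂ (b : P.H i) (X β) := by
    intro β b
    have h1 := (hE R w C hbw i β b).mono_left hVle
    have h2 : Tendsto (fun n => (R n : ℂ) * ipr (P.J i (R n) b) (S.Qm ((R n)⁻¹ ^ 2) β (w n)) -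
        ipr (P.J i (R n) (P.Ds i β b)) (w n)) V
        (𝓝 (inner ℂ (b : P.H i) (X β) - inner ℂ (P.Ds i β b : P.H i) W)) := by
      refine Tendsto.sub ?_ (hpw _)
      refine (hpv β b).congr fun n => ?_
      exact ipr_csmul _ _ _
    have h3 := tendsto_nhds_unique h1 h2
    exact (sub_eq_zero.mp h3.symm).symm
  -- pairing with `h = (R²/16) HH w`
  have hph : ∀ b : P.D i, Tendsto (fun n => ((R n ^ 2 : ℝ) : ℂ) *
      ipr (P.J i (R n) b) (U.HB.HH S ((R n)⁻¹ ^ 2) (w n))) V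
      (𝓝 (16 * inner ℂ (b : P.H i) ((a : P.H i) - W))) := by
    intro b
    have h1 : Tendsto (fun n => (16 : ℂ) * (inner ℂ (Jv P i (R n) b) (Jv P i (R n) a) -
        inner ℂ (Jv P i (R n) b) (U.HB.toL (hw n).1) + inner ℂ (Jv P i (R n) b) (e n))) V
        (𝓝 (16 * (inner ℂ (b : P.H i) (a : P.H i) - inner ℂ (b : P.H i) W + 0))) := by
      refine Tendsto.const_mul _ (Tendsto.add (Tendsto.sub ((hJ b a).mono_left hVle) (hW b)) ?_)
      have h2 : Tendsto (fun n => ‖Jv P i (R n) b‖ * (1 / ((n : ℝ) + 1))) atTop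
          (𝓝 (‖(b : P.H i)‖ * 0)) :=
        ((Jv_norm P b).comp hRlim).mul tendsto_one_div_add_atTop_nhds_zero_nat
      rw [mul_zero] at h2
      refine squeeze_zero_norm (fun n => ?_) (h2.mono_left hVle)
      exact (norm_inner_le_norm _ _).trans (mul_le_mul_of_nonneg_left (he n) (norm_nonneg _))
    rw [add_zero, ← inner_sub_right] at h1
    refine h1.congr' ?_
    filter_upwards [hVle (hpair b hbw)] with n hn
    have h3 : U.HB.toL (hw n).1 + h n = Jv P i (R n) a + e n := by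
      rw [Jv_of P (hRp n).1.1]
      exact hwh n
    have h4 : inner ℂ (Jv P i (R n) b) (Jv P i (R n) a) -
        inner ℂ (Jv P i (R n) b) (U.HB.toL (hw n).1) + inner ℂ (Jv P i (R n) b) (e n) =
        inner ℂ (Jv P i (R n) b) (h n) := by
      rw [← inner_sub_right, ← inner_add_right]
      congr 1
      have : h n = Jv P i (R n) a + e n - U.HB.toL (hw n).1 := by rw [← h3]; abel
      rw [this]
      abel
    rw [h4, hh n, inner_smul_right, hn]
    push_cast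
    ring
  -- second equation
  have heq2 : ∀ b : P.D i, ∑ β, inner ℂ (P.Ds i β b : P.H i) (X β) =
      16 * inner ℂ (b : P.H i) ((a : P.H i) - W) := by
    intro b
    have h1 : ∀ β, Tendsto (fun n => ((R n : ℂ) * ipr (P.J i (R n) b) (S.Qm ((R n)⁻¹ ^ 2) β (v β n)) -
        ipr (P.J i (R n) (P.Ds i β b)) (v β n))) V (𝓝 0) := fun β =>
      (hE R (v β) C (hbv β) i β b).mono_left hVle
    have h2 : Tendsto (fun n => ∑ β, ((R n : ℂ) * ipr (P.J i (R n) b) (S.Qm ((R n)⁻¹ ^ 2) β (v β n)) -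
        ipr (P.J i (R n) (P.Ds i β b)) (v β n))) V (𝓝 (∑ β : Fin 16, (0 : ℂ))) :=
      tendsto_finsetSum _ fun β _ => h1 β
    have h3 : Tendsto (fun n => ((R n ^ 2 : ℝ) : ℂ) *
        ipr (P.J i (R n) b) (U.HB.HH S ((R n)⁻¹ ^ 2) (w n)) -
        ∑ β, ipr (P.J i (R n) (P.Ds i β b)) (v β n)) V
        (𝓝 (16 * inner ℂ (b : P.H i) ((a : P.H i) - W) - ∑ β, inner ℂ (P.Ds i β b : P.H i) (X β))) :=
      (hph b).sub (tendsto_finsetSum _ fun β _ => hpv β _)
    have h4 : ∀ᶠ n in (V : Filter ℕ), ∑ β, ((R n : ℂ) * ipr (P.J i (R n) b) (S.Qm ((R n)⁻¹ ^ 2) β (v β n)) -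
        ipr (P.J i (R n) (P.Ds i β b)) (v β n)) = ((R n ^ 2 : ℝ) : ℂ) *
        ipr (P.J i (R n) b) (U.HB.HH S ((R n)⁻¹ ^ 2) (w n)) -
        ∑ β, ipr (P.J i (R n) (P.Ds i β b)) (v β n) := by
      filter_upwards [hVle (hRlim.eventually (P.J_inv i b))] with n hn
      rw [Finset.sum_sub_distrib, ← ipr_HH hn (hw n)]
    have h5 := h3.congr' (h4.mono fun n hn => hn.symm)
    have h6 := tendsto_nhds_unique h2 h5
    rw [Finset.sum_const_zero] at h6
    exact (sub_eq_zero.mp h6.symm).symm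
  -- the resolvent estimate
  have hWg : ‖W - P.g i‖ ≤ ‖(a : P.H i) - P.g i‖ := by
    refine P.res i (W - P.g i) ((a : P.H i) - P.g i) X (fun β b => ?_) (fun b => ?_)
    · rw [inner_sub_right, P.Ds_g i β b, sub_zero, heq1]
    · rw [heq2]
      congr 2
      abel
  have hWa : ‖(a : P.H i) - W‖ ≤ 2 * ε := by
    have h1 : (a : P.H i) - W = ((a : P.H i) - P.g i) - (W - P.g i) := by abel
    rw [h1]
    refine (norm_sub_le _ _).trans ?_
    linarith [hWg.trans hag]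
  -- limit of the defect
  have hdef : Tendsto (fun n => ‖Jv P i (R n) a‖ ^ 2 - (inner ℂ (Jv P i (R n) a) (U.HB.toL (hw n).1) : ℂ).re +
      (‖U.HB.toL (hw n).1‖ + 2 * ‖h n‖) * ‖e n‖) V
      (𝓝 (‖(a : P.H i)‖ ^ 2 - (inner ℂ (a : P.H i) W : ℂ).re + 0)) := by
    refine Tendsto.add (Tendsto.sub ?_ ?_) ?_
    · exact (((Jv_norm P a).comp hRlim).pow 2).mono_left hVle
    · exact (Complex.continuous_re.tendsto _).comp (hW a)
    · have h1 : Tendsto (fun n : ℕ => 12 * (1 / ((n : ℝ) + 1))) atTop (𝓝 (12 * 0)) :=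
        tendsto_one_div_add_atTop_nhds_zero_nat.const_mul _
      rw [mul_zero] at h1
      refine squeeze_zero (fun n => by positivity) (fun n => ?_) (h1.mono_left hVle)
      have h2 := (hB n).1
      have h3 := (hB n).2.1
      have h4 : ‖U.HB.toL (hw n).1‖ + 2 * ‖h n‖ ≤ 12 := by linarith
      exact mul_le_mul h4 (he n) (norm_nonneg _) (by norm_num)
  have hlim4 : ‖(a : P.H i)‖ ^ 2 - (inner ℂ (a : P.H i) W : ℂ).re + 0 ≤ 4 * ε := by
    have h1 : ‖(a : P.H i)‖ ^ 2 - (inner ℂ (a : P.H i) W : ℂ).re = (inner ℂ (a : P.H i) ((a : P.H i) - W) : ℂ).re := by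
      rw [inner_sub_right, Complex.sub_re]
      congr 1
      exact (inner_self_eq_norm_sq (𝕜 := ℂ) _).symm
    rw [h1, add_zero]
    refine (Complex.re_le_norm _).trans ((norm_inner_le_norm _ _).trans ?_)
    calc ‖(a : P.H i)‖ * ‖(a : P.H i) - W‖ ≤ 2 * (2 * ε) := by gcongr
      _ = 4 * ε := by ring
  have hev : ∀ᶠ n in (V : Filter ℕ), ‖Jv P i (R n) a‖ ^ 2 -
      (inner ℂ (Jv P i (R n) a) (U.HB.toL (hw n).1) : ℂ).re +
      (‖U.HB.toL (hw n).1‖ + 2 * ‖h n‖) * ‖e n‖ < 5 * ε :=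
    hdef.eventually_lt_const (by linarith)
  have hev2 : ∀ᶠ n : ℕ in (V : Filter ℕ), (1 / ((n : ℝ) + 1)) < ε :=
    (tendsto_one_div_add_atTop_nhds_zero_nat.mono_left hVle).eventually_lt_const hε0
  obtain ⟨n, hn1, hn2⟩ := (hev.and hev2).exists
  -- contradiction at `n`
  have hb := est_b (f := Jv P i (R n) a) (w := U.HB.toL (hw n).1) (h := h n) (e := e n) (by
    rw [Jv_of P (hRp n).1.1]
    exact hwh n)
  rw [hi n, Complex.ofReal_re] at hb
  exact (hRp n).2 ⟨w n, hw n, one_end hε0 hε1 hε3 (hRp n).1.1 (hw n) (hwh n) ((he n).trans hn2.le)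
    (hb.trans hn1.le) (hB n).2.2.1⟩

end Vale.Agent.P353.Z.AH
end

section

/-! # P353, all `N`, block H: Gram matrices (helper973) -/

open MeasureTheory Filter Topology
open scoped ContDiff ComplexConjugate

namespace Vale.Agent.P353.Z.AH

section abs

variable {L : Type*} [NormedAddCommGroup L] [InnerProductSpace ℂ L] {K : Type*} [Fintype K]

lemma norm_sum_sq (c : K → ℂ) (y : K → L) :
    ‖∑ k, c k • y k‖ ^ 2 = (∑ k, ∑ l, c l * (conj (c k) * inner ℂ (y k) (y l))).re := by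
  rw [← inner_self_eq_norm_sq (𝕜 := ℂ), sum_inner]
  simp only [inner_sum, inner_smul_left, inner_smul_right]
  rfl

lemma sum_norm_sq_le (c : K → ℂ) : (∑ k, ‖c k‖) ^ 2 ≤ Fintype.card K * ∑ k, ‖c k‖ ^ 2 := by
  have h2 := sq_sum_le_card_mul_sum_sq (s := (Finset.univ : Finset K)) (f := fun k => ‖c k‖)
  simpa using h2

/-- lower bound for Gram matrices that converge to a positive one -/
lemma gram_lower {α : Type*} {f : Filter α} (y : α → K → L) (G : K → K → ℂ)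
    (hG : ∀ k l, Tendsto (fun n => inner ℂ (y n k) (y n l)) f (𝓝 (G k l))) {κ : ℝ} (hκ : 0 < κ)
    (hpos : ∀ c : K → ℂ, κ * ∑ k, ‖c k‖ ^ 2 ≤ (∑ k, ∑ l, c l * (conj (c k) * G k l)).re) :
    ∀ᶠ n in f, ∀ c : K → ℂ, κ / 2 * ∑ k, ‖c k‖ ^ 2 ≤ ‖∑ k, c k • y n k‖ ^ 2 := by
  set θ : ℝ := κ / (2 * (Fintype.card K + 1)) with hθ
  have hθ0 : 0 < θ := by positivity
  have hθ1 : θ * Fintype.card K ≤ κ / 2 := by
    rw [hθ]
    have h1 : (0 : ℝ) ≤ Fintype.card K := Nat.cast_nonneg _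
    rw [div_mul_eq_mul_div, div_le_div_iff₀ (by positivity) (by norm_num)]
    nlinarith
  have hev : ∀ᶠ n in f, ∀ k l, ‖inner ℂ (y n k) (y n l) - G k l‖ < θ := by
    rw [eventually_all]
    intro k
    rw [eventually_all]
    intro l
    have := (tendsto_iff_norm_sub_tendsto_zero.mp (hG k l)).eventually_lt_const hθ0
    exact this
  filter_upwards [hev] with n hn c
  rw [norm_sum_sq]
  have h1 : (∑ k, ∑ l, c l * (conj (c k) * inner ℂ (y n k) (y n l))) =
      (∑ k, ∑ l, c l * (conj (c k) * G k l)) +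
        ∑ k, ∑ l, c l * (conj (c k) * (inner ℂ (y n k) (y n l) - G k l)) := by
    rw [← Finset.sum_add_distrib]
    refine Finset.sum_congr rfl fun k _ => ?_
    rw [← Finset.sum_add_distrib]
    refine Finset.sum_congr rfl fun l _ => ?_
    ring
  have h2 : ‖∑ k, ∑ l, c l * (conj (c k) * (inner ℂ (y n k) (y n l) - G k l))‖ ≤
      κ / 2 * ∑ k, ‖c k‖ ^ 2 := by
    calc ‖∑ k, ∑ l, c l * (conj (c k) * (inner ℂ (y n k) (y n l) - G k l))‖
        ≤ ∑ k, ∑ l, ‖c k‖ * ‖c l‖ * θ := by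
          refine (norm_sum_le _ _).trans (Finset.sum_le_sum fun k _ => ?_)
          refine (norm_sum_le _ _).trans (Finset.sum_le_sum fun l _ => ?_)
          rw [norm_mul, norm_mul, RCLike.norm_conj]
          have := (hn k l).le
          calc ‖c l‖ * (‖c k‖ * ‖inner ℂ (y n k) (y n l) - G k l‖) ≤ ‖c l‖ * (‖c k‖ * θ) := by gcongr
            _ = _ := by ring
      _ = (∑ k, ‖c k‖) ^ 2 * θ := by
          rw [sq, Finset.sum_mul_sum, Finset.sum_mul]
          refine Finset.sum_congr rfl fun k _ => ?_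
          rw [Finset.sum_mul]
      _ ≤ (Fintype.card K * ∑ k, ‖c k‖ ^ 2) * θ := by
          gcongr
          exact sum_norm_sq_le c
      _ = (θ * Fintype.card K) * ∑ k, ‖c k‖ ^ 2 := by ring
      _ ≤ _ := by gcongr
  rw [h1, Complex.add_re]
  have h3 := hpos c
  have h4 := (abs_le.mp (Complex.abs_re_le_norm (∑ k, ∑ l, c l * (conj (c k) *
    (inner ℂ (y n k) (y n l) - G k l))))).1
  linarith

/-- perturbation -/
lemma gram_pert {y z : K → L} {κ δ : ℝ} (hκ : 0 < κ) (hδ : 0 ≤ δ) (hd : δ ^ 2 * Fintype.card K ≤ κ / 4)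
    (hyz : ∀ k, ‖z k - y k‖ ≤ δ) (c : K → ℂ) (hy : κ * ∑ k, ‖c k‖ ^ 2 ≤ ‖∑ k, c k • y k‖ ^ 2) :
    κ / 4 * ∑ k, ‖c k‖ ^ 2 ≤ ‖∑ k, c k • z k‖ ^ 2 := by
  set s : ℝ := ∑ k, ‖c k‖ ^ 2 with hs
  have hs0 : 0 ≤ s := Finset.sum_nonneg fun k _ => by positivity
  have h1 : ‖∑ k, c k • y k‖ ≤ ‖∑ k, c k • z k‖ + δ * ∑ k, ‖c k‖ := by
    have e : ∑ k, c k • y k = (∑ k, c k • z k) - ∑ k, c k • (z k - y k) := by
      rw [← Finset.sum_sub_distrib]
      refine Finset.sum_congr rfl fun k _ => ?_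
      rw [smul_sub]; abel
    rw [e]
    refine (norm_sub_le _ _).trans (add_le_add_right ?_ _)
    rw [Finset.mul_sum]
    refine (norm_sum_le _ _).trans (Finset.sum_le_sum fun k _ => ?_)
    rw [norm_smul, mul_comm]
    exact mul_le_mul_of_nonneg_right (hyz k) (norm_nonneg _)
  have h2 := sum_norm_sq_le c
  have h3 : (δ * ∑ k, ‖c k‖) ^ 2 ≤ κ / 4 * s := by
    calc (δ * ∑ k, ‖c k‖) ^ 2 = δ ^ 2 * (∑ k, ‖c k‖) ^ 2 := by ring
      _ ≤ δ ^ 2 * (Fintype.card K * s) := by gcongr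
      _ = (δ ^ 2 * Fintype.card K) * s := by ring
      _ ≤ _ := by gcongr
  have hz0 := norm_nonneg (∑ k, c k • z k)
  have hc0 : 0 ≤ δ * ∑ k, ‖c k‖ := by positivity
  have hy0 := norm_nonneg (∑ k, c k • y k)
  have h4 : κ * s ≤ (‖∑ k, c k • z k‖ + δ * ∑ k, ‖c k‖) ^ 2 := hy.trans (by gcongr)
  -- `√(κ s) ≤ Z + √(κ s)/2`
  set t : ℝ := Real.sqrt (κ * s) with ht
  have ht0 : 0 ≤ t := Real.sqrt_nonneg _
  have ht2 : t ^ 2 = κ * s := Real.sq_sqrt (by positivity)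
  have h5 : δ * ∑ k, ‖c k‖ ≤ t / 2 := by
    refine abs_le_of_sq_le_sq' ?_ (by positivity) |>.2
    rw [div_pow, ht2]
    linarith
  have h6 : t ≤ ‖∑ k, c k • z k‖ + δ * ∑ k, ‖c k‖ := by
    refine abs_le_of_sq_le_sq' ?_ (by positivity) |>.2
    rw [ht2]
    exact h4
  have h7 : t / 2 ≤ ‖∑ k, c k • z k‖ := by linarith
  have h8 : (t / 2) ^ 2 ≤ ‖∑ k, c k • z k‖ ^ 2 := by gcongr
  rw [div_pow, ht2] at h8
  linarith

/-- linearly independent vectors have a positive Gram matrix -/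
lemma indep_lower {b : ℕ} {Ψ : Fin b → L} (h : LinearIndependent ℂ Ψ) :
    ∃ κ : ℝ, 0 < κ ∧ ∀ c : Fin b → ℂ, κ * ∑ k, ‖c k‖ ^ 2 ≤ ‖∑ k, c k • Ψ k‖ ^ 2 := by
  let f : EuclideanSpace ℂ (Fin b) →ₗ[ℂ] L :=
    (Fintype.linearCombination ℂ Ψ).comp (WithLp.linearEquiv 2 ℂ (Fin b → ℂ)).toLinearMap
  have hf : LinearMap.ker f = ⊥ := by
    rw [LinearMap.ker_eq_bot']
    intro c hc
    have h1 : ∑ k, c k • Ψ k = 0 := hc
    have h2 := Fintype.linearIndependent_iff.mp h (fun k => c k) h1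
    ext k
    simpa using h2 k
  obtain ⟨C, hC, ha⟩ := f.exists_antilipschitzWith hf
  have hC' : (0 : ℝ) < C := hC
  refine ⟨1 / C ^ 2, by positivity, fun c => ?_⟩
  have h1 := ha.le_mul_dist (WithLp.toLp 2 c) 0
  rw [dist_zero_right, map_zero, dist_zero_right] at h1
  have h2 : ‖(WithLp.toLp 2 c : EuclideanSpace ℂ (Fin b))‖ ^ 2 = ∑ k, ‖c k‖ ^ 2 := by
    rw [EuclideanSpace.norm_sq_eq]
  have h3 : f (WithLp.toLp 2 c) = ∑ k, c k • Ψ k := rfl
  rw [h3] at h1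
  rw [← h2, one_div, inv_mul_le_iff₀ (by positivity)]
  calc ‖(WithLp.toLp 2 c : EuclideanSpace ℂ (Fin b))‖ ^ 2 ≤ (C * ‖∑ k, c k • Ψ k‖) ^ 2 := by gcongr
    _ = _ := by ring

end abs

variable {d : ℕ} {F : Type*} [NormedAddCommGroup F] [InnerProductSpace ℂ F]
variable {S : Setup d F}

lemma Inv_InvP {u : Cfg d → F} (hu : S.Inv u) : S.InvP plT u := by
  refine ⟨hu.1, hu.2.1, fun k l h => hu.2.2 k l ?_⟩
  obtain ⟨h1, rfl⟩ := h
  revert h1
  fin_cases k <;> simp [Same, U.pt]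

lemma InvP_add {P : Fin 9 → Fin 9 → Prop} {u v : Cfg d → F} (hu : S.InvP P u) (hv : S.InvP P v) :
    S.InvP P (fun y => u y + v y) := by
  refine ⟨hu.1.add hv.1, fun C x => ?_, fun k l h x => ?_⟩
  · rw [U.HB.G_add S C hu.1.1 hv.1.1, hu.2.1, hv.2.1, add_zero]
  · rw [U.HB.J_add S k l hu.1.1 hv.1.1, hu.2.2 k l h, hv.2.2 k l h, add_zero]

lemma InvP_csmul {P : Fin 9 → Fin 9 → Prop} (c : ℂ) {u : Cfg d → F} (hu : S.InvP P u) :
    S.InvP P (fun y => c • u y) := by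
  refine ⟨U.HB.Tst_csmul c hu.1, fun C x => ?_, fun k l h x => ?_⟩
  · rw [U.HB.G_csmul S C c hu.1.1, hu.2.1, smul_zero]
  · rw [U.HB.J_csmul S k l c hu.1.1, hu.2.2 k l h, smul_zero]

lemma nsq_comb_le {K : Type*} [Fintype K] (c : K → ℂ) {u : K → Cfg d → F} (hu : ∀ k, Setup.Tst (u k)) :
    nsq (fun x => ∑ k, c k • u k x) ≤ Fintype.card K * ∑ k, ‖c k‖ ^ 2 * nsq (u k) := by
  have h1 : ∀ x, ‖∑ k, c k • u k x‖ ^ 2 ≤ Fintype.card K * ∑ k, ‖c k‖ ^ 2 * ‖u k x‖ ^ 2 := by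
    intro x
    have h2 : ‖∑ k, c k • u k x‖ ≤ ∑ k, ‖c k‖ * ‖u k x‖ := by
      refine (norm_sum_le _ _).trans (Finset.sum_le_sum fun k _ => ?_)
      rw [norm_smul]
    have h3 := sq_sum_le_card_mul_sum_sq (s := (Finset.univ : Finset K)) (f := fun k => ‖c k‖ * ‖u k x‖)
    calc ‖∑ k, c k • u k x‖ ^ 2 ≤ (∑ k, ‖c k‖ * ‖u k x‖) ^ 2 := by gcongr
      _ ≤ Fintype.card K * ∑ k, (‖c k‖ * ‖u k x‖) ^ 2 := by simpa using h3
      _ = _ := by simp only [mul_pow]
  have hi : ∀ k, Integrable (fun x => ‖c k‖ ^ 2 * ‖u k x‖ ^ 2) := fun k =>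
    (hu k).norm_sq_int.const_mul _
  have h4 : ∫ x, (Fintype.card K * ∑ k, ‖c k‖ ^ 2 * ‖u k x‖ ^ 2 : ℝ) =
      Fintype.card K * ∑ k, ‖c k‖ ^ 2 * nsq (u k) := by
    rw [integral_const_mul, integral_finsetSum _ fun k _ => hi k]
    simp only [integral_const_mul, nsq]
  rw [← h4]
  have hT : Setup.Tst (fun x => ∑ k, c k • u k x) :=
    U.HB.Tst_sum _ fun k _ => U.HB.Tst_csmul _ (hu k)
  exact integral_mono hT.norm_sq_int ((integrable_finsetSum _ fun k _ => hi k).const_mul _) h1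

lemma en_comb_le {K : Type*} [Fintype K] (m : ℝ) (c : K → ℂ) {u : K → Cfg d → F}
    (hu : ∀ k, Setup.Tst (u k)) {e : ℝ} (he : ∀ k, S.en m (u k) ≤ e) :
    S.en m (fun x => ∑ k, c k • u k x) ≤ Fintype.card K * (∑ k, ‖c k‖ ^ 2) * e := by
  have h1 : ∀ β, nsq (S.Qm m β (fun x => ∑ k, c k • u k x)) ≤
      Fintype.card K * ∑ k, ‖c k‖ ^ 2 * nsq (S.Qm m β (u k)) := by
    intro β
    have e1 : S.Qm m β (fun x => ∑ k, c k • u k x) = fun x => ∑ k, c k • S.Qm m β (u k) x :=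
      funext fun x => U.HB.Qm_sum S m β _ _ (fun k => (hu k).1) x
    rw [e1]
    exact nsq_comb_le c fun k => U.HB.Tst_Qm S m β (hu k)
  calc S.en m (fun x => ∑ k, c k • u k x)
      ≤ ∑ β, Fintype.card K * ∑ k, ‖c k‖ ^ 2 * nsq (S.Qm m β (u k)) := Finset.sum_le_sum fun β _ => h1 β
    _ = Fintype.card K * ∑ k, ‖c k‖ ^ 2 * S.en m (u k) := by
        rw [← Finset.mul_sum, Finset.sum_comm]
        simp only [Setup.en, Finset.mul_sum]
    _ ≤ Fintype.card K * ∑ k, ‖c k‖ ^ 2 * e := by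
        gcongr with k _
        exact he k
    _ = _ := by rw [← Finset.sum_mul, mul_assoc]

lemma toL_comb {K : Type*} [Fintype K] (c : K → ℂ) {u : K → Cfg d → F} (hu : ∀ k, Setup.Tst (u k)) :
    ‖∑ k, c k • U.HB.toL (hu k)‖ ^ 2 = nsq (fun x => ∑ k, c k • u k x) := by
  refine U.HB.norm_Lp ?_
  have h1 : ∀ s : Finset K, (∑ k ∈ s, c k • U.HB.toL (hu k) : Lp F 2 (volume : Measure (Cfg d))) =ᵐ[volume]
      fun x => ∑ k ∈ s, c k • u k x := by
    intro s
    classical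
    induction s using Finset.induction_on with
    | empty =>
      simp only [Finset.sum_empty]
      exact Lp.coeFn_zero F 2 (volume : Measure (Cfg d))
    | insert b s hb ih =>
      rw [Finset.sum_insert hb]
      filter_upwards [ih, Lp.coeFn_add (c b • U.HB.toL (hu b)) (∑ k ∈ s, c k • U.HB.toL (hu k)),
        Lp.coeFn_smul (c b) (U.HB.toL (hu b)), U.HB.coe_toL (hu b)] with x h1 h2 h3 h4
      rw [h2, Pi.add_apply, h1, h3, Pi.smul_apply, h4, Finset.sum_insert hb]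
  exact h1 Finset.univ

/-- `LowP` for a general finite index type -/
lemma lowP_of {K : Type*} [Fintype K] {P : Fin 9 → Fin 9 → Prop} {m c : ℝ} {u : K → Cfg d → F}
    (hu : ∀ k, S.InvP P (u k)) (h : ∀ a : K → ℂ, a ≠ 0 →
      S.en m (fun x => ∑ j, a j • u j x) < c * nsq (fun x => ∑ j, a j • u j x)) {n : ℕ}
    (hn : Fintype.card K = n) : S.LowP P n m c := by
  let e : Fin n ≃ K := (Fintype.equivFinOfCardEq hn).symm
  refine ⟨fun j => u (e j), fun j => hu _, fun a ha => ?_⟩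
  have h1 := h (fun k => a (e.symm k)) (by
    intro h0
    apply ha
    funext j
    have := congrFun h0 (e j)
    simpa using this)
  have h2 : (fun x => ∑ j : K, a (e.symm j) • u j x) = fun x => ∑ j, a j • u (e j) x := by
    funext x
    rw [← e.sum_comp]
    simp
  rw [h2] at h1
  exact h1

end Vale.Agent.P353.Z.AH
end

section

/-! # P353, all `N`, block H: theorem S7 (helper973) -/

open MeasureTheory Filter Topology
open scoped ContDiff ComplexConjugate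

namespace Vale.Agent.P353.Z.AH

variable {d : ℕ} {F : Type*} [NormedAddCommGroup F] [InnerProductSpace ℂ F]
variable {S : Setup d F} {ι : Type} (P : Prof S ι)

/-- triangle inequality -/
lemma nsq_tri {u v w : Cfg d → F} (hu : Setup.Tst u) (hv : Setup.Tst v) (hw : Setup.Tst w) :
    nsq (fun x => u x - w x) ≤ 2 * nsq (fun x => u x - v x) + 2 * nsq (fun x => v x - w x) := by
  unfold nsq
  rw [← integral_const_mul, ← integral_const_mul,
    ← integral_add ((hu.sub hv).norm_sq_int.const_mul _) ((hv.sub hw).norm_sq_int.const_mul _)]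
  refine integral_mono (hu.sub hw).norm_sq_int
    (((hu.sub hv).norm_sq_int.const_mul _).add ((hv.sub hw).norm_sq_int.const_mul _)) fun x => ?_
  have h1 : u x - w x = (u x - v x) + (v x - w x) := by abel
  simp only
  rw [h1]
  have h2 := norm_add_le (u x - v x) (v x - w x)
  have h3 := norm_nonneg (u x - v x + (v x - w x))
  nlinarith [sq_nonneg (‖u x - v x‖ - ‖v x - w x‖), norm_nonneg (u x - v x), norm_nonneg (v x - w x)]

/-- torus invariant low vectors close to the trial functions -/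
lemma trial (hE : P.LimEq) (hQQ : QQStmt S) (hD : DenseStmt S) (hJ : JbdStmt S)
    (hA : ∃ C : ℝ, 0 ≤ C ∧ ∀ u : Cfg d → F, S.GInv u →
      ∃ v : Cfg d → F, S.InvP plT v ∧ (∀ m, S.en m v ≤ S.en m u) ∧
      nsq (fun x => u x - v x) ≤ C * (nsq (S.J 1 2 u) + nsq (S.J 3 4 u) + nsq (S.J 5 6 u) + nsq (S.J 7 8 u)))
    (i : ι) {η : ℝ} (hη : 0 < η) :
    ∃ a : P.D i, ‖(a : P.H i) - P.g i‖ ≤ η ∧ ∀ᶠ R : ℝ in atTop, S.GInv (P.J i R a) ∧
      ∃ v : Cfg d → F, S.InvP plT v ∧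
      nsq (fun x => v x - P.J i R a x) ≤ η ∧ R ^ 2 * S.en (R⁻¹ ^ 2) v ≤ η := by
  obtain ⟨CA, hCA, hA⟩ := hA
  obtain ⟨CJ, hCJ, hJ⟩ := hJ
  set η' : ℝ := η / (16 * CA * CJ + 2) with hη'
  have hη'0 : 0 < η' := by positivity
  have hη'1 : η' ≤ η := by
    rw [hη']
    refine div_le_self hη.le ?_
    have : 0 ≤ CA * CJ := mul_nonneg hCA hCJ
    linarith
  obtain ⟨a, ha, hev⟩ := core P hE hQQ hD i hη'0
  refine ⟨a, ha.trans hη'1, ?_⟩
  filter_upwards [hev, eventually_ge_atTop (1 : ℝ)] with R ⟨hf, w, hw, h1, h2, h3⟩ hR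
  refine ⟨hf, ?_⟩
  have hR0 : 0 < R := by linarith
  obtain ⟨v, hv, hv2, hv3⟩ := hA w hw
  have hm : (0 : ℝ) < R⁻¹ ^ 2 := by positivity
  have hJ' : ∀ k l, Same k l → nsq (S.J k l w) ≤ 2 * CJ * η' := by
    intro k l hkl
    have h4 := hJ (R⁻¹ ^ 2) hm w hw k l hkl
    have h5 : nsq (S.J k l w) = R ^ 4 * ((R⁻¹ ^ 2) ^ 2 * nsq (S.J k l w)) := by
      field_simp
    rw [h5]
    calc R ^ 4 * ((R⁻¹ ^ 2) ^ 2 * nsq (S.J k l w))
        ≤ R ^ 4 * (CJ * (nsq (U.HB.HH S (R⁻¹ ^ 2) w) + R⁻¹ ^ 2 * S.en (R⁻¹ ^ 2) w)) := by gcongr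
      _ = CJ * (R ^ 4 * nsq (U.HB.HH S (R⁻¹ ^ 2) w) + R ^ 2 * S.en (R⁻¹ ^ 2) w) := by
          field_simp
      _ ≤ CJ * (η' + η') := by gcongr
      _ = _ := by ring
  refine ⟨v, hv, ?_, ?_⟩
  · have h6 := nsq_tri hv.1 hw.1 hf.1
    have h7 : nsq (fun x => v x - w x) = nsq (fun x => w x - v x) := by
      unfold nsq
      simp only [norm_sub_rev]
    rw [h7] at h6
    have h8 : nsq (fun x => w x - v x) ≤ CA * (4 * (2 * CJ * η')) := by
      refine hv3.trans (mul_le_mul_of_nonneg_left ?_ hCA)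
      have e1 := hJ' 1 2 ⟨by decide, by decide⟩
      have e2 := hJ' 3 4 ⟨by decide, by decide⟩
      have e3 := hJ' 5 6 ⟨by decide, by decide⟩
      have e4 := hJ' 7 8 ⟨by decide, by decide⟩
      linarith
    have h9 : (16 * CA * CJ + 2) * η' = η := by
      rw [hη']
      field_simp
    nlinarith
  · have h6 := hv2 (R⁻¹ ^ 2)
    calc R ^ 2 * S.en (R⁻¹ ^ 2) v ≤ R ^ 2 * S.en (R⁻¹ ^ 2) w := by gcongr
      _ ≤ η' := h2
      _ ≤ η := hη'1

/-- trial functions are asymptotically orthogonal to zero modes -/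
lemma mixed (hK : KerCutStmt S) (i : ι) (a : P.D i) {Ψ : Lp F 2 (volume : Measure (Cfg d))} (hΨ : S.IsZM Ψ) :
    Tendsto (fun R => inner ℂ Ψ (Jv P i R a)) atTop (𝓝 0) := by
  rw [Metric.tendsto_nhds]
  intro ε hε
  set δ : ℝ := (ε / (2 * (‖(a : P.H i)‖ + 1))) ^ 2 with hδ
  have hδ0 : 0 < δ := by positivity
  obtain ⟨R₁, hR₁⟩ := (hK Ψ hΨ δ hδ0).exists
  obtain ⟨u, hu, hu1, -⟩ := hR₁
  obtain ⟨c, hc, hsupp⟩ := P.J_supp i a
  obtain ⟨r, hr⟩ := hu.1.2.isBounded.subset_closedBall 0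
  filter_upwards [hsupp, P.J_inv i a, (Jv_norm P a).eventually_lt_const (lt_add_one _),
    eventually_ge_atTop (r / c)] with R h1 h2 h3 h4
  rw [dist_zero_right]
  have h5 : inner ℂ (U.HB.toL hu.1) (Jv P i R a) = 0 := by
    rw [Jv_of P h2, toL_inner]
    unfold ipr
    rw [← integral_zero (Cfg d) ℂ]
    refine integral_congr_ae (Eventually.of_forall fun x => ?_)
    by_cases hx : x ∈ tsupport u
    · have h6 : ‖x‖ ≤ r := by simpa using hr hx
      have h7 : ‖x‖ ≤ c * R := by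
        rw [div_le_iff₀ hc] at h4
        linarith
      simp only
      rw [h1 x h7, inner_zero_right]
    · simp only
      rw [image_eq_zero_of_notMem_tsupport hx, inner_zero_left]
  have h6 : inner ℂ Ψ (Jv P i R a) = inner ℂ (Ψ - U.HB.toL hu.1) (Jv P i R a) := by
    rw [inner_sub_left, h5, sub_zero]
  have h7 : ‖Ψ - U.HB.toL hu.1‖ ^ 2 ≤ δ := by
    rw [norm_sub_rev]
    have h8 : U.HB.toL hu.1 - Ψ =ᵐ[volume] fun x => u x - Ψ x := by
      filter_upwards [Lp.coeFn_sub (U.HB.toL hu.1) Ψ, U.HB.coe_toL hu.1] with x h1 h2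
      rw [h1, Pi.sub_apply, h2]
    rw [U.HB.norm_Lp h8]
    exact hu1
  have h8 : ‖Ψ - U.HB.toL hu.1‖ ≤ ε / (2 * (‖(a : P.H i)‖ + 1)) :=
    abs_le_of_sq_le_sq' h7 (by positivity) |>.2
  rw [h6]
  calc ‖inner ℂ (Ψ - U.HB.toL hu.1) (Jv P i R a)‖ ≤ ‖Ψ - U.HB.toL hu.1‖ * ‖Jv P i R a‖ :=
        norm_inner_le_norm _ _
    _ ≤ ε / (2 * (‖(a : P.H i)‖ + 1)) * (‖(a : P.H i)‖ + 1) := by gcongr
    _ = ε / 2 := by field_simp
    _ < ε := by linarith

theorem s7 [Fintype ι] (hQQ : QQStmt S) (hD : DenseStmt S) (hJ : JbdStmt S)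
    (hA : ∃ C : ℝ, 0 ≤ C ∧ ∀ u : Cfg d → F, S.GInv u →
      ∃ v : Cfg d → F, S.InvP plT v ∧ (∀ m, S.en m v ≤ S.en m u) ∧
      nsq (fun x => u x - v x) ≤ C * (nsq (S.J 1 2 u) + nsq (S.J 3 4 u) + nsq (S.J 5 6 u) + nsq (S.J 7 8 u)))
    (hK : KerCutStmt S) : S7Stmt S P := by
  classical
  intro hE b Ψ hΨ hli
  obtain ⟨κ₁, hκ₁, hlow⟩ := indep_lower hli
  set κ : ℝ := min κ₁ (1 / 4) with hκ
  have hκ0 : 0 < κ := lt_min hκ₁ (by norm_num)
  have hκ1 : κ ≤ κ₁ := min_le_left _ _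
  have hκ4 : κ ≤ 1 / 4 := min_le_right _ _
  set K := Fin b ⊕ ι with hKdef
  set N : ℝ := (Fintype.card K : ℝ) with hN
  have hN0 : 0 ≤ N := Nat.cast_nonneg _
  set η : ℝ := min (1 / 2) (κ / (8 * (N + 1))) with hη
  have hη0 : 0 < η := lt_min (by norm_num) (by positivity)
  have hη1 : η ≤ 1 / 2 := min_le_left _ _
  have hη2 : η * N ≤ κ / 8 := by
    have h1 : η ≤ κ / (8 * (N + 1)) := min_le_right _ _
    rw [le_div_iff₀ (by positivity)] at h1
    nlinarith
  choose a ha hev using fun i => trial P hE hQQ hD hJ hA i hη0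
  have hga : ∀ i, 1 / 2 ≤ ‖(a i : P.H i)‖ := by
    intro i
    have h1 : ‖P.g i‖ ≤ ‖(a i : P.H i) - P.g i‖ + ‖(a i : P.H i)‖ := by
      have : P.g i = (a i : P.H i) - ((a i : P.H i) - P.g i) := by abel
      calc ‖P.g i‖ = ‖(a i : P.H i) - ((a i : P.H i) - P.g i)‖ := by rw [← this]
        _ ≤ ‖(a i : P.H i)‖ + ‖(a i : P.H i) - P.g i‖ := norm_sub_le _ _
        _ = _ := by ring
    rw [P.g_norm i] at h1
    linarith [ha i]
  -- ideal vectors and their limiting Gram matrix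
  set y : ℝ → K → Lp F 2 (volume : Measure (Cfg d)) := fun R k => Sum.elim Ψ (fun i => Jv P i R (a i)) k with hy
  set G : K → K → ℂ := fun k l => match k, l with
    | Sum.inl j, Sum.inl j' => inner ℂ (Ψ j) (Ψ j')
    | Sum.inr i, Sum.inr i' => if i = i' then ((‖(a i : P.H i)‖ ^ 2 : ℝ) : ℂ) else 0
    | _, _ => 0 with hG
  have hGlim : ∀ k l, Tendsto (fun R => inner ℂ (y R k) (y R l)) atTop (𝓝 (G k l)) := by
    rintro (j | i) (j' | i')
    · exact tendsto_const_nhds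
    · exact mixed P hK i' (a i') (hΨ j)
    · have h1 := mixed P hK i (a i) (hΨ j')
      have h2 := (Complex.continuous_conj.tendsto _).comp h1
      simp only [Function.comp_def, inner_conj_symm, map_zero] at h2
      exact h2
    · by_cases hii : i = i'
      · subst hii
        have h1 := Jv_gram P (a i) (a i)
        have h2 : inner ℂ (a i : P.H i) (a i : P.H i) = ((‖(a i : P.H i)‖ ^ 2 : ℝ) : ℂ) := by
          rw [inner_self_eq_norm_sq_to_K]
          norm_cast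
        rw [h2] at h1
        have h3 : G (Sum.inr i) (Sum.inr i) = ((‖(a i : P.H i)‖ ^ 2 : ℝ) : ℂ) := by simp only [hG, if_true]
        rw [h3]
        exact h1
      · have h1 := P.orth i i' hii (a i) (a i')
        have h2 : Tendsto (fun R => inner ℂ (Jv P i R (a i)) (Jv P i' R (a i'))) atTop (𝓝 0) := by
          refine h1.congr' ?_
          filter_upwards [P.J_inv i (a i), P.J_inv i' (a i')] with R h h'
          rw [Jv_of P h, Jv_of P h', toL_inner]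
        have h3 : G (Sum.inr i) (Sum.inr i') = 0 := by simp only [hG, if_neg hii]
        rw [h3]
        exact h2
  have hpos : ∀ c : K → ℂ, κ * ∑ k, ‖c k‖ ^ 2 ≤ (∑ k, ∑ l, c l * (conj (c k) * G k l)).re := by
    intro c
    have e1 : (∑ k, ∑ l, c l * (conj (c k) * G k l)) =
        (∑ j, ∑ j', c (Sum.inl j') * (conj (c (Sum.inl j)) * inner ℂ (Ψ j) (Ψ j'))) +
          ∑ i, ((‖c (Sum.inr i)‖ ^ 2 * ‖(a i : P.H i)‖ ^ 2 : ℝ) : ℂ) := by
      rw [Fintype.sum_sum_type]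
      congr 1
      · refine Finset.sum_congr rfl fun j _ => ?_
        rw [Fintype.sum_sum_type]
        simp [hG]
      · refine Finset.sum_congr rfl fun i _ => ?_
        rw [Fintype.sum_sum_type]
        simp only [hG, mul_zero, Finset.sum_const_zero, zero_add, mul_ite, Finset.sum_ite_eq,
          Finset.mem_univ, if_true]
        rw [← mul_assoc, Complex.mul_conj, Complex.normSq_eq_norm_sq]
        push_cast
        ring
    rw [e1, Complex.add_re, ← norm_sum_sq, ← Complex.ofReal_sum, Complex.ofReal_re, Fintype.sum_sum_type, mul_add]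
    refine add_le_add ?_ ?_
    · refine le_trans ?_ (hlow fun j => c (Sum.inl j))
      exact mul_le_mul_of_nonneg_right hκ1 (Finset.sum_nonneg fun k _ => by positivity)
    · rw [Finset.mul_sum]
      refine Finset.sum_le_sum fun i _ => ?_
      have h1 : (1 / 4 : ℝ) ≤ ‖(a i : P.H i)‖ ^ 2 := by
        have := hga i
        nlinarith
      have h2 : (0 : ℝ) ≤ ‖c (Sum.inr i)‖ ^ 2 := by positivity
      nlinarith
  have hgram := gram_lower y G hGlim hκ0 hpos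
  -- choose `R`
  have hker : ∀ᶠ R : ℝ in atTop, ∀ j : Fin b, ∃ u : Cfg d → F, S.Inv u ∧
      nsq (fun x => u x - Ψ j x) ≤ η ∧ R ^ 2 * S.en (R⁻¹ ^ 2) u ≤ η := by
    rw [eventually_all]
    exact fun j => hK (Ψ j) (hΨ j) η hη0
  have hall : ∀ᶠ R : ℝ in atTop, ∀ i, S.GInv (P.J i R (a i)) ∧ ∃ v : Cfg d → F, S.InvP plT v ∧
      nsq (fun x => v x - P.J i R (a i) x) ≤ η ∧ R ^ 2 * S.en (R⁻¹ ^ 2) v ≤ η := by
    rw [eventually_all]
    exact hev
  obtain ⟨R, hR, hRg, hRk, hRa⟩ := ((eventually_ge_atTop (1 : ℝ)).and (hgram.and (hker.and hall))).exists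
  have hR0 : 0 < R := by linarith
  choose u hu hu1 hu2 using hRk
  choose v hv hv1 hv2 using fun i => (hRa i).2
  set z : K → Cfg d → F := Sum.elim u v with hz
  have hzi : ∀ k, S.InvP plT (z k) := by
    rintro (j | i)
    · exact Inv_InvP (hu j)
    · exact hv i
  have hze : ∀ k, S.en (R⁻¹ ^ 2) (z k) ≤ η / R ^ 2 := by
    rintro (j | i)
    · rw [le_div_iff₀ (by positivity), mul_comm]
      exact hu2 j
    · rw [le_div_iff₀ (by positivity), mul_comm]
      exact hv2 i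
  have hzy : ∀ k, ‖U.HB.toL (hzi k).1 - y R k‖ ≤ Real.sqrt η := by
    rintro (j | i)
    · refine Real.le_sqrt_of_sq_le ?_
      have h1 : U.HB.toL (hzi (Sum.inl j)).1 - y R (Sum.inl j) =ᵐ[volume] fun x => u j x - Ψ j x := by
        filter_upwards [Lp.coeFn_sub (U.HB.toL (hzi (Sum.inl j)).1) (Ψ j),
          U.HB.coe_toL (hzi (Sum.inl j)).1] with x h1 h2
        change (U.HB.toL (hzi (Sum.inl j)).1 - Ψ j : Lp F 2 (volume : Measure (Cfg d))) x = _
        rw [h1, Pi.sub_apply, h2]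
        rfl
      rw [U.HB.norm_Lp h1]
      exact hu1 j
    · refine Real.le_sqrt_of_sq_le ?_
      have h0 : y R (Sum.inr i) = U.HB.toL (hRa i).1.1 := Jv_of P (hRa i).1
      rw [h0]
      have h1 : U.HB.toL (hzi (Sum.inr i)).1 - U.HB.toL (hRa i).1.1 =ᵐ[volume]
          fun x => v i x - P.J i R (a i) x := by
        filter_upwards [Lp.coeFn_sub (U.HB.toL (hzi (Sum.inr i)).1) (U.HB.toL (hRa i).1.1),
          U.HB.coe_toL (hzi (Sum.inr i)).1, U.HB.coe_toL (hRa i).1.1] with x h1 h2 h3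
        rw [h1, Pi.sub_apply, h2, h3]
        rfl
      rw [U.HB.norm_Lp h1]
      exact hv1 i
  refine ⟨R⁻¹ ^ 2, by positivity, lowP_of (K := K) hzi (fun c hc => ?_) (by simp [hKdef])⟩
  have hcpos : 0 < ∑ k, ‖c k‖ ^ 2 := by
    obtain ⟨k, hk⟩ := Function.ne_iff.mp hc
    refine Finset.sum_pos' (fun k _ => by positivity) ⟨k, Finset.mem_univ k, ?_⟩
    have : 0 < ‖c k‖ := norm_pos_iff.mpr hk
    positivity
  have h1 := gram_pert (y := y R) (z := fun k => U.HB.toL (hzi k).1) (κ := κ / 2) (by positivity)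
    (Real.sqrt_nonneg η) (by rw [Real.sq_sqrt hη0.le]; linarith) hzy c (hRg c)
  rw [toL_comb] at h1
  have h2 := en_comb_le (S := S) (R⁻¹ ^ 2) c (fun k => (hzi k).1) hze
  have h3 : (Fintype.card K : ℝ) * (∑ k, ‖c k‖ ^ 2) * (η / R ^ 2) = (η * N) * (∑ k, ‖c k‖ ^ 2) * R⁻¹ ^ 2 := by
    rw [hN]
    field_simp
  rw [h3] at h2
  have hRi : 0 < R⁻¹ ^ 2 := by positivity
  calc S.en (R⁻¹ ^ 2) (fun x => ∑ k, c k • z k x) ≤ (η * N) * (∑ k, ‖c k‖ ^ 2) * R⁻¹ ^ 2 := h2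
    _ ≤ (κ / 8) * (∑ k, ‖c k‖ ^ 2) * R⁻¹ ^ 2 := by gcongr
    _ < 8 * R⁻¹ ^ 2 * (κ / 2 / 4 * ∑ k, ‖c k‖ ^ 2) := by
        have : 0 < κ * (∑ k, ‖c k‖ ^ 2) * R⁻¹ ^ 2 := by positivity
        nlinarith
    _ ≤ _ := by gcongr

end Vale.Agent.P353.Z.AH
end

section

/-! # P353, all `N`, block H: theorem S6 (existence, helper973) -/

open MeasureTheory Filter Topology
open scoped ContDiff ComplexConjugate

namespace Vale.Agent.P353.Z.AH

variable {d : ℕ} {F : Type*} [NormedAddCommGroup F] [InnerProductSpace ℂ F]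
variable {S : Setup d F} {ι : Type} (P : Prof S ι)

lemma Inv_GInv {u : Cfg d → F} (hu : S.Inv u) : S.GInv u := ⟨hu.1, hu.2.1⟩

lemma norm_sub_sq_re' {H : Type*} [NormedAddCommGroup H] [InnerProductSpace ℂ H] (x y : H) :
    ‖x - y‖ ^ 2 = ((inner ℂ x x : ℂ) - inner ℂ x y - inner ℂ y x + inner ℂ y y).re := by
  have h : (inner ℂ (x - y) (x - y) : ℂ).re = ‖x - y‖ ^ 2 := inner_self_eq_norm_sq (𝕜 := ℂ) _
  rw [← h]
  congr 1
  simp only [inner_sub_left, inner_sub_right]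
  ring

/-- a nonzero combination orthogonal to `card ι` vectors -/
lemma exists_orth {L : Type*} [NormedAddCommGroup L] [InnerProductSpace ℂ L] [Fintype ι]
    (y : ι → L) (z : Fin (Fintype.card ι + 1) → L) :
    ∃ c : Fin (Fintype.card ι + 1) → ℂ, c ≠ 0 ∧ ∀ i, inner ℂ (y i) (∑ k, c k • z k) = 0 := by
  let T : (Fin (Fintype.card ι + 1) → ℂ) →ₗ[ℂ] (ι → ℂ) :=
    { toFun := fun c i => inner ℂ (y i) (∑ k, c k • z k)
      map_add' := fun c c' => by
        funext i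
        simp only [Pi.add_apply, add_smul, Finset.sum_add_distrib, inner_add_right]
      map_smul' := fun r c => by
        funext i
        simp only [Pi.smul_apply, smul_eq_mul, RingHom.id_apply, mul_smul]
        rw [← Finset.smul_sum, inner_smul_right] }
  have hT : LinearMap.ker T ≠ ⊥ := by
    intro h
    have h1 := LinearMap.finrank_le_finrank_of_injective (LinearMap.ker_eq_bot.mp h)
    simp at h1
  obtain ⟨c, hc, hc0⟩ := (Submodule.ne_bot_iff _).mp hT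
  refine ⟨c, hc0, fun i => ?_⟩
  exact congrFun (LinearMap.mem_ker.mp hc) i

/-- the vectors used in S6 -/
lemma vec [Fintype ι] (hL : ∀ m : ℝ, 0 < m → ∀ c : ℝ, 0 < c → S.Low (Fintype.card ι + 1) m c)
    (y : ι → Lp F 2 (volume : Measure (Cfg d))) {m c : ℝ} (hm : 0 < m) (hc : 0 < c) :
    ∃ (u : Cfg d → F) (hu : S.Inv u), nsq u = 1 ∧ S.en m u ≤ c ∧ ∀ i, inner ℂ (y i) (U.HB.toL hu.1) = 0 := by
  obtain ⟨z, hz, hlow⟩ := hL m hm c hc
  obtain ⟨a, ha, horth⟩ := exists_orth y fun k => U.HB.toL (hz k).1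
  set v : Cfg d → F := fun x => ∑ j, a j • z j x with hv
  have hvi : S.Inv v := U.HB.Inv_sum S Finset.univ a hz
  have h1 : S.en m v < c * nsq v := hlow a ha
  have hn : 0 < nsq v := by
    by_contra h
    have h2 : nsq v = 0 := le_antisymm (not_lt.mp h) (nsq_nonneg v)
    rw [h2, mul_zero] at h1
    exact absurd h1 (not_lt.mpr (en_nonneg m v))
  set r : ℝ := (Real.sqrt (nsq v))⁻¹ with hr
  have hr2 : ‖((r : ℝ) : ℂ)‖ ^ 2 = (nsq v)⁻¹ := by
    rw [Complex.norm_real, Real.norm_eq_abs, sq_abs, hr, inv_pow, Real.sq_sqrt hn.le]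
  refine ⟨fun x => ((r : ℝ) : ℂ) • v x, U.HB.Inv_csmul S _ hvi, ?_, ?_, fun i => ?_⟩
  · rw [nsq_csmul, hr2, inv_mul_cancel₀ hn.ne']
  · rw [en_csmul m _ hvi.1, hr2, inv_mul_le_iff₀ hn, mul_comm]
    exact h1.le
  · have h3 : U.HB.toL (U.HB.Inv_csmul S ((r : ℝ) : ℂ) hvi).1 =
        ((r : ℝ) : ℂ) • ∑ k, a k • U.HB.toL (hz k).1 := by
      have h4 : ∀ s : Finset (Fin (Fintype.card ι + 1)),
          (∑ k ∈ s, a k • U.HB.toL (hz k).1 : Lp F 2 (volume : Measure (Cfg d))) =ᵐ[volume]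
          fun x => ∑ k ∈ s, a k • z k x := by
        intro s
        classical
        induction s using Finset.induction_on with
        | empty =>
          simp only [Finset.sum_empty]
          exact Lp.coeFn_zero F 2 (volume : Measure (Cfg d))
        | insert b s hb ih =>
          rw [Finset.sum_insert hb]
          filter_upwards [ih, Lp.coeFn_add (a b • U.HB.toL (hz b).1) (∑ k ∈ s, a k • U.HB.toL (hz k).1),
            Lp.coeFn_smul (a b) (U.HB.toL (hz b).1), U.HB.coe_toL (hz b).1] with x h1 h2 h3 h4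
          rw [h2, Pi.add_apply, h1, h3, Pi.smul_apply, h4, Finset.sum_insert hb]
      refine Lp.ext ?_
      filter_upwards [U.HB.coe_toL (U.HB.Inv_csmul S ((r : ℝ) : ℂ) hvi).1, h4 Finset.univ,
        Lp.coeFn_smul ((r : ℝ) : ℂ) (∑ k, a k • U.HB.toL (hz k).1)] with x h1 h2 h3
      rw [h1, h3, Pi.smul_apply, h2]
    rw [h3, inner_smul_right, horth i, mul_zero]

/-- a good scale -/
lemma scale [Fintype ι] (α : ∀ i, ℕ → P.D i) (k : ℕ) : ∃ R : ℝ, (k : ℝ) + 1 ≤ R ∧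
    ∀ i, ∀ p ≤ k, ‖Jv P i R (α i k) - Jv P i R (α i p)‖ ^ 2 ≤
      ‖(α i k : P.H i) - (α i p : P.H i)‖ ^ 2 + 1 / ((k : ℝ) + 1) := by
  have h1 : ∀ i p, ∀ᶠ R : ℝ in atTop, ‖Jv P i R (α i k) - Jv P i R (α i p)‖ ^ 2 ≤
      ‖(α i k : P.H i) - (α i p : P.H i)‖ ^ 2 + 1 / ((k : ℝ) + 1) := by
    intro i p
    have h2 : Tendsto (fun R => ‖Jv P i R (α i k) - Jv P i R (α i p)‖ ^ 2) atTop
        (𝓝 (‖(α i k : P.H i) - (α i p : P.H i)‖ ^ 2)) := by
      simp only [norm_sub_sq_re']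
      refine (Complex.continuous_re.tendsto _).comp ?_
      exact (((Jv_gram P _ _).sub (Jv_gram P _ _)).sub (Jv_gram P _ _)).add (Jv_gram P _ _)
    exact h2.eventually_le_const (by
      have : (0 : ℝ) < 1 / ((k : ℝ) + 1) := by positivity
      linarith)
  have h2 : ∀ᶠ R : ℝ in atTop, ∀ i, ∀ p ≤ k, ‖Jv P i R (α i k) - Jv P i R (α i p)‖ ^ 2 ≤
      ‖(α i k : P.H i) - (α i p : P.H i)‖ ^ 2 + 1 / ((k : ℝ) + 1) := by
    rw [eventually_all]
    intro i
    have h3 := (Set.finite_Iic k).eventually_all (l := (atTop : Filter ℝ))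
      (p := fun p R => ‖Jv P i R (α i k) - Jv P i R (α i p)‖ ^ 2 ≤
      ‖(α i k : P.H i) - (α i p : P.H i)‖ ^ 2 + 1 / ((k : ℝ) + 1))
    exact h3.mpr fun p _ => h1 i p
  obtain ⟨R, hR1, hR2⟩ := ((eventually_ge_atTop ((k : ℝ) + 1)).and h2).exists
  exact ⟨R, hR1, hR2⟩

/-- no profiles -/
lemma no_prof [Fintype ι] (hE : P.LimEq) (α : ∀ i, ℕ → P.D i)
    (hα : ∀ i, Tendsto (fun k => (α i k : P.H i)) atTop (𝓝 (P.g i)))
    {R : ℕ → ℝ} (hR : ∀ k : ℕ, (k : ℝ) + 1 ≤ R k)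
    (hRs : ∀ k i, ∀ p ≤ k, ‖Jv P i (R k) (α i k) - Jv P i (R k) (α i p)‖ ^ 2 ≤
      ‖(α i k : P.H i) - (α i p : P.H i)‖ ^ 2 + 1 / ((k : ℝ) + 1))
    {u : ℕ → Cfg d → F} (hu : ∀ k, S.GInv (u k)) (hn : ∀ k, nsq (u k) = 1)
    (he : ∀ k, R k ^ 2 * S.en ((R k)⁻¹ ^ 2) (u k) ≤ 1 / ((k : ℝ) + 1))
    (ho : ∀ k i, inner ℂ (Jv P i (R k) (α i k)) (U.HB.toL (hu k).1) = 0) :
    Prof.Bdd S R u 1 ∧ ∀ i (a : P.D i), Tendsto (fun n => ipr (P.J i (R n) a) (u n)) atTop (𝓝 0) := by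
  have hRlim : Tendsto R atTop atTop :=
    tendsto_atTop_mono hR (tendsto_atTop_add_const_right _ _ tendsto_natCast_atTop_atTop)
  have hB : Prof.Bdd S R u 1 := by
    refine ⟨hRlim, hu, fun n => (hn n).le, fun n => (he n).trans ?_⟩
    rw [div_le_one (by positivity)]
    linarith [Nat.cast_nonneg (α := ℝ) n]
  refine ⟨hB, fun i a => ?_⟩
  rw [tendsto_iff_ultrafilter]
  intro V hV
  have hJ : ∀ b c : P.D i, Tendsto (fun n => inner ℂ (Jv P i (R n) b) (Jv P i (R n) c)) atTop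
      (𝓝 (inner ℂ (b : P.H i) (c : P.H i))) := fun b c => (Jv_gram P b c).comp hRlim
  have hnorm : ∀ n, ‖U.HB.toL (hu n).1‖ ≤ 1 := by
    intro n
    have := toL_norm (hu n).1
    rw [hn n] at this
    nlinarith [norm_nonneg (U.HB.toL (hu n).1)]
  obtain ⟨W, -, hW⟩ := profile hJ V hV zero_le_one hnorm
  have hpw : ∀ b : P.D i, Tendsto (fun n => ipr (P.J i (R n) b) (u n)) V (𝓝 (inner ℂ (b : P.H i) W)) := by
    intro b
    refine (hW b).congr' ?_
    filter_upwards [hV (hRlim.eventually (Jv_inner P b))] with n hn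
    exact hn _ _
  -- zero mode equation
  have h1 : ∀ β (b : P.D i), inner ℂ (P.Ds i β b : P.H i) W = 0 := by
    intro β b
    have h2 := (hE R u 1 hB i β b).mono_left hV
    have h3 : Tendsto (fun n => (R n : ℂ) * ipr (P.J i (R n) b) (S.Qm ((R n)⁻¹ ^ 2) β (u n))) V (𝓝 0) := by
      have h4 : Tendsto (fun n => ‖Jv P i (R n) b‖ * Real.sqrt (1 / ((n : ℝ) + 1))) atTop
          (𝓝 (‖(b : P.H i)‖ * Real.sqrt 0)) :=
        ((Jv_norm P b).comp hRlim).mul
          ((Real.continuous_sqrt.tendsto _).comp tendsto_one_div_add_atTop_nhds_zero_nat)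
      rw [Real.sqrt_zero, mul_zero] at h4
      refine squeeze_zero_norm' ?_ (h4.mono_left hV)
      filter_upwards [hV (hRlim.eventually (Jv_inner P b))] with n hn'
      have hT := U.HB.Tst_Qm S ((R n)⁻¹ ^ 2) β (hu n).1
      rw [← hn' _ hT, norm_mul]
      have hRn : 0 ≤ R n := by
        have := hR n
        have h0 : (0 : ℝ) ≤ n := Nat.cast_nonneg n
        linarith
      have h5 : ‖U.HB.toL hT‖ * R n ≤ Real.sqrt (1 / ((n : ℝ) + 1)) := by
        refine Real.le_sqrt_of_sq_le ?_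
        rw [mul_pow, toL_norm, mul_comm]
        refine le_trans ?_ (he n)
        have : nsq (S.Qm ((R n)⁻¹ ^ 2) β (u n)) ≤ S.en ((R n)⁻¹ ^ 2) (u n) :=
          Finset.single_le_sum (f := fun β => nsq (S.Qm ((R n)⁻¹ ^ 2) β (u n)))
            (fun β _ => nsq_nonneg _) (Finset.mem_univ β)
        gcongr
      calc ‖(R n : ℂ)‖ * ‖inner ℂ (Jv P i (R n) b) (U.HB.toL hT)‖
          ≤ R n * (‖Jv P i (R n) b‖ * ‖U.HB.toL hT‖) := by
            rw [Complex.norm_real, Real.norm_eq_abs, abs_of_nonneg hRn]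
            gcongr
            exact norm_inner_le_norm _ _
        _ = ‖Jv P i (R n) b‖ * (‖U.HB.toL hT‖ * R n) := by ring
        _ ≤ _ := by gcongr
    have h6 := tendsto_nhds_unique h2 (h3.sub (hpw (P.Ds i β b)))
    rw [zero_sub] at h6
    exact neg_eq_zero.mp h6.symm
  obtain ⟨c, hc⟩ := P.ker i W h1
  -- orthogonality
  have h2 : ∀ p, ‖inner ℂ (α i p : P.H i) W‖ ≤ ‖P.g i - (α i p : P.H i)‖ := by
    intro p
    have h3 : Tendsto (fun k : ℕ => Real.sqrt (‖(α i k : P.H i) - (α i p : P.H i)‖ ^ 2 + 1 / ((k : ℝ) + 1))) atTop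
        (𝓝 (Real.sqrt (‖P.g i - (α i p : P.H i)‖ ^ 2 + 0))) :=
      (Real.continuous_sqrt.tendsto _).comp
        ((((hα i).sub_const _).norm.pow 2).add tendsto_one_div_add_atTop_nhds_zero_nat)
    rw [add_zero, Real.sqrt_sq (norm_nonneg _)] at h3
    refine le_of_tendsto_of_tendsto (hW (α i p)).norm (h3.mono_left hV) ?_
    filter_upwards [hV (eventually_ge_atTop p)] with k hk
    have h4 : inner ℂ (Jv P i (R k) (α i p)) (U.HB.toL (hu k).1) =
        inner ℂ (Jv P i (R k) (α i p) - Jv P i (R k) (α i k)) (U.HB.toL (hu k).1) := by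
      rw [inner_sub_left, ho k i, sub_zero]
    rw [h4]
    refine (norm_inner_le_norm _ _).trans ?_
    have h5 : ‖Jv P i (R k) (α i p) - Jv P i (R k) (α i k)‖ ≤
        Real.sqrt (‖(α i k : P.H i) - (α i p : P.H i)‖ ^ 2 + 1 / ((k : ℝ) + 1)) := by
      refine Real.le_sqrt_of_sq_le ?_
      rw [norm_sub_rev]
      exact hRs k i p hk
    calc ‖Jv P i (R k) (α i p) - Jv P i (R k) (α i k)‖ * ‖U.HB.toL (hu k).1‖
        ≤ ‖Jv P i (R k) (α i p) - Jv P i (R k) (α i k)‖ * 1 := by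
          gcongr
          exact hnorm k
      _ ≤ _ := by rw [mul_one]; exact h5
  have h3 : inner ℂ (P.g i) W = 0 := by
    have h4 : Tendsto (fun p => ‖inner ℂ (α i p : P.H i) W‖) atTop (𝓝 ‖inner ℂ (P.g i) W‖) :=
      ((hα i).inner tendsto_const_nhds).norm
    have h5 : Tendsto (fun p => ‖P.g i - (α i p : P.H i)‖) atTop (𝓝 ‖P.g i - P.g i‖) :=
      (tendsto_const_nhds.sub (hα i)).norm
    have h6 := le_of_tendsto_of_tendsto' h4 h5 h2
    rw [sub_self, norm_zero] at h6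
    exact norm_le_zero_iff.mp h6
  have hc0 : c = 0 := by
    rw [hc, inner_smul_right, inner_self_eq_norm_sq_to_K, P.g_norm i] at h3
    simpa using h3
  have hW0 : W = 0 := by rw [hc, hc0, zero_smul]
  have h4 := hpw a
  rw [hW0, inner_zero_right] at h4
  exact h4

/-- **S6** -/
theorem s6 [CompleteSpace F] [Fintype ι] (hloc : LocStmt S) : S6Stmt S P := by
  classical
  intro hE hNL hL
  by_contra hcon
  have hz : ∀ Ψ : Lp F 2 (volume : Measure (Cfg d)), S.IsZM Ψ → Ψ = 0 := by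
    intro Ψ hΨ
    by_contra h
    exact hcon ⟨Ψ, hΨ, h⟩
  -- approximants of the ground states
  have hα : ∀ i, ∃ α : ℕ → P.D i, Tendsto (fun k => (α k : P.H i)) atTop (𝓝 (P.g i)) := by
    intro i
    obtain ⟨α, hα1, hα2⟩ := mem_closure_iff_seq_limit.mp (P.dense i (P.g i))
    exact ⟨fun k => ⟨α k, hα1 k⟩, hα2⟩
  choose α hα using hα
  choose R hR hRs using scale P α
  have hR0 : ∀ k, 0 < R k := fun k => by
    have := hR k
    have h0 : (0 : ℝ) ≤ k := Nat.cast_nonneg k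
    linarith
  have hv := fun k => vec hL (fun i => Jv P i (R k) (α i k)) (m := (R k)⁻¹ ^ 2)
    (c := (R k)⁻¹ ^ 2 * (1 / ((k : ℝ) + 1))) (by have := hR0 k; positivity) (by have := hR0 k; positivity)
  choose u hu hn he ho using hv
  have he' : ∀ k, R k ^ 2 * S.en ((R k)⁻¹ ^ 2) (u k) ≤ 1 / ((k : ℝ) + 1) := by
    intro k
    have h1 := he k
    have h2 := hR0 k
    calc R k ^ 2 * S.en ((R k)⁻¹ ^ 2) (u k) ≤ R k ^ 2 * ((R k)⁻¹ ^ 2 * (1 / ((k : ℝ) + 1))) := by gcongr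
      _ = 1 / ((k : ℝ) + 1) := by field_simp
  obtain ⟨hB, hprof⟩ := no_prof P hE α hα hR hRs (fun k => Inv_GInv (hu k)) hn he' ho
  have hRlim := hB.R_lim
  -- local limits
  have hlocal : ∀ ζ : Cfg d → F, Setup.Tst ζ → Tendsto (fun n => ipr ζ (u n)) atTop (𝓝 0) := by
    intro ζ hζ
    rw [tendsto_iff_ultrafilter]
    intro V hV
    have hnorm : ∀ n, ‖U.HB.toL (hu n).1‖ ≤ 1 := by
      intro n
      have := toL_norm (hu n).1
      rw [hn n] at this
      nlinarith [norm_nonneg (U.HB.toL (hu n).1)]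
    obtain ⟨Ψ, -, hΨ⟩ := profile (H := Lp F 2 (volume : Measure (Cfg d))) (D := ⊤)
      (J := fun _ a => (a : Lp F 2 (volume : Measure (Cfg d)))) (fun a b => tendsto_const_nhds) V hV
      zero_le_one hnorm
    have hΨ' : ∀ ξ : Cfg d → F, Setup.Tst ξ →
        Tendsto (fun n => ipr ξ (u n)) V (𝓝 (∫ x, inner ℂ (ξ x) (Ψ x))) := by
      intro ξ hξ
      have h1 := hΨ ⟨U.HB.toL hξ, Submodule.mem_top⟩
      have h2 : inner ℂ (U.HB.toL hξ) Ψ = ∫ x, inner ℂ (ξ x) (Ψ x) :=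
        U.HB.inner_Lp (U.HB.coe_toL hξ) (Filter.EventuallyEq.refl _ _)
      simp only at h1
      rw [h2] at h1
      refine h1.congr fun n => ?_
      exact toL_inner hξ (hu n).1
    have hm : Tendsto (fun n => (R n)⁻¹ ^ 2) atTop (𝓝 0) := by
      have := (tendsto_inv_atTop_zero.comp hRlim).pow 2
      simpa using this
    have hen : Tendsto (fun n => S.en ((R n)⁻¹ ^ 2) (u n)) atTop (𝓝 0) := by
      refine squeeze_zero (fun n => en_nonneg _ _) (fun n => ?_) tendsto_one_div_add_atTop_nhds_zero_nat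
      have h1 := he' n
      have h2 : 1 ≤ R n := by
        have := hR n
        have h0 : (0 : ℝ) ≤ n := Nat.cast_nonneg n
        linarith
      have h3 := en_nonneg (S := S) ((R n)⁻¹ ^ 2) (u n)
      have h4 : 1 ≤ R n ^ 2 := one_le_pow₀ h2
      calc S.en ((R n)⁻¹ ^ 2) (u n) = 1 * S.en ((R n)⁻¹ ^ 2) (u n) := (one_mul _).symm
        _ ≤ R n ^ 2 * S.en ((R n)⁻¹ ^ 2) (u n) := mul_le_mul_of_nonneg_right h4 h3
        _ ≤ _ := h1
    have hzm := hloc V (fun n => (R n)⁻¹ ^ 2) u 1 Ψ (hm.mono_left hV) hu (fun n => (hn n).le)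
      (hen.mono_left hV) hΨ'
    have h0 := hz Ψ hzm
    have h1 := hΨ' ζ hζ
    have h2 : ∫ x, inner ℂ (ζ x) (Ψ x) = 0 := by
      rw [h0]
      have h3 : ∫ x, inner ℂ (ζ x) ((0 : Lp F 2 (volume : Measure (Cfg d))) x) = ∫ _ : Cfg d, (0 : ℂ) := by
        refine integral_congr_ae ?_
        filter_upwards [Lp.coeFn_zero F 2 (volume : Measure (Cfg d))] with x hx
        rw [hx]
        exact inner_zero_right _
      rw [h3, integral_zero]
    rw [h2] at h1
    exact h1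
  have h1 := hNL R u 1 hB hprof hlocal
  have h2 : Tendsto (fun n => nsq (u n)) atTop (𝓝 1) := by
    simp only [hn]
    exact tendsto_const_nhds
  exact zero_ne_one (tendsto_nhds_unique h1 h2)

end Vale.Agent.P353.Z.AH
end

section

/-! # P353, all `N`, block H: `dim ker = 1` from the counting theorems (helper973) -/

open MeasureTheory Filter Topology
open scoped ContDiff ComplexConjugate

namespace Vale.Agent.P353.Z.AH

variable {d : ℕ} {F : Type*} [NormedAddCommGroup F] [InnerProductSpace ℂ F]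

/-- **Top** -/
theorem top [FiniteDimensional ℂ F] (S : Setup d F) (hQQ : QQStmt S) (hD : DenseStmt S) (hJ : JbdStmt S)
    (hA : AvgStmt S) (hK : KerCutStmt S) (hloc : LocStmt S) (hBr : BridgeStmt S) : TopStmt S := by
  have hFc : CompleteSpace F := FiniteDimensional.complete ℂ F
  intro hirr hne ι _ P hE hNL hcount hlow
  obtain ⟨m, hm, hlow⟩ := hlow
  -- theorem B after the bridge
  have hB : ∀ k : ℕ, (∃ m : ℝ, 0 < m ∧ S.LowP plT k m (8 * m)) → ∀ m' : ℝ, 0 < m' → ∀ c : ℝ, 0 < c →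
      S.Low k m' c := by
    rintro k ⟨m, hm, h⟩ m' hm' c hc
    exact U.All.thmB_all S k m hm (hBr k m hm h (8 * m) (by positivity)) m' hm' c hc
  have hL := hB _ ⟨m, hm, hlow⟩
  obtain ⟨Ψ₀, h0, hn0⟩ := s6 P hloc hE hNL hL
  refine ⟨Ψ₀, h0, hn0, fun Ψ hΨ => ?_⟩
  by_contra hcon
  have hli : LinearIndependent ℂ ![Ψ₀, Ψ] := by
    rw [LinearIndependent.pair_iff]
    intro s t hst
    have ht : t = 0 := by
      by_contra ht
      refine hcon ⟨-(t⁻¹ * s), ?_⟩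
      have h1 : Ψ = t⁻¹ • (t • Ψ) := by rw [smul_smul, inv_mul_cancel₀ ht, one_smul]
      have h2 : t • Ψ = -(s • Ψ₀) := eq_neg_of_add_eq_zero_right hst
      rw [h1, h2, smul_neg, smul_smul, neg_smul]
    rw [ht, zero_smul, add_zero] at hst
    exact ⟨(smul_eq_zero.mp hst).resolve_right hn0, ht⟩
  have h7 := s7 P hQQ hD hJ (hA hirr hne) hK hE 2 ![Ψ₀, Ψ] (by
    intro j
    fin_cases j
    · exact h0
    · exact hΨ) hli
  have h8 := hB _ h7
  obtain ⟨M, hM, hC⟩ := U.All.thmC_all S (Fintype.card ι + 1) hirr hne hcount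
  obtain ⟨ε, hε, hno⟩ := hC M le_rfl
  apply hno
  have h9 := h8 M hM ε hε
  have e : 2 + Fintype.card ι = Fintype.card ι + 1 + 1 := by ring
  rw [e] at h9
  exact h9

end Vale.Agent.P353.Z.AH
end

section

/-! # P353, all `N`, block H: weak profile systems, uniform forms (helper973) -/

open MeasureTheory Filter Topology
open scoped ContDiff ComplexConjugate

namespace Vale.Agent.P353.Z.AJ

open AH

section abs

variable {H : Type*} [NormedAddCommGroup H] [InnerProductSpace ℂ H]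

/-- profile of a sequence of functionals along an ultrafilter -/
lemma profileW [CompleteSpace H] {D : Submodule ℂ H} {z : ℕ → D → ℂ} {C : ℝ} (hC : 0 ≤ C)
    (hlin : ∀ (c : ℂ) (a b : D), Tendsto (fun n => z n (c • a + b) - (conj c * z n a + z n b)) atTop (𝓝 0))
    (hb : ∀ (a : D) (ε : ℝ), 0 < ε → ∀ᶠ n in atTop, ‖z n a‖ ≤ C * ‖(a : H)‖ + ε)
    (U : Ultrafilter ℕ) (hU : (U : Filter ℕ) ≤ atTop) :
    ∃ W : H, ∀ a : D, Tendsto (fun n => z n a) U (𝓝 (inner ℂ (a : H) W)) := by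
  have hlim : ∀ a : D, ∃ w : ℂ, Tendsto (fun n => z n a) U (𝓝 w) := by
    intro a
    have hev : ∀ᶠ n in (U : Filter ℕ), z n a ∈ Metric.closedBall (0 : ℂ) (C * ‖(a : H)‖ + 1) := by
      filter_upwards [hU (hb a 1 one_pos)] with n h
      rw [mem_closedBall_zero_iff]
      exact h
    obtain ⟨w, _, hw⟩ := (isCompact_closedBall (0 : ℂ) (C * ‖(a : H)‖ + 1)).ultrafilter_le_nhds
      (U.map fun n => z n a) (by
        rw [Ultrafilter.coe_map, le_principal_iff, mem_map]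
        exact hev)
    exact ⟨w, hw⟩
  choose ζ hζ using hlim
  have hl : ∀ (c : ℂ) (a b : D), ζ (c • a + b) = conj c * ζ a + ζ b := by
    intro c a b
    have h1 : Tendsto (fun n => z n (c • a + b) - (conj c * z n a + z n b)) U
        (𝓝 (ζ (c • a + b) - (conj c * ζ a + ζ b))) :=
      (hζ _).sub (((hζ a).const_mul _).add (hζ b))
    exact sub_eq_zero.mp (tendsto_nhds_unique h1 ((hlin c a b).mono_left hU))
  have h0 : ζ 0 = 0 := by
    have h := hl 1 0 0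
    simp only [smul_zero, add_zero, map_one, one_mul] at h
    exact left_eq_add.mp h
  have hadd : ∀ a b : D, ζ (a + b) = ζ a + ζ b := by
    intro a b
    have h := hl 1 a b
    simpa using h
  have hsm : ∀ (c : ℂ) (a : D), ζ (c • a) = conj c * ζ a := by
    intro c a
    have h := hl c a 0
    simpa [h0] using h
  have hzb : ∀ a : D, ‖ζ a‖ ≤ C * ‖a‖ := by
    intro a
    refine le_of_forall_pos_le_add fun ε hε => ?_
    exact le_of_tendsto (hζ a).norm (hU (hb a ε hε))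
  let f : D →ₗ[ℂ] ℂ :=
    { toFun := fun a => conj (ζ a)
      map_add' := fun a b => by rw [hadd, map_add]
      map_smul' := fun c a => by
        rw [hsm, map_mul, Complex.conj_conj]
        rfl }
  let f' : D →L[ℂ] ℂ := f.mkContinuous C fun a => by
    change ‖conj (ζ a)‖ ≤ C * ‖a‖
    rw [RCLike.norm_conj]
    exact hzb a
  obtain ⟨g, hg, hgn⟩ := exists_extension_norm_eq D f'
  refine ⟨(InnerProductSpace.toDual ℂ H).symm g, fun a => ?_⟩
  have h1 : inner ℂ (a : H) ((InnerProductSpace.toDual ℂ H).symm g) = ζ a := by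
    rw [← inner_conj_symm, InnerProductSpace.toDual_symm_apply, hg a]
    change conj (conj (ζ a)) = ζ a
    exact Complex.conj_conj _
  rw [h1]
  exact hζ a

end abs

variable {d : ℕ} {F : Type*} [NormedAddCommGroup F] [InnerProductSpace ℂ F]
variable {S : Setup d F} {ι : Type}

/-- sequences to uniform statements -/
lemma unif {A B : ℝ → (Cfg d → F) → Prop} (h : ∀ (R : ℕ → ℝ) (u : ℕ → Cfg d → F), Tendsto R atTop atTop →
    (∀ n, A (R n) (u n)) → ∀ᶠ n in atTop, B (R n) (u n)) : ∀ᶠ R in atTop, ∀ u, A R u → B R u := by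
  by_contra hcon
  have hfr : ∃ᶠ R : ℝ in atTop, ∃ u, A R u ∧ ¬ B R u := by
    refine (not_eventually.mp hcon).mono fun R hR => ?_
    push Not at hR
    exact hR
  obtain ⟨R, hR, hp⟩ := exists_seq_forall_of_frequently hfr
  choose u hA hB using hp
  obtain ⟨n, hn⟩ := (h R u hR hA).exists
  exact hB n hn

lemma ipr_zero (f : Cfg d → F) {u : Cfg d → F} (hu : Setup.Tst u) (h : nsq u = 0) : ipr f u = 0 := by
  have h1 : (fun x => ‖u x‖ ^ 2) =ᵐ[volume] 0 :=
    (integral_eq_zero_iff_of_nonneg (fun x => sq_nonneg _) hu.norm_sq_int).mp h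
  unfold ipr
  rw [← integral_zero (Cfg d) ℂ]
  refine integral_congr_ae ?_
  filter_upwards [h1] with x hx
  have h2 : u x = 0 := by simpa using hx
  rw [h2, inner_zero_right]

/-- homogeneity -/
lemma homog {L : (Cfg d → F) → ℂ} {K : ℝ} (h1 : ∀ u, S.GInv u → nsq u = 1 → ‖L u‖ ≤ K)
    (hs : ∀ (c : ℂ) u, L (fun x => c • u x) = c * L u) (h0 : ∀ u, S.GInv u → nsq u = 0 → L u = 0) :
    ∀ u, S.GInv u → ‖L u‖ ≤ K * Real.sqrt (nsq u) := by
  intro u hu
  rcases (nsq_nonneg u).eq_or_lt with h | h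
  · rw [h0 u hu h.symm, ← h, norm_zero, Real.sqrt_zero, mul_zero]
  · set r : ℝ := Real.sqrt (nsq u) with hr
    have hr0 : 0 < r := Real.sqrt_pos.mpr h
    have hr2 : r ^ 2 = nsq u := Real.sq_sqrt h.le
    have h2 := h1 (fun x => ((r⁻¹ : ℝ) : ℂ) • u x) (GInv_csmul _ hu) (by
      rw [nsq_csmul, Complex.norm_real, Real.norm_eq_abs, sq_abs, ← hr2]
      field_simp)
    rw [hs, norm_mul, Complex.norm_real, Real.norm_eq_abs, abs_of_pos (inv_pos.mpr hr0),
      inv_mul_le_iff₀ hr0] at h2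
    linarith

variable (P : PW S ι)

/-- uniform form of `ub` -/
lemma ub' (i : ι) : ∃ C : ℝ, 0 ≤ C ∧ ∀ (a : P.D i) (ε : ℝ), 0 < ε → ∀ᶠ R : ℝ in atTop,
    ∀ u : Cfg d → F, S.GInv u → ‖ipr (P.Z i R a) u‖ ≤ (C * ‖(a : P.H i)‖ + ε) * Real.sqrt (nsq u) := by
  obtain ⟨C, hC, h⟩ := P.ub i
  refine ⟨C, hC, fun a ε hε => ?_⟩
  have h1 := unif (A := fun _ u => S.GInv u ∧ nsq u = 1)
    (B := fun R u => ‖ipr (P.Z i R a) u‖ ≤ C * ‖(a : P.H i)‖ + ε) (fun R u hR hu => by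
      have h2 := h a R u 1 ⟨hR, fun n => (hu n).1, fun n => (hu n).2.le⟩ ε hε
      simpa using h2)
  filter_upwards [h1] with R hR
  exact homog (S := S) (L := fun u => ipr (P.Z i R a) u) (fun u hu hn => hR u ⟨hu, hn⟩)
    (fun c u => ipr_csmul _ _ _) (fun u hu h0 => ipr_zero _ hu.1 h0)

/-- uniform form of the limit equation -/
lemma lim' (hE : P.LimEq) (i : ι) (β : Fin 16) (a : P.D i) (C : ℝ) {ε : ℝ} (hε : 0 < ε) : ∀ᶠ R : ℝ in atTop,
    ∀ u : Cfg d → F, (S.GInv u ∧ nsq u ≤ C ∧ R ^ 2 * S.en (R⁻¹ ^ 2) u ≤ C) →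
      ‖(R : ℂ) * ipr (P.Z i R a) (S.Qm (R⁻¹ ^ 2) β u) - ipr (P.Z i R (P.Ds i β a)) u‖ ≤ ε := by
  refine unif (A := fun R u => S.GInv u ∧ nsq u ≤ C ∧ R ^ 2 * S.en (R⁻¹ ^ 2) u ≤ C)
    (B := fun R u => ‖(R : ℂ) * ipr (P.Z i R a) (S.Qm (R⁻¹ ^ 2) β u) -
      ipr (P.Z i R (P.Ds i β a)) u‖ ≤ ε) fun R u hR hu => ?_
  have h1 := hE R u C ⟨hR, fun n => (hu n).1, fun n => (hu n).2.1, fun n => (hu n).2.2⟩ i β a
  have h2 := h1.norm
  rw [norm_zero] at h2
  exact h2.eventually_le_const hε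

/-- uniform form of `rep` -/
lemma rep' {J : ∀ i, P.D i → ℝ → ℝ → Cfg d → F} (hJ : P.Rep J) (i : ι) (a : P.D i) {ε : ℝ} (hε : 0 < ε) :
    ∀ᶠ R : ℝ in atTop, ∀ u : Cfg d → F, S.GInv u →
      ‖ipr (J i a ε R) u - ipr (P.Z i R a) u‖ ≤ ε * Real.sqrt (nsq u) := by
  have h1 := unif (A := fun _ u => S.GInv u ∧ nsq u = 1)
    (B := fun R u => ‖ipr (J i a ε R) u - ipr (P.Z i R a) u‖ ≤ ε) (fun R u hR hu => by
      have h2 := hJ.rep i a ε hε R u 1 ⟨hR, fun n => (hu n).1, fun n => (hu n).2.le⟩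
      simpa using h2)
  filter_upwards [h1] with R hR
  refine homog (S := S) (L := fun u => ipr (J i a ε R) u - ipr (P.Z i R a) u) (fun u hu hn => hR u ⟨hu, hn⟩)
    (fun c u => ?_) (fun u hu h0 => ?_)
  · simp only [ipr_csmul]
    ring
  · simp only [ipr_zero _ hu.1 h0, sub_zero]

open Classical in
/-- the functional as an `L²` vector -/
noncomputable def Zv (i : ι) (R : ℝ) (a : P.D i) : Lp F 2 (volume : Measure (Cfg d)) :=
  if h : MemLp (P.Z i R a) 2 (volume : Measure (Cfg d)) then h.toLp else 0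

lemma Zv_inner {i : ι} (a : P.D i) : ∀ᶠ R in atTop, ∀ (u : Cfg d → F) (hu : Setup.Tst u),
    inner ℂ (Zv P i R a) (U.HB.toL hu) = ipr (P.Z i R a) u := by
  filter_upwards [P.Z_mem i a] with R h u hu
  unfold Zv
  rw [dif_pos h]
  exact U.HB.inner_Lp h.coeFn_toLp (U.HB.coe_toL hu)

end Vale.Agent.P353.Z.AJ
end

section

/-! # P353, all `N`, block H: core of S7 for weak profile systems (helper973) -/

open MeasureTheory Filter Topology
open scoped ContDiff ComplexConjugate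

namespace Vale.Agent.P353.Z.AJ

open AH

variable {d : ℕ} {F : Type*} [NormedAddCommGroup F] [InnerProductSpace ℂ F]
variable {S : Setup d F} {ι : Type} (P : PW S ι)

lemma ipr_self (f : Cfg d → F) : ipr f f = ((nsq f : ℝ) : ℂ) := by
  unfold ipr nsq
  rw [← integral_complex_ofReal]
  refine integral_congr_ae (Eventually.of_forall fun x => ?_)
  simp only [inner_self_eq_norm_sq_to_K]
  norm_cast

/-- one term of the pairing of `f` with `R² HH w` -/
lemma one_term {R ε C K M : ℝ} {f : Cfg d → F} {z z' : Cfg d → F} {β : Fin 16} {v : Cfg d → F}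
    (hR : 0 ≤ R) (hε : 0 ≤ ε)
    (hrep : ∀ u : Cfg d → F, S.GInv u → ‖ipr f u - ipr z u‖ ≤ ε * Real.sqrt (nsq u))
    (hlim : ‖(R : ℂ) * ipr z (S.Qm (R⁻¹ ^ 2) β v) - ipr z' v‖ ≤ ε)
    (hub : ‖ipr z' v‖ ≤ (C * ε + ε) * Real.sqrt (nsq v))
    (hC : 0 ≤ C) (hv : S.GInv v) (hn : nsq v ≤ M) (he : R ^ 2 * S.en (R⁻¹ ^ 2) v ≤ M)
    (hK : (C + 2) * Real.sqrt M + 1 ≤ K) :
    ‖(R : ℂ) * ipr f (S.Qm (R⁻¹ ^ 2) β v)‖ ≤ ε * K := by
  have hQ := GInv_Qm (R⁻¹ ^ 2) β hv
  have h1 := hrep _ (GInv_csmul (R : ℂ) hQ)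
  have h2 : nsq (fun x => (R : ℂ) • S.Qm (R⁻¹ ^ 2) β v x) ≤ M := by
    rw [nsq_csmul, Complex.norm_real, Real.norm_eq_abs, sq_abs]
    refine le_trans ?_ he
    have : nsq (S.Qm (R⁻¹ ^ 2) β v) ≤ S.en (R⁻¹ ^ 2) v :=
      Finset.single_le_sum (f := fun β => nsq (S.Qm (R⁻¹ ^ 2) β v))
        (fun β _ => nsq_nonneg _) (Finset.mem_univ β)
    gcongr
  rw [ipr_csmul, ipr_csmul] at h1
  have h3 : Real.sqrt (nsq (fun x => (R : ℂ) • S.Qm (R⁻¹ ^ 2) β v x)) ≤ Real.sqrt M := Real.sqrt_le_sqrt h2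
  have h4 : Real.sqrt (nsq v) ≤ Real.sqrt M := Real.sqrt_le_sqrt hn
  have e : (R : ℂ) * ipr f (S.Qm (R⁻¹ ^ 2) β v) =
      ((R : ℂ) * ipr f (S.Qm (R⁻¹ ^ 2) β v) - (R : ℂ) * ipr z (S.Qm (R⁻¹ ^ 2) β v)) +
      ((R : ℂ) * ipr z (S.Qm (R⁻¹ ^ 2) β v) - ipr z' v) + ipr z' v := by ring
  rw [e]
  calc _ ≤ ε * Real.sqrt M + ε + (C * ε + ε) * Real.sqrt M := by
        refine (norm_add₃_le).trans (add_le_add_three ?_ hlim ?_)
        · exact h1.trans (mul_le_mul_of_nonneg_left h3 hε)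
        · exact hub.trans (mul_le_mul_of_nonneg_left h4 (by positivity))
    _ = ε * ((C + 2) * Real.sqrt M + 1) := by ring
    _ ≤ _ := by gcongr

/-- upper bound for the representatives -/
lemma f_bound {f z : Cfg d → F} (hf : S.GInv f) {A ε M : ℝ} (hpos : 0 < nsq f)
    (h1 : ‖ipr f f - ipr z f‖ ≤ ε * Real.sqrt (nsq f)) (h2 : ‖ipr z f‖ ≤ A * Real.sqrt (nsq f))
    (hM : A + ε ≤ M) : Real.sqrt (nsq f) ≤ M := by
  have h3 : nsq f ≤ (A + ε) * Real.sqrt (nsq f) := by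
    have h4 : ‖ipr f f‖ = nsq f := by
      rw [ipr_self, Complex.norm_real, Real.norm_eq_abs, abs_of_nonneg (nsq_nonneg f)]
    calc nsq f = ‖ipr f f‖ := h4.symm
      _ = ‖(ipr f f - ipr z f) + ipr z f‖ := by rw [sub_add_cancel]
      _ ≤ ε * Real.sqrt (nsq f) + A * Real.sqrt (nsq f) := (norm_add_le _ _).trans (add_le_add h1 h2)
      _ = _ := by ring
  have h4 : Real.sqrt (nsq f) ^ 2 = nsq f := Real.sq_sqrt (nsq_nonneg f)
  have h5 : 0 < Real.sqrt (nsq f) := Real.sqrt_pos.mpr hpos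
  have h6 : Real.sqrt (nsq f) ≤ A + ε := by
    refine le_of_mul_le_mul_right (a := Real.sqrt (nsq f)) ?_ h5
    rw [← sq, h4]
    exact h3
  exact h6.trans hM

/-- final estimate -/
lemma one_endW {R ε η K : ℝ} (hε0 : 0 < ε) (hε1 : ε ≤ 1) (hK : 0 ≤ K) (hε4 : 256 * (ε * K) + 2 * ε ≤ η)
    {f w : Cfg d → F} (hf : S.GInv f) (hw : S.GInv w) {h e : Lp F 2 (volume : Measure (Cfg d))}
    (hwh : U.HB.toL hw.1 + h = U.HB.toL hf.1 + e) (he2 : ‖e‖ ≤ ε)
    (hsum : R ^ 2 / 16 * S.en (R⁻¹ ^ 2) w + ‖h‖ ^ 2 ≤ ε * K)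
    (hH : R ^ 4 * nsq (U.HB.HH S (R⁻¹ ^ 2) w) = 256 * ‖h‖ ^ 2) :
    nsq (fun x => w x - f x) ≤ η ∧ R ^ 2 * S.en (R⁻¹ ^ 2) w ≤ η ∧
      R ^ 4 * nsq (U.HB.HH S (R⁻¹ ^ 2) w) ≤ η := by
  have hen := en_nonneg (S := S) (R⁻¹ ^ 2) w
  have hp1 : 0 ≤ R ^ 2 / 16 * S.en (R⁻¹ ^ 2) w := by positivity
  have hh2 : ‖h‖ ^ 2 ≤ ε * K := by linarith
  have hKε : 0 ≤ ε * K := by positivity
  refine ⟨?_, ?_, ?_⟩
  · have h1 : U.HB.toL hw.1 - U.HB.toL hf.1 =ᵐ[volume] fun x => w x - f x := by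
      filter_upwards [Lp.coeFn_sub (U.HB.toL hw.1) (U.HB.toL hf.1), U.HB.coe_toL hw.1,
        U.HB.coe_toL hf.1] with x h1 h2 h3
      rw [h1, Pi.sub_apply, h2, h3]
    rw [← U.HB.norm_Lp h1]
    have h2 : U.HB.toL hw.1 - U.HB.toL hf.1 = e - h := by
      have h3 : U.HB.toL hw.1 = U.HB.toL hf.1 + e - h := by rw [← hwh]; abel
      rw [h3]
      abel
    rw [h2]
    have h3 : ‖e - h‖ ^ 2 ≤ 2 * ‖e‖ ^ 2 + 2 * ‖h‖ ^ 2 := by
      have h4 := norm_sub_le e h
      nlinarith [sq_nonneg (‖e‖ - ‖h‖), norm_nonneg (e - h), norm_nonneg e, norm_nonneg h]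
    have h5 : ‖e‖ ^ 2 ≤ ε := by
      nlinarith [norm_nonneg e]
    linarith
  · have := sq_nonneg ‖h‖
    linarith
  · rw [hH]
    linarith

/-- **core of S7**: close to the ground state profile, `J_R a` is close to a low vector with small `‖Hw‖` -/
theorem coreW (hE : P.LimEq) (hQQ : QQStmt S) (hD : DenseStmt S) {J : ∀ i, P.D i → ℝ → ℝ → Cfg d → F}
    (hJ : P.Rep J) (i : ι) : ∃ c₀ M₀ : ℝ, 0 < c₀ ∧ 0 ≤ M₀ ∧ ∀ η : ℝ, 0 < η → ∃ (a : P.D i) (ε : ℝ), 0 < ε ∧
      ∀ᶠ R : ℝ in atTop, S.GInv (J i a ε R) ∧ c₀ ≤ nsq (J i a ε R) ∧ nsq (J i a ε R) ≤ M₀ ∧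
      ∃ w : Cfg d → F, S.GInv w ∧
      nsq (fun x => w x - J i a ε R x) ≤ η ∧ R ^ 2 * S.en (R⁻¹ ^ 2) w ≤ η ∧
      R ^ 4 * nsq (U.HB.HH S (R⁻¹ ^ 2) w) ≤ η := by
  classical
  obtain ⟨C0, hC0, hQQ⟩ := hQQ
  obtain ⟨c₀, ε₀, hc₀, hε₀, hlow⟩ := hJ.low i
  obtain ⟨C, hC, hub⟩ := ub' P i
  set M1 : ℝ := 2 * C + 2 with hM1
  have hM1p : 0 < M1 := by positivity
  set M : ℝ := M1 + 1 with hM
  have hMp : 0 < M := by positivity
  set C1 : ℝ := (256 + 8 * C0) * M ^ 2 + 8 * M ^ 2 with hC1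
  have hC1p : 0 ≤ C1 := by positivity
  set K1 : ℝ := (C + 2) * Real.sqrt C1 + 1 with hK1
  have hK1p : 0 < K1 := by positivity
  set K : ℝ := K1 + M with hK
  have hKp : 0 < K := by positivity
  refine ⟨c₀, M1 ^ 2, hc₀, by positivity, fun η hη => ?_⟩
  set ε : ℝ := min (min 1 ε₀) (η / (256 * K + 2)) with hε
  have hε0 : 0 < ε := lt_min (lt_min one_pos hε₀) (by positivity)
  have hε1 : ε ≤ 1 := (min_le_left _ _).trans (min_le_left _ _)
  have hε2 : ε ≤ ε₀ := (min_le_left _ _).trans (min_le_right _ _)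
  have hε3 : ε * (256 * K + 2) ≤ η := by
    have : ε ≤ η / (256 * K + 2) := min_le_right _ _
    rwa [le_div_iff₀ (by positivity)] at this
  obtain ⟨a, hag, hDa⟩ := P.app i ε hε0
  have han : ‖(a : P.H i)‖ ≤ 2 := by
    have h1 : (a : P.H i) = ((a : P.H i) - P.g i) + P.g i := by abel
    rw [h1]
    refine (norm_add_le _ _).trans ?_
    rw [P.g_norm i]
    linarith
  refine ⟨a, ε, hε0, ?_⟩
  have hub1 := hub a 1 one_pos
  have hub2 : ∀ᶠ R : ℝ in atTop, ∀ β, ∀ u : Cfg d → F, S.GInv u →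
      ‖ipr (P.Z i R (P.Ds i β a)) u‖ ≤ (C * ‖(P.Ds i β a : P.H i)‖ + ε) * Real.sqrt (nsq u) := by
    rw [eventually_all]
    exact fun β => hub (P.Ds i β a) ε hε0
  have hlim2 : ∀ᶠ R : ℝ in atTop, ∀ β, ∀ u : Cfg d → F, (S.GInv u ∧ nsq u ≤ C1 ∧ R ^ 2 * S.en (R⁻¹ ^ 2) u ≤ C1) →
      ‖(R : ℂ) * ipr (P.Z i R a) (S.Qm (R⁻¹ ^ 2) β u) - ipr (P.Z i R (P.Ds i β a)) u‖ ≤ ε := by
    rw [eventually_all]
    exact fun β => lim' P hE i β a C1 hε0
  filter_upwards [hub1, hub2, hlim2, rep' P hJ i a hε0, hJ.inv i a ε hε0, hlow a (hag.trans hε2) ε hε0 hε2,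
    eventually_ge_atTop (1 : ℝ)] with R r1 r2 r3 r4 r5 r6 hR
  set f : Cfg d → F := J i a ε R with hf
  have hR0 : 0 < R := by linarith
  -- upper bound for `f`
  have hfn : Real.sqrt (nsq f) ≤ M1 := by
    refine f_bound r5 (hc₀.trans_le r6) (r4 f r5) (r1 f r5) ?_
    have h7 : C * ‖(a : P.H i)‖ ≤ C * 2 := by gcongr
    rw [hM1]
    linarith
  have hfM : nsq f ≤ M1 ^ 2 := by
    rw [← Real.sq_sqrt (nsq_nonneg f)]
    gcongr
  refine ⟨r5, r6, hfM, ?_⟩
  obtain ⟨w, hw, h, e, hwh, he, hh, hi⟩ := one_step hD hR r5 hε0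
  have hfL : ‖U.HB.toL r5.1‖ ≤ M1 := by
    have := toL_norm r5.1
    rw [← Real.sqrt_sq (norm_nonneg (U.HB.toL r5.1)), this]
    exact hfn
  have hg : ‖U.HB.toL r5.1 + e‖ ≤ M := (norm_add_le _ _).trans (by rw [hM]; linarith)
  obtain ⟨b1, b2, b3, b4, b5⟩ := one_bounds hR hC0 hQQ hw hg hwh hh hi
  -- the pairing `⟨f, h⟩`
  have hterm : ∀ β, ‖(R : ℂ) * ipr f (S.Qm (R⁻¹ ^ 2) β (fun x => ((R : ℝ) : ℂ) • S.Qm (R⁻¹ ^ 2) β w x))‖ ≤
      ε * K1 := by
    intro β
    have hvi : S.GInv (fun x => ((R : ℝ) : ℂ) • S.Qm (R⁻¹ ^ 2) β w x) := GInv_csmul _ (GInv_Qm _ β hw)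
    have hn : nsq (fun x => ((R : ℝ) : ℂ) • S.Qm (R⁻¹ ^ 2) β w x) ≤ C1 := by
      rw [nsq_csmul, Complex.norm_real, Real.norm_eq_abs, sq_abs]
      have h3 : nsq (S.Qm (R⁻¹ ^ 2) β w) ≤ S.en (R⁻¹ ^ 2) w :=
        Finset.single_le_sum (f := fun β => nsq (S.Qm (R⁻¹ ^ 2) β w))
          (fun β _ => nsq_nonneg _) (Finset.mem_univ β)
      calc R ^ 2 * nsq (S.Qm (R⁻¹ ^ 2) β w) ≤ R ^ 2 * S.en (R⁻¹ ^ 2) w := by gcongr
        _ ≤ C1 := by
          rw [hC1]
          have : 0 ≤ (256 + 8 * C0) * M ^ 2 := by positivity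
          linarith
    have hen : R ^ 2 * S.en (R⁻¹ ^ 2) (fun x => ((R : ℝ) : ℂ) • S.Qm (R⁻¹ ^ 2) β w x) ≤ C1 := by
      rw [en_csmul _ _ (GInv_Qm _ β hw).1, Complex.norm_real, Real.norm_eq_abs, sq_abs]
      calc R ^ 2 * (R ^ 2 * S.en (R⁻¹ ^ 2) (S.Qm (R⁻¹ ^ 2) β w))
          = R ^ 4 * S.en (R⁻¹ ^ 2) (S.Qm (R⁻¹ ^ 2) β w) := by ring
        _ ≤ C1 := by
          rw [hC1]
          have := b5 β
          have : 0 ≤ 8 * M ^ 2 := by positivity
          linarith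
    refine one_term (C := C) hR0.le hε0.le r4 (r3 β _ ⟨hvi, hn, hen⟩) ((r2 β _ hvi).trans ?_) hC hvi hn hen le_rfl
    refine mul_le_mul_of_nonneg_right ?_ (Real.sqrt_nonneg _)
    have := hDa β
    gcongr
  have hfh : ‖(inner ℂ (U.HB.toL r5.1) h : ℂ)‖ ≤ ε * K1 := by
    have h1 : (inner ℂ (U.HB.toL r5.1) h : ℂ) = (16 : ℂ)⁻¹ * ∑ β, (R : ℂ) *
        ipr f (S.Qm (R⁻¹ ^ 2) β (fun x => ((R : ℝ) : ℂ) • S.Qm (R⁻¹ ^ 2) β w x)) := by
      rw [ipr_HH r5 hw, hh, inner_smul_right, toL_inner]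
      push_cast
      ring
    rw [h1, norm_mul]
    have h2 : ‖∑ β, (R : ℂ) * ipr f (S.Qm (R⁻¹ ^ 2) β (fun x => ((R : ℝ) : ℂ) • S.Qm (R⁻¹ ^ 2) β w x))‖ ≤
        ∑ _β : Fin 16, ε * K1 := norm_sum_le_of_le _ fun β _ => hterm β
    rw [Finset.sum_const, Finset.card_univ, Fintype.card_fin, nsmul_eq_mul] at h2
    have h3 : ‖(16 : ℂ)⁻¹‖ = 1 / 16 := by
      rw [norm_inv]
      norm_num
    rw [h3]
    push_cast at h2
    linarith
  have hsum : R ^ 2 / 16 * S.en (R⁻¹ ^ 2) w + ‖h‖ ^ 2 ≤ ε * K := by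
    have h1 : (inner ℂ (U.HB.toL hw.1 + h) h : ℂ).re = R ^ 2 / 16 * S.en (R⁻¹ ^ 2) w + ‖h‖ ^ 2 := by
      rw [inner_add_left, Complex.add_re, hi, Complex.ofReal_re]
      congr 1
      exact inner_self_eq_norm_sq (𝕜 := ℂ) h
    rw [← h1, hwh, inner_add_left, Complex.add_re]
    have h2 := (Complex.re_le_norm _).trans hfh
    have h3 : (inner ℂ e h : ℂ).re ≤ ε * M :=
      (Complex.re_le_norm _).trans ((norm_inner_le_norm _ _).trans (mul_le_mul he b2 (norm_nonneg _) hε0.le))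
    calc _ ≤ ε * K1 + ε * M := add_le_add h2 h3
      _ = _ := by rw [hK]; ring
  have hε4 : 256 * (ε * K) + 2 * ε ≤ η := by
    calc 256 * (ε * K) + 2 * ε = ε * (256 * K + 2) := by ring
      _ ≤ η := hε3
  exact ⟨w, hw, one_endW hε0 hε1 hKp.le hε4 r5 hw hwh he hsum b3⟩

end Vale.Agent.P353.Z.AJ
end

section

/-! # P353, all `N`, block G25: averages are in the core -/

open MeasureTheory Filter Topology
open scoped ContDiff

namespace Vale.Agent.P353.AN.G

open Vale.Agent.P353.Z Vale.Agent.P353.Z.U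

universe w

section AvgC489

variable {N d : ℕ} {F : Type w} [NormedAddCommGroup F] [InnerProductSpace ℂ F]

private theorem avgC489_one (M : BFSS.Model N d F) (v : F) : M.S 1 v = v := by
  have h1 : M.S 1 (M.S 1 v) = M.S 1 v := by rw [← M.S_mul, one_mul]
  have h2 : ‖M.S 1 (M.S 1 v - v)‖ = ‖M.S 1 v - v‖ := M.S_isometry _ _
  rw [map_sub, h1, sub_self, norm_zero] at h2
  exact sub_eq_zero.1 (norm_eq_zero.1 h2.symm)

/-- `S V` as an equivalence -/
private noncomputable def avgC489_equiv (M : BFSS.Model N d F) (V : BFSS.SU N) : F ≃L[ℂ] F :=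
  ContinuousLinearEquiv.equivOfInverse (M.S V) (M.S V⁻¹)
    (fun v => by rw [← M.S_mul, inv_mul_cancel, avgC489_one])
    (fun v => by rw [← M.S_mul, mul_inv_cancel, avgC489_one])

/-- averages are equivariant -/
theorem avgC_act (M : BFSS.Model N d F) (h22 : ActStmt M) (v : Cfg d → F) (V : BFSS.SU N)
    (x : Cfg d) : avg M v (M.act V x) = M.S V (avg M v x) := by
  unfold avg
  rw [← integral_mul_left_eq_self (fun U => M.S U (v (M.act U⁻¹ (M.act V x)))) V]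
  have h1 : (fun U => M.S (V * U) (v (M.act (V * U)⁻¹ (M.act V x)))) =
      fun U => avgC489_equiv M V (M.S U (v (M.act U⁻¹ x))) := by
    funext U
    rw [M.S_mul, ← h22.1, mul_inv_rev, mul_assoc, inv_mul_cancel, mul_one]
    rfl
  rw [h1, ContinuousLinearEquiv.integral_comp_comm]
  rfl

theorem avgC [FiniteDimensional ℂ F] (M : BFSS.Model N d F) (h22 : ActStmt M) : AvgCStmt M :=
  fun v _ h => ⟨h.1, h.2, fun U x => avgC_act M h22 v U x⟩

end AvgC489

end Vale.Agent.P353.AN.G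
end

section

/-! # P353, all `N`, block NF: orthonormal bases of the traceless hermitian matrices (helper925) -/

open MeasureTheory Filter Topology Matrix
open scoped ContDiff

namespace Vale.Agent.P353.Z.ANF

/-- hermitian matrix with real coordinates `A` -/
noncomputable def ex925_hm (m : ℕ) : EuclideanSpace ℝ (Fin m × Fin m) →ₗ[ℝ] Matrix (Fin m) (Fin m) ℂ where
  toFun A := Matrix.of fun p q => (((A (p, q) + A (q, p)) / 2 : ℝ) : ℂ) + Complex.I * (((A (p, q) - A (q, p)) / 2 : ℝ) : ℂ)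
  map_add' A B := by
    ext p q
    simp only [PiLp.add_apply, Matrix.of_apply, Matrix.add_apply]
    push_cast
    ring
  map_smul' c A := by
    ext p q
    simp only [PiLp.smul_apply, smul_eq_mul, Matrix.of_apply, Matrix.smul_apply, Complex.real_smul, RingHom.id_apply]
    push_cast
    ring

/-- real coordinates of a hermitian matrix -/
noncomputable def ex925_ch {m : ℕ} (X : Matrix (Fin m) (Fin m) ℂ) : EuclideanSpace ℝ (Fin m × Fin m) :=
  WithLp.toLp 2 fun p => (X p.1 p.2).re + (X p.1 p.2).im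

theorem ex925_hm_apply {m : ℕ} (A : EuclideanSpace ℝ (Fin m × Fin m)) (p q : Fin m) : ex925_hm m A p q =
    (((A (p, q) + A (q, p)) / 2 : ℝ) : ℂ) + Complex.I * (((A (p, q) - A (q, p)) / 2 : ℝ) : ℂ) := rfl

theorem ex925_herm {m : ℕ} (A : EuclideanSpace ℝ (Fin m × Fin m)) : (ex925_hm m A).conjTranspose = ex925_hm m A := by
  ext p q
  rw [Matrix.conjTranspose_apply, ex925_hm_apply, ex925_hm_apply]
  simp only [star_add, star_mul', Complex.star_def, Complex.conj_ofReal, Complex.conj_I]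
  push_cast
  ring

theorem ex925_hm_ch {m : ℕ} (X : Matrix (Fin m) (Fin m) ℂ) (hX : X.conjTranspose = X) : ex925_hm m (ex925_ch X) = X := by
  ext p q
  have h1 : X q p = star (X p q) := by
    conv_lhs => rw [← hX]
    rfl
  rw [ex925_hm_apply]
  simp only [ex925_ch, h1, Complex.star_def, Complex.conj_re, Complex.conj_im]
  apply Complex.ext
  · simp
    ring
  · simp

theorem ex925_tr {m : ℕ} (A B : EuclideanSpace ℝ (Fin m × Fin m)) :
    (ex925_hm m A * ex925_hm m B).trace = ((inner ℝ A B : ℝ) : ℂ) := by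
  have h1 : (ex925_hm m A * ex925_hm m B).trace = ∑ p, ∑ q, ex925_hm m A p q * ex925_hm m B q p := by
    simp only [Matrix.trace, Matrix.diag, Matrix.mul_apply]
  have h2 : (inner ℝ A B : ℝ) = ∑ p, ∑ q, A (p, q) * B (p, q) := by
    rw [PiLp.inner_apply, Fintype.sum_prod_type]
    refine Finset.sum_congr rfl fun p _ => Finset.sum_congr rfl fun q _ => ?_
    simp [mul_comm]
  have h3 : ∑ p, ∑ q, ex925_hm m A p q * ex925_hm m B q p = ∑ p, ∑ q, ex925_hm m A q p * ex925_hm m B p q :=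
    Finset.sum_comm
  have h4 : ∑ p, ∑ q, A (p, q) * B (p, q) = ∑ p, ∑ q, A (q, p) * B (q, p) := Finset.sum_comm
  have h5 : ∑ p, ∑ q, ex925_hm m A p q * ex925_hm m B q p + ∑ p, ∑ q, ex925_hm m A q p * ex925_hm m B p q =
      ((∑ p, ∑ q, A (p, q) * B (p, q) + ∑ p, ∑ q, A (q, p) * B (q, p) : ℝ) : ℂ) := by
    push_cast
    rw [← Finset.sum_add_distrib, ← Finset.sum_add_distrib]
    refine Finset.sum_congr rfl fun p _ => ?_
    rw [← Finset.sum_add_distrib, ← Finset.sum_add_distrib]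
    refine Finset.sum_congr rfl fun q _ => ?_
    simp only [ex925_hm_apply]
    push_cast
    linear_combination ((A (p, q) - A (q, p)) / 2 * ((B (q, p) - B (p, q)) / 2) +
      (A (q, p) - A (p, q)) / 2 * ((B (p, q) - B (q, p)) / 2) : ℂ) * Complex.I_sq
  rw [h1, h2]
  rw [← h3, ← h4] at h5
  push_cast at h5 ⊢
  linear_combination h5 / 2

theorem ex925_bas (m : ℕ) (hm : 1 ≤ m) : ∃ (Tb : Fin (m ^ 2 - 1) → Matrix (Fin m) (Fin m) ℂ)
    (fb : Fin (m ^ 2 - 1) → Fin (m ^ 2 - 1) → Fin (m ^ 2 - 1) → ℝ), Bas m (m ^ 2 - 1) Tb fb := by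
  set J : EuclideanSpace ℝ (Fin m × Fin m) := WithLp.toLp 2 fun p => if p.1 = p.2 then 1 else 0 with hJ
  have hJt : ∀ A : EuclideanSpace ℝ (Fin m × Fin m), (ex925_hm m A).trace = ((inner ℝ J A : ℝ) : ℂ) := by
    intro A
    rw [PiLp.inner_apply, Fintype.sum_prod_type]
    simp only [Matrix.trace, Matrix.diag, ex925_hm_apply, hJ]
    push_cast
    refine Finset.sum_congr rfl fun p _ => ?_
    rw [Finset.sum_eq_single p]
    · simp
    · intro b _ hb
      simp [hb.symm]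
    · simp
  have hJ0 : J ≠ 0 := by
    intro h
    have h1 : J (⟨0, hm⟩, ⟨0, hm⟩) = 0 := by rw [h]; rfl
    simp [hJ] at h1
  have hfin : Module.finrank ℝ (EuclideanSpace ℝ (Fin m × Fin m)) = (m ^ 2 - 1) + 1 := by
    rw [finrank_euclideanSpace, Fintype.card_prod, Fintype.card_fin]
    have h1 : 1 ≤ m ^ 2 := Nat.one_le_pow _ _ hm
    rw [Nat.sub_add_cancel h1, pow_two]
  have : Fact (Module.finrank ℝ (EuclideanSpace ℝ (Fin m × Fin m)) = (m ^ 2 - 1) + 1) := ⟨hfin⟩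
  have hW : Module.finrank ℝ (Submodule.span ℝ {J})ᗮ = m ^ 2 - 1 :=
    Submodule.finrank_orthogonal_span_singleton hJ0
  let o : OrthonormalBasis (Fin (m ^ 2 - 1)) ℝ (Submodule.span ℝ {J})ᗮ :=
    (stdOrthonormalBasis ℝ (Submodule.span ℝ {J})ᗮ).reindex (finCongr hW)
  have hcomp : ∀ X : Matrix (Fin m) (Fin m) ℂ, X.conjTranspose = X → X.trace = 0 →
      ∃ c : Fin (m ^ 2 - 1) → ℝ, X = ∑ l, ((c l : ℝ) : ℂ) • ex925_hm m (o l) := by
    intro X hX hX0
    have h1 : ex925_ch X ∈ (Submodule.span ℝ {J})ᗮ := by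
      rw [Submodule.mem_orthogonal_singleton_iff_inner_right]
      have h2 := hJt (ex925_ch X)
      rw [ex925_hm_ch X hX, hX0] at h2
      exact_mod_cast h2.symm
    have h3 := o.sum_repr' ⟨ex925_ch X, h1⟩
    refine ⟨fun l => inner ℝ (o l) ⟨ex925_ch X, h1⟩, ?_⟩
    have h4 : ex925_ch X = ∑ l, (inner ℝ (o l) (⟨ex925_ch X, h1⟩ : (Submodule.span ℝ {J})ᗮ) : ℝ) •
        ((o l : (Submodule.span ℝ {J})ᗮ) : EuclideanSpace ℝ (Fin m × Fin m)) := by
      have h5 := congrArg (Submodule.subtype _) h3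
      rw [map_sum] at h5
      simp only [map_smul, Submodule.subtype_apply] at h5
      exact h5.symm
    conv_lhs => rw [← ex925_hm_ch X hX, h4, map_sum]
    refine Finset.sum_congr rfl fun l _ => ?_
    rw [map_smul, ← Complex.coe_smul]
  have hex : ∀ A B : Fin (m ^ 2 - 1), ∃ c : Fin (m ^ 2 - 1) → ℝ,
      (-Complex.I) • (ex925_hm m (o A) * ex925_hm m (o B) - ex925_hm m (o B) * ex925_hm m (o A)) =
        ∑ l, ((c l : ℝ) : ℂ) • ex925_hm m (o l) := by
    intro A B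
    refine hcomp _ ?_ ?_
    · rw [Matrix.conjTranspose_smul, Matrix.conjTranspose_sub, Matrix.conjTranspose_mul, Matrix.conjTranspose_mul,
        ex925_herm, ex925_herm]
      simp only [star_neg, Complex.star_def, Complex.conj_I, neg_neg, neg_smul]
      rw [← smul_neg, neg_sub]
    · rw [Matrix.trace_smul, Matrix.trace_sub, Matrix.trace_mul_comm, sub_self, smul_zero]
  choose c hc using hex
  refine ⟨fun A => ex925_hm m (o A), c, rfl, fun A => ex925_herm _, fun A => ?_, fun A B => ?_, fun A B => ?_⟩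
  · have h1 := (Submodule.mem_orthogonal_singleton_iff_inner_right (𝕜 := ℝ)).1 (o A).2
    rw [hJt, h1]
    simp
  · rw [ex925_tr]
    have h1 := (orthonormal_iff_ite.1 o.orthonormal) A B
    rw [Submodule.coe_inner] at h1
    rw [h1]
    split_ifs <;> simp
  · have h1 := congrArg (fun X => Complex.I • X) (hc A B)
    simp only [smul_smul, mul_neg, Complex.I_mul_I, neg_neg, one_smul, Finset.smul_sum] at h1
    exact h1

end Vale.Agent.P353.Z.ANF
end

section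

/-! # P353, all `N`, block NF: existence of block frames (`ExStmt`) -/

open MeasureTheory Filter Topology Matrix
open scoped ContDiff

namespace Vale.Agent.P353.Z.ANF

namespace EX808

variable {N k : ℕ} {n : Fin k → ℕ}

/-- diagonal block -/
def blk (E : (Σ a, Fin (n a)) ≃ Fin N) (a : Fin k) (M : Matrix (Fin N) (Fin N) ℂ) :
    Matrix (Fin (n a)) (Fin (n a)) ℂ := Matrix.of fun i j => M (E ⟨a, i⟩) (E ⟨a, j⟩)

lemma bk_same (E : (Σ a, Fin (n a)) ≃ Fin N) (a : Fin k) (X : Matrix (Fin (n a)) (Fin (n a)) ℂ)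
    (i j : Fin (n a)) : bk E a X (E ⟨a, i⟩) (E ⟨a, j⟩) = X i j := by
  simp [bk, Matrix.blockDiagonal'_apply_eq]

lemma bk_ne1 (E : (Σ a, Fin (n a)) ≃ Fin N) (a : Fin k) (X : Matrix (Fin (n a)) (Fin (n a)) ℂ)
    (s t : Σ a, Fin (n a)) (h : s.1 ≠ t.1) : bk E a X (E s) (E t) = 0 := by
  simp only [bk, Matrix.submatrix_apply, Equiv.symm_apply_apply]
  exact Matrix.blockDiagonal'_apply_ne _ _ _ h

lemma bk_ne2 (E : (Σ a, Fin (n a)) ≃ Fin N) (a b : Fin k) (X : Matrix (Fin (n a)) (Fin (n a)) ℂ)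
    (i j : Fin (n b)) (h : b ≠ a) : bk E a X (E ⟨b, i⟩) (E ⟨b, j⟩) = 0 := by
  simp only [bk, Matrix.submatrix_apply, Equiv.symm_apply_apply, Matrix.blockDiagonal'_apply_eq]
  rw [Pi.single_eq_of_ne h]
  rfl

lemma bd_app (E : (Σ a, Fin (n a)) ≃ Fin N) (v : Fin k → ℂ) (s t : Σ a, Fin (n a)) :
    bd E v (E s) (E t) = if s = t then v s.1 else 0 := by
  simp [bd, Matrix.diagonal_apply]

lemma blk_bk (E : (Σ a, Fin (n a)) ≃ Fin N) (a : Fin k) (X : Matrix (Fin (n a)) (Fin (n a)) ℂ) :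
    blk E a (bk E a X) = X := by
  ext i j
  exact bk_same E a X i j

lemma blk_bk_ne (E : (Σ a, Fin (n a)) ≃ Fin N) {a b : Fin k} (h : b ≠ a)
    (X : Matrix (Fin (n a)) (Fin (n a)) ℂ) : blk E b (bk E a X) = 0 := by
  ext i j
  exact bk_ne2 E a b X i j h

lemma blk_bd (E : (Σ a, Fin (n a)) ≃ Fin N) (a : Fin k) (v : Fin k → ℂ) :
    blk E a (bd E v) = v a • (1 : Matrix (Fin (n a)) (Fin (n a)) ℂ) := by
  ext i j
  show bd E v (E ⟨a, i⟩) (E ⟨a, j⟩) = _
  rw [bd_app, Matrix.smul_apply, Matrix.one_apply]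
  by_cases h : i = j
  · subst h
    simp
  · rw [if_neg h, if_neg (by
      intro h'
      apply h
      simpa using h'), smul_zero]

lemma tr_E (E : (Σ a, Fin (n a)) ≃ Fin N) (P M : Matrix (Fin N) (Fin N) ℂ)
    (hP : ∀ s t : Σ a, Fin (n a), s.1 ≠ t.1 → P (E s) (E t) = 0) :
    (P * M).trace = ∑ a, (blk E a P * blk E a M).trace := by
  simp only [Matrix.trace, Matrix.diag_apply, Matrix.mul_apply]
  rw [← E.sum_comp, Fintype.sum_sigma]
  refine Finset.sum_congr rfl fun a _ => Finset.sum_congr rfl fun i _ => ?_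
  rw [← E.sum_comp, Fintype.sum_sigma, Finset.sum_eq_single a]
  · rfl
  · intro b _ hb
    refine Finset.sum_eq_zero fun j _ => ?_
    rw [hP ⟨a, i⟩ ⟨b, j⟩ hb.symm, zero_mul]
  · intro h
    exact absurd (Finset.mem_univ a) h

lemma tr_bk (E : (Σ a, Fin (n a)) ≃ Fin N) (a : Fin k) (X : Matrix (Fin (n a)) (Fin (n a)) ℂ)
    (M : Matrix (Fin N) (Fin N) ℂ) : (bk E a X * M).trace = (X * blk E a M).trace := by
  rw [tr_E E _ _ (bk_ne1 E a X), Finset.sum_eq_single a]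
  · rw [blk_bk]
  · intro b _ hb
    rw [blk_bk_ne E hb, zero_mul, Matrix.trace_zero]
  · intro h
    exact absurd (Finset.mem_univ a) h

lemma tr_bd (E : (Σ a, Fin (n a)) ≃ Fin N) (v : Fin k → ℂ)
    (M : Matrix (Fin N) (Fin N) ℂ) : (bd E v * M).trace = ∑ a, v a * (blk E a M).trace := by
  rw [tr_E E _ _ (fun s t h => by
    rw [bd_app, if_neg]
    rintro rfl
    exact h rfl)]
  refine Finset.sum_congr rfl fun a _ => ?_
  rw [blk_bd, Matrix.smul_mul, one_mul, Matrix.trace_smul, smul_eq_mul]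

lemma bd_one (E : (Σ a, Fin (n a)) ≃ Fin N) : bd E (fun _ => (1 : ℂ)) = 1 := by
  unfold bd
  rw [Matrix.diagonal_one, Matrix.submatrix_one_equiv]

lemma tr_sum (E : (Σ a, Fin (n a)) ≃ Fin N) (M : Matrix (Fin N) (Fin N) ℂ) :
    M.trace = ∑ a, (blk E a M).trace := by
  have h := tr_bd E (fun _ => (1 : ℂ)) M
  rw [bd_one, one_mul] at h
  simpa using h

lemma bk_herm (E : (Σ a, Fin (n a)) ≃ Fin N) (a : Fin k) (X : Matrix (Fin (n a)) (Fin (n a)) ℂ)
    (hX : X.conjTranspose = X) : (bk E a X).conjTranspose = bk E a X := by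
  ext p q
  obtain ⟨⟨b, i⟩, rfl⟩ := E.surjective p
  obtain ⟨⟨c, j⟩, rfl⟩ := E.surjective q
  rw [Matrix.conjTranspose_apply]
  by_cases hbc : b = c
  · subst hbc
    by_cases hab : b = a
    · subst hab
      rw [bk_same, bk_same, ← Matrix.conjTranspose_apply, hX]
    · rw [bk_ne2 E a b X _ _ hab, bk_ne2 E a b X _ _ hab, star_zero]
  · rw [bk_ne1 E a X ⟨c, j⟩ ⟨b, i⟩ (fun h => hbc h.symm), bk_ne1 E a X ⟨b, i⟩ ⟨c, j⟩ hbc, star_zero]

lemma bd_herm (E : (Σ a, Fin (n a)) ≃ Fin N) (v : Fin k → ℝ) :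
    (bd E fun a => ((v a : ℝ) : ℂ)).conjTranspose = bd E fun a => ((v a : ℝ) : ℂ) := by
  ext p q
  obtain ⟨s, rfl⟩ := E.surjective p
  obtain ⟨t, rfl⟩ := E.surjective q
  rw [Matrix.conjTranspose_apply, bd_app, bd_app]
  by_cases h : s = t
  · subst h
    simp
  · rw [if_neg h, if_neg (fun h' => h h'.symm), star_zero]

lemma blk_herm (E : (Σ a, Fin (n a)) ≃ Fin N) (a : Fin k) (M : Matrix (Fin N) (Fin N) ℂ)
    (hM : M.conjTranspose = M) : (blk E a M).conjTranspose = blk E a M := by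
  ext i j
  rw [Matrix.conjTranspose_apply]
  show star (M (E ⟨a, j⟩) (E ⟨a, i⟩)) = M (E ⟨a, i⟩) (E ⟨a, j⟩)
  rw [← Matrix.conjTranspose_apply, hM]

/-- trace of a hermitian matrix -/
lemma tr_real {m : ℕ} {X : Matrix (Fin m) (Fin m) ℂ} (hX : X.conjTranspose = X) :
    ((X.trace.re : ℝ) : ℂ) = X.trace := by
  have h : star X.trace = X.trace := by rw [← Matrix.trace_conjTranspose, hX]
  exact Complex.conj_eq_iff_re.1 h

lemma tr_mul_real {m : ℕ} {X Y : Matrix (Fin m) (Fin m) ℂ} (hX : X.conjTranspose = X)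
    (hY : Y.conjTranspose = Y) : (((X * Y).trace.re : ℝ) : ℂ) = (X * Y).trace := by
  have h : star (X * Y).trace = (X * Y).trace := by
    rw [← Matrix.trace_conjTranspose, Matrix.conjTranspose_mul, hX, hY, Matrix.trace_mul_comm]
  exact Complex.conj_eq_iff_re.1 h

/-- completeness -/
lemma complete {d : ℕ} {T : Fin d → Matrix (Fin N) (Fin N) ℂ} {f : Fin d → Fin d → Fin d → ℝ}
    (M : Bas N d T f) (hN : 0 < N) (X : Matrix (Fin N) (Fin N) ℂ) :
    X = ∑ A, (T A * X).trace • T A + (X.trace / N) • (1 : Matrix (Fin N) (Fin N) ℂ) := by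
  have hN' : (N : ℂ) ≠ 0 := by exact_mod_cast hN.ne'
  let Λ : Matrix (Fin N) (Fin N) ℂ →ₗ[ℂ] (Fin d → ℂ) × ℂ :=
    { toFun := fun X => (fun A => (T A * X).trace, X.trace)
      map_add' := fun X Y => by
        ext <;> simp [mul_add, Matrix.trace_add]
      map_smul' := fun c X => by
        ext <;> simp [Matrix.trace_smul] }
  have hval : ∀ (c : Fin d → ℂ) (s : ℂ), Λ (∑ A, c A • T A +
      (s / N) • (1 : Matrix (Fin N) (Fin N) ℂ)) = (c, s) := by
    intro c s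
    apply Prod.ext
    · funext B
      change (T B * (∑ A, c A • T A + (s / N) • (1 : Matrix (Fin N) (Fin N) ℂ))).trace = c B
      rw [mul_add, Matrix.mul_sum, Matrix.trace_add, Matrix.trace_sum, Finset.sum_eq_single B]
      · rw [Matrix.mul_smul, Matrix.trace_smul, M.ortho, if_pos rfl, Matrix.mul_smul,
          mul_one, Matrix.trace_smul, M.tr0]
        simp
      · intro A _ hA
        rw [Matrix.mul_smul, Matrix.trace_smul, M.ortho, if_neg (Ne.symm hA), smul_zero]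
      · simp
    · change (∑ A, c A • T A + (s / N) • (1 : Matrix (Fin N) (Fin N) ℂ)).trace = s
      rw [Matrix.trace_add, Matrix.trace_sum, Finset.sum_eq_zero (fun A _ => by
        rw [Matrix.trace_smul, M.tr0, smul_zero]), Matrix.trace_smul, Matrix.trace_one]
      simp [hN']
  have hsurj : Function.Surjective Λ := fun y => ⟨_, hval y.1 y.2⟩
  have hrank : Module.finrank ℂ (Matrix (Fin N) (Fin N) ℂ) =
      Module.finrank ℂ ((Fin d → ℂ) × ℂ) := by
    rw [Module.finrank_matrix, Module.finrank_prod, Module.finrank_pi, Module.finrank_self,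
      Fintype.card_fin, Fintype.card_fin, M.dim_eq, mul_one]
    have : 1 ≤ N ^ 2 := Nat.one_le_pow _ _ hN
    have h2 : N ^ 2 = N * N := sq N
    omega
  have hinj : Function.Injective Λ :=
    (LinearMap.injective_iff_surjective_of_finrank_eq_finrank hrank).2 hsurj
  apply hinj
  rw [hval]
  rfl

/-- weights -/
lemma weights {k : ℕ} (n : Fin k → ℕ) (hn : ∀ a, 1 ≤ n a) :
    ∃ (dz : ℕ) (c : Fin dz → Fin k → ℝ), (∀ B, ∑ a, (n a : ℝ) * c B a = 0) ∧
      (∀ B B', ∑ a, (n a : ℝ) * (c B a * c B' a) = if B = B' then 1 else 0) ∧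
      ∀ v : Fin k → ℝ, ∑ a, (n a : ℝ) * v a = 0 → (∀ B, ∑ a, (n a : ℝ) * (c B a * v a) = 0) → v = 0 := by
  have hp : ∀ a, 0 < Real.sqrt (n a : ℝ) := fun a => Real.sqrt_pos.2 (by exact_mod_cast hn a)
  have hs : ∀ a, Real.sqrt (n a : ℝ) * Real.sqrt (n a : ℝ) = n a := fun a =>
    Real.mul_self_sqrt (Nat.cast_nonneg _)
  have hk1 : ∀ (a : Fin k) (x : ℝ), (n a : ℝ) * (x / Real.sqrt (n a : ℝ)) = Real.sqrt (n a : ℝ) * x := by
    intro a x
    rw [mul_div_assoc', div_eq_iff (hp a).ne']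
    linear_combination (-x) * hs a
  have hk2 : ∀ (a : Fin k) (x y : ℝ), (n a : ℝ) * (x / Real.sqrt (n a : ℝ) * (y / Real.sqrt (n a : ℝ))) = x * y := by
    intro a x y
    rw [div_mul_div_comm, hs a, mul_div_assoc', mul_comm, mul_div_assoc, div_self, mul_one]
    have := hn a
    positivity
  set q : EuclideanSpace ℝ (Fin k) := WithLp.toLp 2 fun a => Real.sqrt (n a : ℝ) with hq
  set W : Submodule ℝ (EuclideanSpace ℝ (Fin k)) := (Submodule.span ℝ {q})ᗮ with hW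
  have hmem : ∀ w : EuclideanSpace ℝ (Fin k), w ∈ W ↔ ∑ a, Real.sqrt (n a : ℝ) * w a = 0 := by
    intro w
    rw [hW, Submodule.mem_orthogonal_singleton_iff_inner_right, PiLp.inner_apply]
    simp only [hq, RCLike.inner_apply, conj_trivial]
    constructor
    · intro h
      rw [← h]
      exact Finset.sum_congr rfl fun a _ => mul_comm _ _
    · intro h
      rw [← h]
      exact Finset.sum_congr rfl fun a _ => mul_comm _ _
  let b := stdOrthonormalBasis ℝ W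
  have hinner : ∀ x y : W, inner ℝ x y = ∑ a, (x : EuclideanSpace ℝ (Fin k)) a *
      (y : EuclideanSpace ℝ (Fin k)) a := by
    intro x y
    rw [Submodule.coe_inner, PiLp.inner_apply]
    simp only [RCLike.inner_apply, conj_trivial]
    exact Finset.sum_congr rfl fun a _ => mul_comm _ _
  refine ⟨Module.finrank ℝ W, fun B a => (b B : EuclideanSpace ℝ (Fin k)) a / Real.sqrt (n a : ℝ), ?_, ?_, ?_⟩
  · intro B
    rw [← (hmem _).1 (b B).2]
    exact Finset.sum_congr rfl fun a _ => hk1 a _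
  · intro B B'
    rw [← orthonormal_iff_ite.1 b.orthonormal B B', hinner]
    exact Finset.sum_congr rfl fun a _ => hk2 a _ _
  · intro v h1 h2
    set w : EuclideanSpace ℝ (Fin k) := WithLp.toLp 2 fun a => Real.sqrt (n a : ℝ) * v a with hw
    have hwW : w ∈ W := by
      rw [hmem, ← h1]
      refine Finset.sum_congr rfl fun a _ => ?_
      show Real.sqrt (n a : ℝ) * (Real.sqrt (n a : ℝ) * v a) = _
      rw [← mul_assoc, hs a]
    have h3 : (⟨w, hwW⟩ : W) = 0 := by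
      rw [← b.sum_repr' ⟨w, hwW⟩]
      refine Finset.sum_eq_zero fun B _ => ?_
      have h4 : inner ℝ (b B) (⟨w, hwW⟩ : W) = 0 := by
        rw [hinner, ← h2 B]
        refine Finset.sum_congr rfl fun a _ => ?_
        show (b B : EuclideanSpace ℝ (Fin k)) a * (Real.sqrt (n a : ℝ) * v a) =
          (n a : ℝ) * ((b B : EuclideanSpace ℝ (Fin k)) a / Real.sqrt (n a : ℝ) * v a)
        rw [← mul_assoc (n a : ℝ), hk1]
        ring
      rw [h4, zero_smul]
    have h5 : w = 0 := congrArg Subtype.val h3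
    funext a
    have h6 : Real.sqrt (n a : ℝ) * v a = 0 := by
      have := congrFun (congrArg WithLp.ofLp h5) a
      simpa [hw] using this
    exact (mul_eq_zero.1 h6).resolve_left (hp a).ne'

/-- a hermitian matrix orthogonal to the block diagonal part vanishes on the diagonal blocks -/
lemma vanish {Tb : ∀ m : ℕ, Fin (m ^ 2 - 1) → Matrix (Fin m) (Fin m) ℂ}
    {fb : ∀ m : ℕ, Fin (m ^ 2 - 1) → Fin (m ^ 2 - 1) → Fin (m ^ 2 - 1) → ℝ}
    (hTb : ∀ m, 1 ≤ m → Bas m (m ^ 2 - 1) (Tb m) (fb m)) (hn : ∀ a, 1 ≤ n a)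
    (E : (Σ a, Fin (n a)) ≃ Fin N) {dz : ℕ} (c : Fin dz → Fin k → ℝ)
    (hc : ∀ v : Fin k → ℝ, ∑ a, (n a : ℝ) * v a = 0 → (∀ B, ∑ a, (n a : ℝ) * (c B a * v a) = 0) → v = 0)
    (X : Matrix (Fin N) (Fin N) ℂ) (hX : X.conjTranspose = X) (h0 : X.trace = 0)
    (h1 : ∀ a i, (bk E a (Tb (n a) i) * X).trace = 0)
    (h2 : ∀ B, ((bd E fun a => ((c B a : ℝ) : ℂ)) * X).trace = 0)
    (s t : Σ a, Fin (n a)) (hst : s.1 = t.1) : X (E s) (E t) = 0 := by
  set x : Fin k → ℝ := fun a => (blk E a X).trace.re / (n a : ℝ) with hx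
  have hn0 : ∀ a, (n a : ℝ) ≠ 0 := fun a => by
    have := hn a
    positivity
  have hxr : ∀ a, (((n a : ℝ) * x a : ℝ) : ℂ) = (blk E a X).trace := by
    intro a
    rw [hx]
    simp only
    rw [mul_div_cancel₀ _ (hn0 a)]
    exact tr_real (blk_herm E a X hX)
  have hx0 : x = 0 := by
    refine hc x ?_ ?_
    · have h := tr_sum E X
      rw [h0] at h
      have h3 : ((∑ a, (n a : ℝ) * x a : ℝ) : ℂ) = 0 := by
        rw [Complex.ofReal_sum, h]
        exact Finset.sum_congr rfl fun a _ => hxr a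
      exact_mod_cast h3
    · intro B
      have h := h2 B
      rw [tr_bd] at h
      have h3 : ((∑ a, (n a : ℝ) * (c B a * x a) : ℝ) : ℂ) = 0 := by
        rw [Complex.ofReal_sum, ← h]
        refine Finset.sum_congr rfl fun a _ => ?_
        rw [← hxr a]
        push_cast
        ring
      exact_mod_cast h3
  have hb : ∀ a, blk E a X = 0 := by
    intro a
    have h3 := complete (hTb (n a) (hn a)) (hn a) (blk E a X)
    have h4 : (blk E a X).trace = 0 := by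
      rw [← hxr a, hx0]
      simp
    rw [h3, h4, zero_div, zero_smul, add_zero]
    refine Finset.sum_eq_zero fun i _ => ?_
    rw [← tr_bk, h1, zero_smul]
  obtain ⟨a, i⟩ := s
  obtain ⟨b, j⟩ := t
  simp only at hst
  subst hst
  have h5 := congrFun (congrFun (hb a) i) j
  exact h5

end EX808

open EX808

/-- **NF-Ex** from the existence of bases -/
theorem ex_of (hbas : ∀ m : ℕ, 1 ≤ m → ∃ (Tb : Fin (m ^ 2 - 1) → Matrix (Fin m) (Fin m) ℂ)
    (fb : Fin (m ^ 2 - 1) → Fin (m ^ 2 - 1) → Fin (m ^ 2 - 1) → ℝ), Bas m (m ^ 2 - 1) Tb fb) : ExStmt := by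
  intro N d k n T f hT hk hn hN
  have hbas' : ∀ m : ℕ, ∃ (Tb : Fin (m ^ 2 - 1) → Matrix (Fin m) (Fin m) ℂ)
    (fb : Fin (m ^ 2 - 1) → Fin (m ^ 2 - 1) → Fin (m ^ 2 - 1) → ℝ), 1 ≤ m → Bas m (m ^ 2 - 1) Tb fb := by
    intro m
    by_cases hm : 1 ≤ m
    · obtain ⟨Tb, fb, h⟩ := hbas m hm
      exact ⟨Tb, fb, fun _ => h⟩
    · exact ⟨fun _ => 0, fun _ _ _ => 0, fun h => absurd h hm⟩
  choose Tb fb hTb using hbas'
  obtain ⟨dz, c, hc0, hc1, hc2⟩ := weights n hn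
  have hN0 : 0 < N := by
    rw [← hN]
    have h0 : n ⟨0, by omega⟩ ≤ ∑ a, n a := Finset.single_le_sum (fun a _ => Nat.zero_le _) (Finset.mem_univ _)
    exact lt_of_lt_of_le (hn _) h0
  -- positions
  have hcard : Fintype.card (Σ a, Fin (n a)) = Fintype.card (Fin N) := by
    rw [Fintype.card_sigma, Fintype.card_fin]
    simpa using hN
  let E : (Σ a, Fin (n a)) ≃ Fin N := Fintype.equivOfCardEq hcard
  obtain ⟨ds, hds⟩ : ∃ ds, ds = Fintype.card (Σ a, Fin (n a ^ 2 - 1)) := ⟨_, rfl⟩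
  let es : (Σ a, Fin (n a ^ 2 - 1)) ≃ Fin ds := Fintype.equivFinOfCardEq hds.symm
  let XX : Fin ds ⊕ Fin dz → Matrix (Fin N) (Fin N) ℂ :=
    Sum.elim (fun s => bk E (es.symm s).1 (Tb _ (es.symm s).2)) (fun B => bd E fun a => ((c B a : ℝ) : ℂ))
  have hXs : ∀ a i, XX (Sum.inl (es ⟨a, i⟩)) = bk E a (Tb (n a) i) := by
    intro a i
    show bk E (es.symm (es ⟨a, i⟩)).1 (Tb _ (es.symm (es ⟨a, i⟩)).2) = _
    rw [Equiv.symm_apply_apply]
  have hXz : ∀ B, XX (Sum.inr B) = bd E fun a => ((c B a : ℝ) : ℂ) := fun B => rfl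
  have hXherm : ∀ p, (XX p).conjTranspose = XX p := by
    rintro (s | B)
    · obtain ⟨⟨a, i⟩, rfl⟩ := es.surjective s
      rw [hXs]
      exact bk_herm E a _ ((hTb (n a) (hn a)).herm i)
    · rw [hXz]
      exact bd_herm E _
  have hXtr : ∀ p, (XX p).trace = 0 := by
    rintro (s | B)
    · obtain ⟨⟨a, i⟩, rfl⟩ := es.surjective s
      rw [hXs]
      have h := tr_bk E a (Tb (n a) i) 1
      rw [mul_one] at h
      have h1 : blk E a (1 : Matrix (Fin N) (Fin N) ℂ) = 1 := by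
        rw [← bd_one E, blk_bd, one_smul]
      rw [h, h1, mul_one]
      exact (hTb (n a) (hn a)).tr0 i
    · rw [hXz, tr_sum E]
      have h := hc0 B
      have h3 : ((∑ a, (n a : ℝ) * c B a : ℝ) : ℂ) = 0 := by rw [h]; simp
      rw [← h3, Complex.ofReal_sum]
      refine Finset.sum_congr rfl fun a _ => ?_
      rw [blk_bd, Matrix.trace_smul, Matrix.trace_one, Fintype.card_fin, smul_eq_mul]
      push_cast
      ring
  have hXort : ∀ p q, (XX p * XX q).trace = if p = q then 1 else 0 := by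
    rintro (s | B) (t | B')
    · obtain ⟨⟨a, i⟩, rfl⟩ := es.surjective s
      obtain ⟨⟨b, j⟩, rfl⟩ := es.surjective t
      rw [hXs, hXs, tr_bk]
      by_cases hab : a = b
      · subst hab
        rw [blk_bk, (hTb (n a) (hn a)).ortho]
        by_cases hij : i = j
        · subst hij
          simp
        · rw [if_neg hij, if_neg]
          intro h
          apply hij
          have h1 := es.injective (Sum.inl_injective h)
          simpa using h1
      · rw [blk_bk_ne E hab, mul_zero, Matrix.trace_zero, if_neg]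
        intro h
        apply hab
        have h1 := es.injective (Sum.inl_injective h)
        exact congrArg Sigma.fst h1
    · obtain ⟨⟨a, i⟩, rfl⟩ := es.surjective s
      rw [hXs, hXz, tr_bk, blk_bd, Matrix.mul_smul, mul_one, Matrix.trace_smul, (hTb (n a) (hn a)).tr0, smul_zero,
        if_neg (by simp)]
    · obtain ⟨⟨a, i⟩, rfl⟩ := es.surjective t
      rw [hXs, hXz, Matrix.trace_mul_comm, tr_bk, blk_bd, Matrix.mul_smul, mul_one, Matrix.trace_smul,
        (hTb (n a) (hn a)).tr0, smul_zero, if_neg (by simp)]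
    · rw [hXz, hXz, tr_bd]
      have h := hc1 B B'
      have h3 : ((∑ a, (n a : ℝ) * (c B a * c B' a) : ℝ) : ℂ) = if B = B' then 1 else 0 := by
        rw [h]
        split_ifs <;> simp
      have h4 : (if (Sum.inr B : Fin ds ⊕ Fin dz) = Sum.inr B' then (1 : ℂ) else 0) = if B = B' then 1 else 0 := by
        simp
      rw [h4, ← h3, Complex.ofReal_sum]
      refine Finset.sum_congr rfl fun a _ => ?_
      rw [blk_bd, Matrix.trace_smul, Matrix.trace_one, Fintype.card_fin, smul_eq_mul]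
      push_cast
      ring
  -- coordinates with respect to `T`
  let τ : Matrix (Fin N) (Fin N) ℂ → EuclideanSpace ℝ (Fin d) := fun X => WithLp.toLp 2 fun B => (T B * X).trace.re
  have hτ : ∀ X : Matrix (Fin N) (Fin N) ℂ, X.conjTranspose = X → X.trace = 0 →
      ∑ B, ((τ X B : ℝ) : ℂ) • T B = X := by
    intro X hX h0
    have h := complete hT hN0 X
    rw [h0, zero_div, zero_smul, add_zero] at h
    conv_rhs => rw [h]
    refine Finset.sum_congr rfl fun B _ => ?_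
    rw [← tr_mul_real (hT.herm B) hX]
  have hpair : ∀ (v : EuclideanSpace ℝ (Fin d)) (X : Matrix (Fin N) (Fin N) ℂ), X.conjTranspose = X →
      ((∑ B, ((v B : ℝ) : ℂ) • T B) * X).trace = ((∑ B, v B * τ X B : ℝ) : ℂ) := by
    intro v X hX
    rw [Finset.sum_mul, Matrix.trace_sum, Complex.ofReal_sum]
    refine Finset.sum_congr rfl fun B _ => ?_
    rw [Matrix.smul_mul, Matrix.trace_smul, smul_eq_mul, Complex.ofReal_mul, ← tr_mul_real (hT.herm B) hX]
  have hin : ∀ x y : EuclideanSpace ℝ (Fin d), inner ℝ x y = ∑ B, x B * y B := by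
    intro x y
    rw [PiLp.inner_apply]
    simp only [RCLike.inner_apply, conj_trivial]
    exact Finset.sum_congr rfl fun a _ => mul_comm _ _
  have hτin : ∀ p q, inner ℝ (τ (XX p)) (τ (XX q)) = if p = q then (1 : ℝ) else 0 := by
    intro p q
    have h := hpair (τ (XX p)) (XX q) (hXherm q)
    rw [hτ (XX p) (hXherm p) (hXtr p), hXort, ← hin] at h
    by_cases hpq : p = q
    · rw [if_pos hpq] at h ⊢
      exact_mod_cast h.symm
    · rw [if_neg hpq] at h ⊢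
      exact_mod_cast h.symm
  -- the splitting
  let ψ : Spl ds dz (ds + dz) := finSumFinEquiv
  have horth : Orthonormal ℝ (fun p : Fin ds ⊕ Fin dz => τ (XX p)) := orthonormal_iff_ite.2 hτin
  have hle : ds + dz ≤ d := by
    have h := horth.linearIndependent.fintype_card_le_finrank
    rw [Fintype.card_sum, Fintype.card_fin, Fintype.card_fin, finrank_euclideanSpace, Fintype.card_fin] at h
    exact h
  obtain ⟨dm, hdm⟩ := Nat.exists_eq_add_of_le hle
  let φ : Spl (ds + dz) dm d := finSumFinEquiv.trans (finCongr hdm.symm)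
  let v' : Fin d → EuclideanSpace ℝ (Fin d) := fun A =>
    Sum.elim (fun x => τ (XX (ψ.symm x))) (fun _ => 0) (φ.symm A)
  let s : Set (Fin d) := Set.range fun x => φ (Sum.inl x)
  have hv' : Orthonormal ℝ (s.domRestrict v') := by
    rw [orthonormal_iff_ite]
    rintro ⟨_, x, rfl⟩ ⟨_, y, rfl⟩
    show inner ℝ (v' (φ (Sum.inl x))) (v' (φ (Sum.inl y))) = _
    have e1 : ∀ x, v' (φ (Sum.inl x)) = τ (XX (ψ.symm x)) := by
      intro x
      show Sum.elim (fun x => τ (XX (ψ.symm x))) (fun _ => 0) (φ.symm (φ (Sum.inl x))) = _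
      rw [Equiv.symm_apply_apply]
      rfl
    rw [e1, e1, hτin]
    by_cases hxy : x = y
    · subst hxy
      simp
    · rw [if_neg (fun h => hxy (ψ.symm.injective h)), if_neg]
      intro h
      apply hxy
      have h1 := congrArg Subtype.val h
      exact Sum.inl_injective (φ.injective h1)
  obtain ⟨b, hb⟩ := hv'.exists_orthonormalBasis_extension_of_card_eq
    (by rw [finrank_euclideanSpace]) (s := s) (v := v')
  have hbi : ∀ x, b (φ (Sum.inl x)) = τ (XX (ψ.symm x)) := by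
    intro x
    rw [hb _ ⟨x, rfl⟩]
    show Sum.elim (fun x => τ (XX (ψ.symm x))) (fun _ => 0) (φ.symm (φ (Sum.inl x))) = _
    rw [Equiv.symm_apply_apply]
    rfl
  have hT' : ∀ x, ∑ B, ((b (φ (Sum.inl x)) B : ℝ) : ℂ) • T B = XX (ψ.symm x) := by
    intro x
    rw [hbi]
    exact hτ _ (hXherm _) (hXtr _)
  refine ⟨ds + dz, dm, ds, dz, φ, ψ, Matrix.of fun A B => b A B, ?_, ⟨?_⟩⟩
  · ext A A'
    rw [Matrix.mul_apply]
    simp only [Matrix.transpose_apply, Matrix.of_apply]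
    rw [← hin, orthonormal_iff_ite.1 b.orthonormal, Matrix.one_apply]
  · refine
      { two := hk
        pos := hn
        E := E
        es := es
        Tb := Tb
        fb := fb
        Tb_bas := hTb
        s_eq := ?_
        c := c
        z_eq := ?_
        m_eq := ?_ }
    · intro a i
      simp only [Matrix.of_apply]
      rw [hT', Equiv.symm_apply_apply, hXs]
    · intro B
      simp only [Matrix.of_apply]
      rw [hT', Equiv.symm_apply_apply]
      exact hXz B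
    · intro C s t hst
      simp only [Matrix.of_apply]
      set X : Matrix (Fin N) (Fin N) ℂ := ∑ B, ((b (φ (Sum.inr C)) B : ℝ) : ℂ) • T B with hXdef
      have hXh : X.conjTranspose = X := by
        rw [hXdef, Matrix.conjTranspose_sum]
        refine Finset.sum_congr rfl fun B _ => ?_
        rw [Matrix.conjTranspose_smul, hT.herm B]
        congr 1
        exact Complex.conj_ofReal _
      have hX0 : X.trace = 0 := by
        rw [hXdef, Matrix.trace_sum]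
        refine Finset.sum_eq_zero fun B _ => ?_
        rw [Matrix.trace_smul, hT.tr0, smul_zero]
      have hXX : ∀ p, (XX p * X).trace = 0 := by
        intro p
        rw [Matrix.trace_mul_comm, hXdef, hpair _ _ (hXherm p), ← hin]
        have h1 := hbi (ψ p)
        rw [Equiv.symm_apply_apply] at h1
        rw [← h1, orthonormal_iff_ite.1 b.orthonormal, if_neg]
        · simp
        · intro h
          exact absurd (φ.injective h) (by simp)
      refine vanish (Tb := Tb) (fb := fb) hTb hn E c hc2 X hXh hX0 ?_ ?_ s t hst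
      · intro a i
        rw [← hXs]
        exact hXX _
      · intro B
        rw [← hXz]
        exact hXX _

/-- **NF-Ex** block frames exist -/
theorem ex_stmt : ExStmt := ex_of ex925_bas

end Vale.Agent.P353.Z.ANF
end
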