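import Mathlib
import Vale.Agent.P353.BdA.B1
import Vale.Agent.P353.BdZ.B16

set_option linter.all false

section

/-! # P353, all `N`, block A: exact decomposition of the supercharges on the slice (A3) -/

set_option linter.all false

open MeasureTheory Filter Topology
open scoped ContDiff

namespace Vale.Agent.P353.Z.AN

variable {d dh dm : ℕ} {F : Type*} [NormedAddCommGroup F] [InnerProductSpace ℂ F]

lemma dec_emb_inl (φ : Spl dh dm d) (y : Cfg dh) (w : Wsp dm) (i : Fin 9) (A : Fin dh) :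
    emb φ y w (i, φ (Sum.inl A)) = y (i, A) := by
  simp [emb]

lemma dec_emb_inr (φ : Spl dh dm d) (y : Cfg dh) (w : Wsp dm) (i : Fin 9) (B : Fin dm) :
    emb φ y w (i, φ (Sum.inr B)) = wt w i B := by
  simp [emb, wt]

lemma dec_wt_last (w : Wsp dm) (B : Fin dm) : wt w 8 B = 0 := by
  show wt w (Fin.last 8) B = 0
  simp only [wt, Fin.lastCases_last]

lemma dec_wt_cast (w : Wsp dm) (j : Fin 8) (B : Fin dm) : wt w j.castSucc B = w (j, B) := by
  simp only [wt, Fin.lastCases_castSucc]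

lemma dec_wt_add (w w' : Wsp dm) (i : Fin 9) (B : Fin dm) : wt (w + w') i B = wt w i B + wt w' i B := by
  refine Fin.lastCases ?_ (fun j => ?_) i
  · simp only [wt, Fin.lastCases_last, add_zero]
  · simp only [dec_wt_cast]; rfl

lemma dec_wt_smul (c : ℝ) (w : Wsp dm) (i : Fin 9) (B : Fin dm) : wt (c • w) i B = c * wt w i B := by
  refine Fin.lastCases ?_ (fun j => ?_) i
  · simp only [wt, Fin.lastCases_last, mul_zero]
  · simp only [dec_wt_cast]; rfl

/-- the slice embedding as a continuous linear map -/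
noncomputable def embL (φ : Spl dh dm d) : Cfg dh × Wsp dm →L[ℝ] Cfg d :=
  LinearMap.toContinuousLinearMap
    { toFun := fun p => emb φ p.1 p.2
      map_add' := by
        intro p q
        ext ⟨i, A⟩
        obtain ⟨a, rfl⟩ := φ.surjective A
        rcases a with a | a
        · rw [PiLp.add_apply]; simp only [dec_emb_inl, Prod.fst_add, Prod.snd_add]; rfl
        · rw [PiLp.add_apply]; simp only [dec_emb_inr, Prod.fst_add, Prod.snd_add, dec_wt_add]
      map_smul' := by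
        intro c p
        ext ⟨i, A⟩
        obtain ⟨a, rfl⟩ := φ.surjective A
        rcases a with a | a
        · rw [PiLp.smul_apply]; simp only [dec_emb_inl, Prod.smul_fst, Prod.smul_snd]; rfl
        · rw [PiLp.smul_apply]; simp only [dec_emb_inr, Prod.smul_fst, Prod.smul_snd, dec_wt_smul]; rfl }

lemma embL_apply (φ : Spl dh dm d) (p : Cfg dh × Wsp dm) : embL φ p = emb φ p.1 p.2 := rfl

lemma dec_embL_y (φ : Spl dh dm d) (i : Fin 9) (A : Fin dh) :
    embL φ (EuclideanSpace.single (i, A) 1, 0) = EuclideanSpace.single (i, φ (Sum.inl A)) 1 := by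
  ext ⟨k, C⟩
  obtain ⟨a, rfl⟩ := φ.surjective C
  rw [embL_apply]
  rcases a with a | a
  · simp only [dec_emb_inl, PiLp.single_apply, Prod.mk.injEq, EmbeddingLike.apply_eq_iff_eq, Sum.inl.injEq]
  · rw [dec_emb_inr]
    have h0 : wt (0 : Wsp dm) k a = 0 := by
      have := dec_wt_smul 0 (0 : Wsp dm) k a
      simpa using this
    simp only [h0, PiLp.single_apply, Prod.mk.injEq, EmbeddingLike.apply_eq_iff_eq]
    simp

lemma dec_embL_w (φ : Spl dh dm d) (j : Fin 8) (B : Fin dm) :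
    embL φ (0, EuclideanSpace.single (j, B) 1) = EuclideanSpace.single (j.castSucc, φ (Sum.inr B)) 1 := by
  ext ⟨k, C⟩
  obtain ⟨a, rfl⟩ := φ.surjective C
  rw [embL_apply]
  rcases a with a | a
  · simp only [dec_emb_inl, PiLp.single_apply, Prod.mk.injEq, EmbeddingLike.apply_eq_iff_eq]
    simp
  · rw [dec_emb_inr]
    refine Fin.lastCases ?_ (fun l => ?_) k
    · simp only [wt, Fin.lastCases_last, PiLp.single_apply, Prod.mk.injEq, EmbeddingLike.apply_eq_iff_eq]
      rw [if_neg]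
      rintro ⟨h, -⟩
      exact (Fin.castSucc_lt_last j).ne h.symm
    · simp only [dec_wt_cast, PiLp.single_apply, Prod.mk.injEq, EmbeddingLike.apply_eq_iff_eq, Sum.inr.injEq,
        Fin.castSucc_inj]

/-- derivatives of `u ∘ emb` -/
lemma dec_der_y (φ : Spl dh dm d) {u : Cfg d → F} (y : Cfg dh) (w : Wsp dm) (hu : DifferentiableAt ℝ u (emb φ y w)) :
    HasFDerivAt (fun y' => u (emb φ y' w)) ((fderiv ℝ u (emb φ y w)).comp
      ((embL φ).comp (ContinuousLinearMap.inl ℝ (Cfg dh) (Wsp dm)))) y := by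
  have h1 : HasFDerivAt (fun y' : Cfg dh => embL φ (y', w))
      ((embL φ).comp (ContinuousLinearMap.inl ℝ (Cfg dh) (Wsp dm))) y :=
    (embL φ).hasFDerivAt.comp y (hasFDerivAt_prodMk_left y w)
  exact HasFDerivAt.comp y hu.hasFDerivAt h1

lemma dec_der_w (φ : Spl dh dm d) {u : Cfg d → F} (y : Cfg dh) (w : Wsp dm) (hu : DifferentiableAt ℝ u (emb φ y w)) :
    HasFDerivAt (fun w' => u (emb φ y w')) ((fderiv ℝ u (emb φ y w)).comp
      ((embL φ).comp (ContinuousLinearMap.inr ℝ (Cfg dh) (Wsp dm)))) w := by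
  have h1 : HasFDerivAt (fun w' : Wsp dm => embL φ (y, w'))
      ((embL φ).comp (ContinuousLinearMap.inr ℝ (Cfg dh) (Wsp dm))) w :=
    (embL φ).hasFDerivAt.comp w (hasFDerivAt_prodMk_right y w)
  exact HasFDerivAt.comp w hu.hasFDerivAt h1

lemma dec_det_smooth (S : Setup d F) (φ : Spl dh dm d) (i : Fin 9) :
    ContDiff ℝ ∞ (fun y : Cfg dh => (S.Dy φ i y).det) := by
  simp only [Matrix.det_apply]
  refine ContDiff.sum fun σ _ => ?_
  have h1 : ContDiff ℝ ∞ (fun y : Cfg dh => ∏ B, S.Dy φ i y (σ B) B) := by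
    refine contDiff_prod fun B _ => ?_
    show ContDiff ℝ ∞ (fun y : Cfg dh => ∑ A, S.f (φ (Sum.inr (σ B))) (φ (Sum.inl A)) (φ (Sum.inr B)) * y (i, A))
    fun_prop
  have h2 : (fun y : Cfg dh => Equiv.Perm.sign σ • ∏ B, S.Dy φ i y (σ B) B) =
      fun y : Cfg dh => ((Equiv.Perm.sign σ : ℤ) : ℝ) * ∏ B, S.Dy φ i y (σ B) B := by
    funext y'
    rw [Units.smul_def, zsmul_eq_mul]
  rw [h2]
  exact contDiff_const.mul h1

lemma dec_J_deriv (S : Setup d F) (φ : Spl dh dm d) (y : Cfg dh) (h : (S.Dy φ 8 y).det ≠ 0) :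
    ∃ L : Cfg dh →L[ℝ] ℝ, HasFDerivAt (S.Jd φ) L y := by
  have h1 : HasFDerivAt (fun y : Cfg dh => (S.Dy φ 8 y).det) (fderiv ℝ (fun y : Cfg dh => (S.Dy φ 8 y).det) y) y :=
    ((dec_det_smooth S φ 8).differentiable (by simp)).differentiableAt.hasFDerivAt
  exact ⟨_, (hasDerivAt_abs h).comp_hasFDerivAt y h1⟩

lemma dec_J_pos (S : Setup d F) (φ : Spl dh dm d) (y : Cfg dh) (h : (S.Dy φ 8 y).det ≠ 0) :
    0 < S.Jd φ y := abs_pos.2 h

lemma dec_sqrt (S : Setup d F) (φ : Spl dh dm d) (y : Cfg dh) (h : (S.Dy φ 8 y).det ≠ 0) :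
    HasFDerivAt (fun y' => Real.sqrt (S.Jd φ y'))
      ((Real.sqrt (S.Jd φ y) / 2) • fderiv ℝ (fun y' => Real.log (S.Jd φ y')) y) y := by
  obtain ⟨L, hL⟩ := dec_J_deriv S φ y h
  have hp := dec_J_pos S φ y h
  have h1 := hL.log hp.ne'
  have h2 := hL.sqrt hp.ne'
  rw [h1.fderiv]
  have e0 : (Real.sqrt (S.Jd φ y) / 2) • ((S.Jd φ y)⁻¹ • L) = (1 / (2 * Real.sqrt (S.Jd φ y))) • L := by
    rw [smul_smul]
    congr 1
    have h3 : Real.sqrt (S.Jd φ y) ≠ 0 := (Real.sqrt_pos.2 hp).ne'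
    have h4 : Real.sqrt (S.Jd φ y) * Real.sqrt (S.Jd φ y) = S.Jd φ y := Real.mul_self_sqrt hp.le
    have h5 : (S.Jd φ y)⁻¹ = (Real.sqrt (S.Jd φ y))⁻¹ * (Real.sqrt (S.Jd φ y))⁻¹ := by
      rw [← mul_inv, h4]
    rw [h5]
    field_simp
  rw [e0]
  exact h2

lemma dec_log_zero (S : Setup d F) (φ : Spl dh dm d) (y : Cfg dh) (h : (S.Dy φ 8 y).det ≠ 0) (i : Fin 9) (hi : i ≠ 8)
    (A : Fin dh) : fderiv ℝ (fun y' => Real.log (S.Jd φ y')) y (EuclideanSpace.single (i, A) 1) = 0 := by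
  obtain ⟨L, hL⟩ := dec_J_deriv S φ y h
  have hp := dec_J_pos S φ y h
  have h1 := hL.log hp.ne'
  have h2 := h1.hasLineDerivAt (EuclideanSpace.single (i, A) 1)
  have h3 : HasLineDerivAt ℝ (fun y' => Real.log (S.Jd φ y')) 0 y (EuclideanSpace.single (i, A) 1) := by
    show HasDerivAt _ _ _
    have : (fun t : ℝ => Real.log (S.Jd φ (y + t • EuclideanSpace.single (i, A) 1))) =
        fun _ => Real.log (S.Jd φ y) := by
      funext t
      have e : S.Dy φ 8 (y + t • EuclideanSpace.single (i, A) 1) = S.Dy φ 8 y := by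
        ext B C
        simp only [Setup.Dy, Setup.Dm, Matrix.of_apply]
        refine Finset.sum_congr rfl fun A' _ => ?_
        congr 1
        show (y + t • EuclideanSpace.single (i, A) (1 : ℝ)) ((8 : Fin 9), A') = y ((8 : Fin 9), A')
        rw [PiLp.add_apply, PiLp.smul_apply, PiLp.single_apply, if_neg, smul_zero, add_zero]
        intro h; exact hi (congrArg Prod.fst h).symm
      rw [Setup.Jd, Setup.Jd, e]
    rw [this]
    exact hasDerivAt_const _ _
  rw [h1.fderiv]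
  exact h2.unique h3

/-- derivative of `log J` -/
noncomputable def lJ (S : Setup d F) (φ : Spl dh dm d) (y : Cfg dh) (i : Fin 9) (A : Fin dh) : ℝ :=
  fderiv ℝ (fun y' => Real.log (S.Jd φ y')) y (EuclideanSpace.single (i, A) 1)

lemma dec_py (S : Setup d F) (φ : Spl dh dm d) {u : Cfg d → F} (y : Cfg dh) (w : Wsp dm)
    (hu : DifferentiableAt ℝ u (emb φ y w)) (h : (S.Dy φ 8 y).det ≠ 0) (i : Fin 9) (A : Fin dh) :
    py i A (S.res φ u) y w = ((Real.sqrt (S.Jd φ y) : ℝ) : ℂ) • pd i (φ (Sum.inl A)) u (emb φ y w) +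
      ((Real.sqrt (S.Jd φ y) / 2 * lJ S φ y i A : ℝ) : ℂ) • u (emb φ y w) := by
  have h1 := (dec_sqrt S φ y h).smul (dec_der_y φ y w hu)
  have h2 : (fun y' => S.res φ u y' w) = (fun y' => Real.sqrt (S.Jd φ y')) • fun y' => u (emb φ y' w) := by
    funext y'
    show ((Real.sqrt (S.Jd φ y') : ℝ) : ℂ) • u (emb φ y' w) = Real.sqrt (S.Jd φ y') • u (emb φ y' w)
    rw [Complex.coe_smul]
  rw [← h2] at h1
  rw [py, pd, h1.fderiv]
  simp only [_root_.add_apply, _root_.smul_apply, ContinuousLinearMap.comp_apply, ContinuousLinearMap.inl_apply,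
    dec_embL_y, ContinuousLinearMap.smulRight_apply, Complex.coe_smul]
  rfl

lemma dec_pw (S : Setup d F) (φ : Spl dh dm d) {u : Cfg d → F} (y : Cfg dh) (w : Wsp dm)
    (hu : DifferentiableAt ℝ u (emb φ y w)) (j : Fin 8) (B : Fin dm) :
    pw j B (S.res φ u) y w = ((Real.sqrt (S.Jd φ y) : ℝ) : ℂ) • pd j.castSucc (φ (Sum.inr B)) u (emb φ y w) := by
  have h1 := (dec_der_w φ y w hu).const_smul (Real.sqrt (S.Jd φ y))
  have h2 : S.res φ u y = fun w' => Real.sqrt (S.Jd φ y) • u (emb φ y w') := by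
    funext w'
    show ((Real.sqrt (S.Jd φ y) : ℝ) : ℂ) • u (emb φ y w') = Real.sqrt (S.Jd φ y) • u (emb φ y w')
    rw [Complex.coe_smul]
  rw [pw, h2, pd]
  have h3 : HasFDerivAt (fun w' => Real.sqrt (S.Jd φ y) • u (emb φ y w')) _ w := h1
  rw [h3.fderiv]
  simp only [_root_.smul_apply, ContinuousLinearMap.comp_apply, ContinuousLinearMap.inr_apply,
    dec_embL_w, Complex.coe_smul]

lemma dec_sum {M : Type*} [AddCommMonoid M] (φ : Spl dh dm d) (g : Fin d → M) :
    ∑ A, g A = ∑ A, g (φ (Sum.inl A)) + ∑ B, g (φ (Sum.inr B)) := by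
  rw [← φ.sum_comp, Fintype.sum_sum_type]

lemma dec_f1 (S : Setup d F) {φ : Spl dh dm d} (hs : S.IsSub φ) (A B C) :
    S.f (φ (Sum.inl A)) (φ (Sum.inr C)) (φ (Sum.inl B)) = 0 := by
  rw [S.f_cyc, S.f_cyc]
  rw [hs]

lemma dec_f2 (S : Setup d F) {φ : Spl dh dm d} (hs : S.IsSub φ) (A B C) :
    S.f (φ (Sum.inr C)) (φ (Sum.inl A)) (φ (Sum.inl B)) = 0 := by
  rw [S.f_cyc]
  rw [hs]

lemma dec_FF_inl (S : Setup d F) {φ : Spl dh dm d} (hs : S.IsSub φ) (y : Cfg dh) (w : Wsp dm) (A : Fin dh) (i j : Fin 9) :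
    S.FF (φ (Sum.inl A)) i j (emb φ y w) =
      S.κ * (∑ B, ∑ C, S.f (φ (Sum.inl A)) (φ (Sum.inl B)) (φ (Sum.inl C)) * y (i, B) * y (j, C)) +
      S.κ * ∑ B, ∑ C, S.f (φ (Sum.inl A)) (φ (Sum.inr B)) (φ (Sum.inr C)) * wt w i B * wt w j C := by
  rw [Setup.FF, dec_sum φ]
  simp only [dec_sum φ (fun C => S.f _ _ C * _ * _), dec_emb_inl, dec_emb_inr, hs A, dec_f1 S hs, zero_mul,
    Finset.sum_const_zero, add_zero, zero_add, mul_add]

lemma dec_FF_inr (S : Setup d F) {φ : Spl dh dm d} (hs : S.IsSub φ) (y : Cfg dh) (w : Wsp dm) (A : Fin dm) (i j : Fin 9) :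
    S.FF (φ (Sum.inr A)) i j (emb φ y w) = S.FL φ A i j y w +
      S.κ * ∑ B, ∑ C, S.f (φ (Sum.inr A)) (φ (Sum.inr B)) (φ (Sum.inr C)) * wt w i B * wt w j C := by
  rw [Setup.FF, dec_sum φ]
  simp only [dec_sum φ (fun C => S.f _ _ C * _ * _), dec_emb_inl, dec_emb_inr, dec_f2 S hs, zero_mul,
    Finset.sum_const_zero, add_zero, zero_add]
  rw [Setup.FL, Finset.sum_add_distrib, ← mul_add, ← add_assoc]
  congr 2
  rw [sub_eq_add_neg]
  congr 1
  · simp only [Setup.Dy, Setup.Dm, Matrix.of_apply, Finset.sum_mul]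
    rw [Finset.sum_comm]
  · simp only [Setup.Dy, Setup.Dm, Matrix.of_apply, Finset.sum_mul]
    rw [← Finset.sum_neg_distrib]
    refine Finset.sum_congr rfl fun B _ => ?_
    rw [← Finset.sum_neg_distrib]
    refine Finset.sum_congr rfl fun C _ => ?_
    rw [S.f_swap' (φ (Sum.inr A)) (φ (Sum.inl C)) (φ (Sum.inr B))]
    ring

lemma dec_W (S : Setup d F) {φ : Spl dh dm d} (hs : S.IsSub φ) (y : Cfg dh) (w : Wsp dm) (β : Fin 16) (U : F) :
    S.W β (emb φ y w) U =
      (1 / 2 : ℂ) • (∑ A, ∑ i, ∑ j,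
        ((S.κ * ∑ B, ∑ C, S.f (φ (Sum.inl A)) (φ (Sum.inl B)) (φ (Sum.inl C)) * y (i, B) * y (j, C) : ℝ) : ℂ) •
        S.vec (S.g2 i j) (φ (Sum.inl A)) β U) +
      (1 / 2 : ℂ) • (∑ B, ∑ i, ∑ j, ((S.FL φ B i j y w : ℝ) : ℂ) • S.vec (S.g2 i j) (φ (Sum.inr B)) β U) +
      (1 / 2 : ℂ) • (∑ A, ∑ i, ∑ j,
      ((S.κ * ∑ B, ∑ C, S.f (φ (Sum.inl A)) (φ (Sum.inr B)) (φ (Sum.inr C)) * wt w i B * wt w j C : ℝ) : ℂ) •
        S.vec (S.g2 i j) (φ (Sum.inl A)) β U) +
      (1 / 2 : ℂ) • (∑ A, ∑ i, ∑ j,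
      ((S.κ * ∑ B, ∑ C, S.f (φ (Sum.inr A)) (φ (Sum.inr B)) (φ (Sum.inr C)) * wt w i B * wt w j C : ℝ) : ℂ) •
        S.vec (S.g2 i j) (φ (Sum.inr A)) β U) := by
  rw [Setup.W]
  simp only [_root_.smul_apply, _root_.sum_apply]
  rw [dec_sum φ]
  simp only [dec_FF_inl S hs, dec_FF_inr S hs, Complex.ofReal_add, add_smul, Finset.sum_add_distrib, smul_add]
  abel

/-- the Gauss law solved for `∂_8^m` -/
lemma dec_gauss (S : Setup d F) {φ : Spl dh dm d} (hs : S.IsSub φ) {u : Cfg d → F} (hG : ∀ C x, S.G C u x = 0)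
    (y : Cfg dh) (w : Wsp dm) (c : Fin dm) :
    ∑ E, ((S.Dy φ 8 y c E : ℝ) : ℂ) • pd 8 (φ (Sum.inr E)) u (emb φ y w) =
      -((∑ j : Fin 8, ∑ E, ((S.Dy φ j.castSucc y c E : ℝ) : ℂ) • pd j.castSucc (φ (Sum.inr E)) u (emb φ y w)) +
        ((∑ j : Fin 8, ∑ E, ∑ A, ((S.f (φ (Sum.inr c)) (φ (Sum.inr E)) (φ (Sum.inl A)) * w (j, E) : ℝ) : ℂ) •
          pd j.castSucc (φ (Sum.inl A)) u (emb φ y w)) +
        (∑ j : Fin 8, ∑ E, ∑ G, ((S.f (φ (Sum.inr c)) (φ (Sum.inr E)) (φ (Sum.inr G)) * w (j, E) : ℝ) : ℂ) •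
          pd j.castSucc (φ (Sum.inr G)) u (emb φ y w)) +
        Complex.I • S.cS (φ (Sum.inr c)) (u (emb φ y w)))) := by
  have h1 := hG (φ (Sum.inr c)) (emb φ y w)
  rw [Setup.G] at h1
  have h2 : (∑ i, ∑ A, ∑ B, ((S.f (φ (Sum.inr c)) A B : ℂ) * ((emb φ y w) (i, A) : ℂ)) • pd i B u (emb φ y w)) =
      (∑ i, ∑ E, ((S.Dy φ i y c E : ℝ) : ℂ) • pd i (φ (Sum.inr E)) u (emb φ y w)) +
      ((∑ i, ∑ E, ∑ A, ((S.f (φ (Sum.inr c)) (φ (Sum.inr E)) (φ (Sum.inl A)) * wt w i E : ℝ) : ℂ) •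
          pd i (φ (Sum.inl A)) u (emb φ y w)) +
        (∑ i, ∑ E, ∑ G, ((S.f (φ (Sum.inr c)) (φ (Sum.inr E)) (φ (Sum.inr G)) * wt w i E : ℝ) : ℂ) •
          pd i (φ (Sum.inr G)) u (emb φ y w))) := by
    rw [← Finset.sum_add_distrib, ← Finset.sum_add_distrib]
    refine Finset.sum_congr rfl fun i _ => ?_
    rw [dec_sum φ]
    simp only [dec_sum φ (fun B => (_ : ℂ) • pd i B u _), dec_emb_inl, dec_emb_inr, dec_f2 S hs,
      Complex.ofReal_zero, zero_mul, zero_smul, Finset.sum_const_zero, zero_add, Finset.sum_add_distrib,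
      Complex.ofReal_mul]
    congr 1
    rw [Finset.sum_comm]
    refine Finset.sum_congr rfl fun E _ => ?_
    rw [← Finset.sum_smul]
    simp only [Setup.Dy, Setup.Dm, Matrix.of_apply]
    push_cast
    rfl
  rw [h2] at h1
  rw [Fin.sum_univ_castSucc (f := fun i => ∑ E, ((S.Dy φ i y c E : ℝ) : ℂ) • pd i (φ (Sum.inr E)) u (emb φ y w)),
    Fin.sum_univ_castSucc (f := fun i => ∑ E, ∑ A, ((S.f (φ (Sum.inr c)) (φ (Sum.inr E)) (φ (Sum.inl A)) * wt w i E : ℝ) : ℂ) •
          pd i (φ (Sum.inl A)) u (emb φ y w)),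
    Fin.sum_univ_castSucc (f := fun i => ∑ E, ∑ G, ((S.f (φ (Sum.inr c)) (φ (Sum.inr E)) (φ (Sum.inr G)) * wt w i E : ℝ) : ℂ) •
          pd i (φ (Sum.inr G)) u (emb φ y w))] at h1
  have h8 : (Fin.last 8 : Fin 9) = 8 := rfl
  simp only [h8, dec_wt_last, dec_wt_cast, mul_zero, Complex.ofReal_zero, zero_smul, Finset.sum_const_zero,
    add_zero] at h1
  have h3 := congrArg (fun z => Complex.I • z) h1
  simp only [smul_add, smul_smul, smul_zero, mul_neg, Complex.I_mul_I, neg_neg, one_smul] at h3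
  rw [eq_neg_iff_add_eq_zero, ← h3]
  simp only [smul_add]
  abel

/-- right side of the Gauss law -/
noncomputable def dec_R (S : Setup d F) (φ : Spl dh dm d) (u : Cfg d → F) (y : Cfg dh) (w : Wsp dm) (c : Fin dm) : F :=
  (∑ j : Fin 8, ∑ E, ((S.Dy φ j.castSucc y c E : ℝ) : ℂ) • pd j.castSucc (φ (Sum.inr E)) u (emb φ y w)) +
        ((∑ j : Fin 8, ∑ E, ∑ A, ((S.f (φ (Sum.inr c)) (φ (Sum.inr E)) (φ (Sum.inl A)) * w (j, E) : ℝ) : ℂ) •
          pd j.castSucc (φ (Sum.inl A)) u (emb φ y w)) +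
        (∑ j : Fin 8, ∑ E, ∑ G, ((S.f (φ (Sum.inr c)) (φ (Sum.inr E)) (φ (Sum.inr G)) * w (j, E) : ℝ) : ℂ) •
          pd j.castSucc (φ (Sum.inr G)) u (emb φ y w)) +
        Complex.I • S.cS (φ (Sum.inr c)) (u (emb φ y w)))

lemma dec_pd8 (S : Setup d F) {φ : Spl dh dm d} (hs : S.IsSub φ) {u : Cfg d → F} (hG : ∀ C x, S.G C u x = 0)
    (y : Cfg dh) (w : Wsp dm) (h : (S.Dy φ 8 y).det ≠ 0) (B : Fin dm) :
    pd 8 (φ (Sum.inr B)) u (emb φ y w) = -∑ C, (((S.Dy φ 8 y)⁻¹ B C : ℝ) : ℂ) • dec_R S φ u y w C := by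
  have h1 : (S.Dy φ 8 y)⁻¹ * S.Dy φ 8 y = 1 := Matrix.nonsing_inv_mul _ (isUnit_iff_ne_zero.2 h)
  have h2 : ∀ E, ∑ C, ((S.Dy φ 8 y)⁻¹ B C) * S.Dy φ 8 y C E = if B = E then 1 else 0 := by
    intro E
    have := congrFun (congrFun h1 B) E
    rwa [Matrix.mul_apply, Matrix.one_apply] at this
  have h3 : ∀ C, dec_R S φ u y w C = -∑ E, ((S.Dy φ 8 y C E : ℝ) : ℂ) • pd 8 (φ (Sum.inr E)) u (emb φ y w) := by
    intro C
    rw [dec_gauss S hs hG y w C, neg_neg]
    rfl
  simp only [h3, smul_neg, Finset.sum_neg_distrib, neg_neg, Finset.smul_sum, smul_smul]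
  rw [Finset.sum_comm]
  simp only [← Finset.sum_smul]
  have h4 : ∀ E, (∑ C, (((S.Dy φ 8 y)⁻¹ B C : ℝ) : ℂ) * ((S.Dy φ 8 y C E : ℝ) : ℂ)) = if B = E then 1 else 0 := by
    intro E
    have := congrArg (fun t : ℝ => (t : ℂ)) (h2 E)
    push_cast at this
    rw [this]
    split_ifs <;> simp
  simp only [h4, ite_smul, one_smul, zero_smul, Finset.sum_ite_eq, Finset.mem_univ, if_true]

theorem dec_stmt (S : Setup d F) : DecStmt S := by
  intro dh dm φ hs u hu hG β y w hdet
  have hd : DifferentiableAt ℝ u (emb φ y w) := (hu.differentiable (by simp)).differentiableAt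
  have hpy := dec_py S φ y w hd hdet
  have hpy' : ∀ (j : Fin 8) (A : Fin dh), py j.castSucc A (S.res φ u) y w =
      ((Real.sqrt (S.Jd φ y) : ℝ) : ℂ) • pd j.castSucc (φ (Sum.inl A)) u (emb φ y w) := by
    intro j A
    have h0 : lJ S φ y j.castSucc A = 0 := dec_log_zero S φ y hdet j.castSucc (Fin.castSucc_lt_last j).ne A
    rw [hpy, h0, mul_zero, Complex.ofReal_zero, zero_smul, add_zero]
  have hpw := dec_pw S φ y w hd
  have hres : S.res φ u y w = ((Real.sqrt (S.Jd φ y) : ℝ) : ℂ) • u (emb φ y w) := rfl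
  have hresQ : S.res φ (S.Q β u) y w = ((Real.sqrt (S.Jd φ y) : ℝ) : ℂ) • S.Q β u (emb φ y w) := rfl
  have hlz : ∀ (i : Fin 9) (A : Fin dh), i ≠ 8 → lJ S φ y i A = 0 := fun i A hi => dec_log_zero S φ y hdet i hi A
  generalize hrr : Real.sqrt (S.Jd φ y) = r at *
  -- the three pieces
  have e1 : S.Qh φ β (S.res φ u) y w =
      (r : ℂ) • ((-Complex.I) • ∑ i, ∑ A, S.vec (S.g i) (φ (Sum.inl A)) β (pd i (φ (Sum.inl A)) u (emb φ y w))) +
      (-Complex.I) • (∑ A, ((r / 2 * lJ S φ y 8 A : ℝ) : ℂ) • S.vec (S.g 8) (φ (Sum.inl A)) β (u (emb φ y w))) +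
      (r : ℂ) • ((1 / 2 : ℂ) • ∑ A, ∑ i, ∑ j,
      ((S.κ * ∑ B, ∑ C, S.f (φ (Sum.inl A)) (φ (Sum.inl B)) (φ (Sum.inl C)) * y (i, B) * y (j, C) : ℝ) : ℂ) •
        S.vec (S.g2 i j) (φ (Sum.inl A)) β (u (emb φ y w))) := by
    rw [Setup.Qh]
    simp only [hpy, hres, map_add, map_smul, Finset.sum_add_distrib, smul_add]
    have e2 : (∑ i, ∑ A, ((r / 2 * lJ S φ y i A : ℝ) : ℂ) • S.vec (S.g i) (φ (Sum.inl A)) β (u (emb φ y w))) =
        ∑ A, ((r / 2 * lJ S φ y 8 A : ℝ) : ℂ) • S.vec (S.g 8) (φ (Sum.inl A)) β (u (emb φ y w)) := by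
      refine Finset.sum_eq_single_of_mem 8 (Finset.mem_univ _) fun i _ hi => ?_
      refine Finset.sum_eq_zero fun A _ => ?_
      rw [hlz i A hi, mul_zero, Complex.ofReal_zero, zero_smul]
    rw [e2]
    congr 1
    · congr 1
      simp only [Finset.smul_sum]
      refine Finset.sum_congr rfl fun i _ => Finset.sum_congr rfl fun A _ => ?_
      rw [smul_comm]
    · simp only [Finset.smul_sum]
      refine Finset.sum_congr rfl fun A _ => Finset.sum_congr rfl fun i _ => Finset.sum_congr rfl fun j _ => ?_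
      rw [smul_comm (r : ℂ) (1 / 2 : ℂ), smul_comm (r : ℂ)]
  have e3 : S.Q1 φ β (S.res φ u) y w + S.Qr φ β (S.res φ u) y w =
      (r : ℂ) • ((-Complex.I) • (∑ j : Fin 8, ∑ B, S.vec (S.g j.castSucc) (φ (Sum.inr B)) β
        (pd j.castSucc (φ (Sum.inr B)) u (emb φ y w))) +
      Complex.I • (∑ B, S.vec (S.g 8) (φ (Sum.inr B)) β
        (∑ C, (((S.Dy φ 8 y)⁻¹ B C : ℝ) : ℂ) • dec_R S φ u y w C)) +
      (1 / 2 : ℂ) • (∑ B, ∑ i, ∑ j, ((S.FL φ B i j y w : ℝ) : ℂ) • S.vec (S.g2 i j) (φ (Sum.inr B)) β (u (emb φ y w))) +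
      (1 / 2 : ℂ) • (∑ A, ∑ i, ∑ j,
      ((S.κ * ∑ B, ∑ C, S.f (φ (Sum.inl A)) (φ (Sum.inr B)) (φ (Sum.inr C)) * wt w i B * wt w j C : ℝ) : ℂ) •
        S.vec (S.g2 i j) (φ (Sum.inl A)) β (u (emb φ y w))) +
      (1 / 2 : ℂ) • (∑ A, ∑ i, ∑ j,
      ((S.κ * ∑ B, ∑ C, S.f (φ (Sum.inr A)) (φ (Sum.inr B)) (φ (Sum.inr C)) * wt w i B * wt w j C : ℝ) : ℂ) •
        S.vec (S.g2 i j) (φ (Sum.inr A)) β (u (emb φ y w)))) +
      (Complex.I / 2) • (∑ A, ((lJ S φ y 8 A : ℝ) : ℂ) • S.vec (S.g 8) (φ (Sum.inl A)) β ((r : ℂ) • u (emb φ y w))) := by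
    rw [Setup.Q1, Setup.Qr]
    have e4 : ∀ B, (∑ C, (((S.Dy φ 8 y)⁻¹ B C : ℝ) : ℂ) • dec_R S φ u y w C) =
        (∑ C, (((S.Dy φ 8 y)⁻¹ B C : ℝ) : ℂ) • ∑ j : Fin 8, ∑ E, ((S.Dy φ j.castSucc y C E : ℝ) : ℂ) •
          pd j.castSucc (φ (Sum.inr E)) u (emb φ y w)) +
        ∑ C, (((S.Dy φ 8 y)⁻¹ B C : ℝ) : ℂ) •
          ((∑ j : Fin 8, ∑ E, ∑ A, ((S.f (φ (Sum.inr C)) (φ (Sum.inr E)) (φ (Sum.inl A)) * w (j, E) : ℝ) : ℂ) •
          pd j.castSucc (φ (Sum.inl A)) u (emb φ y w)) +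
        (∑ j : Fin 8, ∑ E, ∑ G, ((S.f (φ (Sum.inr C)) (φ (Sum.inr E)) (φ (Sum.inr G)) * w (j, E) : ℝ) : ℂ) •
          pd j.castSucc (φ (Sum.inr G)) u (emb φ y w)) +
        Complex.I • S.cS (φ (Sum.inr C)) (u (emb φ y w))) := by
      intro B
      rw [← Finset.sum_add_distrib]
      refine Finset.sum_congr rfl fun C _ => ?_
      rw [dec_R, smul_add]
    simp only [e4]
    have hv : ∀ (T : F →L[ℂ] F) (z : F), T ((r : ℂ) • z) = (r : ℂ) • T z := fun T z => map_smul _ _ _
    have sc : ∀ (c : ℂ) (z : F), c • ((r : ℂ) • z) = (r : ℂ) • (c • z) := fun c z => smul_comm _ _ _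
    have sa : ∀ a b : F, (r : ℂ) • a + (r : ℂ) • b = (r : ℂ) • (a + b) := fun a b => (smul_add _ _ _).symm
    have ss : ∀ {n : ℕ} (g : Fin n → F), (∑ k, (r : ℂ) • g k) = (r : ℂ) • ∑ k, g k := fun g => (Finset.smul_sum).symm
    simp only [hpy', hpw, hres, hv, sc, ss, sa]
    congr 1
    simp only [map_add, Finset.sum_add_distrib, smul_add]
    change _ = _ + (Complex.I / 2) • (∑ A, ((lJ S φ y 8 A : ℝ) : ℂ) • S.vec (S.g 8) (φ (Sum.inl A)) β (u (emb φ y w)))
    rw [show (∑ A, ((fderiv ℝ (fun y' => Real.log (S.Jd φ y')) y (EuclideanSpace.single ((8 : Fin 9), A) 1) : ℝ) : ℂ) •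
      S.vec (S.g 8) (φ (Sum.inl A)) β (u (emb φ y w))) = (∑ A, ((lJ S φ y 8 A : ℝ) : ℂ) • S.vec (S.g 8) (φ (Sum.inl A)) β (u (emb φ y w))) from rfl]
    abel
  rw [add_assoc, e3, e1, hresQ, Setup.Q, dec_W S hs y w β]
  have e5 : (∑ i, ∑ A, S.vec (S.g i) A β (pd i A u (emb φ y w))) =
      (∑ i, ∑ A, S.vec (S.g i) (φ (Sum.inl A)) β (pd i (φ (Sum.inl A)) u (emb φ y w))) +
      ((∑ j : Fin 8, ∑ B, S.vec (S.g j.castSucc) (φ (Sum.inr B)) β
        (pd j.castSucc (φ (Sum.inr B)) u (emb φ y w))) -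
        ∑ B, S.vec (S.g 8) (φ (Sum.inr B)) β
        (∑ C, (((S.Dy φ 8 y)⁻¹ B C : ℝ) : ℂ) • dec_R S φ u y w C)) := by
    have e6 : (∑ i, ∑ A, S.vec (S.g i) A β (pd i A u (emb φ y w))) =
        (∑ i, ∑ A, S.vec (S.g i) (φ (Sum.inl A)) β (pd i (φ (Sum.inl A)) u (emb φ y w))) +
        ∑ i, ∑ B, S.vec (S.g i) (φ (Sum.inr B)) β (pd i (φ (Sum.inr B)) u (emb φ y w)) := by
      rw [← Finset.sum_add_distrib]
      exact Finset.sum_congr rfl fun i _ => dec_sum φ _
    rw [e6]
    congr 1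
    rw [Fin.sum_univ_castSucc (n := 8), sub_eq_add_neg]
    congr 1
    have h8 : (Fin.last 8 : Fin 9) = 8 := rfl
    rw [h8, ← Finset.sum_neg_distrib]
    refine Finset.sum_congr rfl fun B _ => ?_
    rw [dec_pd8 S hs hG y w hdet B, map_neg]
  rw [e5]
  have e7 : (Complex.I / 2) • (∑ A, ((lJ S φ y 8 A : ℝ) : ℂ) • S.vec (S.g 8) (φ (Sum.inl A)) β ((r : ℂ) • u (emb φ y w))) =
      Complex.I • (∑ A, ((r / 2 * lJ S φ y 8 A : ℝ) : ℂ) • S.vec (S.g 8) (φ (Sum.inl A)) β (u (emb φ y w))) := by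
    simp only [Finset.smul_sum, map_smul, smul_smul]
    refine Finset.sum_congr rfl fun A _ => ?_
    congr 1
    push_cast
    ring
  rw [e7]
  simp only [smul_add, smul_sub, neg_smul, smul_neg]
  abel

end Vale.Agent.P353.Z.AN
end

section

/-! # P353, all `N`, block A2: every commuting tuple can be rotated into standard position -/

open MeasureTheory Filter Topology
open scoped ContDiff

namespace Vale.Agent.P353.Z.AN
namespace StdA

variable {d dh dm : ℕ} {F : Type*} [NormedAddCommGroup F] [InnerProductSpace ℂ F]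

/-- colour space -/
abbrev Ec (d : ℕ) : Type := EuclideanSpace ℝ (Fin d)

lemma inner_Ec (u v : Ec d) : inner ℝ u v = ∑ C, u C * v C := by
  rw [PiLp.inner_apply]
  exact Finset.sum_congr rfl fun C _ => by
    rw [RCLike.inner_apply, conj_trivial, mul_comm]

/-- trilinear form of the structure constants -/
noncomputable def tri (S : Setup d F) (u v w : Ec d) : ℝ := ∑ A, ∑ B, ∑ C, S.f A B C * u A * v B * w C

/-- `ad u` -/
noncomputable def ad (S : Setup d F) (u : Ec d) : Ec d →ₗ[ℝ] Ec d where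
  toFun v := WithLp.toLp 2 fun C => ∑ A, ∑ B, S.f A B C * u A * v B
  map_add' v w := by
    ext C
    simp [mul_add, Finset.sum_add_distrib]
  map_smul' c v := by
    ext C
    simp only [PiLp.smul_apply, smul_eq_mul, RingHom.id_apply, Finset.mul_sum]
    exact Finset.sum_congr rfl fun A _ => Finset.sum_congr rfl fun B _ => by ring

lemma ad_apply (S : Setup d F) (u v : Ec d) (C : Fin d) :
    ad S u v C = ∑ A, ∑ B, S.f A B C * u A * v B := rfl

lemma inner_ad (S : Setup d F) (u v w : Ec d) : inner ℝ (ad S u v) w = tri S u v w := by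
  rw [inner_Ec, tri]
  simp only [ad_apply, Finset.sum_mul]
  rw [Finset.sum_comm]
  refine Finset.sum_congr rfl fun A _ => ?_
  rw [Finset.sum_comm]

lemma tri_swap (S : Setup d F) (u v w : Ec d) : tri S u v w = - tri S v u w := by
  rw [tri, tri, Finset.sum_comm, ← Finset.sum_neg_distrib]
  refine Finset.sum_congr rfl fun B _ => ?_
  rw [← Finset.sum_neg_distrib]
  refine Finset.sum_congr rfl fun A _ => ?_
  rw [← Finset.sum_neg_distrib]
  refine Finset.sum_congr rfl fun C _ => ?_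
  rw [S.f_swap A B C]
  ring

lemma tri_cyc (S : Setup d F) (u v w : Ec d) : tri S u v w = tri S v w u := by
  rw [tri, tri, Finset.sum_comm]
  refine Finset.sum_congr rfl fun B _ => ?_
  rw [Finset.sum_comm]
  refine Finset.sum_congr rfl fun C _ => Finset.sum_congr rfl fun A _ => ?_
  rw [S.f_cyc A B C]
  ring

lemma inner_ad_skew (S : Setup d F) (u v w : Ec d) :
    inner ℝ (ad S u v) w = - inner ℝ v (ad S u w) := by
  rw [inner_ad, real_inner_comm, inner_ad, tri_swap S u v w, tri_cyc S v u w]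

lemma ad_swap (S : Setup d F) (u v : Ec d) : ad S u v = - ad S v u := by
  refine ext_inner_right ℝ fun w => ?_
  rw [inner_neg_left, inner_ad, inner_ad, tri_swap]

lemma tri_add_left (S : Setup d F) (u u' v w : Ec d) : tri S (u + u') v w = tri S u v w + tri S u' v w := by
  simp only [tri, ← Finset.sum_add_distrib]
  refine Finset.sum_congr rfl fun A _ => Finset.sum_congr rfl fun B _ => Finset.sum_congr rfl fun C _ => ?_
  rw [PiLp.add_apply]
  ring

lemma tri_smul_left (S : Setup d F) (c : ℝ) (u v w : Ec d) : tri S (c • u) v w = c * tri S u v w := by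
  simp only [tri, Finset.mul_sum]
  refine Finset.sum_congr rfl fun A _ => Finset.sum_congr rfl fun B _ => Finset.sum_congr rfl fun C _ => ?_
  rw [PiLp.smul_apply, smul_eq_mul]
  ring

lemma ad_add (S : Setup d F) (u u' : Ec d) : ad S (u + u') = ad S u + ad S u' := by
  refine LinearMap.ext fun v => ext_inner_right ℝ fun w => ?_
  rw [LinearMap.add_apply, inner_add_left, inner_ad, inner_ad, inner_ad, tri_add_left]

lemma ad_smul (S : Setup d F) (c : ℝ) (u : Ec d) : ad S (c • u) = c • ad S u := by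
  refine LinearMap.ext fun v => ext_inner_right ℝ fun w => ?_
  rw [LinearMap.smul_apply, inner_smul_left, inner_ad, inner_ad, tri_smul_left]
  simp

/-- Jacobi -/
lemma ad_jac (S : Setup d F) (u v w : Ec d) :
    ad S (ad S u v) w + ad S (ad S v w) u + ad S (ad S w u) v = 0 := by
  have key : ∀ (a b c : Ec d) (D : Fin d), ad S (ad S a b) c D =
      ∑ A, ∑ B, ∑ C, a A * b B * c C * ∑ E, S.f A B E * S.f E C D := by
    intro a b c D
    rw [ad_apply]
    have h1 : ∀ E C, S.f E C D * ad S a b E * c C =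
        ∑ A, ∑ B, a A * b B * c C * (S.f A B E * S.f E C D) := by
      intro E C
      rw [ad_apply, Finset.mul_sum, Finset.sum_mul]
      refine Finset.sum_congr rfl fun A _ => ?_
      rw [Finset.mul_sum, Finset.sum_mul]
      exact Finset.sum_congr rfl fun B _ => by ring
    simp only [h1, Finset.mul_sum]
    rw [Finset.sum_comm]
    simp only [Finset.sum_comm (s := (Finset.univ : Finset (Fin d))) (t := Finset.univ)
      (f := fun (E : Fin d) (A : Fin d) => ∑ B, a A * b B * c _ * (S.f A B E * S.f E _ D))]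
    rw [Finset.sum_comm]
    refine Finset.sum_congr rfl fun A _ => ?_
    simp only [Finset.sum_comm (s := (Finset.univ : Finset (Fin d))) (t := Finset.univ)
      (f := fun (E : Fin d) (B : Fin d) => a A * b B * c _ * (S.f A B E * S.f E _ D))]
    rw [Finset.sum_comm]
  ext D
  rw [PiLp.add_apply, PiLp.add_apply, key, key, key]
  have e2 : (∑ A, ∑ B, ∑ C, v A * w B * u C * ∑ E, S.f A B E * S.f E C D) =
      ∑ A, ∑ B, ∑ C, u A * v B * w C * ∑ E, S.f B C E * S.f E A D := by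
    rw [Finset.sum_comm_cycle]
    refine Finset.sum_congr rfl fun A _ => Finset.sum_congr rfl fun B _ => Finset.sum_congr rfl fun C _ => ?_
    ring
  have e3 : (∑ A, ∑ B, ∑ C, w A * u B * v C * ∑ E, S.f A B E * S.f E C D) =
      ∑ A, ∑ B, ∑ C, u A * v B * w C * ∑ E, S.f C A E * S.f E B D := by
    rw [Finset.sum_comm]
    refine Finset.sum_congr rfl fun A _ => ?_
    rw [Finset.sum_comm]
    refine Finset.sum_congr rfl fun B _ => Finset.sum_congr rfl fun C _ => ?_
    ring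
  rw [e2, e3, ← Finset.sum_add_distrib, ← Finset.sum_add_distrib]
  refine Finset.sum_eq_zero fun A _ => ?_
  rw [← Finset.sum_add_distrib, ← Finset.sum_add_distrib]
  refine Finset.sum_eq_zero fun B _ => ?_
  rw [← Finset.sum_add_distrib, ← Finset.sum_add_distrib]
  refine Finset.sum_eq_zero fun C _ => ?_
  rw [← mul_add, ← mul_add, ← Finset.sum_add_distrib, ← Finset.sum_add_distrib, S.f_jac A B C D, mul_zero]

lemma ad_comm (S : Setup d F) {u w : Ec d} (h : ad S u w = 0) (v : Ec d) :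
    ad S u (ad S w v) = ad S w (ad S u v) := by
  have h1 := ad_jac S u w v
  have h0 : ad S (0 : Ec d) v = 0 := by
    have := ad_smul S 0 (0 : Ec d)
    rw [zero_smul, zero_smul] at this
    rw [this]; rfl
  rw [h, h0, ad_swap S (ad S w v) u, ad_swap S (ad S v u) w, ad_swap S v u, map_neg, neg_neg, zero_add] at h1
  exact (neg_add_eq_zero.1 h1)

/-- two commuting skew operators: the kernel of a generic combination is the joint kernel -/
lemma exists_ker (A B : Ec d →ₗ[ℝ] Ec d) (hA : ∀ v w, inner ℝ (A v) w = - inner ℝ v (A w))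
    (hB : ∀ v w, inner ℝ (B v) w = - inner ℝ v (B w)) (hAB : ∀ v, A (B v) = B (A v)) :
    ∃ t : ℝ, ∀ v, A v + t • B v = 0 → A v = 0 ∧ B v = 0 := by
  set K := LinearMap.ker A with hKdef
  have hinj : LinearMap.ker (A.domRestrict Kᗮ) = ⊥ := by
    rw [LinearMap.ker_eq_bot']
    rintro ⟨u, hu⟩ h0
    have h1 : u ∈ K := by
      rw [hKdef, LinearMap.mem_ker]
      exact h0
    have h2 : inner ℝ u u = 0 := hu u h1
    exact Subtype.ext (inner_self_eq_zero.1 h2)
  obtain ⟨c, hc0, hc⟩ := LinearMap.exists_antilipschitzWith (A.domRestrict Kᗮ) hinj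
  have hc' : ∀ u ∈ Kᗮ, ‖u‖ ≤ c * ‖A u‖ := by
    intro u hu
    have := hc.le_mul_dist (⟨u, hu⟩ : Kᗮ) 0
    rw [map_zero, dist_zero_right, dist_zero_right] at this
    exact this
  set Bc : Ec d →L[ℝ] Ec d := LinearMap.toContinuousLinearMap B with hBc
  have hBn : ∀ u, ‖B u‖ ≤ ‖Bc‖ * ‖u‖ := fun u => Bc.le_opNorm u
  have hpos : 0 < (c : ℝ) * ‖Bc‖ + 1 := by positivity
  refine ⟨((c : ℝ) * ‖Bc‖ + 1)⁻¹, fun v hv => ?_⟩
  set t := ((c : ℝ) * ‖Bc‖ + 1)⁻¹ with ht
  have ht0 : 0 < t := inv_pos.2 hpos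
  obtain ⟨k, hk, u, hu, rfl⟩ := K.exists_add_mem_mem_orthogonal v
  have hAk : A k = 0 := by rwa [hKdef, LinearMap.mem_ker] at hk
  have hBk : B k ∈ K := by
    rw [hKdef, LinearMap.mem_ker, hAB, hAk, map_zero]
  have hw : A u + t • B u ∈ Kᗮ := by
    intro k' hk'
    have hAk' : A k' = 0 := by rwa [hKdef, LinearMap.mem_ker] at hk'
    have hBk' : B k' ∈ K := by
      rw [hKdef, LinearMap.mem_ker, hAB, hAk', map_zero]
    have h1 : inner ℝ (A k') u = - inner ℝ k' (A u) := hA k' u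
    have h2 : inner ℝ (B k') u = - inner ℝ k' (B u) := hB k' u
    rw [hAk', inner_zero_left] at h1
    rw [hu _ hBk'] at h2
    rw [inner_add_right, inner_smul_right]
    linarith [mul_comm t (inner ℝ k' (B u)), show t * inner ℝ k' (B u) = 0 by
      rw [show inner ℝ k' (B u) = 0 by linarith, mul_zero]]
  have hsum : t • B k + (A u + t • B u) = 0 := by
    rw [map_add, map_add, hAk, zero_add, smul_add] at hv
    rw [← hv]; abel
  have h3 : t • B k = 0 := by
    have h4 : t • B k = -(A u + t • B u) := eq_neg_of_add_eq_zero_left hsum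
    have h5 : t • B k ∈ K := K.smul_mem t hBk
    have h6 : t • B k ∈ Kᗮ := by rw [h4]; exact Kᗮ.neg_mem hw
    exact inner_self_eq_zero.1 (h6 _ h5)
  have h7 : B k = 0 := (smul_eq_zero.1 h3).resolve_left ht0.ne'
  have h8 : A u + t • B u = 0 := by rwa [h3, zero_add] at hsum
  have h9 : u = 0 := by
    have h10 : A u = - (t • B u) := eq_neg_of_add_eq_zero_left h8
    have h11 : ‖u‖ ≤ c * (t * (‖Bc‖ * ‖u‖)) := by
      refine (hc' u hu).trans ?_
      rw [h10, norm_neg, norm_smul, Real.norm_of_nonneg ht0.le]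
      gcongr
      exact hBn u
    have h12 : (c : ℝ) * (t * (‖Bc‖ * ‖u‖)) = (((c : ℝ) * ‖Bc‖) * t) * ‖u‖ := by ring
    have h13 : ((c : ℝ) * ‖Bc‖) * t = 1 - t := by
      rw [ht]; field_simp; ring
    rw [h12, h13] at h11
    have : t * ‖u‖ ≤ 0 := by nlinarith
    have h14 : ‖u‖ ≤ 0 := by
      by_contra hcon
      nlinarith [mul_pos ht0 (not_le.1 hcon)]
    exact norm_le_zero_iff.1 h14
  subst h9
  simp [hAk, h7]

/-- linear combination of the components -/
noncomputable def comb (Y : Fin 9 → Ec d) (e : Fin 9 → ℝ) : Ec d := ∑ j, e j • Y j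

lemma ad_comb (S : Setup d F) (Y : Fin 9 → Ec d) (e : Fin 9 → ℝ) (v : Ec d) :
    ad S (comb Y e) v = ∑ j, e j • ad S (Y j) v := by
  have h : ∀ s : Finset (Fin 9), ad S (∑ j ∈ s, e j • Y j) v = ∑ j ∈ s, e j • ad S (Y j) v := by
    intro s
    induction s using Finset.induction_on with
    | empty =>
      have := ad_smul S 0 (0 : Ec d)
      rw [zero_smul, zero_smul] at this
      rw [Finset.sum_empty, Finset.sum_empty, this]; rfl
    | insert a s ha ih =>
      rw [Finset.sum_insert ha, Finset.sum_insert ha, ad_add, LinearMap.add_apply, ih, ad_smul,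
        LinearMap.smul_apply]
  exact h _

lemma exists_comb (S : Setup d F) (Y : Fin 9 → Ec d) (hY : ∀ i j, ad S (Y i) (Y j) = 0) (s : Finset (Fin 9)) :
    ∃ e : Fin 9 → ℝ, ∀ v, ad S (comb Y e) v = 0 → ∀ i ∈ s, ad S (Y i) v = 0 := by
  induction s using Finset.induction_on with
  | empty => exact ⟨0, fun v _ i hi => by simp at hi⟩
  | insert a s ha ih =>
    obtain ⟨e, he⟩ := ih
    have hc : ∀ v, ad S (comb Y e) (ad S (Y a) v) = ad S (Y a) (ad S (comb Y e) v) := by
      intro v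
      refine ad_comm S ?_ v
      rw [ad_comb]
      exact Finset.sum_eq_zero fun j _ => by rw [hY, smul_zero]
    obtain ⟨t, ht⟩ := exists_ker (ad S (comb Y e)) (ad S (Y a)) (inner_ad_skew S _) (inner_ad_skew S _) hc
    refine ⟨e + Pi.single a t, fun v hv => ?_⟩
    have h1 : ad S (comb Y (e + Pi.single a t)) v = ad S (comb Y e) v + t • ad S (Y a) v := by
      rw [ad_comb, ad_comb]
      simp only [Pi.add_apply, add_smul, Finset.sum_add_distrib]
      congr 1
      rw [Finset.sum_eq_single a]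
      · simp
      · intro b _ hb
        simp [hb]
      · simp
    rw [h1] at hv
    obtain ⟨h2, h3⟩ := ht v hv
    intro i hi
    rcases Finset.mem_insert.1 hi with rfl | hi
    · exact h3
    · exact he v h2 i hi

lemma exists_unit (S : Setup d F) (Y : Fin 9 → Ec d) (hY : ∀ i j, ad S (Y i) (Y j) = 0) :
    ∃ e : EuclideanSpace ℝ (Fin 9), ‖e‖ = 1 ∧ ∀ v, ad S (comb Y e) v = 0 → ∀ i, ad S (Y i) v = 0 := by
  obtain ⟨e, he⟩ := exists_comb S Y hY Finset.univ
  have he' : ∀ v, ad S (comb Y e) v = 0 → ∀ i, ad S (Y i) v = 0 := fun v hv i => he v hv i (Finset.mem_univ i)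
  by_cases h0 : e = 0
  · refine ⟨EuclideanSpace.single 0 1, by simp, fun v _ i => he' v ?_ i⟩
    rw [ad_comb, h0]
    simp
  · set E : EuclideanSpace ℝ (Fin 9) := WithLp.toLp 2 e with hE
    have hE0 : E ≠ 0 := by
      intro h
      apply h0
      funext i
      have := congrArg (fun z : EuclideanSpace ℝ (Fin 9) => z i) h
      simpa [hE] using this
    have hn : ‖E‖ ≠ 0 := norm_ne_zero_iff.2 hE0
    refine ⟨‖E‖⁻¹ • E, by rw [norm_smul, norm_inv, norm_norm, inv_mul_cancel₀ hn], fun v hv i => he' v ?_ i⟩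
    rw [ad_comb] at hv ⊢
    have h2 : ∑ j, (‖E‖⁻¹ • E) j • ad S (Y j) v = ‖E‖⁻¹ • ∑ j, e j • ad S (Y j) v := by
      rw [Finset.smul_sum]
      exact Finset.sum_congr rfl fun j _ => by rw [PiLp.smul_apply, smul_eq_mul, mul_smul]
    rw [h2] at hv
    exact (smul_eq_zero.1 hv).resolve_left (inv_ne_zero hn)

/-- orthogonal matrix with prescribed last row -/
lemma exists_rot (e : EuclideanSpace ℝ (Fin 9)) (he : ‖e‖ = 1) :
    ∃ R : Matrix (Fin 9) (Fin 9) ℝ, R * R.transpose = 1 ∧ ∀ j, R 8 j = e j := by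
  have h1 : Orthonormal ℝ (({8} : Set (Fin 9)).domRestrict (fun _ => e)) := by
    constructor
    · intro i; exact he
    · intro i j hij
      exact absurd (Subsingleton.elim i j) hij
  obtain ⟨b, hb⟩ := Orthonormal.exists_orthonormalBasis_extension_of_card_eq
    (by rw [finrank_euclideanSpace_fin, Fintype.card_fin]) h1
  refine ⟨Matrix.of fun i j => b i j, ?_, fun j => ?_⟩
  · ext i k
    rw [Matrix.mul_apply]
    have h2 := (orthonormal_iff_ite.1 b.orthonormal) i k
    rw [PiLp.inner_apply] at h2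
    rw [Matrix.one_apply, ← h2]
    refine Finset.sum_congr rfl fun j _ => ?_
    rw [RCLike.inner_apply, conj_trivial, Matrix.transpose_apply, Matrix.of_apply, Matrix.of_apply, mul_comm]
  · rw [Matrix.of_apply, hb 8 rfl]

lemma tri_sum_left (S : Setup d F) {ι : Type*} (s : Finset ι) (c : ι → ℝ) (u : ι → Ec d) (v w : Ec d) :
    tri S (∑ i ∈ s, c i • u i) v w = ∑ i ∈ s, c i * tri S (u i) v w := by
  classical
  induction s using Finset.induction_on with
  | empty => simp [tri]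
  | insert a s ha ih =>
    rw [Finset.sum_insert ha, Finset.sum_insert ha, tri_add_left, tri_smul_left, ih]

end StdA

open StdA in
/-- **A2** -/
theorem std {d : ℕ} {F : Type*} [NormedAddCommGroup F] [InnerProductSpace ℂ F] (S : Setup d F) : StdStmt S := by
  intro Y hV
  set Yv : Fin 9 → Ec d := fun i => WithLp.toLp 2 fun A => Y (i, A) with hYv
  have hYva : ∀ i A, Yv i A = Y (i, A) := fun i A => rfl
  -- the components commute
  have hcomm : ∀ i j, ad S (Yv i) (Yv j) = 0 := by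
    intro i j
    have h0 : ∑ A, ∑ i, ∑ j, (S.FF A i j Y) ^ 2 = 0 := by
      have : (1 / 4 : ℝ) * ∑ A, ∑ i, ∑ j, (S.FF A i j Y) ^ 2 = 0 := hV
      linarith
    have h1 := (Finset.sum_eq_zero_iff_of_nonneg (fun A _ =>
      Finset.sum_nonneg fun i _ => Finset.sum_nonneg fun j _ => sq_nonneg _)).1 h0
    ext C
    have h2 := (Finset.sum_eq_zero_iff_of_nonneg (fun i _ =>
      Finset.sum_nonneg fun j _ => sq_nonneg _)).1 (h1 C (Finset.mem_univ C))
    have h3 := (Finset.sum_eq_zero_iff_of_nonneg (fun j _ => sq_nonneg _)).1 (h2 i (Finset.mem_univ i))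
    have h4 : S.FF C i j Y = 0 := pow_eq_zero_iff (two_ne_zero) |>.1 (h3 j (Finset.mem_univ j))
    have h5 : ∑ A, ∑ B, S.f C A B * Y (i, A) * Y (j, B) = 0 :=
      (mul_eq_zero.1 h4).resolve_left S.κ_pos.ne'
    rw [ad_apply]
    simp only [hYva]
    rw [PiLp.zero_apply, ← h5]
    exact Finset.sum_congr rfl fun A _ => Finset.sum_congr rfl fun B _ => by rw [S.f_cyc C A B]
  obtain ⟨e, he1, he⟩ := exists_unit S Yv hcomm
  obtain ⟨R, hR, hR8⟩ := exists_rot e he1
  -- centraliser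
  set h : Submodule ℝ (Ec d) := ⨅ i, LinearMap.ker (ad S (Yv i)) with hh
  have hmem : ∀ v, v ∈ h ↔ ∀ i, ad S (Yv i) v = 0 := by
    intro v
    rw [hh, Submodule.mem_iInf]
    exact Iff.rfl
  have hYh : ∀ j, Yv j ∈ h := fun j => (hmem _).2 fun i => hcomm i j
  have hbr : ∀ u ∈ h, ∀ v ∈ h, ad S u v ∈ h := by
    intro u hu v hv
    rw [hmem] at hu hv ⊢
    intro i
    have h1 : ad S u (Yv i) = 0 := by rw [ad_swap, hu i, neg_zero]
    rw [← ad_comm S h1, hv i, map_zero]
  set dh := Module.finrank ℝ h with hdh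
  set dm := Module.finrank ℝ hᗮ with hdm
  have hd : dh + dm = d := by
    have := h.finrank_add_finrank_orthogonal
    rwa [finrank_euclideanSpace_fin] at this
  set bh : OrthonormalBasis (Fin dh) ℝ h := stdOrthonormalBasis ℝ h with hbh
  set bm : OrthonormalBasis (Fin dm) ℝ hᗮ := stdOrthonormalBasis ℝ hᗮ with hbm
  set v : Fin dh ⊕ Fin dm → Ec d := Sum.elim (fun a => (bh a : Ec d)) (fun b => (bm b : Ec d)) with hv
  have hvl : ∀ a, v (Sum.inl a) = (bh a : Ec d) := fun a => rfl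
  have hvr : ∀ b, v (Sum.inr b) = (bm b : Ec d) := fun b => rfl
  have hvh : ∀ a, v (Sum.inl a) ∈ h := fun a => (bh a).2
  have hvm : ∀ b, v (Sum.inr b) ∈ hᗮ := fun b => (bm b).2
  have hort : ∀ p q, inner ℝ (v p) (v q) = if p = q then (1 : ℝ) else 0 := by
    rintro (a | b) (a' | b')
    · rw [hvl, hvl]
      have := (orthonormal_iff_ite.1 bh.orthonormal) a a'
      rw [Submodule.coe_inner] at this
      rw [this]
      simp only [Sum.inl.injEq]
    · rw [hvm b' _ (hvh a)]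
      simp
    · rw [real_inner_comm, hvm b _ (hvh a')]
      simp
    · rw [hvr, hvr]
      have := (orthonormal_iff_ite.1 bm.orthonormal) b b'
      rw [Submodule.coe_inner] at this
      rw [this]
      simp only [Sum.inr.injEq]
  set φ : Spl dh dm d := finSumFinEquiv.trans (finCongr hd) with hφ
  set O : Matrix (Fin d) (Fin d) ℝ := Matrix.of fun A A' => v (φ.symm A) A' with hO
  have hOO : O * O.transpose = 1 := by
    ext A B
    rw [Matrix.mul_apply, Matrix.one_apply]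
    have h1 := hort (φ.symm A) (φ.symm B)
    rw [inner_Ec] at h1
    simp only [EmbeddingLike.apply_eq_iff_eq] at h1
    rw [← h1]
    rfl
  -- rotated components
  set Yr : Fin 9 → Ec d := fun i => ∑ j, R i j • Yv j with hYr
  have hYrh : ∀ i, Yr i ∈ h := fun i => h.sum_mem fun j _ => h.smul_mem _ (hYh j)
  have hYr8 : Yr 8 = comb Yv e := by
    rw [hYr, comb]
    exact Finset.sum_congr rfl fun j _ => by rw [hR8]
  have hrox : ∀ i A, rox R O Y (i, A) = inner ℝ (v (φ.symm A)) (Yr i) := by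
    intro i A
    have h1 : rox R O Y (i, A) = ∑ j, ∑ B, R i j * O A B * Y (j, B) := rfl
    rw [h1, inner_Ec, Finset.sum_comm]
    refine Finset.sum_congr rfl fun B _ => ?_
    have h2 : Yr i B = ∑ j, R i j * Y (j, B) := by
      rw [hYr]
      simp [hYva]
    rw [h2, Finset.mul_sum]
    refine Finset.sum_congr rfl fun j _ => ?_
    rw [hO, Matrix.of_apply]
    ring
  have hf : ∀ a b c, (S.rot R hR O hOO).f (φ a) (φ b) (φ c) = tri S (v a) (v b) (v c) := by
    intro a b c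
    have h1 : (S.rot R hR O hOO).f (φ a) (φ b) (φ c) =
      ∑ A', ∑ B', ∑ C', O (φ a) A' * O (φ b) B' * O (φ c) C' * S.f A' B' C' := rfl
    rw [h1, tri]
    refine Finset.sum_congr rfl fun A _ => Finset.sum_congr rfl fun B _ => Finset.sum_congr rfl fun C _ => ?_
    rw [hO]
    simp only [Matrix.of_apply, Equiv.symm_apply_apply]
    ring
  set y : Cfg dh := WithLp.toLp 2 fun p => inner ℝ (v (Sum.inl p.2)) (Yr p.1) with hy
  have hya : ∀ i a, y (i, a) = inner ℝ (v (Sum.inl a)) (Yr i) := fun i a => rfl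
  have hexp : ∀ i, ∑ a, y (i, a) • v (Sum.inl a) = Yr i := by
    intro i
    have h1 := bh.sum_repr' (⟨Yr i, hYrh i⟩ : h)
    have h2 := congrArg (Subtype.val) h1
    rw [Submodule.coe_sum] at h2
    refine Eq.trans ?_ h2
    refine Finset.sum_congr rfl fun a _ => ?_
    rw [hya, hvl, Submodule.coe_smul, Submodule.coe_inner]
  have htri0 : ∀ i, ∀ u ∈ h, ∀ w, tri S (Yr i) u w = 0 := by
    intro i u hu w
    rw [hYr]
    simp only
    rw [tri_sum_left]
    refine Finset.sum_eq_zero fun j _ => ?_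
    rw [← inner_ad, (hmem u).1 hu j, inner_zero_left, mul_zero]
  refine ⟨R, hR, O, hOO, dh, dm, φ, y, ⟨?_, ?_, ?_⟩, ?_, ?_⟩
  · intro A B C
    rw [hf, ← inner_ad]
    exact hvm C _ (hbr _ (hvh A) _ (hvh B))
  · intro i B C
    simp only [hf]
    have h1 := tri_sum_left S Finset.univ (fun a => y (i, a)) (fun a => v (Sum.inl a)) (v (Sum.inl B)) (v (Sum.inl C))
    rw [hexp, htri0 i _ (hvh B)] at h1
    rw [h1]
    exact Finset.sum_congr rfl fun a _ => by rw [mul_comm]
  · intro hdet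
    obtain ⟨z, hz0, hz⟩ := Matrix.exists_vecMul_eq_zero_iff.2 hdet
    apply hz0
    have hDy : ∀ B C, (S.rot R hR O hOO).Dy φ 8 y B C = - inner ℝ (ad S (Yr 8) (v (Sum.inr B))) (v (Sum.inr C)) := by
      intro B C
      have h1 : (S.rot R hR O hOO).Dy φ 8 y B C =
        ∑ A, (S.rot R hR O hOO).f (φ (Sum.inr B)) (φ (Sum.inl A)) (φ (Sum.inr C)) * y (8, A) := rfl
      rw [h1, inner_ad]
      simp only [hf]
      have h2 := tri_sum_left S Finset.univ (fun a => y (8, a)) (fun a => v (Sum.inl a)) (v (Sum.inr B)) (v (Sum.inr C))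
      rw [hexp] at h2
      rw [h2, ← Finset.sum_neg_distrib]
      exact Finset.sum_congr rfl fun a _ => by rw [tri_swap S (v (Sum.inr B))]; ring
    set Z : Ec d := ∑ B, z B • v (Sum.inr B) with hZ
    have hZm : Z ∈ hᗮ := hᗮ.sum_mem fun B _ => hᗮ.smul_mem _ (hvm B)
    have h3 : ∀ C, inner ℝ (ad S (Yr 8) Z) (v (Sum.inr C)) = 0 := by
      intro C
      have h4 := congrFun hz C
      rw [Matrix.vecMul, dotProduct, Pi.zero_apply] at h4
      simp only [hDy] at h4
      rw [hZ, map_sum, sum_inner]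
      simp only [map_smul, inner_smul_left, conj_trivial]
      have : ∑ B, z B * -inner ℝ (ad S (Yr 8) (v (Sum.inr B))) (v (Sum.inr C)) =
        - ∑ B, z B * inner ℝ (ad S (Yr 8) (v (Sum.inr B))) (v (Sum.inr C)) := by
        rw [← Finset.sum_neg_distrib]
        exact Finset.sum_congr rfl fun B _ => by ring
      rw [this] at h4
      linarith
    have h5 : ad S (Yr 8) Z ∈ hᗮ := by
      intro k hk
      have h6 := inner_ad_skew S (Yr 8) k Z
      rw [inner_ad, htri0 8 k hk] at h6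
      linarith
    have h6 : ad S (Yr 8) Z = 0 := by
      have h7 := bm.sum_repr' (⟨ad S (Yr 8) Z, h5⟩ : hᗮ)
      have h8 := congrArg (Subtype.val) h7
      rw [Submodule.coe_sum] at h8
      refine Eq.trans h8.symm ?_
      refine Finset.sum_eq_zero fun a _ => ?_
      rw [Submodule.coe_smul, Submodule.coe_inner, ← hvr, real_inner_comm, h3, zero_smul]
    rw [hYr8] at h6
    have h7 : Z ∈ h := (hmem Z).2 (he Z h6)
    have h8 : Z = 0 := inner_self_eq_zero.1 (hZm Z h7)
    funext B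
    have h9 : inner ℝ (v (Sum.inr B)) Z = z B := by
      rw [hZ, inner_sum]
      simp only [inner_smul_right, hort]
      simp
    rw [← h9, h8, inner_zero_right, Pi.zero_apply]
  · ext p
    obtain ⟨i, A⟩ := p
    rw [hrox]
    obtain ⟨q, rfl⟩ := φ.surjective A
    rw [Equiv.symm_apply_apply]
    rcases q with a | b
    · simp [emb, hya]
    · rw [real_inner_comm, hvm b _ (hYrh i)]
      simp only [emb, Equiv.symm_apply_apply, Sum.elim_inr]
      induction i using Fin.lastCases with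
      | last => rw [Fin.lastCases_last]
      | cast j => rw [Fin.lastCases_castSucc]; rfl
  · intro h0 i B C
    have h1 : h = ⊤ := by
      have h2 : hᗮ = ⊥ := Submodule.finrank_eq_zero.1 (hdm ▸ h0)
      rwa [Submodule.orthogonal_eq_bot_iff] at h2
    have h2 : EuclideanSpace.single B (1 : ℝ) ∈ h := by rw [h1]; exact Submodule.mem_top
    have h3 := (hmem _).1 h2 i
    have h4 := congrArg (fun z : Ec d => z C) h3
    simp only [ad_apply, PiLp.zero_apply] at h4
    rw [← h4]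
    refine Finset.sum_congr rfl fun A _ => ?_
    rw [Finset.sum_eq_single B]
    · simp [hYva]
    · intro B' _ hB'
      simp [hB']
    · simp

theorem std_stmt {d : ℕ} {F : Type*} [NormedAddCommGroup F] [InnerProductSpace ℂ F]
    (S : Setup d F) : StdStmt S := std S

end Vale.Agent.P353.Z.AN
end

section

/-! # P353, all `N`, block C: parity `w ↦ -w` -/

open MeasureTheory Filter Topology
open scoped ContDiff

namespace Vale.Agent.P353.Z.AN

namespace ParW

variable {d dh dm : ℕ} {F : Type*} [NormedAddCommGroup F] [InnerProductSpace ℂ F]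

lemma wt_neg (w : Wsp dm) (i : Fin 9) (B : Fin dm) : wt (-w) i B = -wt w i B := by
  unfold wt
  refine Fin.lastCases ?_ (fun j => ?_) i
  · rw [Fin.lastCases_last, Fin.lastCases_last, neg_zero]
  · simp

lemma FL_neg (S : Setup d F) (φ : Spl dh dm d) (B : Fin dm) (i j : Fin 9) (y : Cfg dh) (w : Wsp dm) :
    S.FL φ B i j y (-w) = -S.FL φ B i j y w := by
  unfold Setup.FL
  simp only [wt_neg, mul_neg, Finset.sum_neg_distrib]
  ring

lemma Q1_rf (hA : CalcA dh dm F) (S : Setup d F) (φ : Spl dh dm d) (β : Fin 16) (v : Cfg dh → Wsp dm → F)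
    (hv : Tst2 v) (y : Cfg dh) (w : Wsp dm) :
    S.Q1 φ β (fun y w => v y (-w)) y w = -S.Q1 φ β v y (-w) := by
  unfold Setup.Q1
  simp only [hA.pw_neg _ _ v hv, FL_neg, map_neg, smul_neg, Finset.sum_neg_distrib, Complex.ofReal_neg, neg_smul,
    neg_neg, neg_add_rev]
  abel

lemma Qhm_rf (hA : CalcA dh dm F) (S : Setup d F) (φ : Spl dh dm d) (N : Fin 9 → Matrix (Fin 16) (Fin 16) ℂ)
    (m : ℝ) (β : Fin 16) (v : Cfg dh → Wsp dm → F) (y : Cfg dh) (w : Wsp dm) :
    S.Qhm φ N m β (fun y w => v y (-w)) y w = S.Qhm φ N m β v y (-w) := by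
  unfold Setup.Qhm Setup.Qh
  simp only [hA.py_neg]

lemma Q1_add (hA : CalcA dh dm F) (S : Setup d F) (φ : Spl dh dm d) (β : Fin 16) (u v : Cfg dh → Wsp dm → F)
    (hu : Tst2 u) (hv : Tst2 v) (y : Cfg dh) (w : Wsp dm) :
    S.Q1 φ β (fun y w => u y w + v y w) y w = S.Q1 φ β u y w + S.Q1 φ β v y w := by
  unfold Setup.Q1
  simp only [hA.pw_add _ _ u v hu hv, map_add, smul_add, Finset.sum_add_distrib]
  abel

lemma Qhm_add (hA : CalcA dh dm F) (S : Setup d F) (φ : Spl dh dm d) (N : Fin 9 → Matrix (Fin 16) (Fin 16) ℂ)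
    (m : ℝ) (β : Fin 16) (u v : Cfg dh → Wsp dm → F)
    (hu : Tst2 u) (hv : Tst2 v) (y : Cfg dh) (w : Wsp dm) :
    S.Qhm φ N m β (fun y w => u y w + v y w) y w = S.Qhm φ N m β u y w + S.Qhm φ N m β v y w := by
  unfold Setup.Qhm Setup.Qh
  simp only [hA.py_add _ _ u v hu hv, map_add, smul_add, Finset.sum_add_distrib]
  abel

lemma Q1_smul (hA : CalcA dh dm F) (S : Setup d F) (φ : Spl dh dm d) (β : Fin 16) (c : ℂ) (v : Cfg dh → Wsp dm → F)
    (hv : Tst2 v) (y : Cfg dh) (w : Wsp dm) :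
    S.Q1 φ β (fun y w => c • v y w) y w = c • S.Q1 φ β v y w := by
  unfold Setup.Q1
  simp only [hA.pw_smul _ _ c v hv, map_smul, smul_add, Finset.smul_sum]
  congr 1
  · congr 1
    · refine Finset.sum_congr rfl fun _ _ => Finset.sum_congr rfl fun _ _ => ?_
      rw [smul_comm]
    · refine Finset.sum_congr rfl fun _ _ => ?_
      simp only [map_sum, map_smul, Finset.smul_sum]
      refine Finset.sum_congr rfl fun _ _ => Finset.sum_congr rfl fun _ _ => Finset.sum_congr rfl fun _ _ => ?_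
      simp only [smul_smul]
      congr 1
      ring
  · refine Finset.sum_congr rfl fun _ _ => Finset.sum_congr rfl fun _ _ => Finset.sum_congr rfl fun _ _ => ?_
    simp only [smul_smul]
    congr 1
    ring

lemma Qhm_smul (hA : CalcA dh dm F) (S : Setup d F) (φ : Spl dh dm d) (N : Fin 9 → Matrix (Fin 16) (Fin 16) ℂ)
    (m : ℝ) (β : Fin 16) (c : ℂ) (v : Cfg dh → Wsp dm → F)
    (hv : Tst2 v) (y : Cfg dh) (w : Wsp dm) :
    S.Qhm φ N m β (fun y w => c • v y w) y w = c • S.Qhm φ N m β v y w := by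
  unfold Setup.Qhm Setup.Qh
  simp only [hA.py_smul _ _ c v hv, map_smul, smul_add, Finset.smul_sum]
  congr 1
  · congr 1
    · refine Finset.sum_congr rfl fun _ _ => Finset.sum_congr rfl fun _ _ => ?_
      rw [smul_comm]
    · refine Finset.sum_congr rfl fun _ _ => Finset.sum_congr rfl fun _ _ => Finset.sum_congr rfl fun _ _ => ?_
      simp only [smul_smul]
      congr 1
      ring
  · rw [smul_comm]

/-- opposite parities are orthogonal -/
lemma orth (hB : CalcB dh dm F) (a b : Cfg dh → Wsp dm → F)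
    (ha : ∀ y w, a y (-w) = a y w) (hb : ∀ y w, b y (-w) = -b y w) : ip2 a b = 0 := by
  have h := hB.refl a b
  have e1 : (fun y w => a y (-w)) = a := by
    funext y w
    exact ha y w
  have e2 : (fun y w => b y (-w)) = fun y w => (-1 : ℂ) • b y w := by
    funext y w
    rw [hb, neg_one_smul]
  rw [e1, e2, hB.ip_smul] at h
  have h2 : (2 : ℂ) * ip2 a b = 0 := by linear_combination -h
  simpa using h2

lemma orth' (hB : CalcB dh dm F) (a b : Cfg dh → Wsp dm → F)
    (ha : ∀ y w, a y (-w) = -a y w) (hb : ∀ y w, b y (-w) = b y w) : ip2 a b = 0 := by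
  rw [hB.conj, orth hB b a hb ha, map_zero]

lemma ns_split (hB : CalcB dh dm F) (a b : Cfg dh → Wsp dm → F) (h1 : Tst2 a) (h2 : Tst2 b) (h : ip2 a b = 0) :
    ns2 (fun y w => a y w + b y w) = ns2 a + ns2 b := by
  rw [hB.ns_add a b h1 h2, h]
  simp

end ParW

open ParW in
variable {d dh dm : ℕ} {F : Type*} [NormedAddCommGroup F] [InnerProductSpace ℂ F] in
/-- **C-Par** -/
theorem par_stmt (S : Setup d F) (φ : Spl dh dm d) : CalcA dh dm F → CalcB dh dm F → OpStmt S φ → ParStmt S φ := by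
  intro hA hB hO N hN Y ε0 C0 hε hbd R hR m v hv hs
  have hop := hO N hN Y ε0 C0 hε hbd
  have te : Tst2 (evp v) := hA.smul _ _ (hA.add _ _ hv (hA.neg _ hv))
  have td : Tst2 (odp v) := hA.smul _ _ (hA.sub _ _ hv (hA.neg _ hv))
  have se : Sup2 Y ε0 R (evp v) := by
    intro y w h
    by_cases h1 : v y w = 0
    · by_cases h2 : v y (-w) = 0
      · exact absurd (by simp [evp, h1, h2]) h
      · have := hs y (-w) h2
        rwa [norm_neg] at this
    · exact hs y w h1
  have so : Sup2 Y ε0 R (odp v) := by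
    intro y w h
    by_cases h1 : v y w = 0
    · by_cases h2 : v y (-w) = 0
      · exact absurd (by simp [odp, h1, h2]) h
      · have := hs y (-w) h2
        rwa [norm_neg] at this
    · exact hs y w h1
  have oo : ∀ y w, odp v y (-w) = -odp v y w := by
    intro y w
    unfold odp
    rw [neg_neg, ← smul_neg, neg_sub]
  have ee : ∀ y w, evp v y (-w) = evp v y w := by
    intro y w
    unfold evp
    rw [neg_neg, add_comm]
  have vs : v = fun y w => evp v y w + odp v y w := by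
    funext y w
    unfold evp odp
    rw [← smul_add]
    have : v y w + v y (-w) + (v y w - v y (-w)) = (2 : ℂ) • v y w := by
      rw [two_smul]
      abel
    rw [this, smul_smul]
    norm_num
  have eE : (fun y w => evp v y (-w)) = evp v := by
    funext y w
    exact ee y w
  have eO : (fun y w => odp v y (-w)) = fun y w => (-1 : ℂ) • odp v y w := by
    funext y w
    rw [oo, neg_one_smul]
  have q1e : ∀ β y w, S.Q1 φ β (evp v) y (-w) = -S.Q1 φ β (evp v) y w := by
    intro β y w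
    have := Q1_rf hA S φ β (evp v) te y w
    rw [eE] at this
    rw [this, neg_neg]
  have q1o : ∀ β y w, S.Q1 φ β (odp v) y (-w) = S.Q1 φ β (odp v) y w := by
    intro β y w
    have := Q1_rf hA S φ β (odp v) td y w
    rw [eO, Q1_smul hA S φ β _ _ td, neg_one_smul] at this
    exact (neg_injective this).symm
  have qhe : ∀ β y w, S.Qhm φ N m β (evp v) y (-w) = S.Qhm φ N m β (evp v) y w := by
    intro β y w
    have := Qhm_rf hA S φ N m β (evp v) y w
    rw [eE] at this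
    exact this.symm
  have qho : ∀ β y w, S.Qhm φ N m β (odp v) y (-w) = -S.Qhm φ N m β (odp v) y w := by
    intro β y w
    have := Qhm_rf hA S φ N m β (odp v) y w
    rw [eO, Qhm_smul hA S φ N m β _ _ td, neg_one_smul] at this
    exact this.symm
  have q1v : ∀ β, S.Q1 φ β v = fun y w => S.Q1 φ β (evp v) y w + S.Q1 φ β (odp v) y w := by
    intro β
    funext y w
    conv_lhs => rw [vs]
    exact Q1_add hA S φ β _ _ te td y w
  have qhv : ∀ β, S.Qhm φ N m β v = fun y w => S.Qhm φ N m β (evp v) y w + S.Qhm φ N m β (odp v) y w := by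
    intro β
    funext y w
    conv_lhs => rw [vs]
    exact Qhm_add hA S φ N m β _ _ te td y w
  refine ⟨te, td, se, so, oo, ?_, ?_, ?_⟩
  · conv_lhs => rw [vs]
    exact ns_split hB _ _ te td (orth hB _ _ ee oo)
  · unfold Setup.E1
    rw [← Finset.sum_add_distrib]
    refine Finset.sum_congr rfl fun β _ => ?_
    rw [q1v]
    exact ns_split hB _ _ (hop.t1 R hR _ te se β) (hop.t1 R hR _ td so β) (orth' hB _ _ (q1e β) (q1o β))
  · refine Finset.sum_congr rfl fun β _ => ?_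
    have tE := hop.th _ te m β
    have tO := hop.th _ td m β
    have sE := hop.t1 R hR _ te se β
    have sO := hop.t1 R hR _ td so β
    rw [q1v β, hB.ip_add _ _ _ (hop.th _ hv m β) sE sO]
    have h1 : ∀ z, Tst2 z → ip2 (S.Qhm φ N m β v) z = ip2 (S.Qhm φ N m β (evp v)) z + ip2 (S.Qhm φ N m β (odp v)) z := by
      intro z hz
      rw [hB.conj, qhv β, hB.ip_add _ _ _ hz tE tO, map_add, ← hB.conj, ← hB.conj]
    rw [h1 _ sE, h1 _ sO, orth hB _ _ (qhe β) (q1e β), orth' hB _ _ (qho β) (q1o β), zero_add, add_zero, add_comm]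

end Vale.Agent.P353.Z.AN
end

section

/-! # P353, all `N`, block D, L2: geometry near a standard position (helper221) -/

open MeasureTheory Filter Topology Matrix
open scoped ContDiff

namespace Vale.Agent.P353.Z.AD

variable {d dh dm ds dz r : ℕ} {F : Type*} [NormedAddCommGroup F] [InnerProductSpace ℂ F]

/-! ## (c) invariance under the colour group -/

lemma geo_br (S : Setup d F) {O : Matrix (Fin d) (Fin d) ℝ} (h : O.transpose * O = 1)
    (hf : ∀ A B C, ∑ A', ∑ B', ∑ C', O A' A * O B' B * O C' C * S.f A' B' C' = S.f A B C)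
    (v y : Fin d → ℝ) (C : Fin d) :
    ∑ A, ∑ B, S.f A B C * (∑ a, O A a * v a) * (∑ b, O B b * y b) =
      ∑ D, O C D * ∑ a, ∑ b, S.f a b D * v a * y b := by
  have h1 : ∀ A B, S.f A B C * (∑ a, O A a * v a) * (∑ b, O B b * y b) =
      ∑ a, ∑ b, (O A a * O B b * S.f C A B) * (v a * y b) := by
    intro A B
    rw [mul_assoc, Finset.sum_mul_sum, Finset.mul_sum]
    refine Finset.sum_congr rfl fun a _ => ?_
    rw [Finset.mul_sum]
    refine Finset.sum_congr rfl fun b _ => ?_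
    rw [S.f_cyc A B C, S.f_cyc B C A]
    ring
  simp only [h1]
  have h2 : ∑ A, ∑ B, ∑ a, ∑ b, (O A a * O B b * S.f C A B) * (v a * y b) =
      ∑ a, ∑ b, (∑ A, ∑ B, O A a * O B b * S.f C A B) * (v a * y b) := by
    have e1 : ∀ A, ∑ B, ∑ a, ∑ b, (O A a * O B b * S.f C A B) * (v a * y b) =
        ∑ a, ∑ b, ∑ B, (O A a * O B b * S.f C A B) * (v a * y b) := by
      intro A
      rw [Finset.sum_comm]
      exact Finset.sum_congr rfl fun B _ => Finset.sum_comm
    simp only [e1]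
    rw [Finset.sum_comm]
    refine Finset.sum_congr rfl fun a _ => ?_
    rw [Finset.sum_comm]
    refine Finset.sum_congr rfl fun b _ => ?_
    simp only [Finset.sum_mul]
  rw [h2]
  simp only [U.grp_f S h hf, Finset.mul_sum, Finset.sum_mul]
  rw [Finset.sum_congr rfl fun a _ => Finset.sum_comm]
  rw [Finset.sum_comm]
  refine Finset.sum_congr rfl fun D _ => Finset.sum_congr rfl fun a _ =>
    Finset.sum_congr rfl fun b _ => ?_
  rw [S.f_cyc a b D, S.f_cyc b D a]
  ring

lemma geo_cz (S : Setup d F) {O : Matrix (Fin d) (Fin d) ℝ} (hO : O ∈ S.grp) {x : Cfg d}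
    {v : Fin d → ℝ} (hv : v ∈ cz S x) : O *ᵥ v ∈ cz S (ro O x) := by
  intro i C
  have h1 := geo_br S hO.1 hO.2.1 v (fun B => x (i, B)) C
  have h2 : ∀ D, ∑ a, ∑ b, S.f a b D * v a * x (i, b) = 0 := fun D => hv i D
  simp only [h2, mul_zero, Finset.sum_const_zero] at h1
  exact h1

lemma geo_cd (S : Setup d F) {O : Matrix (Fin d) (Fin d) ℝ} (hO : O ∈ S.grp) (x : Cfg d) :
    cd S (ro O x) = cd S x := by
  have h' : O * O.transpose = 1 := mul_eq_one_comm.1 hO.1
  let e : (Fin d → ℝ) ≃ₗ[ℝ] (Fin d → ℝ) := Matrix.toLin'OfInv hO.1 h'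
  have he : ∀ v, e v = O *ᵥ v := fun v => Matrix.toLin'_apply O v
  have h1 : cz S (ro O x) = (cz S x).map (e : (Fin d → ℝ) →ₗ[ℝ] (Fin d → ℝ)) := by
    ext v
    rw [Submodule.mem_map]
    constructor
    · intro hv
      have hT := U.grp_transpose S hO
      have h2 := geo_cz S hT hv
      have h3 : ro O.transpose (ro O x) = x := by
        rw [← U.grp_ro_mul, hO.1, U.grp_ro_one]
      rw [h3] at h2
      refine ⟨_, h2, ?_⟩
      change e (O.transpose *ᵥ v) = v
      rw [he, Matrix.mulVec_mulVec, h', Matrix.one_mulVec]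
    · rintro ⟨u, hu, rfl⟩
      change e u ∈ _
      rw [he]
      exact geo_cz S hO hu
  unfold cd
  rw [h1]
  exact LinearEquiv.finrank_map_eq e _

theorem geo_c (S : Setup d F) (a : Fin d → ℝ) (x : Cfg d) :
    S.V (ro (NormedSpace.exp (S.adm a)) x) = S.V x ∧
    cd S (ro (NormedSpace.exp (S.adm a)) x) = cd S x ∧ ‖ro (NormedSpace.exp (S.adm a)) x‖ = ‖x‖ := by
  have h : NormedSpace.exp (S.adm a) ∈ S.grp := by
    have := U.exp_mem S a 1
    rwa [one_smul] at this
  exact ⟨U.grp_V S h.1 h.2.1 x, geo_cd S h x, U.grp_norm h.1 x⟩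

/-! ## (a), (b) centralisers -/

/-- the inclusion `h → ℝ^d` -/
noncomputable def geoI (φ : Spl dh dm d) : (Fin dh → ℝ) →ₗ[ℝ] (Fin d → ℝ) where
  toFun v A := Sum.elim v (fun _ => 0) (φ.symm A)
  map_add' u v := by
    funext A
    rcases h : φ.symm A with a | b <;> simp [h]
  map_smul' c v := by
    funext A
    rcases h : φ.symm A with a | b <;> simp [h]

lemma geoI_inl (φ : Spl dh dm d) (v : Fin dh → ℝ) (A : Fin dh) : geoI φ v (φ (Sum.inl A)) = v A := by
  simp [geoI]

lemma geoI_inr (φ : Spl dh dm d) (v : Fin dh → ℝ) (A : Fin dm) : geoI φ v (φ (Sum.inr A)) = 0 := by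
  simp [geoI]

lemma geoI_inj (φ : Spl dh dm d) : Function.Injective (geoI φ) := by
  intro u v h
  funext A
  rw [← geoI_inl φ u A, ← geoI_inl φ v A, h]

lemma geoI_range (φ : Spl dh dm d) : Module.finrank ℝ (LinearMap.range (geoI φ)) = dh := by
  rw [LinearMap.finrank_range_of_inj (geoI_inj φ), Module.finrank_fin_fun]

lemma geoI_mem {φ : Spl dh dm d} {v : Fin d → ℝ} (h : ∀ B, v (φ (Sum.inr B)) = 0) :
    v ∈ LinearMap.range (geoI φ) := by
  refine ⟨fun A => v (φ (Sum.inl A)), ?_⟩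
  funext A
  obtain ⟨a, rfl⟩ := φ.surjective A
  rcases a with a | b
  · rw [geoI_inl]
  · rw [geoI_inr, h]

/-- the centraliser of `emb y 0` is contained in `h` if `D_8 y` is invertible -/
lemma geo_le (S : Setup d F) {φ : Spl dh dm d} (hs : S.IsSub φ) {y : Cfg dh} (hy : (S.Dy φ 8 y).det ≠ 0) :
    cz S (emb φ y 0) ≤ LinearMap.range (geoI φ) := by
  intro v hv
  have hw : ∀ i B, wt (0 : Wsp dm) i B = 0 := by
    intro i B
    refine Fin.lastCases ?_ (fun j => ?_) i
    · exact AN.dec_wt_last 0 B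
    · rw [AN.dec_wt_cast]; rfl
  have h1 : ∀ c, ((fun B => v (φ (Sum.inr B))) ᵥ* S.Dy φ 8 y) c = 0 := by
    intro c
    have h2 := hv 8 (φ (Sum.inr c))
    rw [AN.dec_sum φ] at h2
    simp only [AN.dec_sum φ (fun C => S.f _ C _ * _ * _), AN.dec_emb_inl, AN.dec_emb_inr, hw, mul_zero,
      Finset.sum_const_zero, add_zero, hs _ _ _, zero_mul, zero_add] at h2
    rw [← h2]
    simp only [Matrix.vecMul, dotProduct, Setup.Dy, Setup.Dm, Matrix.of_apply, Finset.mul_sum]
    refine Finset.sum_congr rfl fun B _ => Finset.sum_congr rfl fun A _ => ?_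
    ring
  have h2 : (fun B => v (φ (Sum.inr B))) = 0 := by
    refine Matrix.eq_zero_of_vecMul_eq_zero hy ?_
    funext c
    exact h1 c
  exact geoI_mem fun B => congrFun h2 B

lemma geo_a (S : Setup d F) {φ : Spl dh dm d} {y : Cfg dh} (h : AN.Std S φ y) : cd S (emb φ y 0) = dh := by
  have h1 : cz S (emb φ y 0) = LinearMap.range (geoI φ) := by
    refine le_antisymm (geo_le S h.sub h.inv) ?_
    rintro _ ⟨v, rfl⟩ i C
    have hw : ∀ i B, wt (0 : Wsp dm) i B = 0 := by
      intro i B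
      refine Fin.lastCases ?_ (fun j => ?_) i
      · exact AN.dec_wt_last 0 B
      · rw [AN.dec_wt_cast]; rfl
    rw [AN.dec_sum φ]
    simp only [AN.dec_sum φ (fun B => S.f _ B _ * _ * _), AN.dec_emb_inl, AN.dec_emb_inr, hw, geoI_inl,
      geoI_inr, mul_zero, zero_mul, Finset.sum_const_zero, add_zero]
    obtain ⟨c, rfl⟩ := φ.surjective C
    rcases c with c | c
    · refine Finset.sum_eq_zero fun A _ => ?_
      have h2 := h.cen i c A
      have h3 : ∀ B, S.f (φ (Sum.inl A)) (φ (Sum.inl B)) (φ (Sum.inl c)) * v A * y (i, B) =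
          v A * (S.f (φ (Sum.inl B)) (φ (Sum.inl c)) (φ (Sum.inl A)) * y (i, B)) := by
        intro B
        rw [S.f_cyc (φ (Sum.inl A))]
        ring
      simp only [h3, ← Finset.mul_sum, h2, mul_zero]
    · refine Finset.sum_eq_zero fun A _ => Finset.sum_eq_zero fun B _ => ?_
      rw [h.sub, zero_mul, zero_mul]
  unfold cd
  rw [h1, geoI_range]

/-- vanishing potential -/
lemma geo_FF (S : Setup d F) {x : Cfg d} (h : S.V x = 0) (A : Fin d) (i j : Fin 9) : S.FF A i j x = 0 := by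
  unfold Setup.V at h
  have h1 : ∑ A, ∑ i, ∑ j, S.FF A i j x ^ 2 = 0 := by linarith
  have h2 := (Finset.sum_eq_zero_iff_of_nonneg fun A _ => Finset.sum_nonneg fun i _ =>
    Finset.sum_nonneg fun j _ => sq_nonneg (S.FF A i j x)).1 h1 A (Finset.mem_univ A)
  have h3 := (Finset.sum_eq_zero_iff_of_nonneg fun i _ =>
    Finset.sum_nonneg fun j _ => sq_nonneg (S.FF A i j x)).1 h2 i (Finset.mem_univ i)
  have h4 := (Finset.sum_eq_zero_iff_of_nonneg fun j _ => sq_nonneg (S.FF A i j x)).1 h3 j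
    (Finset.mem_univ j)
  exact pow_eq_zero_iff (two_ne_zero) |>.1 h4

lemma geo_w (S : Setup d F) {φ : Spl dh dm d} (hs : S.IsSub φ) {y : Cfg dh} {w : Wsp dm}
    (hy : (S.Dy φ 8 y).det ≠ 0) (h : S.V (emb φ y w) = 0) : w = 0 := by
  have h1 : ∀ j : Fin 8, (fun C => wt w j.castSucc C) = 0 := by
    intro j
    refine Matrix.eq_zero_of_mulVec_eq_zero hy ?_
    funext A
    have h2 := geo_FF S h (φ (Sum.inr A)) 8 j.castSucc
    rw [AN.dec_FF_inr S hs] at h2
    simp only [Setup.FL, AN.dec_wt_last, mul_zero, zero_mul, Finset.sum_const_zero, sub_zero,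
      add_zero] at h2
    exact (mul_eq_zero.1 h2).resolve_left S.κ_pos.ne'
  ext ⟨j, B⟩
  have := congrFun (h1 j) B
  rw [AN.dec_wt_cast] at this
  exact this

lemma geo_b (S : Setup d F) {φ : Spl dh dm d} {ψ : Spl ds dz dh} {z₀ : Cfg dz} (h : Std2 S φ ψ z₀)
    {y : Cfg dh} {w : Wsp dm} (hy : (S.Dy φ 8 y).det ≠ 0) (hV : S.V (emb φ y w) = 0)
    (hs : sp ψ y ≠ 0) : cd S (emb φ y w) < dh := by
  have hw : w = 0 := geo_w S h.std.sub hy hV
  subst hw
  have h1 := geo_le S h.std.sub hy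
  have h2 : cz S (emb φ y 0) ≠ LinearMap.range (geoI φ) := by
    intro heq
    apply hs
    ext ⟨i, A⟩
    have h3 : (fun A => sp ψ y (i, A)) = 0 := by
      refine h.less _ fun B C => ?_
      have h4 : geoI φ (Pi.single (ψ (Sum.inl B)) 1) ∈ cz S (emb φ y 0) := by
        rw [heq]
        exact ⟨_, rfl⟩
      have h5 := h4 i (φ (Sum.inl (ψ (Sum.inl C))))
      have hw : ∀ i B, wt (0 : Wsp dm) i B = 0 := by
        intro i B
        refine Fin.lastCases ?_ (fun j => ?_) i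
        · exact AN.dec_wt_last 0 B
        · rw [AN.dec_wt_cast]; rfl
      rw [AN.dec_sum φ] at h5
      simp only [AN.dec_sum φ (fun B => S.f _ B _ * _ * _), AN.dec_emb_inl, AN.dec_emb_inr, hw,
        geoI_inl, geoI_inr, mul_zero, zero_mul, Finset.sum_const_zero, add_zero] at h5
      rw [Finset.sum_eq_single (ψ (Sum.inl B))] at h5
      · simp only [Pi.single_eq_same, mul_one] at h5
        rw [AN.dec_sum ψ] at h5
        have h6 : ∀ E, S.f (φ (Sum.inl (ψ (Sum.inl B)))) (φ (Sum.inl (ψ (Sum.inr E))))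
            (φ (Sum.inl (ψ (Sum.inl C)))) = 0 := by
          intro E
          rw [S.f_cyc]
          exact h.cen _ _ _
        simp only [h6, zero_mul, Finset.sum_const_zero, add_zero] at h5
        have h7 : ∀ E, S.f (φ (Sum.inl (ψ (Sum.inl E)))) (φ (Sum.inl (ψ (Sum.inl B))))
            (φ (Sum.inl (ψ (Sum.inl C)))) * sp ψ y (i, E) =
            -(S.f (φ (Sum.inl (ψ (Sum.inl B)))) (φ (Sum.inl (ψ (Sum.inl E))))
            (φ (Sum.inl (ψ (Sum.inl C)))) * y (i, ψ (Sum.inl E))) := by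
          intro E
          rw [S.f_swap]
          simp [sp]
        simp only [h7, Finset.sum_neg_distrib, h5, neg_zero]
      · intro b _ hb
        simp only [Pi.single_eq_of_ne hb, mul_zero, zero_mul, Finset.sum_const_zero]
      · intro hn
        exact absurd (Finset.mem_univ _) hn
    exact congrFun h3 A
  have h3 : cz S (emb φ y 0) < LinearMap.range (geoI φ) := lt_of_le_of_ne h1 h2
  have h4 := Submodule.finrank_lt_finrank_of_lt h3
  rw [geoI_range] at h4
  exact h4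

/-- **L2** geometry near `Y` -/
theorem geo_all (S : Setup d F) : GeoStmt S := by
  intro dh dm ds dz φ ψ z₀ h
  exact ⟨geo_a S h.std, fun y w hy hV hs => geo_b S h hy hV hs, fun a x => geo_c S a x⟩

end Vale.Agent.P353.Z.AD
end

section

/-! # P353, all `N`, block D (L1): standard position with split centraliser -/

open MeasureTheory Filter Topology
open scoped ContDiff

namespace Vale.Agent.P353.Z.AD
namespace Std2A

open AN AN.StdA

variable {d : ℕ} {F : Type*} [NormedAddCommGroup F] [InnerProductSpace ℂ F]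

/-- components of `Y` -/
noncomputable def Yv (Y : Cfg d) (i : Fin 9) : Ec d := WithLp.toLp 2 fun A => Y (i, A)

lemma Yv_apply (Y : Cfg d) (i : Fin 9) (A : Fin d) : Yv Y i A = Y (i, A) := rfl

/-- the joint centraliser of the components -/
noncomputable def hs (S : Setup d F) (Y : Cfg d) : Submodule ℝ (Ec d) := ⨅ i, LinearMap.ker (ad S (Yv Y i))

lemma mem_hs {S : Setup d F} {Y : Cfg d} {v : Ec d} : v ∈ hs S Y ↔ ∀ i, ad S (Yv Y i) v = 0 := by
  rw [hs, Submodule.mem_iInf]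
  exact Iff.rfl

lemma comm_of_V {S : Setup d F} {Y : Cfg d} (hV : S.V Y = 0) (i j : Fin 9) : ad S (Yv Y i) (Yv Y j) = 0 := by
  have h0 : ∑ A, ∑ i, ∑ j, (S.FF A i j Y) ^ 2 = 0 := by
    have : (1 / 4 : ℝ) * ∑ A, ∑ i, ∑ j, (S.FF A i j Y) ^ 2 = 0 := hV
    linarith
  have h1 := (Finset.sum_eq_zero_iff_of_nonneg (fun A _ =>
    Finset.sum_nonneg fun i _ => Finset.sum_nonneg fun j _ => sq_nonneg _)).1 h0
  ext C
  have h2 := (Finset.sum_eq_zero_iff_of_nonneg (fun i _ =>
    Finset.sum_nonneg fun j _ => sq_nonneg _)).1 (h1 C (Finset.mem_univ C))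
  have h3 := (Finset.sum_eq_zero_iff_of_nonneg (fun j _ => sq_nonneg _)).1 (h2 i (Finset.mem_univ i))
  have h4 : S.FF C i j Y = 0 := pow_eq_zero_iff (two_ne_zero) |>.1 (h3 j (Finset.mem_univ j))
  have h5 : ∑ A, ∑ B, S.f C A B * Y (i, A) * Y (j, B) = 0 :=
    (mul_eq_zero.1 h4).resolve_left S.κ_pos.ne'
  rw [ad_apply]
  simp only [Yv_apply]
  rw [PiLp.zero_apply, ← h5]
  exact Finset.sum_congr rfl fun A _ => Finset.sum_congr rfl fun B _ => by rw [S.f_cyc C A B]

lemma bracket_mem {S : Setup d F} {Y : Cfg d} {u v : Ec d} (hu : u ∈ hs S Y) (hv : v ∈ hs S Y) :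
    ad S u v ∈ hs S Y := by
  rw [mem_hs] at hu hv ⊢
  intro i
  have h1 : ad S u (Yv Y i) = 0 := by rw [ad_swap, hu i, neg_zero]
  rw [← ad_comm S h1, hv i, map_zero]

/-- A2 with a prescribed orthonormal basis of the centraliser -/
theorem std_aux (S : Setup d F) (Y : Cfg d) (hV : S.V Y = 0) {dh : ℕ} (h : Submodule ℝ (Ec d))
    (hmem : ∀ v, v ∈ h ↔ ∀ i, ad S (Yv Y i) v = 0) (hbr : ∀ u ∈ h, ∀ v ∈ h, ad S u v ∈ h)
    (bh : OrthonormalBasis (Fin dh) ℝ h) :
    ∃ (R : Matrix (Fin 9) (Fin 9) ℝ) (hR : R * R.transpose = 1)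
      (O : Matrix (Fin d) (Fin d) ℝ) (hO : O * O.transpose = 1) (dm : ℕ) (φ : Spl dh dm d) (y : Cfg dh),
      AN.Std (S.rot R hR O hO) φ y ∧ rox R O Y = emb φ y 0 ∧
      (∀ i a, y (i, a) = inner ℝ (bh a : Ec d) (∑ j, R i j • Yv Y j)) ∧
      ∀ a b c : Fin dh, (S.rot R hR O hO).f (φ (Sum.inl a)) (φ (Sum.inl b)) (φ (Sum.inl c)) =
        tri S (bh a) (bh b) (bh c) := by
  have hcomm := comm_of_V hV
  obtain ⟨e, he1, he⟩ := exists_unit S (Yv Y) hcomm
  obtain ⟨R, hR, hR8⟩ := exists_rot e he1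
  have hYh : ∀ j, Yv Y j ∈ h := fun j => (hmem _).2 fun i => hcomm i j
  have hdh : Module.finrank ℝ h = dh := by
    rw [Module.finrank_eq_card_basis bh.toBasis, Fintype.card_fin]
  set dm := Module.finrank ℝ hᗮ with hdm
  have hd : dh + dm = d := by
    have := h.finrank_add_finrank_orthogonal
    rwa [finrank_euclideanSpace_fin, hdh] at this
  set bm : OrthonormalBasis (Fin dm) ℝ hᗮ := stdOrthonormalBasis ℝ hᗮ with hbm
  set v : Fin dh ⊕ Fin dm → Ec d := Sum.elim (fun a => (bh a : Ec d)) (fun b => (bm b : Ec d)) with hv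
  have hvl : ∀ a, v (Sum.inl a) = (bh a : Ec d) := fun a => rfl
  have hvr : ∀ b, v (Sum.inr b) = (bm b : Ec d) := fun b => rfl
  have hvh : ∀ a, v (Sum.inl a) ∈ h := fun a => (bh a).2
  have hvm : ∀ b, v (Sum.inr b) ∈ hᗮ := fun b => (bm b).2
  have hort : ∀ p q, inner ℝ (v p) (v q) = if p = q then (1 : ℝ) else 0 := by
    rintro (a | b) (a' | b')
    · rw [hvl, hvl]
      have := (orthonormal_iff_ite.1 bh.orthonormal) a a'
      rw [Submodule.coe_inner] at this
      rw [this]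
      simp only [Sum.inl.injEq]
    · rw [hvm b' _ (hvh a)]
      simp
    · rw [real_inner_comm, hvm b _ (hvh a')]
      simp
    · rw [hvr, hvr]
      have := (orthonormal_iff_ite.1 bm.orthonormal) b b'
      rw [Submodule.coe_inner] at this
      rw [this]
      simp only [Sum.inr.injEq]
  set φ : Spl dh dm d := finSumFinEquiv.trans (finCongr hd) with hφ
  set O : Matrix (Fin d) (Fin d) ℝ := Matrix.of fun A A' => v (φ.symm A) A' with hO
  have hOO : O * O.transpose = 1 := by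
    ext A B
    rw [Matrix.mul_apply, Matrix.one_apply]
    have h1 := hort (φ.symm A) (φ.symm B)
    rw [inner_Ec] at h1
    simp only [EmbeddingLike.apply_eq_iff_eq] at h1
    rw [← h1]
    rfl
  -- rotated components
  set Yr : Fin 9 → Ec d := fun i => ∑ j, R i j • Yv Y j with hYr
  have hYrh : ∀ i, Yr i ∈ h := fun i => h.sum_mem fun j _ => h.smul_mem _ (hYh j)
  have hYr8 : Yr 8 = comb (Yv Y) e := by
    rw [hYr, comb]
    exact Finset.sum_congr rfl fun j _ => by rw [hR8]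
  have hrox : ∀ i A, rox R O Y (i, A) = inner ℝ (v (φ.symm A)) (Yr i) := by
    intro i A
    have h1 : rox R O Y (i, A) = ∑ j, ∑ B, R i j * O A B * Y (j, B) := rfl
    rw [h1, inner_Ec, Finset.sum_comm]
    refine Finset.sum_congr rfl fun B _ => ?_
    have h2 : Yr i B = ∑ j, R i j * Y (j, B) := by
      rw [hYr]
      simp [Yv_apply]
    rw [h2, Finset.mul_sum]
    refine Finset.sum_congr rfl fun j _ => ?_
    rw [hO, Matrix.of_apply]
    ring
  have hf : ∀ a b c, (S.rot R hR O hOO).f (φ a) (φ b) (φ c) = tri S (v a) (v b) (v c) := by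
    intro a b c
    have h1 : (S.rot R hR O hOO).f (φ a) (φ b) (φ c) =
      ∑ A', ∑ B', ∑ C', O (φ a) A' * O (φ b) B' * O (φ c) C' * S.f A' B' C' := rfl
    rw [h1, tri]
    refine Finset.sum_congr rfl fun A _ => Finset.sum_congr rfl fun B _ => Finset.sum_congr rfl fun C _ => ?_
    rw [hO]
    simp only [Matrix.of_apply, Equiv.symm_apply_apply]
    ring
  set y : Cfg dh := WithLp.toLp 2 fun p => inner ℝ (v (Sum.inl p.2)) (Yr p.1) with hy
  have hya : ∀ i a, y (i, a) = inner ℝ (v (Sum.inl a)) (Yr i) := fun i a => rfl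
  have hexp : ∀ i, ∑ a, y (i, a) • v (Sum.inl a) = Yr i := by
    intro i
    have h1 := bh.sum_repr' (⟨Yr i, hYrh i⟩ : h)
    have h2 := congrArg (Subtype.val) h1
    rw [Submodule.coe_sum] at h2
    refine Eq.trans ?_ h2
    refine Finset.sum_congr rfl fun a _ => ?_
    rw [hya, hvl, Submodule.coe_smul, Submodule.coe_inner]
  have htri0 : ∀ i, ∀ u ∈ h, ∀ w, tri S (Yr i) u w = 0 := by
    intro i u hu w
    rw [hYr]
    simp only
    rw [tri_sum_left]
    refine Finset.sum_eq_zero fun j _ => ?_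
    rw [← inner_ad, (hmem u).1 hu j, inner_zero_left, mul_zero]
  refine ⟨R, hR, O, hOO, dm, φ, y, ⟨?_, ?_, ?_⟩, ?_, fun i a => rfl, fun a b c => hf (Sum.inl a) (Sum.inl b) (Sum.inl c)⟩
  · intro A B C
    rw [hf, ← inner_ad]
    exact hvm C _ (hbr _ (hvh A) _ (hvh B))
  · intro i B C
    simp only [hf]
    have h1 := tri_sum_left S Finset.univ (fun a => y (i, a)) (fun a => v (Sum.inl a)) (v (Sum.inl B)) (v (Sum.inl C))
    rw [hexp, htri0 i _ (hvh B)] at h1
    rw [h1]
    exact Finset.sum_congr rfl fun a _ => by rw [mul_comm]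
  · intro hdet
    obtain ⟨z, hz0, hz⟩ := Matrix.exists_vecMul_eq_zero_iff.2 hdet
    apply hz0
    have hDy : ∀ B C, (S.rot R hR O hOO).Dy φ 8 y B C = - inner ℝ (ad S (Yr 8) (v (Sum.inr B))) (v (Sum.inr C)) := by
      intro B C
      have h1 : (S.rot R hR O hOO).Dy φ 8 y B C =
        ∑ A, (S.rot R hR O hOO).f (φ (Sum.inr B)) (φ (Sum.inl A)) (φ (Sum.inr C)) * y (8, A) := rfl
      rw [h1, inner_ad]
      simp only [hf]
      have h2 := tri_sum_left S Finset.univ (fun a => y (8, a)) (fun a => v (Sum.inl a)) (v (Sum.inr B)) (v (Sum.inr C))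
      rw [hexp] at h2
      rw [h2, ← Finset.sum_neg_distrib]
      exact Finset.sum_congr rfl fun a _ => by rw [tri_swap S (v (Sum.inr B))]; ring
    set Z : Ec d := ∑ B, z B • v (Sum.inr B) with hZ
    have hZm : Z ∈ hᗮ := hᗮ.sum_mem fun B _ => hᗮ.smul_mem _ (hvm B)
    have h3 : ∀ C, inner ℝ (ad S (Yr 8) Z) (v (Sum.inr C)) = 0 := by
      intro C
      have h4 := congrFun hz C
      rw [Matrix.vecMul, dotProduct, Pi.zero_apply] at h4
      simp only [hDy] at h4
      rw [hZ, map_sum, sum_inner]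
      simp only [map_smul, inner_smul_left, conj_trivial]
      have : ∑ B, z B * -inner ℝ (ad S (Yr 8) (v (Sum.inr B))) (v (Sum.inr C)) =
        - ∑ B, z B * inner ℝ (ad S (Yr 8) (v (Sum.inr B))) (v (Sum.inr C)) := by
        rw [← Finset.sum_neg_distrib]
        exact Finset.sum_congr rfl fun B _ => by ring
      rw [this] at h4
      linarith
    have h5 : ad S (Yr 8) Z ∈ hᗮ := by
      intro k hk
      have h6 := inner_ad_skew S (Yr 8) k Z
      rw [inner_ad, htri0 8 k hk] at h6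
      linarith
    have h6 : ad S (Yr 8) Z = 0 := by
      have h7 := bm.sum_repr' (⟨ad S (Yr 8) Z, h5⟩ : hᗮ)
      have h8 := congrArg (Subtype.val) h7
      rw [Submodule.coe_sum] at h8
      refine Eq.trans h8.symm ?_
      refine Finset.sum_eq_zero fun a _ => ?_
      rw [Submodule.coe_smul, Submodule.coe_inner, ← hvr, real_inner_comm, h3, zero_smul]
    rw [hYr8] at h6
    have h7 : Z ∈ h := (hmem Z).2 (he Z h6)
    have h8 : Z = 0 := inner_self_eq_zero.1 (hZm Z h7)
    funext B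
    have h9 : inner ℝ (v (Sum.inr B)) Z = z B := by
      rw [hZ, inner_sum]
      simp only [inner_smul_right, hort]
      simp
    rw [← h9, h8, inner_zero_right, Pi.zero_apply]
  · ext p
    obtain ⟨i, A⟩ := p
    rw [hrox]
    obtain ⟨q, rfl⟩ := φ.surjective A
    rw [Equiv.symm_apply_apply]
    rcases q with a | b
    · simp [emb, hya]
    · rw [real_inner_comm, hvm b _ (hYrh i)]
      simp only [emb, Equiv.symm_apply_apply, Sum.elim_inr]
      induction i using Fin.lastCases with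
      | last => rw [Fin.lastCases_last]
      | cast j => rw [Fin.lastCases_castSucc]; rfl

/-- the centre of `h`, as a subspace of `h` -/
noncomputable def zc (S : Setup d F) (h : Submodule ℝ (Ec d)) : Submodule ℝ h where
  carrier := {u | ∀ w ∈ h, ad S (u : Ec d) w = 0}
  add_mem' := by
    intro a b ha hb w hw
    rw [Submodule.coe_add, ad_add, LinearMap.add_apply, ha w hw, hb w hw, add_zero]
  zero_mem' := by
    intro w _
    have := ad_smul S 0 (0 : Ec d)
    rw [zero_smul, zero_smul] at this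
    rw [Submodule.coe_zero, this]
    rfl
  smul_mem' := by
    intro c a ha w hw
    rw [Submodule.coe_smul, ad_smul, LinearMap.smul_apply, ha w hw, smul_zero]

lemma mem_zc {S : Setup d F} {h : Submodule ℝ (Ec d)} {u : h} :
    u ∈ zc S h ↔ ∀ w ∈ h, ad S (u : Ec d) w = 0 := Iff.rfl

/-- an orthonormal basis adapted to a subspace -/
theorem exists_adapted {E : Type*} [NormedAddCommGroup E] [InnerProductSpace ℝ E] [FiniteDimensional ℝ E]
    (K : Submodule ℝ E) : ∃ (ds dz : ℕ) (b : OrthonormalBasis (Fin (ds + dz)) ℝ E),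
      (∀ A, b (finSumFinEquiv (Sum.inl A)) ∈ Kᗮ) ∧ (∀ B, b (finSumFinEquiv (Sum.inr B)) ∈ K) ∧
      ∀ u, (∀ A, inner ℝ (b (finSumFinEquiv (Sum.inl A))) u = 0) → u ∈ K := by
  set bs := stdOrthonormalBasis ℝ Kᗮ with hbs
  set bz := stdOrthonormalBasis ℝ K with hbz
  set v : Fin (Module.finrank ℝ Kᗮ) ⊕ Fin (Module.finrank ℝ K) → E :=
    Sum.elim (fun a => (bs a : E)) (fun b => (bz b : E)) with hv
  have hvl : ∀ a, v (Sum.inl a) = (bs a : E) := fun a => rfl
  have hvr : ∀ b, v (Sum.inr b) = (bz b : E) := fun b => rfl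
  have hort : Orthonormal ℝ v := by
    rw [orthonormal_iff_ite]
    rintro (a | b) (a' | b')
    · rw [hvl, hvl]
      have := (orthonormal_iff_ite.1 bs.orthonormal) a a'
      rw [Submodule.coe_inner] at this
      rw [this]
      simp only [Sum.inl.injEq]
    · rw [hvl, hvr, real_inner_comm, (bs a).2 _ (bz b').2]
      simp
    · rw [hvl, hvr, (bs a').2 _ (bz b).2]
      simp
    · rw [hvr, hvr]
      have := (orthonormal_iff_ite.1 bz.orthonormal) b b'
      rw [Submodule.coe_inner] at this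
      rw [this]
      simp only [Sum.inr.injEq]
  have hexpK : ∀ u ∈ K, u ∈ Submodule.span ℝ (Set.range v) := by
    intro u hu
    have h1 := bz.sum_repr' (⟨u, hu⟩ : K)
    have h2 := congrArg (Subtype.val) h1
    rw [Submodule.coe_sum] at h2
    have h3 : (∑ b, inner ℝ ((bz b : K) : E) u • (bz b : E)) = u := by
      refine Eq.trans ?_ h2
      exact Finset.sum_congr rfl fun a _ => by rw [Submodule.coe_smul, Submodule.coe_inner]
    rw [← h3]
    exact Submodule.sum_mem _ fun b _ => Submodule.smul_mem _ _ (Submodule.subset_span ⟨Sum.inr b, rfl⟩)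
  have hexpS : ∀ u ∈ Kᗮ, u ∈ Submodule.span ℝ (Set.range v) := by
    intro u hu
    have h1 := bs.sum_repr' (⟨u, hu⟩ : Kᗮ)
    have h2 := congrArg (Subtype.val) h1
    rw [Submodule.coe_sum] at h2
    have h3 : (∑ b, inner ℝ ((bs b : Kᗮ) : E) u • (bs b : E)) = u := by
      refine Eq.trans ?_ h2
      exact Finset.sum_congr rfl fun a _ => by rw [Submodule.coe_smul, Submodule.coe_inner]
    rw [← h3]
    exact Submodule.sum_mem _ fun b _ => Submodule.smul_mem _ _ (Submodule.subset_span ⟨Sum.inl b, rfl⟩)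
  have hspan : ⊤ ≤ Submodule.span ℝ (Set.range v) := by
    intro u _
    obtain ⟨k, hk, w, hw, rfl⟩ := K.exists_add_mem_mem_orthogonal u
    exact Submodule.add_mem _ (hexpK k hk) (hexpS w hw)
  set b := (OrthonormalBasis.mk hort hspan).reindex finSumFinEquiv with hb
  have hbv : ∀ q, b (finSumFinEquiv q) = v q := by
    intro q
    rw [hb, OrthonormalBasis.reindex_apply, Equiv.symm_apply_apply, OrthonormalBasis.coe_mk]
  refine ⟨_, _, b, fun A => ?_, fun B => ?_, fun u hu => ?_⟩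
  · rw [hbv, hvl]
    exact (bs A).2
  · rw [hbv, hvr]
    exact (bz B).2
  · obtain ⟨k, hk, w, hw, rfl⟩ := K.exists_add_mem_mem_orthogonal u
    have h1 := bs.sum_repr' (⟨w, hw⟩ : Kᗮ)
    have h2 := congrArg (Subtype.val) h1
    rw [Submodule.coe_sum] at h2
    have h3 : w = 0 := by
      refine Eq.trans h2.symm (Finset.sum_eq_zero fun a _ => ?_)
      have h4 := hu a
      rw [hbv, hvl, inner_add_right, real_inner_comm, (bs a).2 _ hk, zero_add] at h4
      rw [Submodule.coe_smul, Submodule.coe_inner]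
      change inner ℝ (bs a : E) w • _ = 0
      rw [h4, zero_smul]
    rw [h3, add_zero]
    exact hk

end Std2A

open AN AN.StdA Std2A in
/-- **L1** -/
theorem std2 {d : ℕ} {F : Type*} [NormedAddCommGroup F] [InnerProductSpace ℂ F] (S : Setup d F) :
    Std2Stmt S := by
  intro Y hV
  set h := hs S Y with hh
  obtain ⟨ds, dz, bh, hbs, hbz, hmemz⟩ := exists_adapted (zc S h)
  obtain ⟨R, hR, O, hO, dm, φ, y, hstd, hrox, hy, hf⟩ := std_aux S Y hV h (fun v => mem_hs)
    (fun u hu v hv => bracket_mem hu hv) bh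
  have hYh : ∀ j, Yv Y j ∈ h := fun j => mem_hs.2 fun i => comm_of_V hV i j
  -- the rotated components are central
  have hYr : ∀ i, (⟨∑ j, R i j • Yv Y j, h.sum_mem fun j _ => h.smul_mem _ (hYh j)⟩ : h) ∈ zc S h := by
    intro i
    rw [mem_zc]
    intro w hw
    refine ext_inner_right ℝ fun t => ?_
    rw [inner_zero_left, inner_ad, tri_sum_left]
    refine Finset.sum_eq_zero fun j _ => ?_
    rw [← inner_ad, mem_hs.1 hw j, inner_zero_left, mul_zero]
  set ψ : Spl ds dz (ds + dz) := finSumFinEquiv with hψ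
  set z₀ : Cfg dz := WithLp.toLp 2 fun p => y (p.1, ψ (Sum.inr p.2)) with hz₀
  have hyz : y = cmb ψ 0 z₀ := by
    ext p
    obtain ⟨i, A⟩ := p
    obtain ⟨q, rfl⟩ := ψ.surjective A
    rcases q with a | b
    · have h1 := hbs a _ (hYr i)
      rw [Submodule.coe_inner, real_inner_comm] at h1
      have h2 : y (i, ψ (Sum.inl a)) = 0 := by
        rw [hy]
        exact h1
      rw [h2]
      simp [cmb]
    · simp [cmb, hz₀]
  have htri : ∀ B, ∀ u ∈ h, ∀ w, tri S (bh (ψ (Sum.inr B)) : Ec d) u w = 0 := by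
    intro B u hu w
    rw [← inner_ad, mem_zc.1 (hbz B) u hu, inner_zero_left]
  refine ⟨R, hR, O, hO, ds + dz, dm, ds, dz, φ, ψ, z₀, ⟨hyz ▸ hstd, ?_, ?_⟩, by rw [← hyz, hrox]⟩
  · intro A B C
    rw [hf]
    exact htri A _ (bh B).2 _
  · intro v hv
    -- the vector
    set V : h := ∑ A, v A • bh (ψ (Sum.inl A)) with hVdef
    have hVs : V ∈ (zc S h)ᗮ := (zc S h)ᗮ.sum_mem fun A _ => (zc S h)ᗮ.smul_mem _ (hbs A)
    have hVc : (V : Ec d) = ∑ A, v A • (bh (ψ (Sum.inl A)) : Ec d) := by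
      rw [hVdef, Submodule.coe_sum]
      exact Finset.sum_congr rfl fun A _ => rfl
    have h1 : ∀ B C, tri S (V : Ec d) (bh (ψ (Sum.inl B))) (bh (ψ (Sum.inl C))) = 0 := by
      intro B C
      rw [hVc, tri_sum_left, ← hv B C]
      exact Finset.sum_congr rfl fun A _ => by rw [hf, mul_comm]
    -- `tri V` vanishes on all basis vectors
    have h2 : ∀ b c, tri S (V : Ec d) (bh b) (bh c) = 0 := by
      intro b c
      obtain ⟨p, rfl⟩ := ψ.surjective b
      obtain ⟨q, rfl⟩ := ψ.surjective c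
      rcases p with B | B
      · rcases q with C | C
        · exact h1 B C
        · rw [← tri_cyc S (bh (ψ (Sum.inr C)) : Ec d)]
          exact htri C _ V.2 _
      · rw [tri_swap, htri B _ V.2, neg_zero]
    have h3 : V ∈ zc S h := by
      rw [mem_zc]
      intro w hw
      have h4 : ∀ b, inner ℝ (ad S (V : Ec d) w) (bh b : Ec d) = 0 := by
        intro b
        have h5 := bh.sum_repr' (⟨w, hw⟩ : h)
        have h6 := congrArg (Subtype.val) h5
        rw [Submodule.coe_sum] at h6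
        change _ = w at h6
        rw [← h6, map_sum, sum_inner]
        refine Finset.sum_eq_zero fun c _ => ?_
        rw [Submodule.coe_smul, map_smul, inner_smul_left, inner_ad, h2, mul_zero]
      have h5 : ad S (V : Ec d) w ∈ h := bracket_mem V.2 hw
      have h6 := bh.sum_repr' (⟨ad S (V : Ec d) w, h5⟩ : h)
      have h7 := congrArg (Subtype.val) h6
      rw [Submodule.coe_sum] at h7
      refine Eq.trans h7.symm (Finset.sum_eq_zero fun b _ => ?_)
      rw [Submodule.coe_smul, Submodule.coe_inner, real_inner_comm]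
      change inner ℝ (ad S (V : Ec d) w) (bh b : Ec d) • _ = 0
      rw [h4, zero_smul]
    have h8 : V = 0 := inner_self_eq_zero.1 (hVs V h3)
    funext A
    have hob : ∀ a b, inner ℝ (bh a : Ec d) (bh b : Ec d) = if a = b then (1 : ℝ) else 0 := by
      intro a b
      have := (orthonormal_iff_ite.1 bh.orthonormal) a b
      rwa [Submodule.coe_inner] at this
    have h9 : inner ℝ (bh (ψ (Sum.inl A)) : Ec d) (V : Ec d) = v A := by
      rw [hVc, inner_sum, Finset.sum_eq_single A]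
      · rw [inner_smul_right, hob, if_pos rfl, mul_one]
      · intro B _ hB
        rw [inner_smul_right, hob, if_neg, mul_zero]
        intro h
        exact hB (Sum.inl.inj (ψ.injective h)).symm
      · intro h
        exact absurd (Finset.mem_univ A) h
    rw [← h9, h8, Submodule.coe_zero, inner_zero_right, Pi.zero_apply]

end Vale.Agent.P353.Z.AD
end
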