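import Mathlib
import Vale.Agent.P353.BdA.B1

set_option linter.all false

section

/-! # P353, all `N`, block NF: invertibility of `∑ D_i²` on `m` -/

open MeasureTheory Filter Topology Matrix
open scoped ContDiff

namespace Vale.Agent.P353.Z.ANF

universe u

variable {N d dh dm ds dz k : ℕ} {n : Fin k → ℕ} {T : Fin d → Matrix (Fin N) (Fin N) ℂ} {φ : Spl dh dm d} {ψ : Spl ds dz dh}

/-- block diagonal matrices -/
def NrBD (E : (Σ a, Fin (n a)) ≃ Fin N) (P : Matrix (Fin N) (Fin N) ℂ) : Prop :=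
  ∀ s t : Σ a, Fin (n a), s.1 ≠ t.1 → P (E s) (E t) = 0

/-- matrices vanishing on the diagonal blocks -/
def NrOD (E : (Σ a, Fin (n a)) ≃ Fin N) (P : Matrix (Fin N) (Fin N) ℂ) : Prop :=
  ∀ s t : Σ a, Fin (n a), s.1 = t.1 → P (E s) (E t) = 0

theorem nr775_tr {E : (Σ a, Fin (n a)) ≃ Fin N} {P Q : Matrix (Fin N) (Fin N) ℂ} (hP : NrBD E P) (hQ : NrOD E Q) :
    (P * Q).trace = 0 := by
  simp only [Matrix.trace, Matrix.diag_apply, Matrix.mul_apply]
  rw [← E.sum_comp]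
  refine Finset.sum_eq_zero fun s _ => ?_
  rw [← E.sum_comp]
  refine Finset.sum_eq_zero fun t _ => ?_
  by_cases h : s.1 = t.1
  · rw [hQ t s h.symm, mul_zero]
  · rw [hP s t h, zero_mul]

theorem nr775_BDmul {E : (Σ a, Fin (n a)) ≃ Fin N} {P Q : Matrix (Fin N) (Fin N) ℂ} (hP : NrBD E P) (hQ : NrBD E Q) :
    NrBD E (P * Q) := by
  intro s t h
  rw [Matrix.mul_apply, ← E.sum_comp]
  refine Finset.sum_eq_zero fun r _ => ?_
  by_cases h1 : s.1 = r.1
  · rw [hQ r t (fun h2 => h (h1.trans h2)), mul_zero]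
  · rw [hP s r h1, zero_mul]

theorem nr775_BDsub {E : (Σ a, Fin (n a)) ≃ Fin N} {P Q : Matrix (Fin N) (Fin N) ℂ} (hP : NrBD E P) (hQ : NrBD E Q) :
    NrBD E (P - Q) := by
  intro s t h
  rw [Matrix.sub_apply, hP s t h, hQ s t h, sub_zero]

theorem nr775_bd (E : (Σ a, Fin (n a)) ≃ Fin N) (v : Fin k → ℂ) (s t : Σ a, Fin (n a)) :
    bd E v (E s) (E t) = if s = t then v s.1 else 0 := by
  simp [bd, Matrix.diagonal_apply]

theorem nr775_h (fr : NFr n T φ ψ) (A : Fin dh) : NrBD fr.E (T (φ (Sum.inl A))) := by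
  obtain ⟨p, rfl⟩ := ψ.surjective A
  rcases p with s | b
  · obtain ⟨⟨a, i⟩, rfl⟩ := fr.es.surjective s
    rw [fr.s_eq]
    rintro ⟨a1, i1⟩ ⟨a2, i2⟩ h
    simp only [bk, Matrix.submatrix_apply, Equiv.symm_apply_apply]
    exact Matrix.blockDiagonal'_apply_ne _ _ _ h
  · rw [fr.z_eq]
    intro s t h
    rw [nr775_bd, if_neg]
    rintro rfl
    exact h rfl

theorem nr775_f {f : Fin d → Fin d → Fin d → ℝ} (hb : Bas N d T f) (A B C : Fin d) :
    Complex.I * (f A B C : ℂ) = ((T A * T B - T B * T A) * T C).trace := by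
  rw [hb.comm, Finset.sum_mul, Matrix.trace_sum, Finset.sum_eq_single C]
  · rw [Matrix.smul_mul, Matrix.trace_smul, hb.ortho, if_pos rfl, smul_eq_mul, mul_one]
  · intro D _ hD
    rw [Matrix.smul_mul, Matrix.trace_smul, hb.ortho, if_neg hD, smul_zero]
  · simp

/-- the block diagonal colours form a subalgebra -/
theorem nr775_sub {F : Type u} [NormedAddCommGroup F] [InnerProductSpace ℂ F] (S : Setup d F) (hb : Bas N d T S.f)
    (fr : NFr n T φ ψ) : S.IsSub φ := by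
  intro A B C
  have h := nr775_f hb (φ (Sum.inl A)) (φ (Sum.inl B)) (φ (Sum.inr C))
  rw [nr775_tr (nr775_BDsub (nr775_BDmul (nr775_h fr A) (nr775_h fr B)) (nr775_BDmul (nr775_h fr B) (nr775_h fr A)))
    (fr.m_eq C)] at h
  have h2 := (mul_eq_zero.1 h).resolve_left Complex.I_ne_zero
  exact_mod_cast h2

/-- completeness -/
theorem nr775_complete {f : Fin d → Fin d → Fin d → ℝ} (M : Bas N d T f) (hN : 0 < N) (X : Matrix (Fin N) (Fin N) ℂ) :
    X = ∑ A, (T A * X).trace • T A + (X.trace / N) • (1 : Matrix (Fin N) (Fin N) ℂ) := by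
  have hN' : (N : ℂ) ≠ 0 := by exact_mod_cast hN.ne'
  let Λ : Matrix (Fin N) (Fin N) ℂ →ₗ[ℂ] (Fin d → ℂ) × ℂ :=
    { toFun := fun X => (fun A => (T A * X).trace, X.trace)
      map_add' := fun X Y => by
        ext <;> simp [mul_add, Matrix.trace_add]
      map_smul' := fun c X => by
        ext <;> simp [Matrix.trace_smul] }
  have hval : ∀ (c : Fin d → ℂ) (s : ℂ), Λ (∑ A, c A • T A +
      (s / N) • (1 : Matrix (Fin N) (Fin N) ℂ)) = (c, s) := by
    intro c s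
    apply Prod.ext
    · funext B
      change (T B * (∑ A, c A • T A + (s / N) • (1 : Matrix (Fin N) (Fin N) ℂ))).trace = c B
      rw [mul_add, Matrix.mul_sum, Matrix.trace_add, Matrix.trace_sum, Finset.sum_eq_single B]
      · rw [Matrix.mul_smul, Matrix.trace_smul, M.ortho, if_pos rfl, Matrix.mul_smul,
          mul_one, Matrix.trace_smul, M.tr0]
        simp
      · intro A _ hA
        rw [Matrix.mul_smul, Matrix.trace_smul, M.ortho, if_neg (Ne.symm hA), smul_zero]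
      · simp
    · change (∑ A, c A • T A + (s / N) • (1 : Matrix (Fin N) (Fin N) ℂ)).trace = s
      rw [Matrix.trace_add, Matrix.trace_sum, Finset.sum_eq_zero (fun A _ => by
        rw [Matrix.trace_smul, M.tr0, smul_zero]), Matrix.trace_smul, Matrix.trace_one]
      simp [hN']
  have hsurj : Function.Surjective Λ := fun y => ⟨_, hval y.1 y.2⟩
  have hrank : Module.finrank ℂ (Matrix (Fin N) (Fin N) ℂ) =
      Module.finrank ℂ ((Fin d → ℂ) × ℂ) := by
    rw [Module.finrank_matrix, Module.finrank_prod, Module.finrank_pi, Module.finrank_self,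
      Fintype.card_fin, Fintype.card_fin, M.dim_eq, mul_one]
    have : 1 ≤ N ^ 2 := Nat.one_le_pow _ _ hN
    have h2 : N ^ 2 = N * N := sq N
    omega
  have hinj : Function.Injective Λ :=
    (LinearMap.injective_iff_surjective_of_finrank_eq_finrank hrank).2 hsurj
  apply hinj
  rw [hval]
  rfl

/-- central matrix of a configuration -/
noncomputable def nrH (T : Fin d → Matrix (Fin N) (Fin N) ℂ) (φ : Spl dh dm d) (ψ : Spl ds dz dh) (η : Cfg dz) (i : Fin 9) :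
    Matrix (Fin N) (Fin N) ℂ := ∑ A, ((AD.cmb ψ 0 η (i, A) : ℝ) : ℂ) • T (φ (Sum.inl A))

/-- element of `m` -/
noncomputable def nrX (T : Fin d → Matrix (Fin N) (Fin N) ℂ) (φ : Spl dh dm d) (v : Fin dm → ℝ) :
    Matrix (Fin N) (Fin N) ℂ := ∑ C, ((v C : ℝ) : ℂ) • T (φ (Sum.inr C))

theorem nr775_H (fr : NFr n T φ ψ) (η : Cfg dz) (i : Fin 9) :
    nrH T φ ψ η i = bd fr.E fun a => ((fr.val η i a : ℝ) : ℂ) := by
  unfold nrH
  rw [← ψ.sum_comp, Fintype.sum_sum_type]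
  have h0 : ∀ a, AD.cmb ψ (0 : Cfg ds) η (i, ψ (Sum.inl a)) = 0 := by
    intro a
    simp [AD.cmb]
  have h1 : ∀ b, AD.cmb ψ (0 : Cfg ds) η (i, ψ (Sum.inr b)) = η (i, b) := by
    intro b
    simp [AD.cmb]
  simp only [h0, h1, Complex.ofReal_zero, zero_smul, Finset.sum_const_zero, zero_add, fr.z_eq]
  ext p q
  obtain ⟨s, rfl⟩ := fr.E.surjective p
  obtain ⟨t, rfl⟩ := fr.E.surjective q
  rw [Matrix.sum_apply, nr775_bd]
  simp only [Matrix.smul_apply, nr775_bd, smul_eq_mul]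
  by_cases h : s = t
  · simp only [if_pos h]
    unfold NFr.val
    push_cast
    rfl
  · simp [if_neg h]

theorem nr775_comm {F : Type u} [NormedAddCommGroup F] [InnerProductSpace ℂ F] (S : Setup d F) (hb : Bas N d T S.f)
    (fr : NFr n T φ ψ) (η : Cfg dz) (i : Fin 9) (v : Fin dm → ℝ) :
    nrH T φ ψ η i * nrX T φ v - nrX T φ v * nrH T φ ψ η i =
      Complex.I • nrX T φ (AD.Dz S φ ψ η i *ᵥ v) := by
  have hsub := nr775_sub S hb fr
  have hz : ∀ A C B, S.f (φ (Sum.inl A)) (φ (Sum.inr C)) (φ (Sum.inl B)) = 0 := by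
    intro A C B
    rw [S.f_cyc, S.f_cyc]
    exact hsub B A C
  unfold nrH nrX
  rw [Finset.sum_mul_sum, Finset.sum_mul_sum, Finset.sum_comm (s := (Finset.univ : Finset (Fin dm))), ← Finset.sum_sub_distrib]
  simp only [← Finset.sum_sub_distrib]
  have h1 : ∀ (A : Fin dh) (C : Fin dm),
      (((AD.cmb ψ (0 : Cfg ds) η (i, A) : ℝ) : ℂ) • T (φ (Sum.inl A))) * (((v C : ℝ) : ℂ) • T (φ (Sum.inr C))) -
        (((v C : ℝ) : ℂ) • T (φ (Sum.inr C))) * (((AD.cmb ψ (0 : Cfg ds) η (i, A) : ℝ) : ℂ) • T (φ (Sum.inl A))) =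
      ∑ B, (Complex.I * ((S.f (φ (Sum.inr B)) (φ (Sum.inl A)) (φ (Sum.inr C)) * AD.cmb ψ (0 : Cfg ds) η (i, A) * v C : ℝ) : ℂ)) •
        T (φ (Sum.inr B)) := by
    intro A C
    rw [smul_mul_smul_comm, smul_mul_smul_comm, mul_comm ((v C : ℝ) : ℂ), ← smul_sub, hb.comm, ← φ.sum_comp,
      Fintype.sum_sum_type]
    simp only [hz, Complex.ofReal_zero, mul_zero, zero_smul, Finset.sum_const_zero, zero_add]
    rw [Finset.smul_sum]
    refine Finset.sum_congr rfl fun B _ => ?_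
    rw [smul_smul, S.f_cyc (φ (Sum.inr B)) (φ (Sum.inl A)) (φ (Sum.inr C))]
    congr 1
    push_cast
    ring
  simp only [h1]
  rw [Finset.smul_sum]
  rw [Finset.sum_comm_cycle]
  refine Finset.sum_congr rfl fun B _ => ?_
  rw [smul_smul]
  simp only [← Finset.sum_smul]
  congr 1
  simp only [AD.Dz, Setup.Dy, Setup.Dm, Matrix.mulVec, dotProduct, Matrix.of_apply]
  push_cast
  rw [Finset.mul_sum, Finset.sum_comm]
  refine Finset.sum_congr rfl fun C _ => ?_
  rw [Finset.sum_mul, Finset.mul_sum]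

theorem nr775_Xz {f : Fin d → Fin d → Fin d → ℝ} (hb : Bas N d T f) (v : Fin dm → ℝ) (h : nrX T φ v = 0) : v = 0 := by
  funext C
  have h1 : (nrX T φ v * T (φ (Sum.inr C))).trace = ((v C : ℝ) : ℂ) := by
    unfold nrX
    rw [Finset.sum_mul, Matrix.trace_sum, Finset.sum_eq_single C]
    · rw [Matrix.smul_mul, Matrix.trace_smul, hb.ortho, if_pos rfl, smul_eq_mul, mul_one]
    · intro D _ hD
      rw [Matrix.smul_mul, Matrix.trace_smul, hb.ortho, if_neg (fun h => hD (by simpa using φ.injective h)), smul_zero]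
    · simp
  rw [h, zero_mul, Matrix.trace_zero] at h1
  exact_mod_cast h1.symm

theorem nr775_ent (fr : NFr n T φ ψ) (η : Cfg dz) (i : Fin 9) (X : Matrix (Fin N) (Fin N) ℂ) (s t : Σ a, Fin (n a)) :
    (nrH T φ ψ η i * X - X * nrH T φ ψ η i) (fr.E s) (fr.E t) =
      ((fr.val η i s.1 : ℝ) - (fr.val η i t.1 : ℝ) : ℂ) * X (fr.E s) (fr.E t) := by
  rw [nr775_H fr, Matrix.sub_apply, Matrix.mul_apply, Matrix.mul_apply, ← fr.E.sum_comp,
    ← fr.E.sum_comp (fun x => X (fr.E s) x * _)]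
  simp only [nr775_bd, ite_mul, zero_mul, mul_ite, mul_zero, Finset.sum_ite_eq, Finset.sum_ite_eq', Finset.mem_univ, if_true]
  ring

theorem nr775_anti {F : Type u} [NormedAddCommGroup F] [InnerProductSpace ℂ F] (S : Setup d F) (φ : Spl dh dm d) (i : Fin 9)
    (y : Cfg dh) : (S.Dy φ i y)ᵀ = -S.Dy φ i y := by
  ext B C
  simp only [Setup.Dy, Setup.Dm, Matrix.transpose_apply, Matrix.of_apply, Matrix.neg_apply]
  rw [← Finset.sum_neg_distrib]
  refine Finset.sum_congr rfl fun A _ => ?_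
  rw [S.f_cyc (φ (Sum.inr C)) (φ (Sum.inl A)) (φ (Sum.inr B)), S.f_swap (φ (Sum.inl A)) (φ (Sum.inr B)) (φ (Sum.inr C))]
  ring

theorem nr775_sq (D : Matrix (Fin dm) (Fin dm) ℝ) (hD : Dᵀ = -D) (v : Fin dm → ℝ) :
    (D *ᵥ v) ⬝ᵥ (D *ᵥ v) = -(((D * D) *ᵥ v) ⬝ᵥ v) := by
  rw [Matrix.dotProduct_mulVec, ← Matrix.mulVec_transpose, hD, Matrix.neg_mulVec, Matrix.mulVec_mulVec, neg_dotProduct]

theorem reg_stmt {F : Type u} [NormedAddCommGroup F] [InnerProductSpace ℂ F] (S : Setup d F) (fr : NFr n T φ ψ) :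
    RegStmt S fr := by
  intro hb I η
  constructor
  · intro hdet a b hab
    by_contra hcon
    push Not at hcon
    have hpa := fr.pos a
    have hpb := fr.pos b
    obtain ⟨s0, hs0⟩ : ∃ s0 : Σ a, Fin (n a), s0.1 = a := ⟨⟨a, ⟨0, hpa⟩⟩, rfl⟩
    obtain ⟨t0, ht0⟩ : ∃ t0 : Σ a, Fin (n a), t0.1 = b := ⟨⟨b, ⟨0, hpb⟩⟩, rfl⟩
    have hst : s0 ≠ t0 := by
      rintro rfl
      exact hab (hs0.symm.trans ht0)
    have hN : 0 < N := (fr.E s0).pos
    let Y : Matrix (Fin N) (Fin N) ℂ := Matrix.single (fr.E s0) (fr.E t0) 1 + Matrix.single (fr.E t0) (fr.E s0) 1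
    have hY : ∀ s t : Σ a, Fin (n a), Y (fr.E s) (fr.E t) = (if s0 = s ∧ t0 = t then 1 else 0) + (if t0 = s ∧ s0 = t then 1 else 0) := by
      intro s t
      simp only [Y, Matrix.add_apply, Matrix.single_apply, EmbeddingLike.apply_eq_iff_eq]
    have hYo : NrOD fr.E Y := by
      intro s t h
      rw [hY, if_neg, if_neg, add_zero]
      · rintro ⟨rfl, rfl⟩
        exact hab (hs0.symm.trans (h.symm.trans ht0))
      · rintro ⟨rfl, rfl⟩
        exact hab (hs0.symm.trans (h.trans ht0))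
    have hYh : Y.conjTranspose = Y := by
      simp only [Y, Matrix.conjTranspose_add, Matrix.conjTranspose_single, star_one]
      rw [add_comm]
    have hYt : Y.trace = 0 := by
      have h1 : (1 * Y).trace = 0 := by
        refine nr775_tr (E := fr.E) (fun s t h => ?_) hYo
        rw [Matrix.one_apply, if_neg]
        intro h2
        exact h (by rw [fr.E.injective h2])
      rwa [one_mul] at h1
    have hYc := nr775_complete hb hN Y
    rw [hYt, zero_div, zero_smul, add_zero, ← φ.sum_comp, Fintype.sum_sum_type] at hYc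
    have hYX : Y = nrX T φ fun C => (T (φ (Sum.inr C)) * Y).trace.re := by
      have e1 : ∀ A, (T (φ (Sum.inl A)) * Y).trace = 0 := fun A => nr775_tr (nr775_h fr A) hYo
      have e2 : ∀ C, (T (φ (Sum.inr C)) * Y).trace = (((T (φ (Sum.inr C)) * Y).trace.re : ℝ) : ℂ) := by
        intro C
        symm
        rw [← Complex.conj_eq_iff_re]
        have h1 : (T (φ (Sum.inr C)) * Y).conjTranspose.trace = star (T (φ (Sum.inr C)) * Y).trace :=
          Matrix.trace_conjTranspose _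
        rw [Matrix.conjTranspose_mul, hb.herm, hYh, Matrix.trace_mul_comm] at h1
        exact h1.symm
      conv_lhs => rw [hYc]
      simp only [e1, zero_smul, Finset.sum_const_zero, zero_add]
      unfold nrX
      exact Finset.sum_congr rfl fun C _ => by rw [← e2 C]
    obtain ⟨v, hv⟩ : ∃ v : Fin dm → ℝ, Y = nrX T φ v := ⟨_, hYX⟩
    have hv0 : v ≠ 0 := by
      rintro rfl
      have h1 : Y (fr.E s0) (fr.E t0) = 0 := by
        rw [hv]
        simp [nrX]
      rw [hY, if_pos ⟨rfl, rfl⟩, if_neg (fun h => hst h.1.symm)] at h1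
      simp at h1
    have hDv : ∀ i ∈ I, AD.Dz S φ ψ η i *ᵥ v = 0 := by
      intro i hi
      refine nr775_Xz (φ := φ) hb _ ?_
      have h1 := nr775_comm S hb fr η i v
      have h2 : nrH T φ ψ η i * nrX T φ v - nrX T φ v * nrH T φ ψ η i = 0 := by
        ext p q
        obtain ⟨s, rfl⟩ := fr.E.surjective p
        obtain ⟨t, rfl⟩ := fr.E.surjective q
        rw [nr775_ent fr, ← hv, hY]
        have hh := hcon i hi
        by_cases c1 : s0 = s ∧ t0 = t
        · obtain ⟨rfl, rfl⟩ := c1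
          rw [hs0, ht0, hh]
          simp
        · by_cases c2 : t0 = s ∧ s0 = t
          · obtain ⟨rfl, rfl⟩ := c2
            rw [hs0, ht0, hh]
            simp
          · rw [if_neg c1, if_neg c2]
            simp
      rw [h2] at h1
      exact (smul_eq_zero.1 h1.symm).resolve_left Complex.I_ne_zero
    refine hdet (Matrix.exists_mulVec_eq_zero_iff.1 ⟨v, hv0, ?_⟩)
    rw [Matrix.sum_mulVec]
    refine Finset.sum_eq_zero fun i hi => ?_
    rw [← Matrix.mulVec_mulVec, hDv i hi, Matrix.mulVec_zero]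
  · intro h hdet
    obtain ⟨v, hv, hv0⟩ := Matrix.exists_mulVec_eq_zero_iff.2 hdet
    have h1 : ∑ i ∈ I, (AD.Dz S φ ψ η i *ᵥ v) ⬝ᵥ (AD.Dz S φ ψ η i *ᵥ v) = 0 := by
      have h2 : ∀ i, (AD.Dz S φ ψ η i *ᵥ v) ⬝ᵥ (AD.Dz S φ ψ η i *ᵥ v) =
          -(((AD.Dz S φ ψ η i * AD.Dz S φ ψ η i) *ᵥ v) ⬝ᵥ v) := fun i => nr775_sq _ (nr775_anti S φ i _) v
      simp only [h2]
      rw [Finset.sum_neg_distrib, ← sum_dotProduct, ← Matrix.sum_mulVec, hv0, zero_dotProduct, neg_zero]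
    have h3 : ∀ i ∈ I, AD.Dz S φ ψ η i *ᵥ v = 0 := by
      intro i hi
      have h4 := (Finset.sum_eq_zero_iff_of_nonneg fun i _ => Finset.sum_nonneg fun _ _ => mul_self_nonneg _).1 h1 i hi
      exact dotProduct_self_eq_zero.1 h4
    refine hv (nr775_Xz (φ := φ) hb v ?_)
    ext p q
    obtain ⟨s, rfl⟩ := fr.E.surjective p
    obtain ⟨t, rfl⟩ := fr.E.surjective q
    by_cases hst : s.1 = t.1
    · unfold nrX
      rw [Matrix.sum_apply]
      simp [fr.m_eq _ s t hst]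
    · obtain ⟨i, hi, hne⟩ := h s.1 t.1 hst
      have h5 := nr775_comm S hb fr η i v
      have h6 : nrX T φ (0 : Fin dm → ℝ) = 0 := by simp [nrX]
      rw [h3 i hi, h6, smul_zero] at h5
      have h7 := nr775_ent fr η i (nrX T φ v) s t
      rw [h5, Matrix.zero_apply] at h7
      have h8 : ((fr.val η i s.1 : ℝ) - (fr.val η i t.1 : ℝ) : ℂ) ≠ 0 := by
        rw [← Complex.ofReal_sub]
        exact_mod_cast sub_ne_zero.2 hne
      rw [Matrix.zero_apply]
      exact (mul_eq_zero.1 h7.symm).resolve_left h8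

end Vale.Agent.P353.Z.ANF
end

section

/-! # P353, all `N`, block NF: block values of the central configurations -/

open MeasureTheory Filter Topology Matrix
open scoped ContDiff

namespace Vale.Agent.P353.Z.ANF

universe u

variable {N d dh dm ds dz k : ℕ} {n : Fin k → ℕ} {T : Fin d → Matrix (Fin N) (Fin N) ℂ} {φ : Spl dh dm d} {ψ : Spl ds dz dh}

theorem nv542_sum {M : Type*} [AddCommMonoid M] (g : Fin k → M) :
    ∑ s : Σ a, Fin (n a), g s.1 = ∑ a, n a • g a := by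
  rw [Fintype.sum_sigma]
  simp

theorem nv542_tr (E : (Σ a, Fin (n a)) ≃ Fin N) (v : Fin k → ℂ) : (bd E v).trace = ∑ a, (n a : ℂ) * v a := by
  simp only [Matrix.trace, Matrix.diag_apply]
  rw [← E.sum_comp]
  simp only [nr775_bd, if_true]
  rw [nv542_sum]
  simp

theorem nv542_bdmul (E : (Σ a, Fin (n a)) ≃ Fin N) (v : Fin k → ℂ) (X : Matrix (Fin N) (Fin N) ℂ)
    (s t : Σ a, Fin (n a)) : (bd E v * X) (E s) (E t) = v s.1 * X (E s) (E t) := by
  rw [Matrix.mul_apply, ← E.sum_comp]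
  simp [nr775_bd]

theorem nv542_tr2 (E : (Σ a, Fin (n a)) ≃ Fin N) (v w : Fin k → ℂ) :
    (bd E v * bd E w).trace = ∑ a, (n a : ℂ) * (v a * w a) := by
  simp only [Matrix.trace, Matrix.diag_apply]
  rw [← E.sum_comp]
  simp only [nv542_bdmul, nr775_bd, if_true]
  rw [nv542_sum fun a => v a * w a]
  simp

theorem nv542_bk (E : (Σ a, Fin (n a)) ≃ Fin N) (a : Fin k) (X : Matrix (Fin (n a)) (Fin (n a)) ℂ) (v : Fin k → ℂ)
    (hX : X.trace = 0) : (bk E a X * bd E v).trace = 0 := by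
  rw [Matrix.trace_mul_comm]
  simp only [Matrix.trace, Matrix.diag_apply]
  rw [← E.sum_comp]
  simp only [nv542_bdmul]
  rw [Fintype.sum_sigma, Finset.sum_eq_single a]
  · simp only [bk, Matrix.submatrix_apply, Equiv.symm_apply_apply, Matrix.blockDiagonal'_apply_eq, Pi.single_eq_same]
    rw [← Finset.mul_sum]
    have : ∑ i, X i i = 0 := hX
    rw [this, mul_zero]
  · intro b _ hb
    refine Finset.sum_eq_zero fun i _ => ?_
    simp only [bk, Matrix.submatrix_apply, Equiv.symm_apply_apply, Matrix.blockDiagonal'_apply_eq, Pi.single_eq_of_ne hb]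
    simp
  · simp

theorem nv542_tr0 {f : Fin d → Fin d → Fin d → ℝ} (hb : Bas N d T f) (fr : NFr n T φ ψ) (B : Fin dz) :
    ∑ a, (n a : ℝ) * fr.c B a = 0 := by
  have h := hb.tr0 (φ (Sum.inl (ψ (Sum.inr B))))
  rw [fr.z_eq, nv542_tr] at h
  exact_mod_cast h

theorem nv542_orth {f : Fin d → Fin d → Fin d → ℝ} (hb : Bas N d T f) (fr : NFr n T φ ψ) (B B' : Fin dz) :
    ∑ a, (n a : ℝ) * (fr.c B a * fr.c B' a) = if B = B' then 1 else 0 := by
  have h := hb.ortho (φ (Sum.inl (ψ (Sum.inr B)))) (φ (Sum.inl (ψ (Sum.inr B'))))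
  rw [fr.z_eq, fr.z_eq, nv542_tr2] at h
  have h2 : (φ (Sum.inl (ψ (Sum.inr B))) = φ (Sum.inl (ψ (Sum.inr B')))) ↔ B = B' := by simp
  simp only [h2] at h
  by_cases hB : B = B'
  · rw [if_pos hB] at h ⊢
    exact_mod_cast h
  · rw [if_neg hB] at h ⊢
    exact_mod_cast h

/-- the coordinates are recovered from the values -/
theorem nv542_coord {f : Fin d → Fin d → Fin d → ℝ} (hb : Bas N d T f) (fr : NFr n T φ ψ) (η : Cfg dz) (i : Fin 9)
    (B : Fin dz) : ∑ a, (n a : ℝ) * (fr.c B a * fr.val η i a) = η (i, B) := by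
  unfold NFr.val
  have h1 : ∀ a, (n a : ℝ) * (fr.c B a * ∑ B', η (i, B') * fr.c B' a) =
      ∑ B', η (i, B') * ((n a : ℝ) * (fr.c B a * fr.c B' a)) := by
    intro a
    rw [Finset.mul_sum, Finset.mul_sum]
    exact Finset.sum_congr rfl fun B' _ => by ring
  simp only [h1]
  rw [Finset.sum_comm]
  simp only [← Finset.mul_sum, nv542_orth hb fr]
  simp

/-- completeness of the block scalar matrices -/
theorem nv542_comp {f : Fin d → Fin d → Fin d → ℝ} (hb : Bas N d T f) (fr : NFr n T φ ψ) (v : Fin k → ℝ)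
    (hv : ∑ a, (n a : ℝ) * v a = 0) (a : Fin k) : ∑ B, (∑ b, (n b : ℝ) * (fr.c B b * v b)) * fr.c B a = v a := by
  have hpa := fr.pos a
  obtain ⟨s0, hs0⟩ : ∃ s0 : Σ a, Fin (n a), s0.1 = a := ⟨⟨a, ⟨0, hpa⟩⟩, rfl⟩
  have hN : 0 < N := (fr.E s0).pos
  have htr : (bd fr.E fun b => ((v b : ℝ) : ℂ)).trace = 0 := by
    rw [nv542_tr]
    exact_mod_cast hv
  have hc := nr775_complete hb hN (bd fr.E fun b => ((v b : ℝ) : ℂ))
  rw [htr, zero_div, zero_smul, add_zero, ← φ.sum_comp, Fintype.sum_sum_type, ← ψ.sum_comp, Fintype.sum_sum_type] at hc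
  have hbd : NrBD fr.E (bd fr.E fun b => ((v b : ℝ) : ℂ)) := by
    intro s t h
    rw [nr775_bd, if_neg]
    rintro rfl
    exact h rfl
  have e1 : ∀ A, (T (φ (Sum.inl (ψ (Sum.inl A)))) * bd fr.E fun b => ((v b : ℝ) : ℂ)).trace = 0 := by
    intro A
    obtain ⟨⟨b, i⟩, rfl⟩ := fr.es.surjective A
    rw [fr.s_eq]
    exact nv542_bk _ _ _ _ ((fr.Tb_bas (n b) (fr.pos b)).tr0 i)
  have e2 : ∀ C, (T (φ (Sum.inr C)) * bd fr.E fun b => ((v b : ℝ) : ℂ)).trace = 0 := by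
    intro C
    rw [Matrix.trace_mul_comm]
    exact nr775_tr hbd (fr.m_eq C)
  simp only [e1, e2, zero_smul, Finset.sum_const_zero, zero_add, add_zero, fr.z_eq, nv542_tr2] at hc
  have h3 := congrFun (congrFun hc (fr.E s0)) (fr.E s0)
  rw [Matrix.sum_apply, nr775_bd, if_pos rfl] at h3
  simp only [Matrix.smul_apply, nr775_bd, if_true, smul_eq_mul, hs0] at h3
  exact_mod_cast h3.symm

theorem val_stmt (f : Fin d → Fin d → Fin d → ℝ) (fr : NFr n T φ ψ) : ValStmt f fr := by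
  intro hb
  refine ⟨fun η i => ?_, fun v hv => ?_, fun η η' h => ?_, fun η i => ?_, nv542_tr0 hb fr⟩
  · unfold NFr.val
    have h1 : ∀ a, (n a : ℝ) * ∑ B, η (i, B) * fr.c B a = ∑ B, η (i, B) * ((n a : ℝ) * fr.c B a) := by
      intro a
      rw [Finset.mul_sum]
      exact Finset.sum_congr rfl fun B _ => by ring
    simp only [h1]
    rw [Finset.sum_comm]
    simp only [← Finset.mul_sum, nv542_tr0 hb fr, mul_zero, Finset.sum_const_zero]
  · refine ⟨WithLp.toLp 2 fun q : Fin 9 × Fin dz => ∑ b, (n b : ℝ) * (fr.c q.2 b * v q.1 b), fun i a => ?_⟩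
    exact nv542_comp hb fr (v i) (hv i) a
  · ext ⟨i, B⟩
    rw [← nv542_coord hb fr η i B, ← nv542_coord hb fr η' i B]
    simp only [h]
  · have h1 : ∀ a, (n a : ℝ) * fr.val η i a ^ 2 = ∑ B, η (i, B) * ((n a : ℝ) * (fr.c B a * fr.val η i a)) := by
      intro a
      have h2 : fr.val η i a ^ 2 = (∑ B, η (i, B) * fr.c B a) * fr.val η i a := by
        rw [sq]
        rfl
      rw [h2, Finset.sum_mul, Finset.mul_sum]
      exact Finset.sum_congr rfl fun B _ => by ring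
    simp only [h1]
    rw [Finset.sum_comm]
    simp only [← Finset.mul_sum, nv542_coord hb fr]
    exact Finset.sum_congr rfl fun B _ => by ring

end Vale.Agent.P353.Z.ANF
end

section

/-! # P353, all `N`, block NF: the adjoint action of an exchange of two equal blocks (`SwStmt`) -/

open MeasureTheory Filter Topology Matrix
open scoped ContDiff

namespace Vale.Agent.P353.Z

namespace ANF

namespace Sw518

variable {k : ℕ} {n : Fin k → ℕ} {a b : Fin k}

lemma sw_a (hab : n a = n b) (x : Fin (n a)) : swP a b hab ⟨a, x⟩ = ⟨b, Fin.cast hab x⟩ := by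
  unfold swP
  rw [dif_pos rfl]

lemma sw_b (hne : a ≠ b) (hab : n a = n b) (x : Fin (n b)) : swP a b hab ⟨b, x⟩ = ⟨a, Fin.cast hab.symm x⟩ := by
  unfold swP
  rw [dif_neg (show ¬ (⟨b, x⟩ : Σ a, Fin (n a)).1 = a from hne.symm), dif_pos rfl]

lemma sw_o (hab : n a = n b) (p : Σ a, Fin (n a)) (h1 : p.1 ≠ a) (h2 : p.1 ≠ b) : swP a b hab p = p := by
  unfold swP
  rw [dif_neg h1, dif_neg h2]

lemma sw_fst (hne : a ≠ b) (hab : n a = n b) (p : Σ a, Fin (n a)) : (swP a b hab p).1 = Equiv.swap a b p.1 := by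
  obtain ⟨e, x⟩ := p
  by_cases h1 : e = a
  · subst h1
    rw [sw_a, Equiv.swap_apply_left]
  · by_cases h2 : e = b
    · subst h2
      rw [sw_b hne, Equiv.swap_apply_right]
    · rw [sw_o hab _ h1 h2, Equiv.swap_apply_of_ne_of_ne h1 h2]

lemma sw_sw (hne : a ≠ b) (hab : n a = n b) (p : Σ a, Fin (n a)) : swP a b hab (swP a b hab p) = p := by
  obtain ⟨e, x⟩ := p
  by_cases h1 : e = a
  · subst h1
    rw [sw_a, sw_b hne]
    rfl
  · by_cases h2 : e = b
    · subst h2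
      rw [sw_b hne, sw_a]
      rfl
    · rw [sw_o hab ⟨e, x⟩ h1 h2, sw_o hab ⟨e, x⟩ h1 h2]

lemma sw_iff (hne : a ≠ b) (hab : n a = n b) (p q : Σ a, Fin (n a)) : p = swP a b hab q ↔ q = swP a b hab p := by
  constructor
  · rintro rfl
    rw [sw_sw hne]
  · rintro rfl
    rw [sw_sw hne]

lemma sw_inj (hne : a ≠ b) (hab : n a = n b) {p q : Σ a, Fin (n a)} (h : swP a b hab p = swP a b hab q) : p = q := by
  rw [← sw_sw hne hab p, h, sw_sw hne]

/-- the exchange as an equivalence -/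
def swE (hne : a ≠ b) (hab : n a = n b) : (Σ a, Fin (n a)) ≃ (Σ a, Fin (n a)) where
  toFun := swP a b hab
  invFun := swP a b hab
  left_inv := sw_sw hne hab
  right_inv := sw_sw hne hab

section conj

variable {N : ℕ} (E : (Σ a, Fin (n a)) ≃ Fin N)

lemma conj_apply (hne : a ≠ b) (hab : n a = n b) {V : Matrix (Fin N) (Fin N) ℂ} {c : ℂ} (hc : ‖c‖ = 1)
    (hV : ∀ s t, V (E s) (E t) = if s = swP a b hab t then c else 0) (X : Matrix (Fin N) (Fin N) ℂ) (s t : Σ a, Fin (n a)) :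
    (V * X * V.conjTranspose) (E s) (E t) = X (E (swP a b hab s)) (E (swP a b hab t)) := by
  have h1 : ∀ y, (V * X) (E s) y = c * X (E (swP a b hab s)) y := by
    intro y
    rw [Matrix.mul_apply, ← E.sum_comp]
    rw [Finset.sum_eq_single (swP a b hab s)]
    · rw [hV, sw_sw hne, if_pos rfl]
    · intro t _ ht
      rw [hV, if_neg, zero_mul]
      intro h
      exact ht ((sw_iff hne hab _ _).1 h)
    · intro h
      exact absurd (Finset.mem_univ _) h
  rw [Matrix.mul_apply, ← E.sum_comp]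
  rw [Finset.sum_eq_single (swP a b hab t)]
  · rw [h1, Matrix.conjTranspose_apply, hV, sw_sw hne, if_pos rfl, mul_comm c, mul_assoc]
    have h2 : c * star c = 1 := by
      have h3 : c * (starRingEnd ℂ) c = ((‖c‖ ^ 2 : ℝ) : ℂ) := by
        rw [Complex.mul_conj, Complex.normSq_eq_norm_sq]
      rw [hc, one_pow, Complex.ofReal_one] at h3
      exact h3
    rw [h2, mul_one]
  · intro u _ hu
    rw [Matrix.conjTranspose_apply, hV, if_neg, star_zero, mul_zero]
    intro h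
    exact hu ((sw_iff hne hab _ _).1 h)
  · intro h
    exact absurd (Finset.mem_univ _) h

lemma trace_apply (A B : Matrix (Fin N) (Fin N) ℂ) :
    (A * B).trace = ∑ p, ∑ q, A (E p) (E q) * B (E q) (E p) := by
  rw [Matrix.trace, ← E.sum_comp]
  refine Finset.sum_congr rfl fun p _ => ?_
  rw [Matrix.diag_apply, Matrix.mul_apply, ← E.sum_comp]

end conj

section frame

variable {N d dh dm ds dz : ℕ} {T : Fin d → Matrix (Fin N) (Fin N) ℂ} {φ : Spl dh dm d} {ψ : Spl ds dz dh}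

/-- exchange of the block labels of the `s` colours -/
def swT (a b : Fin k) (hab : n a = n b) (t : Σ a, Fin (n a ^ 2 - 1)) : Σ a, Fin (n a ^ 2 - 1) :=
  if h : t.1 = a then ⟨b, Fin.cast (by rw [h, hab]) t.2⟩ else
    if h : t.1 = b then ⟨a, Fin.cast (by rw [h, hab]) t.2⟩ else t

lemma s_apply (fr : NFr n T φ ψ) (t : Σ a, Fin (n a ^ 2 - 1)) (p q : Σ a, Fin (n a)) :
    T (φ (Sum.inl (ψ (Sum.inl (fr.es t))))) (fr.E p) (fr.E q) =
      Matrix.blockDiagonal' (Pi.single t.1 (fr.Tb (n t.1) t.2) : ∀ b, Matrix (Fin (n b)) (Fin (n b)) ℂ) p q := by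
  obtain ⟨e, i⟩ := t
  rw [fr.s_eq, bk, Matrix.submatrix_apply, Equiv.symm_apply_apply, Equiv.symm_apply_apply]

lemma s_ne1 (fr : NFr n T φ ψ) (t : Σ a, Fin (n a ^ 2 - 1)) (p q : Σ a, Fin (n a)) (h : p.1 ≠ q.1) :
    T (φ (Sum.inl (ψ (Sum.inl (fr.es t))))) (fr.E p) (fr.E q) = 0 := by
  rw [s_apply fr, Matrix.blockDiagonal'_apply, dif_neg h]

lemma s_ne2 (fr : NFr n T φ ψ) (t : Σ a, Fin (n a ^ 2 - 1)) (p q : Σ a, Fin (n a)) (h : p.1 ≠ t.1) :
    T (φ (Sum.inl (ψ (Sum.inl (fr.es t))))) (fr.E p) (fr.E q) = 0 := by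
  rw [s_apply fr, Matrix.blockDiagonal'_apply]
  split_ifs with h1
  · rw [Pi.single_eq_of_ne h]
    rfl
  · rfl

lemma s_eq (fr : NFr n T φ ψ) (e : Fin k) (i : Fin (n e ^ 2 - 1)) (x y : Fin (n e)) :
    T (φ (Sum.inl (ψ (Sum.inl (fr.es ⟨e, i⟩))))) (fr.E ⟨e, x⟩) (fr.E ⟨e, y⟩) = fr.Tb (n e) i x y := by
  rw [s_apply fr, Matrix.blockDiagonal'_apply, dif_pos rfl]
  simp only [Pi.single_eq_same]
  rfl

lemma z_apply (fr : NFr n T φ ψ) (B : Fin dz) (p q : Σ a, Fin (n a)) :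
    T (φ (Sum.inl (ψ (Sum.inr B)))) (fr.E p) (fr.E q) = if p = q then ((fr.c B p.1 : ℝ) : ℂ) else 0 := by
  rw [fr.z_eq, bd, Matrix.submatrix_apply, Equiv.symm_apply_apply, Equiv.symm_apply_apply, Matrix.diagonal_apply]

lemma h_ne (fr : NFr n T φ ψ) (A : Fin dh) (p q : Σ a, Fin (n a)) (h : p.1 ≠ q.1) :
    T (φ (Sum.inl A)) (fr.E p) (fr.E q) = 0 := by
  obtain ⟨A', rfl⟩ := ψ.surjective A
  rcases A' with A' | A'
  · obtain ⟨t, rfl⟩ := fr.es.surjective A'
    exact s_ne1 fr t p q h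
  · rw [z_apply fr, if_neg]
    rintro rfl
    exact h rfl

lemma Tb_cast (Tb : ∀ m : ℕ, Fin (m ^ 2 - 1) → Matrix (Fin m) (Fin m) ℂ) {m m' : ℕ} (h : m = m') (i : Fin (m ^ 2 - 1))
    (x y : Fin m') (h1 : m ^ 2 - 1 = m' ^ 2 - 1) :
    Tb m' (Fin.cast h1 i) x y = Tb m i (Fin.cast h.symm x) (Fin.cast h.symm y) := by
  subst h
  rfl

/-- an exchange permutes the `s` colours -/
lemma s_sw (fr : NFr n T φ ψ) (hne : a ≠ b) (hab : n a = n b) (t : Σ a, Fin (n a ^ 2 - 1)) (p q : Σ a, Fin (n a)) :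
    T (φ (Sum.inl (ψ (Sum.inl (fr.es t))))) (fr.E (swP a b hab p)) (fr.E (swP a b hab q)) =
      T (φ (Sum.inl (ψ (Sum.inl (fr.es (swT a b hab t)))))) (fr.E p) (fr.E q) := by
  by_cases hpq : p.1 = q.1
  swap
  · rw [s_ne1 fr _ p q hpq, s_ne1 fr]
    rw [sw_fst hne, sw_fst hne]
    exact fun h => hpq ((Equiv.swap a b).injective h)
  obtain ⟨e, x⟩ := p
  obtain ⟨e', y⟩ := q
  simp only at hpq
  subst hpq
  obtain ⟨f, i⟩ := t
  by_cases h1 : f = a
  · subst h1
    have h3 : swT f b hab ⟨f, i⟩ = ⟨b, Fin.cast (by rw [hab]) i⟩ := by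
      unfold swT
      rw [dif_pos rfl]
    rw [h3]
    by_cases h4 : e = b
    · subst h4
      rw [sw_b hne, sw_b hne, s_eq fr, s_eq fr, Tb_cast fr.Tb hab]
    · rw [s_ne2 fr ⟨b, _⟩ ⟨e, x⟩ ⟨e, y⟩ h4, s_ne2 fr]
      rw [sw_fst hne]
      intro h5
      apply h4
      have h6 := congrArg (Equiv.swap f b) h5
      rw [Equiv.swap_apply_self] at h6
      simpa using h6
  · by_cases h2 : f = b
    · subst h2
      have h3 : swT a f hab ⟨f, i⟩ = ⟨a, Fin.cast (by rw [hab]) i⟩ := by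
        unfold swT
        rw [dif_neg (show ¬ (⟨f, i⟩ : Σ a, Fin (n a ^ 2 - 1)).1 = a from h1), dif_pos rfl]
      rw [h3]
      by_cases h4 : e = a
      · subst h4
        rw [sw_a, sw_a, s_eq fr, s_eq fr, Tb_cast fr.Tb hab.symm]
      · rw [s_ne2 fr ⟨a, _⟩ ⟨e, x⟩ ⟨e, y⟩ h4, s_ne2 fr]
        rw [sw_fst hne]
        intro h5
        apply h4
        have h6 := congrArg (Equiv.swap a f) h5
        rw [Equiv.swap_apply_self] at h6
        simpa using h6
    · have h3 : swT a b hab ⟨f, i⟩ = ⟨f, i⟩ := by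
        unfold swT
        rw [dif_neg (show ¬ (⟨f, i⟩ : Σ a, Fin (n a ^ 2 - 1)).1 = a from h1),
          dif_neg (show ¬ (⟨f, i⟩ : Σ a, Fin (n a ^ 2 - 1)).1 = b from h2)]
      rw [h3]
      by_cases h4 : e = f
      · subst h4
        rw [sw_o hab _ h1 h2, sw_o hab _ h1 h2]
      · rw [s_ne2 fr ⟨f, i⟩ ⟨e, x⟩ ⟨e, y⟩ h4, s_ne2 fr]
        rw [sw_fst hne]
        intro h5
        apply h4
        have h6 := congrArg (Equiv.swap a b) h5
        rw [Equiv.swap_apply_self] at h6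
        simp only at h6
        rw [h6, Equiv.swap_apply_of_ne_of_ne h1 h2]

lemma z_sw (fr : NFr n T φ ψ) (hne : a ≠ b) (hab : n a = n b) (B : Fin dz) (p q : Σ a, Fin (n a)) :
    T (φ (Sum.inl (ψ (Sum.inr B)))) (fr.E (swP a b hab p)) (fr.E (swP a b hab q)) =
      if p = q then ((fr.c B (Equiv.swap a b p.1) : ℝ) : ℂ) else 0 := by
  rw [z_apply fr, sw_fst hne]
  by_cases h : p = q
  · subst h
    rw [if_pos rfl, if_pos rfl]
  · rw [if_neg h, if_neg]
    exact fun h1 => h (sw_inj hne hab h1)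

/-- the adjoint matrix of an exchange -/
lemma ad_eq (fr : NFr n T φ ψ) (hne : a ≠ b) (hab : n a = n b) {V : BFSS.SU N} {c : ℂ} (hc : ‖c‖ = 1)
    (hV : ∀ s t, V.val (fr.E s) (fr.E t) = if s = swP a b hab t then c else 0) (B A : Fin d) :
    adO T V B A = (∑ p, ∑ q, T B (fr.E p) (fr.E q) * T A (fr.E (swP a b hab q)) (fr.E (swP a b hab p))).re := by
  rw [adO, Matrix.of_apply, BFSS.adCoeff, trace_apply fr.E]
  congr 1
  refine Finset.sum_congr rfl fun p _ => Finset.sum_congr rfl fun q _ => ?_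
  rw [conj_apply fr.E hne hab hc hV]

lemma ad_symm (fr : NFr n T φ ψ) (hne : a ≠ b) (hab : n a = n b) {V : BFSS.SU N} {c : ℂ} (hc : ‖c‖ = 1)
    (hV : ∀ s t, V.val (fr.E s) (fr.E t) = if s = swP a b hab t then c else 0) (B A : Fin d) :
    adO T V B A = (∑ p, ∑ q, T B (fr.E (swP a b hab p)) (fr.E (swP a b hab q)) * T A (fr.E q) (fr.E p)).re := by
  rw [ad_eq fr hne hab hc hV]
  congr 1
  rw [← (swE hne hab).sum_comp]
  refine Finset.sum_congr rfl fun p _ => ?_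
  rw [← (swE hne hab).sum_comp]
  refine Finset.sum_congr rfl fun q _ => ?_
  change T B (fr.E (swP a b hab p)) (fr.E (swP a b hab q)) *
    T A (fr.E (swP a b hab (swP a b hab q))) (fr.E (swP a b hab (swP a b hab p))) = _
  rw [sw_sw hne, sw_sw hne]

end frame

end Sw518

open Sw518 in
/-- **NF-Sw** -/
theorem sw_stmt {N d dh dm ds dz k : ℕ} {n : Fin k → ℕ} {T : Fin d → Matrix (Fin N) (Fin N) ℂ} {φ : Spl dh dm d}
    {ψ : Spl ds dz dh} (f : Fin d → Fin d → Fin d → ℝ) (fr : NFr n T φ ψ) (hVal : ValStmt f fr) : SwStmt f fr := by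
  intro hB a b hne hab V c hc hV
  have hT : ∀ A B, ∑ p, ∑ q, T A (fr.E p) (fr.E q) * T B (fr.E q) (fr.E p) = if A = B then 1 else 0 := by
    intro A B
    rw [← trace_apply fr.E, hB.ortho]
  -- action on the `s` colours
  have hs : ∀ (B : Fin d) (t : Σ a, Fin (n a ^ 2 - 1)), adO T V B (φ (Sum.inl (ψ (Sum.inl (fr.es t))))) =
      if B = φ (Sum.inl (ψ (Sum.inl (fr.es (swT a b hab t))))) then 1 else 0 := by
    intro B t
    rw [ad_eq fr hne hab hc hV]
    simp only [s_sw fr hne hab]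
    rw [hT]
    split_ifs <;> simp
  have hs' : ∀ (A : Fin d) (t : Σ a, Fin (n a ^ 2 - 1)), adO T V (φ (Sum.inl (ψ (Sum.inl (fr.es t))))) A =
      if φ (Sum.inl (ψ (Sum.inl (fr.es (swT a b hab t))))) = A then 1 else 0 := by
    intro A t
    rw [ad_symm fr hne hab hc hV]
    simp only [s_sw fr hne hab]
    rw [hT]
    split_ifs <;> simp
  have hBlk : Blk φ ψ (adO T V) := by
    refine ⟨?_, ?_, ?_, ?_⟩
    · intro A B
      rw [ad_eq fr hne hab hc hV, Finset.sum_eq_zero, Complex.zero_re]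
      intro p _
      refine Finset.sum_eq_zero fun q _ => ?_
      by_cases h : p.1 = q.1
      · rw [fr.m_eq B, mul_zero]
        rw [sw_fst hne, sw_fst hne, h]
      · rw [h_ne fr A p q h, zero_mul]
    · intro A B
      rw [ad_eq fr hne hab hc hV, Finset.sum_eq_zero, Complex.zero_re]
      intro p _
      refine Finset.sum_eq_zero fun q _ => ?_
      by_cases h : p.1 = q.1
      · rw [fr.m_eq B p q h, zero_mul]
      · rw [h_ne fr A, mul_zero]
        rw [sw_fst hne, sw_fst hne]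
        exact fun h1 => h ((Equiv.swap a b).injective h1).symm
    · intro A B
      obtain ⟨t, rfl⟩ := fr.es.surjective A
      rw [hs', if_neg]
      intro h
      have h1 := ψ.injective (Sum.inl.inj (φ.injective h))
      exact absurd h1 (by simp)
    · intro A B
      obtain ⟨t, rfl⟩ := fr.es.surjective A
      rw [hs, if_neg]
      intro h
      have h1 := ψ.injective (Sum.inl.inj (φ.injective h))
      exact absurd h1 (by simp)
  refine ⟨hBlk, ?_, ?_⟩
  · obtain ⟨-, hv2, -, -, hv5⟩ := hVal hB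
    -- orthonormality of the `c`
    have hsg : ∀ g : Fin k → ℝ, ∑ p : (Σ a, Fin (n a)), g p.1 = ∑ e, (n e : ℝ) * g e := by
      intro g
      rw [Fintype.sum_sigma]
      refine Finset.sum_congr rfl fun e _ => ?_
      change ∑ _y : Fin (n e), g e = _
      rw [Finset.sum_const, Finset.card_univ, Fintype.card_fin, nsmul_eq_mul]
    have hcc : ∀ B B', ∑ e, (n e : ℝ) * (fr.c B e * fr.c B' e) = if B = B' then 1 else 0 := by
      intro B B'
      have h1 := hT (φ (Sum.inl (ψ (Sum.inr B)))) (φ (Sum.inl (ψ (Sum.inr B'))))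
      simp only [z_apply fr] at h1
      have h2 : ∀ p : (Σ a, Fin (n a)), ∑ q, (if p = q then ((fr.c B p.1 : ℝ) : ℂ) else 0) *
          (if q = p then ((fr.c B' q.1 : ℝ) : ℂ) else 0) = ((fr.c B p.1 * fr.c B' p.1 : ℝ) : ℂ) := by
        intro p
        rw [Finset.sum_eq_single p]
        · rw [if_pos rfl, if_pos rfl, Complex.ofReal_mul]
        · intro q _ hq
          rw [if_neg (Ne.symm hq), zero_mul]
        · intro h
          exact absurd (Finset.mem_univ _) h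
      rw [Finset.sum_congr rfl fun p _ => h2 p, ← Complex.ofReal_sum, hsg (fun e => fr.c B e * fr.c B' e)] at h1
      simp only [EmbeddingLike.apply_eq_iff_eq, Sum.inl.injEq, Sum.inr.injEq] at h1
      split_ifs at h1 ⊢ with h3
      · exact_mod_cast h1
      · exact_mod_cast h1
    have hz : ∀ B B', zO φ ψ (adO T V) B B' = ∑ e, (n e : ℝ) * (fr.c B e * fr.c B' (Equiv.swap a b e)) := by
      intro B B'
      rw [zO, Matrix.of_apply, ad_eq fr hne hab hc hV]
      simp only [z_sw fr hne hab, z_apply fr]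
      have h2 : ∀ p : (Σ a, Fin (n a)), ∑ q, (if p = q then ((fr.c B p.1 : ℝ) : ℂ) else 0) *
          (if q = p then ((fr.c B' (Equiv.swap a b q.1) : ℝ) : ℂ) else 0) =
          ((fr.c B p.1 * fr.c B' (Equiv.swap a b p.1) : ℝ) : ℂ) := by
        intro p
        rw [Finset.sum_eq_single p]
        · rw [if_pos rfl, if_pos rfl, Complex.ofReal_mul]
        · intro q _ hq
          rw [if_neg (Ne.symm hq), zero_mul]
        · intro h
          exact absurd (Finset.mem_univ _) h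
      rw [Finset.sum_congr rfl fun p _ => h2 p, ← Complex.ofReal_sum,
        hsg (fun e => fr.c B e * fr.c B' (Equiv.swap a b e)), Complex.ofReal_re]
    have hnsw : ∀ e, n (Equiv.swap a b e) = n e := by
      intro e
      by_cases h1 : e = a
      · subst h1
        rw [Equiv.swap_apply_left, hab]
      · by_cases h2 : e = b
        · subst h2
          rw [Equiv.swap_apply_right, hab]
        · rw [Equiv.swap_apply_of_ne_of_ne h1 h2]
    have hkey : ∀ B' e, ∑ B, zO φ ψ (adO T V) B B' * fr.c B e = fr.c B' (Equiv.swap a b e) := by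
      intro B' e
      obtain ⟨η, hη⟩ := hv2 (fun _ e => fr.c B' (Equiv.swap a b e)) (by
        intro i
        rw [← hv5 B', ← Equiv.sum_comp (Equiv.swap a b) (fun e => (n e : ℝ) * fr.c B' e)]
        exact Finset.sum_congr rfl fun e _ => by rw [hnsw])
      have h1 : ∀ B, zO φ ψ (adO T V) B B' = η (0, B) := by
        intro B
        rw [hz]
        have h2 : ∀ e, fr.c B' (Equiv.swap a b e) = ∑ B'', η (0, B'') * fr.c B'' e := fun e => (hη 0 e).symm
        simp only [h2, Finset.mul_sum]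
        rw [Finset.sum_comm]
        have h3 : ∀ B'', ∑ e, (n e : ℝ) * (fr.c B e * (η (0, B'') * fr.c B'' e)) =
            η (0, B'') * if B = B'' then 1 else 0 := by
          intro B''
          rw [← hcc, Finset.mul_sum]
          exact Finset.sum_congr rfl fun e _ => by ring
        rw [Finset.sum_congr rfl fun B'' _ => h3 B'']
        simp
      rw [Finset.sum_congr rfl fun B _ => by rw [h1 B]]
      exact hη 0 e
    intro η i e
    have h1 : ∀ B, ro (zO φ ψ (adO T V)) η (i, B) = ∑ B', zO φ ψ (adO T V) B B' * η (i, B') := fun B => rfl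
    rw [NFr.val, NFr.val]
    simp only [h1, Finset.sum_mul]
    rw [Finset.sum_comm]
    refine Finset.sum_congr rfl fun B' _ => ?_
    rw [← hkey B' e, Finset.mul_sum]
    exact Finset.sum_congr rfl fun B _ => by ring
  · intro s t
    rw [sO, Matrix.of_apply, hs]
    have h1 : (φ (Sum.inl (ψ (Sum.inl (fr.es s)))) = φ (Sum.inl (ψ (Sum.inl (fr.es (swT a b hab t)))))) ↔
        s = swT a b hab t := by
      simp only [EmbeddingLike.apply_eq_iff_eq, Sum.inl.injEq]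
    simp only [h1]
    rfl

end ANF

end Vale.Agent.P353.Z
end

section

/-! # P353, all `N`, block NF: normaliser elements (`NrmStmt`) -/

open MeasureTheory Filter Topology Matrix
open scoped ContDiff

namespace Vale.Agent.P353.Z.ANF

namespace Nrm687

section bdl

variable {N k : ℕ} {n : Fin k → ℕ} (E : (Σ a, Fin (n a)) ≃ Fin N)

lemma ext_E {X Y : Matrix (Fin N) (Fin N) ℂ} (h : ∀ s t, X (E s) (E t) = Y (E s) (E t)) : X = Y := by
  ext p q
  obtain ⟨s, rfl⟩ := E.surjective p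
  obtain ⟨t, rfl⟩ := E.surjective q
  exact h s t

lemma bd_add (v w : Fin k → ℂ) : bd E (fun a => v a + w a) = bd E v + bd E w := by
  refine ext_E E fun s t => ?_
  rw [Matrix.add_apply, nr775_bd, nr775_bd, nr775_bd]
  split_ifs <;> simp

lemma bd_smul (r : ℂ) (v : Fin k → ℂ) : bd E (fun a => r * v a) = r • bd E v := by
  refine ext_E E fun s t => ?_
  rw [Matrix.smul_apply, nr775_bd, nr775_bd]
  split_ifs <;> simp

lemma bd_one : bd E (fun _ => (1 : ℂ)) = 1 := by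
  refine ext_E E fun s t => ?_
  rw [nr775_bd, Matrix.one_apply]
  simp only [EmbeddingLike.apply_eq_iff_eq]

lemma bd_zero : bd E (fun _ => (0 : ℂ)) = 0 := by
  refine ext_E E fun s t => ?_
  rw [nr775_bd]
  simp

lemma bd_sum {ι : Type*} (u : Finset ι) (v : ι → Fin k → ℂ) : bd E (fun a => ∑ i ∈ u, v i a) = ∑ i ∈ u, bd E (v i) := by
  refine ext_E E fun s t => ?_
  rw [Matrix.sum_apply, nr775_bd]
  simp only [nr775_bd]
  split_ifs <;> simp

lemma bd_mul (v w : Fin k → ℂ) : bd E v * bd E w = bd E (fun a => v a * w a) := by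
  refine ext_E E fun s t => ?_
  rw [Matrix.mul_apply, ← E.sum_comp]
  simp only [nr775_bd]
  by_cases h : s = t
  · subst h
    simp
  · simp [h]

lemma bd_inj (hpos : ∀ a, 1 ≤ n a) {v w : Fin k → ℂ} (h : bd E v = bd E w) (a : Fin k) : v a = w a := by
  have h1 := congrFun (congrFun h (E ⟨a, ⟨0, hpos a⟩⟩)) (E ⟨a, ⟨0, hpos a⟩⟩)
  rw [nr775_bd, nr775_bd, if_pos rfl, if_pos rfl] at h1
  exact h1

lemma bd_tr (v : Fin k → ℂ) : (bd E v).trace = ∑ a, (n a : ℂ) * v a := by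
  rw [Matrix.trace, ← E.sum_comp]
  simp only [Matrix.diag_apply, nr775_bd, if_true]
  rw [Fintype.sum_sigma]
  refine Finset.sum_congr rfl fun a _ => ?_
  change ∑ _y : Fin (n a), v a = _
  rw [Finset.sum_const, Finset.card_univ, Fintype.card_fin, nsmul_eq_mul]

/-- block projection -/
noncomputable def pj (a : Fin k) : Matrix (Fin N) (Fin N) ℂ := bd E fun b => if b = a then 1 else 0

lemma pj_sum : ∑ a, pj E a = 1 := by
  unfold pj
  rw [← bd_sum, ← bd_one E]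
  congr 1
  funext b
  simp

lemma pj_mul (a b : Fin k) : pj E a * pj E b = if a = b then pj E a else 0 := by
  unfold pj
  rw [bd_mul]
  split_ifs with h
  · subst h
    congr 1
    funext c
    simp
  · rw [← bd_zero E]
    congr 1
    funext c
    by_cases h1 : c = a
    · subst h1
      simp [h]
    · simp [h1]

lemma pj_tr (a : Fin k) : (pj E a).trace = n a := by
  unfold pj
  rw [bd_tr]
  simp

include E in
lemma sum_n : ∑ a, n a = N := by
  have h := Fintype.card_congr E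
  rw [Fintype.card_sigma, Fintype.card_fin] at h
  simpa using h

end bdl

section unit

variable {N : ℕ}

lemma su1 (V : BFSS.SU N) : V.val * V.val.conjTranspose = 1 := by
  have h := V.2
  rw [Matrix.mem_specialUnitaryGroup_iff] at h
  exact Matrix.mem_unitaryGroup_iff.1 h.1

lemma su2 (V : BFSS.SU N) : V.val.conjTranspose * V.val = 1 := by
  have h := V.2
  rw [Matrix.mem_specialUnitaryGroup_iff] at h
  exact Matrix.mem_unitaryGroup_iff'.1 h.1

lemma cj_mul (V : BFSS.SU N) (X Y : Matrix (Fin N) (Fin N) ℂ) :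
    (V.val * X * V.val.conjTranspose) * (V.val * Y * V.val.conjTranspose) = V.val * (X * Y) * V.val.conjTranspose := by
  calc (V.val * X * V.val.conjTranspose) * (V.val * Y * V.val.conjTranspose)
      = V.val * X * (V.val.conjTranspose * V.val) * Y * V.val.conjTranspose := by simp only [Matrix.mul_assoc]
    _ = _ := by rw [su2, Matrix.mul_one]; simp only [Matrix.mul_assoc]

lemma cj_tr (V : BFSS.SU N) (X : Matrix (Fin N) (Fin N) ℂ) : (V.val * X * V.val.conjTranspose).trace = X.trace := by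
  rw [Matrix.mul_assoc, Matrix.trace_mul_comm, Matrix.mul_assoc, su2, Matrix.mul_one]

lemma cj_inj (V : BFSS.SU N) {X : Matrix (Fin N) (Fin N) ℂ} (h : V.val * X * V.val.conjTranspose = 0) : X = 0 := by
  calc X = (V.val.conjTranspose * V.val) * X * (V.val.conjTranspose * V.val) := by rw [su2]; simp
    _ = V.val.conjTranspose * (V.val * X * V.val.conjTranspose) * V.val := by simp only [Matrix.mul_assoc]
    _ = 0 := by rw [h]; simp

end unit

section fr

variable {N d dh dm ds dz k : ℕ} {n : Fin k → ℕ} {T : Fin d → Matrix (Fin N) (Fin N) ℂ} {φ : Spl dh dm d} {ψ : Spl ds dz dh}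

lemma ad_c {f : Fin d → Fin d → Fin d → ℝ} (hB : Bas N d T f) (V : BFSS.SU N) (A B : Fin d) :
    (T A * (V.val * T B * V.val.conjTranspose)).trace = ((adO T V A B : ℝ) : ℂ) := by
  have h : star (T A * (V.val * T B * V.val.conjTranspose)).trace = (T A * (V.val * T B * V.val.conjTranspose)).trace := by
    rw [← Matrix.trace_conjTranspose, Matrix.conjTranspose_mul, hB.herm, Matrix.conjTranspose_mul, Matrix.conjTranspose_mul,
      Matrix.conjTranspose_conjTranspose, hB.herm, Matrix.trace_mul_comm, Matrix.mul_assoc]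
  rw [adO, Matrix.of_apply, BFSS.adCoeff]
  exact (Complex.conj_eq_iff_re.1 h).symm

lemma z_conj {f : Fin d → Fin d → Fin d → ℝ} (hB : Bas N d T f) (fr : NFr n T φ ψ) (hN : 0 < N) (V : BFSS.SU N)
    (hV : Blk φ ψ (adO T V)) (B : Fin dz) :
    ∃ w : Fin k → ℂ, V.val * T (φ (Sum.inl (ψ (Sum.inr B)))) * V.val.conjTranspose = bd fr.E w := by
  refine ⟨fun a => ∑ B', ((adO T V (φ (Sum.inl (ψ (Sum.inr B')))) (φ (Sum.inl (ψ (Sum.inr B)))) : ℝ) : ℂ) * ((fr.c B' a : ℝ) : ℂ), ?_⟩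
  rw [nr775_complete hB hN (V.val * T (φ (Sum.inl (ψ (Sum.inr B)))) * V.val.conjTranspose), cj_tr, hB.tr0, zero_div, zero_smul,
    add_zero]
  simp only [ad_c hB]
  rw [← φ.sum_comp, Fintype.sum_sum_type, ← ψ.sum_comp, Fintype.sum_sum_type]
  simp only [hV.mh, hV.sz, Complex.ofReal_zero, zero_smul, Finset.sum_const_zero, zero_add, add_zero]
  rw [bd_sum]
  refine Finset.sum_congr rfl fun B' _ => ?_
  rw [bd_smul, fr.z_eq]

lemma v_conj {f : Fin d → Fin d → Fin d → ℝ} (hB : Bas N d T f) (fr : NFr n T φ ψ) (hVal : ValStmt f fr) (hN : 0 < N)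
    (V : BFSS.SU N) (hV : Blk φ ψ (adO T V)) (v : Fin k → ℝ) :
    ∃ w : Fin k → ℂ, V.val * bd fr.E (fun a => ((v a : ℝ) : ℂ)) * V.val.conjTranspose = bd fr.E w := by
  obtain ⟨-, h2, -, -, -⟩ := hVal hB
  have hsn : ∑ a, (n a : ℝ) = N := by
    have h := sum_n fr.E
    exact_mod_cast h
  have hN' : (N : ℝ) ≠ 0 := by exact_mod_cast hN.ne'
  set m : ℝ := (∑ a, (n a : ℝ) * v a) / N with hm
  obtain ⟨η, hη⟩ := h2 (fun _ a => v a - m) (by
    intro i
    simp only [mul_sub, Finset.sum_sub_distrib, ← Finset.sum_mul, hsn]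
    rw [hm]
    field_simp
    ring)
  have hz := fun B => z_conj hB fr hN V hV B
  choose w hw using hz
  refine ⟨fun a => (∑ B, ((η (0, B) : ℝ) : ℂ) * w B a) + (m : ℂ) * 1, ?_⟩
  have h3 : bd fr.E (fun a => ((v a : ℝ) : ℂ)) =
      (∑ B, ((η (0, B) : ℝ) : ℂ) • T (φ (Sum.inl (ψ (Sum.inr B))))) + (m : ℂ) • 1 := by
    simp only [fr.z_eq]
    rw [← bd_one fr.E, ← bd_smul]
    simp only [← bd_smul]
    rw [← bd_sum, ← bd_add]
    congr 1
    funext a
    have h4 : v a = (∑ B, η (0, B) * fr.c B a) + m := by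
      have h5 := hη 0 a
      unfold NFr.val at h5
      linarith
    conv_lhs => rw [h4]
    push_cast
    ring
  rw [h3, Matrix.mul_add, Matrix.add_mul, Finset.mul_sum, Finset.sum_mul, bd_add, bd_sum]
  congr 1
  · refine Finset.sum_congr rfl fun B _ => ?_
    rw [Matrix.mul_smul, Matrix.smul_mul, hw, bd_smul]
  · rw [Matrix.mul_smul, Matrix.smul_mul, Matrix.mul_one, su1, bd_smul, bd_one]

/-- a block preserving element permutes the block projections -/
lemma ex_perm {f : Fin d → Fin d → Fin d → ℝ} (hB : Bas N d T f) (fr : NFr n T φ ψ) (hVal : ValStmt f fr) (hN : 0 < N)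
    (V : BFSS.SU N) (hV : Blk φ ψ (adO T V)) :
    ∃ τ : Equiv.Perm (Fin k), ∀ a, V.val * pj fr.E a * V.val.conjTranspose = pj fr.E (τ a) := by
  have h1 : ∀ a, ∃ w : Fin k → ℂ, V.val * pj fr.E a * V.val.conjTranspose = bd fr.E w := by
    intro a
    obtain ⟨w, hw⟩ := v_conj hB fr hVal hN V hV (fun b => if b = a then 1 else 0)
    refine ⟨w, ?_⟩
    rw [← hw]
    unfold pj
    congr 3
    funext b
    split_ifs <;> simp
  choose w hw using h1
  have hmul : ∀ a b, (fun c => w a c * w b c) = if a = b then w a else 0 := by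
    intro a b
    funext c
    have h2 : bd fr.E (fun c => w a c * w b c) = bd fr.E (if a = b then w a else 0) := by
      rw [← bd_mul, ← hw, ← hw, cj_mul, pj_mul]
      split_ifs with h
      · rw [hw]
      · rw [Matrix.mul_zero, Matrix.zero_mul]
        exact (bd_zero fr.E).symm
    exact bd_inj fr.E fr.pos h2 c
  have hsum : ∀ c, ∑ a, w a c = 1 := by
    have h2 : bd fr.E (fun c => ∑ a, w a c) = bd fr.E (fun _ => 1) := by
      rw [bd_sum, bd_one]
      simp only [← hw]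
      rw [← Finset.sum_mul, ← Finset.mul_sum, pj_sum, Matrix.mul_one, su1]
    exact fun c => bd_inj fr.E fr.pos h2 c
  have hne : ∀ a, ∃ c, w a c ≠ 0 := by
    intro a
    by_contra hcon
    push Not at hcon
    have h2 : V.val * pj fr.E a * V.val.conjTranspose = 0 := by
      rw [hw, ← bd_zero fr.E]
      congr 1
      funext c
      exact hcon c
    have h3 := cj_inj V h2
    have h4 := congrArg Matrix.trace h3
    rw [pj_tr, Matrix.trace_zero] at h4
    have h5 := fr.pos a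
    have h6 : n a = 0 := by exact_mod_cast h4
    omega
  have hex : ∀ c, ∃ a, w a c ≠ 0 := by
    intro c
    by_contra hcon
    push Not at hcon
    have h2 := hsum c
    rw [Finset.sum_eq_zero fun a _ => hcon a] at h2
    exact zero_ne_one h2
  choose g hg using hex
  have hg2 : ∀ c a, w a c = if a = g c then 1 else 0 := by
    intro c a
    split_ifs with h
    · subst h
      have h3 := congrFun (hmul (g c) (g c)) c
      rw [if_pos rfl] at h3
      exact mul_right_cancel₀ (hg c) (by rw [one_mul]; exact h3)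
    · have h3 := congrFun (hmul a (g c)) c
      rw [if_neg h] at h3
      exact (mul_eq_zero.1 h3).resolve_right (hg c)
  have hsurj : Function.Surjective g := by
    intro a
    obtain ⟨c, hc⟩ := hne a
    refine ⟨c, ?_⟩
    by_contra hcon
    rw [hg2, if_neg (fun h => hcon h.symm)] at hc
    exact hc rfl
  have hbij : Function.Bijective g := ⟨Finite.injective_iff_surjective.2 hsurj, hsurj⟩
  refine ⟨(Equiv.ofBijective g hbij).symm, fun a => ?_⟩
  rw [hw]
  unfold pj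
  congr 1
  funext c
  rw [hg2]
  have h5 : (a = g c) ↔ c = (Equiv.ofBijective g hbij).symm a := by
    rw [Equiv.eq_symm_apply]
    exact eq_comm
  simp only [h5]

/-- `V` fixing the block projections is block preserving with trivial central part -/
lemma base {f : Fin d → Fin d → Fin d → ℝ} (hB : Bas N d T f) (fr : NFr n T φ ψ) (V : BFSS.SU N)
    (hV : ∀ a, V.val * pj fr.E a * V.val.conjTranspose = pj fr.E a) :
    Blk φ ψ (adO T V) ∧ zO φ ψ (adO T V) = 1 := by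
  have hc : ∀ a, V.val * pj fr.E a = pj fr.E a * V.val := by
    intro a
    calc V.val * pj fr.E a = V.val * pj fr.E a * (V.val.conjTranspose * V.val) := by rw [su2, Matrix.mul_one]
      _ = (V.val * pj fr.E a * V.val.conjTranspose) * V.val := by simp only [Matrix.mul_assoc]
      _ = _ := by rw [hV]
  have hVd : NrBD fr.E V.val := by
    intro s t hst
    have h1 := congrFun (congrFun (hc t.1) (fr.E s)) (fr.E t)
    rw [Matrix.mul_apply, Matrix.mul_apply, ← fr.E.sum_comp, ← fr.E.sum_comp (fun x => pj fr.E t.1 (fr.E s) x * _)] at h1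
    unfold pj at h1
    simp only [nr775_bd] at h1
    rw [Finset.sum_eq_single t, Finset.sum_eq_single s] at h1
    · simpa [hst] using h1
    · intro b _ hb
      simp [Ne.symm hb]
    · simp
    · intro b _ hb
      simp [hb]
    · simp
  have hVd' : NrBD fr.E V.val.conjTranspose := by
    intro s t hst
    rw [Matrix.conjTranspose_apply, hVd t s (fun h => hst h.symm), star_zero]
  have hod : ∀ {X : Matrix (Fin N) (Fin N) ℂ}, NrOD fr.E X → ∀ {Y}, NrBD fr.E Y → NrOD fr.E (Y * X) := by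
    intro X hX Y hY s t hst
    rw [Matrix.mul_apply, ← fr.E.sum_comp]
    refine Finset.sum_eq_zero fun r _ => ?_
    by_cases h1 : s.1 = r.1
    · rw [hX r t (h1.symm.trans hst), mul_zero]
    · rw [hY s r h1, zero_mul]
  have hod' : ∀ {X : Matrix (Fin N) (Fin N) ℂ}, NrOD fr.E X → ∀ {Y}, NrBD fr.E Y → NrOD fr.E (X * Y) := by
    intro X hX Y hY s t hst
    rw [Matrix.mul_apply, ← fr.E.sum_comp]
    refine Finset.sum_eq_zero fun r _ => ?_
    by_cases h1 : r.1 = t.1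
    · rw [hX s r (hst.trans h1.symm), zero_mul]
    · rw [hY r t h1, mul_zero]
  have hm : ∀ C, NrOD fr.E (T (φ (Sum.inr C))) := fun C => fr.m_eq C
  have hz : ∀ B, V.val * T (φ (Sum.inl (ψ (Sum.inr B)))) * V.val.conjTranspose = T (φ (Sum.inl (ψ (Sum.inr B)))) := by
    intro B
    have h1 : T (φ (Sum.inl (ψ (Sum.inr B)))) = ∑ a, ((fr.c B a : ℝ) : ℂ) • pj fr.E a := by
      rw [fr.z_eq]
      unfold pj
      simp only [← bd_smul]
      rw [← bd_sum]
      congr 1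
      funext b
      simp
    rw [h1, Finset.mul_sum, Finset.sum_mul]
    refine Finset.sum_congr rfl fun a _ => ?_
    rw [Matrix.mul_smul, Matrix.smul_mul, hV]
  have hz' : ∀ B, V.val.conjTranspose * T (φ (Sum.inl (ψ (Sum.inr B)))) * V.val = T (φ (Sum.inl (ψ (Sum.inr B)))) := by
    intro B
    conv_lhs => rw [← hz B]
    calc V.val.conjTranspose * (V.val * T (φ (Sum.inl (ψ (Sum.inr B)))) * V.val.conjTranspose) * V.val
        = (V.val.conjTranspose * V.val) * T (φ (Sum.inl (ψ (Sum.inr B)))) * (V.val.conjTranspose * V.val) := by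
          simp only [Matrix.mul_assoc]
      _ = _ := by rw [su2, Matrix.one_mul, Matrix.mul_one]
  refine ⟨⟨fun A B => ?_, fun A B => ?_, fun A B => ?_, fun A B => ?_⟩, ?_⟩
  · have h1 := ad_c hB V (φ (Sum.inl A)) (φ (Sum.inr B))
    rw [nr775_tr (nr775_h fr A) (hod' (hod (hm B) hVd) hVd')] at h1
    exact_mod_cast h1.symm
  · have h1 := ad_c hB V (φ (Sum.inr B)) (φ (Sum.inl A))
    rw [Matrix.trace_mul_comm, nr775_tr (nr775_BDmul (nr775_BDmul hVd (nr775_h fr A)) hVd') (hm B)] at h1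
    exact_mod_cast h1.symm
  · have h1 := ad_c hB V (φ (Sum.inl (ψ (Sum.inl A)))) (φ (Sum.inl (ψ (Sum.inr B))))
    rw [hz, hB.ortho, if_neg (by simp)] at h1
    exact_mod_cast h1.symm
  · have h1 := ad_c hB V (φ (Sum.inl (ψ (Sum.inr B)))) (φ (Sum.inl (ψ (Sum.inl A))))
    have h2 : (T (φ (Sum.inl (ψ (Sum.inr B)))) * (V.val * T (φ (Sum.inl (ψ (Sum.inl A)))) * V.val.conjTranspose)).trace =
        ((V.val.conjTranspose * T (φ (Sum.inl (ψ (Sum.inr B)))) * V.val) * T (φ (Sum.inl (ψ (Sum.inl A))))).trace := by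
      rw [← Matrix.mul_assoc, Matrix.trace_mul_comm]
      simp only [Matrix.mul_assoc]
    rw [h2, hz', hB.ortho, if_neg (by simp)] at h1
    exact_mod_cast h1.symm
  · ext A B
    have h1 := ad_c hB V (φ (Sum.inl (ψ (Sum.inr A)))) (φ (Sum.inl (ψ (Sum.inr B))))
    rw [hz, hB.ortho] at h1
    rw [zO, Matrix.of_apply, Matrix.one_apply]
    simp only [EmbeddingLike.apply_eq_iff_eq, Sum.inl.injEq, Sum.inr.injEq] at h1
    split_ifs at h1 ⊢ with h
    · exact_mod_cast h1.symm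
    · exact_mod_cast h1.symm

/-- exchanges exist in `SU(N)` -/
lemma ex_swap (E : (Σ a, Fin (n a)) ≃ Fin N) (hN : 0 < N) {a b : Fin k} (hne : a ≠ b) (hab : n a = n b) :
    ∃ (V : BFSS.SU N) (c : ℂ), ‖c‖ = 1 ∧ ∀ s t, V.val (E s) (E t) = if s = swP a b hab t then c else 0 := by
  let π : Equiv.Perm (Fin N) := (E.symm.trans (Sw518.swE hne hab)).trans E
  obtain ⟨c, hc, hcN⟩ : ∃ c : ℂ, ‖c‖ = 1 ∧ c ^ N * ((Equiv.Perm.sign π : ℤ) : ℂ) = 1 := by
    rcases Int.units_eq_one_or (Equiv.Perm.sign π) with h | h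
    · exact ⟨1, by simp, by rw [h]; simp⟩
    · refine ⟨Complex.exp ((Real.pi / N : ℝ) * Complex.I), ?_, ?_⟩
      · rw [Complex.norm_exp_ofReal_mul_I]
      · rw [h, ← Complex.exp_nat_mul]
        have h1 : (N : ℂ) * (((Real.pi / N : ℝ) : ℂ) * Complex.I) = Real.pi * Complex.I := by
          have : (N : ℂ) ≠ 0 := by exact_mod_cast hN.ne'
          push_cast
          field_simp
        rw [h1, Complex.exp_pi_mul_I]
        simp
  let W : Matrix (Fin N) (Fin N) ℂ := c • π.permMatrix ℂ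
  have hW : ∀ s t, W (E s) (E t) = if s = swP a b hab t then c else 0 := by
    intro s t
    change (c • π.permMatrix ℂ) (E s) (E t) = _
    rw [Matrix.smul_apply, Equiv.Perm.permMatrix, PEquiv.toMatrix_apply]
    have h1 : (E t ∈ π.toPEquiv (E s)) ↔ s = swP a b hab t := by
      rw [Equiv.toPEquiv_apply, Option.mem_some_iff]
      change E (swP a b hab (E.symm (E s))) = E t ↔ _
      rw [Equiv.symm_apply_apply, EmbeddingLike.apply_eq_iff_eq, Sw518.sw_iff hne hab s t]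
      exact eq_comm
    simp only [h1]
    split_ifs <;> simp
  have hu : W * W.conjTranspose = 1 := by
    refine ext_E E fun s t => ?_
    have h1 := Sw518.conj_apply E hne hab hc hW 1 s t
    rw [Matrix.mul_one] at h1
    rw [h1, Matrix.one_apply, Matrix.one_apply]
    have h2 : (E (swP a b hab s) = E (swP a b hab t)) ↔ E s = E t := by
      rw [EmbeddingLike.apply_eq_iff_eq, EmbeddingLike.apply_eq_iff_eq]
      exact ⟨fun h => Sw518.sw_inj hne hab h, fun h => by rw [h]⟩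
    simp only [h2]
  have hd : W.det = 1 := by
    change (c • π.permMatrix ℂ).det = 1
    rw [Matrix.det_smul, Fintype.card_fin, Matrix.det_permutation]
    exact hcN
  exact ⟨⟨W, Matrix.mem_specialUnitaryGroup_iff.2 ⟨Matrix.mem_unitaryGroup_iff.2 hu, hd⟩⟩, c, hc, hW⟩

lemma swap_pj (E : (Σ a, Fin (n a)) ≃ Fin N) {a b : Fin k} (hne : a ≠ b) (hab : n a = n b) {V : BFSS.SU N} {c : ℂ}
    (hc : ‖c‖ = 1) (hV : ∀ s t, V.val (E s) (E t) = if s = swP a b hab t then c else 0) (e : Fin k) :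
    V.val * pj E e * V.val.conjTranspose = pj E (Equiv.swap a b e) := by
  refine ext_E E fun s t => ?_
  rw [Sw518.conj_apply E hne hab hc hV]
  unfold pj
  rw [nr775_bd, nr775_bd, Sw518.sw_fst hne]
  have h1 : (swP a b hab s = swP a b hab t) ↔ s = t := ⟨fun h => Sw518.sw_inj hne hab h, fun h => by rw [h]⟩
  have h2 : (Equiv.swap a b s.1 = e) ↔ s.1 = Equiv.swap a b e := by
    constructor
    · rintro rfl
      rw [Equiv.swap_apply_self]
    · intro h
      rw [h, Equiv.swap_apply_self]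
  simp only [h1, h2]

end fr

end Nrm687

open Nrm687 in
/-- **NF-Nrm** -/
theorem nrm_stmt {N d dh dm ds dz k : ℕ} {n : Fin k → ℕ} {T : Fin d → Matrix (Fin N) (Fin N) ℂ} {φ : Spl dh dm d}
    {ψ : Spl ds dz dh} (f : Fin d → Fin d → Fin d → ℝ) (fr : NFr n T φ ψ) : ValStmt f fr → NrmStmt f fr := by
  intro hVal hB P hmul hbase hsw V hV
  have hN : 0 < N := (fr.E ⟨⟨0, by have := fr.two; omega⟩, ⟨0, fr.pos _⟩⟩).pos
  have key : ∀ (m : ℕ) (τ : Equiv.Perm (Fin k)), τ.support.card = m → ∀ V : BFSS.SU N,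
      (∀ a, V.val * pj fr.E a * V.val.conjTranspose = pj fr.E (τ a)) → P V := by
    intro m
    induction m using Nat.strong_induction_on with
    | _ m ih =>
      intro τ hτ V hV
      by_cases h1 : τ = 1
      · subst h1
        obtain ⟨h2, h3⟩ := base hB fr V (fun a => by simpa using hV a)
        exact hbase V h2 h3
      · obtain ⟨a, ha⟩ : ∃ a, τ a ≠ a := by
          by_contra hcon
          push Not at hcon
          exact h1 (Equiv.ext hcon)
        have hab : n a = n (τ a) := by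
          have h2 := congrArg Matrix.trace (hV a)
          rw [cj_tr, pj_tr, pj_tr] at h2
          exact_mod_cast h2
        obtain ⟨W, c, hc, hW⟩ := ex_swap fr.E hN (Ne.symm ha) hab
        have hWp := swap_pj fr.E (Ne.symm ha) hab hc hW
        have h3 : P (W⁻¹ * V) := by
          refine ih (Equiv.swap a (τ a) * τ).support.card ?_ (Equiv.swap a (τ a) * τ) rfl (W⁻¹ * V) fun e => ?_
          · rw [← hτ]
            exact Equiv.Perm.card_support_swap_mul ha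
          · have h4 : (W⁻¹ * V).val = W.val.conjTranspose * V.val := rfl
            rw [h4, Matrix.conjTranspose_mul, Matrix.conjTranspose_conjTranspose]
            calc W.val.conjTranspose * V.val * pj fr.E e * (V.val.conjTranspose * W.val)
                = W.val.conjTranspose * (V.val * pj fr.E e * V.val.conjTranspose) * W.val := by
                  simp only [Matrix.mul_assoc]
              _ = W.val.conjTranspose * (W.val * pj fr.E (Equiv.swap a (τ a) (τ e)) * W.val.conjTranspose) * W.val := by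
                  rw [hV, hWp, Equiv.swap_apply_self]
              _ = (W.val.conjTranspose * W.val) * pj fr.E (Equiv.swap a (τ a) (τ e)) * (W.val.conjTranspose * W.val) := by
                  simp only [Matrix.mul_assoc]
              _ = pj fr.E ((Equiv.swap a (τ a) * τ) e) := by
                  rw [su2, Matrix.one_mul, Matrix.mul_one]
                  rfl
        have h5 := hmul W (W⁻¹ * V) (hsw a (τ a) (Ne.symm ha) hab W c hc hW) h3
        rwa [mul_inv_cancel_left] at h5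
  obtain ⟨τ, hτ⟩ := ex_perm hB fr hVal hN V hV
  exact key _ τ rfl V hτ

end Vale.Agent.P353.Z.ANF
end

section

/-! # P353, all `N`, block C: the cross term -/

open MeasureTheory Filter Topology
open scoped ContDiff

namespace Vale.Agent.P353.Z.AN

variable {d dh dm : ℕ} {F : Type*} [NormedAddCommGroup F] [InnerProductSpace ℂ F]

namespace CrossAux

variable (S : Setup d F) (φ : Spl dh dm d) (N : Fin 9 → Matrix (Fin 16) (Fin 16) ℂ)

/-- zero order part of the block diagonal supercharge -/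
noncomputable def HH (m : ℝ) (β : Fin 16) (y : Cfg dh) : F →L[ℂ] F :=
  (1 / 2 : ℂ) • (∑ A, ∑ i, ∑ j,
    ((S.κ * ∑ B, ∑ C, S.f (φ (Sum.inl A)) (φ (Sum.inl B)) (φ (Sum.inl C)) * y (i, B) * y (j, C) : ℝ) : ℂ) •
      S.vec (S.g2 i j) (φ (Sum.inl A)) β) + (m : ℂ) • S.Mh φ N β y

lemma Qhm_eq (m : ℝ) (β : Fin 16) (v : Cfg dh → Wsp dm → F) (y : Cfg dh) (w : Wsp dm) :
    S.Qhm φ N m β v y w = (-Complex.I) • (∑ i, ∑ A, S.vec (S.g i) (φ (Sum.inl A)) β (Z.py i A v y w)) +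
      HH S φ N m β y (v y w) := by
  simp only [Setup.Qhm, Setup.Qh, HH, _root_.add_apply, _root_.smul_apply, _root_.sum_apply]
  abel

/-- operators anticommuting with the block diagonal fermions -/
def Anti (τ : F →L[ℂ] F) : Prop :=
  ∀ X A β u, S.vec X (φ (Sum.inl A)) β (τ u) = -τ (S.vec X (φ (Sum.inl A)) β u)

lemma anti_vec (X : Matrix (Fin 16) (Fin 16) ℂ) (B : Fin dm) (β : Fin 16) :
    Anti S φ (S.vec X (φ (Sum.inr B)) β) := by
  intro X' A β' u
  have h := S.vec_anti X' X (φ (Sum.inl A)) (φ (Sum.inr B)) β' β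
  have hne : φ (Sum.inl A) ≠ φ (Sum.inr B) := by
    intro h0
    exact absurd (φ.injective h0) (by simp)
  rw [if_neg hne] at h
  have h2 := congrArg (fun T : F →L[ℂ] F => T u) h
  simp only [_root_.add_apply, _root_.zero_apply] at h2
  exact eq_neg_of_add_eq_zero_left h2

lemma HH_anti {τ : F →L[ℂ] F} (hτ : Anti S φ τ) (m : ℝ) (β : Fin 16) (y : Cfg dh) (u : F) :
    HH S φ N m β y (τ u) = -τ (HH S φ N m β y u) := by
  simp only [HH, Setup.Mh, _root_.add_apply, _root_.smul_apply, _root_.sum_apply, hτ _ _ _ _,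
    map_add, map_smul, map_sum, smul_neg, Finset.sum_neg_distrib, neg_add]

lemma Qhm_tau (hA : CalcA dh dm F) {τ : F →L[ℂ] F} (hτ : Anti S φ τ) (ι : ℂ) (m : ℝ) (β : Fin 16)
    (v : Cfg dh → Wsp dm → F) (hv : Tst2 v) (y : Cfg dh) (w : Wsp dm) :
    S.Qhm φ N m β (fun y w => ι • τ (v y w)) y w = -(ι • τ (S.Qhm φ N m β v y w)) := by
  have h1 : ∀ i A, Z.py i A (fun y w => ι • τ (v y w)) y w = ι • τ (Z.py i A v y w) := by
    intro i A
    rw [hA.py_smul i A ι (fun y w => τ (v y w)) (hA.clm τ v hv) y w, hA.py_clm i A τ v hv y w]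
  rw [Qhm_eq, Qhm_eq]
  simp only [h1, map_smul, hτ _ _ _ _, HH_anti S φ N hτ, map_add, map_sum, smul_neg,
    Finset.sum_neg_distrib, smul_add, Finset.smul_sum, neg_add, neg_smul, smul_comm ι, map_neg]

lemma Qhm_vec (hA : CalcA dh dm F) (X : Matrix (Fin 16) (Fin 16) ℂ) (B : Fin dm) (γ : Fin 16) (m : ℝ) (β : Fin 16)
    (v : Cfg dh → Wsp dm → F) (hv : Tst2 v) (y : Cfg dh) (w : Wsp dm) :
    S.Qhm φ N m β (fun y w => S.vec X (φ (Sum.inr B)) γ (v y w)) y w =
      -(S.vec X (φ (Sum.inr B)) γ (S.Qhm φ N m β v y w)) := by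
  have h := Qhm_tau S φ N hA (anti_vec S φ X B γ) 1 m β v hv y w
  simpa using h

lemma diff_w {v : Cfg dh → Wsp dm → F} (hA : CalcA dh dm F) (hv : Tst2 v) (y : Cfg dh) (w : Wsp dm) :
    DifferentiableAt ℝ (v y) w :=
  ((hA.slw v hv y).1.differentiable (by simp)).differentiableAt

lemma Qhm_pw (hA : CalcA dh dm F) (j : Fin 8) (B : Fin dm) (m : ℝ) (β : Fin 16)
    (v : Cfg dh → Wsp dm → F) (hv : Tst2 v) (y : Cfg dh) (w : Wsp dm) :
    Z.pw j B (S.Qhm φ N m β v) y w = S.Qhm φ N m β (Z.pw j B v) y w := by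
  have hf : S.Qhm φ N m β v y = fun w => (-Complex.I) •
      (∑ i, ∑ A, S.vec (S.g i) (φ (Sum.inl A)) β (Z.py i A v y w)) + HH S φ N m β y (v y w) :=
    funext fun w => Qhm_eq S φ N m β v y w
  have h1 : ∀ i A, HasFDerivAt (fun w => S.vec (S.g i) (φ (Sum.inl A)) β (Z.py i A v y w))
      (((S.vec (S.g i) (φ (Sum.inl A)) β).restrictScalars ℝ).comp (fderiv ℝ (Z.py i A v y) w)) w := fun i A =>
    ((S.vec (S.g i) (φ (Sum.inl A)) β).restrictScalars ℝ).hasFDerivAt.comp w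
      (diff_w hA (hA.py i A v hv) y w).hasFDerivAt
  have h2 : HasFDerivAt (fun w => HH S φ N m β y (v y w))
      (((HH S φ N m β y).restrictScalars ℝ).comp (fderiv ℝ (v y) w)) w :=
    ((HH S φ N m β y).restrictScalars ℝ).hasFDerivAt.comp w (diff_w hA hv y w).hasFDerivAt
  have h3 := ((HasFDerivAt.fun_sum fun i (_ : i ∈ (Finset.univ : Finset (Fin 9))) =>
    HasFDerivAt.fun_sum fun A (_ : A ∈ (Finset.univ : Finset (Fin dh))) => h1 i A).const_smul (-Complex.I)).add h2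
  have h4 : Z.pw j B (S.Qhm φ N m β v) y w = (-Complex.I) •
      (∑ i, ∑ A, S.vec (S.g i) (φ (Sum.inl A)) β (Z.pw j B (Z.py i A v) y w)) + HH S φ N m β y (Z.pw j B v y w) := by
    rw [Z.pw, hf]
    erw [h3.fderiv]
    simp only [_root_.add_apply, _root_.smul_apply, _root_.sum_apply, ContinuousLinearMap.comp_apply,
      ContinuousLinearMap.coe_restrictScalars', Z.pw]
  rw [h4, Qhm_eq]
  simp only [hA.comm _ _ _ _ v hv]

lemma Qhm_mw (hA : CalcA dh dm F) (k : Fin 8 × Fin dm) (m : ℝ) (β : Fin 16)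
    (v : Cfg dh → Wsp dm → F) (hv : Tst2 v) (y : Cfg dh) (w : Wsp dm) :
    mw k (S.Qhm φ N m β v) y w = S.Qhm φ N m β (mw k v) y w := by
  rw [Qhm_eq]
  simp only [hA.py_mw _ _ k v hv]
  simp only [mw, mul2]
  rw [Qhm_eq]
  simp only [map_smul, smul_add, Finset.smul_sum, smul_comm ((w k : ℝ) : ℂ)]

lemma Qhm_mulc (hA : CalcA dh dm F) (c : Cfg dh → ℝ) (m : ℝ) (β : Fin 16)
    (v : Cfg dh → Wsp dm → F) (hv : Tst2 v) (y : Cfg dh) (w : Wsp dm) (hc : DifferentiableAt ℝ c y) :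
    S.Qhm φ N m β (mul2 (fun y _ => c y) v) y w = ((c y : ℝ) : ℂ) • S.Qhm φ N m β v y w +
      ∑ i, ∑ A, (-Complex.I) • (((fderiv ℝ c y (EuclideanSpace.single (i, A) 1) : ℝ) : ℂ) •
        S.vec (S.g i) (φ (Sum.inl A)) β (v y w)) := by
  rw [Qhm_eq, Qhm_eq]
  simp only [hA.py_mul _ _ c v hv y w hc, mul2, map_smul, map_add, Finset.sum_add_distrib, smul_add,
    Finset.smul_sum, smul_comm ((c y : ℝ) : ℂ)]
  abel

/-- symmetric operators on slice functions, local in `y`, anticommuting with the block diagonal fermions -/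
structure LOp (L : (Cfg dh → Wsp dm → F) → Cfg dh → Wsp dm → F) : Prop where
  tst : ∀ g, Tst2 g → Tst2 (L g)
  sup : ∀ (Y : Cfg dh) (ε R : ℝ) g, Tst2 g → Sup2 Y ε R g → Sup2 Y ε R (L g)
  mulc : ∀ (c : Cfg dh → ℝ) g, Tst2 g → L (mul2 (fun y _ => c y) g) = mul2 (fun y _ => c y) (L g)
  symm : ∀ g h, Tst2 g → Tst2 h → ip2 (L g) h = ip2 g (L h)
  anti : ∀ m β g, Tst2 g → S.Qhm φ N m β (L g) = fun y w => -(L (S.Qhm φ N m β g) y w)
  antiv : ∀ i A β g, Tst2 g → L (fun y w => S.vec (S.g i) (φ (Sum.inl A)) β (g y w)) =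
    fun y w => -(S.vec (S.g i) (φ (Sum.inl A)) β (L g y w))

lemma ip2_smul_left (c : ℂ) (u v : Cfg dh → Wsp dm → F) :
    ip2 (fun y w => c • u y w) v = (starRingEnd ℂ) c * ip2 u v := by
  simp only [ip2, inner_smul_left]
  exact integral_const_mul _ _

lemma ip2_smul_right (c : ℂ) (u v : Cfg dh → Wsp dm → F) :
    ip2 u (fun y w => c • v y w) = c * ip2 u v := by
  simp only [ip2, inner_smul_right]
  exact integral_const_mul _ _

lemma ip2_vec (X : Matrix (Fin 16) (Fin 16) ℂ) (hX : ∀ α β, (X α β).im = 0) (A : Fin d) (β : Fin 16)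
    (u v : Cfg dh → Wsp dm → F) :
    ip2 (fun y w => S.vec X A β (u y w)) v = ip2 u (fun y w => S.vec X A β (v y w)) := by
  simp only [ip2, S.vec_symm X hX]

lemma vec_anti_swap (X X' : Matrix (Fin 16) (Fin 16) ℂ) (A : Fin dh) (B : Fin dm) (β γ : Fin 16) (u : F) :
    S.vec X (φ (Sum.inr B)) γ (S.vec X' (φ (Sum.inl A)) β u) =
      -(S.vec X' (φ (Sum.inl A)) β (S.vec X (φ (Sum.inr B)) γ u)) := by
  rw [anti_vec S φ X B γ X' A β u, neg_neg]

lemma lop_pw (hA : CalcA dh dm F) (hB : CalcB dh dm F) (X : Matrix (Fin 16) (Fin 16) ℂ)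
    (hX : ∀ α β, (X α β).im = 0) (B : Fin dm) (γ : Fin 16) (ι : ℂ) (hι : (starRingEnd ℂ) ι = -ι)
    (j : Fin 8) (E : Fin dm) :
    LOp S φ N (fun g y w => ι • S.vec X (φ (Sum.inr B)) γ (Z.pw j E g y w)) where
  tst g hg := hA.smul ι _ (hA.clm _ _ (hA.pw j E g hg))
  sup Y ε R g hg hs y w h := hA.supw Y ε R j E g hg hs y w fun h0 => h (by
    show ι • S.vec X (φ (Sum.inr B)) γ (Z.pw j E g y w) = 0
    rw [h0, map_zero, smul_zero])
  mulc c g hg := by
    funext y w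
    simp only [hA.pw_mul j E c g hg y w, mul2, map_smul, smul_comm ι]
  symm g h hg hh := by
    have h1 : ip2 (fun y w => ι • S.vec X (φ (Sum.inr B)) γ (Z.pw j E g y w)) h =
        (starRingEnd ℂ) ι * ip2 (Z.pw j E g) (fun y w => S.vec X (φ (Sum.inr B)) γ (h y w)) := by
      rw [ip2_smul_left ι (fun y w => S.vec X (φ (Sum.inr B)) γ (Z.pw j E g y w)) h,
        ip2_vec S X hX (φ (Sum.inr B)) γ (Z.pw j E g) h]
    have h2 : Z.pw j E (fun y w => S.vec X (φ (Sum.inr B)) γ (h y w)) =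
        fun y w => S.vec X (φ (Sum.inr B)) γ (Z.pw j E h y w) := by
      funext y w
      exact hA.pw_clm j E _ h hh y w
    rw [h1, hB.ibp_w j E g _ hg (hA.clm _ _ hh), h2,
      ip2_smul_right ι g (fun y w => S.vec X (φ (Sum.inr B)) γ (Z.pw j E h y w)), hι]
    ring
  anti m β g hg := by
    funext y w
    rw [Qhm_tau S φ N hA (anti_vec S φ X B γ) ι m β (Z.pw j E g) (hA.pw j E g hg) y w,
      Qhm_pw S φ N hA j E m β g hg y w]
  antiv i A β g hg := by
    funext y w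
    simp only [hA.pw_clm j E _ g hg y w, map_smul]
    rw [vec_anti_swap S φ, smul_neg]

lemma tst_mw (hA : CalcA dh dm F) (k : Fin 8 × Fin dm) (g : Cfg dh → Wsp dm → F) (hg : Tst2 g) :
    Tst2 (mw k g) := by
  refine hA.mul _ g ?_ hg
  exact (EuclideanSpace.proj (𝕜 := ℝ) k).contDiff.comp contDiff_snd

lemma lop_mw (hA : CalcA dh dm F) (hB : CalcB dh dm F) (X : Matrix (Fin 16) (Fin 16) ℂ)
    (hX : ∀ α β, (X α β).im = 0) (B : Fin dm) (γ : Fin 16) (ι : ℂ) (hι : (starRingEnd ℂ) ι = ι)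
    (k : Fin 8 × Fin dm) :
    LOp S φ N (fun g y w => ι • S.vec X (φ (Sum.inr B)) γ (mw k g y w)) where
  tst g hg := hA.smul ι _ (hA.clm _ _ (tst_mw hA k g hg))
  sup Y ε R g hg hs y w h := hs y w fun h0 => h (by
    simp only [mw, mul2]
    rw [h0, smul_zero, map_zero, smul_zero])
  mulc c g hg := by
    funext y w
    simp only [mw, mul2, map_smul]
    rw [smul_comm ((c y : ℝ) : ℂ) ι, smul_comm ((c y : ℝ) : ℂ) ((w k : ℝ) : ℂ)]
  symm g h hg hh := by
    have h1 : ip2 (fun y w => ι • S.vec X (φ (Sum.inr B)) γ (mw k g y w)) h =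
        (starRingEnd ℂ) ι * ip2 (mw k g) (fun y w => S.vec X (φ (Sum.inr B)) γ (h y w)) := by
      rw [ip2_smul_left ι (fun y w => S.vec X (φ (Sum.inr B)) γ (mw k g y w)) h,
        ip2_vec S X hX (φ (Sum.inr B)) γ (mw k g) h]
    have h2 : mul2 (fun _ w => w k) (fun y w => S.vec X (φ (Sum.inr B)) γ (h y w)) =
        fun y w => S.vec X (φ (Sum.inr B)) γ (mw k h y w) := by
      funext y w
      simp only [mw, mul2, map_smul]
    have h3 : ip2 (mw k g) (fun y w => S.vec X (φ (Sum.inr B)) γ (h y w)) =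
        ip2 g (mul2 (fun _ w => w k) (fun y w => S.vec X (φ (Sum.inr B)) γ (h y w))) :=
      hB.ip_mul (fun _ w => w k) g _
    rw [h1, h3, h2, ip2_smul_right ι g (fun y w => S.vec X (φ (Sum.inr B)) γ (mw k h y w)), hι]
  anti m β g hg := by
    funext y w
    rw [Qhm_tau S φ N hA (anti_vec S φ X B γ) ι m β (mw k g) (tst_mw hA k g hg) y w,
      Qhm_mw S φ N hA k m β g hg y w]
  antiv i A β g hg := by
    funext y w
    simp only [mw, mul2, map_smul]
    rw [vec_anti_swap S φ]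
    simp only [smul_neg]

/-! ### coefficients -/

lemma contDiff_Dy (i : Fin 9) (B C : Fin dm) : ContDiff ℝ ∞ (fun y : Cfg dh => S.Dy φ i y B C) := by
  simp only [Setup.Dy, Setup.Dm, Matrix.of_apply]
  refine ContDiff.sum fun A _ => ?_
  exact contDiff_const.mul (EuclideanSpace.proj (𝕜 := ℝ) (i, A)).contDiff

lemma contDiff_det {ι : Type*} [Fintype ι] [DecidableEq ι] {M : Cfg dh → Matrix ι ι ℝ}
    (hM : ∀ i j, ContDiff ℝ ∞ fun y => M y i j) : ContDiff ℝ ∞ fun y => (M y).det := by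
  simp only [Matrix.det_apply]
  refine ContDiff.sum fun σ _ => ?_
  exact ContDiff.const_smul _ (contDiff_prod fun i _ => hM _ _)

/-- the set of invertible points -/
def UU : Set (Cfg dh) := {y | (S.Dy φ 8 y).det ≠ 0}

lemma isOpen_UU : IsOpen (UU S φ) :=
  isOpen_ne_fun (contDiff_det (contDiff_Dy S φ 8)).continuous continuous_const

lemma contDiffOn_inv (B E : Fin dm) : ContDiffOn ℝ ∞ (fun y : Cfg dh => (S.Dy φ 8 y)⁻¹ B E) (UU S φ) := by
  have h1 : (fun y : Cfg dh => (S.Dy φ 8 y)⁻¹ B E) = fun y =>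
      ((S.Dy φ 8 y).det)⁻¹ * ((S.Dy φ 8 y).updateRow E (Pi.single B 1)).det := by
    funext y
    rw [Matrix.inv_def, Matrix.smul_apply, smul_eq_mul, Ring.inverse_eq_inv', Matrix.adjugate_apply]
  rw [h1]
  refine ContDiffOn.mul ?_ ?_
  · exact (contDiff_det (contDiff_Dy S φ 8)).contDiffOn.inv fun y hy => hy
  · refine (contDiff_det fun i j => ?_).contDiffOn
    by_cases hi : i = E
    · subst hi
      simp only [Matrix.updateRow_self]
      exact contDiff_const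
    · simp only [Matrix.updateRow_ne hi]
      exact contDiff_Dy S φ 8 i j

lemma contDiffOn_cf (j : Fin 9) (B E : Fin dm) :
    ContDiffOn ℝ ∞ (fun y : Cfg dh => ((S.Dy φ 8 y)⁻¹ * S.Dy φ j y) B E) (UU S φ) := by
  simp only [Matrix.mul_apply]
  refine ContDiffOn.sum fun C _ => ?_
  exact (contDiffOn_inv S φ B C).mul (contDiff_Dy S φ j C E).contDiffOn

lemma contDiffOn_pd {c : Cfg dh → ℝ} (hc : ContDiffOn ℝ ∞ c (UU S φ)) (i : Fin 9) (A : Fin dh) :
    ContDiffOn ℝ ∞ (fun y => fderiv ℝ c y (EuclideanSpace.single (i, A) 1)) (UU S φ) :=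
  (hc.fderiv_of_isOpen (isOpen_UU S φ) (by simp)).clm_apply contDiffOn_const

variable {S φ N}

lemma tst_mulc (hA : CalcA dh dm F) {Y : Cfg dh} {ε0 C0 : ℝ} (hcf : S.CoefBd φ Y ε0 C0) {c : Cfg dh → ℝ}
    (hc : ContDiffOn ℝ ∞ c (UU S φ)) {R : ℝ} (hR : 0 < R) {v : Cfg dh → Wsp dm → F} (hv : Tst2 v)
    (hs : Sup2 Y ε0 R v) : Tst2 (mul2 (fun y _ => c y) v) := by
  refine hA.mulOn c v {y | ‖y - R • Y‖ ≤ ε0 * R} (UU S φ) ?_ (isOpen_UU S φ) ?_ hc ?_ hv
  · exact isClosed_le (by fun_prop) continuous_const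
  · intro y hy
    exact hcf.det R hR y hy
  · intro y w h
    exact (hs y w h).1

lemma sum_ip {κ : Type*} (hA : CalcA dh dm F) (hB : CalcB dh dm F) (t : Finset κ) (u : Cfg dh → Wsp dm → F)
    (v : κ → Cfg dh → Wsp dm → F) (hu : Tst2 u) (hv : ∀ k, Tst2 (v k)) :
    Tst2 (fun y w => ∑ k ∈ t, v k y w) ∧ ip2 u (fun y w => ∑ k ∈ t, v k y w) = ∑ k ∈ t, ip2 u (v k) := by
  classical
  induction t using Finset.induction_on with
  | empty =>
    refine ⟨by simpa using hA.zero, ?_⟩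
    simp [ip2]
  | insert k t hk ih =>
    simp only [Finset.sum_insert hk]
    refine ⟨hA.add _ _ (hv k) ih.1, ?_⟩
    rw [hB.ip_add u (v k) _ hu (hv k) ih.1, ih.2]

lemma Qhm_mulc' (hA : CalcA dh dm F) {Y : Cfg dh} {ε0 C0 : ℝ} (hcf : S.CoefBd φ Y ε0 C0)
    (hop : OpFacts S φ N Y ε0) {c : Cfg dh → ℝ} (hc : ContDiffOn ℝ ∞ c (UU S φ)) {R : ℝ} (hR : 0 < R)
    {v : Cfg dh → Wsp dm → F} (hv : Tst2 v) (hs : Sup2 Y ε0 R v) (m : ℝ) (β : Fin 16) (y : Cfg dh) (w : Wsp dm) :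
    S.Qhm φ N m β (mul2 (fun y _ => c y) v) y w = mul2 (fun y _ => c y) (S.Qhm φ N m β v) y w +
      ∑ p : Fin 9 × Fin dh, (-Complex.I) • mul2 (fun y _ => fderiv ℝ c y (EuclideanSpace.single (p.1, p.2) 1))
        (fun y w => S.vec (S.g p.1) (φ (Sum.inl p.2)) β (v y w)) y w := by
  by_cases h : ‖y - R • Y‖ ≤ ε0 * R ∧ ‖w‖ ≤ ε0 * R
  · have h1 : DifferentiableAt ℝ c y :=
      (hc.contDiffAt ((isOpen_UU S φ).mem_nhds (hcf.det R hR y h.1))).differentiableAt (by simp)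
    rw [Qhm_mulc S φ N hA c m β v hv y w h1, Fintype.sum_prod_type]
    simp only [mul2]
  · have h1 : S.Qhm φ N m β v y w = 0 := by
      by_contra h0
      exact h (hop.suh ε0 R v hv hs m β y w h0)
    have h2 : v y w = 0 := by
      by_contra h0
      exact h (hs y w h0)
    have hs' : Sup2 Y ε0 R (mul2 (fun y _ => c y) v) := by
      intro y' w' h'
      refine hs y' w' fun h0 => h' ?_
      simp only [mul2]
      rw [h0, smul_zero]
    have h3 : S.Qhm φ N m β (mul2 (fun y _ => c y) v) y w = 0 := by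
      by_contra h0
      exact h (hop.suh ε0 R _ (tst_mulc hA hcf hc hR hv hs) hs' m β y w h0)
    rw [h3]
    simp only [mul2]
    rw [h1, h2]
    simp

lemma term_bound (hA : CalcA dh dm F) (hB : CalcB dh dm F) {Y : Cfg dh} {ε0 C0 : ℝ} (hcf : S.CoefBd φ Y ε0 C0)
    (hop : OpFacts S φ N Y ε0) {L : (Cfg dh → Wsp dm → F) → Cfg dh → Wsp dm → F} (hL : LOp S φ N L)
    {c : Cfg dh → ℝ} (hc : ContDiffOn ℝ ∞ c (UU S φ)) (K : ℝ) (β : Fin 16) :
    ∃ C : ℝ, 0 ≤ C ∧ ∀ R : ℝ, 0 < R → ∀ ρ : ℝ, 0 < ρ →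
      (∀ y : Cfg dh, ‖y - R • Y‖ ≤ ε0 * R → ∀ i A, |fderiv ℝ c y (EuclideanSpace.single (i, A) 1)| ≤ K * ρ) →
      ∀ (m : ℝ) (a b : Cfg dh → Wsp dm → F), Tst2 a → Tst2 b → Sup2 Y ε0 R a → Sup2 Y ε0 R b → ∀ s : ℝ, 0 < s →
      |(ip2 (S.Qhm φ N m β a) (mul2 (fun y _ => c y) (L b)) +
        ip2 (S.Qhm φ N m β b) (mul2 (fun y _ => c y) (L a))).re| ≤
        C * (s * ns2 a + s⁻¹ * (ρ ^ 2 * ns2 (L b))) := by
  refine ⟨∑ p : Fin 9 × Fin dh, (K ^ 2 * ‖S.vec (S.g p.1) (φ (Sum.inl p.2)) β‖ ^ 2 + 1), by positivity, ?_⟩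
  intro R hR ρ hρ hK m a b ha hb hsa hsb s hs
  have hLa := hL.tst a ha
  have hLb := hL.tst b hb
  have hLsa := hL.sup Y ε0 R a ha hsa
  have hLsb := hL.sup Y ε0 R b hb hsb
  have tcLa : Tst2 (mul2 (fun y _ => c y) (L a)) := tst_mulc hA hcf hc hR hLa hLsa
  have tTa := hop.th a ha m β
  have sTa := hop.suh ε0 R a ha hsa m β
  have tTLa := hop.th (L a) hLa m β
  have sTLa := hop.suh ε0 R (L a) hLa hLsa m β
  -- the pieces
  have tGa : ∀ p : Fin 9 × Fin dh, Tst2 (fun y w => S.vec (S.g p.1) (φ (Sum.inl p.2)) β (a y w)) := fun p =>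
    hA.clm _ a ha
  have sGa : ∀ p : Fin 9 × Fin dh, Sup2 Y ε0 R (fun y w => S.vec (S.g p.1) (φ (Sum.inl p.2)) β (a y w)) := by
    intro p y w h
    exact hsa y w fun h0 => h (by show S.vec (S.g p.1) (φ (Sum.inl p.2)) β (a y w) = 0; rw [h0, map_zero])
  have tdGa : ∀ p : Fin 9 × Fin dh, Tst2 (mul2 (fun y _ => fderiv ℝ c y (EuclideanSpace.single (p.1, p.2) 1))
      (fun y w => S.vec (S.g p.1) (φ (Sum.inl p.2)) β (a y w))) := fun p =>
    tst_mulc hA hcf (contDiffOn_pd S φ hc p.1 p.2) hR (tGa p) (sGa p)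
  have tdGLa : ∀ p : Fin 9 × Fin dh, Tst2 (mul2 (fun y _ => fderiv ℝ c y (EuclideanSpace.single (p.1, p.2) 1))
      (fun y w => S.vec (S.g p.1) (φ (Sum.inl p.2)) β (L a y w))) := fun p =>
    tst_mulc hA hcf (contDiffOn_pd S φ hc p.1 p.2) hR (hA.clm _ _ hLa) (by
      intro y w h
      exact hLsa y w fun h0 => h (by show S.vec (S.g p.1) (φ (Sum.inl p.2)) β (L a y w) = 0; rw [h0, map_zero]))
  have tE : ∀ p : Fin 9 × Fin dh, Tst2 (fun y w => (-Complex.I) •
      mul2 (fun y _ => fderiv ℝ c y (EuclideanSpace.single (p.1, p.2) 1))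
        (fun y w => S.vec (S.g p.1) (φ (Sum.inl p.2)) β (L a y w)) y w) := fun p => hA.smul _ _ (tdGLa p)
  have tv : ∀ p : Fin 9 × Fin dh, Tst2 (fun y w => Complex.I •
      mul2 (fun y _ => fderiv ℝ c y (EuclideanSpace.single (p.1, p.2) 1))
        (fun y w => S.vec (S.g p.1) (φ (Sum.inl p.2)) β (a y w)) y w) := fun p => hA.smul _ _ (tdGa p)
  have e1 : S.Qhm φ N m β (mul2 (fun y _ => c y) (L a)) = fun y w =>
      mul2 (fun y _ => c y) (S.Qhm φ N m β (L a)) y w +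
      ∑ p : Fin 9 × Fin dh, (-Complex.I) • mul2 (fun y _ => fderiv ℝ c y (EuclideanSpace.single (p.1, p.2) 1))
        (fun y w => S.vec (S.g p.1) (φ (Sum.inl p.2)) β (L a y w)) y w := by
    funext y w
    exact Qhm_mulc' hA hcf hop hc hR hLa hLsa m β y w
  have e2 : ip2 (S.Qhm φ N m β b) (mul2 (fun y _ => c y) (L a)) =
      ip2 b (mul2 (fun y _ => c y) (S.Qhm φ N m β (L a))) +
      ∑ p : Fin 9 × Fin dh, ip2 b (fun y w => (-Complex.I) •
        mul2 (fun y _ => fderiv ℝ c y (EuclideanSpace.single (p.1, p.2) 1))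
        (fun y w => S.vec (S.g p.1) (φ (Sum.inl p.2)) β (L a y w)) y w) := by
    rw [hop.symm b _ hb tcLa m β, e1]
    have h := sum_ip hA hB Finset.univ b (fun (p : Fin 9 × Fin dh) y w => (-Complex.I) •
        mul2 (fun y _ => fderiv ℝ c y (EuclideanSpace.single (p.1, p.2) 1))
        (fun y w => S.vec (S.g p.1) (φ (Sum.inl p.2)) β (L a y w)) y w) hb tE
    rw [hB.ip_add b (mul2 (fun y _ => c y) (S.Qhm φ N m β (L a))) _ hb (tst_mulc hA hcf hc hR tTLa sTLa) h.1, h.2]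
  have e3 : ip2 b (mul2 (fun y _ => c y) (S.Qhm φ N m β (L a))) =
      -(starRingEnd ℂ) (ip2 (S.Qhm φ N m β a) (mul2 (fun y _ => c y) (L b))) := by
    have h1 : mul2 (fun y _ => c y) (S.Qhm φ N m β (L a)) =
        fun y w => (-1 : ℂ) • L (mul2 (fun y _ => c y) (S.Qhm φ N m β a)) y w := by
      rw [hL.anti m β a ha, hL.mulc c _ tTa]
      funext y w
      simp only [mul2, smul_neg, neg_smul, one_smul]
    rw [h1, hB.ip_smul, ← hL.symm b _ hb (tst_mulc hA hcf hc hR tTa sTa), ← hB.ip_mul, ← hB.conj]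
    ring
  have e4 : ∀ p : Fin 9 × Fin dh, ip2 b (fun y w => (-Complex.I) •
        mul2 (fun y _ => fderiv ℝ c y (EuclideanSpace.single (p.1, p.2) 1))
        (fun y w => S.vec (S.g p.1) (φ (Sum.inl p.2)) β (L a y w)) y w) =
      ip2 (L b) (fun y w => Complex.I • mul2 (fun y _ => fderiv ℝ c y (EuclideanSpace.single (p.1, p.2) 1))
        (fun y w => S.vec (S.g p.1) (φ (Sum.inl p.2)) β (a y w)) y w) := by
    intro p
    have h1 : mul2 (fun y _ => fderiv ℝ c y (EuclideanSpace.single (p.1, p.2) 1))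
        (fun y w => S.vec (S.g p.1) (φ (Sum.inl p.2)) β (L a y w)) =
        fun y w => (-1 : ℂ) • L (mul2 (fun y _ => fderiv ℝ c y (EuclideanSpace.single (p.1, p.2) 1))
          (fun y w => S.vec (S.g p.1) (φ (Sum.inl p.2)) β (a y w))) y w := by
      rw [hL.mulc (fun y => fderiv ℝ c y (EuclideanSpace.single (p.1, p.2) 1)) _ (tGa p),
        hL.antiv p.1 p.2 β a ha]
      funext y w
      simp only [mul2, smul_neg, neg_smul, one_smul, neg_neg]
    rw [hB.ip_smul, h1, hB.ip_smul, ← hL.symm b _ hb (tdGa p), hB.ip_smul]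
    ring
  have e5 : (ip2 (S.Qhm φ N m β a) (mul2 (fun y _ => c y) (L b)) +
        ip2 (S.Qhm φ N m β b) (mul2 (fun y _ => c y) (L a))).re =
      ∑ p : Fin 9 × Fin dh, (ip2 (L b) (fun y w => Complex.I •
        mul2 (fun y _ => fderiv ℝ c y (EuclideanSpace.single (p.1, p.2) 1))
        (fun y w => S.vec (S.g p.1) (φ (Sum.inl p.2)) β (a y w)) y w)).re := by
    rw [e2, e3]
    simp only [e4, Complex.add_re, Complex.neg_re, Complex.conj_re, Complex.re_sum]
    ring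
  rw [e5, Finset.sum_mul]
  refine (Finset.abs_sum_le_sum_abs _ _).trans (Finset.sum_le_sum fun p _ => ?_)
  have h1 := hB.cs (s⁻¹ * ρ ^ 2) (L b) _ (by positivity) hLb (tv p)
  have h2 : ns2 (fun y w => Complex.I •
        mul2 (fun y _ => fderiv ℝ c y (EuclideanSpace.single (p.1, p.2) 1))
        (fun y w => S.vec (S.g p.1) (φ (Sum.inl p.2)) β (a y w)) y w) ≤
      ((K * ρ) ^ 2 * ‖S.vec (S.g p.1) (φ (Sum.inl p.2)) β‖ ^ 2) * ns2 a := by
    refine hB.mono _ _ _ (tv p) ha fun y w => ?_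
    by_cases h0 : a y w = 0
    · simp only [mul2, h0, map_zero, smul_zero, norm_zero]
      simp
    · have hy := (hsa y w h0).1
      simp only [mul2]
      rw [norm_smul, norm_smul, Complex.norm_I, one_mul, Complex.norm_real, Real.norm_eq_abs, mul_pow, mul_assoc,
        ← mul_pow ‖S.vec (S.g p.1) (φ (Sum.inl p.2)) β‖]
      exact mul_le_mul (pow_le_pow_left₀ (abs_nonneg _) (hK y hy p.1 p.2) 2)
        (pow_le_pow_left₀ (norm_nonneg _) ((S.vec (S.g p.1) (φ (Sum.inl p.2)) β).le_opNorm _) 2)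
        (by positivity) (by positivity)
  have h3 : (s⁻¹ * ρ ^ 2)⁻¹ * ns2 (fun y w => Complex.I •
        mul2 (fun y _ => fderiv ℝ c y (EuclideanSpace.single (p.1, p.2) 1))
        (fun y w => S.vec (S.g p.1) (φ (Sum.inl p.2)) β (a y w)) y w) ≤
      K ^ 2 * ‖S.vec (S.g p.1) (φ (Sum.inl p.2)) β‖ ^ 2 * (s * ns2 a) := by
    refine (mul_le_mul_of_nonneg_left h2 (by positivity)).trans (le_of_eq ?_)
    field_simp
  have h4 := hB.nonneg a
  have h5 := hB.nonneg (L b)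
  have h6 : 0 ≤ K ^ 2 * ‖S.vec (S.g p.1) (φ (Sum.inl p.2)) β‖ ^ 2 := by positivity
  have h7 : 0 ≤ s⁻¹ * (ρ ^ 2 * ns2 (L b)) := by positivity
  have h8 : 0 ≤ s * ns2 a := by positivity
  have h9 : 0 ≤ K ^ 2 * ‖S.vec (S.g p.1) (φ (Sum.inl p.2)) β‖ ^ 2 * (s⁻¹ * (ρ ^ 2 * ns2 (L b))) :=
    mul_nonneg h6 h7
  have h10 : 0 ≤ K ^ 2 * ‖S.vec (S.g p.1) (φ (Sum.inl p.2)) β‖ ^ 2 * (s * ns2 a) := mul_nonneg h6 h8
  have h11 : s⁻¹ * ρ ^ 2 * ns2 (L b) = s⁻¹ * (ρ ^ 2 * ns2 (L b)) := by ring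
  rw [h11] at h1
  have h12 : (K ^ 2 * ‖S.vec (S.g p.1) (φ (Sum.inl p.2)) β‖ ^ 2 + 1) * (s * ns2 a + s⁻¹ * (ρ ^ 2 * ns2 (L b))) =
      K ^ 2 * ‖S.vec (S.g p.1) (φ (Sum.inl p.2)) β‖ ^ 2 * (s * ns2 a) +
      K ^ 2 * ‖S.vec (S.g p.1) (φ (Sum.inl p.2)) β‖ ^ 2 * (s⁻¹ * (ρ ^ 2 * ns2 (L b))) + s * ns2 a +
      s⁻¹ * (ρ ^ 2 * ns2 (L b)) := by ring
  rw [h12]
  linarith

variable (S φ N) in
/-- operators with a good cross term -/
def Good (Y : Cfg dh) (ε0 : ℝ) (β : Fin 16) (X : (Cfg dh → Wsp dm → F) → Cfg dh → Wsp dm → F) : Prop :=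
  (∀ R : ℝ, 0 < R → ∀ g, Tst2 g → Sup2 Y ε0 R g → Tst2 (X g)) ∧
  ∃ C : ℝ, 0 ≤ C ∧ ∀ R : ℝ, 1 ≤ R → ∀ (m : ℝ) (a b : Cfg dh → Wsp dm → F), Tst2 a → Tst2 b →
    Sup2 Y ε0 R a → Sup2 Y ε0 R b → ∀ s : ℝ, 0 < s →
    |(ip2 (S.Qhm φ N m β a) (X b) + ip2 (S.Qhm φ N m β b) (X a)).re| ≤
      C * (s * ns2 a + s⁻¹ * (1 / R ^ 2 * D2w b + W2 b))

lemma D2w_nonneg (hB : CalcB dh dm F) (b : Cfg dh → Wsp dm → F) : 0 ≤ D2w b :=
  Finset.sum_nonneg fun _ _ => Finset.sum_nonneg fun _ _ => hB.nonneg _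

lemma ns2_nonneg' {E : Type*} [NormedAddCommGroup E] (v : Cfg dh → Wsp dm → E) : 0 ≤ ns2 v :=
  integral_nonneg fun _ => by positivity

lemma W2_nonneg (b : Cfg dh → Wsp dm → F) : 0 ≤ W2 b := ns2_nonneg' _

lemma rhs_nonneg (hB : CalcB dh dm F) (a b : Cfg dh → Wsp dm → F) {R s : ℝ} (hs : 0 < s) :
    0 ≤ s * ns2 a + s⁻¹ * (1 / R ^ 2 * D2w b + W2 b) := by
  have h1 := ns2_nonneg' a
  have h2 := D2w_nonneg hB b
  have h3 := W2_nonneg b
  positivity

lemma Good.zero (hA : CalcA dh dm F) (Y : Cfg dh) (ε0 : ℝ) (β : Fin 16) :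
    Good S φ N Y ε0 β (fun _ _ _ => 0) := by
  refine ⟨fun R _ g _ _ => hA.zero, 0, le_rfl, fun R _ m a b _ _ _ _ s _ => ?_⟩
  simp [ip2]

lemma Good.add (hB : CalcB dh dm F) (hA : CalcA dh dm F) {Y : Cfg dh} {ε0 : ℝ} {β : Fin 16} (hop : OpFacts S φ N Y ε0)
    {X X' : (Cfg dh → Wsp dm → F) → Cfg dh → Wsp dm → F} (h : Good S φ N Y ε0 β X) (h' : Good S φ N Y ε0 β X') :
    Good S φ N Y ε0 β (fun g y w => X g y w + X' g y w) := by
  obtain ⟨ht, C, hC, hb⟩ := h
  obtain ⟨ht', C', hC', hb'⟩ := h'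
  refine ⟨fun R hR g hg hs => hA.add _ _ (ht R hR g hg hs) (ht' R hR g hg hs), C + C', by positivity,
    fun R hR m a b ha hb1 hsa hsb s hs => ?_⟩
  have hR0 : 0 < R := by linarith
  rw [hB.ip_add _ _ _ (hop.th a ha m β) (ht R hR0 b hb1 hsb) (ht' R hR0 b hb1 hsb),
    hB.ip_add _ _ _ (hop.th b hb1 m β) (ht R hR0 a ha hsa) (ht' R hR0 a ha hsa)]
  have e1 := hb R hR m a b ha hb1 hsa hsb s hs
  have e2 := hb' R hR m a b ha hb1 hsa hsb s hs
  have e3 : (ip2 (S.Qhm φ N m β a) (X b) + ip2 (S.Qhm φ N m β a) (X' b) +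
      (ip2 (S.Qhm φ N m β b) (X a) + ip2 (S.Qhm φ N m β b) (X' a))).re =
      (ip2 (S.Qhm φ N m β a) (X b) + ip2 (S.Qhm φ N m β b) (X a)).re +
      (ip2 (S.Qhm φ N m β a) (X' b) + ip2 (S.Qhm φ N m β b) (X' a)).re := by
    simp only [Complex.add_re]
    ring
  rw [e3, add_mul]
  exact (abs_add_le _ _).trans (add_le_add e1 e2)

lemma Good.sum {κ : Type*} (t : Finset κ) (hB : CalcB dh dm F) (hA : CalcA dh dm F) {Y : Cfg dh} {ε0 : ℝ} {β : Fin 16}
    (hop : OpFacts S φ N Y ε0)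
    {X : κ → (Cfg dh → Wsp dm → F) → Cfg dh → Wsp dm → F} (h : ∀ k, Good S φ N Y ε0 β (X k)) :
    Good S φ N Y ε0 β (fun g y w => ∑ k ∈ t, X k g y w) := by
  classical
  induction t using Finset.induction_on with
  | empty => simpa using Good.zero hA Y ε0 β
  | insert k t hk ih =>
    simp only [Finset.sum_insert hk]
    exact Good.add hB hA hop (h k) ih

lemma good_pw (hA : CalcA dh dm F) (hB : CalcB dh dm F) {Y : Cfg dh} {ε0 C0 : ℝ} (hcf : S.CoefBd φ Y ε0 C0)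
    (hop : OpFacts S φ N Y ε0) (β : Fin 16) (X : Matrix (Fin 16) (Fin 16) ℂ)
    (hX : ∀ α β, (X α β).im = 0) (B : Fin dm) (ι : ℂ) (hι : (starRingEnd ℂ) ι = -ι)
    (j : Fin 8) (E : Fin dm) {c : Cfg dh → ℝ} (hc : ContDiffOn ℝ ∞ c (UU S φ)) (K : ℝ)
    (hK : ∀ R : ℝ, 0 < R → ∀ y : Cfg dh, ‖y - R • Y‖ ≤ ε0 * R → ∀ i A,
      |fderiv ℝ c y (EuclideanSpace.single (i, A) 1)| ≤ K / R) :
    Good S φ N Y ε0 β (fun g => mul2 (fun y _ => c y) (fun y w => ι • S.vec X (φ (Sum.inr B)) β (Z.pw j E g y w))) := by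
  have hL := lop_pw S φ N hA hB X hX B β ι hι j E
  obtain ⟨C, hC, hb⟩ := term_bound hA hB hcf hop hL hc K β
  refine ⟨fun R hR g hg hs => tst_mulc hA hcf hc hR (hL.tst g hg) (hL.sup Y ε0 R g hg hs),
    C * (1 + ‖ι‖ ^ 2 * ‖S.vec X (φ (Sum.inr B)) β‖ ^ 2), by positivity, fun R hR m a b ha hb1 hsa hsb s hs => ?_⟩
  have hR0 : 0 < R := by linarith
  have h1 := hb R hR0 (1 / R) (by positivity) (fun y hy i A => by
    rw [mul_one_div]
    exact hK R hR0 y hy i A) m a b ha hb1 hsa hsb s hs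
  refine h1.trans ?_
  rw [mul_assoc]
  refine mul_le_mul_of_nonneg_left ?_ hC
  set M := ‖ι‖ ^ 2 * ‖S.vec X (φ (Sum.inr B)) β‖ ^ 2 with hM
  have hM0 : 0 ≤ M := by positivity
  have h2 : ns2 (fun y w => ι • S.vec X (φ (Sum.inr B)) β (Z.pw j E b y w)) ≤ M * ns2 (Z.pw j E b) := by
    refine hB.mono _ _ _ (hL.tst b hb1) (hA.pw j E b hb1) fun y w => ?_
    rw [norm_smul, mul_pow, hM, mul_assoc, ← mul_pow ‖S.vec X (φ (Sum.inr B)) β‖]
    exact mul_le_mul_of_nonneg_left (pow_le_pow_left₀ (norm_nonneg _)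
      ((S.vec X (φ (Sum.inr B)) β).le_opNorm _) 2) (by positivity)
  have h3 : ns2 (Z.pw j E b) ≤ D2w b := by
    have h4 : ns2 (Z.pw j E b) ≤ ∑ E', ns2 (Z.pw j E' b) :=
      Finset.single_le_sum (f := fun E' => ns2 (Z.pw j E' b)) (fun _ _ => hB.nonneg _) (Finset.mem_univ E)
    exact h4.trans (Finset.single_le_sum (f := fun j' => ∑ E', ns2 (Z.pw j' E' b))
      (fun _ _ => Finset.sum_nonneg fun _ _ => hB.nonneg _) (Finset.mem_univ j))
  have h5 := ns2_nonneg' a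
  have h6 := W2_nonneg b
  have h7 := D2w_nonneg hB b
  have h8 : s⁻¹ * ((1 / R) ^ 2 * ns2 (fun y w => ι • S.vec X (φ (Sum.inr B)) β (Z.pw j E b y w))) ≤
      s⁻¹ * (1 / R ^ 2 * (M * D2w b)) := by
    refine mul_le_mul_of_nonneg_left ?_ (by positivity)
    rw [one_div_pow]
    exact mul_le_mul_of_nonneg_left (h2.trans (mul_le_mul_of_nonneg_left h3 hM0)) (by positivity)
  have h9 : 0 ≤ s⁻¹ * (1 / R ^ 2 * D2w b) := by positivity
  have h10 : 0 ≤ (1 + M) * (s⁻¹ * W2 b) := by positivity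
  have h11 : 0 ≤ M * (s * ns2 a) := by positivity
  have h12 : (1 + M) * (s * ns2 a + s⁻¹ * (1 / R ^ 2 * D2w b + W2 b)) =
      s * ns2 a + M * (s * ns2 a) + s⁻¹ * (1 / R ^ 2 * D2w b) + s⁻¹ * (1 / R ^ 2 * (M * D2w b)) +
        (1 + M) * (s⁻¹ * W2 b) := by ring
  rw [h12]
  linarith

lemma good_mw (hA : CalcA dh dm F) (hB : CalcB dh dm F) {Y : Cfg dh} {ε0 C0 : ℝ} (hcf : S.CoefBd φ Y ε0 C0)
    (hop : OpFacts S φ N Y ε0) (β : Fin 16) (X : Matrix (Fin 16) (Fin 16) ℂ)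
    (hX : ∀ α β, (X α β).im = 0) (B : Fin dm) (ι : ℂ) (hι : (starRingEnd ℂ) ι = ι)
    (k : Fin 8 × Fin dm) {c : Cfg dh → ℝ} (hc : ContDiffOn ℝ ∞ c (UU S φ)) (K : ℝ)
    (hK : ∀ y : Cfg dh, ∀ i A, |fderiv ℝ c y (EuclideanSpace.single (i, A) 1)| ≤ K) :
    Good S φ N Y ε0 β (fun g => mul2 (fun y _ => c y) (fun y w => ι • S.vec X (φ (Sum.inr B)) β (mw k g y w))) := by
  have hL := lop_mw S φ N hA hB X hX B β ι hι k
  obtain ⟨C, hC, hb⟩ := term_bound hA hB hcf hop hL hc K β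
  refine ⟨fun R hR g hg hs => tst_mulc hA hcf hc hR (hL.tst g hg) (hL.sup Y ε0 R g hg hs),
    C * (1 + ‖ι‖ ^ 2 * ‖S.vec X (φ (Sum.inr B)) β‖ ^ 2), by positivity, fun R hR m a b ha hb1 hsa hsb s hs => ?_⟩
  have hR0 : 0 < R := by linarith
  have h1 := hb R hR0 1 one_pos (fun y hy i A => by
    rw [mul_one]
    exact hK y i A) m a b ha hb1 hsa hsb s hs
  refine h1.trans ?_
  rw [mul_assoc]
  refine mul_le_mul_of_nonneg_left ?_ hC
  set M := ‖ι‖ ^ 2 * ‖S.vec X (φ (Sum.inr B)) β‖ ^ 2 with hM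
  have hM0 : 0 ≤ M := by positivity
  have h2 : ns2 (fun y w => ι • S.vec X (φ (Sum.inr B)) β (mw k b y w)) ≤ M * ns2 (mw k b) := by
    refine hB.mono _ _ _ (hL.tst b hb1) (tst_mw hA k b hb1) fun y w => ?_
    rw [norm_smul, mul_pow, hM, mul_assoc, ← mul_pow ‖S.vec X (φ (Sum.inr B)) β‖]
    exact mul_le_mul_of_nonneg_left (pow_le_pow_left₀ (norm_nonneg _)
      ((S.vec X (φ (Sum.inr B)) β).le_opNorm _) 2) (by positivity)
  have h3 : ns2 (mw k b) ≤ W2 b := by
    rw [hB.W2_eq b hb1]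
    exact Finset.single_le_sum (f := fun k' => ns2 (mw k' b)) (fun _ _ => hB.nonneg _) (Finset.mem_univ k)
  have h5 := ns2_nonneg' a
  have h6 := W2_nonneg b
  have h7 := D2w_nonneg hB b
  have h8 : s⁻¹ * (1 ^ 2 * ns2 (fun y w => ι • S.vec X (φ (Sum.inr B)) β (mw k b y w))) ≤
      s⁻¹ * (M * W2 b) := by
    refine mul_le_mul_of_nonneg_left ?_ (by positivity)
    rw [one_pow, one_mul]
    exact h2.trans (mul_le_mul_of_nonneg_left h3 hM0)
  have h9 : 0 ≤ (1 + M) * (s⁻¹ * (1 / R ^ 2 * D2w b)) := by positivity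
  have h10 : 0 ≤ s⁻¹ * W2 b := by positivity
  have h11 : 0 ≤ M * (s * ns2 a) := by positivity
  have h12 : (1 + M) * (s * ns2 a + s⁻¹ * (1 / R ^ 2 * D2w b + W2 b)) =
      s * ns2 a + M * (s * ns2 a) + s⁻¹ * W2 b + s⁻¹ * (M * W2 b) +
        (1 + M) * (s⁻¹ * (1 / R ^ 2 * D2w b)) := by ring
  rw [h12]
  linarith

lemma Dy_fderiv (i : Fin 9) (B C : Fin dm) (y : Cfg dh) (i' : Fin 9) (A : Fin dh) :
    |fderiv ℝ (fun y => S.Dy φ i y B C) y (EuclideanSpace.single (i', A) 1)| ≤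
      ∑ A', |S.f (φ (Sum.inr B)) (φ (Sum.inl A')) (φ (Sum.inr C))| := by
  have h1 : (fun y : Cfg dh => S.Dy φ i y B C) = fun y => (∑ A', S.f (φ (Sum.inr B)) (φ (Sum.inl A')) (φ (Sum.inr C)) •
      (EuclideanSpace.proj (𝕜 := ℝ) (i, A') : Cfg dh →L[ℝ] ℝ)) y := by
    funext y
    simp only [Setup.Dy, Setup.Dm, Matrix.of_apply, _root_.sum_apply, _root_.smul_apply, smul_eq_mul]
    rfl
  rw [h1, ContinuousLinearMap.fderiv]
  simp only [_root_.sum_apply, _root_.smul_apply, smul_eq_mul]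
  refine (Finset.abs_sum_le_sum_abs _ _).trans (Finset.sum_le_sum fun A' _ => ?_)
  rw [abs_mul]
  refine mul_le_of_le_one_right (abs_nonneg _) ?_
  have h2 : (EuclideanSpace.proj (𝕜 := ℝ) (i, A') : Cfg dh →L[ℝ] ℝ) (EuclideanSpace.single (i', A) 1) =
      if (i, A') = (i', A) then 1 else 0 := by
    show (EuclideanSpace.single (i', A) (1 : ℝ) : Cfg dh) (i, A') = _
    rw [PiLp.single_apply]
  rw [h2]
  split_ifs <;> simp

lemma good_wt (hA : CalcA dh dm F) (hB : CalcB dh dm F) {Y : Cfg dh} {ε0 C0 : ℝ} (hcf : S.CoefBd φ Y ε0 C0)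
    (hop : OpFacts S φ N Y ε0) (β : Fin 16) (X : Matrix (Fin 16) (Fin 16) ℂ)
    (hX : ∀ α β, (X α β).im = 0) (B : Fin dm) (ι : ℂ) (hι : (starRingEnd ℂ) ι = ι)
    (j : Fin 9) (i : Fin 9) (C : Fin dm) :
    Good S φ N Y ε0 β (fun g y w => ((S.Dy φ i y B C : ℝ) : ℂ) •
      (ι • S.vec X (φ (Sum.inr B)) β (((wt w j C : ℝ) : ℂ) • g y w))) := by
  induction j using Fin.lastCases with
  | last =>
    have h : (fun (g : Cfg dh → Wsp dm → F) (y : Cfg dh) (w : Wsp dm) => ((S.Dy φ i y B C : ℝ) : ℂ) •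
      (ι • S.vec X (φ (Sum.inr B)) β (((wt w (Fin.last 8) C : ℝ) : ℂ) • g y w))) = fun _ _ _ => 0 := by
      funext g y w
      have h0 : wt w (Fin.last 8) C = 0 := by
        rw [wt]
        exact Fin.lastCases_last
      rw [h0]
      simp
    rw [h]
    exact Good.zero hA Y ε0 β
  | cast j =>
    have h : (fun (g : Cfg dh → Wsp dm → F) (y : Cfg dh) (w : Wsp dm) => ((S.Dy φ i y B C : ℝ) : ℂ) •
      (ι • S.vec X (φ (Sum.inr B)) β (((wt w j.castSucc C : ℝ) : ℂ) • g y w))) = fun g =>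
        mul2 (fun y _ => S.Dy φ i y B C) (fun y w => ι • S.vec X (φ (Sum.inr B)) β (mw (j, C) g y w)) := by
      funext g y w
      simp [wt, mw, mul2]
    rw [h]
    exact good_mw hA hB hcf hop β X hX B ι hι (j, C) (contDiff_Dy S φ i B C).contDiffOn _
      (fun y i' A => Dy_fderiv i B C y i' A)

lemma good_Q1 (hA : CalcA dh dm F) (hB : CalcB dh dm F) {Y : Cfg dh} {ε0 C0 : ℝ} (hcf : S.CoefBd φ Y ε0 C0)
    (hop : OpFacts S φ N Y ε0) (β : Fin 16) : Good S φ N Y ε0 β (S.Q1 φ β) := by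
  have hI1 : (starRingEnd ℂ) (-Complex.I) = -(-Complex.I) := by simp
  have hI2 : (starRingEnd ℂ) Complex.I = -Complex.I := by simp
  have hA1 : Good S φ N Y ε0 β (fun (g : Cfg dh → Wsp dm → F) y w => ∑ j : Fin 8, ∑ B,
      mul2 (fun y _ => (1 : ℝ)) (fun y w => (-Complex.I) • S.vec (S.g j.castSucc) (φ (Sum.inr B)) β (Z.pw j B g y w)) y w) :=
    Good.sum _ hB hA hop fun j => Good.sum _ hB hA hop fun B =>
      good_pw hA hB hcf hop β (S.g j.castSucc) (S.g_im _) B (-Complex.I) hI1 j B (c := fun _ => 1) contDiffOn_const 0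
        (fun R hR y hy i A => by simp)
  have hA2 : Good S φ N Y ε0 β (fun (g : Cfg dh → Wsp dm → F) y w => ∑ B, ∑ j : Fin 8, ∑ E,
      mul2 (fun y _ => ((S.Dy φ 8 y)⁻¹ * S.Dy φ j.castSucc y) B E)
        (fun y w => Complex.I • S.vec (S.g 8) (φ (Sum.inr B)) β (Z.pw j E g y w)) y w) :=
    Good.sum _ hB hA hop fun B => Good.sum _ hB hA hop fun j => Good.sum _ hB hA hop fun E =>
      good_pw hA hB hcf hop β (S.g 8) (S.g_im _) B Complex.I hI2 j E (contDiffOn_cf S φ j.castSucc B E) C0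
        (fun R hR y hy i A => hcf.dcf R hR y hy j.castSucc B E i A)
  have hι1 : (starRingEnd ℂ) ((S.κ / 2 : ℝ) : ℂ) = ((S.κ / 2 : ℝ) : ℂ) := Complex.conj_ofReal _
  have hι2 : (starRingEnd ℂ) ((-(S.κ / 2) : ℝ) : ℂ) = ((-(S.κ / 2) : ℝ) : ℂ) := Complex.conj_ofReal _
  have hA3 : Good S φ N Y ε0 β (fun (g : Cfg dh → Wsp dm → F) y w => ∑ B, ∑ i : Fin 9, ∑ j : Fin 9,
      ((∑ C, ((S.Dy φ i y B C : ℝ) : ℂ) • (((S.κ / 2 : ℝ) : ℂ) • S.vec (S.g2 i j) (φ (Sum.inr B)) β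
          (((wt w j C : ℝ) : ℂ) • g y w))) +
        ∑ C, ((S.Dy φ j y B C : ℝ) : ℂ) • (((-(S.κ / 2) : ℝ) : ℂ) • S.vec (S.g2 i j) (φ (Sum.inr B)) β
          (((wt w i C : ℝ) : ℂ) • g y w)))) :=
    Good.sum _ hB hA hop fun B => Good.sum _ hB hA hop fun i => Good.sum _ hB hA hop fun j =>
      Good.add hB hA hop
        (Good.sum _ hB hA hop fun C => good_wt hA hB hcf hop β (S.g2 i j) (S.g2_im i j) B _ hι1 j i C)
        (Good.sum _ hB hA hop fun C => good_wt hA hB hcf hop β (S.g2 i j) (S.g2_im i j) B _ hι2 i j C)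
  have h := Good.add hB hA hop (Good.add hB hA hop hA1 hA2) hA3
  refine (congrArg (Good S φ N Y ε0 β) ?_).mpr h
  funext g y w
  rw [Setup.Q1]
  congr 1
  · congr 1
    · simp only [mul2, Finset.smul_sum, Complex.ofReal_one, one_smul]
    · rw [Finset.smul_sum]
      refine Finset.sum_congr rfl fun B _ => ?_
      simp only [mul2, Matrix.mul_apply, map_sum, map_smul, Finset.smul_sum, Complex.ofReal_sum, Finset.sum_smul,
        Complex.ofReal_mul, mul_smul]
      rw [Finset.sum_comm]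
      refine Finset.sum_congr rfl fun j _ => ?_
      rw [Finset.sum_comm]
      refine Finset.sum_congr rfl fun E _ => Finset.sum_congr rfl fun C _ => ?_
      rw [smul_comm Complex.I, smul_comm Complex.I]
  · rw [Finset.smul_sum]
    refine Finset.sum_congr rfl fun B _ => ?_
    rw [Finset.smul_sum]
    refine Finset.sum_congr rfl fun i _ => ?_
    rw [Finset.smul_sum]
    refine Finset.sum_congr rfl fun j _ => ?_
    simp only [map_smul, smul_smul, ← Finset.sum_smul, ← add_smul]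
    congr 1
    rw [Setup.FL]
    push_cast
    rw [mul_sub, mul_sub, Finset.mul_sum, Finset.mul_sum, Finset.mul_sum, Finset.mul_sum, sub_eq_add_neg,
      ← Finset.sum_neg_distrib]
    congr 1
    · exact Finset.sum_congr rfl fun C _ => by ring
    · exact Finset.sum_congr rfl fun C _ => by ring

end CrossAux

open CrossAux in
/-- **C-Cross** -/
theorem cross_stmt (S : Setup d F) (φ : Spl dh dm d) :
    CalcA dh dm F → CalcB dh dm F → OpStmt S φ → CrossStmt S φ := by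
  intro hA hB hO N hN Y ε0 C0 hε0 hC0 hcf
  have hop := hO N hN Y ε0 C0 hε0 hcf
  have h : ∀ β, ∃ C : ℝ, 0 ≤ C ∧ ∀ R : ℝ, 1 ≤ R → ∀ (m : ℝ) (a b : Cfg dh → Wsp dm → F), Tst2 a → Tst2 b →
    Sup2 Y ε0 R a → Sup2 Y ε0 R b → ∀ s : ℝ, 0 < s →
    |(ip2 (S.Qhm φ N m β a) (S.Q1 φ β b) + ip2 (S.Qhm φ N m β b) (S.Q1 φ β a)).re| ≤
      C * (s * ns2 a + s⁻¹ * (1 / R ^ 2 * D2w b + W2 b)) := fun β => (good_Q1 hA hB hcf hop β).2
  choose C hC hb using h
  refine ⟨∑ β, C β, Finset.sum_nonneg fun β _ => hC β, ?_⟩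
  intro R hR m a b ha hb1 hsa hsb s hs
  rw [Finset.sum_mul]
  exact (Finset.abs_sum_le_sum_abs _ _).trans (Finset.sum_le_sum fun β _ => hb β R hR m a b ha hb1 hsa hsb s hs)

end Vale.Agent.P353.Z.AN
end

section

/-! # P353, all `N`, block E: the vacuum projection depends continuously on the central point (`PrCStmt`) -/

open MeasureTheory Filter Topology Matrix
open scoped ContDiff

namespace Vale.Agent.P353.Z.AE

variable {d dh dm r ds : ℕ} {F : Type*} [NormedAddCommGroup F] [InnerProductSpace ℂ F]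

namespace PrCAux

/-! ### projections onto images of isometries -/

lemma prc_inner (T : F →L[ℂ] F) (hT : ∀ v, ‖T v‖ = ‖v‖) (v w : F) :
    inner ℂ (T v) (T w) = inner ℂ v w := by
  let L : F →ₗᵢ[ℂ] F := ⟨T.toLinearMap, hT⟩
  exact L.inner_map_map v w

lemma prc_proj [FiniteDimensional ℂ F] (T : F →L[ℂ] F) (hT : ∀ v, ‖T v‖ = ‖v‖)
    (hs : ∀ w, ∃ v, T v = w) (K K' : Submodule ℂ F) (hm : ∀ v, v ∈ K ↔ T v ∈ K') (u : F) :
    K'.starProjection (T u) = T (K.starProjection u) := by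
  refine Submodule.eq_starProjection_of_mem_of_inner_eq_zero
    ((hm _).1 (Submodule.coe_mem (K.orthogonalProjectionOnto u))) ?_
  intro w hw
  obtain ⟨w', rfl⟩ := hs w
  have hw' : w' ∈ K := (hm _).2 hw
  rw [← map_sub, prc_inner T hT]
  exact Submodule.starProjection_inner_eq_zero _ _ hw'

lemma prc_pd [FiniteDimensional ℂ F] (T₁ T₀ : F →L[ℂ] F) (h1 : ∀ v, ‖T₁ v‖ = ‖v‖)
    (h0 : ∀ v, ‖T₀ v‖ = ‖v‖) (s1 : ∀ w, ∃ v, T₁ v = w) (s0 : ∀ w, ∃ v, T₀ v = w)
    (K K₁ K₀ : Submodule ℂ F) (m1 : ∀ v, v ∈ K ↔ T₁ v ∈ K₁) (m0 : ∀ v, v ∈ K ↔ T₀ v ∈ K₀) (u : F) :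
    ‖K₁.starProjection u - K₀.starProjection u‖ ≤ 2 * ‖T₁ - T₀‖ * ‖u‖ := by
  obtain ⟨a, ha⟩ := s1 u
  obtain ⟨b, hb⟩ := s0 u
  have e1 : K₁.starProjection u = T₁ (K.starProjection a) := by
    rw [← ha]
    exact prc_proj T₁ h1 s1 K K₁ m1 a
  have e0 : K₀.starProjection u = T₀ (K.starProjection b) := by
    rw [← hb]
    exact prc_proj T₀ h0 s0 K K₀ m0 b
  have hbu : ‖b‖ = ‖u‖ := by rw [← h0, hb]
  have hab : ‖a - b‖ ≤ ‖T₁ - T₀‖ * ‖u‖ := by
    have h2 : T₁ (a - b) = -((T₁ - T₀) b) := by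
      rw [map_sub, ha, _root_.sub_apply, hb]
      abel
    rw [← h1, h2, norm_neg, ← hbu]
    exact ContinuousLinearMap.le_opNorm _ _
  have h3 : K₁.starProjection u - K₀.starProjection u =
      T₁ (K.starProjection (a - b)) + (T₁ - T₀) (K.starProjection b) := by
    rw [e1, e0, map_sub, map_sub, _root_.sub_apply]
    abel
  rw [h3]
  refine (norm_add_le _ _).trans ?_
  have h4 : ‖T₁ (K.starProjection (a - b))‖ ≤ ‖T₁ - T₀‖ * ‖u‖ := by
    rw [h1]
    exact (Submodule.norm_starProjection_apply_le K _).trans hab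
  have h5 : ‖(T₁ - T₀) (K.starProjection b)‖ ≤ ‖T₁ - T₀‖ * ‖u‖ := by
    refine (ContinuousLinearMap.le_opNorm _ _).trans ?_
    rw [← hbu]
    exact mul_le_mul_of_nonneg_left (Submodule.norm_starProjection_apply_le K _) (norm_nonneg _)
  linarith

/-! ### Cauchy–Schwarz -/

lemma prc_cs {X : Type*} [MeasurableSpace X] {μ : Measure X} {a c : X → ℝ}
    (ha : Integrable (fun x => a x ^ 2) μ) (hc : Integrable (fun x => c x ^ 2) μ)
    (hac : Integrable (fun x => a x * c x) μ) :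
    (∫ x, a x * c x ∂μ) ^ 2 ≤ (∫ x, a x ^ 2 ∂μ) * ∫ x, c x ^ 2 ∂μ := by
  have h : ∀ t : ℝ, 0 ≤ (∫ x, a x ^ 2 ∂μ) * (t * t) + (-2 * ∫ x, a x * c x ∂μ) * t +
      ∫ x, c x ^ 2 ∂μ := by
    intro t
    have e : (∫ x, a x ^ 2 ∂μ) * (t * t) + (-2 * ∫ x, a x * c x ∂μ) * t + ∫ x, c x ^ 2 ∂μ =
        ∫ x, (t * a x - c x) ^ 2 ∂μ := by
      have e1 : ∀ x, (t * a x - c x) ^ 2 = (t * t) * a x ^ 2 + (-2 * t) * (a x * c x) + c x ^ 2 := by
        intro x; ring
      simp only [e1]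
      rw [integral_add (by exact (ha.const_mul _).add (hac.const_mul _)) hc,
        integral_add (ha.const_mul _) (hac.const_mul _), integral_const_mul, integral_const_mul]
      ring
    rw [e]
    exact integral_nonneg fun x => sq_nonneg _
  have h2 := discrim_le_zero h
  unfold discrim at h2
  nlinarith

lemma prc_csv {b : Wsp dm → ℝ} {f : Wsp dm → F} (hb : Continuous b)
    (hb2 : Integrable fun w => b w ^ 2) (hf : Continuous f) (hs : HasCompactSupport f) :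
    ‖∫ w, ((b w : ℝ) : ℂ) • f w‖ ^ 2 ≤ (∫ w, b w ^ 2) * nsf f := by
  have i1 : Integrable fun w => |b w| * ‖f w‖ := by
    refine Continuous.integrable_of_hasCompactSupport (hb.abs.mul hf.norm) ?_
    refine HasCompactSupport.intro hs fun w hw => ?_
    rw [image_eq_zero_of_notMem_tsupport hw, norm_zero, mul_zero]
  have i2 : Integrable fun w => ‖f w‖ ^ 2 := by
    refine Continuous.integrable_of_hasCompactSupport (hf.norm.pow 2) ?_
    refine HasCompactSupport.intro hs fun w hw => ?_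
    rw [image_eq_zero_of_notMem_tsupport hw, norm_zero]
    norm_num
  have i3 : Integrable fun w => |b w| ^ 2 := by
    simpa only [sq_abs] using hb2
  have h1 : ‖∫ w, ((b w : ℝ) : ℂ) • f w‖ ≤ ∫ w, |b w| * ‖f w‖ := by
    refine (norm_integral_le_integral_norm _).trans (le_of_eq ?_)
    refine integral_congr_ae (ae_of_all _ fun w => ?_)
    simp only [norm_smul, Complex.norm_real, Real.norm_eq_abs]
  have h2 := prc_cs i3 i2 i1
  simp only [sq_abs] at h2
  refine le_trans ?_ h2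
  exact pow_le_pow_left₀ (norm_nonneg _) h1 2

/-! ### difference of two rank-type projections -/

lemma prc_diff [FiniteDimensional ℂ F] {b₁ b₀ : Wsp dm → ℝ} (c1 : Continuous b₁) (c0 : Continuous b₀)
    (i1 : Integrable fun w => b₁ w ^ 2) (i0 : Integrable fun w => b₀ w ^ 2)
    (n1 : ∫ w, b₁ w ^ 2 = 1) (n0 : ∫ w, b₀ w ^ 2 = 1) (P₁ P₀ : F →L[ℂ] F) (hP0 : ∀ u, ‖P₀ u‖ ≤ ‖u‖)
    (hP1 : ∀ u, ‖P₁ u‖ ≤ ‖u‖)
    {τ : ℝ} (hP : ∀ u, ‖P₁ u - P₀ u‖ ≤ τ * ‖u‖) {f : Wsp dm → F} (hf : FT f) :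
    nsf (fun w => ((b₁ w : ℝ) : ℂ) • P₁ (∫ w', ((b₁ w' : ℝ) : ℂ) • f w') -
      ((b₀ w : ℝ) : ℂ) • P₀ (∫ w', ((b₀ w' : ℝ) : ℂ) • f w')) ≤
      (6 * (∫ w, (b₁ w - b₀ w) ^ 2) + 3 * τ ^ 2) * nsf f := by
  have hfc := hf.1.continuous
  have hprod : Integrable fun w => b₁ w * b₀ w := by
    refine Integrable.mono' (i1.add i0) (c1.mul c0).aestronglyMeasurable (ae_of_all _ fun w => ?_)
    rw [Real.norm_eq_abs]
    simp only [Pi.add_apply]
    rw [abs_le]
    constructor <;> nlinarith [sq_nonneg (b₁ w + b₀ w), sq_nonneg (b₁ w - b₀ w), sq_nonneg (b₁ w),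
      sq_nonneg (b₀ w)]
  have id : Integrable fun w => (b₁ w - b₀ w) ^ 2 := by
    have e : ∀ w, (b₁ w - b₀ w) ^ 2 = b₁ w ^ 2 + b₀ w ^ 2 + (-2) * (b₁ w * b₀ w) := by
      intro w; ring
    simp only [e]
    exact (i1.add i0).add (hprod.const_mul _)
  set a₁ := ∫ w', ((b₁ w' : ℝ) : ℂ) • f w' with ha₁
  set a₀ := ∫ w', ((b₀ w' : ℝ) : ℂ) • f w' with ha₀
  set β := ∫ w, (b₁ w - b₀ w) ^ 2 with hβ
  have hβ0 : 0 ≤ β := integral_nonneg fun w => sq_nonneg _
  have hN : 0 ≤ nsf f := integral_nonneg fun w => sq_nonneg _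
  have A1 : ‖a₁‖ ^ 2 ≤ nsf f := by
    have := prc_csv c1 i1 hfc hf.2
    rwa [n1, one_mul] at this
  have hint : ∀ {b : Wsp dm → ℝ}, Continuous b → Integrable fun w => ((b w : ℝ) : ℂ) • f w := by
    intro b hb
    refine Continuous.integrable_of_hasCompactSupport ((Complex.continuous_ofReal.comp hb).smul hfc) ?_
    refine HasCompactSupport.intro hf.2 fun w hw => ?_
    rw [image_eq_zero_of_notMem_tsupport hw, smul_zero]
  have A2 : ‖a₁ - a₀‖ ^ 2 ≤ β * nsf f := by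
    have h := prc_csv (b := fun w => b₁ w - b₀ w) (c1.sub c0) id hfc hf.2
    have e : (∫ w, ((b₁ w - b₀ w : ℝ) : ℂ) • f w) = a₁ - a₀ := by
      rw [ha₁, ha₀, ← integral_sub (hint c1) (hint c0)]
      refine integral_congr_ae (ae_of_all _ fun w => ?_)
      simp only [Complex.ofReal_sub, sub_smul]
    rwa [e] at h
  have hpt : ∀ w, ‖((b₁ w : ℝ) : ℂ) • P₁ a₁ - ((b₀ w : ℝ) : ℂ) • P₀ a₀‖ ^ 2 ≤
      3 * ‖a₁‖ ^ 2 * (b₁ w - b₀ w) ^ 2 + (3 * τ ^ 2 * ‖a₁‖ ^ 2 + 3 * ‖a₁ - a₀‖ ^ 2) * b₀ w ^ 2 := by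
    intro w
    have e : ((b₁ w : ℝ) : ℂ) • P₁ a₁ - ((b₀ w : ℝ) : ℂ) • P₀ a₀ =
        ((b₁ w - b₀ w : ℝ) : ℂ) • P₁ a₁ + ((b₀ w : ℝ) : ℂ) • (P₁ a₁ - P₀ a₁) +
          ((b₀ w : ℝ) : ℂ) • P₀ (a₁ - a₀) := by
      rw [map_sub, Complex.ofReal_sub, sub_smul, smul_sub, smul_sub]
      abel
    rw [e]
    have t1 : ‖((b₁ w - b₀ w : ℝ) : ℂ) • P₁ a₁‖ ≤ |b₁ w - b₀ w| * ‖a₁‖ := by
      rw [norm_smul, Complex.norm_real, Real.norm_eq_abs]
      exact mul_le_mul_of_nonneg_left (hP1 _) (abs_nonneg _)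
    have t2 : ‖((b₀ w : ℝ) : ℂ) • (P₁ a₁ - P₀ a₁)‖ ≤ |b₀ w| * (τ * ‖a₁‖) := by
      rw [norm_smul, Complex.norm_real, Real.norm_eq_abs]
      exact mul_le_mul_of_nonneg_left (hP _) (abs_nonneg _)
    have t3 : ‖((b₀ w : ℝ) : ℂ) • P₀ (a₁ - a₀)‖ ≤ |b₀ w| * ‖a₁ - a₀‖ := by
      rw [norm_smul, Complex.norm_real, Real.norm_eq_abs]
      exact mul_le_mul_of_nonneg_left (hP0 _) (abs_nonneg _)
    have t4 : ‖((b₁ w - b₀ w : ℝ) : ℂ) • P₁ a₁ + ((b₀ w : ℝ) : ℂ) • (P₁ a₁ - P₀ a₁) +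
          ((b₀ w : ℝ) : ℂ) • P₀ (a₁ - a₀)‖ ≤
        |b₁ w - b₀ w| * ‖a₁‖ + |b₀ w| * (τ * ‖a₁‖) + |b₀ w| * ‖a₁ - a₀‖ :=
      (norm_add₃_le).trans (add_le_add (add_le_add t1 t2) t3)
    refine (pow_le_pow_left₀ (norm_nonneg _) t4 2).trans ?_
    have key : ∀ x y z : ℝ, (x + y + z) ^ 2 ≤ 3 * (x ^ 2 + y ^ 2 + z ^ 2) := by
      intro x y z
      nlinarith [sq_nonneg (x - y), sq_nonneg (y - z), sq_nonneg (x - z)]
    refine (key _ _ _).trans (le_of_eq ?_)
    rw [mul_pow, mul_pow, mul_pow, mul_pow, sq_abs, sq_abs]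
    ring
  have hmono : nsf (fun w => ((b₁ w : ℝ) : ℂ) • P₁ a₁ - ((b₀ w : ℝ) : ℂ) • P₀ a₀) ≤
      ∫ w, (3 * ‖a₁‖ ^ 2 * (b₁ w - b₀ w) ^ 2 + (3 * τ ^ 2 * ‖a₁‖ ^ 2 + 3 * ‖a₁ - a₀‖ ^ 2) * b₀ w ^ 2) := by
    unfold nsf
    exact integral_mono_of_nonneg (ae_of_all _ fun w => sq_nonneg _)
      ((id.const_mul _).add (i0.const_mul _)) (ae_of_all _ hpt)
  refine hmono.trans ?_
  rw [integral_add (id.const_mul _) (i0.const_mul _), integral_const_mul, integral_const_mul, n0, ← hβ]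
  have hτ2 : 0 ≤ τ ^ 2 := sq_nonneg _
  nlinarith [mul_le_mul_of_nonneg_left A1 hβ0, mul_le_mul_of_nonneg_left A1 hτ2]

/-! ### Gaussians -/

lemma prc_int_exp {c : ℝ} (hc : 0 < c) : Integrable fun w : Wsp dm => Real.exp (-c * ‖w‖ ^ 2) := by
  have h := GaussianFourier.integrable_cexp_neg_mul_sq_norm_add (V := Wsp dm) (b := (c : ℂ))
    (by simpa using hc) 0 (0 : Wsp dm)
  have h2 := h.re
  refine h2.congr (ae_of_all _ fun w => ?_)
  simp only [zero_mul, add_zero]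
  have : (-(c : ℂ) * (‖w‖ : ℂ) ^ 2) = ((-c * ‖w‖ ^ 2 : ℝ) : ℂ) := by push_cast; ring
  rw [this, ← Complex.ofReal_exp, RCLike.re_to_complex, Complex.ofReal_re]

lemma prc_int_q {q : Wsp dm → ℝ} (hq : Continuous q) {c : ℝ} (hc : 0 < c) (h : ∀ w, c * ‖w‖ ^ 2 ≤ q w) :
    Integrable fun w => Real.exp (-q w) := by
  refine (prc_int_exp hc).mono' (Real.continuous_exp.comp hq.neg).aestronglyMeasurable
    (ae_of_all _ fun w => ?_)
  rw [Real.norm_eq_abs, abs_of_pos (Real.exp_pos _)]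
  refine Real.exp_le_exp.2 ?_
  have := h w
  linarith

/-- scaling of the Gaussian integral -/
lemma prc_scale {Q : Wsp dm → ℝ} (hQ : ∀ (s : ℝ) w, Q (s • w) = s ^ 2 * Q w) {t : ℝ} (ht : 0 < t) :
    ∫ w, Real.exp (-(t * Q w)) =
      (Real.sqrt t ^ (Module.finrank ℝ (Wsp dm)))⁻¹ * ∫ w, Real.exp (-Q w) := by
  have h := Measure.integral_comp_smul (volume : Measure (Wsp dm)) (fun w => Real.exp (-Q w)) (Real.sqrt t)
  have e : ∀ w, Real.exp (-Q (Real.sqrt t • w)) = Real.exp (-(t * Q w)) := by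
    intro w
    rw [hQ, Real.sq_sqrt ht.le]
  simp only [e] at h
  rw [h, smul_eq_mul, abs_of_nonneg]
  exact inv_nonneg.2 (pow_nonneg (Real.sqrt_nonneg _) _)

/-- overlap of two nearby normalised Gaussians -/
lemma prc_over {Q q : Wsp dm → ℝ} (hQc : Continuous Q) (hqc : Continuous q)
    (hQ : ∀ (s : ℝ) w, Q (s • w) = s ^ 2 * Q w) {c : ℝ} (hc : 0 < c) (hlow : ∀ w, c * ‖w‖ ^ 2 ≤ Q w)
    {η : ℝ} (h0 : 0 ≤ η) (h1 : η < 1) (hcl : ∀ w, |q w - Q w| ≤ η * Q w) :
    (Real.sqrt (1 + η / 2) ^ (Module.finrank ℝ (Wsp dm)))⁻¹ *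
        Real.sqrt (Real.sqrt (1 - η) ^ (Module.finrank ℝ (Wsp dm))) ≤
      ∫ w, (Real.exp (-(1 / 2) * q w) / Real.sqrt (∫ w', Real.exp (-q w'))) *
        (Real.exp (-(1 / 2) * Q w) / Real.sqrt (∫ w', Real.exp (-Q w'))) := by
  have hQ0 : ∀ w, 0 ≤ Q w := fun w => (mul_nonneg hc.le (sq_nonneg _)).trans (hlow w)
  have hqlow : ∀ w, ((1 - η) * c) * ‖w‖ ^ 2 ≤ q w := by
    intro w
    have h2 := (abs_le.1 (hcl w)).1
    have h3 := hlow w
    nlinarith [sub_pos.2 h1]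
  have hc1 : 0 < (1 - η) * c := mul_pos (sub_pos.2 h1) hc
  have iQ := prc_int_q hQc hc hlow
  have iq := prc_int_q hqc hc1 hqlow
  set N₀ := ∫ w', Real.exp (-Q w') with hN₀
  set N₁ := ∫ w', Real.exp (-q w') with hN₁
  have pN₀ : 0 < N₀ := integral_exp_pos iQ
  have pN₁ : 0 < N₁ := integral_exp_pos iq
  have it : ∀ {t : ℝ}, 0 < t → Integrable fun w => Real.exp (-(t * Q w)) := by
    intro t ht
    refine prc_int_q (q := fun w => t * Q w) (continuous_const.mul hQc) (mul_pos ht hc) fun w => ?_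
    have := mul_le_mul_of_nonneg_left (hlow w) ht.le
    linarith
  set n := Module.finrank ℝ (Wsp dm) with hn
  set A := Real.sqrt (1 + η / 2) ^ n with hA
  set B := Real.sqrt (1 - η) ^ n with hB
  have pA : 0 < A := pow_pos (Real.sqrt_pos.2 (by linarith)) _
  have pB : 0 < B := pow_pos (Real.sqrt_pos.2 (by linarith)) _
  have e1 : N₁ ≤ B⁻¹ * N₀ := by
    rw [hB, hN₀, ← prc_scale hQ (sub_pos.2 h1)]
    refine integral_mono iq (it (sub_pos.2 h1)) fun w => ?_
    refine Real.exp_le_exp.2 ?_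
    have h2 := (abs_le.1 (hcl w)).1
    linarith
  have e2 : A⁻¹ * N₀ ≤ ∫ w, Real.exp (-(1 / 2) * q w) * Real.exp (-(1 / 2) * Q w) := by
    rw [hA, hN₀, ← prc_scale hQ (by linarith : (0 : ℝ) < 1 + η / 2)]
    refine integral_mono (it (by linarith)) ?_ fun w => ?_
    · have hI : Integrable fun w => Real.exp (-((1 / 2) * q w + (1 / 2) * Q w)) := by
        refine prc_int_q (q := fun w => (1 / 2) * q w + (1 / 2) * Q w)
          ((continuous_const.mul hqc).add (continuous_const.mul hQc)) (mul_pos one_half_pos hc) fun w => ?_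
        have h2 := hlow w
        have h3 : 0 ≤ q w := (mul_nonneg hc1.le (sq_nonneg _)).trans (hqlow w)
        linarith
      refine hI.congr (ae_of_all _ fun w => ?_)
      simp only
      rw [← Real.exp_add]
      congr 1
      ring
    · simp only
      rw [← Real.exp_add]
      refine Real.exp_le_exp.2 ?_
      have h2 := (abs_le.1 (hcl w)).2
      linarith
  have e3 : (∫ w, (Real.exp (-(1 / 2) * q w) / Real.sqrt N₁) * (Real.exp (-(1 / 2) * Q w) / Real.sqrt N₀)) =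
      (∫ w, Real.exp (-(1 / 2) * q w) * Real.exp (-(1 / 2) * Q w)) / (Real.sqrt N₁ * Real.sqrt N₀) := by
    rw [← integral_div]
    refine integral_congr_ae (ae_of_all _ fun w => ?_)
    simp only
    rw [div_mul_div_comm]
  rw [e3]
  have s0 : 0 < Real.sqrt N₀ := Real.sqrt_pos.2 pN₀
  have s1 : 0 < Real.sqrt N₁ := Real.sqrt_pos.2 pN₁
  have e4 : Real.sqrt N₁ * Real.sqrt B ≤ Real.sqrt N₀ := by
    rw [← Real.sqrt_mul pN₁.le]
    refine Real.sqrt_le_sqrt ?_
    calc N₁ * B ≤ (B⁻¹ * N₀) * B := mul_le_mul_of_nonneg_right e1 pB.le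
      _ = N₀ := by field_simp
  rw [le_div_iff₀ (mul_pos s1 s0)]
  refine le_trans ?_ e2
  have e5 : A⁻¹ * Real.sqrt B * (Real.sqrt N₁ * Real.sqrt N₀) =
      A⁻¹ * ((Real.sqrt N₁ * Real.sqrt B) * Real.sqrt N₀) := by ring
  rw [e5]
  refine mul_le_mul_of_nonneg_left ?_ (inv_nonneg.2 pA.le)
  calc (Real.sqrt N₁ * Real.sqrt B) * Real.sqrt N₀ ≤ Real.sqrt N₀ * Real.sqrt N₀ :=
        mul_le_mul_of_nonneg_right e4 s0.le
    _ = N₀ := Real.mul_self_sqrt pN₀.le

/-- the constant tends to one -/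
lemma prc_const (n : ℕ) {δ : ℝ} (hδ : 0 < δ) : ∃ η : ℝ, 0 < η ∧ η < 1 ∧
    1 - δ ≤ (Real.sqrt (1 + η / 2) ^ n)⁻¹ * Real.sqrt (Real.sqrt (1 - η) ^ n) := by
  have hc : ContinuousAt (fun η : ℝ => (Real.sqrt (1 + η / 2) ^ n)⁻¹ * Real.sqrt (Real.sqrt (1 - η) ^ n)) 0 := by
    refine ContinuousAt.mul (ContinuousAt.inv₀ ?_ ?_) ?_
    · exact Continuous.continuousAt (by fun_prop)
    · simp
    · exact Continuous.continuousAt (by fun_prop)
  have h1 : (fun η : ℝ => (Real.sqrt (1 + η / 2) ^ n)⁻¹ * Real.sqrt (Real.sqrt (1 - η) ^ n)) 0 = 1 := by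
    simp
  have h2 : ∀ᶠ η in 𝓝 (0 : ℝ), 1 - δ < (Real.sqrt (1 + η / 2) ^ n)⁻¹ * Real.sqrt (Real.sqrt (1 - η) ^ n) := by
    refine hc.eventually (lt_mem_nhds ?_)
    rw [h1]
    linarith
  obtain ⟨ρ, hρ, h3⟩ := Metric.eventually_nhds_iff.1 h2
  refine ⟨min (ρ / 2) (1 / 2), lt_min (by linarith) (by norm_num), (min_le_right _ _).trans_lt (by norm_num), ?_⟩
  refine (h3 ?_).le
  rw [Real.dist_eq, sub_zero, abs_of_pos (lt_min (by linarith) (by norm_num))]
  exact (min_le_left _ _).trans_lt (by linarith)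

/-- `PR` in terms of the normalised Gaussian -/
lemma prc_PR [FiniteDimensional ℂ F] (S : Setup d F) (φ : Spl dh dm d)
    (D : Fin 9 → Matrix (Fin dm) (Fin dm) ℝ) (Om : Matrix (Fin dm) (Fin dm) ℝ) (R : ℝ)
    (hN : 0 < ∫ w', gR D Om R w' ^ 2) (f : Wsp dm → F) (w : Wsp dm) :
    S.PR φ D Om R f w = ((gR D Om R w / Real.sqrt (∫ w', gR D Om R w' ^ 2) : ℝ) : ℂ) •
      (S.F0 φ D Om).starProjection
        (∫ w', ((gR D Om R w' / Real.sqrt (∫ w', gR D Om R w' ^ 2) : ℝ) : ℂ) • f w') := by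
  set N := ∫ w', gR D Om R w' ^ 2 with hNd
  have hs : 0 < Real.sqrt N := Real.sqrt_pos.2 hN
  have e1 : (∫ w', ((gR D Om R w' / Real.sqrt N : ℝ) : ℂ) • f w') =
      (((Real.sqrt N)⁻¹ : ℝ) : ℂ) • ∫ w', ((gR D Om R w' : ℝ) : ℂ) • f w' := by
    rw [← integral_smul]
    refine integral_congr_ae (ae_of_all _ fun w' => ?_)
    simp only
    rw [smul_smul, ← Complex.ofReal_mul, div_eq_inv_mul]
  unfold Setup.PR
  rw [e1, map_smul, smul_smul, ← Complex.ofReal_mul, ← hNd]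
  congr 2
  rw [div_eq_mul_inv, div_eq_mul_inv, mul_assoc, ← mul_inv, Real.mul_self_sqrt hN.le]

lemma prc_sq (q : Wsp dm → ℝ) (N : ℝ) (hN : 0 < N) (w : Wsp dm) :
    (Real.exp (-(1 / 2) * q w) / Real.sqrt N) ^ 2 = Real.exp (-q w) / N := by
  rw [div_pow, Real.sq_sqrt hN.le, ← Real.exp_nat_mul]
  congr 2
  push_cast
  ring

lemma prc_nint {q : Wsp dm → ℝ} (hi : Integrable fun w => Real.exp (-q w)) :
    Integrable fun w => (Real.exp (-(1 / 2) * q w) / Real.sqrt (∫ w', Real.exp (-q w'))) ^ 2 := by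
  simp only [prc_sq q _ (integral_exp_pos hi)]
  exact hi.div_const _

lemma prc_none {q : Wsp dm → ℝ} (hi : Integrable fun w => Real.exp (-q w)) :
    ∫ w, (Real.exp (-(1 / 2) * q w) / Real.sqrt (∫ w', Real.exp (-q w'))) ^ 2 = 1 := by
  simp only [prc_sq q _ (integral_exp_pos hi)]
  rw [integral_div, div_self (integral_exp_pos hi).ne']

lemma prc_beta {b₁ b₀ : Wsp dm → ℝ} (c1 : Continuous b₁) (c0 : Continuous b₀)
    (i1 : Integrable fun w => b₁ w ^ 2) (i0 : Integrable fun w => b₀ w ^ 2)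
    (n1 : ∫ w, b₁ w ^ 2 = 1) (n0 : ∫ w, b₀ w ^ 2 = 1) :
    ∫ w, (b₁ w - b₀ w) ^ 2 = 2 - 2 * ∫ w, b₁ w * b₀ w := by
  have hprod : Integrable fun w => b₁ w * b₀ w := by
    refine Integrable.mono' (i1.add i0) (c1.mul c0).aestronglyMeasurable (ae_of_all _ fun w => ?_)
    rw [Real.norm_eq_abs]
    simp only [Pi.add_apply]
    rw [abs_le]
    constructor <;> nlinarith [sq_nonneg (b₁ w + b₀ w), sq_nonneg (b₁ w - b₀ w), sq_nonneg (b₁ w),
      sq_nonneg (b₀ w)]
  have e : ∀ w, (b₁ w - b₀ w) ^ 2 = b₁ w ^ 2 + b₀ w ^ 2 + (-2) * (b₁ w * b₀ w) := by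
    intro w; ring
  simp only [e]
  rw [integral_add (by exact i1.add i0) (hprod.const_mul _), integral_add i1 i0, integral_const_mul, n1, n0]
  ring

end PrCAux

open PrCAux in
/-- **E-PrC** -/
theorem prC (S : Setup d F) (φ : Spl dh dm d) (ψ : Spl r ds dh) :
    MzStmt S φ ψ → BzStmt S φ ψ → PrCStmt S φ ψ := by
  intro hM _ hF hφ hc U Om V K hV y₀ hy₀ δ hδ
  obtain ⟨hFrz, M, hMc, hMs, hMq, hMh, -, hMp⟩ := hM hφ hc U Om V K hV
  obtain ⟨c, hcp, hlow⟩ := hMp y₀ hy₀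
  obtain ⟨η, η0, η1, hη⟩ := prc_const (Module.finrank ℝ (Wsp dm)) (δ := δ / 24) (by positivity)
  set τ : ℝ := min 1 (δ / 6) with hτ
  have τ0 : 0 < τ := lt_min one_pos (by positivity)
  have τ2 : τ ^ 2 ≤ δ / 6 := by
    have t1 : τ ≤ 1 := min_le_left _ _
    have t2 : τ ≤ δ / 6 := min_le_right _ _
    nlinarith
  have cM : ContinuousAt M y₀ := hMc.continuousOn.continuousAt (hV.opn.mem_nhds hy₀)
  have cV : ContinuousAt V y₀ := hV.v_c.continuousOn.continuousAt (hV.opn.mem_nhds hy₀)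
  have eM : ∀ᶠ y in 𝓝 y₀, ‖M y - M y₀‖ < η * c := by
    have h := Metric.continuousAt_iff'.1 cM (η * c) (mul_pos η0 hcp)
    simpa only [dist_eq_norm] using h
  have eV : ∀ᶠ y in 𝓝 y₀, ‖V y - V y₀‖ < τ / 2 := by
    have h := Metric.continuousAt_iff'.1 cV (τ / 2) (by linarith)
    simpa only [dist_eq_norm] using h
  obtain ⟨ρ, hρ, hball⟩ := Metric.eventually_nhds_iff.1 ((hV.opn.eventually_mem hy₀).and (eM.and eV))
  refine ⟨ρ / 2, by linarith, ?_⟩
  intro R hR y hy f hf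
  obtain ⟨y', hyy⟩ : ∃ y' : Cfg r, y = R • y' := ⟨R⁻¹ • y, by rw [smul_smul, mul_inv_cancel₀ hR.ne', one_smul]⟩
  have hd : dist y' y₀ < ρ := by
    rw [hyy, ← smul_sub, norm_smul, Real.norm_eq_abs, abs_of_pos hR, mul_comm] at hy
    rw [dist_eq_norm]
    have := le_of_mul_le_mul_right hy hR
    linarith
  obtain ⟨hU', hM', hV'⟩ := hball hd
  have hyU : y ∈ U := by
    rw [hyy]
    exact hV.cone y' hU' R hR
  -- the quadratic forms
  set Q : Wsp dm → ℝ := fun w => R * inner ℝ w (M y₀ w) with hQd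
  set q : Wsp dm → ℝ := fun w => R * inner ℝ w (M y' w) with hqd
  have hQc : Continuous Q := continuous_const.mul (continuous_id.inner (M y₀).continuous)
  have hqc : Continuous q := continuous_const.mul (continuous_id.inner (M y').continuous)
  have hQh : ∀ (s : ℝ) w, Q (s • w) = s ^ 2 * Q w := by
    intro s w
    simp only [hQd, map_smul, real_inner_smul_left, real_inner_smul_right]
    ring
  have hQlow : ∀ w, (R * c) * ‖w‖ ^ 2 ≤ Q w := by
    intro w
    have := mul_le_mul_of_nonneg_left (hlow w) hR.le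
    simp only [hQd]
    linarith
  have hcl : ∀ w, |q w - Q w| ≤ η * Q w := by
    intro w
    have e : q w - Q w = R * inner ℝ w ((M y' - M y₀) w) := by
      simp only [hqd, hQd, _root_.sub_apply, inner_sub_right]
      ring
    rw [e, abs_mul, abs_of_pos hR]
    have h1 : |inner ℝ w ((M y' - M y₀) w)| ≤ (η * c) * ‖w‖ ^ 2 := by
      refine (abs_real_inner_le_norm _ _).trans ?_
      have h2 := ContinuousLinearMap.le_opNorm (M y' - M y₀) w
      have h3 := mul_le_mul_of_nonneg_right hM'.le (norm_nonneg w)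
      have h4 := mul_le_mul_of_nonneg_left (h2.trans h3) (norm_nonneg w)
      refine h4.trans (le_of_eq ?_)
      ring
    have h5 := mul_le_mul_of_nonneg_left (hlow w) η0.le
    have h6 := mul_le_mul_of_nonneg_left (h1.trans (by linarith : η * c * ‖w‖ ^ 2 ≤ η * inner ℝ w (M y₀ w))) hR.le
    refine h6.trans (le_of_eq ?_)
    simp only [hQd]
    ring
  have hRc : 0 < R * c := mul_pos hR hcp
  have hqlow : ∀ w, ((1 - η) * (R * c)) * ‖w‖ ^ 2 ≤ q w := by
    intro w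
    have h2 := (abs_le.1 (hcl w)).1
    have h3 := hQlow w
    nlinarith [sub_pos.2 η1]
  have iQ := prc_int_q hQc hRc hQlow
  have iq := prc_int_q hqc (mul_pos (sub_pos.2 η1) hRc) hqlow
  -- the two Gaussians
  have g1 : ∀ w, gR (S.Dz φ ψ y) (Om y) 1 w = Real.exp (-(1 / 2) * q w) := by
    intro w
    unfold gR
    rw [hMq y hyU, hyy, hMh y' hU' R hR]
    simp only [hqd, _root_.smul_apply, real_inner_smul_right]
  have g0 : ∀ w, gR (S.Dz φ ψ y₀) (Om y₀) R w = Real.exp (-(1 / 2) * Q w) := by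
    intro w
    unfold gR
    rw [hMq y₀ hy₀]
    simp only [hQd]
    congr 1
    ring
  have hsq : ∀ (q : Wsp dm → ℝ) w, Real.exp (-(1 / 2) * q w) ^ 2 = Real.exp (-q w) := by
    intro q w
    rw [← Real.exp_nat_mul]
    congr 1
    push_cast
    ring
  have N1 : (∫ w', gR (S.Dz φ ψ y) (Om y) 1 w' ^ 2) = ∫ w', Real.exp (-q w') := by
    simp only [g1, hsq q]
  have N0 : (∫ w', gR (S.Dz φ ψ y₀) (Om y₀) R w' ^ 2) = ∫ w', Real.exp (-Q w') := by
    simp only [g0, hsq Q]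
  have p1 : 0 < ∫ w', gR (S.Dz φ ψ y) (Om y) 1 w' ^ 2 := by
    rw [N1]
    exact integral_exp_pos iq
  have p0 : 0 < ∫ w', gR (S.Dz φ ψ y₀) (Om y₀) R w' ^ 2 := by
    rw [N0]
    exact integral_exp_pos iQ
  have P1 := prc_PR S φ (S.Dz φ ψ y) (Om y) 1 p1 f
  have P0 := prc_PR S φ (S.Dz φ ψ y₀) (Om y₀) R p0 f
  simp only [g1, hsq q] at P1
  simp only [g0, hsq Q] at P0
  simp only [P1, P0]
  have cb1 : Continuous fun w => Real.exp (-(1 / 2) * q w) / Real.sqrt (∫ w', Real.exp (-q w')) :=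
    (Real.continuous_exp.comp (continuous_const.mul hqc)).div_const _
  have cb0 : Continuous fun w => Real.exp (-(1 / 2) * Q w) / Real.sqrt (∫ w', Real.exp (-Q w')) :=
    (Real.continuous_exp.comp (continuous_const.mul hQc)).div_const _
  have hVy : V y = V y' := by rw [hyy]; exact hV.v_h y' hU' R hR
  have hP : ∀ u, ‖(S.F0 φ (S.Dz φ ψ y) (Om y)).starProjection u -
      (S.F0 φ (S.Dz φ ψ y₀) (Om y₀)).starProjection u‖ ≤ τ * ‖u‖ := by
    intro u
    refine (prc_pd (V y) (V y₀) (hV.v_n y hyU) (hV.v_n y₀ hy₀) (hV.v_s y hyU) (hV.v_s y₀ hy₀) K _ _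
      (hV.v_m y hyU) (hV.v_m y₀ hy₀) u).trans ?_
    refine mul_le_mul_of_nonneg_right ?_ (norm_nonneg _)
    rw [hVy]
    linarith
  refine (prc_diff cb1 cb0 (prc_nint iq) (prc_nint iQ) (prc_none iq) (prc_none iQ) _ _
    (Submodule.norm_starProjection_apply_le _) (Submodule.norm_starProjection_apply_le _) hP hf).trans ?_
  refine mul_le_mul_of_nonneg_right ?_ (integral_nonneg fun w => sq_nonneg _)
  rw [prc_beta cb1 cb0 (prc_nint iq) (prc_nint iQ) (prc_none iq) (prc_none iQ)]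
  have hov := prc_over hQc hqc hQh hRc hQlow η0.le η1 hcl
  linarith

end Vale.Agent.P353.Z.AE
end
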