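import Mathlib
import Vale.Agent.P353.BdA.B1
import Vale.Agent.P353.BdZ.B8

set_option linter.all false

section

/-! # P353, all `N`, block A: A10, cutoffs on the slice -/

open MeasureTheory Filter Topology
open scoped ContDiff

namespace Vale.Agent.P353.Z.AN

variable {d dh dm : ℕ} {F : Type*} [NormedAddCommGroup F] [InnerProductSpace ℂ F]

/-- the first order part of `Qs` -/
noncomputable def cut_E (S : Setup d F) (φ : Spl dh dm d) (β : Fin 16) (y : Cfg dh) (w : Wsp dm)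
    (P : Fin 9 → Fin dh → F) (X : Fin 8 → Fin dm → F) : F :=
  (-Complex.I) • (∑ i, ∑ A, S.vec (S.g i) (φ (Sum.inl A)) β (P i A)) +
  ((-Complex.I) • (∑ j : Fin 8, ∑ B, S.vec (S.g j.castSucc) (φ (Sum.inr B)) β (X j B)) +
    Complex.I • (∑ B, S.vec (S.g 8) (φ (Sum.inr B)) β
      (∑ C, (((S.Dy φ 8 y)⁻¹ B C : ℝ) : ℂ) • ∑ j : Fin 8, ∑ E, ((S.Dy φ j.castSucc y C E : ℝ) : ℂ) • X j E))) +
  Complex.I • (∑ B, S.vec (S.g 8) (φ (Sum.inr B)) β (∑ C, (((S.Dy φ 8 y)⁻¹ B C : ℝ) : ℂ) •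
      ((∑ j : Fin 8, ∑ E, ∑ A, ((S.f (φ (Sum.inr C)) (φ (Sum.inr E)) (φ (Sum.inl A)) * w (j, E) : ℝ) : ℂ) •
          P j.castSucc A) +
        (∑ j : Fin 8, ∑ E, ∑ G, ((S.f (φ (Sum.inr C)) (φ (Sum.inr E)) (φ (Sum.inr G)) * w (j, E) : ℝ) : ℂ) •
          X j G))))

/-- the zero order part of `Qs` -/
noncomputable def cut_Z (S : Setup d F) (φ : Spl dh dm d) (β : Fin 16) (y : Cfg dh) (w : Wsp dm) (v : F) : F :=
  (1 / 2 : ℂ) • (∑ A, ∑ i, ∑ j,
      ((S.κ * ∑ B, ∑ C, S.f (φ (Sum.inl A)) (φ (Sum.inl B)) (φ (Sum.inl C)) * y (i, B) * y (j, C) : ℝ) : ℂ) •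
        S.vec (S.g2 i j) (φ (Sum.inl A)) β v) +
  (1 / 2 : ℂ) • (∑ B, ∑ i, ∑ j, ((S.FL φ B i j y w : ℝ) : ℂ) • S.vec (S.g2 i j) (φ (Sum.inr B)) β v) +
  (Complex.I • (∑ B, S.vec (S.g 8) (φ (Sum.inr B)) β (∑ C, (((S.Dy φ 8 y)⁻¹ B C : ℝ) : ℂ) •
      (Complex.I • S.cS (φ (Sum.inr C)) v))) +
    (1 / 2 : ℂ) • (∑ A, ∑ i, ∑ j,
      ((S.κ * ∑ B, ∑ C, S.f (φ (Sum.inl A)) (φ (Sum.inr B)) (φ (Sum.inr C)) * wt w i B * wt w j C : ℝ) : ℂ) •
        S.vec (S.g2 i j) (φ (Sum.inl A)) β v) +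
    (1 / 2 : ℂ) • (∑ A, ∑ i, ∑ j,
      ((S.κ * ∑ B, ∑ C, S.f (φ (Sum.inr A)) (φ (Sum.inr B)) (φ (Sum.inr C)) * wt w i B * wt w j C : ℝ) : ℂ) •
        S.vec (S.g2 i j) (φ (Sum.inr A)) β v) +
    (Complex.I / 2) • ∑ A, ((fderiv ℝ (fun y' => Real.log (S.Jd φ y')) y (EuclideanSpace.single ((8 : Fin 9), A) 1) : ℝ) : ℂ) •
      S.vec (S.g 8) (φ (Sum.inl A)) β v)

theorem cut_split (S : Setup d F) (φ : Spl dh dm d) (β : Fin 16) (v : Cfg dh → Wsp dm → F) (y : Cfg dh)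
    (w : Wsp dm) : Qs S φ β v y w =
      cut_E S φ β y w (fun i A => py i A v y w) (fun j B => pw j B v y w) + cut_Z S φ β y w (v y w) := by
  unfold Qs Setup.Qh Setup.Q1 Setup.Qr cut_E cut_Z
  simp only [smul_add, Finset.sum_add_distrib, map_add]
  abel

theorem cut_Z_smul (S : Setup d F) (φ : Spl dh dm d) (β : Fin 16) (y : Cfg dh) (w : Wsp dm) (c : ℂ) (v : F) :
    cut_Z S φ β y w (c • v) = c • cut_Z S φ β y w v := by
  unfold cut_Z
  simp only [smul_add, Finset.smul_sum, map_smul, map_sum, smul_comm c]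

theorem cut_E_add (S : Setup d F) (φ : Spl dh dm d) (β : Fin 16) (y : Cfg dh) (w : Wsp dm)
    (P P' : Fin 9 → Fin dh → F) (X X' : Fin 8 → Fin dm → F) :
    cut_E S φ β y w (fun i A => P i A + P' i A) (fun j B => X j B + X' j B) =
      cut_E S φ β y w P X + cut_E S φ β y w P' X' := by
  unfold cut_E
  simp only [smul_add, Finset.sum_add_distrib, map_add]
  abel

theorem cut_E_smul (S : Setup d F) (φ : Spl dh dm d) (β : Fin 16) (y : Cfg dh) (w : Wsp dm) (c : ℂ)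
    (P : Fin 9 → Fin dh → F) (X : Fin 8 → Fin dm → F) :
    cut_E S φ β y w (fun i A => c • P i A) (fun j B => c • X j B) = c • cut_E S φ β y w P X := by
  unfold cut_E
  simp only [smul_add, Finset.smul_sum, map_smul, map_sum, map_add, smul_comm c]

/-- a bound for the Clifford maps -/
noncomputable def cut_M (S : Setup d F) : ℝ := ∑ i, ∑ A, ∑ β, ‖S.vec (S.g i) A β‖

theorem cut_M_nonneg (S : Setup d F) : 0 ≤ cut_M S :=
  Finset.sum_nonneg fun _ _ => Finset.sum_nonneg fun _ _ => Finset.sum_nonneg fun _ _ => norm_nonneg _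

theorem cut_vec (S : Setup d F) (i : Fin 9) (A : Fin d) (β : Fin 16) (x : F) :
    ‖S.vec (S.g i) A β x‖ ≤ cut_M S * ‖x‖ := by
  refine (ContinuousLinearMap.le_opNorm _ _).trans (mul_le_mul_of_nonneg_right ?_ (norm_nonneg _))
  unfold cut_M
  refine le_trans ?_ (Finset.single_le_sum (f := fun i => ∑ A, ∑ β, ‖S.vec (S.g i) A β‖)
    (fun i _ => Finset.sum_nonneg fun _ _ => Finset.sum_nonneg fun _ _ => norm_nonneg _)
    (Finset.mem_univ i))
  refine le_trans ?_ (Finset.single_le_sum (f := fun A => ∑ β, ‖S.vec (S.g i) A β‖)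
    (fun A _ => Finset.sum_nonneg fun _ _ => norm_nonneg _) (Finset.mem_univ A))
  exact Finset.single_le_sum (f := fun β => ‖S.vec (S.g i) A β‖) (fun β _ => norm_nonneg _)
    (Finset.mem_univ β)

/-- a bound for the structure constants -/
noncomputable def cut_f (S : Setup d F) : ℝ := ∑ A, ∑ B, ∑ C, |S.f A B C|

theorem cut_f_nonneg (S : Setup d F) : 0 ≤ cut_f S :=
  Finset.sum_nonneg fun _ _ => Finset.sum_nonneg fun _ _ => Finset.sum_nonneg fun _ _ => abs_nonneg _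

theorem cut_f_le (S : Setup d F) (A B C : Fin d) : |S.f A B C| ≤ cut_f S := by
  unfold cut_f
  refine le_trans ?_ (Finset.single_le_sum (f := fun A => ∑ B, ∑ C, |S.f A B C|)
    (fun i _ => Finset.sum_nonneg fun _ _ => Finset.sum_nonneg fun _ _ => abs_nonneg _)
    (Finset.mem_univ A))
  refine le_trans ?_ (Finset.single_le_sum (f := fun B => ∑ C, |S.f A B C|)
    (fun A _ => Finset.sum_nonneg fun _ _ => abs_nonneg _) (Finset.mem_univ B))
  exact Finset.single_le_sum (f := fun C => |S.f A B C|) (fun β _ => abs_nonneg _)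
    (Finset.mem_univ C)

theorem cut_sum_le {ι : Type*} [Fintype ι] (g : ι → F) (b : ℝ) (h : ∀ i, ‖g i‖ ≤ b) :
    ‖∑ i, g i‖ ≤ Fintype.card ι * b := by
  refine (norm_sum_le _ _).trans ?_
  refine (Finset.sum_le_sum fun i _ => h i).trans ?_
  simp

/-- norm of the first order part -/
theorem cut_E_norm (S : Setup d F) (φ : Spl dh dm d) (β : Fin 16) (y : Cfg dh) (w : Wsp dm)
    (P : Fin 9 → Fin dh → F) (X : Fin 8 → Fin dm → F) {R ε C₀ K b : ℝ} (hR : 0 < R) (hε : 0 ≤ ε)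
    (hC₀ : 0 ≤ C₀) (hK : 0 ≤ K) (hb : 0 ≤ b)
    (hinv : ∀ B E, |(S.Dy φ 8 y)⁻¹ B E| ≤ C₀ / R) (hD : ∀ i B E, |S.Dy φ i y B E| ≤ K * R)
    (hw : ‖w‖ ≤ ε * R) (hP : ∀ i A, ‖P i A‖ ≤ b) (hX : ∀ j B, ‖X j B‖ ≤ b) :
    ‖cut_E S φ β y w P X‖ ≤
      (cut_M S * (9 * dh) + cut_M S * (8 * dm) + cut_M S * (dm * (dm * (C₀ * (8 * (dm * K))))) +
        cut_M S * (dm * (dm * (C₀ * (8 * (dm * (dh * (cut_f S * ε))) + 8 * (dm * (dm * (cut_f S * ε)))))))) * b := by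
  have hM := cut_M_nonneg S
  have hf := cut_f_nonneg S
  have hwj : ∀ j E, |w (j, E)| ≤ ε * R := fun j E => by
    have := EuclideanSpace.norm_eq w
    refine le_trans ?_ hw
    rw [← Real.norm_eq_abs]
    exact PiLp.norm_apply_le w (j, E)
  have hI : ∀ x : F, ‖(-Complex.I) • x‖ = ‖x‖ := fun x => by
    rw [norm_smul, norm_neg, Complex.norm_I, one_mul]
  have hI' : ∀ x : F, ‖Complex.I • x‖ = ‖x‖ := fun x => by
    rw [norm_smul, Complex.norm_I, one_mul]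
  have hr : ∀ (t : ℝ) (x : F), ‖((t : ℝ) : ℂ) • x‖ = |t| * ‖x‖ := fun t x => by
    rw [norm_smul, Complex.norm_real, Real.norm_eq_abs]
  -- the four terms
  have t1 : ‖(-Complex.I) • (∑ i, ∑ A, S.vec (S.g i) (φ (Sum.inl A)) β (P i A))‖ ≤
      cut_M S * (9 * dh) * b := by
    rw [hI]
    refine (cut_sum_le _ (dh * (cut_M S * b)) fun i => ?_).trans (le_of_eq ?_)
    · refine (cut_sum_le _ (cut_M S * b) fun A => ?_).trans (le_of_eq ?_)
      · exact (cut_vec S i _ β _).trans (mul_le_mul_of_nonneg_left (hP i A) hM)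
      · simp
    · simp; ring
  have t2 : ‖(-Complex.I) • (∑ j : Fin 8, ∑ B, S.vec (S.g j.castSucc) (φ (Sum.inr B)) β (X j B))‖ ≤
      cut_M S * (8 * dm) * b := by
    rw [hI]
    refine (cut_sum_le _ (dm * (cut_M S * b)) fun i => ?_).trans (le_of_eq ?_)
    · refine (cut_sum_le _ (cut_M S * b) fun A => ?_).trans (le_of_eq ?_)
      · exact (cut_vec S _ _ β _).trans (mul_le_mul_of_nonneg_left (hX i A) hM)
      · simp
    · simp; ring
  have key : ∀ (Yv : Fin dm → F) (c : ℝ), 0 ≤ c → (∀ C, ‖Yv C‖ ≤ c * R * b) →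
      ‖Complex.I • (∑ B, S.vec (S.g 8) (φ (Sum.inr B)) β
        (∑ C, (((S.Dy φ 8 y)⁻¹ B C : ℝ) : ℂ) • Yv C))‖ ≤ cut_M S * (dm * (dm * (C₀ * c))) * b := by
    intro Yv c hc hY
    rw [hI']
    refine (cut_sum_le _ (cut_M S * (dm * (C₀ * c * b))) fun B => ?_).trans (le_of_eq ?_)
    · refine (cut_vec S _ _ β _).trans (mul_le_mul_of_nonneg_left ?_ hM)
      refine (cut_sum_le _ (C₀ * c * b) fun C => ?_).trans (le_of_eq ?_)
      · rw [hr]
        have h1 : |(S.Dy φ 8 y)⁻¹ B C| * ‖Yv C‖ ≤ C₀ / R * (c * R * b) :=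
          mul_le_mul (hinv B C) (hY C) (norm_nonneg _) (by positivity)
        refine h1.trans (le_of_eq ?_)
        field_simp
      · simp
    · simp; ring
  have t3 : ‖Complex.I • (∑ B, S.vec (S.g 8) (φ (Sum.inr B)) β
      (∑ C, (((S.Dy φ 8 y)⁻¹ B C : ℝ) : ℂ) • ∑ j : Fin 8, ∑ E, ((S.Dy φ j.castSucc y C E : ℝ) : ℂ) • X j E))‖ ≤
      cut_M S * (dm * (dm * (C₀ * (8 * (dm * K))))) * b := by
    refine key _ (8 * (dm * K)) (by positivity) fun C => ?_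
    refine (cut_sum_le _ (dm * (K * R * b)) fun j => ?_).trans (le_of_eq ?_)
    · refine (cut_sum_le _ (K * R * b) fun E => ?_).trans (le_of_eq ?_)
      · rw [hr]
        exact mul_le_mul (hD _ _ _) (hX j E) (norm_nonneg _) (by positivity)
      · simp
    · simp; ring
  have hfw : ∀ a b' c' j E, |S.f a b' c' * w (j, E)| ≤ cut_f S * ε * R := fun a b' c' j E => by
    rw [abs_mul, mul_assoc]
    exact mul_le_mul (cut_f_le S _ _ _) (hwj j E) (abs_nonneg _) hf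
  have t4 : ‖Complex.I • (∑ B, S.vec (S.g 8) (φ (Sum.inr B)) β (∑ C, (((S.Dy φ 8 y)⁻¹ B C : ℝ) : ℂ) •
      ((∑ j : Fin 8, ∑ E, ∑ A, ((S.f (φ (Sum.inr C)) (φ (Sum.inr E)) (φ (Sum.inl A)) * w (j, E) : ℝ) : ℂ) •
          P j.castSucc A) +
        (∑ j : Fin 8, ∑ E, ∑ G, ((S.f (φ (Sum.inr C)) (φ (Sum.inr E)) (φ (Sum.inr G)) * w (j, E) : ℝ) : ℂ) •
          X j G))))‖ ≤
      cut_M S * (dm * (dm * (C₀ * (8 * (dm * (dh * (cut_f S * ε))) + 8 * (dm * (dm * (cut_f S * ε))))))) * b := by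
    refine key _ _ (by positivity) fun C => ?_
    refine (norm_add_le _ _).trans ?_
    have e1 : ‖∑ j : Fin 8, ∑ E, ∑ A, ((S.f (φ (Sum.inr C)) (φ (Sum.inr E)) (φ (Sum.inl A)) * w (j, E) : ℝ) : ℂ) •
          P j.castSucc A‖ ≤ 8 * (dm * (dh * (cut_f S * ε * R * b))) := by
      refine (cut_sum_le _ (dm * (dh * (cut_f S * ε * R * b))) fun j => ?_).trans (le_of_eq (by simp))
      refine (cut_sum_le _ (dh * (cut_f S * ε * R * b)) fun E => ?_).trans (le_of_eq (by simp))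
      refine (cut_sum_le _ (cut_f S * ε * R * b) fun A => ?_).trans (le_of_eq (by simp))
      rw [hr]
      exact mul_le_mul (hfw _ _ _ _ _) (hP _ _) (norm_nonneg _) (by positivity)
    have e2 : ‖∑ j : Fin 8, ∑ E, ∑ G, ((S.f (φ (Sum.inr C)) (φ (Sum.inr E)) (φ (Sum.inr G)) * w (j, E) : ℝ) : ℂ) •
          X j G‖ ≤ 8 * (dm * (dm * (cut_f S * ε * R * b))) := by
      refine (cut_sum_le _ (dm * (dm * (cut_f S * ε * R * b))) fun j => ?_).trans (le_of_eq (by simp))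
      refine (cut_sum_le _ (dm * (cut_f S * ε * R * b)) fun E => ?_).trans (le_of_eq (by simp))
      refine (cut_sum_le _ (cut_f S * ε * R * b) fun A => ?_).trans (le_of_eq (by simp))
      rw [hr]
      exact mul_le_mul (hfw _ _ _ _ _) (hX _ _) (norm_nonneg _) (by positivity)
    refine (add_le_add e1 e2).trans (le_of_eq ?_)
    ring
  unfold cut_E
  refine (norm_add_le _ _).trans ?_
  refine (add_le_add ((norm_add_le _ _).trans (add_le_add t1 ((norm_add_le _ _).trans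
    (add_le_add t2 t3)))) t4).trans (le_of_eq ?_)
  ring

theorem cut_open (S : Setup d F) (φ : Spl dh dm d) :
    IsOpen {p : Cfg dh × Wsp dm | (S.Dy φ 8 p.1).det ≠ 0} := by
  have h : Continuous fun p : Cfg dh × Wsp dm => (S.Dy φ 8 p.1).det := by
    refine Continuous.matrix_det ?_
    refine continuous_matrix fun B C => ?_
    simp only [Setup.Dy, Setup.Dm, Matrix.of_apply]
    refine continuous_finsetSum _ fun A _ => continuous_const.mul ?_
    exact (EuclideanSpace.proj ((8 : Fin 9), A) : Cfg dh →L[ℝ] ℝ).continuous.comp continuous_fst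
  exact isOpen_ne_fun h continuous_const

theorem cut_stmt (S : Setup d F) (hbd : BdStmt S) : CutStmt S := by
  intro dh dm φ y₀ hstd
  obtain ⟨ε, C₀, hε, hC₀, H⟩ := hbd dh dm φ y₀ hstd
  set M : ℝ := cut_M S * (9 * dh) + cut_M S * (8 * dm) +
    cut_M S * (dm * (dm * (C₀ * (8 * (dm * Real.sqrt C₀))))) +
    cut_M S * (dm * (dm * (C₀ * (8 * (dm * (dh * (cut_f S * ε))) + 8 * (dm * (dm * (cut_f S * ε))))))) with hMdef
  have hMn : 0 ≤ M := by
    have := cut_M_nonneg S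
    have := cut_f_nonneg S
    positivity
  refine ⟨ε, M + 1, hε, by positivity, ?_⟩
  intro R y w hR hy hw χ v hχ hv β
  obtain ⟨hdet, -, hD, hinv, -, -⟩ := H R y hR hy.le
  have hD' : ∀ i B E, |S.Dy φ i y B E| ≤ Real.sqrt C₀ * R := by
    intro i B E
    have h1 := hD i (Pi.single E 1)
    have h2 : ∀ B', ∑ E', S.Dy φ i y B' E' * (Pi.single E (1 : ℝ) : Fin dm → ℝ) E' = S.Dy φ i y B' E := by
      intro B'
      rw [Finset.sum_eq_single E]
      · simp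
      · intro E' _ hE'
        simp [Pi.single_eq_of_ne hE']
      · simp
    simp only [h2] at h1
    have h3 : ∑ B', (Pi.single E (1 : ℝ) : Fin dm → ℝ) B' ^ 2 = 1 := by
      rw [Finset.sum_eq_single E]
      · simp
      · intro E' _ hE'
        simp [Pi.single_eq_of_ne hE']
      · simp
    rw [h3, mul_one] at h1
    have h4 : (S.Dy φ i y B E) ^ 2 ≤ C₀ * R ^ 2 :=
      (Finset.single_le_sum (f := fun B' => (S.Dy φ i y B' E) ^ 2) (fun _ _ => sq_nonneg _)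
        (Finset.mem_univ B)).trans h1
    refine abs_le_of_sq_le_sq ?_ (by positivity)
    rw [mul_pow, Real.sq_sqrt hC₀.le]
    exact h4
  -- derivatives
  have hvd : DifferentiableAt ℝ (fun p : Cfg dh × Wsp dm => v p.1 p.2) (y, w) :=
    ((hv.contDiffAt ((cut_open S φ).mem_nhds hdet)).differentiableAt (by simp))
  have hχd : DifferentiableAt ℝ χ (y, w) := hχ.differentiable (by simp) _
  have hvy : DifferentiableAt ℝ (fun y' => v y' w) y :=
    DifferentiableAt.comp (g := fun p : Cfg dh × Wsp dm => v p.1 p.2) (f := fun y' : Cfg dh => (y', w)) y hvd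
      (differentiableAt_id.prodMk (differentiableAt_const w))
  have hvw : DifferentiableAt ℝ (v y) w :=
    DifferentiableAt.comp (g := fun p : Cfg dh × Wsp dm => v p.1 p.2) (f := fun w' : Wsp dm => (y, w')) w hvd
      ((differentiableAt_const y).prodMk differentiableAt_id)
  have hχy : HasFDerivAt (fun y' => χ (y', w))
      ((fderiv ℝ χ (y, w)).comp (ContinuousLinearMap.inl ℝ (Cfg dh) (Wsp dm))) y := by
    have h1 : HasFDerivAt (fun y' : Cfg dh => (y', w)) (ContinuousLinearMap.inl ℝ (Cfg dh) (Wsp dm)) y :=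
      (hasFDerivAt_id y).prodMk (hasFDerivAt_const w y)
    exact hχd.hasFDerivAt.comp y h1
  have hχw : HasFDerivAt (fun w' => χ (y, w'))
      ((fderiv ℝ χ (y, w)).comp (ContinuousLinearMap.inr ℝ (Cfg dh) (Wsp dm))) w := by
    have h1 : HasFDerivAt (fun w' : Wsp dm => (y, w')) (ContinuousLinearMap.inr ℝ (Cfg dh) (Wsp dm)) w :=
      (hasFDerivAt_const y w).prodMk (hasFDerivAt_id w)
    exact hχd.hasFDerivAt.comp w h1
  have e1 : ∀ i A, py i A (fun y' w' => ((χ (y', w') : ℝ) : ℂ) • v y' w') y w =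
      ((χ (y, w) : ℝ) : ℂ) • py i A v y w +
        (((fderiv ℝ χ (y, w) (EuclideanSpace.single (i, A) 1, 0) : ℝ)) : ℂ) • v y w := by
    intro i A
    have h1 : HasFDerivAt (fun y' => χ (y', w) • v y' w) _ y := hχy.smul hvy.hasFDerivAt
    have h2 : (fun y' => ((χ (y', w) : ℝ) : ℂ) • v y' w) = fun y' => χ (y', w) • v y' w := by
      funext y'
      exact Complex.coe_smul _ _
    unfold py pd
    simp only [h2]
    rw [h1.fderiv]
    simp only [add_apply, smul_apply, ContinuousLinearMap.smulRight_apply,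
      ContinuousLinearMap.comp_apply, ContinuousLinearMap.inl_apply, Complex.coe_smul]
  have e2 : ∀ j B, pw j B (fun y' w' => ((χ (y', w') : ℝ) : ℂ) • v y' w') y w =
      ((χ (y, w) : ℝ) : ℂ) • pw j B v y w +
        (((fderiv ℝ χ (y, w) (0, EuclideanSpace.single (j, B) 1) : ℝ)) : ℂ) • v y w := by
    intro j B
    have h1 : HasFDerivAt (fun w' => χ (y, w') • v y w') _ w := hχw.smul hvw.hasFDerivAt
    have h2 : (fun w' => ((χ (y, w') : ℝ) : ℂ) • v y w') = fun w' => χ (y, w') • v y w' := by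
      funext y'
      exact Complex.coe_smul _ _
    unfold pw
    simp only [h2]
    rw [h1.fderiv]
    simp only [add_apply, smul_apply, ContinuousLinearMap.smulRight_apply,
      ContinuousLinearMap.comp_apply, ContinuousLinearMap.inr_apply, Complex.coe_smul]
  have e3 : Qs S φ β (fun y' w' => ((χ (y', w') : ℝ) : ℂ) • v y' w') y w -
      ((χ (y, w) : ℝ) : ℂ) • Qs S φ β v y w =
      cut_E S φ β y w
        (fun i A => (((fderiv ℝ χ (y, w) (EuclideanSpace.single (i, A) 1, 0) : ℝ)) : ℂ) • v y w)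
        (fun j B => (((fderiv ℝ χ (y, w) (0, EuclideanSpace.single (j, B) 1) : ℝ)) : ℂ) • v y w) := by
    rw [cut_split, cut_split]
    simp only [e1, e2]
    rw [cut_E_add, cut_E_smul, cut_Z_smul, smul_add]
    abel
  rw [e3]
  have hn1 : ∀ i (A : Fin dh), ‖(((fderiv ℝ χ (y, w) (EuclideanSpace.single (i, A) 1, 0) : ℝ)) : ℂ) • v y w‖ ≤
      ‖fderiv ℝ χ (y, w)‖ * ‖v y w‖ := by
    intro i A
    rw [norm_smul, Complex.norm_real]
    refine mul_le_mul_of_nonneg_right ?_ (norm_nonneg _)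
    refine (ContinuousLinearMap.le_opNorm _ _).trans (le_of_eq ?_)
    rw [Prod.norm_mk]
    simp
  have hn2 : ∀ j (B : Fin dm), ‖(((fderiv ℝ χ (y, w) (0, EuclideanSpace.single (j, B) 1) : ℝ)) : ℂ) • v y w‖ ≤
      ‖fderiv ℝ χ (y, w)‖ * ‖v y w‖ := by
    intro i A
    rw [norm_smul, Complex.norm_real]
    refine mul_le_mul_of_nonneg_right ?_ (norm_nonneg _)
    refine (ContinuousLinearMap.le_opNorm _ _).trans (le_of_eq ?_)
    rw [Prod.norm_mk]
    simp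
  refine (cut_E_norm S φ β y w _ _ hR hε.le hC₀.le (Real.sqrt_nonneg _)
    (b := ‖fderiv ℝ χ (y, w)‖ * ‖v y w‖) (by positivity) hinv hD' hw.le hn1 hn2).trans ?_
  rw [← hMdef, mul_assoc (M + 1)]
  exact mul_le_mul_of_nonneg_right (by linarith) (by positivity)

end Vale.Agent.P353.Z.AN
end

section

/-! # P353, all `N`, block C, C-EnH: gradient bound for the block model with mass -/

open MeasureTheory Filter Topology
open scoped ContDiff Matrix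

namespace Vale.Agent.P353.Z.AN.EnH964

open Vale.Agent.P353.Z.AN.Op687

/-! ### quadratic polynomials -/

section pol

variable {dh : ℕ}

/-- complex polynomial of degree two without constant term -/
noncomputable def pol (c : Fin 9 × Fin dh → Fin 9 × Fin dh → ℂ) (n : Fin 9 × Fin dh → ℂ)
    (x : Cfg dh) : ℂ :=
  (∑ p, ∑ q, c p q * ((x p : ℝ) : ℂ) * ((x q : ℝ) : ℂ)) + ∑ p, n p * ((x p : ℝ) : ℂ)

lemma coord_cd (p : Fin 9 × Fin dh) : ContDiff ℝ ∞ (fun x : Cfg dh => ((x p : ℝ) : ℂ)) :=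
  Setup.contDiff_ofReal (Setup.contDiff_coord p)

lemma pol_cd (c : Fin 9 × Fin dh → Fin 9 × Fin dh → ℂ) (n : Fin 9 × Fin dh → ℂ) :
    ContDiff ℝ ∞ (pol c n) := by
  unfold pol
  refine ContDiff.add (ContDiff.sum fun p _ => ContDiff.sum fun q _ => ?_)
    (ContDiff.sum fun p _ => ?_)
  · exact (contDiff_const.mul (coord_cd p)).mul (coord_cd q)
  · exact contDiff_const.mul (coord_cd p)

lemma coord_hd (p : Fin 9 × Fin dh) (x : Cfg dh) :
    HasFDerivAt (fun y : Cfg dh => ((y p : ℝ) : ℂ))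
      (Complex.ofRealCLM.comp (EuclideanSpace.proj (𝕜 := ℝ) p : Cfg dh →L[ℝ] ℝ)) x :=
  (Complex.ofRealCLM.hasFDerivAt (x := x p)).comp x (Setup.hasFDerivAt_coord p x)

lemma coord_le (p r : Fin 9 × Fin dh) :
    ‖(Complex.ofRealCLM.comp (EuclideanSpace.proj (𝕜 := ℝ) p : Cfg dh →L[ℝ] ℝ))
      (EuclideanSpace.single r 1)‖ ≤ 1 := by
  simp only [ContinuousLinearMap.comp_apply, Complex.ofRealCLM_apply, PiLp.proj_apply,
    PiLp.single_apply]
  split_ifs <;> simp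

lemma x_le (x : Cfg dh) (p : Fin 9 × Fin dh) : ‖((x p : ℝ) : ℂ)‖ ≤ ‖x‖ := by
  rw [Complex.norm_real]
  exact PiLp.norm_apply_le x p

lemma pol_fd (c : Fin 9 × Fin dh → Fin 9 × Fin dh → ℂ) (n : Fin 9 × Fin dh → ℂ) (x : Cfg dh)
    (r : Fin 9 × Fin dh) :
    ‖fderiv ℝ (pol c n) x (EuclideanSpace.single r 1)‖ ≤
      (∑ p, ∑ q, 2 * ‖c p q‖) * ‖x‖ + ∑ p, ‖n p‖ := by
  set e : Cfg dh := EuclideanSpace.single r 1 with he
  set L : Fin 9 × Fin dh → (Cfg dh →L[ℝ] ℂ) := fun p =>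
    Complex.ofRealCLM.comp (EuclideanSpace.proj (𝕜 := ℝ) p : Cfg dh →L[ℝ] ℝ) with hL
  have h1 : ∀ p q, HasFDerivAt (fun y : Cfg dh => c p q * ((y p : ℝ) : ℂ) * ((y q : ℝ) : ℂ))
      ((c p q * ((x p : ℝ) : ℂ)) • L q + ((x q : ℝ) : ℂ) • (c p q • L p)) x := fun p q =>
    ((coord_hd p x).const_mul (c p q)).mul (coord_hd q x)
  have h2 : ∀ p, HasFDerivAt (fun y : Cfg dh => n p * ((y p : ℝ) : ℂ)) (n p • L p) x := fun p =>
    (coord_hd p x).const_mul (n p)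
  have hd : HasFDerivAt (pol c n)
      ((∑ p, ∑ q, ((c p q * ((x p : ℝ) : ℂ)) • L q + ((x q : ℝ) : ℂ) • (c p q • L p))) +
        ∑ p, n p • L p) x := by
    unfold pol
    exact (HasFDerivAt.fun_sum fun p _ => HasFDerivAt.fun_sum fun q _ => h1 p q).add
      (HasFDerivAt.fun_sum fun p _ => h2 p)
  rw [hd.fderiv]
  simp only [_root_.add_apply, _root_.sum_apply, _root_.smul_apply, smul_eq_mul]
  refine (norm_add_le _ _).trans (add_le_add ?_ ?_)
  · rw [Finset.sum_mul]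
    refine (norm_sum_le _ _).trans (Finset.sum_le_sum fun p _ => ?_)
    rw [Finset.sum_mul]
    refine (norm_sum_le _ _).trans (Finset.sum_le_sum fun q _ => ?_)
    refine (norm_add_le _ _).trans ?_
    have hq : ‖L q e‖ ≤ 1 := coord_le q r
    have hp : ‖L p e‖ ≤ 1 := coord_le p r
    have xq := x_le x q
    have xp := x_le x p
    simp only [norm_mul]
    have i1 : ‖c p q‖ * ‖((x p : ℝ) : ℂ)‖ * ‖L q e‖ ≤ ‖c p q‖ * ‖x‖ * 1 := by
      gcongr
    have i2 : ‖((x q : ℝ) : ℂ)‖ * (‖c p q‖ * ‖L p e‖) ≤ ‖x‖ * (‖c p q‖ * 1) := by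
      gcongr
    linarith
  · refine (norm_sum_le _ _).trans (Finset.sum_le_sum fun p _ => ?_)
    rw [norm_mul]
    have hp : ‖L p e‖ ≤ 1 := coord_le p r
    calc ‖n p‖ * ‖L p e‖ ≤ ‖n p‖ * 1 := by gcongr
      _ = ‖n p‖ := mul_one _

end pol

variable {d dh dm : ℕ} {F : Type*} [NormedAddCommGroup F] [InnerProductSpace ℂ F]
  (S : Setup d F) (φ : Spl dh dm d) (N : Fin 9 → Matrix (Fin 16) (Fin 16) ℂ)

/-- matrices of the multiplier -/
noncomputable def tH (m : ℝ) (A : Fin dh) (x : Cfg dh) : Matrix (Fin 16) (Fin 16) ℂ :=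
  (∑ i, ∑ j, ((c1 S φ A i j x : ℝ) : ℂ) • S.g2 i j) + ∑ i, ((m * x (i, A) : ℝ) : ℂ) • N i

/-- quadratic coefficients -/
noncomputable def cq (A : Fin dh) (α α' : Fin 16) (p q : Fin 9 × Fin dh) : ℂ :=
  (((1 / 2) * (S.κ * S.f (φ (Sum.inl A)) (φ (Sum.inl p.2)) (φ (Sum.inl q.2))) : ℝ) : ℂ) *
    S.g2 p.1 q.1 α α'

/-- linear coefficients -/
noncomputable def cn (m : ℝ) (A : Fin dh) (α α' : Fin 16) (p : Fin 9 × Fin dh) : ℂ :=
  if p.2 = A then (m : ℂ) * N p.1 α α' else 0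

lemma tH_pol (m : ℝ) (A : Fin dh) (α α' : Fin 16) (x : Cfg dh) :
    tH S φ N m A x α α' = pol (cq S φ A α α') (cn N m A α α') x := by
  unfold tH pol
  rw [Matrix.add_apply]
  congr 1
  · simp only [Matrix.sum_apply, Matrix.smul_apply, smul_eq_mul, c1, cq]
    rw [Fintype.sum_prod_type]
    refine Finset.sum_congr rfl fun i _ => ?_
    simp only [Fintype.sum_prod_type]
    rw [Finset.sum_comm]
    refine Finset.sum_congr rfl fun j _ => ?_
    push_cast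
    simp only [Finset.mul_sum, Finset.sum_mul]
    refine Finset.sum_congr rfl fun B _ => Finset.sum_congr rfl fun C _ => ?_
    ring
  · simp only [Matrix.sum_apply, Matrix.smul_apply, smul_eq_mul, cn]
    rw [Fintype.sum_prod_type]
    refine Finset.sum_congr rfl fun i _ => ?_
    simp only [ite_mul, zero_mul, Finset.sum_ite_eq', Finset.mem_univ, if_true]
    push_cast
    ring

lemma tH_cd (m : ℝ) (A : Fin dh) (α α' : Fin 16) :
    ContDiff ℝ ∞ (fun x => tH S φ N m A x α α') := by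
  have h : (fun x => tH S φ N m A x α α') = pol (cq S φ A α α') (cn N m A α α') := by
    funext x
    exact tH_pol S φ N m A α α' x
  rw [h]
  exact pol_cd _ _

lemma tH_im (hN : ∀ i α β, (N i α β).im = 0) (m : ℝ) (A : Fin dh) (x : Cfg dh) (α β : Fin 16) :
    (tH S φ N m A x α β).im = 0 := by
  unfold tH
  simp only [Matrix.add_apply, Matrix.sum_apply, Matrix.smul_apply, smul_eq_mul, Complex.add_im,
    Complex.im_sum, Complex.mul_im, Complex.ofReal_im, Complex.ofReal_re, S.g2_im, hN]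
  simp

lemma tH_tr (hN : ∀ i j, (S.g i * (N j).transpose).trace = 0) (m : ℝ) (i : Fin 9) (A : Fin dh)
    (x : Cfg dh) : (S.g i * (tH S φ N m A x).transpose).trace = 0 := by
  unfold tH
  simp only [Matrix.transpose_add, Matrix.transpose_sum, Matrix.transpose_smul, Matrix.mul_add,
    Matrix.mul_sum, Matrix.mul_smul, Matrix.trace_add, Matrix.trace_sum, Matrix.trace_smul, hN,
    U.En.trace_g_g2T, smul_zero, Finset.sum_const_zero, add_zero]

lemma sub_vec (h : S.IsSub φ) (M : Matrix (Fin 16) (Fin 16) ℂ) (A : Fin dh) (β : Fin 16) :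
    (S.sub φ h).vec M A β = S.vec M (φ (Sum.inl A)) β := rfl

lemma key_eq (h : S.IsSub φ) (m : ℝ) (β : Fin 16) (v : Cfg dh → Wsp dm → F) (y : Cfg dh)
    (w : Wsp dm) :
    (S.sub φ h).Q0 β (fun y' => v y' w) y +
      ∑ A, (S.sub φ h).vec (tH S φ N m A y) A β (v y w) = S.Qhm φ N m β v y w := by
  rw [Qhm_exp, add_assoc]
  congr 1
  · unfold Setup.Q0 py
    simp only [Finset.smul_sum, sub_vec]
    rfl
  · simp only [sub_vec, tH, S.vec_add, S.vec_sum, S.vec_smul, _root_.add_apply, _root_.sum_apply,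
      _root_.smul_apply, Finset.sum_add_distrib]
    congr 1
    exact Finset.sum_comm


/-! ### bound for the zero order term -/

lemma vec_le (S' : Setup dh F) (M : Matrix (Fin 16) (Fin 16) ℂ) (A : Fin dh) (β : Fin 16) (K : ℝ)
    (hM : ∀ α α', ‖M α α'‖ ≤ K) (a : F) :
    ‖S'.vec M A β a‖ ≤ K * ((∑ γ, ‖S'.th γ A‖) * ‖a‖) := by
  unfold CS.vec
  simp only [_root_.sum_apply, _root_.smul_apply]
  rw [Finset.sum_mul, Finset.mul_sum]
  refine (norm_sum_le _ _).trans (Finset.sum_le_sum fun γ _ => ?_)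
  rw [norm_smul]
  have h1 : ‖S'.th γ A a‖ ≤ ‖S'.th γ A‖ * ‖a‖ := (S'.th γ A).le_opNorm a
  have h2 : 0 ≤ ‖S'.th γ A‖ * ‖a‖ := by positivity
  calc ‖M β γ‖ * ‖S'.th γ A a‖ ≤ ‖M β γ‖ * (‖S'.th γ A‖ * ‖a‖) := by gcongr
    _ ≤ K * (‖S'.th γ A‖ * ‖a‖) := by gcongr; exact hM β γ

lemma cn_le (m : ℝ) (hm0 : 0 ≤ m) (hm1 : m ≤ 1) (A : Fin dh) (α α' : Fin 16)
    (p : Fin 9 × Fin dh) : ‖cn N m A α α' p‖ ≤ ‖N p.1 α α'‖ := by
  unfold cn
  split_ifs
  · rw [norm_mul, Complex.norm_real, Real.norm_of_nonneg hm0]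
    calc m * ‖N p.1 α α'‖ ≤ 1 * ‖N p.1 α α'‖ := by gcongr
      _ = _ := one_mul _
  · simp

/-- sum of the quadratic coefficients -/
noncomputable def K1 : ℝ := ∑ A, ∑ α, ∑ α', ∑ p, ∑ q, 2 * ‖cq S φ A α α' p q‖

/-- sum of the linear coefficients -/
noncomputable def K2 (dh : ℕ) : ℝ := ∑ α, ∑ α', ∑ p : Fin 9 × Fin dh, ‖N p.1 α α'‖

lemma K1_nonneg : 0 ≤ K1 S φ := by
  unfold K1
  positivity

lemma K2_nonneg : 0 ≤ K2 N dh := by
  unfold K2
  positivity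

lemma dt_le (m : ℝ) (hm0 : 0 ≤ m) (hm1 : m ≤ 1) (A : Fin dh) (α α' : Fin 16) (x : Cfg dh)
    (r : Fin 9 × Fin dh) :
    ‖fderiv ℝ (fun z => tH S φ N m A z α α') x (EuclideanSpace.single r 1)‖ ≤
      K1 S φ * ‖x‖ + K2 N dh := by
  have h : (fun x => tH S φ N m A x α α') = pol (cq S φ A α α') (cn N m A α α') := by
    funext x
    exact tH_pol S φ N m A α α' x
  rw [h]
  refine (pol_fd _ _ x r).trans (add_le_add ?_ ?_)
  · refine mul_le_mul_of_nonneg_right ?_ (norm_nonneg x)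
    unfold K1
    refine le_trans ?_ (Finset.single_le_sum (f := fun A => ∑ α, ∑ α', ∑ p, ∑ q,
      2 * ‖cq S φ A α α' p q‖) (fun i _ => by positivity) (Finset.mem_univ A))
    refine le_trans ?_ (Finset.single_le_sum (f := fun α => ∑ α', ∑ p, ∑ q,
      2 * ‖cq S φ A α α' p q‖) (fun i _ => by positivity) (Finset.mem_univ α))
    exact Finset.single_le_sum (f := fun α' => ∑ p, ∑ q,
      2 * ‖cq S φ A α α' p q‖) (fun i _ => by positivity) (Finset.mem_univ α')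
  · unfold K2
    refine (Finset.sum_le_sum fun p _ => cn_le N m hm0 hm1 A α α' p).trans ?_
    refine le_trans ?_ (Finset.single_le_sum (f := fun α => ∑ α', ∑ p : Fin 9 × Fin dh,
      ‖N p.1 α α'‖) (fun i _ => by positivity) (Finset.mem_univ α))
    exact Finset.single_le_sum (f := fun α' => ∑ p : Fin 9 × Fin dh,
      ‖N p.1 α α'‖) (fun i _ => by positivity) (Finset.mem_univ α')

/-- the zero order term -/
noncomputable def ZZ (S' : Setup dh F) (m : ℝ) (x : Cfg dh) (a : F) : F :=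
  (-Complex.I) • ∑ β, ∑ j, ∑ B, S'.vec (S'.g j) B β
    (∑ A, S'.vec (Matrix.of fun α α' => fderiv ℝ (fun z => tH S φ N m A z α α') x
      (EuclideanSpace.single (j, B) 1)) A β a)

/-- constant in the bound of the zero order term -/
noncomputable def KZ (S' : Setup dh F) : ℝ :=
  (∑ β, ∑ j, ∑ B, ‖S'.vec (S'.g j) B β‖) * ((K1 S φ + K2 N dh) * ∑ A, ∑ γ, ‖S'.th γ A‖)

lemma KZ_nonneg (S' : Setup dh F) : 0 ≤ KZ S φ N S' := by
  unfold KZ
  have h1 := K1_nonneg S φ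
  have h2 := K2_nonneg (dh := dh) N
  positivity

lemma ZZ_le (S' : Setup dh F) (m : ℝ) (hm0 : 0 ≤ m) (hm1 : m ≤ 1) (x : Cfg dh) (a : F) :
    ‖ZZ S φ N S' m x a‖ ≤ KZ S φ N S' * ((1 + ‖x‖) * ‖a‖) := by
  unfold ZZ KZ
  rw [norm_smul, norm_neg, Complex.norm_I, one_mul]
  set T : ℝ := ∑ A, ∑ γ, ‖S'.th γ A‖ with hT
  have hT0 : 0 ≤ T := by positivity
  have k1 := K1_nonneg S φ
  have k2 := K2_nonneg (dh := dh) N
  have hin : ∀ β j B, ‖∑ A, S'.vec (Matrix.of fun α α' => fderiv ℝ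
      (fun z => tH S φ N m A z α α') x (EuclideanSpace.single (j, B) 1)) A β a‖ ≤
      (K1 S φ + K2 N dh) * T * ((1 + ‖x‖) * ‖a‖) := by
    intro β j B
    have e1 : ‖∑ A, S'.vec (Matrix.of fun α α' => fderiv ℝ
        (fun z => tH S φ N m A z α α') x (EuclideanSpace.single (j, B) 1)) A β a‖ ≤
        ∑ A, (K1 S φ * ‖x‖ + K2 N dh) * ((∑ γ, ‖S'.th γ A‖) * ‖a‖) := by
      refine (norm_sum_le _ _).trans (Finset.sum_le_sum fun A _ => ?_)
      refine vec_le S' _ A β _ (fun α α' => ?_) a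
      rw [Matrix.of_apply]
      exact dt_le S φ N m hm0 hm1 A α α' x (j, B)
    refine e1.trans ?_
    rw [← Finset.mul_sum, ← Finset.sum_mul, ← hT]
    have hx := norm_nonneg x
    have ha := norm_nonneg a
    have e2 : K1 S φ * ‖x‖ + K2 N dh ≤ (K1 S φ + K2 N dh) * (1 + ‖x‖) := by nlinarith
    calc (K1 S φ * ‖x‖ + K2 N dh) * (T * ‖a‖) ≤
        ((K1 S φ + K2 N dh) * (1 + ‖x‖)) * (T * ‖a‖) := by gcongr
      _ = _ := by ring
  have h1 : ‖∑ β, ∑ j, ∑ B, S'.vec (S'.g j) B β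
      (∑ A, S'.vec (Matrix.of fun α α' => fderiv ℝ (fun z => tH S φ N m A z α α') x
      (EuclideanSpace.single (j, B) 1)) A β a)‖ ≤
      ∑ β, ∑ j, ∑ B, ‖S'.vec (S'.g j) B β‖ * ((K1 S φ + K2 N dh) * T * ((1 + ‖x‖) * ‖a‖)) := by
    refine (norm_sum_le _ _).trans (Finset.sum_le_sum fun β _ => ?_)
    refine (norm_sum_le _ _).trans (Finset.sum_le_sum fun j _ => ?_)
    refine (norm_sum_le _ _).trans (Finset.sum_le_sum fun B _ => ?_)
    refine ((S'.vec (S'.g j) B β).le_opNorm _).trans ?_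
    gcongr
    exact hin β j B
  refine h1.trans (le_of_eq ?_)
  simp only [← Finset.sum_mul]
  ring

/-! ### the bound on a fibre -/

lemma fib (S' : Setup dh F) (hG : GenStmt S') (hg : S'.g = S.g)
    (hN : ∀ i α β, (N i α β).im = 0) (ht : ∀ i j, (S.g i * (N j).transpose).trace = 0)
    (m : ℝ) (hm0 : 0 ≤ m) (hm1 : m ≤ 1) (u : Cfg dh → F) (hu : Setup.Tst u) (L : ℝ)
    (hL : ∀ y, u y ≠ 0 → ‖y‖ ≤ L) :
    8 * (∑ i, ∑ A, nsq (pd i A u)) ≤
      (∑ β, nsq (fun x => S'.Q0 β u x + ∑ A, S'.vec (tH S φ N m A x) A β (u x))) +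
        KZ S φ N S' * (1 + L) * nsq u := by
  have key := hG (tH S φ N m) (tH_cd S φ N m) (tH_im S φ N hN m)
    (fun i A x => by rw [hg]; exact tH_tr S φ N ht m i A x) u hu
  rw [key]
  have h1 : 0 ≤ ∫ x, (∑ A, (tH S φ N m A x * (tH S φ N m A x).transpose).trace).re *
      ‖u x‖ ^ 2 := by
    refine integral_nonneg fun x => mul_nonneg ?_ (by positivity)
    rw [Complex.re_sum]
    refine Finset.sum_nonneg fun A _ => ?_
    rw [Matrix.trace, Complex.re_sum]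
    refine Finset.sum_nonneg fun α _ => ?_
    rw [Matrix.diag_apply, Matrix.mul_apply, Complex.re_sum]
    refine Finset.sum_nonneg fun β _ => ?_
    rw [Matrix.transpose_apply, Complex.mul_re, tH_im S φ N hN m A x α β]
    nlinarith [mul_self_nonneg (tH S φ N m A x α β).re]
  have h2 : |(∫ x, inner ℂ (u x) (ZZ S φ N S' m x (u x))).re| ≤
      KZ S φ N S' * (1 + L) * nsq u := by
    refine (Complex.abs_re_le_norm _).trans ?_
    have hK := KZ_nonneg S φ N S'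
    have e1 : ‖∫ x, inner ℂ (u x) (ZZ S φ N S' m x (u x))‖ ≤
        ∫ x, KZ S φ N S' * (1 + L) * ‖u x‖ ^ 2 := by
      refine norm_integral_le_of_norm_le (hu.norm_sq_int.const_mul _)
        (Eventually.of_forall fun x => ?_)
      refine (norm_inner_le_norm _ _).trans ?_
      by_cases hx : u x = 0
      · simp [hx]
      · have hxl := hL x hx
        calc ‖u x‖ * ‖ZZ S φ N S' m x (u x)‖ ≤
            ‖u x‖ * (KZ S φ N S' * ((1 + ‖x‖) * ‖u x‖)) := by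
              gcongr
              exact ZZ_le S φ N S' m hm0 hm1 x (u x)
          _ ≤ ‖u x‖ * (KZ S φ N S' * ((1 + L) * ‖u x‖)) := by gcongr
          _ = KZ S φ N S' * (1 + L) * ‖u x‖ ^ 2 := by ring
    refine e1.trans (le_of_eq ?_)
    rw [integral_const_mul]
    rfl
  have h3 : (∫ x, inner ℂ (u x) ((-Complex.I) • ∑ β, ∑ j, ∑ B, S'.vec (S'.g j) B β
        (∑ A, S'.vec (Matrix.of fun α α' => fderiv ℝ (fun z => tH S φ N m A z α α') x
          (EuclideanSpace.single (j, B) 1)) A β (u x)))).re =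
      (∫ x, inner ℂ (u x) (ZZ S φ N S' m x (u x))).re := rfl
  rw [h3]
  have h4 := (abs_le.mp h2).1
  linarith

end Vale.Agent.P353.Z.AN.EnH964

namespace Vale.Agent.P353.Z.AN

variable {d dh dm : ℕ} {F : Type*} [NormedAddCommGroup F] [InnerProductSpace ℂ F]

open EnH964 in
theorem enH_stmt (S : Setup d F) (φ : Spl dh dm d) (hA : CalcA dh dm F) (hB : CalcB dh dm F)
    (hG : ∀ S' : Setup dh F, GenStmt S') : EnHStmt S φ := by
  intro h N hN
  set S' : Setup dh F := S.sub φ h with hS'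
  have hK := KZ_nonneg S φ N S'
  refine ⟨1 + KZ S φ N S', by linarith, ?_⟩
  intro m hm0 hm1 v hv L hL0 hL
  have hQ : ∀ β, Tst2 (S.Qhm φ N m β v) := fun β => (Op687.sm_Qhm S φ hA hB N hN.real m β).1 v hv
  have hpt : ∀ w, 8 * (∑ i, ∑ A, nsq (fun y => py i A v y w)) ≤
      (∑ β, nsq (fun y => S.Qhm φ N m β v y w)) +
        KZ S φ N S' * (1 + L) * nsq (fun y => v y w) := by
    intro w
    have h1 := EnH964.fib S φ N S' (hG S') rfl hN.real hN.tr m hm0 hm1 (fun y => v y w) (hA.sly v hv w) L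
      (fun y hy => hL y w hy)
    have h2 : ∀ β, nsq (fun x => S'.Q0 β (fun y => v y w) x +
        ∑ A, S'.vec (tH S φ N m A x) A β (v x w)) = nsq (fun y => S.Qhm φ N m β v y w) := by
      intro β
      congr 1
      funext y
      exact key_eq S φ N h m β v y w
    simp only [h2] at h1
    exact h1
  have i1 : ∀ i A, Integrable (fun w => nsq (fun y => py i A v y w)) := fun i A =>
    (hB.wy _ (hA.py i A v hv)).1
  have i2 : ∀ β, Integrable (fun w => nsq (fun y => S.Qhm φ N m β v y w)) := fun β =>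
    (hB.wy _ (hQ β)).1
  have i3 : Integrable (fun w => nsq (fun y => v y w)) := (hB.wy _ hv).1
  have i1' : Integrable (fun w => 8 * (∑ i, ∑ A, nsq (fun y => py i A v y w))) :=
    (integrable_finsetSum _ fun i _ => integrable_finsetSum _ fun A _ => i1 i A).const_mul _
  have i2' : Integrable (fun w => ∑ β, nsq (fun y => S.Qhm φ N m β v y w)) :=
    integrable_finsetSum _ fun β _ => i2 β
  have hint := integral_mono i1' (i2'.add (i3.const_mul (KZ S φ N S' * (1 + L)))) hpt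
  simp only [Pi.add_apply] at hint
  rw [integral_add i2' (i3.const_mul _), integral_const_mul, integral_const_mul,
    integral_finsetSum _ fun β _ => i2 β,
    integral_finsetSum _ fun i _ => integrable_finsetSum _ fun A _ => i1 i A] at hint
  have e1 : D2y v = ∑ i, ∫ w, ∑ A, nsq (fun y => py i A v y w) := by
    unfold D2y
    refine Finset.sum_congr rfl fun i _ => ?_
    rw [integral_finsetSum _ fun A _ => i1 i A]
    refine Finset.sum_congr rfl fun A _ => ?_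
    exact (hB.wy _ (hA.py i A v hv)).2
  have e2 : S.EH φ N m v = ∑ β, ∫ w, nsq (fun y => S.Qhm φ N m β v y w) := by
    unfold Setup.EH
    exact Finset.sum_congr rfl fun β _ => (hB.wy _ (hQ β)).2
  have e3 : ns2 v = ∫ w, nsq (fun y => v y w) := (hB.wy _ hv).2
  rw [← e1, ← e2, ← e3] at hint
  have p1 : 0 ≤ D2y v := by
    unfold D2y
    exact Finset.sum_nonneg fun i _ => Finset.sum_nonneg fun A _ => hB.nonneg _
  have p2 : 0 ≤ S.EH φ N m v := by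
    unfold Setup.EH
    exact Finset.sum_nonneg fun β _ => hB.nonneg _
  have p3 : 0 ≤ ns2 v := hB.nonneg _
  have p4 : 0 ≤ (1 + L) * ns2 v := mul_nonneg (by linarith) p3
  have p5 : 0 ≤ KZ S φ N S' * S.EH φ N m v := mul_nonneg hK p2
  nlinarith [mul_nonneg hK p4]

end Vale.Agent.P353.Z.AN
end

section

/-! # P353, all `N`, block C, C-Rem: the remainder -/

open MeasureTheory Filter Topology
open scoped ContDiff

namespace Vale.Agent.P353.Z.AN.Rem76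

open Vale.Agent.P353.Z.AN.Sy Vale.Agent.P353.Z.AN.Op687

variable {d dh dm : ℕ} {F : Type*} [NormedAddCommGroup F] [InnerProductSpace ℂ F]

/-! ### elementary facts -/

lemma w_le (w : Wsp dm) (k : Fin 8 × Fin dm) : |w k| ≤ ‖w‖ := by
  have := PiLp.norm_apply_le w k
  rwa [Real.norm_eq_abs] at this

lemma w_sq (w : Wsp dm) : ‖w‖ ^ 2 = ∑ k, w k ^ 2 := by
  rw [EuclideanSpace.norm_sq_eq]
  exact Finset.sum_congr rfl fun k _ => by rw [Real.norm_eq_abs, sq_abs]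

lemma wt_le (w : Wsp dm) (i : Fin 9) (B : Fin dm) : |wt w i B| ≤ ‖w‖ := by
  unfold wt
  refine Fin.lastCases ?_ (fun j => ?_) i
  · rw [Fin.lastCases_last, abs_zero]
    exact norm_nonneg w
  · rw [Fin.lastCases_castSucc]
    exact w_le w (j, B)

lemma t_mw (hA : CalcA dh dm F) (k : Fin 8 × Fin dm) (v : Cfg dh → Wsp dm → F) (hv : Tst2 v) :
    Tst2 (mw k v) :=
  hA.mul (fun _ w => w k) v (contDiff_w k) hv

lemma mw_norm (k : Fin 8 × Fin dm) (v : Cfg dh → Wsp dm → F) (y : Cfg dh) (w : Wsp dm) :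
    ‖mw k v y w‖ ^ 2 = w k ^ 2 * ‖v y w‖ ^ 2 := by
  unfold mw mul2
  rw [norm_smul, Complex.norm_real, Real.norm_eq_abs, mul_pow, sq_abs]

omit [InnerProductSpace ℂ F] in
lemma sup_mono {Y : Cfg dh} {e e' R : ℝ} {v : Cfg dh → Wsp dm → F} (h : Sup2 Y e' R v) (hR : 0 < R)
    (he : e' ≤ e) : Sup2 Y e R v := by
  intro y w hv
  have key : e' * R ≤ e * R := mul_le_mul_of_nonneg_right he hR.le
  exact ⟨(h y w hv).1.trans key, (h y w hv).2.trans key⟩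

lemma sup_mw {Y : Cfg dh} {ε R : ℝ} {v : Cfg dh → Wsp dm → F} (k : Fin 8 × Fin dm)
    (h : Sup2 Y ε R v) : Sup2 Y ε R (mw k v) := by
  intro y w hn
  refine h y w fun h0 => hn ?_
  simp [mw, mul2, h0]

/-! ### `Q¹` and multiplication with `w_k` -/

variable (S : Setup d F) (φ : Spl dh dm d)

/-- the zero order term of `Q¹(w_k v) - w_k Q¹ v` -/
noncomputable def Zk (k : Fin 8 × Fin dm) (β : Fin 16) (y : Cfg dh) (x : F) : F :=
  (-Complex.I) • (∑ j : Fin 8, ∑ B, S.vec (S.g j.castSucc) (φ (Sum.inr B)) β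
      (if k = (j, B) then x else 0)) +
    Complex.I • (∑ B, S.vec (S.g 8) (φ (Sum.inr B)) β
      (∑ C, (((S.Dy φ 8 y)⁻¹ B C : ℝ) : ℂ) • ∑ j : Fin 8, ∑ E, ((S.Dy φ j.castSucc y C E : ℝ) : ℂ) •
        (if k = (j, E) then x else 0)))

lemma Q1_mw (hA : CalcA dh dm F) (k : Fin 8 × Fin dm) (β : Fin 16) (v : Cfg dh → Wsp dm → F)
    (hv : Tst2 v) (y : Cfg dh) (w : Wsp dm) :
    S.Q1 φ β (mw k v) y w = ((w k : ℝ) : ℂ) • S.Q1 φ β v y w + Zk S φ k β y (v y w) := by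
  have e0 : mw k v y w = ((w k : ℝ) : ℂ) • v y w := rfl
  unfold Setup.Q1 Zk
  simp only [hA.pw_mw _ _ k v hv y w]
  rw [e0]
  have h1 : (∑ j : Fin 8, ∑ B, S.vec (S.g j.castSucc) (φ (Sum.inr B)) β
      (((w k : ℝ) : ℂ) • pw j B v y w + if k = (j, B) then v y w else 0)) =
      ((w k : ℝ) : ℂ) • (∑ j : Fin 8, ∑ B, S.vec (S.g j.castSucc) (φ (Sum.inr B)) β (pw j B v y w)) +
      ∑ j : Fin 8, ∑ B, S.vec (S.g j.castSucc) (φ (Sum.inr B)) β (if k = (j, B) then v y w else 0) := by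
    simp only [map_add, map_smul, Finset.sum_add_distrib, Finset.smul_sum]
  have h2 : (∑ B, S.vec (S.g 8) (φ (Sum.inr B)) β
      (∑ C, (((S.Dy φ 8 y)⁻¹ B C : ℝ) : ℂ) • ∑ j : Fin 8, ∑ E, ((S.Dy φ j.castSucc y C E : ℝ) : ℂ) •
        (((w k : ℝ) : ℂ) • pw j E v y w + if k = (j, E) then v y w else 0))) =
      ((w k : ℝ) : ℂ) • (∑ B, S.vec (S.g 8) (φ (Sum.inr B)) β
      (∑ C, (((S.Dy φ 8 y)⁻¹ B C : ℝ) : ℂ) • ∑ j : Fin 8, ∑ E, ((S.Dy φ j.castSucc y C E : ℝ) : ℂ) •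
        pw j E v y w)) +
      ∑ B, S.vec (S.g 8) (φ (Sum.inr B)) β
      (∑ C, (((S.Dy φ 8 y)⁻¹ B C : ℝ) : ℂ) • ∑ j : Fin 8, ∑ E, ((S.Dy φ j.castSucc y C E : ℝ) : ℂ) •
        if k = (j, E) then v y w else 0) := by
    rw [Finset.smul_sum, ← Finset.sum_add_distrib]
    refine Finset.sum_congr rfl fun B _ => ?_
    rw [← map_smul, ← map_add]
    congr 1
    rw [Finset.smul_sum, ← Finset.sum_add_distrib]
    refine Finset.sum_congr rfl fun C _ => ?_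
    rw [smul_comm, ← smul_add]
    congr 1
    rw [Finset.smul_sum, ← Finset.sum_add_distrib]
    refine Finset.sum_congr rfl fun j _ => ?_
    rw [Finset.smul_sum, ← Finset.sum_add_distrib]
    refine Finset.sum_congr rfl fun E _ => ?_
    rw [smul_comm, ← smul_add]
  have h3 : (∑ B, ∑ i, ∑ j, ((S.FL φ B i j y w : ℝ) : ℂ) •
      S.vec (S.g2 i j) (φ (Sum.inr B)) β (((w k : ℝ) : ℂ) • v y w)) =
      ((w k : ℝ) : ℂ) • ∑ B, ∑ i, ∑ j, ((S.FL φ B i j y w : ℝ) : ℂ) •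
      S.vec (S.g2 i j) (φ (Sum.inr B)) β (v y w) := by
    simp only [Finset.smul_sum]
    refine Finset.sum_congr rfl fun B _ => Finset.sum_congr rfl fun i _ =>
      Finset.sum_congr rfl fun j _ => ?_
    rw [map_smul, smul_comm]
  rw [h1, h2, h3]
  module

/-- constant for the zero order term -/
noncomputable def CZ (C0 : ℝ) (β : Fin 16) : ℝ :=
  (∑ j : Fin 8, ∑ B, ‖S.vec (S.g j.castSucc) (φ (Sum.inr B)) β‖) +
    (∑ B, ‖S.vec (S.g 8) (φ (Sum.inr B)) β‖) * ∑ _C : Fin dm, ∑ _j : Fin 8, ∑ _E : Fin dm, C0 ^ 2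

lemma CZ_nonneg (C0 : ℝ) (β : Fin 16) : 0 ≤ CZ S φ C0 β := by
  unfold CZ
  positivity

omit [InnerProductSpace ℂ F] in
lemma ite_norm {p : Prop} [Decidable p] (x : F) : ‖if p then x else 0‖ ≤ ‖x‖ := by
  split_ifs
  · exact le_rfl
  · simp

lemma Zk_bd {C0 R : ℝ} (hC0 : 0 ≤ C0) (hR : 0 < R) {y : Cfg dh}
    (hD : ∀ i B E, |S.Dy φ i y B E| ≤ C0 * R) (hI : ∀ B E, |(S.Dy φ 8 y)⁻¹ B E| ≤ C0 / R)
    (k : Fin 8 × Fin dm) (β : Fin 16) (x : F) : ‖Zk S φ k β y x‖ ≤ CZ S φ C0 β * ‖x‖ := by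
  unfold Zk CZ
  refine (norm_add_le _ _).trans ?_
  rw [norm_smul, norm_smul, norm_neg, Complex.norm_I, one_mul, one_mul, add_mul]
  refine add_le_add ?_ ?_
  · rw [Finset.sum_mul]
    refine norm_sum_le_of_le _ fun j _ => ?_
    rw [Finset.sum_mul]
    refine norm_sum_le_of_le _ fun B _ => ?_
    exact (ContinuousLinearMap.le_opNorm _ _).trans
      (mul_le_mul_of_nonneg_left (ite_norm x) (norm_nonneg _))
  · rw [mul_assoc, Finset.sum_mul]
    refine norm_sum_le_of_le _ fun B _ => ?_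
    refine (ContinuousLinearMap.le_opNorm _ _).trans
      (mul_le_mul_of_nonneg_left ?_ (norm_nonneg _))
    rw [Finset.sum_mul]
    refine norm_sum_le_of_le _ fun C _ => ?_
    rw [norm_smul, Complex.norm_real, Real.norm_eq_abs]
    have h1 : ‖∑ j : Fin 8, ∑ E, ((S.Dy φ j.castSucc y C E : ℝ) : ℂ) • (if k = (j, E) then x else 0)‖ ≤
        ∑ j : Fin 8, ∑ E : Fin dm, C0 * R * ‖x‖ := by
      refine norm_sum_le_of_le _ fun j _ => ?_
      refine norm_sum_le_of_le _ fun E _ => ?_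
      rw [norm_smul, Complex.norm_real, Real.norm_eq_abs]
      exact mul_le_mul (hD _ _ _) (ite_norm x) (norm_nonneg _) (by positivity)
    refine (mul_le_mul (hI B C) h1 (norm_nonneg _) (by positivity)).trans ?_
    rw [Finset.sum_mul, Finset.mul_sum]
    refine Finset.sum_le_sum fun j _ => ?_
    rw [Finset.sum_mul, Finset.mul_sum]
    refine Finset.sum_le_sum fun E _ => le_of_eq ?_
    field_simp

/-! ### energies of `w_k v` -/

lemma sq_add_le {a b c p q : ℝ} (h : a ≤ b + c) (ha : 0 ≤ a) (hb : b ^ 2 ≤ p) (hc : c ^ 2 ≤ q) :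
    a ^ 2 ≤ 2 * p + 2 * q := by
  have h1 : a ^ 2 ≤ (b + c) ^ 2 := pow_le_pow_left₀ ha h 2
  nlinarith [sq_nonneg (b - c)]

lemma E1_mw (hA : CalcA dh dm F) (hB : CalcB dh dm F) {N : Fin 9 → Matrix (Fin 16) (Fin 16) ℂ}
    {Y : Cfg dh} {ε0 C0 : ℝ} (hO : OpFacts S φ N Y ε0) (hC0 : 0 ≤ C0) (hbd : S.CoefBd φ Y ε0 C0)
    {ε R : ℝ} (hε' : ε ≤ ε0) (hR : 0 < R) (v : Cfg dh → Wsp dm → F) (hv : Tst2 v)
    (hs : Sup2 Y ε R v) (k : Fin 8 × Fin dm) :
    S.E1 φ (mw k v) ≤ 2 * (ε * R) ^ 2 * S.E1 φ v + 2 * (∑ β, CZ S φ C0 β ^ 2) * ns2 v := by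
  have hs0 : Sup2 Y ε0 R v := sup_mono hs hR hε'
  have hk := t_mw hA k v hv
  unfold Setup.E1
  rw [Finset.mul_sum, mul_assoc 2, Finset.sum_mul, Finset.mul_sum, ← Finset.sum_add_distrib]
  refine Finset.sum_le_sum fun β _ => ?_
  have h := hB.le_sum (Fin 2) (fun l => if l = 0 then 2 * (ε * R) ^ 2 else 2 * CZ S φ C0 β ^ 2)
    (S.Q1 φ β (mw k v)) (fun l => if l = 0 then S.Q1 φ β v else v)
    (hO.t1 R hR _ hk (sup_mw k hs0) β) (by
      intro l
      by_cases hl : l = 0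
      · simp only [hl, if_true]
        exact hO.t1 R hR v hv hs0 β
      · simp only [hl, if_false]
        exact hv) (by
      intro y w
      simp only [Fin.sum_univ_two, if_true, one_ne_zero, if_false]
      by_cases hin : ‖y - R • Y‖ ≤ ε * R ∧ ‖w‖ ≤ ε * R
      swap
      · have h0 : S.Q1 φ β (mw k v) y w = 0 := by
          by_contra hne
          exact hin (hO.su1 ε R _ hk (sup_mw k hs) β y w hne)
        rw [h0, norm_zero, zero_pow two_ne_zero]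
        positivity
      · have hy : ‖y - R • Y‖ ≤ ε0 * R := hin.1.trans (mul_le_mul_of_nonneg_right hε' hR.le)
        have hz := Zk_bd S φ hC0 hR (hbd.dy R hR y hy) (hbd.inv R hR y hy) k β (v y w)
        rw [Q1_mw S φ hA k β v hv y w]
        have h1 := norm_add_le (((w k : ℝ) : ℂ) • S.Q1 φ β v y w) (Zk S φ k β y (v y w))
        have h2 : (‖((w k : ℝ) : ℂ) • S.Q1 φ β v y w‖) ^ 2 ≤ (ε * R) ^ 2 * ‖S.Q1 φ β v y w‖ ^ 2 := by
          rw [norm_smul, Complex.norm_real, Real.norm_eq_abs, mul_pow]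
          refine mul_le_mul_of_nonneg_right ?_ (by positivity)
          exact pow_le_pow_left₀ (abs_nonneg _) ((w_le w k).trans hin.2) 2
        have h3 : ‖Zk S φ k β y (v y w)‖ ^ 2 ≤ CZ S φ C0 β ^ 2 * ‖v y w‖ ^ 2 := by
          rw [← mul_pow]
          exact pow_le_pow_left₀ (norm_nonneg _) hz 2
        have h4 := sq_add_le h1 (norm_nonneg _) h2 h3
        linarith)
  simp only [Fin.sum_univ_two, if_true, one_ne_zero, if_false] at h
  linarith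

lemma Qhm_mw (hA : CalcA dh dm F) (N : Fin 9 → Matrix (Fin 16) (Fin 16) ℂ) (m : ℝ)
    (k : Fin 8 × Fin dm) (β : Fin 16) (v : Cfg dh → Wsp dm → F)
    (hv : Tst2 v) (y : Cfg dh) (w : Wsp dm) :
    S.Qhm φ N m β (mw k v) y w = ((w k : ℝ) : ℂ) • S.Qhm φ N m β v y w := by
  have e0 : mw k v y w = ((w k : ℝ) : ℂ) • v y w := rfl
  rw [Qhm_exp, Qhm_exp, e0]
  simp only [hA.py_mw _ _ k v hv y w, map_smul, smul_add, Finset.smul_sum]
  congr 1
  · congr 1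
    · refine Finset.sum_congr rfl fun i _ => Finset.sum_congr rfl fun A _ => ?_
      rw [smul_comm]
    · refine Finset.sum_congr rfl fun A _ => Finset.sum_congr rfl fun i _ =>
        Finset.sum_congr rfl fun j _ => ?_
      rw [smul_comm]
  · refine Finset.sum_congr rfl fun i _ => Finset.sum_congr rfl fun A _ => ?_
    rw [smul_comm]

lemma EH_mw (hA : CalcA dh dm F) (hB : CalcB dh dm F) {N : Fin 9 → Matrix (Fin 16) (Fin 16) ℂ}
    {Y : Cfg dh} {ε0 : ℝ} (hO : OpFacts S φ N Y ε0) {ε R : ℝ}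
    (m : ℝ) (v : Cfg dh → Wsp dm → F) (hv : Tst2 v)
    (hs : Sup2 Y ε R v) (k : Fin 8 × Fin dm) :
    S.EH φ N m (mw k v) ≤ (ε * R) ^ 2 * S.EH φ N m v := by
  unfold Setup.EH
  rw [Finset.mul_sum]
  refine Finset.sum_le_sum fun β _ => ?_
  refine hB.mono _ _ _ (hO.th _ (t_mw hA k v hv) m β) (hO.th v hv m β) fun y w => ?_
  rw [Qhm_mw S φ hA N m k β v hv y w, norm_smul, Complex.norm_real, Real.norm_eq_abs, mul_pow]
  by_cases h0 : S.Qhm φ N m β v y w = 0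
  · rw [h0, norm_zero]
    simp
  · have h1 := (hO.suh ε R v hv hs m β y w h0).2
    refine mul_le_mul_of_nonneg_right ?_ (by positivity)
    exact pow_le_pow_left₀ (abs_nonneg _) ((w_le w k).trans h1) 2

lemma py_mw_fun (hA : CalcA dh dm F) (k : Fin 8 × Fin dm) (v : Cfg dh → Wsp dm → F) (hv : Tst2 v)
    (i : Fin 9) (A : Fin dh) : mw k (py i A v) = py i A (mw k v) := by
  funext y w
  rw [hA.py_mw i A k v hv y w]
  rfl

lemma pw_mw_le (hA : CalcA dh dm F) (hB : CalcB dh dm F) (k : Fin 8 × Fin dm)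
    (v : Cfg dh → Wsp dm → F) (hv : Tst2 v) (j : Fin 8) (B : Fin dm) :
    ns2 (mw k (pw j B v)) ≤ 2 * ns2 (pw j B (mw k v)) + 2 * ns2 v := by
  have h := hB.le_sum (Fin 2) (fun _ => 2)
    (mw k (pw j B v)) (fun l => if l = 0 then pw j B (mw k v) else v)
    (t_mw hA k _ (hA.pw j B v hv)) (by
      intro l
      by_cases hl : l = 0
      · simp only [hl, if_true]
        exact hA.pw j B _ (t_mw hA k v hv)
      · simp only [hl, if_false]
        exact hv) (by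
      intro y w
      simp only [Fin.sum_univ_two, if_true, one_ne_zero, if_false]
      have e1 : mw k (pw j B v) y w = pw j B (mw k v) y w + -(if k = (j, B) then v y w else 0) := by
        rw [hA.pw_mw j B k v hv y w]
        simp only [mw, mul2]
        abel
      rw [e1]
      have h1 := norm_add_le (pw j B (mw k v) y w) (-(if k = (j, B) then v y w else 0))
      have h2 : ‖-(if k = (j, B) then v y w else 0)‖ ^ 2 ≤ ‖v y w‖ ^ 2 := by
        rw [norm_neg]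
        exact pow_le_pow_left₀ (norm_nonneg _) (ite_norm _) 2
      have h4 := sq_add_le h1 (norm_nonneg _) le_rfl h2
      linarith)
  simp only [Fin.sum_univ_two, if_true, one_ne_zero, if_false] at h
  linarith

/-! ### the pointwise bound -/

/-- constant for the mass term -/
noncomputable def CM (N : Fin 9 → Matrix (Fin 16) (Fin 16) ℂ) (β : Fin 16) : ℝ :=
  ∑ i, ∑ B, ‖S.vec (N i) (φ (Sum.inr B)) β‖

lemma Mw_bd (N : Fin 9 → Matrix (Fin 16) (Fin 16) ℂ) (β : Fin 16) (w : Wsp dm) (x : F) :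
    ‖S.Mw φ N β w x‖ ≤ CM S φ N β * ‖w‖ * ‖x‖ := by
  unfold Setup.Mw CM
  simp only [_root_.sum_apply, _root_.smul_apply]
  rw [Finset.sum_mul, Finset.sum_mul]
  refine norm_sum_le_of_le _ fun i _ => ?_
  rw [Finset.sum_mul, Finset.sum_mul]
  refine norm_sum_le_of_le _ fun B _ => ?_
  rw [norm_smul, Complex.norm_real, Real.norm_eq_abs]
  have h1 := (S.vec (N i) (φ (Sum.inr B)) β).le_opNorm x
  calc |wt w i B| * ‖S.vec (N i) (φ (Sum.inr B)) β x‖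
      ≤ ‖w‖ * (‖S.vec (N i) (φ (Sum.inr B)) β‖ * ‖x‖) :=
        mul_le_mul (wt_le w i B) h1 (norm_nonneg _) (norm_nonneg _)
    _ = ‖S.vec (N i) (φ (Sum.inr B)) β‖ * ‖w‖ * ‖x‖ := by ring

lemma five {u x1 x2 x3 x4 x5 : ℝ} (hu : 0 ≤ u) (h : u ≤ x1 + x2 + x3 + x4 + x5) :
    u ^ 2 ≤ 5 * (x1 ^ 2 + x2 ^ 2 + x3 ^ 2 + x4 ^ 2 + x5 ^ 2) := by
  have h1 : u ^ 2 ≤ (x1 + x2 + x3 + x4 + x5) ^ 2 := pow_le_pow_left₀ hu h 2
  nlinarith [sq_nonneg (x1 - x2), sq_nonneg (x1 - x3), sq_nonneg (x1 - x4), sq_nonneg (x1 - x5),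
    sq_nonneg (x2 - x3), sq_nonneg (x2 - x4), sq_nonneg (x2 - x5), sq_nonneg (x3 - x4),
    sq_nonneg (x3 - x5), sq_nonneg (x4 - x5)]

lemma dsum_sq {a b : ℕ} (f : Fin a → Fin b → ℝ) :
    (∑ i, ∑ A, f i A) ^ 2 ≤ (a * b : ℝ) * ∑ i, ∑ A, f i A ^ 2 := by
  have h := sq_sum_le_card_mul_sum_sq (s := (Finset.univ : Finset (Fin a × Fin b)))
    (f := fun p => f p.1 p.2)
  rw [Finset.card_univ, Fintype.card_prod, Fintype.card_fin, Fintype.card_fin,
    Fintype.sum_prod_type, Fintype.sum_prod_type] at h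
  push_cast at h
  exact h

/-- five families in `le_sum` -/
lemma le_sum5 (hB : CalcB dh dm F) {ι1 ι2 ι3 ι4 ι5 : Type} [Fintype ι1] [Fintype ι2] [Fintype ι3]
    [Fintype ι4] [Fintype ι5] (a1 a2 a3 a4 a5 : ℝ) (u : Cfg dh → Wsp dm → F)
    (v1 : ι1 → Cfg dh → Wsp dm → F) (v2 : ι2 → Cfg dh → Wsp dm → F) (v3 : ι3 → Cfg dh → Wsp dm → F)
    (v4 : ι4 → Cfg dh → Wsp dm → F) (v5 : ι5 → Cfg dh → Wsp dm → F) (hu : Tst2 u)
    (h1 : ∀ l, Tst2 (v1 l)) (h2 : ∀ l, Tst2 (v2 l)) (h3 : ∀ l, Tst2 (v3 l))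
    (h4 : ∀ l, Tst2 (v4 l)) (h5 : ∀ l, Tst2 (v5 l))
    (h : ∀ y w, ‖u y w‖ ^ 2 ≤ a1 * ∑ l, ‖v1 l y w‖ ^ 2 + a2 * ∑ l, ‖v2 l y w‖ ^ 2 +
      a3 * ∑ l, ‖v3 l y w‖ ^ 2 + a4 * ∑ l, ‖v4 l y w‖ ^ 2 + a5 * ∑ l, ‖v5 l y w‖ ^ 2) :
    ns2 u ≤ a1 * ∑ l, ns2 (v1 l) + a2 * ∑ l, ns2 (v2 l) +
      a3 * ∑ l, ns2 (v3 l) + a4 * ∑ l, ns2 (v4 l) + a5 * ∑ l, ns2 (v5 l) := by
  have key := hB.le_sum (ι1 ⊕ ι2 ⊕ ι3 ⊕ ι4 ⊕ ι5)
    (Sum.elim (fun _ => a1) (Sum.elim (fun _ => a2) (Sum.elim (fun _ => a3)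
      (Sum.elim (fun _ => a4) (fun _ => a5))))) u
    (Sum.elim v1 (Sum.elim v2 (Sum.elim v3 (Sum.elim v4 v5)))) hu (by
      rintro (l | l | l | l | l)
      · exact h1 l
      · exact h2 l
      · exact h3 l
      · exact h4 l
      · exact h5 l) (by
      intro y w
      have := h y w
      simp only [Fintype.sum_sum_type, Sum.elim_inl, Sum.elim_inr, ← Finset.mul_sum]
      linarith)
  simp only [Fintype.sum_sum_type, Sum.elim_inl, Sum.elim_inr, ← Finset.mul_sum] at key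
  linarith

lemma w_dsum {a b : ℕ} (w : Wsp dm) (f : Fin a → Fin b → ℝ) :
    (‖w‖ * ∑ i, ∑ A, f i A) ^ 2 ≤
      (a * b : ℝ) * ∑ l : (Fin 8 × Fin dm) × (Fin a × Fin b), w l.1 ^ 2 * f l.2.1 l.2.2 ^ 2 := by
  have h1 : ∑ l : (Fin 8 × Fin dm) × (Fin a × Fin b), w l.1 ^ 2 * f l.2.1 l.2.2 ^ 2 =
      ‖w‖ ^ 2 * ∑ i, ∑ A, f i A ^ 2 := by
    rw [w_sq, Fintype.sum_prod_type, Finset.sum_mul]
    refine Finset.sum_congr rfl fun k _ => ?_
    change ∑ q : Fin a × Fin b, w k ^ 2 * f q.1 q.2 ^ 2 = _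
    rw [← Finset.mul_sum, Fintype.sum_prod_type]
  rw [h1, mul_pow]
  have h2 := mul_le_mul_of_nonneg_left (dsum_sq f) (sq_nonneg ‖w‖)
  linarith

/-- the square of the remainder, integrated -/
lemma u_le (hA : CalcA dh dm F) (hB : CalcB dh dm F) {N : Fin 9 → Matrix (Fin 16) (Fin 16) ℂ}
    {Y : Cfg dh} {ε0 C0 : ℝ} (hO : OpFacts S φ N Y ε0) (hbd : S.CoefBd φ Y ε0 C0)
    {R m : ℝ} (hR : 0 < R) (hm : 0 ≤ m) (v : Cfg dh → Wsp dm → F) (hv : Tst2 v)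
    (hs : Sup2 Y ε0 R v) (β : Fin 16) :
    ns2 (fun y w => S.Qr φ β v y w + (m : ℂ) • S.Mw φ N β w (v y w)) ≤
      5 * (C0 / R) ^ 2 * (9 * dh) *
        ∑ l : (Fin 8 × Fin dm) × (Fin 9 × Fin dh), ns2 (mw l.1 (py l.2.1 l.2.2 v)) +
      5 * (C0 / R) ^ 2 * (8 * dm) *
        ∑ l : (Fin 8 × Fin dm) × (Fin 8 × Fin dm), ns2 (mw l.1 (pw l.2.1 l.2.2 v)) +
      5 * (C0 / R) ^ 2 * ns2 v +
      5 * C0 ^ 2 * ∑ l : (Fin 8 × Fin dm) × (Fin 8 × Fin dm), ns2 (mw l.1 (mw l.2 v)) +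
      5 * m ^ 2 * CM S φ N β ^ 2 * ∑ k : Fin 8 × Fin dm, ns2 (mw k v) := by
  have key := le_sum5 hB (ι1 := (Fin 8 × Fin dm) × (Fin 9 × Fin dh))
    (ι2 := (Fin 8 × Fin dm) × (Fin 8 × Fin dm)) (ι3 := Unit)
    (ι4 := (Fin 8 × Fin dm) × (Fin 8 × Fin dm)) (ι5 := Fin 8 × Fin dm)
    (5 * (C0 / R) ^ 2 * (9 * dh)) (5 * (C0 / R) ^ 2 * (8 * dm)) (5 * (C0 / R) ^ 2) (5 * C0 ^ 2)
    (5 * m ^ 2 * CM S φ N β ^ 2)
    (fun y w => S.Qr φ β v y w + (m : ℂ) • S.Mw φ N β w (v y w))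
    (fun l => mw l.1 (py l.2.1 l.2.2 v)) (fun l => mw l.1 (pw l.2.1 l.2.2 v)) (fun _ => v)
    (fun l => mw l.1 (mw l.2 v)) (fun k => mw k v)
    (hA.add _ _ (hO.tr R hR v hv hs β) (hA.smul _ _ (hO.tm v hv β)))
    (fun l => t_mw hA _ _ (hA.py _ _ v hv)) (fun l => t_mw hA _ _ (hA.pw _ _ v hv)) (fun _ => hv)
    (fun l => t_mw hA _ _ (t_mw hA _ _ hv)) (fun k => t_mw hA _ _ hv) (by
      intro y w
      simp only [mw_norm, Finset.univ_unique, Finset.sum_const, Finset.card_singleton, one_smul]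
      by_cases hin : ‖y - R • Y‖ ≤ ε0 * R ∧ ‖w‖ ≤ ε0 * R
      swap
      · obtain ⟨h0, h1, h2⟩ := van hA hv hs hin
        have hz : S.Qr φ β v y w = 0 := by
          unfold Setup.Qr
          simp [h0, h1, h2]
        rw [hz, h0]
        simp only [map_zero, smul_zero, add_zero, norm_zero]
        rw [zero_pow two_ne_zero]
        positivity
      · have e1 := hbd.rem R hR y hin.1 w hin.2 v β
        have e2 := Mw_bd S φ N β w (v y w)
        have e3 : ‖S.Qr φ β v y w + (m : ℂ) • S.Mw φ N β w (v y w)‖ ≤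
            C0 / R * (‖w‖ * ∑ i, ∑ A, ‖py i A v y w‖) + C0 / R * (‖w‖ * ∑ j, ∑ B, ‖pw j B v y w‖) +
            C0 / R * ‖v y w‖ + C0 * (‖w‖ ^ 2 * ‖v y w‖) + m * (CM S φ N β * ‖w‖ * ‖v y w‖) := by
          refine (norm_add_le _ _).trans ?_
          rw [norm_smul, Complex.norm_real, Real.norm_eq_abs, abs_of_nonneg hm]
          have e4 := mul_le_mul_of_nonneg_left e2 hm
          refine (add_le_add e1 e4).trans (le_of_eq ?_)
          ring
        refine (five (norm_nonneg _) e3).trans ?_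
        have g1 := w_dsum w (fun i A => ‖py i A v y w‖)
        have g2 := w_dsum w (fun j B => ‖pw j B v y w‖)
        have g4 : (‖w‖ ^ 2 * ‖v y w‖) ^ 2 =
            ∑ l : (Fin 8 × Fin dm) × (Fin 8 × Fin dm), w l.1 ^ 2 * (w l.2 ^ 2 * ‖v y w‖ ^ 2) := by
          rw [Fintype.sum_prod_type]
          simp only [← Finset.mul_sum, ← Finset.sum_mul, ← w_sq]
          ring
        have g5 : (‖w‖ * ‖v y w‖) ^ 2 = ∑ k, w k ^ 2 * ‖v y w‖ ^ 2 := by
          rw [mul_pow, w_sq, Finset.sum_mul]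
        have f1 : (C0 / R * (‖w‖ * ∑ i, ∑ A, ‖py i A v y w‖)) ^ 2 ≤ (C0 / R) ^ 2 * (((9 : ℕ) * dh : ℝ) *
            ∑ l : (Fin 8 × Fin dm) × (Fin 9 × Fin dh), w l.1 ^ 2 * ‖py l.2.1 l.2.2 v y w‖ ^ 2) := by
          rw [mul_pow]
          exact mul_le_mul_of_nonneg_left g1 (sq_nonneg _)
        have f2 : (C0 / R * (‖w‖ * ∑ j, ∑ B, ‖pw j B v y w‖)) ^ 2 ≤ (C0 / R) ^ 2 * (((8 : ℕ) * dm : ℝ) *
            ∑ l : (Fin 8 × Fin dm) × (Fin 8 × Fin dm), w l.1 ^ 2 * ‖pw l.2.1 l.2.2 v y w‖ ^ 2) := by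
          rw [mul_pow]
          exact mul_le_mul_of_nonneg_left g2 (sq_nonneg _)
        have f3 : (C0 / R * ‖v y w‖) ^ 2 = (C0 / R) ^ 2 * ‖v y w‖ ^ 2 := by rw [mul_pow]
        have f4 : (C0 * (‖w‖ ^ 2 * ‖v y w‖)) ^ 2 = C0 ^ 2 *
            ∑ l : (Fin 8 × Fin dm) × (Fin 8 × Fin dm), w l.1 ^ 2 * (w l.2 ^ 2 * ‖v y w‖ ^ 2) := by
          rw [mul_pow, g4]
        have f5 : (m * (CM S φ N β * ‖w‖ * ‖v y w‖)) ^ 2 = m ^ 2 * CM S φ N β ^ 2 *
            ∑ k, w k ^ 2 * ‖v y w‖ ^ 2 := by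
          rw [← g5]
          ring
        rw [f3, f4, f5]
        push_cast at f1 f2
        linarith)
  simp only [Finset.univ_unique, Finset.sum_const, Finset.card_singleton, one_smul] at key
  exact key

/-! ### real arithmetic -/

lemma fin_real {H K n W T1 T2 T3 T4 ε R m CE C1 CL CZ p : ℝ} (hH : 0 ≤ H) (hK : 0 ≤ K) (hn : 0 ≤ n)
    (hT3 : 0 ≤ T3) (hT4 : 0 ≤ T4) (hR : 1 ≤ R) (hm : 0 ≤ m) (hm1 : m ≤ 1)
    (hCE : 0 ≤ CE) (hC1 : 0 ≤ C1) (hCL : 0 ≤ CL) (hCZ : 0 ≤ CZ) (hp : 0 ≤ p)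
    (hW : R ^ 2 * W ≤ C1 * (K + R * n))
    (h1 : T1 ≤ CE * (p * (ε * R) ^ 2 * H + (1 + CL) * R * W))
    (h2 : T3 + R ^ 2 * T4 ≤ C1 * (2 * p * (ε * R) ^ 2 * K + 2 * p * CZ * n + R * W))
    (h3 : T2 ≤ 2 * T3 + 2 * p ^ 2 * n) :
    T1 / R ^ 2 ≤ (CE * p + CE * (1 + CL) * C1) * ((ε ^ 2 + 1 / R ^ 2) * (H + K) + n / R ^ 2) ∧
    T2 / R ^ 2 ≤ (2 * (C1 * (2 * p + 2 * p * CZ + C1)) + 2 * p ^ 2) *
      ((ε ^ 2 + 1 / R ^ 2) * (H + K) + n / R ^ 2) ∧
    n / R ^ 2 ≤ (ε ^ 2 + 1 / R ^ 2) * (H + K) + n / R ^ 2 ∧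
    T4 ≤ (C1 * (2 * p + 2 * p * CZ + C1)) * ((ε ^ 2 + 1 / R ^ 2) * (H + K) + n / R ^ 2) ∧
    m ^ 2 * W ≤ C1 * (K / R ^ 2 + m ^ 2 * n / R) := by
  have hR0 : 0 < R := by linarith
  obtain ⟨t, rfl⟩ : ∃ t : ℝ, R = t⁻¹ := ⟨R⁻¹, by rw [inv_inv]⟩
  have ht : 0 < t := by simpa using hR0
  have ht1 : t ≤ 1 := by
    rw [← inv_inv t]
    exact inv_le_one_of_one_le₀ hR
  have i1 : ∀ x : ℝ, x / (t⁻¹) ^ 2 = x * t ^ 2 := fun x => by field_simp
  have i2 : ∀ x : ℝ, x / t⁻¹ = x * t := fun x => by field_simp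
  simp only [i1, i2]
  have hWb : W ≤ C1 * (K * t ^ 2 + n * t) := by
    have := mul_le_mul_of_nonneg_left hW (sq_nonneg t)
    have e1 : t ^ 2 * (t⁻¹ ^ 2 * W) = W := by field_simp
    have e2 : t ^ 2 * (C1 * (K + t⁻¹ * n)) = C1 * (K * t ^ 2 + n * t) := by field_simp
    linarith
  set Q := (ε ^ 2 + 1 * t ^ 2) * (H + K) + n * t ^ 2 with hQ
  have q1 : ε ^ 2 * H ≤ Q := by
    have : 0 ≤ ε ^ 2 * K + t ^ 2 * (H + K) + n * t ^ 2 := by positivity
    rw [hQ]; linarith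
  have q2 : K * t ^ 2 + n * t ^ 2 ≤ Q := by
    have : 0 ≤ ε ^ 2 * (H + K) + t ^ 2 * H := by positivity
    rw [hQ]; linarith
  have q3 : ε ^ 2 * K ≤ Q := by
    have : 0 ≤ ε ^ 2 * H + t ^ 2 * (H + K) + n * t ^ 2 := by positivity
    rw [hQ]; linarith
  have q4 : n * t ^ 2 ≤ Q := by
    have : 0 ≤ (ε ^ 2 + t ^ 2) * (H + K) := by positivity
    rw [hQ]; linarith
  have tW : t * W ≤ C1 * Q := by
    have a1 := mul_le_mul_of_nonneg_left hWb ht.le
    have a2 : K * t ^ 3 ≤ K * t ^ 2 :=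
      mul_le_mul_of_nonneg_left (pow_le_pow_of_le_one ht.le ht1 (by norm_num)) hK
    have a3 : t * (C1 * (K * t ^ 2 + n * t)) = C1 * (K * t ^ 3 + n * t ^ 2) := by ring
    have a4 := mul_le_mul_of_nonneg_left (show K * t ^ 3 + n * t ^ 2 ≤ Q by linarith) hC1
    linarith
  have c1 : T1 * t ^ 2 ≤ (CE * p + CE * (1 + CL) * C1) * Q := by
    have a1 := mul_le_mul_of_nonneg_right h1 (sq_nonneg t)
    have a2 : CE * (p * (ε * t⁻¹) ^ 2 * H + (1 + CL) * t⁻¹ * W) * t ^ 2 =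
        CE * p * (ε ^ 2 * H) + CE * (1 + CL) * (t * W) := by field_simp
    have a3 := mul_le_mul_of_nonneg_left q1 (mul_nonneg hCE hp)
    have a4 := mul_le_mul_of_nonneg_left tW (show 0 ≤ CE * (1 + CL) by positivity)
    linarith
  have c34 : T3 * t ^ 2 + T4 ≤ (C1 * (2 * p + 2 * p * CZ + C1)) * Q := by
    have a1 := mul_le_mul_of_nonneg_right h2 (sq_nonneg t)
    have a2 : (T3 + t⁻¹ ^ 2 * T4) * t ^ 2 = T3 * t ^ 2 + T4 := by field_simp
    have a3 : C1 * (2 * p * (ε * t⁻¹) ^ 2 * K + 2 * p * CZ * n + t⁻¹ * W) * t ^ 2 =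
        C1 * (2 * p) * (ε ^ 2 * K) + C1 * (2 * p * CZ) * (n * t ^ 2) + C1 * (t * W) := by field_simp
    have a4 := mul_le_mul_of_nonneg_left q3 (show 0 ≤ C1 * (2 * p) by positivity)
    have a5 := mul_le_mul_of_nonneg_left q4 (show 0 ≤ C1 * (2 * p * CZ) by positivity)
    have a6 := mul_le_mul_of_nonneg_left tW hC1
    linarith
  have p3 : 0 ≤ T3 * t ^ 2 := by positivity
  refine ⟨c1, ?_, q4, by linarith, ?_⟩
  · have a1 := mul_le_mul_of_nonneg_right h3 (sq_nonneg t)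
    have a2 := mul_le_mul_of_nonneg_left q4 (show 0 ≤ 2 * p ^ 2 by positivity)
    linarith
  · have a1 := mul_le_mul_of_nonneg_left hWb (sq_nonneg m)
    have a3 : m ^ 2 * (K * t ^ 2) ≤ K * t ^ 2 :=
      mul_le_of_le_one_left (by positivity) (pow_le_one₀ hm hm1)
    have a4 := mul_le_mul_of_nonneg_left a3 hC1
    have a5 : m ^ 2 * (C1 * (K * t ^ 2 + n * t)) =
      C1 * (m ^ 2 * (K * t ^ 2)) + C1 * (m ^ 2 * n * t) := by ring
    rw [a5] at a1
    rw [mul_add]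
    exact a1.trans (add_le_add a4 le_rfl)

/-- final summation, real numbers only -/
lemma fin_sum {H K n W T1 T2 T4 ε R m C0 C1 B1 B2 B4 a b : ℝ} (x : Fin 16 → ℝ) (c : Fin 16 → ℝ)
    (hH : 0 ≤ H) (hK : 0 ≤ K) (hn : 0 ≤ n) (hR : 0 < R) (hC1 : 0 ≤ C1)
    (ha : 0 ≤ a) (hb : 0 ≤ b) (hB1 : 0 ≤ B1) (hB2 : 0 ≤ B2) (hB4 : 0 ≤ B4)
    (hx : ∀ β, x β ≤ 5 * (C0 / R) ^ 2 * a * T1 + 5 * (C0 / R) ^ 2 * b * T2 + 5 * (C0 / R) ^ 2 * n +
      5 * C0 ^ 2 * T4 + 5 * m ^ 2 * c β ^ 2 * W)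
    (c1 : T1 / R ^ 2 ≤ B1 * ((ε ^ 2 + 1 / R ^ 2) * (H + K) + n / R ^ 2))
    (c2 : T2 / R ^ 2 ≤ B2 * ((ε ^ 2 + 1 / R ^ 2) * (H + K) + n / R ^ 2))
    (c3 : n / R ^ 2 ≤ (ε ^ 2 + 1 / R ^ 2) * (H + K) + n / R ^ 2)
    (c4 : T4 ≤ B4 * ((ε ^ 2 + 1 / R ^ 2) * (H + K) + n / R ^ 2))
    (c5 : m ^ 2 * W ≤ C1 * (K / R ^ 2 + m ^ 2 * n / R)) :
    ∑ β, x β ≤ (16 * (5 * C0 ^ 2 * (a * B1 + b * B2 + 1 + B4)) + 5 * (∑ β, c β ^ 2) * C1) *
        (ε ^ 2 + 1 / R ^ 2) * (H + K) +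
      (16 * (5 * C0 ^ 2 * (a * B1 + b * B2 + 1 + B4)) + 5 * (∑ β, c β ^ 2) * C1) *
        (1 / R ^ 2 + m ^ 2 / R) * n := by
  obtain ⟨Q, hQ⟩ : ∃ Q, Q = (ε ^ 2 + 1 / R ^ 2) * (H + K) + n / R ^ 2 := ⟨_, rfl⟩
  obtain ⟨A0, hA0⟩ : ∃ A0, A0 = 5 * C0 ^ 2 * (a * B1 + b * B2 + 1 + B4) := ⟨_, rfl⟩
  have hA00 : 0 ≤ A0 := by rw [hA0]; positivity
  have hM0 : 0 ≤ ∑ β, c β ^ 2 := Finset.sum_nonneg fun β _ => sq_nonneg _
  rw [← hQ] at c1 c2 c3 c4
  rw [← hA0]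
  have hβ : ∀ β : Fin 16, x β ≤ A0 * Q + c β ^ 2 * (5 * C1 * (K / R ^ 2 + m ^ 2 * n / R)) := by
    intro β
    refine (hx β).trans ?_
    have b1 := mul_le_mul_of_nonneg_left c1 (show (0 : ℝ) ≤ 5 * C0 ^ 2 * a by positivity)
    have b2 := mul_le_mul_of_nonneg_left c2 (show (0 : ℝ) ≤ 5 * C0 ^ 2 * b by positivity)
    have b3 := mul_le_mul_of_nonneg_left c3 (show (0 : ℝ) ≤ 5 * C0 ^ 2 by positivity)
    have b4 := mul_le_mul_of_nonneg_left c4 (show (0 : ℝ) ≤ 5 * C0 ^ 2 by positivity)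
    have b5 := mul_le_mul_of_nonneg_left c5 (show (0 : ℝ) ≤ 5 * c β ^ 2 by positivity)
    have e1 : 5 * (C0 / R) ^ 2 * a * T1 = 5 * C0 ^ 2 * a * (T1 / R ^ 2) := by
      rw [div_pow]; ring
    have e2 : 5 * (C0 / R) ^ 2 * b * T2 = 5 * C0 ^ 2 * b * (T2 / R ^ 2) := by
      rw [div_pow]; ring
    have e3 : 5 * (C0 / R) ^ 2 * n = 5 * C0 ^ 2 * (n / R ^ 2) := by
      rw [div_pow]; ring
    have e5 : 5 * m ^ 2 * c β ^ 2 * W = 5 * c β ^ 2 * (m ^ 2 * W) := by ring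
    rw [e1, e2, e3, e5]
    calc _ ≤ 5 * C0 ^ 2 * a * (B1 * Q) + 5 * C0 ^ 2 * b * (B2 * Q) + 5 * C0 ^ 2 * Q +
          5 * C0 ^ 2 * (B4 * Q) + 5 * c β ^ 2 * (C1 * (K / R ^ 2 + m ^ 2 * n / R)) :=
          add_le_add (add_le_add (add_le_add (add_le_add b1 b2) b3) b4) b5
      _ = _ := by rw [hA0]; ring
  refine (Finset.sum_le_sum fun β _ => hβ β).trans ?_
  rw [Finset.sum_add_distrib, Finset.sum_const, ← Finset.sum_mul, Finset.card_univ,
    Fintype.card_fin, nsmul_eq_mul]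
  push_cast
  obtain ⟨M, hM⟩ : ∃ M, M = ∑ β, c β ^ 2 := ⟨_, rfl⟩
  rw [← hM] at hM0 ⊢
  have z1 : 0 ≤ 16 * A0 * (m ^ 2 / R * n) := by positivity
  have z2 : 0 ≤ 5 * M * C1 * (ε ^ 2 * (H + K) + H / R ^ 2 + n / R ^ 2) := by positivity
  have z3 : (16 * A0 + 5 * M * C1) * (ε ^ 2 + 1 / R ^ 2) * (H + K) +
      (16 * A0 + 5 * M * C1) * (1 / R ^ 2 + m ^ 2 / R) * n =
      16 * (A0 * Q) + M * (5 * C1 * (K / R ^ 2 + m ^ 2 * n / R)) + (16 * A0 * (m ^ 2 / R * n) +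
      5 * M * C1 * (ε ^ 2 * (H + K) + H / R ^ 2 + n / R ^ 2)) := by
    rw [hQ]
    ring
  rw [z3]
  exact le_add_of_nonneg_right (add_nonneg z1 z2)

/-! ### the integrated estimates -/

lemma hcard : ((Fintype.card (Fin 8 × Fin dm) : ℕ) : ℝ) = 8 * dm := by
  rw [Fintype.card_prod, Fintype.card_fin, Fintype.card_fin]
  push_cast
  ring

lemma k2_le (hA : CalcA dh dm F) (hB : CalcB dh dm F) (hFI : FIntStmt S φ)
    {N : Fin 9 → Matrix (Fin 16) (Fin 16) ℂ}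
    {Y : Cfg dh} {ε0 C0 C1 : ℝ} (hO : OpFacts S φ N Y ε0) (hε0 : 0 < ε0) (hC0 : 0 ≤ C0)
    (hbd : S.CoefBd φ Y ε0 C0) (hfib : S.FibFacts φ Y ε0 C1) (hC1 : 0 ≤ C1)
    {ε R : ℝ} (hε' : ε ≤ ε0) (hR : 0 < R) (v : Cfg dh → Wsp dm → F) (hv : Tst2 v)
    (hs : Sup2 Y ε R v) :
    (∑ k : Fin 8 × Fin dm, D2w (mw k v)) +
      R ^ 2 * ∑ l : (Fin 8 × Fin dm) × (Fin 8 × Fin dm), ns2 (mw l.1 (mw l.2 v)) ≤
    C1 * (2 * (8 * dm : ℝ) * (ε * R) ^ 2 * S.E1 φ v +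
      2 * (8 * dm : ℝ) * (∑ β, CZ S φ C0 β ^ 2) * ns2 v + R * ∑ k : Fin 8 × Fin dm, ns2 (mw k v)) := by
  have hs0 : Sup2 Y ε0 R v := sup_mono hs hR hε'
  have h : ∀ k : Fin 8 × Fin dm, D2w (mw k v) + R ^ 2 * ∑ l, ns2 (mw l (mw k v)) ≤
      C1 * (2 * (ε * R) ^ 2 * S.E1 φ v + 2 * (∑ β, CZ S φ C0 β ^ 2) * ns2 v +
        R * ns2 (mw k v)) := by
    intro k
    have h1 := (hFI Y ε0 C0 C1 hε0 hbd hfib hC1 R hR (mw k v) (t_mw hA k v hv)
      (sup_mw k hs0)).1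
    rw [hB.W2_eq _ (t_mw hA k v hv)] at h1
    have h2 := E1_mw S φ hA hB hO hC0 hbd hε' hR v hv hs k
    exact h1.trans (mul_le_mul_of_nonneg_left (add_le_add h2 le_rfl) hC1)
  have h4 := Finset.sum_le_sum fun k (_ : k ∈ (Finset.univ : Finset (Fin 8 × Fin dm))) => h k
  rw [Finset.sum_add_distrib, ← Finset.mul_sum, ← Finset.mul_sum, Finset.sum_add_distrib,
    ← Finset.mul_sum, Finset.sum_const, Finset.card_univ, nsmul_eq_mul, hcard] at h4
  have h5 : ∑ l : (Fin 8 × Fin dm) × (Fin 8 × Fin dm), ns2 (mw l.1 (mw l.2 v)) =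
      ∑ k, ∑ l, ns2 (mw l (mw k v)) := by
    rw [Fintype.sum_prod_type, Finset.sum_comm]
  rw [h5]
  refine h4.trans (le_of_eq ?_)
  ring

lemma k3_le (hA : CalcA dh dm F) (hB : CalcB dh dm F) (v : Cfg dh → Wsp dm → F) (hv : Tst2 v) :
    ∑ l : (Fin 8 × Fin dm) × (Fin 8 × Fin dm), ns2 (mw l.1 (pw l.2.1 l.2.2 v)) ≤
      2 * (∑ k : Fin 8 × Fin dm, D2w (mw k v)) + 2 * (8 * dm : ℝ) ^ 2 * ns2 v := by
  have h : ∀ k : Fin 8 × Fin dm, ∑ l : Fin 8 × Fin dm, ns2 (mw k (pw l.1 l.2 v)) ≤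
      2 * D2w (mw k v) + 2 * (8 * dm : ℝ) * ns2 v := by
    intro k
    have h1 := Finset.sum_le_sum fun l (_ : l ∈ (Finset.univ : Finset (Fin 8 × Fin dm))) =>
      pw_mw_le hA hB k v hv l.1 l.2
    rw [Finset.sum_add_distrib, ← Finset.mul_sum, Finset.sum_const, Finset.card_univ,
      nsmul_eq_mul, hcard] at h1
    have h2 : ∑ l : Fin 8 × Fin dm, ns2 (pw l.1 l.2 (mw k v)) = D2w (mw k v) := by
      unfold D2w
      rw [Fintype.sum_prod_type]
    rw [h2] at h1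
    refine h1.trans (le_of_eq ?_)
    ring
  have h4 := Finset.sum_le_sum fun k (_ : k ∈ (Finset.univ : Finset (Fin 8 × Fin dm))) => h k
  rw [Finset.sum_add_distrib, ← Finset.mul_sum, Finset.sum_const, Finset.card_univ,
    nsmul_eq_mul, hcard] at h4
  rw [Fintype.sum_prod_type]
  refine h4.trans (le_of_eq ?_)
  ring

lemma k4_le (hA : CalcA dh dm F) (hB : CalcB dh dm F)
    {N : Fin 9 → Matrix (Fin 16) (Fin 16) ℂ} {CE : ℝ} (hCE : 0 ≤ CE)
    (hEn : ∀ m : ℝ, 0 ≤ m → m ≤ 1 → ∀ v : Cfg dh → Wsp dm → F, Tst2 v →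
      ∀ L : ℝ, 0 ≤ L → (∀ y w, v y w ≠ 0 → ‖y‖ ≤ L) → D2y v ≤ CE * (S.EH φ N m v + (1 + L) * ns2 v))
    {Y : Cfg dh} {ε0 : ℝ} (hO : OpFacts S φ N Y ε0) (hε0 : 0 < ε0)
    {ε R m : ℝ} (hε' : ε ≤ ε0) (hR : 1 ≤ R) (hm : 0 ≤ m) (hm1 : m ≤ 1)
    (v : Cfg dh → Wsp dm → F) (hv : Tst2 v) (hs : Sup2 Y ε R v) :
    ∑ l : (Fin 8 × Fin dm) × (Fin 9 × Fin dh), ns2 (mw l.1 (py l.2.1 l.2.2 v)) ≤
      CE * ((8 * dm : ℝ) * (ε * R) ^ 2 * S.EH φ N m v +
        (1 + (‖Y‖ + ε0)) * R * ∑ k : Fin 8 × Fin dm, ns2 (mw k v)) := by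
  have hR0 : 0 < R := by linarith
  have hs0 : Sup2 Y ε0 R v := sup_mono hs hR0 hε'
  have h : ∀ k : Fin 8 × Fin dm, ∑ l : Fin 9 × Fin dh, ns2 (mw k (py l.1 l.2 v)) ≤
      CE * ((ε * R) ^ 2 * S.EH φ N m v + (1 + (‖Y‖ + ε0)) * R * ns2 (mw k v)) := by
    intro k
    have h1 := hEn m hm hm1 (mw k v) (t_mw hA k v hv) ((‖Y‖ + ε0) * R) (by positivity) (by
      intro y w hne
      have h2 := (sup_mw k hs0 y w hne).1
      have h3 : ‖y‖ ≤ ‖y - R • Y‖ + ‖R • Y‖ := by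
        simpa using norm_add_le (y - R • Y) (R • Y)
      rw [norm_smul, Real.norm_eq_abs, abs_of_pos hR0] at h3
      linarith)
    have h2 := EH_mw S φ hA hB hO m v hv hs k
    have h3 : D2y (mw k v) = ∑ l : Fin 9 × Fin dh, ns2 (mw k (py l.1 l.2 v)) := by
      unfold D2y
      rw [Fintype.sum_prod_type]
      refine Finset.sum_congr rfl fun i _ => Finset.sum_congr rfl fun A _ => ?_
      rw [py_mw_fun hA k v hv i A]
    rw [← h3]
    refine h1.trans (mul_le_mul_of_nonneg_left (add_le_add h2 ?_) hCE)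
    refine mul_le_mul_of_nonneg_right ?_ (hB.nonneg _)
    have e : (1 + (‖Y‖ + ε0)) * R = R + (‖Y‖ + ε0) * R := by ring
    rw [e]
    linarith
  have h4 := Finset.sum_le_sum fun k (_ : k ∈ (Finset.univ : Finset (Fin 8 × Fin dm))) => h k
  rw [← Finset.mul_sum, Finset.sum_add_distrib, Finset.sum_const,
    Finset.card_univ, nsmul_eq_mul, hcard, ← Finset.mul_sum] at h4
  rw [Fintype.sum_prod_type]
  refine h4.trans (le_of_eq ?_)
  ring

end Vale.Agent.P353.Z.AN.Rem76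

namespace Vale.Agent.P353.Z.AN

open Op687 Rem76

variable {d dh dm : ℕ} {F : Type*} [NormedAddCommGroup F] [InnerProductSpace ℂ F]

/-- C-Rem -/
theorem rem_stmt (S : Setup d F) (φ : Spl dh dm d) : CalcA dh dm F → CalcB dh dm F → OpStmt S φ →
    FIntStmt S φ → EnHStmt S φ → RemStmt S φ := by
  intro hA hB hOp hFI hEn hsub N hN Y ε0 C0 C1 hε0 hC0 hbd hfib hC1
  obtain ⟨CE, hCE, hEn1⟩ := hEn hsub N hN
  have hO : OpFacts S φ N Y ε0 := hOp N hN.real Y ε0 C0 hε0 hbd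
  have hCL0 : 0 ≤ ‖Y‖ + ε0 := by positivity
  have hCZ0 : 0 ≤ ∑ β, CZ S φ C0 β ^ 2 := Finset.sum_nonneg fun β _ => sq_nonneg _
  have hCM0 : 0 ≤ ∑ β, CM S φ N β ^ 2 := Finset.sum_nonneg fun β _ => sq_nonneg _
  have hp0 : (0 : ℝ) ≤ 8 * dm := by positivity
  have hq0 : (0 : ℝ) ≤ 9 * dh := by positivity
  obtain ⟨B1, hB1⟩ : ∃ B1 : ℝ, B1 = CE * (8 * dm : ℝ) + CE * (1 + (‖Y‖ + ε0)) * C1 := ⟨_, rfl⟩
  obtain ⟨B0, hB0⟩ : ∃ B0 : ℝ, B0 = C1 * (2 * (8 * dm : ℝ) +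
    2 * (8 * dm : ℝ) * (∑ β, CZ S φ C0 β ^ 2) + C1) := ⟨_, rfl⟩
  obtain ⟨B2, hB2⟩ : ∃ B2 : ℝ, B2 = 2 * B0 + 2 * (8 * dm : ℝ) ^ 2 := ⟨_, rfl⟩
  have hB10 : 0 ≤ B1 := by rw [hB1]; positivity
  have hB00 : 0 ≤ B0 := by rw [hB0]; positivity
  have hB20 : 0 ≤ B2 := by rw [hB2]; positivity
  refine ⟨16 * (5 * C0 ^ 2 * ((9 * dh) * B1 + (8 * dm) * B2 + 1 + B0)) +
    5 * (∑ β, CM S φ N β ^ 2) * C1, by positivity, ?_⟩
  intro ε hε hεε R hR m hm hm1 v hv hs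
  have hR0 : 0 < R := by linarith
  have hs0 : Sup2 Y ε0 R v := sup_mono hs hR0 hεε
  have hH0 : 0 ≤ S.EH φ N m v := Finset.sum_nonneg fun β _ => hB.nonneg _
  have hK0 : 0 ≤ S.E1 φ v := Finset.sum_nonneg fun β _ => hB.nonneg _
  have hn0 : 0 ≤ ns2 v := hB.nonneg _
  have hT30 : 0 ≤ ∑ k : Fin 8 × Fin dm, D2w (mw k v) := Finset.sum_nonneg fun k _ =>
    Finset.sum_nonneg fun j _ => Finset.sum_nonneg fun B _ => hB.nonneg _
  have hT40 : 0 ≤ ∑ l : (Fin 8 × Fin dm) × (Fin 8 × Fin dm), ns2 (mw l.1 (mw l.2 v)) :=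
    Finset.sum_nonneg fun k _ => hB.nonneg _
  have k1 : R ^ 2 * ∑ k : Fin 8 × Fin dm, ns2 (mw k v) ≤ C1 * (S.E1 φ v + R * ns2 v) := by
    have h := (hFI Y ε0 C0 C1 hε0 hbd hfib hC1 R hR0 v hv hs0).1
    have h0 : 0 ≤ D2w v := Finset.sum_nonneg fun j _ => Finset.sum_nonneg fun B _ => hB.nonneg _
    rw [hB.W2_eq v hv] at h
    exact (le_add_of_nonneg_left h0).trans h
  have k2 := k2_le S φ hA hB hFI hO hε0 hC0 hbd hfib hC1 hεε hR0 v hv hs
  have k3 := k3_le hA hB v hv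
  have k4 := k4_le S φ hA hB hCE hEn1 hO hε0 hεε hR hm hm1 v hv hs
  obtain ⟨c1, c2, c3, c4, c5⟩ := fin_real (ε := ε) (m := m) hH0 hK0 hn0 hT30 hT40 hR hm hm1 hCE hC1
    hCL0 hCZ0 hp0 k1 k4 k2 k3
  rw [← hB1] at c1
  rw [← hB0, ← hB2] at c2
  rw [← hB0] at c4
  exact fin_sum _ (fun β => CM S φ N β) hH0 hK0 hn0 hR0 hC1 hq0 hp0 hB10 hB20 hB00
    (fun β => u_le S φ hA hB hO hbd hR0 hm v hv hs0 β) c1 c2 c3 c4 c5

end Vale.Agent.P353.Z.AN
end

section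

/-! # P353, all `N`, block GL: rescaling identities for GL6 -/

set_option linter.all false

open MeasureTheory Filter Topology
open scoped ContDiff

namespace Vale.Agent.P353.Z.AN

variable {d dh dm r ds : ℕ} {F : Type*} [NormedAddCommGroup F] [InnerProductSpace ℂ F]

namespace Cnv

/-- index map -/
def idx (ψ : Spz r ds dh) : (Fin 9 × Fin r) ⊕ (Fin 9 × Fin ds) → Fin 9 × Fin dh :=
  Sum.elim (fun p => (p.1, ψ (Sum.inl p.2))) fun p => (p.1, ψ (Sum.inr p.2))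

theorem idx_bij (ψ : Spz r ds dh) : Function.Bijective (idx ψ) := by
  constructor
  · rintro (⟨i, A⟩ | ⟨i, A⟩) (⟨i', A'⟩ | ⟨i', A'⟩) h
    all_goals simp only [idx, Sum.elim_inl, Sum.elim_inr, Prod.mk.injEq,
      EmbeddingLike.apply_eq_iff_eq, Sum.inr.injEq, Sum.inl.injEq, true_and, reduceCtorEq,
      and_false] at h
    · rw [h.1, h.2]
    · rw [h.1, h.2]
  · rintro ⟨i, A⟩
    obtain ⟨s, rfl⟩ := ψ.surjective A
    rcases s with A | B
    · exact ⟨Sum.inl (i, A), rfl⟩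
    · exact ⟨Sum.inr (i, B), rfl⟩

/-- the index equivalence -/
noncomputable def ide (ψ : Spz r ds dh) : (Fin 9 × Fin r) ⊕ (Fin 9 × Fin ds) ≃ Fin 9 × Fin dh :=
  Equiv.ofBijective _ (idx_bij ψ)

theorem sp_mp (ψ : Spz r ds dh) :
    MeasurePreserving (fun z : Cfg dh => (hz ψ z, hs ψ z)) volume (volume.prod volume) := by
  have m1 := PiLp.volume_preserving_ofLp (Fin 9 × Fin dh)
  have m2 := (volume_measurePreserving_piCongrLeft (fun _ : Fin 9 × Fin dh => ℝ) (ide ψ)).symm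
  have m3 := volume_measurePreserving_sumPiEquivProdPi
    (fun _ : (Fin 9 × Fin r) ⊕ (Fin 9 × Fin ds) => ℝ)
  have n1 := PiLp.volume_preserving_toLp (Fin 9 × Fin r)
  have n2 := PiLp.volume_preserving_toLp (Fin 9 × Fin ds)
  exact (n1.prod n2).comp (m3.comp (m2.comp m1))

theorem hz_cmb (ψ : Spz r ds dh) (η : Cfg r) (s : Cfg ds) : hz ψ (cmb ψ η s) = η := by
  ext p
  simp [hz, cmb]

theorem hs_cmb (ψ : Spz r ds dh) (η : Cfg r) (s : Cfg ds) : hs ψ (cmb ψ η s) = s := by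
  ext p
  simp [hs, cmb]

theorem cmb_hz_hs (ψ : Spz r ds dh) (y : Cfg dh) : cmb ψ (hz ψ y) (hs ψ y) = y := by
  ext ⟨i, A⟩
  obtain ⟨a, rfl⟩ := ψ.surjective A
  rcases a with a | a <;> simp [cmb, hz, hs]

theorem cmb_smul (ψ : Spz r ds dh) (c : ℝ) (η : Cfg r) (s : Cfg ds) :
    cmb ψ (c • η) (c • s) = c • cmb ψ η s := by
  ext ⟨i, A⟩
  obtain ⟨a, rfl⟩ := ψ.surjective A
  rcases a with a | a <;> simp [cmb]

theorem cmb_sub (ψ : Spz r ds dh) (η η' : Cfg r) (s s' : Cfg ds) :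
    cmb ψ (η - η') (s - s') = cmb ψ η s - cmb ψ η' s' := by
  ext ⟨i, A⟩
  obtain ⟨a, rfl⟩ := ψ.surjective A
  rcases a with a | a <;> simp [cmb]

/-- continuity of the coordinates -/
theorem cmb_cont (ψ : Spz r ds dh) : Continuous (fun q : Cfg r × Cfg ds => cmb ψ q.1 q.2) := by
  refine (PiLp.continuous_toLp 2 _).comp (continuous_pi fun p => ?_)
  obtain ⟨i, A⟩ := p
  obtain ⟨a, rfl⟩ := ψ.surjective A
  rcases a with a | a
  · simp only [Equiv.symm_apply_apply, Sum.elim_inl]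
    exact (continuous_apply _).comp ((PiLp.continuous_ofLp 2 _).comp continuous_fst)
  · simp only [Equiv.symm_apply_apply, Sum.elim_inr]
    exact (continuous_apply _).comp ((PiLp.continuous_ofLp 2 _).comp continuous_snd)

theorem hz_cont (ψ : Spz r ds dh) : Continuous (hz ψ) :=
  (PiLp.continuous_toLp 2 _).comp (continuous_pi fun p => (continuous_apply _).comp (PiLp.continuous_ofLp 2 _))

theorem hs_cont (ψ : Spz r ds dh) : Continuous (hs ψ) :=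
  (PiLp.continuous_toLp 2 _).comp (continuous_pi fun p => (continuous_apply _).comp (PiLp.continuous_ofLp 2 _))

/-- the coordinates as a homeomorphism -/
noncomputable def hom (ψ : Spz r ds dh) : Cfg r × Cfg ds ≃ₜ Cfg dh where
  toFun q := cmb ψ q.1 q.2
  invFun y := (hz ψ y, hs ψ y)
  left_inv q := by
    show (hz ψ (cmb ψ q.1 q.2), hs ψ (cmb ψ q.1 q.2)) = q
    rw [hz_cmb, hs_cmb]
  right_inv y := cmb_hz_hs ψ y
  continuous_toFun := cmb_cont ψ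
  continuous_invFun := (hz_cont ψ).prodMk (hs_cont ψ)

theorem cmb_mp (ψ : Spz r ds dh) :
    MeasurePreserving (fun q : Cfg r × Cfg ds => cmb ψ q.1 q.2) (volume.prod volume) volume := by
  have h1 : MeasurePreserving ((hom ψ).toMeasurableEquiv.symm) volume
      ((volume : Measure (Cfg r)).prod (volume : Measure (Cfg ds))) := sp_mp ψ
  exact h1.symm

/-- rescaling of the slice -/
noncomputable def sq (ψ : Spz r ds dh) (R : ℝ) (q : Cfg r × Cfg ds × Wsp dm) : Cfg dh × Wsp dm :=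
  (cmb ψ (R • q.1) q.2.1, (Real.sqrt R)⁻¹ • q.2.2)

/-- rescaling as a homeomorphism -/
noncomputable def sqh (ψ : Spz r ds dh) (dm : ℕ) (R : ℝ) (hR : 0 < R) : Cfg r × Cfg ds × Wsp dm ≃ₜ Cfg dh × Wsp dm :=
  ((Homeomorph.smulOfNeZero R hR.ne').prodCongr ((Homeomorph.refl (Cfg ds)).prodCongr
    (Homeomorph.smulOfNeZero (Real.sqrt R)⁻¹ (inv_ne_zero (Real.sqrt_pos.2 hR).ne')))).trans
    ((Homeomorph.prodAssoc (Cfg r) (Cfg ds) (Wsp dm)).symm.trans ((hom ψ).prodCongr (Homeomorph.refl (Wsp dm))))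

theorem sqh_apply (ψ : Spz r ds dh) (R : ℝ) (hR : 0 < R) (q : Cfg r × Cfg ds × Wsp dm) :
    sqh ψ dm R hR q = sq ψ R q := rfl

theorem sq_map (ψ : Spz r ds dh) (R : ℝ) (hR : 0 < R) :
    Measure.map (sq (dm := dm) ψ R) (volume.prod (volume.prod volume)) =
      ENNReal.ofReal (R ^ (4 * (dm : ℝ) - 9 * (r : ℝ))) • ((volume : Measure (Cfg dh)).prod (volume : Measure (Wsp dm))) := by
  have hs := Real.sqrt_pos.2 hR
  have m1 : Measure.map (fun x : Cfg r => R • x) volume = ENNReal.ofReal ((R ^ (9 * r))⁻¹) • volume := by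
    rw [Measure.map_addHaar_smul volume hR.ne']
    congr 2
    rw [abs_of_nonneg (by positivity)]
    congr 2
    rw [finrank_euclideanSpace]
    simp
  have m2 : Measure.map (fun x : Wsp dm => (Real.sqrt R)⁻¹ • x) volume = ENNReal.ofReal (R ^ (4 * dm)) • volume := by
    rw [Measure.map_addHaar_smul volume (inv_ne_zero hs.ne')]
    congr 2
    rw [abs_of_nonneg (by positivity)]
    have : Module.finrank ℝ (Wsp dm) = 2 * (4 * dm) := by
      rw [finrank_euclideanSpace]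
      simp
      ring
    rw [this, pow_mul, inv_pow, Real.sq_sqrt hR.le, inv_pow, inv_inv]
  have m3 : Measure.map (Prod.map (fun x : Cfg r => R • x) (Prod.map (id : Cfg ds → Cfg ds) (fun x : Wsp dm => (Real.sqrt R)⁻¹ • x)))
      (volume.prod (volume.prod volume)) =
      (ENNReal.ofReal ((R ^ (9 * r))⁻¹) * ENNReal.ofReal (R ^ (4 * dm))) • (volume.prod (volume.prod volume)) := by
    rw [← Measure.map_prod_map _ _ (measurable_const_smul R) (measurable_id.prodMap (measurable_const_smul _)),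
      ← Measure.map_prod_map _ _ measurable_id (measurable_const_smul _), m1, m2, Measure.map_id,
      Measure.prod_smul_left, Measure.prod_smul_right, Measure.prod_smul_right, smul_smul]
  have m4 : MeasurePreserving (fun q : Cfg r × Cfg ds × Wsp dm => (cmb ψ q.1 q.2.1, q.2.2))
      (volume.prod (volume.prod volume)) (volume.prod volume) :=
    ((cmb_mp ψ).prod (MeasurePreserving.id volume)).comp
      (measurePreserving_prodAssoc (volume : Measure (Cfg r)) (volume : Measure (Cfg ds)) (volume : Measure (Wsp dm))).symm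
  have e : (sq (dm := dm) ψ R) = (fun q : Cfg r × Cfg ds × Wsp dm => (cmb ψ q.1 q.2.1, q.2.2)) ∘
      (Prod.map (fun x : Cfg r => R • x) (Prod.map (id : Cfg ds → Cfg ds) (fun x : Wsp dm => (Real.sqrt R)⁻¹ • x))) := rfl
  rw [e, ← Measure.map_map m4.measurable
    ((measurable_const_smul R).prodMap (measurable_id.prodMap (measurable_const_smul _))), m3, Measure.map_smul, m4.map_eq]
  congr 1
  rw [← ENNReal.ofReal_mul (by positivity)]
  congr 1
  rw [Real.rpow_sub hR]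
  have e1 : R ^ (4 * (dm : ℝ)) = R ^ (4 * dm) := by
    rw [← Real.rpow_natCast]
    push_cast
    rfl
  have e2 : R ^ (9 * (r : ℝ)) = R ^ (9 * r) := by
    rw [← Real.rpow_natCast]
    push_cast
    rfl
  rw [e1, e2]
  field_simp

theorem lint_sq (ψ : Spz r ds dh) (R : ℝ) (hR : 0 < R) (f : Cfg dh × Wsp dm → ENNReal) :
    ∫⁻ q : Cfg r × Cfg ds × Wsp dm, f (sq ψ R q) ∂(volume.prod (volume.prod volume)) =
      ENNReal.ofReal (R ^ (4 * (dm : ℝ) - 9 * (r : ℝ))) * ∫⁻ p, f p ∂(volume.prod volume) := by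
  have he : MeasurableEmbedding (sq (dm := dm) ψ R) := (sqh ψ dm R hR).measurableEmbedding
  rw [← he.lintegral_map, sq_map ψ R hR, lintegral_smul_measure]
  rfl

theorem Dm_smul (S : Setup d F) (φ : Spl dh dm d) (c : ℝ) (v : Fin dh → ℝ) :
    S.Dm φ (c • v) = c • S.Dm φ v := by
  ext B C
  simp only [Setup.Dm, Matrix.of_apply, Matrix.smul_apply, Pi.smul_apply, smul_eq_mul, Finset.mul_sum]
  exact Finset.sum_congr rfl fun A _ => by ring

theorem Dy_smul (S : Setup d F) (φ : Spl dh dm d) (i : Fin 9) (c : ℝ) (y : Cfg dh) :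
    S.Dy φ i (c • y) = c • S.Dy φ i y := by
  unfold Setup.Dy
  rw [← Dm_smul]
  rfl

theorem Jd_sq (S : Setup d F) (φ : Spl dh dm d) (ψ : Spz r ds dh) {R : ℝ} (hR : 0 < R) (η : Cfg r) (s : Cfg ds) :
    S.Jd φ (cmb ψ (R • η) s) = R ^ dm * |(S.Dy φ 8 (cmb ψ η (R⁻¹ • s))).det| := by
  have e : cmb ψ (R • η) s = R • cmb ψ η (R⁻¹ • s) := by
    rw [← cmb_smul, smul_smul, mul_inv_cancel₀ hR.ne', one_smul]
  unfold Setup.Jd
  rw [e, Dy_smul, Matrix.det_smul, abs_mul, Fintype.card_fin, abs_of_pos (pow_pos hR dm)]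

theorem coef {R : ℝ} (hR : 0 < R) (dm r : ℕ) :
    Real.sqrt (R ^ dm) * (R ^ (3 * (dm : ℝ) - 9 * (r : ℝ) / 2) * ((R * Real.sqrt R)⁻¹) ^ dm) =
      R ^ (2 * (dm : ℝ) - 9 * (r : ℝ) / 2) := by
  have e1 : Real.sqrt (R ^ dm) = R ^ ((dm : ℝ) / 2) := by
    rw [Real.sqrt_eq_rpow, ← Real.rpow_natCast, ← Real.rpow_mul hR.le]
    congr 1
    ring
  have e2 : ((R * Real.sqrt R)⁻¹) ^ dm = R ^ (-(3 / 2) * (dm : ℝ)) := by
    have : (R * Real.sqrt R)⁻¹ = R ^ (-(3 / 2) : ℝ) := by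
      rw [Real.sqrt_eq_rpow, Real.rpow_neg hR.le]
      congr 1
      nth_rewrite 1 [← Real.rpow_one R]
      rw [← Real.rpow_add hR]
      norm_num
    rw [this, ← Real.rpow_natCast, ← Real.rpow_mul hR.le]
  rw [e1, e2, ← Real.rpow_add hR, ← Real.rpow_add hR]
  congr 1
  ring

end Cnv

open Cnv in
/-- rescaling of the orbit average -/
theorem cnvA_Zt (S : Setup d F) (φ : Spl dh dm d) (ψ : Spz r ds dh) {R : ℝ} (hR : 0 < R)
    (j : EuclideanSpace ℝ (Fin dm) → ℝ) (ρ : ℝ) (b : Cfg r × Cfg ds × Cfg dm → F) (η : Cfg r) (s : Cfg ds) (om : Wsp dm) :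
    Zt S φ j ρ (Zb φ ψ b R) (cmb ψ (R • η) s, (Real.sqrt R)⁻¹ • om) =
      ((R ^ (2 * (dm : ℝ) - 9 * (r : ℝ) / 2) : ℝ) : ℂ) •
        (((Real.sqrt |(S.Dy φ 8 (cmb ψ η (R⁻¹ • s))).det| : ℝ) : ℂ) •
          ∫ al : EuclideanSpace ℝ (Fin dm),
            (Metric.ball (0 : EuclideanSpace ℝ (Fin dm)) (ρ * (R * Real.sqrt R))).indicator
              (fun al => ((j ((R * Real.sqrt R)⁻¹ • al) : ℝ) : ℂ) • spn S (-(exm φ ((R * Real.sqrt R)⁻¹ • al)))
                (b (R⁻¹ • hz ψ (zy φ (tub S φ ((R * Real.sqrt R)⁻¹ • al) (cmb ψ (R • η) s, (Real.sqrt R)⁻¹ • om))),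
                  hs ψ (zy φ (tub S φ ((R * Real.sqrt R)⁻¹ • al) (cmb ψ (R • η) s, (Real.sqrt R)⁻¹ • om))),
                  Real.sqrt R • pm φ (tub S φ ((R * Real.sqrt R)⁻¹ • al) (cmb ψ (R • η) s, (Real.sqrt R)⁻¹ • om))))) al) := by
  have hsR := Real.sqrt_pos.2 hR
  have hk : 0 < (R * Real.sqrt R)⁻¹ := inv_pos.2 (mul_pos hR hsR)
  set k : ℝ := (R * Real.sqrt R)⁻¹ with hkd
  set p : Cfg dh × Wsp dm := (cmb ψ (R • η) s, (Real.sqrt R)⁻¹ • om) with hp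
  let G : EuclideanSpace ℝ (Fin dm) → F := fun a => ((j a : ℝ) : ℂ) • spn S (-(exm φ a))
    (b (R⁻¹ • hz ψ (zy φ (tub S φ a p)), hs ψ (zy φ (tub S φ a p)), Real.sqrt R • pm φ (tub S φ a p)))
  let H : EuclideanSpace ℝ (Fin dm) → F := (Metric.ball (0 : EuclideanSpace ℝ (Fin dm)) ρ).indicator G
  have h1 : Zt S φ j ρ (Zb φ ψ b R) p = ((Real.sqrt (S.Jd φ (cmb ψ (R • η) s)) : ℝ) : ℂ) •
      (((R ^ (3 * (dm : ℝ) - 9 * (r : ℝ) / 2) : ℝ) : ℂ) • ∫ a, H a) := by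
    unfold Zt
    congr 1
    rw [← integral_indicator Metric.isOpen_ball.measurableSet, ← integral_smul]
    refine integral_congr_ae (Filter.Eventually.of_forall fun a => ?_)
    show (Metric.ball (0 : EuclideanSpace ℝ (Fin dm)) ρ).indicator _ a =
      ((R ^ (3 * (dm : ℝ) - 9 * (r : ℝ) / 2) : ℝ) : ℂ) • (Metric.ball (0 : EuclideanSpace ℝ (Fin dm)) ρ).indicator G a
    by_cases ha : a ∈ Metric.ball (0 : EuclideanSpace ℝ (Fin dm)) ρ
    · rw [Set.indicator_of_mem ha, Set.indicator_of_mem ha]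
      show ((j a : ℝ) : ℂ) • spn S (-(exm φ a)) (((R ^ (3 * (dm : ℝ) - 9 * (r : ℝ) / 2) : ℝ) : ℂ) • _) = _
      rw [map_smul, smul_comm]
    · rw [Set.indicator_of_notMem ha, Set.indicator_of_notMem ha, smul_zero]
  have h2 : ∫ al, H (k • al) = ((k ^ dm)⁻¹ : ℝ) • ∫ a, H a := by
    rw [Measure.integral_comp_smul, finrank_euclideanSpace, Fintype.card_fin, abs_of_pos (inv_pos.2 (pow_pos hk dm))]
  have h3 : ∫ a, H a = ((k ^ dm : ℝ) : ℂ) • ∫ al, H (k • al) := by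
    rw [h2, Complex.coe_smul, smul_smul, mul_inv_cancel₀ (pow_pos hk dm).ne', one_smul]
  have h4 : ∀ al, H (k • al) = (Metric.ball (0 : EuclideanSpace ℝ (Fin dm)) (ρ * (R * Real.sqrt R))).indicator
      (fun al => G (k • al)) al := by
    intro al
    have hiff : k • al ∈ Metric.ball (0 : EuclideanSpace ℝ (Fin dm)) ρ ↔
        al ∈ Metric.ball (0 : EuclideanSpace ℝ (Fin dm)) (ρ * (R * Real.sqrt R)) := by
      rw [mem_ball_zero_iff, mem_ball_zero_iff, norm_smul, Real.norm_eq_abs, abs_of_pos hk, hkd,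
        inv_mul_lt_iff₀ (mul_pos hR hsR), mul_comm]
    show (Metric.ball (0 : EuclideanSpace ℝ (Fin dm)) ρ).indicator G (k • al) = _
    by_cases ha : k • al ∈ Metric.ball (0 : EuclideanSpace ℝ (Fin dm)) ρ
    · rw [Set.indicator_of_mem ha, Set.indicator_of_mem (hiff.1 ha)]
    · rw [Set.indicator_of_notMem ha, Set.indicator_of_notMem (fun h => ha (hiff.2 h))]
  rw [h1, h3, integral_congr_ae (Filter.Eventually.of_forall h4), Jd_sq S φ ψ hR, Real.sqrt_mul (pow_pos hR dm).le,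
    smul_smul, smul_smul, smul_smul]
  congr 1
  rw [← coef hR dm r, ← hkd]
  push_cast
  ring

end Vale.Agent.P353.Z.AN
end
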