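import Mathlib
import Vale.Agent.P353.BdA.B1

set_option linter.all false

section

/-! # P353, all `N`, block B: Gaussian Poincaré inequality (B-Poi, owner helper777) -/

open MeasureTheory Filter Topology Matrix
open scoped ContDiff

namespace Vale.Agent.P353.Z

namespace Poi

/-- weighted Cauchy-Schwarz -/
lemma cs_one {α : Type*} [MeasurableSpace α] (μ : Measure α) {w h : α → ℝ} (hw : ∀ x, 0 ≤ w x)
    (i0 : Integrable w μ) (i1 : Integrable (fun x => w x * h x) μ)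
    (i2 : Integrable (fun x => w x * h x ^ 2) μ) :
    (∫ x, w x * h x ∂μ) ^ 2 ≤ (∫ x, w x ∂μ) * ∫ x, w x * h x ^ 2 ∂μ := by
  have key : ∀ t : ℝ, 0 ≤ (∫ x, w x ∂μ) * (t * t) + (-2 * ∫ x, w x * h x ∂μ) * t +
      ∫ x, w x * h x ^ 2 ∂μ := by
    intro t
    have h1 : 0 ≤ ∫ x, w x * (h x - t) ^ 2 ∂μ :=
      integral_nonneg fun x => mul_nonneg (hw x) (sq_nonneg _)
    have e : ∀ x, w x * (h x - t) ^ 2 =
        (w x * (t * t) + (-2 * (w x * h x)) * t) + w x * h x ^ 2 := fun x => by ring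
    simp only [e] at h1
    have j0 : Integrable (fun x => w x * (t * t)) μ := i0.mul_const _
    have j1 : Integrable (fun x => -2 * (w x * h x) * t) μ := (i1.const_mul _).mul_const _
    have j01 : Integrable (fun x => w x * (t * t) + -2 * (w x * h x) * t) μ := j0.add j1
    rw [integral_add j01 i2, integral_add j0 j1, integral_mul_const,
      integral_mul_const, integral_const_mul] at h1
    exact h1
  have := discrim_le_zero key
  unfold discrim at this
  nlinarith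

section Gen

variable {E : Type*} [NormedAddCommGroup E] [InnerProductSpace ℝ E] [FiniteDimensional ℝ E]
  [MeasurableSpace E] [BorelSpace E]

lemma int_gauss {b : ℝ} (hb : 0 < b) : Integrable (fun v : E => Real.exp (-b * ‖v‖ ^ 2)) := by
  have h := (GaussianFourier.integrable_cexp_neg_mul_sq_norm_add (V := E) (b := (b : ℂ))
    (by simpa using hb) 0 0).norm
  refine h.congr (Eventually.of_forall fun v => ?_)
  simp only [Complex.norm_exp]
  congr 1
  simp [← Complex.ofReal_pow]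

omit [FiniteDimensional ℝ E] [MeasurableSpace E] [BorelSpace E] in
/-- the rotation -/
noncomputable def rot (s c : ℝ) : (E × E) →ₗ[ℝ] (E × E) where
  toFun p := (s • p.1 + c • p.2, c • p.1 - s • p.2)
  map_add' p q := by
    ext <;> simp only [Prod.fst_add, Prod.snd_add] <;> module
  map_smul' a p := by
    ext <;> simp only [Prod.smul_fst, Prod.smul_snd, RingHom.id_apply] <;> module

omit [FiniteDimensional ℝ E] [MeasurableSpace E] [BorelSpace E] in
lemma rot_apply (s c : ℝ) (p : E × E) :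
    rot s c p = (s • p.1 + c • p.2, c • p.1 - s • p.2) := rfl

omit [FiniteDimensional ℝ E] [MeasurableSpace E] [BorelSpace E] in
lemma rot_rot {s c : ℝ} (h : s ^ 2 + c ^ 2 = 1) (p : E × E) : rot s c (rot s c p) = p := by
  have h1 : ∀ x y : E, s • (s • x + c • y) + c • (c • x - s • y) = x := by
    intro x y
    have : s • (s • x + c • y) + c • (c • x - s • y) = (s ^ 2 + c ^ 2) • x := by module
    rw [this, h, one_smul]
  have h2 : ∀ x y : E, c • (s • x + c • y) - s • (c • x - s • y) = y := by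
    intro x y
    have : c • (s • x + c • y) - s • (c • x - s • y) = (s ^ 2 + c ^ 2) • y := by module
    rw [this, h, one_smul]
  rw [rot_apply, rot_apply]
  exact Prod.ext (h1 _ _) (h2 _ _)

lemma rot_mp {s c : ℝ} (h : s ^ 2 + c ^ 2 = 1) :
    MeasurePreserving (rot s c : E × E → E × E) (volume : Measure (E × E)) volume := by
  have hcomp : (rot s c : (E × E) →ₗ[ℝ] (E × E)) ∘ₗ rot s c = LinearMap.id :=
    LinearMap.ext (rot_rot h)
  have hdet : LinearMap.det (rot s c : (E × E) →ₗ[ℝ] (E × E)) *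
      LinearMap.det (rot s c : (E × E) →ₗ[ℝ] (E × E)) = 1 := by
    rw [← LinearMap.det_comp, hcomp, LinearMap.det_id]
  have hne : LinearMap.det (rot s c : (E × E) →ₗ[ℝ] (E × E)) ≠ 0 :=
    left_ne_zero_of_mul_eq_one hdet
  have habs : |(LinearMap.det (rot s c : (E × E) →ₗ[ℝ] (E × E)))⁻¹| = 1 := by
    rw [abs_inv]
    have : |LinearMap.det (rot s c : (E × E) →ₗ[ℝ] (E × E))| ^ 2 = 1 := by
      rw [sq_abs, pow_two, hdet]
    rw [(pow_eq_one_iff_of_nonneg (abs_nonneg _) two_ne_zero).1 this, inv_one]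
  refine ⟨(LinearMap.continuous_of_finiteDimensional _).measurable, ?_⟩
  have := Measure.map_linearMap_addHaar_eq_smul_addHaar
    ((volume : Measure E).prod (volume : Measure E)) hne
  rw [habs, ENNReal.ofReal_one, one_smul] at this
  exact this

omit [FiniteDimensional ℝ E] [MeasurableSpace E] [BorelSpace E] in
lemma path_bound {F : Type*} [NormedAddCommGroup F] [NormedSpace ℝ F] [CompleteSpace F]
    {u : E → F} (hu : ContDiff ℝ 1 u) {G : E → ℝ} (hG : Continuous G)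
    (hb : ∀ x v, ‖fderiv ℝ u x v‖ ^ 2 ≤ G x * ‖v‖ ^ 2) (x y : E) :
    ‖u x - u y‖ ^ 2 ≤ (Real.pi / 2) * ∫ θ in Set.Ioc 0 (Real.pi / 2),
      G (Real.sin θ • x + Real.cos θ • y) * ‖Real.cos θ • x - Real.sin θ • y‖ ^ 2 := by
  have hpi : (0 : ℝ) ≤ Real.pi / 2 := by positivity
  have hX : ∀ θ : ℝ, HasDerivAt (fun θ => Real.sin θ • x + Real.cos θ • y)
      (Real.cos θ • x - Real.sin θ • y) θ := by
    intro θ
    have h1 := ((Real.hasDerivAt_sin θ).smul_const x).add ((Real.hasDerivAt_cos θ).smul_const y)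
    rw [neg_smul, ← sub_eq_add_neg] at h1
    exact h1
  have hφ : ∀ θ : ℝ, HasDerivAt (fun θ => u (Real.sin θ • x + Real.cos θ • y))
      (fderiv ℝ u (Real.sin θ • x + Real.cos θ • y) (Real.cos θ • x - Real.sin θ • y)) θ := by
    intro θ
    exact ((hu.differentiable (by simp)) _).hasFDerivAt.comp_hasDerivAt θ (hX θ)
  have hc1 : Continuous fun θ : ℝ => Real.sin θ • x + Real.cos θ • y := by fun_prop
  have hc2 : Continuous fun θ : ℝ => Real.cos θ • x - Real.sin θ • y := by fun_prop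
  have hcd : Continuous fun θ : ℝ =>
      fderiv ℝ u (Real.sin θ • x + Real.cos θ • y) (Real.cos θ • x - Real.sin θ • y) :=
    ((hu.continuous_fderiv (by simp)).comp hc1).clm_apply hc2
  have hint := intervalIntegral.integral_eq_sub_of_hasDerivAt (a := 0) (b := Real.pi / 2)
    (fun θ _ => hφ θ) (hcd.intervalIntegrable _ _)
  simp only [Real.sin_pi_div_two, Real.cos_pi_div_two, Real.sin_zero, Real.cos_zero, one_smul,
    zero_smul, add_zero, zero_add] at hint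
  have hn := intervalIntegral.norm_integral_le_integral_norm (f := fun θ : ℝ =>
      fderiv ℝ u (Real.sin θ • x + Real.cos θ • y) (Real.cos θ • x - Real.sin θ • y))
      (μ := volume) hpi
  rw [hint, intervalIntegral.integral_of_le hpi] at hn
  have hcs := cs_one (volume.restrict (Set.Ioc 0 (Real.pi / 2))) (w := fun _ => (1 : ℝ))
    (h := fun θ : ℝ =>
      ‖fderiv ℝ u (Real.sin θ • x + Real.cos θ • y) (Real.cos θ • x - Real.sin θ • y)‖)
    (fun _ => zero_le_one) (integrable_const _)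
    (by simp only [one_mul]; exact hcd.norm.integrableOn_Ioc)
    (by simp only [one_mul]; exact (hcd.norm.pow 2).integrableOn_Ioc)
  simp only [one_mul] at hcs
  have hone : ∫ _θ in Set.Ioc (0 : ℝ) (Real.pi / 2), (1 : ℝ) = Real.pi / 2 := by
    simp [hpi]
  rw [hone] at hcs
  have hmono : ∫ θ in Set.Ioc 0 (Real.pi / 2),
      ‖fderiv ℝ u (Real.sin θ • x + Real.cos θ • y) (Real.cos θ • x - Real.sin θ • y)‖ ^ 2 ≤
      ∫ θ in Set.Ioc 0 (Real.pi / 2),
      G (Real.sin θ • x + Real.cos θ • y) * ‖Real.cos θ • x - Real.sin θ • y‖ ^ 2 := by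
    refine integral_mono ((hcd.norm.pow 2).integrableOn_Ioc)
      (((hG.comp hc1).mul (hc2.norm.pow 2)).integrableOn_Ioc) fun θ => ?_
    exact hb _ _
  calc ‖u x - u y‖ ^ 2 ≤ _ := pow_le_pow_left₀ (norm_nonneg _) hn 2
    _ ≤ _ := hcs
    _ ≤ _ := mul_le_mul_of_nonneg_left hmono hpi

lemma main_lint {F : Type*} [NormedAddCommGroup F] [NormedSpace ℝ F] [CompleteSpace F]
    {u : E → F} (hu : ContDiff ℝ 1 u) {G : E → ℝ} (hG : Continuous G) (hG0 : ∀ x, 0 ≤ G x)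
    (hb : ∀ x v, ‖fderiv ℝ u x v‖ ^ 2 ≤ G x * ‖v‖ ^ 2) {γ : E → ℝ} (hγc : Continuous γ)
    (hγ0 : ∀ x, 0 ≤ γ x) (hγr : ∀ s c : ℝ, s ^ 2 + c ^ 2 = 1 → ∀ x y,
      γ (s • x + c • y) * γ (c • x - s • y) = γ x * γ y) :
    ∫⁻ p : E × E, ENNReal.ofReal (γ p.1 * γ p.2 * ‖u p.1 - u p.2‖ ^ 2) ≤
      ENNReal.ofReal ((Real.pi / 2) ^ 2) *
        ∫⁻ p : E × E, ENNReal.ofReal (γ p.1 * γ p.2 * (G p.1 * ‖p.2‖ ^ 2)) := by
  have hpi : (0 : ℝ) ≤ Real.pi / 2 := by positivity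
  let H : E × E → ℝ := fun p => γ p.1 * γ p.2 * (G p.1 * ‖p.2‖ ^ 2)
  have hHc : Continuous H := by fun_prop
  have hH0 : ∀ p, 0 ≤ H p := fun p =>
    mul_nonneg (mul_nonneg (hγ0 _) (hγ0 _)) (mul_nonneg (hG0 _) (sq_nonneg _))
  have hrc : Continuous fun q : (E × E) × ℝ => H (rot (Real.sin q.2) (Real.cos q.2) q.1) := by
    refine hHc.comp ?_
    simp only [rot_apply]
    fun_prop
  have hpt : ∀ p : E × E, ENNReal.ofReal (γ p.1 * γ p.2 * ‖u p.1 - u p.2‖ ^ 2) ≤
      ∫⁻ θ in Set.Ioc 0 (Real.pi / 2),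
        ENNReal.ofReal ((Real.pi / 2) * H (rot (Real.sin θ) (Real.cos θ) p)) := by
    intro p
    have hcθ : Continuous fun θ : ℝ => (Real.pi / 2) * H (rot (Real.sin θ) (Real.cos θ) p) :=
      (hrc.comp (Continuous.prodMk_right p)).const_mul _ |> fun h => h
    rw [← ofReal_integral_eq_lintegral_ofReal (hcθ.integrableOn_Ioc)
      (Eventually.of_forall fun θ => mul_nonneg hpi (hH0 _))]
    refine ENNReal.ofReal_le_ofReal ?_
    have h1 := path_bound hu hG hb p.1 p.2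
    have h2 : 0 ≤ γ p.1 * γ p.2 := mul_nonneg (hγ0 _) (hγ0 _)
    refine (mul_le_mul_of_nonneg_left h1 h2).trans (le_of_eq ?_)
    rw [← integral_const_mul, ← integral_const_mul]
    refine setIntegral_congr_fun measurableSet_Ioc fun θ _ => ?_
    have h3 := hγr (Real.sin θ) (Real.cos θ) (Real.sin_sq_add_cos_sq θ) p.1 p.2
    simp only [H, rot_apply]
    rw [h3]
    ring
  calc ∫⁻ p : E × E, ENNReal.ofReal (γ p.1 * γ p.2 * ‖u p.1 - u p.2‖ ^ 2)
      ≤ ∫⁻ p : E × E, ∫⁻ θ in Set.Ioc 0 (Real.pi / 2),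
        ENNReal.ofReal ((Real.pi / 2) * H (rot (Real.sin θ) (Real.cos θ) p)) := lintegral_mono hpt
    _ = ∫⁻ θ in Set.Ioc 0 (Real.pi / 2), ∫⁻ p : E × E,
        ENNReal.ofReal ((Real.pi / 2) * H (rot (Real.sin θ) (Real.cos θ) p)) := by
        refine lintegral_lintegral_swap ?_
        exact ((continuous_const.mul hrc).measurable.ennreal_ofReal).aemeasurable
    _ = ∫⁻ _θ in Set.Ioc 0 (Real.pi / 2), ∫⁻ p : E × E,
        ENNReal.ofReal ((Real.pi / 2) * H p) := by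
        refine lintegral_congr fun θ => ?_
        exact (rot_mp (Real.sin_sq_add_cos_sq θ)).lintegral_comp
          (f := fun p : E × E => ENNReal.ofReal ((Real.pi / 2) * H p))
          ((continuous_const.mul hHc).measurable.ennreal_ofReal)
    _ = ENNReal.ofReal ((Real.pi / 2) ^ 2) * ∫⁻ p : E × E, ENNReal.ofReal (H p) := by
        rw [lintegral_const, Measure.restrict_apply_univ, Real.volume_Ioc, sub_zero]
        simp only [ENNReal.ofReal_mul hpi]
        rw [lintegral_const_mul _ hHc.measurable.ennreal_ofReal, pow_two,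
          ENNReal.ofReal_mul hpi]
        ring

/-- the Gaussian weights -/
lemma gauss_facts (M : E →L[ℝ] E) {c : ℝ} (hc : 0 < c) (hM : ∀ w, c * ‖w‖ ^ 2 ≤ inner ℝ w (M w)) :
    Integrable (fun w : E => Real.exp (-inner ℝ w (M w))) ∧
    Integrable (fun w : E => Real.exp (-inner ℝ w (M w)) * ‖w‖ ^ 2) ∧
    0 < ∫ w : E, Real.exp (-inner ℝ w (M w)) ∧
    c * ∫ w : E, Real.exp (-inner ℝ w (M w)) * ‖w‖ ^ 2 ≤
      |(Real.sqrt 2) ^ Module.finrank ℝ E| * ∫ w : E, Real.exp (-inner ℝ w (M w)) := by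
  have hq : Continuous fun w : E => inner ℝ w (M w) := by fun_prop
  have i1 : Integrable (fun w : E => Real.exp (-inner ℝ w (M w))) := by
    refine (int_gauss hc).mono' (hq.neg.rexp).aestronglyMeasurable
      (Eventually.of_forall fun w => ?_)
    rw [Real.norm_of_nonneg (Real.exp_pos _).le]
    exact Real.exp_le_exp.2 (by have := hM w; linarith)
  have i3 : Integrable (fun w : E => Real.exp (-(1 / 2) * inner ℝ w (M w))) := by
    refine (int_gauss (half_pos hc)).mono' ((continuous_const.mul hq).rexp).aestronglyMeasurable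
      (Eventually.of_forall fun w => ?_)
    rw [Real.norm_of_nonneg (Real.exp_pos _).le]
    exact Real.exp_le_exp.2 (by have := hM w; linarith)
  have hpt : ∀ w : E, c * (Real.exp (-inner ℝ w (M w)) * ‖w‖ ^ 2) ≤
      Real.exp (-(1 / 2) * inner ℝ w (M w)) := by
    intro w
    have h1 := hM w
    have h2 : 0 ≤ inner ℝ w (M w) := le_trans (by positivity) h1
    have h3 : inner ℝ w (M w) * Real.exp (-(1 / 2) * inner ℝ w (M w)) ≤ 1 := by
      have h4 := Real.add_one_le_exp ((1 / 2) * inner ℝ w (M w) - 1)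
      have h5 : Real.exp ((1 / 2) * inner ℝ w (M w) - 1) * Real.exp (-(1 / 2) * inner ℝ w (M w)) =
          Real.exp (-1) := by
        rw [← Real.exp_add]; congr 1; ring
      have h6 : Real.exp (-1) ≤ 1 / 2 := by
        rw [Real.exp_neg, inv_le_comm₀ (Real.exp_pos _) (by norm_num)]
        have := Real.add_one_le_exp (1 : ℝ)
        norm_num at this ⊢
        linarith
      have h7 := mul_le_mul_of_nonneg_right h4
        (Real.exp_pos (-(1 / 2) * inner ℝ w (M w))).le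
      rw [h5] at h7
      nlinarith
    have h8 : Real.exp (-inner ℝ w (M w)) = Real.exp (-(1 / 2) * inner ℝ w (M w)) *
        Real.exp (-(1 / 2) * inner ℝ w (M w)) := by
      rw [← Real.exp_add]; congr 1; ring
    calc c * (Real.exp (-inner ℝ w (M w)) * ‖w‖ ^ 2)
        = (c * ‖w‖ ^ 2) * Real.exp (-inner ℝ w (M w)) := by ring
      _ ≤ inner ℝ w (M w) * Real.exp (-inner ℝ w (M w)) :=
          mul_le_mul_of_nonneg_right h1 (Real.exp_pos _).le
      _ = (inner ℝ w (M w) * Real.exp (-(1 / 2) * inner ℝ w (M w))) *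
          Real.exp (-(1 / 2) * inner ℝ w (M w)) := by rw [h8]; ring
      _ ≤ 1 * Real.exp (-(1 / 2) * inner ℝ w (M w)) :=
          mul_le_mul_of_nonneg_right h3 (Real.exp_pos _).le
      _ = _ := one_mul _
  have i2' : Integrable (fun w : E => c * (Real.exp (-inner ℝ w (M w)) * ‖w‖ ^ 2)) := by
    refine i3.mono' (continuous_const.mul (hq.neg.rexp.mul
      (continuous_norm.pow 2))).aestronglyMeasurable (Eventually.of_forall fun w => ?_)
    rw [Real.norm_of_nonneg (by positivity)]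
    exact hpt w
  have i2 : Integrable (fun w : E => Real.exp (-inner ℝ w (M w)) * ‖w‖ ^ 2) := by
    have := i2'.const_mul c⁻¹
    refine this.congr (Eventually.of_forall fun w => ?_)
    simp only []
    rw [← mul_assoc, inv_mul_cancel₀ hc.ne', one_mul]
  have hpos : 0 < ∫ w : E, Real.exp (-inner ℝ w (M w)) := by
    rw [integral_pos_iff_support_of_nonneg (fun w => (Real.exp_pos _).le) i1]
    have : Function.support (fun w : E => Real.exp (-inner ℝ w (M w))) = Set.univ := by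
      ext w; simp [(Real.exp_pos _).ne']
    rw [this]
    exact Measure.measure_univ_pos.2 (NeZero.ne _)
  refine ⟨i1, i2, hpos, ?_⟩
  have hsc := Measure.integral_comp_inv_smul (volume : Measure E)
    (fun w : E => Real.exp (-inner ℝ w (M w))) (Real.sqrt 2)
  rw [smul_eq_mul] at hsc
  rw [← hsc, ← integral_const_mul]
  refine integral_mono i2' ?_ fun w => ?_
  · refine i3.congr (Eventually.of_forall fun w => ?_)
    simp only [map_smul, inner_smul_left, inner_smul_right, conj_trivial]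
    congr 1
    have : (Real.sqrt 2)⁻¹ * ((Real.sqrt 2)⁻¹ * inner ℝ w (M w)) = (1 / 2) * inner ℝ w (M w) := by
      rw [← mul_assoc, ← mul_inv, Real.mul_self_sqrt (by norm_num)]; norm_num
    rw [this]; ring
  · refine (hpt w).trans (le_of_eq ?_)
    simp only [map_smul, inner_smul_left, inner_smul_right, conj_trivial]
    congr 1
    have : (Real.sqrt 2)⁻¹ * ((Real.sqrt 2)⁻¹ * inner ℝ w (M w)) = (1 / 2) * inner ℝ w (M w) := by
      rw [← mul_assoc, ← mul_inv, Real.mul_self_sqrt (by norm_num)]; norm_num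
    rw [this]; ring

/-- Poincaré inequality for `μ = γ dx`, `γ = g²`, in terms of `u`. -/
lemma poi_u {F : Type*} [NormedAddCommGroup F] [NormedSpace ℝ F] [CompleteSpace F]
    {u : E → F} (hu : ContDiff ℝ 1 u) (hcs : HasCompactSupport u) {G : E → ℝ} (hG : Continuous G)
    (hG0 : ∀ x, 0 ≤ G x) (hb : ∀ x v, ‖fderiv ℝ u x v‖ ^ 2 ≤ G x * ‖v‖ ^ 2)
    {g : E → ℝ} (hgc : Continuous g) (hg0 : ∀ x, 0 ≤ g x)
    (hi1 : Integrable (fun x => g x ^ 2)) (hi2 : Integrable (fun x => g x ^ 2 * ‖x‖ ^ 2))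
    (hiG : Integrable (fun x => g x ^ 2 * G x)) (hZ : 0 < ∫ x, g x ^ 2)
    (hγr : ∀ s c : ℝ, s ^ 2 + c ^ 2 = 1 → ∀ x y,
      g (s • x + c • y) ^ 2 * g (c • x - s • y) ^ 2 = g x ^ 2 * g y ^ 2) :
    ∫ x, ‖g x • u x - (g x / ∫ w, g w ^ 2) • ∫ w, g w ^ 2 • u w‖ ^ 2 ≤
      (∫ w, g w ^ 2)⁻¹ * (Real.pi / 2) ^ 2 * (∫ x, g x ^ 2 * ‖x‖ ^ 2) * ∫ x, g x ^ 2 * G x := by
  obtain ⟨Z, hZe⟩ : ∃ Z : ℝ, Z = ∫ w, g w ^ 2 := ⟨_, rfl⟩
  rw [← hZe] at hZ ⊢
  obtain ⟨I, hIe⟩ : ∃ I : F, I = ∫ w, g w ^ 2 • u w := ⟨_, rfl⟩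
  rw [← hIe]
  obtain ⟨Cu, hCu⟩ := hcs.exists_bound_of_continuous hu.continuous
  have hiu : Integrable (fun w => g w ^ 2 • u w) := by
    refine ((hgc.pow 2).smul hu.continuous).integrable_of_hasCompactSupport ?_
    exact hcs.smul_left
  have hdiff : ∀ x, Integrable (fun y => g y ^ 2 * ‖u x - u y‖) := by
    intro x
    refine (hi1.mul_const (Cu + Cu)).mono' ((hgc.pow 2).mul
      (continuous_const.sub hu.continuous).norm).aestronglyMeasurable
      (Eventually.of_forall fun y => ?_)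
    rw [Real.norm_of_nonneg (by positivity)]
    exact mul_le_mul_of_nonneg_left ((norm_sub_le _ _).trans (add_le_add (hCu x) (hCu y)))
      (sq_nonneg _)
  have hdiff2 : ∀ x, Integrable (fun y => g y ^ 2 * ‖u x - u y‖ ^ 2) := by
    intro x
    refine (hi1.mul_const ((Cu + Cu) ^ 2)).mono' ((hgc.pow 2).mul
      ((continuous_const.sub hu.continuous).norm.pow 2)).aestronglyMeasurable
      (Eventually.of_forall fun y => ?_)
    rw [Real.norm_of_nonneg (by positivity)]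
    exact mul_le_mul_of_nonneg_left (pow_le_pow_left₀ (norm_nonneg _)
      ((norm_sub_le _ _).trans (add_le_add (hCu x) (hCu y))) 2) (sq_nonneg _)
  -- pointwise
  have hpt : ∀ x, ‖g x • u x - (g x / Z) • I‖ ^ 2 ≤
      Z⁻¹ * ∫ y, g x ^ 2 * g y ^ 2 * ‖u x - u y‖ ^ 2 := by
    intro x
    have e1 : g x • u x - (g x / Z) • I = (g x / Z) • ∫ y, g y ^ 2 • (u x - u y) := by
      have e2 : ∫ y, g y ^ 2 • (u x - u y) = Z • u x - I := by
        have e3 : ∀ y, g y ^ 2 • (u x - u y) = g y ^ 2 • u x - g y ^ 2 • u y := fun y =>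
          smul_sub _ _ _
        simp only [e3]
        rw [integral_sub (hi1.smul_const (u x)) hiu, integral_smul_const, ← hZe, ← hIe]
      rw [e2, smul_sub, smul_smul, div_mul_cancel₀ _ hZ.ne']
    have e4 : ‖∫ y, g y ^ 2 • (u x - u y)‖ ≤ ∫ y, g y ^ 2 * ‖u x - u y‖ := by
      refine (norm_integral_le_integral_norm _).trans (le_of_eq ?_)
      refine integral_congr_ae (Eventually.of_forall fun y => ?_)
      simp only [norm_smul, Real.norm_of_nonneg (sq_nonneg (g y))]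
    have e5 := cs_one (volume : Measure E) (w := fun y => g y ^ 2)
      (h := fun y => ‖u x - u y‖) (fun y => sq_nonneg _) hi1 (hdiff x) (hdiff2 x)
    rw [← hZe] at e5
    rw [e1, norm_smul, Real.norm_of_nonneg (div_nonneg (hg0 x) hZ.le), mul_pow]
    have e6 : ∫ y, g x ^ 2 * g y ^ 2 * ‖u x - u y‖ ^ 2 =
        g x ^ 2 * ∫ y, g y ^ 2 * ‖u x - u y‖ ^ 2 := by
      rw [← integral_const_mul]
      exact integral_congr_ae (Eventually.of_forall fun y => by simp only []; ring)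
    rw [e6]
    calc (g x / Z) ^ 2 * ‖∫ y, g y ^ 2 • (u x - u y)‖ ^ 2
        ≤ (g x / Z) ^ 2 * (Z * ∫ y, g y ^ 2 * ‖u x - u y‖ ^ 2) :=
          mul_le_mul_of_nonneg_left
            ((pow_le_pow_left₀ (norm_nonneg _) e4 2).trans e5) (sq_nonneg _)
      _ = Z⁻¹ * (g x ^ 2 * ∫ y, g y ^ 2 * ‖u x - u y‖ ^ 2) := by
          field_simp
  have hmain := main_lint hu hG hG0 hb (γ := fun x => g x ^ 2) (hgc.pow 2)
    (fun x => sq_nonneg _) hγr
  -- right hand side
  have hR : ∫⁻ p : E × E, ENNReal.ofReal (g p.1 ^ 2 * g p.2 ^ 2 * (G p.1 * ‖p.2‖ ^ 2)) =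
      ENNReal.ofReal ((∫ x, g x ^ 2 * G x) * ∫ x, g x ^ 2 * ‖x‖ ^ 2) := by
    have e1 : ∀ p : E × E, ENNReal.ofReal (g p.1 ^ 2 * g p.2 ^ 2 * (G p.1 * ‖p.2‖ ^ 2)) =
        ENNReal.ofReal (g p.1 ^ 2 * G p.1) * ENNReal.ofReal (g p.2 ^ 2 * ‖p.2‖ ^ 2) := by
      intro p
      rw [← ENNReal.ofReal_mul (mul_nonneg (sq_nonneg _) (hG0 _))]
      congr 1; ring
    simp only [e1]
    rw [ENNReal.ofReal_mul (integral_nonneg fun x => mul_nonneg (sq_nonneg _) (hG0 _)),
      ofReal_integral_eq_lintegral_ofReal hiG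
        (Eventually.of_forall fun x => mul_nonneg (sq_nonneg _) (hG0 _)),
      ofReal_integral_eq_lintegral_ofReal hi2
        (Eventually.of_forall fun x => mul_nonneg (sq_nonneg _) (sq_nonneg _))]
    exact lintegral_prod_mul ((hgc.pow 2).mul hG).measurable.ennreal_ofReal.aemeasurable
      ((hgc.pow 2).mul (continuous_norm.pow 2)).measurable.ennreal_ofReal.aemeasurable
  rw [hR, ← ENNReal.ofReal_mul (sq_nonneg _)] at hmain
  -- left hand side
  have hL : ∫⁻ x, ENNReal.ofReal (‖g x • u x - (g x / Z) • I‖ ^ 2) ≤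
      ENNReal.ofReal Z⁻¹ *
        ∫⁻ p : E × E, ENNReal.ofReal (g p.1 ^ 2 * g p.2 ^ 2 * ‖u p.1 - u p.2‖ ^ 2) := by
    have hm : Continuous fun p : E × E => g p.1 ^ 2 * g p.2 ^ 2 * ‖u p.1 - u p.2‖ ^ 2 := by
      have := hu.continuous
      fun_prop
    have e1 : ∫⁻ p : E × E, ENNReal.ofReal (g p.1 ^ 2 * g p.2 ^ 2 * ‖u p.1 - u p.2‖ ^ 2) =
        ∫⁻ x, ∫⁻ y, ENNReal.ofReal (g x ^ 2 * g y ^ 2 * ‖u x - u y‖ ^ 2) :=
      lintegral_prod _ hm.measurable.ennreal_ofReal.aemeasurable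
    rw [e1, ← lintegral_const_mul' _ _ ENNReal.ofReal_ne_top]
    refine lintegral_mono fun x => ?_
    have hix : Integrable (fun y => g x ^ 2 * g y ^ 2 * ‖u x - u y‖ ^ 2) := by
      refine ((hdiff2 x).const_mul (g x ^ 2)).congr (Eventually.of_forall fun y => ?_)
      simp only []; ring
    rw [← ofReal_integral_eq_lintegral_ofReal hix (Eventually.of_forall fun y => by positivity),
      ← ENNReal.ofReal_mul (inv_nonneg.2 hZ.le)]
    exact ENNReal.ofReal_le_ofReal (hpt x)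
  have hfin : ∫⁻ x, ENNReal.ofReal (‖g x • u x - (g x / Z) • I‖ ^ 2) ≤
      ENNReal.ofReal (Z⁻¹ * (Real.pi / 2) ^ 2 * (∫ x, g x ^ 2 * ‖x‖ ^ 2) *
        ∫ x, g x ^ 2 * G x) := by
    refine (hL.trans (mul_le_mul_right hmain _)).trans (le_of_eq ?_)
    rw [← ENNReal.ofReal_mul (inv_nonneg.2 hZ.le)]
    congr 1; ring
  have hFc : Continuous fun x => ‖g x • u x - (g x / Z) • I‖ ^ 2 := by
    have := hu.continuous
    fun_prop
  rw [integral_eq_lintegral_of_nonneg_ae (Eventually.of_forall fun x => sq_nonneg _)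
    hFc.aestronglyMeasurable]
  refine ENNReal.toReal_le_of_le_ofReal ?_ hfin
  have h1 : 0 ≤ ∫ x, g x ^ 2 * ‖x‖ ^ 2 := integral_nonneg fun x => by positivity
  have h2 : 0 ≤ ∫ x, g x ^ 2 * G x := integral_nonneg fun x => mul_nonneg (sq_nonneg _) (hG0 _)
  positivity

end Gen

end Poi

open Poi in
/-- **B-Poi**, explicit form: the constant is `c1 · λ_min(M)` with `c1` depending only on `dm`. -/
theorem poi_explicit (dm : ℕ) (F : Type*) [NormedAddCommGroup F] [InnerProductSpace ℂ F]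
    [CompleteSpace F] :
    ∃ c1 : ℝ, 0 < c1 ∧ ∀ M : Wsp dm →L[ℝ] Wsp dm, (∀ v w, inner ℝ (M v) w = inner ℝ v (M w)) →
    ∀ c : ℝ, 0 < c → (∀ w, c * ‖w‖ ^ 2 ≤ inner ℝ w (M w)) → ∀ f : Wsp dm → F, FT f →
    c1 * c * nsf (fun w => f w - ((Real.exp (-(1 / 2) * inner ℝ w (M w)) /
      ∫ w' : Wsp dm, Real.exp (-(1 / 2) * inner ℝ w' (M w')) ^ 2 : ℝ) : ℂ) •
        ∫ w', ((Real.exp (-(1 / 2) * inner ℝ w' (M w')) : ℝ) : ℂ) • f w') ≤
      ∑ j, ∑ B, nsf (fun w => pf j B f w + ((M w (j, B) : ℝ) : ℂ) • f w) := by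
  obtain ⟨κ, hκ⟩ : ∃ κ : ℝ, κ = |(Real.sqrt 2) ^ Module.finrank ℝ (Wsp dm)| := ⟨_, rfl⟩
  have hκ0 : 0 < κ := by rw [hκ]; positivity
  refine ⟨((Real.pi / 2) ^ 2 * κ)⁻¹, by positivity, ?_⟩
  intro M hsym c hc hM f hf
  obtain ⟨i1, i2, hZ, hW⟩ := gauss_facts M hc hM
  rw [← hκ] at hW
  have hq : ContDiff ℝ ∞ fun w : Wsp dm => inner ℝ w (M w) := contDiff_id.inner ℝ M.contDiff
  let g : Wsp dm → ℝ := fun w => Real.exp (-(1 / 2) * inner ℝ w (M w))
  have hg2 : ∀ w, g w ^ 2 = Real.exp (-inner ℝ w (M w)) := by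
    intro w
    simp only [g]
    rw [← Real.exp_nat_mul]
    congr 1; push_cast; ring
  have hgc : Continuous g := by
    have := hq.continuous
    fun_prop
  have hg0 : ∀ w, 0 ≤ g w := fun w => (Real.exp_pos _).le
  let e : Wsp dm → ℝ := fun w => Real.exp ((1 / 2) * inner ℝ w (M w))
  have heg : ∀ w, g w * e w = 1 := by
    intro w
    simp only [g, e]
    rw [← Real.exp_add]
    have : -(1 / 2) * inner ℝ w (M w) + (1 / 2) * inner ℝ w (M w) = 0 := by ring
    rw [this, Real.exp_zero]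
  have hec : ContDiff ℝ ∞ e := (contDiff_const.mul hq).exp
  let u : Wsp dm → F := fun w => e w • f w
  have hu : ContDiff ℝ ∞ u := hec.smul hf.1
  have hucs : HasCompactSupport u := hf.2.smul_left
  let T : Fin 8 → Fin dm → Wsp dm → F := fun j B w => pf j B f w + ((M w (j, B) : ℝ) : ℂ) • f w
  have hpf : ∀ j B, Continuous (pf j B f) := fun j B =>
    (hf.1.continuous_fderiv (by simp)).clm_apply continuous_const
  have hMc : ∀ j B, Continuous fun w : Wsp dm => M w (j, B) := by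
    intro j B
    have := M.continuous
    fun_prop
  have hTc : ∀ j B, Continuous (T j B) := fun j B =>
    (hpf j B).add ((Complex.continuous_ofReal.comp (hMc j B)).smul hf.1.continuous)
  have hTs : ∀ j B, HasCompactSupport (T j B) := by
    intro j B
    refine HasCompactSupport.add ?_ hf.2.smul_left
    exact hf.2.fderiv_apply (𝕜 := ℝ) (EuclideanSpace.single (j, B) (1 : ℝ))
  -- derivative of u
  have hder : ∀ x v, fderiv ℝ u x v = e x • ∑ j, ∑ B, v (j, B) • T j B x := by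
    intro x v
    have h1 : HasFDerivAt (fun w : Wsp dm => inner ℝ w (M w))
        ((fderivInnerCLM ℝ (x, M x)).comp ((ContinuousLinearMap.id ℝ (Wsp dm)).prod M)) x :=
      (hasFDerivAt_id x).inner ℝ M.hasFDerivAt
    have h2 : HasFDerivAt e (e x • ((1 / 2 : ℝ) • ((fderivInnerCLM ℝ (x, M x)).comp
        ((ContinuousLinearMap.id ℝ (Wsp dm)).prod M)))) x := (h1.const_mul (1 / 2)).exp
    have h3 : HasFDerivAt u _ x := h2.smul ((hf.1.differentiable (by simp)) x).hasFDerivAt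
    rw [h3.fderiv]
    have hfd : fderiv ℝ f x v = ∑ j, ∑ B, v (j, B) • pf j B f x := by
      have hv : v = ∑ j, ∑ B, v (j, B) • (EuclideanSpace.single (j, B) (1 : ℝ) : Wsp dm) := by
        rw [← Fintype.sum_prod_type' (f := fun j B =>
          v (j, B) • (EuclideanSpace.single (j, B) (1 : ℝ) : Wsp dm))]
        ext p
        simp [Pi.single_apply]
      conv_lhs => rw [hv]
      simp only [map_sum, map_smul]
      rfl
    have hin : inner ℝ v (M x) = ∑ j, ∑ B, v (j, B) * M x (j, B) := by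
      rw [PiLp.inner_apply, Fintype.sum_prod_type]
      refine Finset.sum_congr rfl fun j _ => Finset.sum_congr rfl fun B _ => ?_
      simp [mul_comm]
    have hin2 : inner ℝ x (M v) = inner ℝ v (M x) := by
      rw [← hsym, real_inner_comm]
    simp only [_root_.add_apply, _root_.smul_apply,
      ContinuousLinearMap.smulRight_apply, ContinuousLinearMap.comp_apply,
      ContinuousLinearMap.prod_apply, ContinuousLinearMap.id_apply, fderivInnerCLM_apply,
      smul_eq_mul]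
    rw [hin2, hfd, hin]
    simp only [T, smul_add, Finset.sum_add_distrib]
    congr 1
    have hs : ∑ j, ∑ B, v (j, B) • ((M x (j, B) : ℝ) : ℂ) • f x =
        (∑ j, ∑ B, v (j, B) * M x (j, B)) • f x := by
      simp only [Finset.sum_smul, mul_smul, Complex.coe_smul]
    rw [hs, smul_smul]
    congr 1
    ring
  have hG : ∀ x v, ‖fderiv ℝ u x v‖ ^ 2 ≤ (e x ^ 2 * ∑ j, ∑ B, ‖T j B x‖ ^ 2) * ‖v‖ ^ 2 := by
    intro x v
    rw [hder, norm_smul, Real.norm_of_nonneg (Real.exp_pos _).le, mul_pow]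
    have h1 : ‖∑ j, ∑ B, v (j, B) • T j B x‖ ≤ ∑ p : Fin 8 × Fin dm, |v p| * ‖T p.1 p.2 x‖ := by
      rw [Fintype.sum_prod_type]
      refine (norm_sum_le _ _).trans (Finset.sum_le_sum fun j _ => ?_)
      refine (norm_sum_le _ _).trans (Finset.sum_le_sum fun B _ => ?_)
      rw [norm_smul, Real.norm_eq_abs]
    have h2 := Finset.sum_mul_sq_le_sq_mul_sq (Finset.univ : Finset (Fin 8 × Fin dm))
      (fun p => |v p|) (fun p => ‖T p.1 p.2 x‖)
    have h3 : ∑ p : Fin 8 × Fin dm, |v p| ^ 2 = ‖v‖ ^ 2 := by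
      rw [EuclideanSpace.norm_sq_eq]
      rfl
    rw [h3] at h2
    have h4 : ∑ p : Fin 8 × Fin dm, ‖T p.1 p.2 x‖ ^ 2 = ∑ j, ∑ B, ‖T j B x‖ ^ 2 := by
      rw [Fintype.sum_prod_type]
    rw [h4] at h2
    calc e x ^ 2 * ‖∑ j, ∑ B, v (j, B) • T j B x‖ ^ 2
        ≤ e x ^ 2 * (‖v‖ ^ 2 * ∑ j, ∑ B, ‖T j B x‖ ^ 2) :=
          mul_le_mul_of_nonneg_left ((pow_le_pow_left₀ (norm_nonneg _) h1 2).trans h2)
            (sq_nonneg _)
      _ = _ := by ring
  have hgG : ∀ x, g x ^ 2 * (e x ^ 2 * ∑ j, ∑ B, ‖T j B x‖ ^ 2) = ∑ j, ∑ B, ‖T j B x‖ ^ 2 := by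
    intro x
    rw [← mul_assoc, ← mul_pow, heg, one_pow, one_mul]
  have hTi : ∀ j B, Integrable (fun x => ‖T j B x‖ ^ 2) := by
    intro j B
    refine ((hTc j B).norm.pow 2).integrable_of_hasCompactSupport ?_
    refine (hTs j B).mono fun x hx => ?_
    rw [Function.mem_support] at hx ⊢
    intro h0
    apply hx
    simp [h0]
  have hTi2 : Integrable (fun x => ∑ j, ∑ B, ‖T j B x‖ ^ 2) :=
    integrable_finsetSum _ fun j _ => integrable_finsetSum _ fun B _ => hTi j B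
  have hrot : ∀ s c : ℝ, s ^ 2 + c ^ 2 = 1 → ∀ x y : Wsp dm,
      g (s • x + c • y) ^ 2 * g (c • x - s • y) ^ 2 = g x ^ 2 * g y ^ 2 := by
    intro s c hsc x y
    rw [hg2, hg2, hg2, hg2, ← Real.exp_add, ← Real.exp_add]
    congr 1
    simp only [map_add, map_sub, map_smul, inner_add_left, inner_add_right, inner_sub_left,
      inner_sub_right, inner_smul_left, inner_smul_right, conj_trivial]
    have : s ^ 2 = 1 - c ^ 2 := by linarith
    linear_combination (-(inner ℝ x (M x)) - inner ℝ y (M y)) * hsc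
  have hgi1 : Integrable (fun x => g x ^ 2) := by simpa only [hg2] using i1
  have hgi2 : Integrable (fun x => g x ^ 2 * ‖x‖ ^ 2) := by simpa only [hg2] using i2
  have hZ' : 0 < ∫ x, g x ^ 2 := by simpa only [hg2] using hZ
  have hW' : c * ∫ x, g x ^ 2 * ‖x‖ ^ 2 ≤ κ * ∫ x, g x ^ 2 := by simpa only [hg2] using hW
  have hmain := poi_u (hu.of_le (by simp)) hucs
    (G := fun x => e x ^ 2 * ∑ j, ∑ B, ‖T j B x‖ ^ 2)
    (by
      have h1 := hec.continuous
      exact (h1.pow 2).mul (continuous_finsetSum _ fun j _ => continuous_finsetSum _ fun B _ =>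
        (hTc j B).norm.pow 2))
    (fun x => by positivity) hG hgc hg0 hgi1 hgi2 (by simpa only [hgG] using hTi2) hZ' hrot
  simp only [hgG] at hmain
  rw [integral_finsetSum _ fun j _ => integrable_finsetSum _ fun B _ => hTi j B] at hmain
  have hsum : ∑ j, ∫ x, ∑ B, ‖T j B x‖ ^ 2 = ∑ j, ∑ B, nsf (T j B) := by
    refine Finset.sum_congr rfl fun j _ => ?_
    rw [integral_finsetSum _ fun B _ => hTi j B]
    rfl
  rw [hsum] at hmain
  have hLHS : nsf (fun w => f w - ((g w / ∫ w' : Wsp dm, g w' ^ 2 : ℝ) : ℂ) •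
        ∫ w', ((g w' : ℝ) : ℂ) • f w') =
      ∫ x, ‖g x • u x - (g x / ∫ w, g w ^ 2) • ∫ w, g w ^ 2 • u w‖ ^ 2 := by
    have e1 : ∀ x, g x • u x = f x := by
      intro x
      simp only [u]
      rw [smul_smul, heg, one_smul]
    have e2 : ∀ x, g x ^ 2 • u x = ((g x : ℝ) : ℂ) • f x := by
      intro x
      rw [pow_two, mul_smul, e1, Complex.coe_smul]
    unfold nsf
    simp only [e1, e2, Complex.coe_smul]
  change _ * _ * nsf (fun w => f w - ((g w / ∫ w' : Wsp dm, g w' ^ 2 : ℝ) : ℂ) •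
        ∫ w', ((g w' : ℝ) : ℂ) • f w') ≤ ∑ j, ∑ B, nsf (T j B)
  rw [hLHS]
  have hR0 : 0 ≤ ∑ j, ∑ B, nsf (T j B) :=
    Finset.sum_nonneg fun j _ => Finset.sum_nonneg fun B _ => integral_nonneg fun w => sq_nonneg _
  obtain ⟨R, hRe⟩ : ∃ R : ℝ, R = ∑ j, ∑ B, nsf (T j B) := ⟨_, rfl⟩
  rw [← hRe] at hmain hR0 ⊢
  obtain ⟨Z, hZe⟩ : ∃ Z : ℝ, Z = ∫ x, g x ^ 2 := ⟨_, rfl⟩
  obtain ⟨W, hWe⟩ : ∃ W : ℝ, W = ∫ x, g x ^ 2 * ‖x‖ ^ 2 := ⟨_, rfl⟩
  rw [← hZe] at hmain hZ' hW' ⊢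
  rw [← hWe] at hmain hW'
  have hP : 0 < (Real.pi / 2) ^ 2 := by positivity
  calc ((Real.pi / 2) ^ 2 * κ)⁻¹ * c *
        ∫ x, ‖g x • u x - (g x / Z) • ∫ w, g w ^ 2 • u w‖ ^ 2
      ≤ ((Real.pi / 2) ^ 2 * κ)⁻¹ * c * (Z⁻¹ * (Real.pi / 2) ^ 2 * W * R) :=
        mul_le_mul_of_nonneg_left hmain (by positivity)
    _ = (κ⁻¹ * Z⁻¹ * R) * (c * W) := by field_simp
    _ ≤ (κ⁻¹ * Z⁻¹ * R) * (κ * Z) := mul_le_mul_of_nonneg_left hW' (by positivity)
    _ = R := by field_simp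

/-- **B-Poi** -/
theorem poi (dm : ℕ) (F : Type*) [NormedAddCommGroup F] [InnerProductSpace ℂ F]
    [CompleteSpace F] : PoiStmt dm F := by
  obtain ⟨c1, hc1, h⟩ := poi_explicit dm F
  intro M hsym hM
  obtain ⟨c, hc, hcM⟩ := hM
  exact ⟨c1 * c, mul_pos hc1 hc, fun f hf => h M hsym c hc hcM f hf⟩

end Vale.Agent.P353.Z
end

section

/-! # P353, all `N`, block E: EG-Cut, cut-off of `res u` near `R Y`, with mass -/

open MeasureTheory Filter Topology Matrix
open scoped ContDiff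

namespace Vale.Agent.P353.Z.AE

variable {d dh dm : ℕ} {F : Type*} [NormedAddCommGroup F] [InnerProductSpace ℂ F]

/-! ### the cut-off function -/

/-- `1` for `t ≤ 9/16`, `0` for `15/16 ≤ t` -/
noncomputable def cg399t (t : ℝ) : ℝ := Real.smoothTransition ((15 / 16 - t) * (16 / 6))

lemma cg399t_smooth : ContDiff ℝ ∞ cg399t :=
  Real.smoothTransition.contDiff.comp ((contDiff_const.sub contDiff_id).mul contDiff_const)

lemma cg399t_bd (t : ℝ) : 0 ≤ cg399t t ∧ cg399t t ≤ 1 :=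
  ⟨Real.smoothTransition.nonneg _, Real.smoothTransition.le_one _⟩

lemma cg399t_one {t : ℝ} (h : t ≤ 9 / 16) : cg399t t = 1 :=
  Real.smoothTransition.one_of_one_le (by linarith)

lemma cg399t_zero {t : ℝ} (h : 15 / 16 ≤ t) : cg399t t = 0 :=
  Real.smoothTransition.zero_of_nonpos (by linarith)

/-- cut-off at scale one -/
noncomputable def cg399b (Y : Cfg dh) (ε : ℝ) (p : Cfg dh × Wsp dm) : ℝ :=
  cg399t (‖p.1 - Y‖ ^ 2 / ε ^ 2) * cg399t (‖p.2‖ ^ 2 / ε ^ 2)

lemma cg399b_smooth (Y : Cfg dh) (ε : ℝ) : ContDiff ℝ ∞ (cg399b (dm := dm) Y ε) := by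
  unfold cg399b
  refine (cg399t_smooth.comp ?_).mul (cg399t_smooth.comp ?_)
  · exact ((contDiff_norm_sq ℝ).comp (contDiff_fst.sub contDiff_const)).div_const _
  · exact ((contDiff_norm_sq ℝ).comp contDiff_snd).div_const _

lemma cg399b_bd (Y : Cfg dh) (ε : ℝ) (p : Cfg dh × Wsp dm) :
    0 ≤ cg399b Y ε p ∧ cg399b Y ε p ≤ 1 := by
  have h1 := cg399t_bd (‖p.1 - Y‖ ^ 2 / ε ^ 2)
  have h2 := cg399t_bd (‖p.2‖ ^ 2 / ε ^ 2)
  exact ⟨mul_nonneg h1.1 h2.1, mul_le_one₀ h1.2 h2.1 h2.2⟩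

lemma cg399_lt {a ε : ℝ} (hε : 0 < ε) (h : cg399t (a ^ 2 / ε ^ 2) ≠ 0) :
    a < 31 / 32 * ε := by
  by_contra hc
  push Not at hc
  apply h
  apply cg399t_zero
  rw [le_div_iff₀ (by positivity)]
  have h1 : (31 / 32 * ε) ^ 2 ≤ a ^ 2 := pow_le_pow_left₀ (by positivity) hc 2
  nlinarith [sq_nonneg ε]

lemma cg399b_ne {Y : Cfg dh} {ε : ℝ} (hε : 0 < ε) {p : Cfg dh × Wsp dm} (h : cg399b Y ε p ≠ 0) :
    ‖p.1 - Y‖ < 31 / 32 * ε ∧ ‖p.2‖ < 31 / 32 * ε := by
  unfold cg399b at h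
  exact ⟨cg399_lt hε (left_ne_zero_of_mul h),
    cg399_lt hε (right_ne_zero_of_mul h)⟩

lemma cg399b_one {Y : Cfg dh} {ε : ℝ} (hε : 0 < ε) {p : Cfg dh × Wsp dm}
    (h1 : ‖p.1 - Y‖ < 3 / 4 * ε) (h2 : ‖p.2‖ < 3 / 4 * ε) : cg399b Y ε p = 1 := by
  have key : ∀ a : ℝ, 0 ≤ a → a < 3 / 4 * ε → cg399t (a ^ 2 / ε ^ 2) = 1 := by
    intro a ha h
    apply cg399t_one
    rw [div_le_iff₀ (by positivity)]
    have h3 : a ^ 2 ≤ (3 / 4 * ε) ^ 2 := pow_le_pow_left₀ ha h.le 2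
    nlinarith
  unfold cg399b
  rw [key _ (norm_nonneg _) h1, key _ (norm_nonneg _) h2, one_mul]

lemma cg399b_supp (Y : Cfg dh) {ε : ℝ} (hε : 0 < ε) :
    HasCompactSupport (cg399b (dm := dm) Y ε) := by
  refine HasCompactSupport.intro (K := Metric.closedBall Y ε ×ˢ Metric.closedBall (0 : Wsp dm) ε)
    ((isCompact_closedBall _ _).prod (isCompact_closedBall _ _)) fun p hp => ?_
  by_contra h
  apply hp
  obtain ⟨h1, h2⟩ := cg399b_ne hε h
  refine ⟨?_, ?_⟩
  · rw [mem_closedBall_iff_norm]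
    linarith
  · rw [mem_closedBall_zero_iff]
    linarith

lemma cg399b_grad (Y : Cfg dh) {ε : ℝ} (hε : 0 < ε) :
    ∃ K : ℝ, 0 ≤ K ∧ ∀ p : Cfg dh × Wsp dm, ‖fderiv ℝ (cg399b (dm := dm) Y ε) p‖ ≤ K := by
  have h1 : Continuous (fderiv ℝ (cg399b (dm := dm) Y ε)) :=
    (cg399b_smooth Y ε).continuous_fderiv (by simp)
  obtain ⟨K, hK⟩ := h1.bounded_above_of_compact_support ((cg399b_supp Y hε).fderiv ℝ)
  exact ⟨max K 0, le_max_right _ _, fun p => (hK p).trans (le_max_left _ _)⟩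

/-- cut-off at scale `R` -/
noncomputable def cg399 (Y : Cfg dh) (ε R : ℝ) (y : Cfg dh) (w : Wsp dm) : ℝ :=
  cg399b Y ε (R⁻¹ • y, R⁻¹ • w)

lemma cg399_scale {R : ℝ} (hR : 0 < R) {V : Type*} [NormedAddCommGroup V] [NormedSpace ℝ V]
    (y Y : V) : ‖R⁻¹ • y - Y‖ = R⁻¹ * ‖y - R • Y‖ := by
  have h : R⁻¹ • y - Y = R⁻¹ • (y - R • Y) := by
    rw [smul_sub, smul_smul, inv_mul_cancel₀ hR.ne', one_smul]
  rw [h, norm_smul, Real.norm_eq_abs, abs_of_pos (inv_pos.2 hR)]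

lemma cg399_ne {Y : Cfg dh} {ε R : ℝ} (hε : 0 < ε) (hR : 0 < R) {y : Cfg dh} {w : Wsp dm}
    (h : cg399 Y ε R y w ≠ 0) : ‖y - R • Y‖ < 31 / 32 * ε * R ∧ ‖w‖ < 31 / 32 * ε * R := by
  obtain ⟨h1, h2⟩ := cg399b_ne hε h
  simp only at h1 h2
  rw [cg399_scale hR] at h1
  have h3 := cg399_scale hR w (0 : Wsp dm)
  rw [smul_zero, sub_zero, sub_zero] at h3
  rw [h3] at h2
  rw [inv_mul_lt_iff₀ hR] at h1 h2
  constructor <;> linarith

lemma cg399_one {Y : Cfg dh} {ε R : ℝ} (hε : 0 < ε) (hR : 0 < R) {y : Cfg dh} {w : Wsp dm}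
    (h1 : ‖y - R • Y‖ < 3 / 4 * ε * R) (h2 : ‖w‖ < 3 / 4 * ε * R) : cg399 Y ε R y w = 1 := by
  apply cg399b_one hε
  · show ‖R⁻¹ • y - Y‖ < _
    rw [cg399_scale hR, inv_mul_lt_iff₀ hR]
    linarith
  · show ‖R⁻¹ • w‖ < _
    have h3 := cg399_scale hR w (0 : Wsp dm)
    rw [smul_zero, sub_zero, sub_zero] at h3
    rw [h3, inv_mul_lt_iff₀ hR]
    linarith

lemma cg399_comp (Y : Cfg dh) (ε R : ℝ) : (fun p : Cfg dh × Wsp dm => cg399 Y ε R p.1 p.2) =
    cg399b (dm := dm) Y ε ∘ (R⁻¹ • ContinuousLinearMap.id ℝ (Cfg dh × Wsp dm)) := rfl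

lemma cg399_smooth (Y : Cfg dh) (ε R : ℝ) :
    ContDiff ℝ ∞ (fun p : Cfg dh × Wsp dm => cg399 Y ε R p.1 p.2) := by
  rw [cg399_comp]
  exact (cg399b_smooth Y ε).comp (ContinuousLinearMap.contDiff _)

lemma cg399_grad {Y : Cfg dh} {ε R K : ℝ} (hR : 0 < R)
    (hK : ∀ p : Cfg dh × Wsp dm, ‖fderiv ℝ (cg399b (dm := dm) Y ε) p‖ ≤ K) (p : Cfg dh × Wsp dm) :
    ‖fderiv ℝ (fun p : Cfg dh × Wsp dm => cg399 Y ε R p.1 p.2) p‖ ≤ K / R := by
  rw [cg399_comp]
  have h1 : HasFDerivAt (cg399b (dm := dm) Y ε ∘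
      (R⁻¹ • ContinuousLinearMap.id ℝ (Cfg dh × Wsp dm))) _ p :=
    (((cg399b_smooth (dm := dm) Y ε).differentiable (by simp)
      ((R⁻¹ • ContinuousLinearMap.id ℝ (Cfg dh × Wsp dm)) p)).hasFDerivAt).comp p
      (ContinuousLinearMap.hasFDerivAt _)
  rw [h1.fderiv]
  have h2 : ‖(R⁻¹ • ContinuousLinearMap.id ℝ (Cfg dh × Wsp dm))‖ ≤ R⁻¹ := by
    rw [norm_smul, Real.norm_eq_abs, abs_of_pos (inv_pos.2 hR)]
    exact mul_le_of_le_one_right (inv_pos.2 hR).le ContinuousLinearMap.norm_id_le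
  have hK0 : 0 ≤ K := (norm_nonneg _).trans (hK 0)
  calc _ ≤ ‖fderiv ℝ (cg399b (dm := dm) Y ε)
        ((R⁻¹ • ContinuousLinearMap.id ℝ (Cfg dh × Wsp dm)) p)‖ *
        ‖(R⁻¹ • ContinuousLinearMap.id ℝ (Cfg dh × Wsp dm))‖ := ContinuousLinearMap.opNorm_comp_le _ _
    _ ≤ K * R⁻¹ := mul_le_mul (hK _) h2 (norm_nonneg _) hK0
    _ = K / R := rfl

/-! ### locality of the operators -/

section loc

variable (S : Setup d F) (φ : Spl dh dm d) (N : Fin 9 → Matrix (Fin 16) (Fin 16) ℂ) (m : ℝ)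
  (β : Fin 16)

lemma cg399_QS_eq (v : Cfg dh → Wsp dm → F) (y : Cfg dh) (w : Wsp dm) :
    S.QS φ N m β v y w = AN.Qs S φ β v y w +
      (m : ℂ) • (S.Mh φ N β y (v y w) + S.Mw φ N β w (v y w)) := by
  unfold Setup.QS Setup.Qhm AN.Qs
  rw [smul_add]
  abel

lemma cg399_py {v v' : Cfg dh → Wsp dm → F} {y : Cfg dh} {w : Wsp dm}
    (h : (fun p : Cfg dh × Wsp dm => v p.1 p.2) =ᶠ[𝓝 (y, w)] fun p => v' p.1 p.2) (i : Fin 9)
    (A : Fin dh) : py i A v y w = py i A v' y w := by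
  have h1 : (fun y' => v y' w) =ᶠ[𝓝 y] fun y' => v' y' w :=
    (Continuous.prodMk_left w).continuousAt.eventually h
  unfold py pd
  rw [h1.fderiv_eq]

lemma cg399_pw {v v' : Cfg dh → Wsp dm → F} {y : Cfg dh} {w : Wsp dm}
    (h : (fun p : Cfg dh × Wsp dm => v p.1 p.2) =ᶠ[𝓝 (y, w)] fun p => v' p.1 p.2) (j : Fin 8)
    (B : Fin dm) : pw j B v y w = pw j B v' y w := by
  have h1 : v y =ᶠ[𝓝 w] v' y :=
    (Continuous.prodMk_right y).continuousAt.eventually h
  unfold pw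
  rw [h1.fderiv_eq]

lemma cg399_QS_congr {v v' : Cfg dh → Wsp dm → F} {y : Cfg dh} {w : Wsp dm}
    (h : (fun p : Cfg dh × Wsp dm => v p.1 p.2) =ᶠ[𝓝 (y, w)] fun p => v' p.1 p.2) :
    S.QS φ N m β v y w = S.QS φ N m β v' y w := by
  have h0 : v y w = v' y w := h.self_of_nhds
  have h1 := cg399_py h
  have h2 := cg399_pw h
  rw [cg399_QS_eq, cg399_QS_eq]
  unfold AN.Qs Setup.Qh Setup.Q1 Setup.Qr
  simp only [h0, h1, h2]

lemma cg399_QS_zero {v : Cfg dh → Wsp dm → F} {y : Cfg dh} {w : Wsp dm}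
    (h : ∀ᶠ p in 𝓝 (y, w), (fun p : Cfg dh × Wsp dm => v p.1 p.2) p = 0) :
    S.QS φ N m β v y w = 0 := by
  have h3 : (fun p : Cfg dh × Wsp dm => v p.1 p.2) =ᶠ[𝓝 (y, w)]
      fun p => (fun (_ : Cfg dh) (_ : Wsp dm) => (0 : F)) p.1 p.2 := h
  rw [cg399_QS_congr S φ N m β (v' := fun (_ : Cfg dh) (_ : Wsp dm) => (0 : F)) h3, cg399_QS_eq]
  have h1 : ∀ i A, py i A (fun (_ : Cfg dh) (_ : Wsp dm) => (0 : F)) y w = 0 := by
    intro i A
    unfold py pd
    simp
  have h2 : ∀ j B, pw j B (fun (_ : Cfg dh) (_ : Wsp dm) => (0 : F)) y w = 0 := by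
    intro j B
    unfold pw
    simp
  unfold AN.Qs Setup.Qh Setup.Q1 Setup.Qr
  simp only [h1, h2, map_zero, smul_zero, Finset.sum_const_zero, add_zero]

lemma cg399_comm (Θ : Cfg dh → Wsp dm → ℝ) (v : Cfg dh → Wsp dm → F) (y : Cfg dh) (w : Wsp dm) :
    S.QS φ N m β (mul2 Θ v) y w - ((Θ y w : ℝ) : ℂ) • S.QS φ N m β v y w =
      AN.Qs S φ β (mul2 Θ v) y w - ((Θ y w : ℝ) : ℂ) • AN.Qs S φ β v y w := by
  rw [cg399_QS_eq, cg399_QS_eq]
  have h : mul2 Θ v y w = ((Θ y w : ℝ) : ℂ) • v y w := rfl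
  rw [h, map_smul, map_smul]
  module

end loc

/-! ### integrals -/

lemma cg399_int {X : Type*} [MeasurableSpace X] {μ : Measure X} {s : Set X} (hs : MeasurableSet s)
    {f g : X → ℝ} (hf : ∀ x, 0 ≤ f x) (hg : IntegrableOn g s μ) (h0 : ∀ x, x ∉ s → f x = 0)
    (hle : ∀ x ∈ s, f x ≤ g x) : ∫ x, f x ∂μ ≤ ∫ x in s, g x ∂μ := by
  rw [← integral_indicator hs]
  refine integral_mono_of_nonneg (Filter.Eventually.of_forall hf) (hg.integrable_indicator hs)
    (Filter.Eventually.of_forall fun x => ?_)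
  by_cases hx : x ∈ s
  · simp only [Set.indicator_of_mem hx]
    exact hle x hx
  · simp only [Set.indicator_of_notMem hx]
    exact (h0 x hx).le

lemma cg399_cDy (S : Setup d F) (φ : Spl dh dm d) (i : Fin 9) :
    Continuous fun y : Cfg dh => S.Dy φ i y := by
  refine continuous_matrix fun B C => ?_
  unfold Setup.Dy Setup.Dm
  simp only [Matrix.of_apply]
  exact continuous_finsetSum _ fun A _ => continuous_const.mul (by fun_prop)

lemma cg399_open (S : Setup d F) (φ : Spl dh dm d) :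
    IsOpen {p : Cfg dh × Wsp dm | (S.Dy φ 8 p.1).det ≠ 0} :=
  isOpen_ne_fun ((cg399_cDy S φ 8).matrix_det.comp continuous_fst) continuous_const

lemma cg399_Nb (Y : Cfg dh) (dm : ℕ) (R ε : ℝ) : MeasurableSet (AN.Nb Y dm R ε) := by
  have h : IsOpen (AN.Nb Y dm R ε) := by
    have h1 : Continuous fun p : Cfg dh × Wsp dm => ‖p.1 - R • Y‖ := by fun_prop
    have h2 : Continuous fun p : Cfg dh × Wsp dm => ‖p.2‖ := by fun_prop
    exact (isOpen_lt h1 continuous_const).inter (isOpen_lt h2 continuous_const)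
  exact h.measurableSet

/-- **EG-Cut** -/
theorem cutG (S : Setup d F) (φ : Spl dh dm d) (hNorm : AN.NormStmt S) (hGh : AN.GhStmt S)
    (hCut : AN.CutStmt S) (hBd : AN.BdStmt S) (hFrame : AN.FrameStmt S) (hDec : AN.DecStmt S)
    (hQ : QInvStmt S) : CutGStmt S φ := by
  intro _ N _ Y hY
  obtain ⟨ε1, C1, hε1, hC1, hb⟩ := hBd dh dm φ Y hY
  obtain ⟨ε2, ρ, hε2, hρ, hn⟩ := hNorm dh dm φ Y hY
  obtain ⟨ε3, C3, hε3, hC3, hc⟩ := hCut dh dm φ Y hY
  have hfr := (hFrame.2.2 N).2 dh dm φ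
  refine ⟨min ε1 (min ε2 ε3), by positivity, fun ε hε hεle => ?_⟩
  have he1 : ε ≤ ε1 := hεle.trans (min_le_left _ _)
  have he2 : ε ≤ ε2 := hεle.trans ((min_le_right _ _).trans (min_le_left _ _))
  have he3 : ε ≤ ε3 := hεle.trans ((min_le_right _ _).trans (min_le_right _ _))
  obtain ⟨c, δ, hc0, -, hn'⟩ := hn ε ρ hε he2 hρ le_rfl
  obtain ⟨K, hK0, hK⟩ := cg399b_grad (dm := dm) Y hε
  set D : ℝ := C3 * K with hD
  have hD0 : 0 ≤ D := mul_nonneg hC3.le hK0
  refine ⟨2 / c + 32 * D ^ 2 / c + D, by positivity, fun R hR => ?_⟩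
  have hRp : 0 < R := by linarith
  -- norm bound
  have hnb : ∀ v, GI S v → ∫ p in AN.Nb Y dm R ε, ‖S.res φ v p.1 p.2‖ ^ 2
      ∂((volume : Measure (Cfg dh)).prod (volume : Measure (Wsp dm))) ≤ 1 / c * nsq v := by
    intro v hv
    have h1 := ((hn' R hRp).2 v hv.tst hv.inv).1
    have h2 : ∫ x in AN.Tube S φ Y R ε ρ, ‖v x‖ ^ 2 ≤ nsq v :=
      setIntegral_le_integral (Setup.Tst.norm_sq_int hv.tst)
        (Filter.Eventually.of_forall fun x => by positivity)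
    rw [h1] at h2
    rw [one_div, ← div_eq_inv_mul, le_div_iff₀ hc0, mul_comm]
    exact h2
  have hdet : ∀ y : Cfg dh, ‖y - R • Y‖ ≤ ε * R → (S.Dy φ 8 y).det ≠ 0 := fun y hy =>
    (hb R y hRp (hy.trans (mul_le_mul_of_nonneg_right he1 hRp.le))).1
  have hsm : ∀ v, GI S v → AN.Sm S φ (S.res φ v) := fun v hv => (hGh dh dm φ hY.sub v hv.tst.1).1
  have hcat : ∀ v, GI S v → ∀ p : Cfg dh × Wsp dm, ‖p.1 - R • Y‖ ≤ ε * R →
      ContDiffAt ℝ ∞ (fun p : Cfg dh × Wsp dm => S.res φ v p.1 p.2) p := fun v hv p hp =>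
    (hsm v hv).contDiffAt ((cg399_open S φ).mem_nhds (hdet p.1 hp))
  have hion : ∀ v, GI S v → IntegrableOn (fun p : Cfg dh × Wsp dm => ‖S.res φ v p.1 p.2‖ ^ 2)
      (AN.Nb Y dm R ε) ((volume : Measure (Cfg dh)).prod (volume : Measure (Wsp dm))) := by
    intro v hv
    have h1 : IntegrableOn (fun p : Cfg dh × Wsp dm => ‖S.res φ v p.1 p.2‖ ^ 2)
        (Metric.closedBall (R • Y) (ε * R) ×ˢ Metric.closedBall (0 : Wsp dm) (ε * R))
        ((volume : Measure (Cfg dh)).prod (volume : Measure (Wsp dm))) := by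
      apply ContinuousOn.integrableOn_compact
      · exact (isCompact_closedBall _ _).prod (isCompact_closedBall _ _)
      · intro p hp
        have h2 := (hcat v hv p (by
          have := hp.1
          rwa [mem_closedBall_iff_norm] at this)).continuousAt
        exact (h2.norm.pow 2).continuousWithinAt
    refine h1.mono_set fun p hp => ⟨?_, ?_⟩
    · rw [mem_closedBall_iff_norm]
      exact hp.1.le
    · rw [mem_closedBall_zero_iff]
      exact hp.2.le
  refine ⟨fun v hv => ?_, cg399 Y ε R, cg399_smooth Y ε R, fun y w => cg399b_bd Y ε _,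
    fun y w h => ?_, fun y w h1 h2 => cg399_one hε hRp h1 h2, fun m u hu => ?_⟩
  · refine (hnb v hv).trans (mul_le_mul_of_nonneg_right ?_ (nsq_nonneg v))
    have h1 : 1 / c ≤ 2 / c := by gcongr; norm_num
    have h2 : 0 ≤ 32 * D ^ 2 / c := by positivity
    linarith
  · have h1 := cg399_ne hε hRp h
    have h2 : 0 < ε * R := by positivity
    constructor <;> linarith [h1.1, h1.2]
  -- the cut-off function of `u`
  have hQu : ∀ β, GI S (QN S N m β u) := fun β => hQ N m β u hu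
  have hpt : ∀ β (y : Cfg dh) (w : Wsp dm), ‖y - R • Y‖ ≤ ε * R →
      S.QS φ N m β (S.res φ u) y w = S.res φ (QN S N m β u) y w := fun β y w hy =>
    (hfr.2 hY.sub hDec u hu.tst.1 hu.inv m β y w (hdet y hy)).symm
  have hout : ∀ p : Cfg dh × Wsp dm, p ∉ AN.Nb Y dm R ε →
      ∀ᶠ q in 𝓝 p, mul2 (cg399 Y ε R) (S.res φ u) q.1 q.2 = 0 := by
    intro p hp
    have hεR : 0 < ε * R := by positivity
    have h1 : ¬ (‖p.1 - R • Y‖ < ε * R ∧ ‖p.2‖ < ε * R) := hp
    rw [not_and_or, not_lt, not_lt] at h1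
    rcases h1 with h1 | h1
    · have h2 : ∀ᶠ q : Cfg dh × Wsp dm in 𝓝 p, 31 / 32 * ε * R < ‖q.1 - R • Y‖ := by
        apply (Continuous.continuousAt (by fun_prop)).eventually_const_lt
        linarith
      filter_upwards [h2] with q hq
      have h3 : cg399 Y ε R q.1 q.2 = 0 := by
        by_contra h4
        exact absurd (cg399_ne hε hRp h4).1 (not_lt.2 hq.le)
      show ((cg399 Y ε R q.1 q.2 : ℝ) : ℂ) • _ = 0
      rw [h3, Complex.ofReal_zero, zero_smul]
    · have h2 : ∀ᶠ q : Cfg dh × Wsp dm in 𝓝 p, 31 / 32 * ε * R < ‖q.2‖ := by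
        apply (Continuous.continuousAt (by fun_prop)).eventually_const_lt
        linarith
      filter_upwards [h2] with q hq
      have h3 : cg399 Y ε R q.1 q.2 = 0 := by
        by_contra h4
        exact absurd (cg399_ne hε hRp h4).2 (not_lt.2 hq.le)
      show ((cg399 Y ε R q.1 q.2 : ℝ) : ℂ) • _ = 0
      rw [h3, Complex.ofReal_zero, zero_smul]
  have hlast : ∀ β (y : Cfg dh) (w : Wsp dm), ‖y - R • Y‖ < ε * R → ‖w‖ < ε * R →
      ‖S.QS φ N m β (mul2 (cg399 Y ε R) (S.res φ u)) y w‖ ≤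
        ‖S.res φ (QN S N m β u) y w‖ + D / R * ‖S.res φ u y w‖ := by
    intro β y w hy hw
    have h1 := cg399_comm S φ N m β (cg399 Y ε R) (S.res φ u) y w
    have h2 := hc R y w hRp (lt_of_lt_of_le hy (mul_le_mul_of_nonneg_right he3 hRp.le))
      (lt_of_lt_of_le hw (mul_le_mul_of_nonneg_right he3 hRp.le))
      (fun p => cg399 Y ε R p.1 p.2) (S.res φ u) (cg399_smooth Y ε R) (hsm u hu) β
    have h3 : ‖AN.Qs S φ β (mul2 (cg399 Y ε R) (S.res φ u)) y w -
        ((cg399 Y ε R y w : ℝ) : ℂ) • AN.Qs S φ β (S.res φ u) y w‖ ≤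
        C3 * ‖fderiv ℝ (fun p : Cfg dh × Wsp dm => cg399 Y ε R p.1 p.2) (y, w)‖ *
          ‖S.res φ u y w‖ := h2
    have h4 : C3 * ‖fderiv ℝ (fun p : Cfg dh × Wsp dm => cg399 Y ε R p.1 p.2) (y, w)‖ ≤ D / R := by
      rw [hD, mul_div_assoc]
      exact mul_le_mul_of_nonneg_left (cg399_grad hRp hK (y, w)) hC3.le
    have h5 : 0 ≤ cg399 Y ε R y w ∧ cg399 Y ε R y w ≤ 1 := cg399b_bd Y ε (R⁻¹ • y, R⁻¹ • w)
    have h6 : ‖((cg399 Y ε R y w : ℝ) : ℂ) • S.QS φ N m β (S.res φ u) y w‖ ≤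
        ‖S.res φ (QN S N m β u) y w‖ := by
      rw [norm_smul, hpt β y w hy.le, Complex.norm_real, Real.norm_eq_abs, abs_of_nonneg h5.1]
      exact mul_le_of_le_one_left (norm_nonneg _) h5.2
    have h7 : S.QS φ N m β (mul2 (cg399 Y ε R) (S.res φ u)) y w =
        ((cg399 Y ε R y w : ℝ) : ℂ) • S.QS φ N m β (S.res φ u) y w +
        (AN.Qs S φ β (mul2 (cg399 Y ε R) (S.res φ u)) y w -
          ((cg399 Y ε R y w : ℝ) : ℂ) • AN.Qs S φ β (S.res φ u) y w) := by
      rw [← h1]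
      abel
    rw [h7]
    refine (norm_add_le _ _).trans (add_le_add h6 (h3.trans ?_))
    exact mul_le_mul_of_nonneg_right h4 (norm_nonneg _)
  refine ⟨⟨?_, ?_⟩, ?_, ?_, ?_, ?_, ?_⟩
  · -- smooth
    rw [contDiff_iff_contDiffAt]
    intro p
    rcases le_or_gt ‖p.1 - R • Y‖ (ε * R) with hp | hp
    · have h1 := (cg399_smooth (dm := dm) Y ε R).contDiffAt (x := p)
      have h2 : ContDiffAt ℝ ∞ (fun q : Cfg dh × Wsp dm => ((cg399 Y ε R q.1 q.2 : ℝ) : ℂ)) p :=
        Complex.ofRealCLM.contDiff.contDiffAt.comp p h1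
      exact h2.smul (hcat u hu p hp)
    · have h1 : p ∉ AN.Nb Y dm R ε := fun h => absurd h.1 (not_lt.2 hp.le)
      have h2 : (fun q : Cfg dh × Wsp dm => mul2 (cg399 Y ε R) (S.res φ u) q.1 q.2) =ᶠ[𝓝 p]
          fun _ => (0 : F) := hout p h1
      exact contDiffAt_const.congr_of_eventuallyEq h2
  · -- compact support
    refine HasCompactSupport.intro
      (K := Metric.closedBall (R • Y) (ε * R) ×ˢ Metric.closedBall (0 : Wsp dm) (ε * R))
      ((isCompact_closedBall _ _).prod (isCompact_closedBall _ _)) fun p hp => ?_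
    have h1 : p ∉ AN.Nb Y dm R ε := by
      intro h
      apply hp
      refine ⟨?_, ?_⟩
      · rw [mem_closedBall_iff_norm]
        exact h.1.le
      · rw [mem_closedBall_zero_iff]
        exact h.2.le
    exact (hout p h1).self_of_nhds
  · -- support
    intro y w h
    by_contra hn2
    apply h
    have h1 : (y, w) ∉ AN.Nb Y dm R ε := fun h2 => hn2 ⟨h2.1.le, h2.2.le⟩
    exact (hout (y, w) h1).self_of_nhds
  · -- norm
    have h1 : ns2 (mul2 (cg399 Y ε R) (S.res φ u)) ≤ ∫ p in AN.Nb Y dm R ε,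
        ‖S.res φ u p.1 p.2‖ ^ 2 ∂((volume : Measure (Cfg dh)).prod (volume : Measure (Wsp dm))) := by
      apply cg399_int (cg399_Nb Y dm R ε) (fun p => by positivity) (hion u hu)
      · intro p hp
        rw [(hout p hp).self_of_nhds, norm_zero]
        norm_num
      · intro p _
        have h5 : 0 ≤ cg399 Y ε R p.1 p.2 ∧ cg399 Y ε R p.1 p.2 ≤ 1 :=
          cg399b_bd Y ε (R⁻¹ • p.1, R⁻¹ • p.2)
        have h6 : ‖mul2 (cg399 Y ε R) (S.res φ u) p.1 p.2‖ ≤ ‖S.res φ u p.1 p.2‖ := by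
          show ‖((cg399 Y ε R p.1 p.2 : ℝ) : ℂ) • S.res φ u p.1 p.2‖ ≤ _
          rw [norm_smul, Complex.norm_real, Real.norm_eq_abs, abs_of_nonneg h5.1]
          exact mul_le_of_le_one_left (norm_nonneg _) h5.2
        exact pow_le_pow_left₀ (norm_nonneg _) h6 2
    refine (h1.trans (hnb u hu)).trans (mul_le_mul_of_nonneg_right ?_ (nsq_nonneg u))
    have h1 : 1 / c ≤ 2 / c := by gcongr; norm_num
    have h2 : 0 ≤ 32 * D ^ 2 / c := by positivity
    linarith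
  · -- energy
    have h1 : ∀ β, ns2 (S.QS φ N m β (mul2 (cg399 Y ε R) (S.res φ u))) ≤
        2 / c * nsq (QN S N m β u) + 2 * (D / R) ^ 2 / c * nsq u := by
      intro β
      have h2 : ns2 (S.QS φ N m β (mul2 (cg399 Y ε R) (S.res φ u))) ≤
          ∫ p in AN.Nb Y dm R ε, (2 * ‖S.res φ (QN S N m β u) p.1 p.2‖ ^ 2 +
            2 * (D / R) ^ 2 * ‖S.res φ u p.1 p.2‖ ^ 2)
            ∂((volume : Measure (Cfg dh)).prod (volume : Measure (Wsp dm))) := by
        apply cg399_int (cg399_Nb Y dm R ε) (fun p => by positivity)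
          (((hion _ (hQu β)).const_mul 2).add ((hion u hu).const_mul _))
        · intro p hp
          rw [cg399_QS_zero S φ N m β (hout p hp), norm_zero]
          norm_num
        · intro p hp
          have h3 := hlast β p.1 p.2 hp.1 hp.2
          have h4 : 0 ≤ D / R * ‖S.res φ u p.1 p.2‖ := by positivity
          have h5 := pow_le_pow_left₀ (norm_nonneg _) h3 2
          have h6 : (‖S.res φ (QN S N m β u) p.1 p.2‖ + D / R * ‖S.res φ u p.1 p.2‖) ^ 2 ≤
              2 * ‖S.res φ (QN S N m β u) p.1 p.2‖ ^ 2 +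
                2 * (D / R) ^ 2 * ‖S.res φ u p.1 p.2‖ ^ 2 := by
            nlinarith [sq_nonneg (‖S.res φ (QN S N m β u) p.1 p.2‖ - D / R * ‖S.res φ u p.1 p.2‖)]
          exact h5.trans h6
      have h3 : ∫ p in AN.Nb Y dm R ε, (2 * ‖S.res φ (QN S N m β u) p.1 p.2‖ ^ 2 +
            2 * (D / R) ^ 2 * ‖S.res φ u p.1 p.2‖ ^ 2)
            ∂((volume : Measure (Cfg dh)).prod (volume : Measure (Wsp dm))) =
          2 * (∫ p in AN.Nb Y dm R ε, ‖S.res φ (QN S N m β u) p.1 p.2‖ ^ 2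
            ∂((volume : Measure (Cfg dh)).prod (volume : Measure (Wsp dm)))) +
          2 * (D / R) ^ 2 * ∫ p in AN.Nb Y dm R ε, ‖S.res φ u p.1 p.2‖ ^ 2
            ∂((volume : Measure (Cfg dh)).prod (volume : Measure (Wsp dm))) := by
        rw [integral_add ((hion _ (hQu β)).const_mul 2) ((hion u hu).const_mul _),
          integral_const_mul, integral_const_mul]
      have h4 := mul_le_mul_of_nonneg_left (hnb _ (hQu β)) (show (0 : ℝ) ≤ 2 by norm_num)
      have h5 := mul_le_mul_of_nonneg_left (hnb u hu) (show 0 ≤ 2 * (D / R) ^ 2 by positivity)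
      rw [h3] at h2
      calc _ ≤ _ := h2
        _ ≤ 2 * (1 / c * nsq (QN S N m β u)) + 2 * (D / R) ^ 2 * (1 / c * nsq u) :=
            add_le_add h4 h5
        _ = _ := by ring
    have h2 : S.ES φ N m (mul2 (cg399 Y ε R) (S.res φ u)) ≤
        ∑ β, (2 / c * nsq (QN S N m β u) + 2 * (D / R) ^ 2 / c * nsq u) :=
      Finset.sum_le_sum fun β _ => h1 β
    rw [Finset.sum_add_distrib, ← Finset.mul_sum, Finset.sum_const, Finset.card_univ,
      Fintype.card_fin, nsmul_eq_mul] at h2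
    have h3 : 0 ≤ ∑ β, nsq (QN S N m β u) := Finset.sum_nonneg fun β _ => nsq_nonneg _
    have h4 := nsq_nonneg u
    have h5 : ((16 : ℕ) : ℝ) * (2 * (D / R) ^ 2 / c * nsq u) = 32 * D ^ 2 / c * (1 / R ^ 2 * nsq u) := by
      rw [div_pow]
      push_cast
      field_simp
      ring
    rw [h5] at h2
    have h6 : 0 ≤ 1 / R ^ 2 * nsq u := by positivity
    have h7 : 0 ≤ 32 * D ^ 2 / c := by positivity
    have h8 : 0 ≤ 2 / c := by positivity
    nlinarith [mul_nonneg h7 h3, mul_nonneg h8 h6, mul_nonneg hD0 h3, mul_nonneg hD0 h6]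
  · -- near the centre
    intro β y w hy hw
    rw [← hpt β y w (by
      have : 0 < ε * R := by positivity
      linarith)]
    apply cg399_QS_congr
    have h1 : ∀ᶠ q : Cfg dh × Wsp dm in 𝓝 (y, w), ‖q.1 - R • Y‖ < 3 / 4 * ε * R :=
      (Continuous.continuousAt (by fun_prop)).eventually_lt_const hy
    have h2 : ∀ᶠ q : Cfg dh × Wsp dm in 𝓝 (y, w), ‖q.2‖ < 3 / 4 * ε * R :=
      (Continuous.continuousAt (by fun_prop)).eventually_lt_const hw
    filter_upwards [h1, h2] with q hq1 hq2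
    show ((cg399 Y ε R q.1 q.2 : ℝ) : ℂ) • S.res φ u q.1 q.2 = S.res φ u q.1 q.2
    rw [cg399_one hε hRp hq1 hq2, Complex.ofReal_one, one_smul]
  · intro β y w hy hw
    refine (hlast β y w hy hw).trans (add_le_add le_rfl ?_)
    apply mul_le_mul_of_nonneg_right _ (norm_nonneg _)
    apply div_le_div_of_nonneg_right _ hRp.le
    have h1 : 0 ≤ 2 / c := by positivity
    have h2 : 0 ≤ 32 * D ^ 2 / c := by positivity
    linarith

end Vale.Agent.P353.Z.AE
end

section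

/-! # P353, all `N`, block E: Lipschitz dependence of the fibre supercharge on the internal part -/

open MeasureTheory Filter Topology Matrix
open scoped ContDiff

namespace Vale.Agent.P353.Z.AE

variable {d dh dm r ds : ℕ} {F : Type*} [NormedAddCommGroup F] [InnerProductSpace ℂ F]

/-- Lipschitz bound for the entries of the inverse -/
private lemma pert2_inv_lip (M M' : Matrix (Fin dm) (Fin dm) ℝ) (hM : M.det ≠ 0) (hM' : M'.det ≠ 0)
    {K ε : ℝ} (hK : 0 ≤ K) (hε : 0 ≤ ε) (h1 : ∀ A B, |M⁻¹ A B| ≤ K) (h2 : ∀ A B, |M'⁻¹ A B| ≤ K)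
    (h3 : ∀ A B, |M' A B - M A B| ≤ ε) (A B : Fin dm) :
    |M'⁻¹ A B - M⁻¹ A B| ≤ dm * (dm * (K * K)) * ε := by
  have key : M'⁻¹ - M⁻¹ = M'⁻¹ * (M - M') * M⁻¹ := by
    rw [Matrix.mul_sub, Matrix.sub_mul, Matrix.nonsing_inv_mul _ (isUnit_iff_ne_zero.2 hM'),
      Matrix.one_mul, Matrix.mul_assoc, Matrix.mul_nonsing_inv _ (isUnit_iff_ne_zero.2 hM),
      Matrix.mul_one]
  have h4 : M'⁻¹ A B - M⁻¹ A B = ∑ Q, (∑ P, M'⁻¹ A P * (M - M') P Q) * M⁻¹ Q B := by
    rw [← Matrix.sub_apply, key, Matrix.mul_apply]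
    simp only [Matrix.mul_apply]
  rw [h4]
  refine (Finset.abs_sum_le_sum_abs _ _).trans ?_
  have h5 : ∀ Q, |(∑ P, M'⁻¹ A P * (M - M') P Q) * M⁻¹ Q B| ≤ (dm * (K * ε)) * K := by
    intro Q
    rw [abs_mul]
    refine mul_le_mul ?_ (h1 Q B) (abs_nonneg _) (by positivity)
    refine (Finset.abs_sum_le_sum_abs _ _).trans ?_
    have h6 : ∀ P, |M'⁻¹ A P * (M - M') P Q| ≤ K * ε := by
      intro P
      rw [abs_mul, Matrix.sub_apply, abs_sub_comm]
      exact mul_le_mul (h2 A P) (h3 P Q) (abs_nonneg _) hK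
    refine (Finset.sum_le_sum fun P _ => h6 P).trans ?_
    rw [Finset.sum_const, Finset.card_univ, Fintype.card_fin, nsmul_eq_mul]
  refine (Finset.sum_le_sum fun Q _ => h5 Q).trans ?_
  rw [Finset.sum_const, Finset.card_univ, Fintype.card_fin, nsmul_eq_mul]
  apply le_of_eq
  ring

private lemma pert2_wt (w : Wsp dm) (i : Fin 9) (B : Fin dm) : |wt w i B| ≤ ‖w‖ := by
  unfold wt
  refine Fin.lastCases ?_ (fun j => ?_) i
  · rw [Fin.lastCases_last, abs_zero]
    exact norm_nonneg _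
  · rw [Fin.lastCases_castSucc, ← Real.norm_eq_abs]
    exact PiLp.norm_apply_le w (j, B)

/-- difference of the coefficients of the derivative term -/
private lemma pert2_coef {K1 K2 e1 e2 a a' b b' : ℝ} (hK1 : 0 ≤ K1) (he1 : 0 ≤ e1)
    (h1 : |a'| ≤ K1) (h2 : |b| ≤ K2) (h3 : |a' - a| ≤ e1) (h4 : |b' - b| ≤ e2) :
    |a' * b' - a * b| ≤ K1 * e2 + e1 * K2 := by
  have : a' * b' - a * b = a' * (b' - b) + (a' - a) * b := by ring
  rw [this]
  refine (abs_add_le _ _).trans ?_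
  rw [abs_mul, abs_mul]
  have g1 : |a'| * |b' - b| ≤ K1 * e2 := mul_le_mul h1 h4 (abs_nonneg _) hK1
  have g2 : |a' - a| * |b| ≤ e1 * K2 := mul_le_mul h3 h2 (abs_nonneg _) he1
  exact add_le_add g1 g2

/-- the pointwise estimate -/
private lemma pert2_point (S : Setup d F) (φ : Spl dh dm d) (D D' : Fin 9 → Matrix (Fin dm) (Fin dm) ℝ)
    {q ε V : ℝ} (hε : 0 ≤ ε) (hV : 0 ≤ V) (β : Fin 16)
    (hV8 : ∀ B, ‖S.vec (S.g 8) (φ (Sum.inr B)) β‖ ≤ V)
    (hV2 : ∀ B i j, ‖S.vec (S.g2 i j) (φ (Sum.inr B)) β‖ ≤ V)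
    (hcf : ∀ (B C : Fin dm) (j : Fin 8) (E : Fin dm),
      |(D' 8)⁻¹ B C * D' j.castSucc C E - (D 8)⁻¹ B C * D j.castSucc C E| ≤ q)
    (hDD : ∀ i A B, |D' i A B - D i A B| ≤ ε) (f : Wsp dm → F) (w : Wsp dm) :
    ‖S.q1 φ D' β f w - S.q1 φ D β f w‖ ≤
      (dm * (V * (dm * q))) * (∑ j, ∑ E, ‖pf j E f w‖) +
      (dm * (9 * (9 * (S.κ * (dm * ε + dm * ε) * V)))) * ‖((‖w‖ : ℝ) : ℂ) • f w‖ := by
  have hsplit : S.q1 φ D' β f w - S.q1 φ D β f w =
      Complex.I • (∑ B, S.vec (S.g 8) (φ (Sum.inr B)) β (∑ C, ∑ j : Fin 8, ∑ E,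
        ((((D' 8)⁻¹ B C * D' j.castSucc C E - (D 8)⁻¹ B C * D j.castSucc C E : ℝ)) : ℂ) • pf j E f w)) +
      (1 / 2 : ℂ) • ∑ B, ∑ i, ∑ j,
        ((S.κ * ((∑ C, (D' i B C - D i B C) * wt w j C) - ∑ C, (D' j B C - D j B C) * wt w i C) : ℝ) : ℂ) •
          S.vec (S.g2 i j) (φ (Sum.inr B)) β (f w) := by
    have e1 : ∀ B, (∑ C, ∑ j : Fin 8, ∑ E,
        ((((D' 8)⁻¹ B C * D' j.castSucc C E - (D 8)⁻¹ B C * D j.castSucc C E : ℝ)) : ℂ) • pf j E f w) =
        (∑ C, (((D' 8)⁻¹ B C : ℝ) : ℂ) • ∑ j : Fin 8, ∑ E, ((D' j.castSucc C E : ℝ) : ℂ) • pf j E f w) -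
        ∑ C, (((D 8)⁻¹ B C : ℝ) : ℂ) • ∑ j : Fin 8, ∑ E, ((D j.castSucc C E : ℝ) : ℂ) • pf j E f w := by
      intro B
      rw [← Finset.sum_sub_distrib]
      refine Finset.sum_congr rfl fun C _ => ?_
      simp only [Finset.smul_sum, smul_smul, ← Finset.sum_sub_distrib, ← sub_smul]
      refine Finset.sum_congr rfl fun j _ => Finset.sum_congr rfl fun E _ => ?_
      push_cast
      rfl
    have e2 : ∀ B i j, ((S.κ * ((∑ C, (D' i B C - D i B C) * wt w j C) -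
        ∑ C, (D' j B C - D j B C) * wt w i C) : ℝ) : ℂ) • S.vec (S.g2 i j) (φ (Sum.inr B)) β (f w) =
        ((S.κ * ((∑ C, D' i B C * wt w j C) - ∑ C, D' j B C * wt w i C) : ℝ) : ℂ) •
          S.vec (S.g2 i j) (φ (Sum.inr B)) β (f w) -
        ((S.κ * ((∑ C, D i B C * wt w j C) - ∑ C, D j B C * wt w i C) : ℝ) : ℂ) •
          S.vec (S.g2 i j) (φ (Sum.inr B)) β (f w) := by
      intro B i j
      rw [← sub_smul, ← Complex.ofReal_sub]
      congr 2
      simp only [sub_mul, Finset.sum_sub_distrib]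
      ring
    simp only [e1, e2, map_sub, Finset.sum_sub_distrib, smul_sub]
    unfold Setup.q1
    abel
  rw [hsplit]
  refine (norm_add_le _ _).trans (add_le_add ?_ ?_)
  · rw [norm_smul, Complex.norm_I, one_mul]
    have a1 : ∀ B, ‖S.vec (S.g 8) (φ (Sum.inr B)) β (∑ C, ∑ j : Fin 8, ∑ E,
        ((((D' 8)⁻¹ B C * D' j.castSucc C E - (D 8)⁻¹ B C * D j.castSucc C E : ℝ)) : ℂ) • pf j E f w)‖ ≤
        V * (dm * (q * ∑ j, ∑ E, ‖pf j E f w‖)) := by
      intro B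
      refine (ContinuousLinearMap.le_opNorm _ _).trans (mul_le_mul (hV8 B) ?_ (norm_nonneg _) hV)
      refine (norm_sum_le _ _).trans ?_
      have a2 : ∀ C, ‖∑ j : Fin 8, ∑ E,
          ((((D' 8)⁻¹ B C * D' j.castSucc C E - (D 8)⁻¹ B C * D j.castSucc C E : ℝ)) : ℂ) • pf j E f w‖ ≤
          q * ∑ j, ∑ E, ‖pf j E f w‖ := by
        intro C
        refine (norm_sum_le _ _).trans ?_
        rw [Finset.mul_sum]
        refine Finset.sum_le_sum fun j _ => ?_
        refine (norm_sum_le _ _).trans ?_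
        rw [Finset.mul_sum]
        refine Finset.sum_le_sum fun E _ => ?_
        rw [norm_smul, Complex.norm_real, Real.norm_eq_abs]
        refine mul_le_mul_of_nonneg_right ?_ (norm_nonneg _)
        exact hcf B C j E
      refine (Finset.sum_le_sum fun C _ => a2 C).trans ?_
      rw [Finset.sum_const, Finset.card_univ, Fintype.card_fin, nsmul_eq_mul]
    refine (norm_sum_le _ _).trans ((Finset.sum_le_sum fun B _ => a1 B).trans ?_)
    rw [Finset.sum_const, Finset.card_univ, Fintype.card_fin, nsmul_eq_mul]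
    apply le_of_eq
    ring
  · rw [norm_smul]
    have b0 : ‖(1 / 2 : ℂ)‖ ≤ 1 := by
      rw [norm_div, norm_one, Complex.norm_ofNat]; norm_num
    have b1 : ∀ i B j, |∑ C, (D' i B C - D i B C) * wt w j C| ≤ dm * ε * ‖w‖ := by
      intro i B j
      refine (Finset.abs_sum_le_sum_abs _ _).trans ?_
      have : ∀ C, |(D' i B C - D i B C) * wt w j C| ≤ ε * ‖w‖ := by
        intro C
        rw [abs_mul]
        exact mul_le_mul (hDD i B C) (pert2_wt w j C) (abs_nonneg _) hε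
      refine (Finset.sum_le_sum fun C _ => this C).trans ?_
      rw [Finset.sum_const, Finset.card_univ, Fintype.card_fin, nsmul_eq_mul]
      apply le_of_eq
      ring
    have hnw : ‖((‖w‖ : ℝ) : ℂ) • f w‖ = ‖w‖ * ‖f w‖ := by
      rw [norm_smul, Complex.norm_real, norm_norm]
    have b2 : ∀ B i j, ‖((S.κ * ((∑ C, (D' i B C - D i B C) * wt w j C) -
        ∑ C, (D' j B C - D j B C) * wt w i C) : ℝ) : ℂ) • S.vec (S.g2 i j) (φ (Sum.inr B)) β (f w)‖ ≤
        (S.κ * (dm * ε + dm * ε) * V) * ‖((‖w‖ : ℝ) : ℂ) • f w‖ := by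
      intro B i j
      rw [norm_smul, Complex.norm_real, Real.norm_eq_abs, abs_mul, abs_of_pos S.κ_pos, hnw]
      have c1 : |(∑ C, (D' i B C - D i B C) * wt w j C) - ∑ C, (D' j B C - D j B C) * wt w i C| ≤
          (dm * ε + dm * ε) * ‖w‖ := by
        refine (abs_sub _ _).trans ?_
        have := b1 i B j
        have := b1 j B i
        linarith
      have c2 : ‖S.vec (S.g2 i j) (φ (Sum.inr B)) β (f w)‖ ≤ V * ‖f w‖ :=
        (ContinuousLinearMap.le_opNorm _ _).trans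
          (mul_le_mul_of_nonneg_right (hV2 B i j) (norm_nonneg _))
      calc _ ≤ (S.κ * ((dm * ε + dm * ε) * ‖w‖)) * (V * ‖f w‖) :=
            mul_le_mul (mul_le_mul_of_nonneg_left c1 S.κ_pos.le) c2 (norm_nonneg _)
              (mul_nonneg S.κ_pos.le (by positivity))
        _ = _ := by ring
    have b3 : ‖∑ B, ∑ i, ∑ j,
        ((S.κ * ((∑ C, (D' i B C - D i B C) * wt w j C) - ∑ C, (D' j B C - D j B C) * wt w i C) : ℝ) : ℂ) •
          S.vec (S.g2 i j) (φ (Sum.inr B)) β (f w)‖ ≤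
        (dm * (9 * (9 * (S.κ * (dm * ε + dm * ε) * V)))) * ‖((‖w‖ : ℝ) : ℂ) • f w‖ := by
      refine (norm_sum_le _ _).trans ?_
      have : ∀ B, ‖∑ i, ∑ j,
        ((S.κ * ((∑ C, (D' i B C - D i B C) * wt w j C) - ∑ C, (D' j B C - D j B C) * wt w i C) : ℝ) : ℂ) •
          S.vec (S.g2 i j) (φ (Sum.inr B)) β (f w)‖ ≤
          9 * (9 * ((S.κ * (dm * ε + dm * ε) * V) * ‖((‖w‖ : ℝ) : ℂ) • f w‖)) := by
        intro B
        refine (norm_sum_le _ _).trans ((Finset.sum_le_sum fun i _ => (norm_sum_le _ _).trans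
          (Finset.sum_le_sum fun j _ => b2 B i j)).trans ?_)
        simp only [Finset.sum_const, Finset.card_univ, Fintype.card_fin, nsmul_eq_mul]
        norm_num
      refine (Finset.sum_le_sum fun B _ => this B).trans ?_
      rw [Finset.sum_const, Finset.card_univ, Fintype.card_fin, nsmul_eq_mul]
      apply le_of_eq
      ring
    calc _ ≤ 1 * _ := mul_le_mul_of_nonneg_right b0 (norm_nonneg _)
      _ = _ := one_mul _
      _ ≤ _ := b3

private lemma pert2_fin {ι : Type*} [Finite ι] (g : ι → ℝ) : ∃ V : ℝ, 0 ≤ V ∧ ∀ i, g i ≤ V := by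
  obtain ⟨M, hM⟩ := Finite.exists_le g
  exact ⟨max M 0, le_max_right _ _, fun i => (hM i).trans (le_max_left _ _)⟩

private lemma pert2_V (S : Setup d F) (φ : Spl dh dm d) : ∃ V : ℝ, 0 ≤ V ∧
    (∀ β B, ‖S.vec (S.g 8) (φ (Sum.inr B)) β‖ ≤ V) ∧
    (∀ β B i j, ‖S.vec (S.g2 i j) (φ (Sum.inr B)) β‖ ≤ V) := by
  obtain ⟨V1, h1, h1'⟩ := pert2_fin fun p : Fin 16 × Fin dm =>
    ‖S.vec (S.g 8) (φ (Sum.inr p.2)) p.1‖
  obtain ⟨V2, h2, h2'⟩ := pert2_fin fun p : Fin 16 × Fin dm × Fin 9 × Fin 9 =>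
    ‖S.vec (S.g2 p.2.2.1 p.2.2.2) (φ (Sum.inr p.2.1)) p.1‖
  exact ⟨max V1 V2, le_max_of_le_left h1, fun β B => (h1' (β, B)).trans (le_max_left _ _),
    fun β B i j => (h2' (β, B, i, j)).trans (le_max_right _ _)⟩


/-- coordinates of `x` minus its centre part -/
private lemma pert2_coord (ψ : Spl r ds dh) (x : Cfg dh) (p : Fin 9 × Fin dh) :
    |x p - cmb ψ (zpt ψ x) 0 p| ≤ ‖spt ψ x‖ := by
  obtain ⟨i, A⟩ := p
  obtain ⟨t, rfl⟩ := ψ.surjective A
  rcases t with a | b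
  · have h1 : cmb ψ (zpt ψ x) 0 (i, ψ (Sum.inl a)) = x (i, ψ (Sum.inl a)) := by
      simp [cmb, zpt]
    rw [h1, sub_self, abs_zero]
    exact norm_nonneg _
  · have h1 : cmb ψ (zpt ψ x) 0 (i, ψ (Sum.inr b)) = 0 := by
      simp [cmb]
    have h2 : spt ψ x (i, b) = x (i, ψ (Sum.inr b)) := rfl
    rw [h1, sub_zero, ← h2, ← Real.norm_eq_abs]
    exact PiLp.norm_apply_le (spt ψ x) (i, b)

/-- the centre part is closer to the ray -/
private lemma pert2_norm (ψ : Spl r ds dh) (x : Cfg dh) (y₀ : Cfg r) (R : ℝ) :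
    ‖cmb ψ (zpt ψ x) 0 - R • cmb ψ y₀ 0‖ ≤ ‖x - R • cmb ψ y₀ 0‖ := by
  rw [EuclideanSpace.norm_eq, EuclideanSpace.norm_eq]
  refine Real.sqrt_le_sqrt (Finset.sum_le_sum fun p _ => ?_)
  obtain ⟨i, A⟩ := p
  obtain ⟨t, rfl⟩ := ψ.surjective A
  refine pow_le_pow_left₀ (norm_nonneg _) ?_ 2
  rcases t with a | b
  · have h1 : cmb ψ (zpt ψ x) 0 (i, ψ (Sum.inl a)) = x (i, ψ (Sum.inl a)) := by
      simp [cmb, zpt]
    rw [PiLp.sub_apply, PiLp.sub_apply, h1]
  · have h1 : ∀ y : Cfg r, cmb ψ y 0 (i, ψ (Sum.inr b)) = 0 := by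
      intro y
      simp [cmb]
    rw [PiLp.sub_apply, PiLp.smul_apply, h1, h1, smul_zero, sub_zero, norm_zero]
    exact norm_nonneg _

/-- the matrices depend in a Lipschitz way on the internal part -/
private lemma pert2_dy (S : Setup d F) (φ : Spl dh dm d) (ψ : Spl r ds dh) : ∃ c : ℝ, 0 ≤ c ∧
    ∀ (x : Cfg dh) (i : Fin 9) (B E : Fin dm),
      |S.Dy φ i x B E - S.Dz φ ψ (zpt ψ x) i B E| ≤ c * ‖spt ψ x‖ := by
  obtain ⟨c, hc, hc'⟩ := pert2_fin fun p : Fin dm × Fin dm =>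
    ∑ A, |S.f (φ (Sum.inr p.1)) (φ (Sum.inl A)) (φ (Sum.inr p.2))|
  refine ⟨c, hc, fun x i B E => ?_⟩
  have h1 : S.Dy φ i x B E - S.Dz φ ψ (zpt ψ x) i B E =
      ∑ A, S.f (φ (Sum.inr B)) (φ (Sum.inl A)) (φ (Sum.inr E)) *
        (x (i, A) - cmb ψ (zpt ψ x) 0 (i, A)) := by
    simp only [Setup.Dz, Setup.Dy, Setup.Dm, Matrix.of_apply, mul_sub, Finset.sum_sub_distrib]
  rw [h1]
  refine (Finset.abs_sum_le_sum_abs _ _).trans ?_
  refine (Finset.sum_le_sum fun A _ => ?_ :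
    _ ≤ ∑ A, |S.f (φ (Sum.inr B)) (φ (Sum.inl A)) (φ (Sum.inr E))| * ‖spt ψ x‖).trans ?_
  · rw [abs_mul]
    exact mul_le_mul_of_nonneg_left (pert2_coord ψ x (i, A)) (abs_nonneg _)
  · rw [← Finset.sum_mul]
    exact mul_le_mul_of_nonneg_right (hc' (B, E)) (norm_nonneg _)

/-- **E-Pert2** -/
theorem pert2 (S : Setup d F) (φ : Spl dh dm d) (ψ : Spl r ds dh) : Pert2Stmt S φ ψ := by
  intro _ _ y₀ ε0 C0 _ hC0 hB
  obtain ⟨V, hV, hV8, hV2⟩ := pert2_V S φ
  obtain ⟨c, hc, hc'⟩ := pert2_dy S φ ψ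
  obtain ⟨a, ha⟩ : ∃ a : ℝ, a = dm * (V * (dm * (C0 * c + dm * (dm * (C0 * C0)) * c * C0))) :=
    ⟨_, rfl⟩
  obtain ⟨b, hb⟩ : ∃ b : ℝ, b = dm * (9 * (9 * (S.κ * (dm * c + dm * c) * V))) := ⟨_, rfl⟩
  have ha0 : 0 ≤ a := by rw [ha]; positivity
  have hb0 : 0 ≤ b := by
    rw [hb]
    have := S.κ_pos.le
    positivity
  refine ⟨a + b, by positivity, fun R hR x hx f β w => ?_⟩
  have hx' : ‖cmb ψ (zpt ψ x) 0 - R • cmb ψ y₀ 0‖ ≤ ε0 * R := (pert2_norm ψ x y₀ R).trans hx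
  have hd1 := hB.det R hR x hx
  have hd2 := hB.det R hR _ hx'
  have hi1 := hB.inv R hR x hx
  have hi2 := hB.inv R hR _ hx'
  have hy2 := hB.dy R hR _ hx'
  obtain ⟨s, hs⟩ : ∃ s : ℝ, s = ‖spt ψ x‖ := ⟨_, rfl⟩
  have hs0 : 0 ≤ s := by rw [hs]; exact norm_nonneg _
  have hDD : ∀ i A B, |S.DY φ x i A B - S.Dz φ ψ (zpt ψ x) i A B| ≤ c * s := by
    intro i A B
    rw [hs]
    exact hc' x i A B
  have hCR : 0 ≤ C0 / R := by positivity
  have hcs : 0 ≤ c * s := by positivity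
  have hI : ∀ A B, |(S.DY φ x 8)⁻¹ A B - (S.Dz φ ψ (zpt ψ x) 8)⁻¹ A B| ≤
      dm * (dm * (C0 / R * (C0 / R))) * (c * s) :=
    pert2_inv_lip (S.Dz φ ψ (zpt ψ x) 8) (S.DY φ x 8) hd2 hd1 hCR hcs hi2 hi1 (hDD 8)
  have hcf : ∀ (B C : Fin dm) (j : Fin 8) (E : Fin dm),
      |(S.DY φ x 8)⁻¹ B C * S.DY φ x j.castSucc C E -
        (S.Dz φ ψ (zpt ψ x) 8)⁻¹ B C * S.Dz φ ψ (zpt ψ x) j.castSucc C E| ≤
        C0 / R * (c * s) + dm * (dm * (C0 / R * (C0 / R))) * (c * s) * (C0 * R) := by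
    intro B C j E
    exact pert2_coef hCR (by positivity) (hi1 B C) (hy2 _ _ _) (hI B C) (hDD _ _ _)
  have hpt := pert2_point S φ (S.Dz φ ψ (zpt ψ x)) (S.DY φ x) hcs hV β (hV8 β) (hV2 β) hcf hDD f w
  refine hpt.trans ?_
  have hnw : ‖((‖w‖ : ℝ) : ℂ) • f w‖ = ‖w‖ * ‖f w‖ := by
    rw [norm_smul, Complex.norm_real, norm_norm]
  rw [hnw, ← hs]
  have e1 : (dm * (V * (dm * (C0 / R * (c * s) +
      dm * (dm * (C0 / R * (C0 / R))) * (c * s) * (C0 * R))))) = a * (s / R) := by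
    rw [ha]
    field_simp
  have e2 : (dm * (9 * (9 * (S.κ * (dm * (c * s) + dm * (c * s)) * V)))) = b * (s / R) * R := by
    rw [hb]
    field_simp
  rw [e1, e2]
  have hS : 0 ≤ ∑ j, ∑ E, ‖pf j E f w‖ :=
    Finset.sum_nonneg fun _ _ => Finset.sum_nonneg fun _ _ => norm_nonneg _
  have hW : 0 ≤ R * ‖w‖ * ‖f w‖ := by positivity
  have hsR : 0 ≤ s / R := by positivity
  have e3 : 0 ≤ b * (s / R) * ∑ j, ∑ E, ‖pf j E f w‖ := by positivity
  have e4 : 0 ≤ a * (s / R) * (R * ‖w‖ * ‖f w‖) := by positivity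
  nlinarith

end Vale.Agent.P353.Z.AE
end

section

/-! # P353, all `N`, block L: back to the slice functionals (`SpzOfStmt`; helper755) -/

open MeasureTheory Filter Topology Matrix
open scoped ContDiff ENNReal

namespace Vale.Agent.P353.Z.AL

variable {d dh dm r ds n : ℕ} {F : Type*} [NormedAddCommGroup F] [InnerProductSpace ℂ F]

section Alg

variable [FiniteDimensional ℂ F]

/-- projection onto the image of a subspace under a unitary -/
lemma spz_proj (U : F →L[ℂ] F) (K W : Submodule ℂ F) (hi : ∀ v w, inner ℂ (U v) (U w) = inner ℂ v w)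
    (hs : ∀ v, ∃ u, U u = v) (hm : ∀ v, v ∈ K ↔ U v ∈ W) :
    ∃ V : F →L[ℂ] F, (∀ v, U (V v) = v) ∧ (∀ v, V (U v) = v) ∧ (∀ v w, inner ℂ v (V w) = inner ℂ (U v) w) ∧
      ∀ v, W.starProjection v = U (K.starProjection (V v)) := by
  have : CompleteSpace F := FiniteDimensional.complete ℂ F
  have h1 : ∀ v, (ContinuousLinearMap.adjoint U) (U v) = v := by
    intro v
    refine ext_inner_right ℂ fun w => ?_
    rw [ContinuousLinearMap.adjoint_inner_left, hi]
  have h2 : ∀ v, U ((ContinuousLinearMap.adjoint U) v) = v := by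
    intro v
    obtain ⟨x, rfl⟩ := hs v
    rw [h1]
  refine ⟨ContinuousLinearMap.adjoint U, h2, h1, fun v w => ContinuousLinearMap.adjoint_inner_right U v w,
    fun v => ?_⟩
  refine Submodule.eq_starProjection_of_mem_of_inner_eq_zero ?_ ?_
  · exact (hm _).1 (Submodule.starProjection_apply_mem _ _)
  · intro w hw
    obtain ⟨x, rfl⟩ := hs w
    have hx : x ∈ K := (hm x).2 hw
    have e : v - U (K.starProjection ((ContinuousLinearMap.adjoint U) v)) =
        U ((ContinuousLinearMap.adjoint U) v - K.starProjection ((ContinuousLinearMap.adjoint U) v)) := by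
      rw [map_sub, h2]
    rw [e, hi]
    exact Submodule.starProjection_inner_eq_zero _ _ hx

lemma spz_comm (U V T : F →L[ℂ] F) (K : Submodule ℂ F) (h1 : ∀ v, U (V v) = v) (h2 : ∀ v, V (U v) = v)
    (hU : U * T = T * U) (hT : ∀ v w, inner ℂ (T v) w = inner ℂ v (T w)) (hK : ∀ v ∈ K, T v ∈ K) :
    (K.starProjection ∘L V) * T = T * (K.starProjection ∘L V) := by
  ext v
  change K.starProjection (V (T v)) = T (K.starProjection (V v))
  have e1 : V (T v) = T (V v) := by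
    have h3 : U (T (V v)) = T (U (V v)) := congrArg (fun X : F →L[ℂ] F => X (V v)) hU
    rw [h1] at h3
    rw [← h3, h2]
  rw [e1]
  refine Submodule.eq_starProjection_of_mem_of_inner_eq_zero ?_ ?_
  · exact hK _ (Submodule.starProjection_apply_mem _ _)
  · intro w hw
    rw [← map_sub, hT]
    exact Submodule.starProjection_inner_eq_zero _ _ (hK w hw)

end Alg

/-- coefficient of the section `η ↦ Π_{F0(η)} w` -/
noncomputable def spzc (U : Cfg r → F →L[ℂ] F) (o w : Cfg ds → F) (η : Cfg r) : ℂ := ∫ s, inner ℂ (U η (o s)) (w s)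

lemma spz_int {o w : Cfg ds → F} (ho : MemLp o 2 (volume : Measure (Cfg ds))) (hw : MemLp w 2 (volume : Measure (Cfg ds)))
    (X : F →L[ℂ] F) : Integrable (fun s => inner ℂ (X (o s)) (w s)) := by
  have h1 : Integrable (fun s => ‖o s‖ * ‖w s‖) := ho.norm.integrable_mul hw.norm
  refine Integrable.mono' (h1.const_mul ‖X‖) ((X.continuous.comp_aestronglyMeasurable ho.1).inner hw.1) ?_
  refine Filter.Eventually.of_forall fun s => ?_
  refine (norm_inner_le_norm _ _).trans ?_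
  have := mul_le_mul_of_nonneg_right (X.le_opNorm (o s)) (norm_nonneg (w s))
  calc ‖X (o s)‖ * ‖w s‖ ≤ ‖X‖ * ‖o s‖ * ‖w s‖ := this
    _ = _ := by ring

lemma spz_lip {o w : Cfg ds → F} (ho : MemLp o 2 (volume : Measure (Cfg ds))) (hw : MemLp w 2 (volume : Measure (Cfg ds)))
    (X Y : F →L[ℂ] F) : ‖(∫ s, inner ℂ (X (o s)) (w s)) - ∫ s, inner ℂ (Y (o s)) (w s)‖ ≤
      (∫ s, ‖o s‖ * ‖w s‖) * ‖X - Y‖ := by
  have h1 : Integrable (fun s => ‖o s‖ * ‖w s‖) := ho.norm.integrable_mul hw.norm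
  rw [← integral_sub (spz_int ho hw X) (spz_int ho hw Y), ← integral_mul_const]
  refine norm_integral_le_of_norm_le (h1.mul_const _) (Filter.Eventually.of_forall fun s => ?_)
  rw [← inner_sub_left, ← _root_.sub_apply]
  refine (norm_inner_le_norm _ _).trans ?_
  have := mul_le_mul_of_nonneg_right ((X - Y).le_opNorm (o s)) (norm_nonneg (w s))
  calc ‖(X - Y) (o s)‖ * ‖w s‖ ≤ ‖X - Y‖ * ‖o s‖ * ‖w s‖ := this
    _ = _ := by ring

lemma spzc_cont {U : Cfg r → F →L[ℂ] F} {B : Set (Cfg r)} (hU : ContinuousOn U B) {o w : Cfg ds → F}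
    (ho : MemLp o 2 (volume : Measure (Cfg ds))) (hw : MemLp w 2 (volume : Measure (Cfg ds))) :
    ContinuousOn (spzc U o w) B := by
  have h0 : 0 ≤ ∫ s, ‖o s‖ * ‖w s‖ := integral_nonneg fun s => by positivity
  have hl : LipschitzWith (∫ s, ‖o s‖ * ‖w s‖).toNNReal (fun X : F →L[ℂ] F => ∫ s, inner ℂ (X (o s)) (w s)) := by
    refine LipschitzWith.of_dist_le_mul fun X Y => ?_
    rw [dist_eq_norm, dist_eq_norm, Real.coe_toNNReal _ h0]
    exact spz_lip ho hw X Y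
  exact hl.continuous.comp_continuousOn hU

lemma spzc_bd {U : Cfg r → F →L[ℂ] F} (hi : ∀ η v w, inner ℂ (U η v) (U η w) = inner ℂ v w) {o w : Cfg ds → F}
    (ho : MemLp o 2 (volume : Measure (Cfg ds))) (hw : MemLp w 2 (volume : Measure (Cfg ds))) (η : Cfg r) :
    ‖spzc U o w η‖ ≤ ∫ s, ‖o s‖ * ‖w s‖ := by
  have h1 : Integrable (fun s => ‖o s‖ * ‖w s‖) := ho.norm.integrable_mul hw.norm
  refine norm_integral_le_of_norm_le h1 (Filter.Eventually.of_forall fun s => ?_)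
  refine (norm_inner_le_norm _ _).trans ?_
  have h2 : ‖U η (o s)‖ = ‖o s‖ := by
    have h3 := hi η (o s) (o s)
    rw [inner_self_eq_norm_sq_to_K, inner_self_eq_norm_sq_to_K] at h3
    have h4 : ‖U η (o s)‖ ^ 2 = ‖o s‖ ^ 2 := by exact_mod_cast h3
    exact (sq_eq_sq₀ (norm_nonneg _) (norm_nonneg _)).mp h4
  rw [h2]

section Sec

variable [FiniteDimensional ℂ F] {S : Setup d F} {φ : Spl dh dm d} {ψ : Spl r ds dh} {L : Finset (Fin r → ℝ)}
  {Om : Cfg r → Matrix (Fin dm) (Fin dm) ℝ} {K : Submodule ℂ F} {U : Cfg r → F →L[ℂ] F} {o : Fin n → Cfg ds → F}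
  {T : Setup r (Ek n)}

/-- the section is a combination of the frame -/
lemma spz_sec (hD : Dat S φ ψ L Om K U o T) (hZ : ZMLStmt (S.int φ ψ hD.sub hD.cen)) {w : Cfg ds → F}
    (hw : AD.ZM (S.int φ ψ hD.sub hD.cen) w) {η : Cfg r} (hη : η ∉ Coll L) :
    ∀ᵐ s ∂(volume : Measure (Cfg ds)), (S.F0 φ (S.Dz φ ψ η) (Om η)).starProjection (w s) =
      ∑ j, spzc U (o j) w η • U η (o j s) := by
  obtain ⟨V, h1, h2, h3, h4⟩ := spz_proj (U η) K (S.F0 φ (S.Dz φ ψ η) (Om η)) (hD.bun.U_inner η) (hD.bun.U_surj η)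
    (fun v => by
      have := hD.bun.U_mem η hη v
      rwa [AX.DM_Dz] at this)
  have hwL : MemLp w 2 (volume : Measure (Cfg ds)) := hZ.2.2.2.1 w hw
  have hA : AD.ZM (S.int φ ψ hD.sub hD.cen) fun x => (K.starProjection ∘L V) (w x) := by
    refine hZ.2.2.2.2 _ (Or.inl fun α B => ?_) w hw
    exact spz_comm (U η) V _ K h1 h2 (hD.bun.U_comm η α _) (S.th_sa α _) (hD.bun.K_th α _)
  obtain ⟨c, hc⟩ := hD.full _ hA (Filter.Eventually.of_forall fun s => Submodule.starProjection_apply_mem _ _)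
  have hck : ∀ k, c k = spzc U (o k) w η := by
    intro k
    have e1 : ∫ s, inner ℂ (o k s) ((K.starProjection ∘L V) (w s)) = c k := by
      have e2 : ∫ s, inner ℂ (o k s) ((K.starProjection ∘L V) (w s)) = ∫ s, ∑ j, c j * inner ℂ (o k s) (o j s) := by
        refine integral_congr_ae ?_
        filter_upwards [hc] with s hs
        rw [hs, inner_sum]
        simp only [inner_smul_right]
      rw [e2, integral_finsetSum]
      · simp only [integral_const_mul, hD.ort]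
        simp
      · intro j _
        refine Integrable.const_mul ?_ _
        have := spz_int (hD.mem k) (hD.mem j) (1 : F →L[ℂ] F)
        exact this
    rw [← e1]
    unfold spzc
    refine integral_congr_ae ?_
    filter_upwards [hD.val k] with s hs
    change inner ℂ (o k s) (K.starProjection (V (w s))) = _
    rw [← Submodule.inner_starProjection_left_eq_right, Submodule.starProjection_eq_self_iff.2 hs, h3]
  filter_upwards [hc] with s hs
  rw [h4]
  change U η ((K.starProjection ∘L V) (w s)) = _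
  rw [hs, map_sum]
  refine Finset.sum_congr rfl fun j _ => ?_
  rw [map_smul, hck]

end Sec

/-- coefficient vector of the section `χ(η)Π_{F0(η)}w` -/
noncomputable def spzb (U : Cfg r → F →L[ℂ] F) (o : Fin n → Cfg ds → F) (w : Cfg ds → F) (χ : Cfg r → ℝ) (η : Cfg r) : Ek n :=
  WithLp.toLp 2 fun j => ((χ η : ℝ) : ℂ) * spzc U (o j) w η

lemma spzb_LC {U : Cfg r → F →L[ℂ] F} {L : Finset (Fin r → ℝ)} (hLc : IsClosed (Coll L))
    (hL0 : ∀ᵐ y ∂(volume : Measure (Cfg r)), y ∉ Coll L) (hU : ContinuousOn U (Coll L)ᶜ)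
    (hi : ∀ η v w, inner ℂ (U η v) (U η w) = inner ℂ v w) {o : Fin n → Cfg ds → F} {w : Cfg ds → F}
    (ho : ∀ j, MemLp (o j) 2 (volume : Measure (Cfg ds))) (hw : MemLp w 2 (volume : Measure (Cfg ds)))
    {χ : Cfg r → ℝ} (hχ : Continuous χ) {z₀ : Cfg r} {ε : ℝ} (hχs : ∀ x, χ x ≠ 0 → x ∈ Metric.closedBall z₀ ε)
    (h0 : (0 : Cfg r) ∉ Metric.closedBall z₀ ε) {g : Cfg r → ℝ} (hg : Continuous g) (hg1 : ∀ x, 0 ≤ g x ∧ g x ≤ 1)
    (hgs : Disjoint (tsupport g) (Coll L)) :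
    MemLp (fun η => ((g η : ℝ) : ℂ) • spzb U o w χ η) 2 (volume : Measure (Cfg r)) ∧
    (Metric.closedBall z₀ ε ∩ tsupport g ⊆ (Coll L ∪ {0})ᶜ) ∧
    ∀ x, x ∉ Metric.closedBall z₀ ε ∩ tsupport g → ((g x : ℝ) : ℂ) • spzb U o w χ x = 0 := by
  refine ⟨?_, ?_, ?_⟩
  · have hcont : ContinuousOn (fun η => ((g η : ℝ) : ℂ) • spzb U o w χ η) (Coll L)ᶜ := by
      refine ContinuousOn.smul (Complex.continuous_ofReal.comp hg).continuousOn ?_
      unfold spzb
      refine (PiLp.continuous_toLp 2 _).comp_continuousOn (continuousOn_pi.2 fun j => ?_)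
      exact (Complex.continuous_ofReal.comp hχ).continuousOn.mul (spzc_cont hU (ho j) hw)
    have hmeas : AEStronglyMeasurable (fun η => ((g η : ℝ) : ℂ) • spzb U o w χ η) (volume : Measure (Cfg r)) := by
      have h1 := hcont.aestronglyMeasurable (μ := (volume : Measure (Cfg r))) hLc.isOpen_compl.measurableSet
      have h2 : (volume : Measure (Cfg r)).restrict (Coll L)ᶜ = volume := Measure.restrict_eq_self_of_ae_mem hL0
      rwa [h2] at h1
    obtain ⟨M, hM⟩ := (isCompact_closedBall z₀ ε).exists_bound_of_continuousOn hχ.continuousOn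
    set I : Fin n → ℝ := fun j => ∫ s, ‖o j s‖ * ‖w s‖ with hI
    have hbd : ∀ η, ‖((g η : ℝ) : ℂ) • spzb U o w χ η‖ ≤
        ‖(Metric.closedBall z₀ ε).indicator (fun _ => |M| * ∑ j, I j) η‖ := by
      intro η
      have hI0 : ∀ j, 0 ≤ I j := fun j => integral_nonneg fun s => by positivity
      by_cases hη : η ∈ Metric.closedBall z₀ ε
      · rw [Set.indicator_of_mem hη, norm_smul, Complex.norm_real, Real.norm_eq_abs, abs_of_nonneg (hg1 η).1]
        have e1 : ‖spzb U o w χ η‖ ≤ |M| * ∑ j, I j := by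
          have e2 : ‖spzb U o w χ η‖ ≤ ∑ j, ‖((χ η : ℝ) : ℂ) * spzc U (o j) w η‖ := by
            have e3 : spzb U o w χ η = ∑ j, EuclideanSpace.single j (((χ η : ℝ) : ℂ) * spzc U (o j) w η) := by
              ext k
              simp [spzb]
            rw [e3]
            refine (norm_sum_le _ _).trans (le_of_eq ?_)
            refine Finset.sum_congr rfl fun j _ => ?_
            simp
          refine e2.trans ?_
          rw [Finset.mul_sum]
          refine Finset.sum_le_sum fun j _ => ?_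
          rw [norm_mul, Complex.norm_real]
          exact mul_le_mul ((hM η hη).trans (le_abs_self M)) (spzc_bd hi (ho j) hw η) (norm_nonneg _) (abs_nonneg _)
        calc g η * ‖spzb U o w χ η‖ ≤ 1 * (|M| * ∑ j, I j) :=
              mul_le_mul (hg1 η).2 e1 (norm_nonneg _) zero_le_one
          _ ≤ _ := by
            rw [one_mul]
            exact Real.le_norm_self _
      · have hz : χ η = 0 := by
          by_contra h
          exact hη (hχs η h)
        have : spzb U o w χ η = 0 := by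
          ext j
          simp [spzb, hz]
        rw [this, smul_zero, norm_zero]
        exact norm_nonneg _
    refine MemLp.of_le (memLp_indicator_const 2 measurableSet_closedBall (|M| * ∑ j, I j)
      (Or.inr measure_closedBall_lt_top.ne)) hmeas (Filter.Eventually.of_forall hbd)
  · rintro x ⟨hx1, hx2⟩ (hx3 | hx3)
    · exact Set.disjoint_left.1 hgs hx2 hx3
    · rw [Set.mem_singleton_iff] at hx3
      rw [hx3] at hx1
      exact h0 hx1
  · intro x hx
    by_cases h1 : x ∈ tsupport g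
    · have hz : χ x = 0 := by
        by_contra h
        exact hx ⟨hχs x h, h1⟩
      have : spzb U o w χ x = 0 := by
        ext j
        simp [spzb, hz]
      rw [this, smul_zero]
    · rw [image_eq_zero_of_notMem_tsupport h1]
      simp

/-- squared norm of the remainder tends to zero -/
lemma spz_n2 {a : Cfg r → Cfg ds → F} (ha : MemLp (fun q : Cfg r × Cfg ds => a q.1 q.2) 2 (volume.prod volume))
    {g : ℕ → Cfg r → ℝ} (hg : ∀ m, Continuous (g m)) (hg1 : ∀ m x, 0 ≤ g m x ∧ g m x ≤ 1)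
    (hlim : ∀ᵐ x ∂(volume : Measure (Cfg r)), ∀ᶠ m in atTop, g m x = 1)
    {a' : ℕ → Cfg r → Cfg ds → F}
    (ha' : ∀ m, MemLp (fun q : Cfg r × Cfg ds => a' m q.1 q.2) 2 (volume.prod volume))
    (heq : ∀ᵐ x ∂(volume : Measure (Cfg r)), ∀ m, ∀ᵐ s ∂(volume : Measure (Cfg ds)), a' m x s = ((1 - g m x : ℝ) : ℂ) • a x s) :
    Tendsto (fun m => n2 (a' m)) atTop (𝓝 0) := by
  have hi : Integrable (fun q : Cfg r × Cfg ds => ‖a q.1 q.2‖ ^ 2) (volume.prod volume) :=
    (memLp_two_iff_integrable_sq_norm ha.1).1 ha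
  have hG : Integrable (fun x => ∫ s, ‖a x s‖ ^ 2) (volume : Measure (Cfg r)) := hi.integral_prod_left
  have e1 : ∀ m, n2 (a' m) = ∫ x, (1 - g m x) ^ 2 * ∫ s, ‖a x s‖ ^ 2 := by
    intro m
    have hi' : Integrable (fun q : Cfg r × Cfg ds => ‖a' m q.1 q.2‖ ^ 2) (volume.prod volume) :=
      (memLp_two_iff_integrable_sq_norm (ha' m).1).1 (ha' m)
    unfold n2
    rw [integral_prod _ hi']
    refine integral_congr_ae ?_
    filter_upwards [heq] with x hx
    rw [← integral_const_mul]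
    refine integral_congr_ae ?_
    filter_upwards [hx m] with s hs
    rw [hs, norm_smul, Complex.norm_real, mul_pow, Real.norm_eq_abs, sq_abs]
  simp only [e1]
  have e0 : (0 : ℝ) = ∫ _x : Cfg r, (0 : ℝ) := by simp
  rw [e0]
  refine tendsto_integral_of_dominated_convergence (fun x => ∫ s, ‖a x s‖ ^ 2) ?_ hG ?_ ?_
  · intro m
    exact ((continuous_const.sub (hg m)).pow 2).aestronglyMeasurable.mul hG.1
  · intro m
    refine Filter.Eventually.of_forall fun x => ?_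
    have h1 : 0 ≤ ∫ s, ‖a x s‖ ^ 2 := integral_nonneg fun s => by positivity
    rw [norm_mul, Real.norm_eq_abs, Real.norm_eq_abs, abs_of_nonneg (sq_nonneg _), abs_of_nonneg h1]
    have h2 : (1 - g m x) ^ 2 ≤ 1 := by
      have := hg1 m x
      nlinarith
    calc (1 - g m x) ^ 2 * ∫ s, ‖a x s‖ ^ 2 ≤ 1 * ∫ s, ‖a x s‖ ^ 2 := mul_le_mul_of_nonneg_right h2 h1
      _ = _ := one_mul _
  · filter_upwards [hlim] with x hx
    refine tendsto_const_nhds.congr' ?_
    filter_upwards [hx] with m hm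
    rw [hm]
    ring

theorem spz_of (S : Setup d F) : SpzOfStmt S := by
  intro hGlu hSf hUB hIso hLin hZML hCut hfin hC dh dm r ds n φ ψ z₀ h hz0 L Om K U o T hD
  obtain ⟨ε₁, hε1, hreg, hGl⟩ := hGlu hfin dh dm r ds φ ψ z₀ h hz0 L Om K U hD.bun
  obtain ⟨C, hC0, hub⟩ := hUB hfin hC dh dm r ds φ ψ z₀ h L Om K U hD.bun
  have hzn : 0 < ‖z₀‖ := norm_pos_iff.2 hz0
  refine ⟨min ε₁ (‖z₀‖ / 2), lt_min hε1 (by positivity), ?_⟩
  intro ε hε hε' R u hu hb χ hχ hχs w hw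
  have hεa : ε ≤ ε₁ := hε'.trans (min_le_left _ _)
  have hεb : ε ≤ ‖z₀‖ / 2 := hε'.trans (min_le_right _ _)
  have hsub : Metric.closedBall z₀ ε ⊆ Metric.closedBall z₀ ε₁ := Metric.closedBall_subset_closedBall hεa
  have hdet : ∀ η ∈ Metric.closedBall z₀ ε, (S.Dz φ ψ η 8).det ≠ 0 := fun η hη => (hreg η (hsub hη)).1
  have hRg : Metric.closedBall z₀ ε ⊆ Rg S φ ψ := fun η hη => (hreg η (hsub hη)).2
  have hZ := hZML ds (S.int φ ψ hD.sub hD.cen)
  have hw' : AD.ZM (S.int φ ψ hD.sub hD.cen) w := hw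
  have hwL : MemLp w 2 (volume : Measure (Cfg ds)) := hZ.2.2.2.1 w hw'
  obtain ⟨hS2, hsf⟩ := hSf hfin dh dm r ds φ ψ z₀ h L Om K U hD.bun ε hε hdet χ hχ hχs w hwL
  set a : Cfg r → Cfg ds → F := fun η s =>
    ((χ η : ℝ) : ℂ) • (S.F0 φ (S.Dz φ ψ η) (Om η)).starProjection (w s) with ha
  have hglu := hGl ε hε hεa R u hu a hS2
  suffices hZZ : Tendsto (fun n => ZZ S.κ φ ψ Om a (R n) (u n)) atTop (𝓝 0) by
    have h1 := hZZ.sub hglu
    simp only [sub_sub_cancel, sub_zero] at h1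
    refine h1.congr fun n => ?_
    exact (hsf (R n) (hu.pos n) (u n) (hu.inv n).1).symm
  -- cutoffs
  obtain ⟨g, g1, g2, g3, g4, g5, -⟩ := hCut r L hD.bun.L_ne
  have hχball : ∀ x, χ x ≠ 0 → x ∈ Metric.closedBall z₀ ε := fun x hx =>
    Metric.ball_subset_closedBall (hχs (subset_tsupport _ hx))
  have h0 : (0 : Cfg r) ∉ Metric.closedBall z₀ ε := by
    intro h1
    rw [Metric.mem_closedBall, dist_comm, dist_zero_right] at h1
    linarith
  have hUc : ContinuousOn U (Coll L)ᶜ := hD.bun.U_smooth.continuousOn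
  have hLC := fun m => spzb_LC (g := g m) hD.bun.closed g5 hUc hD.bun.U_inner hD.mem hwL hχ.continuous hχball h0
    (g1 m).continuous (g2 m) (g3 m)
  set bm : ℕ → Cfg r → Ek n := fun m η => ((g m η : ℝ) : ℂ) • spzb U o w χ η with hbm
  have hcomp : ∀ m, IsCompact (Metric.closedBall z₀ ε ∩ tsupport (g m)) := fun m =>
    (isCompact_closedBall z₀ ε).inter_right (isClosed_tsupport _)
  have hlc : ∀ m, LC ((Coll L ∪ {0})ᶜ) (bm m) := fun m =>
    ⟨(hLC m).1, Metric.closedBall z₀ ε ∩ tsupport (g m), hcomp m, (hLC m).2.1, (hLC m).2.2⟩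
  have hsec : ∀ m, Sec2 (Metric.closedBall z₀ ε) (sc U o (bm m)) := by
    intro m
    obtain ⟨⟨h1, h2⟩, -⟩ := hIso dh dm r ds n φ ψ L Om K U o T hD _ (hcomp m)
      ((hLC m).2.1.trans (Set.compl_subset_compl.2 Set.subset_union_left)) (bm m) (hLC m).1 (hLC m).2.2
    exact ⟨h1, fun η s hs => (h2 η s hs).1⟩
  set am : ℕ → Cfg r → Cfg ds → F := fun m η s => a η s - sc U o (bm m) η s with ham
  have ham2 : ∀ m, Sec2 (Metric.closedBall z₀ ε) (am m) := by
    intro m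
    refine ⟨hS2.1.sub (hsec m).1, fun η s hs => ?_⟩
    by_contra hη
    apply hs
    have e1 : a η s = 0 := by
      by_contra h1
      exact hη (hS2.2 η s h1)
    have e2 : sc U o (bm m) η s = 0 := by
      by_contra h1
      exact hη ((hsec m).2 η s h1)
    show a η s - sc U o (bm m) η s = 0
    rw [e1, e2, sub_zero]
  have hn2 : Tendsto (fun m => n2 (am m)) atTop (𝓝 0) := by
    refine spz_n2 hS2.1 (fun m => (g1 m).continuous) (fun m => g2 m) ?_ (fun m => (ham2 m).1) ?_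
    · filter_upwards [g5] with x hx
      exact g4 x hx
    · filter_upwards [g5] with x hx m
      filter_upwards [spz_sec hD hZ hw' hx] with s hs
      have e1 : sc U o (bm m) x s = ((g m x : ℝ) : ℂ) • a x s := by
        show ∑ j, (((g m x : ℝ) : ℂ) • spzb U o w χ x) j • U x (o j s) = _
        rw [ha]
        simp only [hs, Finset.smul_sum]
        refine Finset.sum_congr rfl fun j _ => ?_
        show (((g m x : ℝ) : ℂ) * (((χ x : ℝ) : ℂ) * spzc U (o j) w x)) • U x (o j s) = _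
        rw [smul_smul, smul_smul]
        congr 1
        ring
      show a x s - sc U o (bm m) x s = _
      rw [e1, Complex.ofReal_sub, Complex.ofReal_one, sub_smul, one_smul]
  -- bound of the masses
  obtain ⟨M, hM⟩ := hu.bd (‖z₀‖ / 4) (2 * ‖z₀‖) (by positivity) (by linarith)
  have hshl : Metric.closedBall z₀ ε ⊆ AD.shl r (‖z₀‖ / 4) (2 * ‖z₀‖) := by
    intro η hη
    rw [Metric.mem_closedBall, dist_eq_norm] at hη
    have h1 := norm_sub_norm_le z₀ η
    have h2 := norm_sub_norm_le η z₀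
    rw [norm_sub_rev] at h1
    constructor <;> linarith
  rw [Metric.tendsto_atTop]
  intro e he
  have hlim2 : Tendsto (fun m => C * Real.sqrt (n2 (am m)) * Real.sqrt M) atTop (𝓝 0) := by
    have h1 : Tendsto (fun m => Real.sqrt (n2 (am m))) atTop (𝓝 0) := by
      have := (Real.continuous_sqrt.tendsto 0).comp hn2
      rw [Real.sqrt_zero] at this
      exact this
    have h2 := (h1.const_mul C).mul_const (Real.sqrt M)
    simpa using h2
  obtain ⟨m, hm⟩ := (hlim2.eventually_lt_const (show (0 : ℝ) < e / 4 by positivity)).exists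
  have hub1 := hub (‖z₀‖ / 4) (2 * ‖z₀‖) (by positivity) (by linarith) _ (isCompact_closedBall z₀ ε) hshl hRg R u hu
    (am m) (ham2 m) (e / 4) (by positivity)
  have hb1 := hb (bm m) (hlc m)
  rw [Metric.tendsto_atTop] at hb1
  obtain ⟨N1, hN1⟩ := hb1 (e / 2) (by positivity)
  obtain ⟨N2, hN2⟩ := Filter.eventually_atTop.1 hub1
  refine ⟨max N1 N2, fun k hk => ?_⟩
  have hk1 := hN1 k ((le_max_left _ _).trans hk)
  have hk2 := hN2 k ((le_max_right _ _).trans hk)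
  rw [dist_zero_right] at hk1 ⊢
  have hmas : Real.sqrt (AD.mas (u k) (AD.shl d (‖z₀‖ / 4 * R k) (2 * ‖z₀‖ * R k))) ≤ Real.sqrt M :=
    Real.sqrt_le_sqrt (hM k)
  obtain ⟨-, hadd, -⟩ := hLin hfin dh dm r ds φ ψ L Om K U hD.bun _ (isCompact_closedBall z₀ ε) hRg (R k) (hu.pos k)
    (u k) (hu.inv k).1
  have hsum := hadd (am m) (sc U o (bm m)) (ham2 m) (hsec m)
  have hfun : (fun η s => am m η s + sc U o (bm m) η s) = a := by
    funext η s
    show a η s - sc U o (bm m) η s + sc U o (bm m) η s = a η s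
    abel
  rw [hfun] at hsum
  rw [hsum]
  have h5 : C * Real.sqrt (n2 (am m)) *
      Real.sqrt (AD.mas (u k) (AD.shl d (‖z₀‖ / 4 * R k) (2 * ‖z₀‖ * R k))) ≤
      C * Real.sqrt (n2 (am m)) * Real.sqrt M := mul_le_mul_of_nonneg_left hmas (by positivity)
  calc ‖ZZ S.κ φ ψ Om (am m) (R k) (u k) + ZZ S.κ φ ψ Om (sc U o (bm m)) (R k) (u k)‖
      ≤ ‖ZZ S.κ φ ψ Om (am m) (R k) (u k)‖ + ‖ZZ S.κ φ ψ Om (sc U o (bm m)) (R k) (u k)‖ := norm_add_le _ _
    _ < e := by linarith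

end Vale.Agent.P353.Z.AL
end
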