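import Mathlib
import Vale.Agent.P353.BdA.B1

set_option linter.all false

section

/-! # P353, all `N`, block X2: vacuum vectors of the lifted system -/

open MeasureTheory Filter Topology Matrix
open scoped ContDiff

namespace Vale.Agent.P353.Z.AX2

universe u

variable {d d1 d2 : ℕ} {F : Type u} [NormedAddCommGroup F] [InnerProductSpace ℂ F]

lemma zvc_apply (S : Setup d F) (A : Fin d) (α : Fin 16) (v : F) :
    S.amF A α v = S.th α A v - Complex.I • ∑ γ, S.Gam α γ • S.th γ A v := by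
  rw [Setup.amF, CS.vec, _root_.sub_apply, _root_.smul_apply, _root_.sum_apply]
  rfl

lemma zvc_lin {M N : Type*} [AddCommGroup M] [Module ℂ M] [AddCommGroup N] [Module ℂ N]
    (L : M →ₗ[ℂ] N) (a : M) (c : Fin 16 → ℂ) (b : Fin 16 → M) :
    L (a - Complex.I • ∑ γ, c γ • b γ) = L a - Complex.I • ∑ γ, c γ • L (b γ) := by
  rw [map_sub, map_smul, map_sum]
  simp only [map_smul]

/-- `pwa` is linear in the operator -/
noncomputable def zvcL (Φ : Lp F 2 (volume : Measure (Cfg d1))) :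
    (F →L[ℂ] F) →ₗ[ℂ] Lp F 2 (volume : Measure (Cfg d1)) where
  toFun := fun T => Setup.pwa d1 T Φ
  map_add' := fun T T' => by
    rw [Setup.pwa, ContinuousLinearMap.add_compLpL]
    rfl
  map_smul' := fun c T => by
    rw [Setup.pwa, ContinuousLinearMap.smul_compLpL]
    rfl

lemma zvc_am (S2 : Setup d2 F) (A : Fin d2) (α : Fin 16)
    (Φ : Lp F 2 (volume : Measure (Cfg d1))) :
    (Setup.lfa d1 S2).amF A α Φ = Setup.pwa d1 (S2.amF A α) Φ := by
  rw [zvc_apply]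
  exact (zvc_lin (zvcL Φ) (S2.th α A) (fun γ => S2.Gam α γ) (fun γ => S2.th γ A)).symm

lemma zvc_rst {E : Type u} [NormedAddCommGroup E] [InnerProductSpace ℂ E] (S : Setup d E)
    (V : Submodule ℂ E) (hV : ∀ α A, ∀ v ∈ V, S.th α A v ∈ V) (A : Fin d) (α : Fin 16) (v : V) :
    ((S.rst V hV).amF A α v).1 = S.amF A α v.1 := by
  rw [zvc_apply, zvc_apply]
  exact zvc_lin V.subtype ((S.rst V hV).th α A v) (fun γ => S.Gam α γ)
    (fun γ => (S.rst V hV).th γ A v)

lemma zvc_coe (S2 : Setup d2 F) (Z : Submodule ℂ (Lp F 2 (volume : Measure (Cfg d1))))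
    (hZ : ∀ α A, ∀ Ψ ∈ Z, Setup.pwa d1 (S2.th α A) Ψ ∈ Z) (A : Fin d2) (α : Fin 16) (Ψ : Z) :
    ((S2.lft Z hZ).amF A α Ψ).1 = Setup.pwa d1 (S2.amF A α) Ψ.1 :=
  (zvc_rst (Setup.lfa d1 S2) Z hZ A α Ψ).trans (zvc_am S2 A α Ψ.1)

lemma zvc_zero (S2 : Setup d2 F) (Z : Submodule ℂ (Lp F 2 (volume : Measure (Cfg d1))))
    (hZ : ∀ α A, ∀ Ψ ∈ Z, Setup.pwa d1 (S2.th α A) Ψ ∈ Z) (A : Fin d2) (α : Fin 16) (Ψ : Z) :
    (S2.lft Z hZ).amF A α Ψ = 0 ↔ ∀ᵐ x ∂(volume : Measure (Cfg d1)),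
      S2.amF A α ((Ψ : Lp F 2 (volume : Measure (Cfg d1))) x) = 0 := by
  have h0 := zvc_coe S2 Z hZ A α Ψ
  have h := Setup.pwa_ae (d := d1) (S2.amF A α) (Ψ : Lp F 2 (volume : Measure (Cfg d1)))
  constructor
  · intro h1
    have h2 : Setup.pwa d1 (S2.amF A α) (Ψ : Lp F 2 (volume : Measure (Cfg d1))) = 0 := by
      rw [← h0, h1]
      rfl
    rw [h2] at h
    filter_upwards [h, Lp.coeFn_zero F 2 (volume : Measure (Cfg d1))] with x e1 e2
    rw [← e1, e2, Pi.zero_apply]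
  · intro h1
    apply Subtype.ext
    refine h0.trans ?_
    apply Lp.ext
    filter_upwards [h, h1, Lp.coeFn_zero F 2 (volume : Measure (Cfg d1))] with x e1 e2 e3
    exact (e1.trans e2).trans e3.symm

/-- **X2-Zvc** -/
theorem zvc_stmt (S1 : Setup d1 F) (S2 : Setup d2 F) : ZvcStmt S1 S2 := by
  intro hZms K0 hZ Ψ
  rw [hZms]
  obtain ⟨h1, h2⟩ := (hZms K0 Ψ).1 Ψ.2
  constructor
  · intro h
    refine ⟨h1, ?_⟩
    have h3 : ∀ᵐ x ∂(volume : Measure (Cfg d1)), ∀ A α,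
        S2.amF A α ((Ψ : Lp F 2 (volume : Measure (Cfg d1))) x) = 0 :=
      ae_all_iff.2 fun A => ae_all_iff.2 fun α => (zvc_zero S2 _ hZ A α Ψ).1 (h A α)
    filter_upwards [h2, h3] with x e1 e2
    exact ⟨e1, e2⟩
  · rintro ⟨_, h3⟩ A α
    refine (zvc_zero S2 _ hZ A α Ψ).2 ?_
    filter_upwards [h3] with x e1
    exact e1.2 A α

end Vale.Agent.P353.Z.AX2
end

section

/-! # P353, all `N`, block X: derivative of `exp (A η)` between vectors (X-Duh) -/

open MeasureTheory Filter Topology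
open scoped ContDiff

namespace Vale.Agent.P353.Z.AX

section Duhamel

variable {𝔸 : Type*} [NormedRing 𝔸] [NormedAlgebra ℝ 𝔸] [CompleteSpace 𝔸]

open NormedSpace

/-- integrand of Duhamel's formula -/
private lemma dh7_cont (A B : 𝔸) :
    Continuous (fun p : ℝ × ℝ => exp (p.2 • (A + p.1 • B)) * B * exp ((1 - p.2) • A)) := by
  have h : Continuous (exp : 𝔸 → 𝔸) := by
    refine continuous_iff_continuousAt.2 fun x => ?_
    exact (exp_analytic (𝕂 := ℝ) x).continuousAt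
  fun_prop

private lemma dh7_duh (A B : 𝔸) (t : ℝ) :
    exp (A + t • B) - exp A =
      t • ∫ s in (0 : ℝ)..1, exp (s • (A + t • B)) * B * exp ((1 - s) • A) := by
  have hd : ∀ s : ℝ, HasDerivAt (fun s : ℝ => exp (s • (A + t • B)) * exp ((1 - s) • A))
      (t • (exp (s • (A + t • B)) * B * exp ((1 - s) • A))) s := by
    intro s
    have h1 := hasDerivAt_exp_smul_const (𝕂 := ℝ) (A + t • B) s
    have h2 := hasDerivAt_exp_smul_const' (𝕂 := ℝ) A (1 - s)
    have h3 : HasDerivAt (fun s : ℝ => 1 - s) (-1) s := by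
      simpa using (hasDerivAt_id s).const_sub 1
    have h4 := h2.scomp s h3
    refine (h1.mul h4).congr_deriv ?_
    simp only [Function.comp_apply, neg_smul, one_smul, mul_neg, mul_add, add_mul, mul_assoc,
      Algebra.smul_mul_assoc, Algebra.mul_smul_comm]
    abel
  have hc : Continuous (fun s : ℝ => t • (exp (s • (A + t • B)) * B * exp ((1 - s) • A))) :=
    ((dh7_cont A B).comp (Continuous.prodMk_right t)).const_smul t
  have h5 := intervalIntegral.integral_eq_sub_of_hasDerivAt (a := 0) (b := 1)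
    (fun s _ => hd s) (hc.intervalIntegrable 0 1)
  rw [intervalIntegral.integral_smul] at h5
  rw [h5]
  simp

private lemma dh7_hasDerivAt (A B : 𝔸) :
    HasDerivAt (fun t : ℝ => exp (A + t • B))
      (∫ s in (0 : ℝ)..1, exp (s • A) * B * exp ((1 - s) • A)) 0 := by
  rw [hasDerivAt_iff_tendsto_slope_zero]
  have hc : Continuous (fun t : ℝ => ∫ s in (0 : ℝ)..1,
      exp (s • (A + t • B)) * B * exp ((1 - s) • A)) :=
    intervalIntegral.continuous_parametric_intervalIntegral_of_continuous' (dh7_cont A B) 0 1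
  have h1 := (hc.tendsto 0).mono_left (nhdsWithin_le_nhds (s := {(0 : ℝ)}ᶜ))
  simp only [zero_smul, add_zero] at h1
  refine h1.congr' ?_
  filter_upwards [self_mem_nhdsWithin] with t ht
  rw [zero_add, zero_smul, add_zero, dh7_duh, smul_smul, inv_mul_cancel₀ ht, one_smul]

end Duhamel

/-- **X-Duh** -/
theorem duh (F : Type*) [NormedAddCommGroup F] [InnerProductSpace ℂ F] : DuhStmt F := by
  intro hF r A s η ξ hs hη hA hsk v w h
  have hc : CompleteSpace F := FiniteDimensional.complete ℂ F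
  let iQ : NormedAlgebra ℚ (F →L[ℂ] F) := NormedAlgebra.restrictScalars ℚ ℝ (F →L[ℂ] F)
  have hAd : DifferentiableAt ℝ A η := (hA.contDiffAt (hs.mem_nhds hη)).differentiableAt (by simp)
  obtain ⟨B, hB⟩ : ∃ B, B = fderiv ℝ A η ξ := ⟨_, rfl⟩
  rw [← hB] at h
  have hexp : DifferentiableAt ℝ (NormedSpace.exp : (F →L[ℂ] F) → (F →L[ℂ] F)) (A η) :=
    (NormedSpace.exp_analytic (𝕂 := ℝ) _).differentiableAt
  have h1 : (fderiv ℝ (fun η' => NormedSpace.exp (A η')) η ξ) =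
      fderiv ℝ (NormedSpace.exp : (F →L[ℂ] F) → (F →L[ℂ] F)) (A η) B := by
    have := fderiv_comp η hexp hAd
    change fderiv ℝ (NormedSpace.exp ∘ A) η ξ = _
    rw [this, hB]
    rfl
  have h2 : HasDerivAt (fun t : ℝ => NormedSpace.exp (A η + t • B))
      (fderiv ℝ (NormedSpace.exp : (F →L[ℂ] F) → (F →L[ℂ] F)) (A η) B) 0 := by
    have e1 : HasDerivAt (fun t : ℝ => A η + t • B) B 0 := by
      simpa using ((hasDerivAt_id (0 : ℝ)).smul_const B).const_add (A η)
    have e2 : HasFDerivAt (NormedSpace.exp : (F →L[ℂ] F) → (F →L[ℂ] F))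
        (fderiv ℝ (NormedSpace.exp : (F →L[ℂ] F) → (F →L[ℂ] F)) (A η)) (A η + (0 : ℝ) • B) := by
      rw [zero_smul, add_zero]
      exact hexp.hasFDerivAt
    exact e2.comp_hasDerivAt 0 e1
  have h3 := h2.unique (dh7_hasDerivAt (A η) B)
  rw [h1, h3]
  -- adjoint of the exponential
  have hadj : ∀ (τ : ℝ) (x y : F), inner ℂ (NormedSpace.exp (τ • A η) x) y =
      inner ℂ x (NormedSpace.exp ((-τ) • A η) y) := by
    intro τ x y
    have e1 : star (A η) = -A η := by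
      rw [ContinuousLinearMap.star_eq_adjoint]
      refine ContinuousLinearMap.ext fun x => ext_inner_left ℂ fun y => ?_
      rw [ContinuousLinearMap.adjoint_inner_right, hsk, _root_.neg_apply, inner_neg_right]
    have e2 : star (NormedSpace.exp (τ • A η)) = NormedSpace.exp ((-τ) • A η) := by
      rw [NormedSpace.star_exp, star_smul, e1]
      simp
    rw [← e2, ContinuousLinearMap.star_eq_adjoint, ContinuousLinearMap.adjoint_inner_right]
  have hci : Continuous (fun s : ℝ => NormedSpace.exp (s • A η) * B * NormedSpace.exp ((1 - s) • A η)) := by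
    have h5 := (dh7_cont (A η) B).comp (Continuous.prodMk_right (0 : ℝ))
    refine h5.congr fun t => ?_
    simp only [Function.comp_apply, zero_smul, add_zero]
  have h4 : inner ℂ (NormedSpace.exp (A η) v)
      ((∫ s in (0 : ℝ)..1, NormedSpace.exp (s • A η) * B * NormedSpace.exp ((1 - s) • A η)) w) =
      ∫ s in (0 : ℝ)..1, inner ℂ (NormedSpace.exp (A η) v)
        ((NormedSpace.exp (s • A η) * B * NormedSpace.exp ((1 - s) • A η)) w) := by
    let Λ : (F →L[ℂ] F) →L[ℝ] ℂ := ((innerSL ℂ (NormedSpace.exp (A η) v)).comp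
      (ContinuousLinearMap.apply ℂ F w)).restrictScalars ℝ
    exact (Λ.intervalIntegral_comp_comm (hci.intervalIntegrable 0 1)).symm
  rw [h4]
  refine intervalIntegral.integral_zero_ae (Filter.Eventually.of_forall fun t ht => ?_)
  rw [Set.uIoc_of_le zero_le_one] at ht
  have e3 : NormedSpace.exp (A η) = NormedSpace.exp (t • A η) * NormedSpace.exp ((1 - t) • A η) := by
    rw [← NormedSpace.exp_add_of_commute (((Commute.refl (A η)).smul_left t).smul_right (1 - t)),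
      ← add_smul]
    simp
  have e4 := h (1 - t) (by linarith [ht.2]) (by linarith [ht.1])
  rw [e3]
  simp only [_root_.mul_apply_eq_comp]
  rw [hadj t]
  have e5 : NormedSpace.exp ((-t) • A η) (NormedSpace.exp (t • A η)
      (B (NormedSpace.exp ((1 - t) • A η) w))) = B (NormedSpace.exp ((1 - t) • A η) w) := by
    have : NormedSpace.exp ((-t) • A η) * NormedSpace.exp (t • A η) = 1 := by
      rw [← NormedSpace.exp_add_of_commute (((Commute.refl (A η)).smul_left (-t)).smul_right t),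
        ← add_smul]
      simp
    exact congrArg (fun T : F →L[ℂ] F => T (B (NormedSpace.exp ((1 - t) • A η) w))) this
  rw [e5]
  exact e4

end Vale.Agent.P353.Z.AX
end

section

/-! # P353, all `N`, block NF: the zero mode of the semisimple part is unique (helper925) -/

open MeasureTheory Filter Topology Matrix
open scoped ContDiff

namespace Vale.Agent.P353.Z.ANF

universe u

/-- iterated direct sums -/
theorem one925_sum (hP : AX2.ProdStmt.{u}) (hZ : AX2.ZeroStmt.{u}) (κ : ℝ) : ∀ (k : ℕ) (D : Fin k → ℕ)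
    (g : ∀ a, Fin (D a) → Fin (D a) → Fin (D a) → ℝ) (_ : ∀ a, OneA.{u} κ (g a)) (ds : ℕ)
    (es : (Σ a, Fin (D a)) ≃ Fin ds) (f : Fin ds → Fin ds → Fin ds → ℝ)
    (_ : ∀ (a b c : Fin k) (i : Fin (D a)) (j : Fin (D b)) (l : Fin (D c)), f (es ⟨a, i⟩) (es ⟨b, j⟩) (es ⟨c, l⟩) =
      if h : a = b ∧ a = c then g a i (Fin.cast (by rw [h.1]) j) (Fin.cast (by rw [h.2]) l) else 0), OneA.{u} κ f := by
  intro k
  induction k with
  | zero =>
    intro D g _ ds es f _
    have hds : ds = 0 := by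
      rcases Nat.eq_zero_or_pos ds with h | h
      · exact h
      · exact (es.symm ⟨0, h⟩).1.elim0
    subst hds
    exact hZ κ f
  | succ k ih =>
    intro D g hg ds es f hf
    have hb : Function.Bijective (Sum.elim (fun i : Fin (D 0) => es ⟨0, i⟩)
        (fun j : Fin (∑ a : Fin k, D a.succ) => es ⟨(finSigmaFinEquiv.symm j).1.succ, (finSigmaFinEquiv.symm j).2⟩)) := by
      constructor
      · rintro (i | i) (j | j) h
        · simp only [Sum.elim_inl, EmbeddingLike.apply_eq_iff_eq, Sigma.mk.injEq, heq_eq_eq, true_and] at h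
          rw [h]
        · simp only [Sum.elim_inl, Sum.elim_inr, EmbeddingLike.apply_eq_iff_eq, Sigma.mk.injEq] at h
          exact absurd h.1 (Fin.succ_ne_zero _).symm
        · simp only [Sum.elim_inl, Sum.elim_inr, EmbeddingLike.apply_eq_iff_eq, Sigma.mk.injEq] at h
          exact absurd h.1 (Fin.succ_ne_zero _)
        · simp only [Sum.elim_inr, EmbeddingLike.apply_eq_iff_eq, Sigma.mk.injEq, Fin.succ_inj] at h
          have h1 : finSigmaFinEquiv.symm i = finSigmaFinEquiv.symm j := Sigma.ext h.1 h.2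
          rw [finSigmaFinEquiv.symm.injective h1]
      · intro x
        obtain ⟨⟨a, i⟩, rfl⟩ := es.surjective x
        induction a using Fin.cases with
        | zero => exact ⟨Sum.inl i, rfl⟩
        | succ a =>
          exact ⟨Sum.inr (finSigmaFinEquiv ⟨a, i⟩),
            congrArg (fun t : Σ a : Fin k, Fin (D a.succ) => es ⟨t.1.succ, t.2⟩)
              (finSigmaFinEquiv.symm_apply_apply (⟨a, i⟩ : Σ a : Fin k, Fin (D a.succ)))⟩
    refine hP ds (D 0) (∑ a : Fin k, D a.succ) κ f (g 0)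
      (fun A B C => f (es ⟨(finSigmaFinEquiv.symm A).1.succ, (finSigmaFinEquiv.symm A).2⟩)
        (es ⟨(finSigmaFinEquiv.symm B).1.succ, (finSigmaFinEquiv.symm B).2⟩)
        (es ⟨(finSigmaFinEquiv.symm C).1.succ, (finSigmaFinEquiv.symm C).2⟩))
      (Equiv.ofBijective _ hb) ⟨?_, ?_, ?_, ?_⟩ (hg 0) ?_
    · intro A B C
      simp only [Equiv.ofBijective_apply, Sum.elim_inl]
      rw [hf, dif_pos ⟨rfl, rfl⟩]
      rfl
    · intro A B C
      rfl
    · intro A B C
      simp only [Equiv.ofBijective_apply, Sum.elim_inl, Sum.elim_inr]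
      rw [hf, dif_neg fun h => Fin.succ_ne_zero _ h.2.symm]
    · intro A B C
      simp only [Equiv.ofBijective_apply, Sum.elim_inl, Sum.elim_inr]
      rw [hf, dif_neg fun h => Fin.succ_ne_zero _ h.2]
    · refine ih (fun a => D a.succ) (fun a => g a.succ) (fun a => hg a.succ) _ finSigmaFinEquiv _ ?_
      intro a b c i j l
      have key : ∀ s : Σ a : Fin k, Fin (D a.succ),
          es ⟨(finSigmaFinEquiv.symm (finSigmaFinEquiv s)).1.succ, (finSigmaFinEquiv.symm (finSigmaFinEquiv s)).2⟩ =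
            es ⟨s.1.succ, s.2⟩ := fun s =>
        congrArg (fun t : Σ a : Fin k, Fin (D a.succ) => es ⟨t.1.succ, t.2⟩) (finSigmaFinEquiv.symm_apply_apply s)
      have h1 : f (es ⟨(finSigmaFinEquiv.symm (finSigmaFinEquiv (⟨a, i⟩ : Σ a : Fin k, Fin (D a.succ)))).1.succ,
            (finSigmaFinEquiv.symm (finSigmaFinEquiv (⟨a, i⟩ : Σ a : Fin k, Fin (D a.succ)))).2⟩)
          (es ⟨(finSigmaFinEquiv.symm (finSigmaFinEquiv (⟨b, j⟩ : Σ a : Fin k, Fin (D a.succ)))).1.succ,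
            (finSigmaFinEquiv.symm (finSigmaFinEquiv (⟨b, j⟩ : Σ a : Fin k, Fin (D a.succ)))).2⟩)
          (es ⟨(finSigmaFinEquiv.symm (finSigmaFinEquiv (⟨c, l⟩ : Σ a : Fin k, Fin (D a.succ)))).1.succ,
            (finSigmaFinEquiv.symm (finSigmaFinEquiv (⟨c, l⟩ : Σ a : Fin k, Fin (D a.succ)))).2⟩) =
          f (es ⟨a.succ, i⟩) (es ⟨b.succ, j⟩) (es ⟨c.succ, l⟩) := by
        rw [key, key, key]
      refine h1.trans ?_
      rw [hf]
      by_cases h : a = b ∧ a = c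
      · rw [dif_pos h, dif_pos ⟨by rw [h.1], by rw [h.2]⟩]
      · rw [dif_neg h, dif_neg fun h' => h ⟨Fin.succ_injective _ h'.1, Fin.succ_injective _ h'.2⟩]

variable {N d dh dm ds dz k : ℕ} {n : Fin k → ℕ} {T : Fin d → Matrix (Fin N) (Fin N) ℂ} {φ : Spl dh dm d} {ψ : Spl ds dz dh}

theorem one_stmt {F : Type u} [NormedAddCommGroup F] [InnerProductSpace ℂ F] (S : Setup d F) (fr : NFr n T φ ψ) :
    SfStmt S fr → OneStmt S fr := by
  intro hS hB hI hP hZ hM z₀ h
  refine one925_sum hP hZ 1 k (fun a => n a ^ 2 - 1) (fun a => fr.fb (n a))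
    (fun a => hI (n a) (n a ^ 2 - 1) (fr.Tb (n a)) (fr.fb (n a)) (fr.Tb_bas (n a) (fr.pos a)) (hM a)) ds fr.es h.ss.f ?_
  intro a b c i j l
  exact hS hB a b c i j l

end Vale.Agent.P353.Z.ANF
end

section

/-! # P353, all `N`, block A: restriction of invariant functions to the slice (A8) -/

open MeasureTheory Filter Topology
open scoped ContDiff

namespace Vale.Agent.P353.Z.AN

variable {d dh dm : ℕ} {F : Type*} [NormedAddCommGroup F] [InnerProductSpace ℂ F]

lemma gh_wt_last (w : Wsp dm) (b : Fin dm) : wt w (Fin.last 8) b = 0 := by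
  unfold wt
  rw [Fin.lastCases_last]

lemma gh_wt_cast (w : Wsp dm) (j : Fin 8) (b : Fin dm) : wt w j.castSucc b = w (j, b) := by
  unfold wt
  rw [Fin.lastCases_castSucc]

lemma gh_wt_add (w w' : Wsp dm) (i : Fin 9) (b : Fin dm) : wt (w + w') i b = wt w i b + wt w' i b := by
  refine Fin.lastCases ?_ (fun j => ?_) i
  · rw [gh_wt_last, gh_wt_last, gh_wt_last, add_zero]
  · rw [gh_wt_cast, gh_wt_cast, gh_wt_cast]
    rfl

lemma gh_wt_smul (c : ℝ) (w : Wsp dm) (i : Fin 9) (b : Fin dm) : wt (c • w) i b = c * wt w i b := by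
  refine Fin.lastCases ?_ (fun j => ?_) i
  · rw [gh_wt_last, gh_wt_last, mul_zero]
  · rw [gh_wt_cast, gh_wt_cast]
    rfl

/-- `emb` as a continuous linear map -/
noncomputable def ghE (φ : Spl dh dm d) : Cfg dh × Wsp dm →L[ℝ] Cfg d :=
  LinearMap.toContinuousLinearMap
    { toFun := fun p => emb φ p.1 p.2
      map_add' := by
        intro p q
        ext ⟨i, A⟩
        show Sum.elim (fun a => (p.1 + q.1) (i, a)) (fun b => wt (p.2 + q.2) i b) (φ.symm A) =
          Sum.elim (fun a => p.1 (i, a)) (fun b => wt p.2 i b) (φ.symm A) +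
          Sum.elim (fun a => q.1 (i, a)) (fun b => wt q.2 i b) (φ.symm A)
        rcases φ.symm A with a | b
        · rfl
        · exact gh_wt_add _ _ _ _
      map_smul' := by
        intro c p
        ext ⟨i, A⟩
        show Sum.elim (fun a => (c • p.1) (i, a)) (fun b => wt (c • p.2) i b) (φ.symm A) =
          c * Sum.elim (fun a => p.1 (i, a)) (fun b => wt p.2 i b) (φ.symm A)
        rcases φ.symm A with a | b
        · rfl
        · exact gh_wt_smul _ _ _ _ }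

lemma ghE_apply (φ : Spl dh dm d) (y : Cfg dh) (w : Wsp dm) : ghE φ (y, w) = emb φ y w := rfl

lemma gh_emb_inl (φ : Spl dh dm d) (y : Cfg dh) (w : Wsp dm) (i : Fin 9) (a : Fin dh) :
    emb φ y w (i, φ (Sum.inl a)) = y (i, a) := by
  simp [emb]

lemma gh_emb_inr (φ : Spl dh dm d) (y : Cfg dh) (w : Wsp dm) (i : Fin 9) (b : Fin dm) :
    emb φ y w (i, φ (Sum.inr b)) = wt w i b := by
  simp [emb, wt]

lemma gh_single_y (φ : Spl dh dm d) (i : Fin 9) (a : Fin dh) :
    emb φ (EuclideanSpace.single (i, a) 1) 0 = EuclideanSpace.single (i, φ (Sum.inl a)) 1 := by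
  ext ⟨k, A⟩
  obtain ⟨s, rfl⟩ := φ.surjective A
  rcases s with b | b
  · rw [gh_emb_inl]
    simp [Prod.ext_iff]
  · rw [gh_emb_inr]
    have h : wt (0 : Wsp dm) k b = 0 := by
      refine Fin.lastCases (gh_wt_last _ _) (fun j => ?_) k
      rw [gh_wt_cast]
      rfl
    rw [h]
    simp

lemma gh_single_w (φ : Spl dh dm d) (j : Fin 8) (b : Fin dm) :
    emb φ 0 (EuclideanSpace.single (j, b) 1) = EuclideanSpace.single (j.castSucc, φ (Sum.inr b)) 1 := by
  ext ⟨k, A⟩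
  obtain ⟨s, rfl⟩ := φ.surjective A
  rcases s with a | a
  · rw [gh_emb_inl]
    simp
  · rw [gh_emb_inr]
    refine Fin.lastCases ?_ (fun j' => ?_) k
    · have h : (Fin.last 8 : Fin 9) ≠ j.castSucc := (Fin.castSucc_lt_last j).ne'
      rw [gh_wt_last, PiLp.single_apply, if_neg]
      intro h'
      exact h (congrArg Prod.fst h')
    · rw [gh_wt_cast]
      simp [Prod.ext_iff]

lemma gh_det_contDiff (S : Setup d F) (φ : Spl dh dm d) :
    ContDiff ℝ ∞ (fun y : Cfg dh => (S.Dy φ 8 y).det) := by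
  simp only [Matrix.det_apply]
  refine ContDiff.sum fun σ _ => ?_
  refine ContDiff.const_smul _ ?_
  refine contDiff_prod fun i _ => ?_
  show ContDiff ℝ ∞ fun y : Cfg dh => ∑ A, S.f (φ (Sum.inr (σ i))) (φ (Sum.inl A)) (φ (Sum.inr i)) * y (8, A)
  refine ContDiff.sum fun A _ => ?_
  refine contDiff_const.mul ?_
  exact (EuclideanSpace.proj (𝕜 := ℝ) ((8 : Fin 9), A)).contDiff

lemma gh_sqrt_contDiffAt (S : Setup d F) (φ : Spl dh dm d) (y : Cfg dh) (h : (S.Dy φ 8 y).det ≠ 0) :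
    ContDiffAt ℝ ∞ (fun y : Cfg dh => Real.sqrt (S.Jd φ y)) y := by
  have h1 : ContDiffAt ℝ ∞ (fun y : Cfg dh => |(S.Dy φ 8 y).det|) y :=
    ContDiffAt.comp (g := fun t : ℝ => |t|) y (contDiffAt_abs h) (gh_det_contDiff S φ).contDiffAt
  exact h1.sqrt (abs_ne_zero.2 h)

lemma gh_sm (S : Setup d F) (φ : Spl dh dm d) (u : Cfg d → F) (hu : ContDiff ℝ ∞ u) :
    Sm S φ (S.res φ u) := by
  intro p hp
  have h1 : ContDiffAt ℝ ∞ (fun p : Cfg dh × Wsp dm => Real.sqrt (S.Jd φ p.1)) p :=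
    (gh_sqrt_contDiffAt S φ p.1 hp).comp p contDiffAt_fst
  have h2 : ContDiffAt ℝ ∞ (fun p : Cfg dh × Wsp dm => u (emb φ p.1 p.2)) p :=
    (hu.comp (ghE φ).contDiff).contDiffAt
  have h3 : ContDiffAt ℝ ∞ (fun p : Cfg dh × Wsp dm => ((Real.sqrt (S.Jd φ p.1) : ℝ) : ℂ) • u (emb φ p.1 p.2)) p :=
    (Complex.ofRealCLM.contDiff.contDiffAt.comp p h1).smul h2
  exact h3.contDiffWithinAt

/-- the rotated direction `ξ_{iB} = ∑_A f_{cAB} y_{iA}` in `h` -/
noncomputable def ghX (S : Setup d F) (φ : Spl dh dm d) (c : Fin dh) (y : Cfg dh) : Cfg dh :=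
  WithLp.toLp 2 fun p => ∑ A, S.f (φ (Sum.inl c)) (φ (Sum.inl A)) (φ (Sum.inl p.2)) * y (p.1, A)

/-- `ad e_c` on `m` -/
noncomputable def ghM (S : Setup d F) (φ : Spl dh dm d) (c : Fin dh) : Matrix (Fin dm) (Fin dm) ℝ :=
  Matrix.of fun P E => S.f (φ (Sum.inr P)) (φ (Sum.inl c)) (φ (Sum.inr E))

lemma gh_sum_split (φ : Spl dh dm d) {M : Type*} [AddCommMonoid M] (g : Fin d → M) :
    ∑ A, g A = ∑ a, g (φ (Sum.inl a)) + ∑ b, g (φ (Sum.inr b)) := by
  rw [← φ.sum_comp, Fintype.sum_sum_type]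

lemma gh_comm (S : Setup d F) (φ : Spl dh dm d) (hS : S.IsSub φ) (c : Fin dh) (y : Cfg dh) :
    S.Dy φ 8 (ghX S φ c y) = ghM S φ c * S.Dy φ 8 y - S.Dy φ 8 y * ghM S φ c := by
  ext P Q
  have key : ∀ A : Fin dh, ∑ B : Fin dh, S.f (φ (Sum.inl c)) (φ (Sum.inl A)) (φ (Sum.inl B)) *
      S.f (φ (Sum.inr P)) (φ (Sum.inl B)) (φ (Sum.inr Q)) =
      ∑ E : Fin dm, (S.f (φ (Sum.inr P)) (φ (Sum.inl c)) (φ (Sum.inr E)) *
        S.f (φ (Sum.inr E)) (φ (Sum.inl A)) (φ (Sum.inr Q)) -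
        S.f (φ (Sum.inr P)) (φ (Sum.inl A)) (φ (Sum.inr E)) *
        S.f (φ (Sum.inr E)) (φ (Sum.inl c)) (φ (Sum.inr Q))) := by
    intro A
    have h := S.f_jac (φ (Sum.inl c)) (φ (Sum.inl A)) (φ (Sum.inr P)) (φ (Sum.inr Q))
    rw [gh_sum_split φ] at h
    have h1 : ∀ E : Fin dh, S.f (φ (Sum.inl A)) (φ (Sum.inr P)) (φ (Sum.inl E)) = 0 := by
      intro E
      rw [← S.f_cyc (φ (Sum.inl E)) (φ (Sum.inl A)) (φ (Sum.inr P))]
      exact hS _ _ _
    have h2 : ∀ E : Fin dh, S.f (φ (Sum.inr P)) (φ (Sum.inl c)) (φ (Sum.inl E)) = 0 := by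
      intro E
      rw [S.f_cyc (φ (Sum.inr P)) (φ (Sum.inl c)) (φ (Sum.inl E))]
      exact hS _ _ _
    have h3 : ∀ E : Fin dm, S.f (φ (Sum.inl c)) (φ (Sum.inl A)) (φ (Sum.inr E)) = 0 := fun E => hS _ _ _
    simp only [h1, h2, h3, zero_mul, add_zero, zero_add] at h
    have e1 : ∀ B : Fin dh, S.f (φ (Sum.inl c)) (φ (Sum.inl A)) (φ (Sum.inl B)) *
        S.f (φ (Sum.inl B)) (φ (Sum.inr P)) (φ (Sum.inr Q)) =
        -(S.f (φ (Sum.inl c)) (φ (Sum.inl A)) (φ (Sum.inl B)) *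
        S.f (φ (Sum.inr P)) (φ (Sum.inl B)) (φ (Sum.inr Q))) := by
      intro B
      rw [S.f_swap (φ (Sum.inl B)) (φ (Sum.inr P))]
      ring
    have e2 : ∀ E : Fin dm, S.f (φ (Sum.inl A)) (φ (Sum.inr P)) (φ (Sum.inr E)) *
        S.f (φ (Sum.inr E)) (φ (Sum.inl c)) (φ (Sum.inr Q)) +
        S.f (φ (Sum.inr P)) (φ (Sum.inl c)) (φ (Sum.inr E)) *
        S.f (φ (Sum.inr E)) (φ (Sum.inl A)) (φ (Sum.inr Q)) =
        S.f (φ (Sum.inr P)) (φ (Sum.inl c)) (φ (Sum.inr E)) *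
        S.f (φ (Sum.inr E)) (φ (Sum.inl A)) (φ (Sum.inr Q)) -
        S.f (φ (Sum.inr P)) (φ (Sum.inl A)) (φ (Sum.inr E)) *
        S.f (φ (Sum.inr E)) (φ (Sum.inl c)) (φ (Sum.inr Q)) := by
      intro E
      rw [S.f_swap (φ (Sum.inl A)) (φ (Sum.inr P))]
      ring
    simp only [e1, e2, Finset.sum_neg_distrib] at h
    linarith
  have l1 : S.Dy φ 8 (ghX S φ c y) P Q = ∑ A : Fin dh, y (8, A) *
      ∑ B : Fin dh, S.f (φ (Sum.inl c)) (φ (Sum.inl A)) (φ (Sum.inl B)) *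
      S.f (φ (Sum.inr P)) (φ (Sum.inl B)) (φ (Sum.inr Q)) := by
    show ∑ B : Fin dh, S.f (φ (Sum.inr P)) (φ (Sum.inl B)) (φ (Sum.inr Q)) *
      (∑ A : Fin dh, S.f (φ (Sum.inl c)) (φ (Sum.inl A)) (φ (Sum.inl B)) * y (8, A)) = _
    simp only [Finset.mul_sum]
    rw [Finset.sum_comm]
    refine Finset.sum_congr rfl fun A _ => Finset.sum_congr rfl fun B _ => ?_
    ring
  have r1 : (ghM S φ c * S.Dy φ 8 y) P Q = ∑ E : Fin dm, ∑ A : Fin dh,
      S.f (φ (Sum.inr P)) (φ (Sum.inl c)) (φ (Sum.inr E)) *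
      (S.f (φ (Sum.inr E)) (φ (Sum.inl A)) (φ (Sum.inr Q)) * y (8, A)) := by
    rw [Matrix.mul_apply]
    refine Finset.sum_congr rfl fun E _ => ?_
    show S.f (φ (Sum.inr P)) (φ (Sum.inl c)) (φ (Sum.inr E)) *
      (∑ A : Fin dh, S.f (φ (Sum.inr E)) (φ (Sum.inl A)) (φ (Sum.inr Q)) * y (8, A)) = _
    rw [Finset.mul_sum]
  have r2 : (S.Dy φ 8 y * ghM S φ c) P Q = ∑ E : Fin dm, ∑ A : Fin dh,
      (S.f (φ (Sum.inr P)) (φ (Sum.inl A)) (φ (Sum.inr E)) * y (8, A)) *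
      S.f (φ (Sum.inr E)) (φ (Sum.inl c)) (φ (Sum.inr Q)) := by
    rw [Matrix.mul_apply]
    refine Finset.sum_congr rfl fun E _ => ?_
    show (∑ A : Fin dh, S.f (φ (Sum.inr P)) (φ (Sum.inl A)) (φ (Sum.inr E)) * y (8, A)) *
      S.f (φ (Sum.inr E)) (φ (Sum.inl c)) (φ (Sum.inr Q)) = _
    rw [Finset.sum_mul]
  rw [Matrix.sub_apply, l1, r1, r2, ← Finset.sum_sub_distrib]
  simp only [key, ← Finset.sum_sub_distrib, Finset.mul_sum]
  rw [Finset.sum_comm]
  refine Finset.sum_congr rfl fun E _ => Finset.sum_congr rfl fun A _ => ?_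
  ring

lemma gh_trace (S : Setup d F) (φ : Spl dh dm d) (hS : S.IsSub φ) (c : Fin dh) (y : Cfg dh)
    (h : (S.Dy φ 8 y).det ≠ 0) : ((S.Dy φ 8 y)⁻¹ * S.Dy φ 8 (ghX S φ c y)).trace = 0 := by
  rw [gh_comm S φ hS, Matrix.mul_sub, Matrix.trace_sub, ← Matrix.mul_assoc, ← Matrix.mul_assoc,
    Matrix.nonsing_inv_mul _ (isUnit_iff_ne_zero.2 h), Matrix.one_mul, Matrix.trace_mul_comm,
    ← Matrix.mul_assoc, Matrix.mul_nonsing_inv _ (isUnit_iff_ne_zero.2 h), Matrix.one_mul, sub_self]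

lemma gh_line (S : Setup d F) (φ : Spl dh dm d) (c : Fin dh) (y : Cfg dh)
    (h : (S.Dy φ 8 y).det ≠ 0) (t : ℝ) : (S.Dy φ 8 (y + t • ghX S φ c y)).det =
    (S.Dy φ 8 y).det * (1 + t • ((S.Dy φ 8 y)⁻¹ * S.Dy φ 8 (ghX S φ c y))).det := by
  rw [← Matrix.det_mul]
  congr 1
  rw [Matrix.mul_add, Matrix.mul_one, Matrix.mul_smul, ← Matrix.mul_assoc,
    Matrix.mul_nonsing_inv _ (isUnit_iff_ne_zero.2 h), Matrix.one_mul]
  ext P Q
  show ∑ A, S.f (φ (Sum.inr P)) (φ (Sum.inl A)) (φ (Sum.inr Q)) * (y (8, A) + t * ghX S φ c y (8, A)) =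
    (∑ A, S.f (φ (Sum.inr P)) (φ (Sum.inl A)) (φ (Sum.inr Q)) * y (8, A)) +
    t * (∑ A, S.f (φ (Sum.inr P)) (φ (Sum.inl A)) (φ (Sum.inr Q)) * ghX S φ c y (8, A))
  rw [Finset.mul_sum, ← Finset.sum_add_distrib]
  refine Finset.sum_congr rfl fun A _ => ?_
  ring

lemma gh_dir (S : Setup d F) (φ : Spl dh dm d) (hS : S.IsSub φ) (c : Fin dh) (y : Cfg dh)
    (h : (S.Dy φ 8 y).det ≠ 0) :
    fderiv ℝ (fun y : Cfg dh => Real.sqrt (S.Jd φ y)) y (ghX S φ c y) = 0 := by
  have hd : HasFDerivAt (fun y : Cfg dh => Real.sqrt (S.Jd φ y))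
      (fderiv ℝ (fun y : Cfg dh => Real.sqrt (S.Jd φ y)) y) y :=
    ((gh_sqrt_contDiffAt S φ y h).differentiableAt (by simp)).hasFDerivAt
  have hl : HasDerivAt (fun t : ℝ => y + t • ghX S φ c y) (ghX S φ c y) 0 := by
    simpa using ((hasDerivAt_id (0 : ℝ)).smul_const (ghX S φ c y)).const_add y
  have h1 : HasDerivAt (fun t : ℝ => Real.sqrt (S.Jd φ (y + t • ghX S φ c y)))
      (fderiv ℝ (fun y : Cfg dh => Real.sqrt (S.Jd φ y)) y (ghX S φ c y)) 0 := by
    have hd' : HasFDerivAt (fun y : Cfg dh => Real.sqrt (S.Jd φ y))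
      (fderiv ℝ (fun y : Cfg dh => Real.sqrt (S.Jd φ y)) y) (y + (0 : ℝ) • ghX S φ c y) := by
      simpa using hd
    exact hd'.comp_hasDerivAt (0 : ℝ) hl
  have h2 : HasDerivAt (fun t : ℝ => Real.sqrt (S.Jd φ (y + t • ghX S φ c y))) 0 0 := by
    have e : (fun t : ℝ => Real.sqrt (S.Jd φ (y + t • ghX S φ c y))) = fun t : ℝ =>
        Real.sqrt |(S.Dy φ 8 y).det * (1 + t • ((S.Dy φ 8 y)⁻¹ * S.Dy φ 8 (ghX S φ c y))).det| := by
      funext t
      rw [← gh_line S φ c y h t]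
      rfl
    rw [e]
    obtain ⟨p, hp⟩ : ∃ p : Polynomial ℝ, ∀ t : ℝ,
        (1 + t • ((S.Dy φ 8 y)⁻¹ * S.Dy φ 8 (ghX S φ c y))).det = 1 + p.eval t * t ^ 2 :=
      ⟨_, fun t => by rw [Matrix.det_one_add_smul, gh_trace S φ hS c y h, zero_mul, add_zero]⟩
    simp only [hp]
    have h3 : HasDerivAt (fun t : ℝ => (S.Dy φ 8 y).det * (1 + p.eval t * t ^ 2)) 0 0 := by
      have := (((p.hasDerivAt (0 : ℝ)).mul ((hasDerivAt_id (0 : ℝ)).pow 2)).const_add 1).const_mul
        (S.Dy φ 8 y).det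
      refine this.congr_deriv ?_
      simp
    have h0 : (S.Dy φ 8 y).det * (1 + p.eval (0 : ℝ) * (0 : ℝ) ^ 2) ≠ 0 := by simpa using h
    have h4 := (hasDerivAt_abs h0).comp (0 : ℝ) h3
    have h5 := h4.sqrt (abs_ne_zero.2 h0)
    simpa using h5
  exact h1.unique h2

lemma gh_dirsum (S : Setup d F) (φ : Spl dh dm d) (hS : S.IsSub φ) (c : Fin dh) (y : Cfg dh)
    (h : (S.Dy φ 8 y).det ≠ 0) :
    ∑ i, ∑ A, ∑ B, (S.f (φ (Sum.inl c)) (φ (Sum.inl A)) (φ (Sum.inl B)) * y (i, A)) *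
      fderiv ℝ (fun y : Cfg dh => Real.sqrt (S.Jd φ y)) y (EuclideanSpace.single (i, B) 1) = 0 := by
  have hx : ghX S φ c y = ∑ p : Fin 9 × Fin dh, (ghX S φ c y) p •
      (EuclideanSpace.single p (1 : ℝ) : Cfg dh) := by
    ext q
    simp only [WithLp.ofLp_sum, WithLp.ofLp_smul, Finset.sum_apply, Pi.smul_apply,
        PiLp.single_apply, smul_eq_mul, mul_ite, mul_one, mul_zero]
    rw [Finset.sum_ite_eq]
    simp
  have h1 := gh_dir S φ hS c y h
  rw [hx, map_sum] at h1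
  simp only [map_smul, smul_eq_mul] at h1
  rw [Fintype.sum_prod_type] at h1
  rw [← h1]
  refine Finset.sum_congr rfl fun i _ => ?_
  rw [Finset.sum_comm]
  refine Finset.sum_congr rfl fun B _ => ?_
  show _ = (∑ A, S.f (φ (Sum.inl c)) (φ (Sum.inl A)) (φ (Sum.inl B)) * y (i, A)) * _
  rw [Finset.sum_mul]

lemma gh_py (S : Setup d F) (φ : Spl dh dm d) (u : Cfg d → F) (hu : ContDiff ℝ ∞ u) (y : Cfg dh)
    (w : Wsp dm) (h : (S.Dy φ 8 y).det ≠ 0) (i : Fin 9) (B : Fin dh) :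
    py i B (S.res φ u) y w = ((Real.sqrt (S.Jd φ y) : ℝ) : ℂ) • pd i (φ (Sum.inl B)) u (emb φ y w) +
      ((fderiv ℝ (fun y : Cfg dh => Real.sqrt (S.Jd φ y)) y (EuclideanSpace.single (i, B) 1) : ℝ) : ℂ) •
        u (emb φ y w) := by
  have hd : HasFDerivAt (fun y : Cfg dh => Real.sqrt (S.Jd φ y))
      (fderiv ℝ (fun y : Cfg dh => Real.sqrt (S.Jd φ y)) y) y :=
    ((gh_sqrt_contDiffAt S φ y h).differentiableAt (by simp)).hasFDerivAt
  have hc : HasFDerivAt (fun y : Cfg dh => ((Real.sqrt (S.Jd φ y) : ℝ) : ℂ))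
      (Complex.ofRealCLM.comp (fderiv ℝ (fun y : Cfg dh => Real.sqrt (S.Jd φ y)) y)) y :=
    Complex.ofRealCLM.hasFDerivAt.comp y hd
  have h1 : HasFDerivAt u (fderiv ℝ u (emb φ y w)) (ghE φ (y, w)) :=
    (hu.differentiable (by simp)).differentiableAt.hasFDerivAt
  have hU : HasFDerivAt (fun y' => u (emb φ y' w)) ((fderiv ℝ u (emb φ y w)).comp
      ((ghE φ).comp (ContinuousLinearMap.inl ℝ (Cfg dh) (Wsp dm)))) y :=
    h1.comp y ((ghE φ).hasFDerivAt.comp y (hasFDerivAt_prodMk_left y w))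
  have h2 := hc.smul hU
  show fderiv ℝ (fun y' => ((Real.sqrt (S.Jd φ y') : ℝ) : ℂ) • u (emb φ y' w)) y
    (EuclideanSpace.single (i, B) 1) = _
  rw [HasFDerivAt.fderiv (f := fun y' => ((Real.sqrt (S.Jd φ y') : ℝ) : ℂ) • u (emb φ y' w)) h2]
  simp only [add_apply, smul_apply,
    ContinuousLinearMap.comp_apply, ContinuousLinearMap.smulRight_apply,
    ContinuousLinearMap.inl_apply, ghE_apply, gh_single_y, Complex.ofRealCLM_apply]
  rfl

lemma gh_pw (S : Setup d F) (φ : Spl dh dm d) (u : Cfg d → F) (hu : ContDiff ℝ ∞ u) (y : Cfg dh)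
    (w : Wsp dm) (j : Fin 8) (B : Fin dm) :
    pw j B (S.res φ u) y w =
      ((Real.sqrt (S.Jd φ y) : ℝ) : ℂ) • pd j.castSucc (φ (Sum.inr B)) u (emb φ y w) := by
  have h1 : HasFDerivAt u (fderiv ℝ u (emb φ y w)) (ghE φ (y, w)) :=
    (hu.differentiable (by simp)).differentiableAt.hasFDerivAt
  have hU : HasFDerivAt (fun w' => u (emb φ y w')) ((fderiv ℝ u (emb φ y w)).comp
      ((ghE φ).comp (ContinuousLinearMap.inr ℝ (Cfg dh) (Wsp dm)))) w :=
    h1.comp w ((ghE φ).hasFDerivAt.comp w (hasFDerivAt_prodMk_right y w))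
  have h2 := hU.const_smul ((Real.sqrt (S.Jd φ y) : ℝ) : ℂ)
  show fderiv ℝ (fun w' => ((Real.sqrt (S.Jd φ y) : ℝ) : ℂ) • u (emb φ y w')) w
    (EuclideanSpace.single (j, B) 1) = _
  rw [HasFDerivAt.fderiv (f := fun w' => ((Real.sqrt (S.Jd φ y) : ℝ) : ℂ) • u (emb φ y w')) h2]
  simp only [smul_apply,
    ContinuousLinearMap.comp_apply,
    ContinuousLinearMap.inr_apply, ghE_apply, gh_single_w]
  rfl

lemma gh_G (S : Setup d F) (φ : Spl dh dm d) (hS : S.IsSub φ) (u : Cfg d → F) (c : Fin dh)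
    (y : Cfg dh) (w : Wsp dm) :
    S.G (φ (Sum.inl c)) u (emb φ y w) =
      (-Complex.I) • (∑ i, ∑ A, ∑ B, ((S.f (φ (Sum.inl c)) (φ (Sum.inl A)) (φ (Sum.inl B)) *
        y (i, A) : ℝ) : ℂ) • pd i (φ (Sum.inl B)) u (emb φ y w)) +
      (-Complex.I) • (∑ j : Fin 8, ∑ A, ∑ B, ((S.f (φ (Sum.inl c)) (φ (Sum.inr A)) (φ (Sum.inr B)) *
        w (j, A) : ℝ) : ℂ) • pd j.castSucc (φ (Sum.inr B)) u (emb φ y w)) +
      S.cS (φ (Sum.inl c)) (u (emb φ y w)) := by
  have h1 : ∀ (a : Fin dh) (b : Fin dm), S.f (φ (Sum.inl c)) (φ (Sum.inl a)) (φ (Sum.inr b)) = 0 :=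
    fun a b => hS _ _ _
  have h2 : ∀ (a : Fin dm) (b : Fin dh), S.f (φ (Sum.inl c)) (φ (Sum.inr a)) (φ (Sum.inl b)) = 0 := by
    intro a b
    rw [← S.f_cyc (φ (Sum.inl b)) (φ (Sum.inl c)) (φ (Sum.inr a))]
    exact hS _ _ _
  unfold Setup.G
  congr 1
  rw [← smul_add]
  congr 1
  have e1 : ∀ i : Fin 9, ∑ A, ∑ B, ((S.f (φ (Sum.inl c)) A B : ℂ) * (emb φ y w (i, A) : ℂ)) •
      pd i B u (emb φ y w) =
      (∑ A, ∑ B, ((S.f (φ (Sum.inl c)) (φ (Sum.inl A)) (φ (Sum.inl B)) *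
        y (i, A) : ℝ) : ℂ) • pd i (φ (Sum.inl B)) u (emb φ y w)) +
      ∑ A, ∑ B, ((S.f (φ (Sum.inl c)) (φ (Sum.inr A)) (φ (Sum.inr B)) *
        wt w i A : ℝ) : ℂ) • pd i (φ (Sum.inr B)) u (emb φ y w) := by
    intro i
    rw [gh_sum_split φ]
    congr 1
    · refine Finset.sum_congr rfl fun A _ => ?_
      rw [gh_sum_split φ]
      simp only [h1, gh_emb_inl, Complex.ofReal_zero, zero_mul, zero_smul, Finset.sum_const_zero,
        add_zero, Complex.ofReal_mul]
    · refine Finset.sum_congr rfl fun A _ => ?_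
      rw [gh_sum_split φ]
      simp only [h2, gh_emb_inr, Complex.ofReal_zero, zero_mul, zero_smul, Finset.sum_const_zero,
        zero_add, Complex.ofReal_mul]
  simp only [e1, Finset.sum_add_distrib]
  congr 1
  rw [Fin.sum_univ_castSucc]
  simp only [gh_wt_last, gh_wt_cast, mul_zero, Complex.ofReal_zero, zero_smul,
    Finset.sum_const_zero, add_zero]

/-- **A8** -/
theorem gh_stmt (S : Setup d F) : GhStmt S := by
  intro dh dm φ hS u hu
  refine ⟨gh_sm S φ u hu, fun hG C y w h => ?_⟩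
  have h0 := gh_G S φ hS u C y w
  rw [hG] at h0
  unfold Gh
  have e1 : ∑ i, ∑ A, ∑ B, ((S.f (φ (Sum.inl C)) (φ (Sum.inl A)) (φ (Sum.inl B)) * y (i, A) : ℝ) : ℂ) •
      py i B (S.res φ u) y w = ((Real.sqrt (S.Jd φ y) : ℝ) : ℂ) •
      ∑ i, ∑ A, ∑ B, ((S.f (φ (Sum.inl C)) (φ (Sum.inl A)) (φ (Sum.inl B)) *
        y (i, A) : ℝ) : ℂ) • pd i (φ (Sum.inl B)) u (emb φ y w) := by
    have e2 : ∑ i, ∑ A, ∑ B, ((S.f (φ (Sum.inl C)) (φ (Sum.inl A)) (φ (Sum.inl B)) * y (i, A) : ℝ) : ℂ) •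
        py i B (S.res φ u) y w = ∑ i, ∑ A, ∑ B, (((Real.sqrt (S.Jd φ y) : ℝ) : ℂ) •
        (((S.f (φ (Sum.inl C)) (φ (Sum.inl A)) (φ (Sum.inl B)) *
          y (i, A) : ℝ) : ℂ) • pd i (φ (Sum.inl B)) u (emb φ y w)) +
        ((((S.f (φ (Sum.inl C)) (φ (Sum.inl A)) (φ (Sum.inl B)) * y (i, A)) *
          fderiv ℝ (fun y : Cfg dh => Real.sqrt (S.Jd φ y)) y (EuclideanSpace.single (i, B) 1) : ℝ) : ℂ) •
          u (emb φ y w))) := by
      refine Finset.sum_congr rfl fun i _ => Finset.sum_congr rfl fun A _ =>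
        Finset.sum_congr rfl fun B _ => ?_
      rw [gh_py S φ u hu y w h i B, smul_add, smul_smul, smul_smul, smul_smul, mul_comm,
        ← Complex.ofReal_mul]
      simp only [Complex.ofReal_mul]
    rw [e2]
    simp only [Finset.sum_add_distrib, ← Finset.smul_sum, ← Finset.sum_smul, ← Complex.ofReal_sum]
    rw [gh_dirsum S φ hS C y h]
    simp
  have e3 : ∑ j, ∑ A, ∑ B, ((S.f (φ (Sum.inl C)) (φ (Sum.inr A)) (φ (Sum.inr B)) * w (j, A) : ℝ) : ℂ) •
      pw j B (S.res φ u) y w = ((Real.sqrt (S.Jd φ y) : ℝ) : ℂ) •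
      ∑ j : Fin 8, ∑ A, ∑ B, ((S.f (φ (Sum.inl C)) (φ (Sum.inr A)) (φ (Sum.inr B)) *
        w (j, A) : ℝ) : ℂ) • pd j.castSucc (φ (Sum.inr B)) u (emb φ y w) := by
    simp only [Finset.smul_sum]
    refine Finset.sum_congr rfl fun j _ => Finset.sum_congr rfl fun A _ =>
        Finset.sum_congr rfl fun B _ => ?_
    rw [gh_pw S φ u hu y w j B, smul_comm]
  rw [e1, e3]
  have e4 : S.res φ u y w = ((Real.sqrt (S.Jd φ y) : ℝ) : ℂ) • u (emb φ y w) := rfl
  rw [e4, map_smul, smul_comm (-Complex.I), smul_comm (-Complex.I), ← smul_add, ← smul_add, ← h0,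
    smul_zero]

end Vale.Agent.P353.Z.AN
end

section

/-! # P353, all `N`, block B: coercivity at the frozen point -/

open MeasureTheory Filter Topology Matrix
open scoped ContDiff

namespace Vale.Agent.P353.Z

variable {d dh dm : ℕ} {F : Type*} [NormedAddCommGroup F] [InnerProductSpace ℂ F]

namespace CoF

lemma fderiv_nsq {f : Wsp dm → F} {w : Wsp dm} (hf : DifferentiableAt ℝ f w) (e : Wsp dm) :
    fderiv ℝ (fun w => ‖f w‖ ^ 2) w e = 2 * (inner ℂ (f w) (fderiv ℝ f w e)).re := by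
  have h1 : DifferentiableAt ℝ (fun w => inner ℂ (f w) (f w)) w := hf.inner ℂ hf
  have h2 := fderiv_inner_apply ℂ hf hf e
  have h3 : (fun w => ‖f w‖ ^ 2) = fun w => Complex.reCLM (inner ℂ (f w) (f w)) := by
    funext w
    rw [Complex.reCLM_apply, ← inner_self_eq_norm_sq (𝕜 := ℂ)]
    rfl
  have h4 : fderiv ℝ (fun w => Complex.reCLM (inner ℂ (f w) (f w))) w =
      Complex.reCLM.comp (fderiv ℝ (fun w => inner ℂ (f w) (f w)) w) :=
    (Complex.reCLM.hasFDerivAt.comp w h1.hasFDerivAt).fderiv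
  rw [h3, h4, ContinuousLinearMap.comp_apply, h2, Complex.reCLM_apply, Complex.add_re]
  have h5 : (inner ℂ (fderiv ℝ f w e) (f w) : ℂ).re = (inner ℂ (f w) (fderiv ℝ f w e) : ℂ).re := by
    rw [← inner_conj_symm, Complex.conj_re]
  rw [h5]
  ring

lemma FT.nsq_contDiff {f : Wsp dm → F} (hf : FT f) : ContDiff ℝ 1 fun w => ‖f w‖ ^ 2 :=
  (hf.1.norm_sq ℂ).of_le (by simp)

lemma FT.nsq_cs {f : Wsp dm → F} (hf : FT f) : HasCompactSupport fun w => ‖f w‖ ^ 2 :=
  hf.2.comp_left (g := fun v : F => ‖v‖ ^ 2) (by simp)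

lemma FT.pf_cont {f : Wsp dm → F} (hf : FT f) (j : Fin 8) (B : Fin dm) : Continuous (pf j B f) := by
  unfold pf
  exact (hf.1.continuous_fderiv (by simp)).clm_apply continuous_const

lemma FT.pf_cs {f : Wsp dm → F} (hf : FT f) (j : Fin 8) (B : Fin dm) :
    HasCompactSupport (pf j B f) :=
  hf.2.fderiv_apply (𝕜 := ℝ) (EuclideanSpace.single (j, B) (1 : ℝ) : Wsp dm)

/-- integration by parts against a linear function -/
lemma ibp {g : Wsp dm → ℝ} (hg : ContDiff ℝ 1 g) (hc : HasCompactSupport g)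
    (ℓ : Wsp dm →L[ℝ] ℝ) (e : Wsp dm) :
    ∫ w, ℓ w * fderiv ℝ g w e = -(ℓ e * ∫ w, g w) := by
  have hdc : Continuous fun w => fderiv ℝ g w e :=
    (hg.continuous_fderiv (by simp)).clm_apply continuous_const
  have hds : HasCompactSupport fun w => fderiv ℝ g w e := hc.fderiv_apply (𝕜 := ℝ) e
  have h := integral_mul_fderiv_eq_neg_fderiv_mul_of_integrable (μ := volume)
    (f := fun w : Wsp dm => ℓ w) (g := g) (v := e) ?_ ?_ ?_ ?_ ?_
  · rw [h]
    have h2 : ∀ w, fderiv ℝ (fun w : Wsp dm => ℓ w) w e = ℓ e := fun w => by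
      rw [ℓ.fderiv]
    simp only [h2]
    rw [integral_const_mul]
  · have h2 : ∀ w, fderiv ℝ (fun w : Wsp dm => ℓ w) w e = ℓ e := fun w => by
      rw [ℓ.fderiv]
    simp only [h2]
    exact (hg.continuous.integrable_of_hasCompactSupport hc).const_mul _
  · exact (ℓ.continuous.mul hdc).integrable_of_hasCompactSupport hds.mul_left
  · exact (ℓ.continuous.mul hg.continuous).integrable_of_hasCompactSupport hc.mul_left
  · exact fun w _ => ℓ.differentiableAt
  · exact fun w _ => (hg.differentiable (by simp)) w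

lemma pt (a v : F) (m : ℝ) :
    ‖a + (m : ℂ) • v‖ ^ 2 = ‖a‖ ^ 2 + m * (2 * (inner ℂ v a).re) + m ^ 2 * ‖v‖ ^ 2 := by
  rw [norm_add_sq (𝕜 := ℂ), inner_smul_right, norm_smul, mul_pow, Complex.norm_real,
    Real.norm_eq_abs, sq_abs]
  have h1 : (inner ℂ a v : ℂ).re = (inner ℂ v a : ℂ).re := by
    rw [← inner_conj_symm, Complex.conj_re]
  have h2 : RCLike.re ((m : ℂ) * inner ℂ a v) = m * (inner ℂ v a : ℂ).re := by
    rw [← h1]
    simp
  rw [h2]
  ring

omit [InnerProductSpace ℂ F] in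
lemma i0 {g : Wsp dm → F} (hg : Continuous g) (hc : HasCompactSupport g) :
    Integrable fun w => ‖g w‖ ^ 2 := by
  have h1 : Continuous fun w => ‖g w‖ ^ 2 := hg.norm.pow 2
  have h2 : HasCompactSupport fun w => ‖g w‖ ^ 2 :=
    hc.comp_left (g := fun v : F => ‖v‖ ^ 2) (by simp)
  exact h1.integrable_of_hasCompactSupport h2

lemma i1 {f : Wsp dm → F} (hf : FT f) (j : Fin 8) (B : Fin dm) :
    Integrable fun w => ‖pf j B f w‖ ^ 2 :=
  i0 (FT.pf_cont hf j B) (FT.pf_cs hf j B)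

lemma i2 {f : Wsp dm → F} (hf : FT f) (ℓ : Wsp dm →L[ℝ] ℝ) (e : Wsp dm) :
    Integrable fun w => ℓ w * fderiv ℝ (fun w => ‖f w‖ ^ 2) w e := by
  have h1 : Continuous fun w => fderiv ℝ (fun w => ‖f w‖ ^ 2) w e :=
    ((FT.nsq_contDiff hf).continuous_fderiv (by simp)).clm_apply continuous_const
  have h2 : HasCompactSupport fun w => fderiv ℝ (fun w => ‖f w‖ ^ 2) w e :=
    (FT.nsq_cs hf).fderiv_apply (𝕜 := ℝ) e
  exact (ℓ.continuous.mul h1).integrable_of_hasCompactSupport h2.mul_left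

lemma i3 {f : Wsp dm → F} (hf : FT f) {m : Wsp dm → ℝ} (hm : Continuous m) :
    Integrable fun w => m w * ‖f w‖ ^ 2 :=
  (hm.mul (FT.nsq_contDiff hf).continuous).integrable_of_hasCompactSupport
    (FT.nsq_cs hf).mul_left

lemma one_dir {f : Wsp dm → F} (hf : FT f) (j : Fin 8) (B : Fin dm) (ℓ : Wsp dm →L[ℝ] ℝ) :
    nsf (fun w => pf j B f w + ((ℓ w : ℝ) : ℂ) • f w) = nsf (pf j B f) +
      (∫ w, (ℓ w) ^ 2 * ‖f w‖ ^ 2) - ℓ (EuclideanSpace.single (j, B) 1) * nsf f := by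
  have hd : Differentiable ℝ f := hf.1.differentiable (by simp)
  have hpt : ∀ w, ‖pf j B f w + ((ℓ w : ℝ) : ℂ) • f w‖ ^ 2 = ‖pf j B f w‖ ^ 2 +
      ℓ w * fderiv ℝ (fun w => ‖f w‖ ^ 2) w (EuclideanSpace.single (j, B) 1) +
      (ℓ w) ^ 2 * ‖f w‖ ^ 2 := by
    intro w
    rw [pt, fderiv_nsq (hd w)]
    rfl
  have h3 : Integrable fun w => (ℓ w) ^ 2 * ‖f w‖ ^ 2 := i3 hf (ℓ.continuous.pow 2)
  have h12 : Integrable fun w => ‖pf j B f w‖ ^ 2 +
      ℓ w * fderiv ℝ (fun w => ‖f w‖ ^ 2) w (EuclideanSpace.single (j, B) 1) :=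
    (i1 hf j B).add (i2 hf ℓ _)
  have e1 : nsf (fun w => pf j B f w + ((ℓ w : ℝ) : ℂ) • f w) = ∫ w, ((‖pf j B f w‖ ^ 2 +
      ℓ w * fderiv ℝ (fun w => ‖f w‖ ^ 2) w (EuclideanSpace.single (j, B) 1)) +
      (ℓ w) ^ 2 * ‖f w‖ ^ 2) := integral_congr_ae (Eventually.of_forall hpt)
  rw [e1, integral_add h12 h3, integral_add (i1 hf j B) (i2 hf ℓ _),
    ibp (FT.nsq_contDiff hf) (FT.nsq_cs hf)]
  unfold nsf
  ring

end CoF

open CoF in
theorem coerF (S : Setup d F) (φ : Spl dh dm d) (hQF : QFStmt) (hEn : EnFStmt S φ)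
    (hLam : LamStmt S φ) : CoerFStmt S φ := by
  intro hfin D Om hD hOm
  obtain ⟨M, hM1, -, hM3, c, hc, hM4⟩ := hQF dm S.κ D Om S.κ_pos hD hOm
  obtain ⟨cL, hcL, hL⟩ := hLam hfin D Om hD hOm
  set τ : ℝ := ∑ j : Fin 8, ∑ B : Fin dm, M (EuclideanSpace.single (j, B) 1) (j, B) with hτ
  set c0 : ℝ := min 1 (c ^ 2) with hc0
  have hc0p : 0 < c0 := lt_min one_pos (by positivity)
  refine ⟨(2 + |τ|) / c0, by positivity, fun f hf => ?_⟩
  -- the bosonic part
  have h1 : ∑ j : Fin 8, ∑ B : Fin dm, nsf (fun w => pf j B f w + ((M w (j, B) : ℝ) : ℂ) • f w) ≤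
      2 * S.e1 φ D f := by
    have hE := hEn D Om hD hOm f hf
    have hN : 0 ≤ (∫ w, inner ℂ (f w) (S.NF φ D Om (f w))).re := by
      have hint : Integrable fun w => inner ℂ (f w) (S.NF φ D Om (f w)) := by
        have hcf : Continuous f := hf.1.continuous
        have h2 : Continuous fun w => inner ℂ (f w) (S.NF φ D Om (f w)) :=
          hcf.inner ((S.NF φ D Om).continuous.comp hcf)
        have h3 : HasCompactSupport fun w => inner ℂ (f w) (S.NF φ D Om (f w)) :=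
          hf.2.comp_left (g := fun v : F => inner ℂ v (S.NF φ D Om v)) (by simp)
        exact h2.integrable_of_hasCompactSupport h3
      have h4 : (∫ w, inner ℂ (f w) (S.NF φ D Om (f w))).re =
          ∫ w, (inner ℂ (f w) (S.NF φ D Om (f w))).re :=
        (integral_re hint).symm
      rw [h4]
      refine integral_nonneg fun w => ?_
      obtain ⟨v0, -, -, h5⟩ := hL (f w)
      exact le_trans (by positivity) h5
    have hdrop : ∑ j : Fin 8, ∑ B : Fin dm,
        nsf (fun w => pf j B f w + ((M w (j, B) : ℝ) : ℂ) • f w) ≤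
        ∑ i : Fin 9, ∑ B, nsf (fun w => dd D i B f w + (((Om *ᵥ VV D w i) B : ℝ) : ℂ) • f w) := by
      rw [Fin.sum_univ_castSucc (n := 8)]
      have e1 : ∀ (j : Fin 8) (B : Fin dm),
          nsf (fun w => pf j B f w + ((M w (j, B) : ℝ) : ℂ) • f w) =
          nsf (fun w => dd D j.castSucc B f w +
            (((Om *ᵥ VV D w j.castSucc) B : ℝ) : ℂ) • f w) := by
        intro j B
        congr 1
        funext w
        rw [hM3]
        simp [dd]
      simp only [e1]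
      refine le_add_of_nonneg_right (Finset.sum_nonneg fun B _ => ?_)
      exact integral_nonneg fun w => by positivity
    linarith
  have h2 : ∀ (j : Fin 8) (B : Fin dm),
      nsf (fun w => pf j B f w + ((M w (j, B) : ℝ) : ℂ) • f w) = nsf (pf j B f) +
        (∫ w, (M w (j, B)) ^ 2 * ‖f w‖ ^ 2) - M (EuclideanSpace.single (j, B) 1) (j, B) * nsf f :=
    fun j B => one_dir hf j B ((EuclideanSpace.proj (j, B)).comp M)
  simp only [h2, Finset.sum_sub_distrib, Finset.sum_add_distrib, ← Finset.sum_mul] at h1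
  have h3 : c ^ 2 * nsf (fun w => ((‖w‖ : ℝ) : ℂ) • f w) ≤
      ∑ j : Fin 8, ∑ B : Fin dm, ∫ w, (M w (j, B)) ^ 2 * ‖f w‖ ^ 2 := by
    have hcont : ∀ (j : Fin 8) (B : Fin dm), Continuous fun w => (M w (j, B)) ^ 2 := fun j B =>
      (((EuclideanSpace.proj (𝕜 := ℝ) (j, B)).comp M).continuous).pow 2
    have hi : ∀ (j : Fin 8) (B : Fin dm), Integrable fun w => (M w (j, B)) ^ 2 * ‖f w‖ ^ 2 :=
      fun j B => i3 hf (hcont j B)
    have e1 : ∑ j : Fin 8, ∑ B : Fin dm, ∫ w, (M w (j, B)) ^ 2 * ‖f w‖ ^ 2 =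
        ∫ w, ‖M w‖ ^ 2 * ‖f w‖ ^ 2 := by
      have e2 : ∀ w, ‖M w‖ ^ 2 * ‖f w‖ ^ 2 =
          ∑ j : Fin 8, ∑ B : Fin dm, (M w (j, B)) ^ 2 * ‖f w‖ ^ 2 := by
        intro w
        rw [EuclideanSpace.norm_sq_eq, Fintype.sum_prod_type, Finset.sum_mul]
        refine Finset.sum_congr rfl fun j _ => ?_
        rw [Finset.sum_mul]
        refine Finset.sum_congr rfl fun B _ => ?_
        rw [Real.norm_eq_abs, sq_abs]
      simp_rw [e2]
      rw [integral_finsetSum _ fun j _ => integrable_finsetSum _ fun B _ => hi j B]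
      refine Finset.sum_congr rfl fun j _ => ?_
      rw [integral_finsetSum _ fun B _ => hi j B]
    rw [e1]
    unfold nsf
    rw [← integral_const_mul]
    refine integral_mono ?_ (i3 hf (M.continuous.norm.pow 2)) fun w => ?_
    · have hcn : Continuous fun w : Wsp dm => ‖w‖ ^ 2 := continuous_norm.pow 2
      refine ((i3 hf hcn).const_mul (c ^ 2)).congr (Eventually.of_forall fun w => ?_)
      simp only [norm_smul, Complex.norm_real, norm_norm, mul_pow]
    · simp only [norm_smul, Complex.norm_real, norm_norm, mul_pow]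
      rw [← mul_assoc]
      refine mul_le_mul_of_nonneg_right ?_ (sq_nonneg _)
      rw [← mul_pow]
      refine pow_le_pow_left₀ (by positivity) ?_ 2
      rcases eq_or_lt_of_le (norm_nonneg w) with h | h
      · rw [← h, mul_zero]
        exact norm_nonneg _
      · have h5 := (hM4 w).trans (real_inner_le_norm w (M w))
        have h6 : ‖w‖ * (c * ‖w‖) ≤ ‖w‖ * ‖M w‖ := by
          calc ‖w‖ * (c * ‖w‖) = c * ‖w‖ ^ 2 := by ring
            _ ≤ _ := h5
        exact le_of_mul_le_mul_left h6 h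
  have hn1 : 0 ≤ nsf f := integral_nonneg fun w => by positivity
  have hn2 : 0 ≤ nsf (fun w => ((‖w‖ : ℝ) : ℂ) • f w) := integral_nonneg fun w => by positivity
  have hn3 : 0 ≤ ∑ j : Fin 8, ∑ B : Fin dm, nsf (pf j B f) :=
    Finset.sum_nonneg fun j _ => Finset.sum_nonneg fun B _ => integral_nonneg fun w => by positivity
  have hn4 : 0 ≤ S.e1 φ D f := by
    unfold Setup.e1
    refine mul_nonneg (by norm_num) (Finset.sum_nonneg fun β _ => ?_)
    exact integral_nonneg fun w => by positivity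
  set G := ∑ j : Fin 8, ∑ B : Fin dm, nsf (pf j B f)
  set X := nsf (fun w => ((‖w‖ : ℝ) : ℂ) • f w)
  have h7 : c0 * (G + X) ≤ (2 + |τ|) * (S.e1 φ D f + nsf f) := by
    have h8 : c0 * G ≤ G := mul_le_of_le_one_left hn3 (min_le_left _ _)
    have h9 : c0 * X ≤ c ^ 2 * X := mul_le_mul_of_nonneg_right (min_le_right _ _) hn2
    have h10 : τ * nsf f ≤ |τ| * nsf f := mul_le_mul_of_nonneg_right (le_abs_self τ) hn1
    have h11 : 0 ≤ |τ| * S.e1 φ D f := mul_nonneg (abs_nonneg _) hn4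
    have h12 : (2 + |τ|) * (S.e1 φ D f + nsf f) = 2 * S.e1 φ D f + |τ| * nsf f +
        (2 * nsf f + |τ| * S.e1 φ D f) := by ring
    linarith
  rw [div_mul_eq_mul_div, le_div_iff₀ hc0p]
  linarith

end Vale.Agent.P353.Z
end

section

/-! # P353, all `N`, block C: integrated fibre facts (`FIntStmt`) -/

open MeasureTheory Filter Topology
open scoped ContDiff

namespace Vale.Agent.P353.Z.AN

namespace FI808

variable {d dh dm : ℕ} {F : Type*} [NormedAddCommGroup F] [InnerProductSpace ℂ F]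

private lemma nsf_zero {E : Type*} [NormedAddCommGroup E] (f : Wsp dm → E) (h : ∀ w, f w = 0) :
    nsf f = 0 := by
  unfold nsf
  simp [h]

private lemma nsf_nonneg {E : Type*} [NormedAddCommGroup E] (f : Wsp dm → E) : 0 ≤ nsf f :=
  integral_nonneg fun _ => by positivity

private lemma e1_nonneg (S : Setup d F) (φ : Spl dh dm d) (D : Fin 9 → Matrix (Fin dm) (Fin dm) ℝ)
    (f : Wsp dm → F) : 0 ≤ S.e1 φ D f := by
  unfold Setup.e1
  exact mul_nonneg (by norm_num) (Finset.sum_nonneg fun β _ => nsf_nonneg _)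

/-- the energy on the slice is the integral of the fibre energy -/
private lemma E1_int (S : Setup d F) (φ : Spl dh dm d) (hB : CalcB dh dm F)
    (v : Cfg dh → Wsp dm → F) (h1 : ∀ β, Tst2 (S.Q1 φ β v)) :
    Integrable (fun y => S.e1 φ (S.DY φ y) (v y)) ∧
      S.E1 φ v = 16 * ∫ y, S.e1 φ (S.DY φ y) (v y) := by
  have hi : ∀ β ∈ (Finset.univ : Finset (Fin 16)), Integrable (fun y => nsf (S.Q1 φ β v y)) :=
    fun β _ => (hB.yw _ (h1 β)).1
  have he : ∀ y, S.e1 φ (S.DY φ y) (v y) = (1 / 16) * ∑ β, nsf (S.Q1 φ β v y) := fun y => rfl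
  refine ⟨?_, ?_⟩
  · simp only [he]
    exact (integrable_finset_sum _ hi).const_mul _
  · simp only [he]
    rw [integral_const_mul, integral_finset_sum _ hi]
    unfold Setup.E1
    rw [← mul_assoc, show (16 : ℝ) * (1 / 16) = 1 by norm_num, one_mul]
    exact Finset.sum_congr rfl fun β _ => (hB.yw _ (h1 β)).2

/-- `∫∫ |∂_w v|²` as an integral over the fibres -/
private lemma D2w_int (hA : CalcA dh dm F) (hB : CalcB dh dm F)
    (v : Cfg dh → Wsp dm → F) (hv : Tst2 v) :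
    Integrable (fun y => ∑ j, ∑ B, nsf (pf j B (v y))) ∧
      D2w v = ∫ y, ∑ j, ∑ B, nsf (pf j B (v y)) := by
  have he : ∀ (y : Cfg dh) (j : Fin 8) (B : Fin dm), nsf (pf j B (v y)) = nsf (pw j B v y) :=
    fun y j B => rfl
  have hi : ∀ (j : Fin 8) (B : Fin dm), Integrable (fun y => nsf (pf j B (v y))) := by
    intro j B
    simp only [he]
    exact (hB.yw _ (hA.pw j B v hv)).1
  have hi2 : ∀ j : Fin 8, Integrable (fun y => ∑ B, nsf (pf j B (v y))) := fun j =>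
    integrable_finset_sum _ fun B _ => hi j B
  refine ⟨integrable_finset_sum _ fun j _ => hi2 j, ?_⟩
  rw [integral_finset_sum _ fun j _ => hi2 j]
  unfold D2w
  refine Finset.sum_congr rfl fun j _ => ?_
  rw [integral_finset_sum _ fun B _ => hi j B]
  refine Finset.sum_congr rfl fun B _ => ?_
  rw [(hB.yw _ (hA.pw j B v hv)).2]
  rfl

end FI808

open FI808

variable {d dh dm : ℕ} {F : Type*} [NormedAddCommGroup F] [InnerProductSpace ℂ F]

/-- **C-FInt** integrated fibre facts -/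
theorem fInt_stmt (S : Setup d F) (φ : Spl dh dm d) : CalcA dh dm F → CalcB dh dm F →
    OpStmt S φ → FIntStmt S φ := by
  intro hA hB hop Y ε0 C0 C1 hε0 hcf hfib hC1 R hR v hv hsup
  have hO := hop (fun _ => 0) (fun _ _ _ => rfl) Y ε0 C0 hε0 hcf
  have h1 : ∀ β, Tst2 (S.Q1 φ β v) := fun β => hO.t1 R hR v hv hsup β
  have hvz : ∀ y, ¬ ‖y - R • Y‖ ≤ ε0 * R → ∀ w, v y w = 0 := by
    intro y hy w
    by_contra h
    exact hy (hsup y w h).1
  obtain ⟨hei, heE⟩ := E1_int S φ hB v h1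
  obtain ⟨hni, hnE⟩ := hB.yw v hv
  have hE0 : 0 ≤ ∫ y, S.e1 φ (S.DY φ y) (v y) := integral_nonneg fun y => e1_nonneg S φ _ _
  have hE1 : ∫ y, S.e1 φ (S.DY φ y) (v y) ≤ S.E1 φ v := by rw [heE]; linarith
  refine ⟨?_, fun hodd => ?_⟩
  · obtain ⟨hdi, hdE⟩ := D2w_int hA hB v hv
    obtain ⟨hwi, hwE⟩ := hB.W2_yw v hv
    have hpt : ∀ y, (∑ j, ∑ B, nsf (pf j B (v y))) +
        R ^ 2 * nsf (fun w => ((‖w‖ : ℝ) : ℂ) • v y w) ≤
        C1 * (S.e1 φ (S.DY φ y) (v y) + R * nsf (v y)) := by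
      intro y
      by_cases hy : ‖y - R • Y‖ ≤ ε0 * R
      · exact hfib.F1 R hR y hy (v y) (hA.slw v hv y)
      · have hz := hvz y hy
        have hz' : v y = fun _ => 0 := funext hz
        have e1 : ∀ (j : Fin 8) (B : Fin dm), nsf (pf j B (v y)) = 0 := by
          intro j B
          refine nsf_zero _ fun w => ?_
          unfold pf
          rw [hz']
          simp
        have e2 : nsf (fun w => ((‖w‖ : ℝ) : ℂ) • v y w) = 0 :=
          nsf_zero _ fun w => by rw [hz w, smul_zero]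
        rw [e2]
        simp only [e1, Finset.sum_const_zero, mul_zero, add_zero]
        exact mul_nonneg hC1 (add_nonneg (e1_nonneg S φ _ _) (mul_nonneg hR.le (nsf_nonneg _)))
    have hint := integral_mono (hdi.add (hwi.const_mul (R ^ 2)))
      ((hei.add (hni.const_mul R)).const_mul C1) (fun y => hpt y)
    have l1 : ∫ y, ((fun y => ∑ j, ∑ B, nsf (pf j B (v y))) +
        fun y => R ^ 2 * nsf (fun w => ((‖w‖ : ℝ) : ℂ) • v y w)) y = D2w v + R ^ 2 * W2 v := by
      rw [hdE, hwE, ← integral_const_mul]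
      exact integral_add hdi (hwi.const_mul _)
    have l2 : ∫ y, C1 * ((fun y => S.e1 φ (S.DY φ y) (v y)) + fun y => R * nsf (v y)) y =
        C1 * ((∫ y, S.e1 φ (S.DY φ y) (v y)) + R * ns2 v) := by
      rw [integral_const_mul, hnE, ← integral_const_mul R]
      congr 1
      exact integral_add hei (hni.const_mul _)
    rw [l1, l2] at hint
    refine hint.trans (mul_le_mul_of_nonneg_left ?_ hC1)
    linarith
  · have hpt : ∀ y, R * nsf (v y) ≤ C1 * S.e1 φ (S.DY φ y) (v y) := by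
      intro y
      by_cases hy : ‖y - R • Y‖ ≤ ε0 * R
      · exact hfib.F3 R hR y hy (v y) (hA.slw v hv y) (hodd y)
      · rw [nsf_zero (v y) (hvz y hy), mul_zero]
        exact mul_nonneg hC1 (e1_nonneg S φ _ _)
    have hint := integral_mono (hni.const_mul R) (hei.const_mul C1) (fun y => hpt y)
    rw [integral_const_mul, integral_const_mul, ← hnE] at hint
    exact hint.trans (mul_le_mul_of_nonneg_left hE1 hC1)

end Vale.Agent.P353.Z.AN
end

section

/-! # P353, all `N`, block D: L13 transport by rotations -/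

open MeasureTheory Filter Topology Matrix
open scoped ContDiff

namespace Vale.Agent.P353.Z.AD

variable {d : ℕ} {F : Type*} [NormedAddCommGroup F] [InnerProductSpace ℂ F]

namespace Tr

lemma rox_add (R : Matrix (Fin 9) (Fin 9) ℝ) (O : Matrix (Fin d) (Fin d) ℝ) (x y : Cfg d) :
    rox R O (x + y) = rox R O x + rox R O y := by
  ext p
  simp only [rox, PiLp.add_apply, mul_add, Finset.sum_add_distrib]

lemma rox_smul (R : Matrix (Fin 9) (Fin 9) ℝ) (O : Matrix (Fin d) (Fin d) ℝ) (c : ℝ) (x : Cfg d) :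
    rox R O (c • x) = c • rox R O x := by
  ext p
  simp only [rox, PiLp.smul_apply, smul_eq_mul, Finset.mul_sum]
  refine Finset.sum_congr rfl fun j _ => Finset.sum_congr rfl fun B _ => ?_
  ring

/-- `rox` as a linear map. -/
noncomputable def roxL (R : Matrix (Fin 9) (Fin 9) ℝ) (O : Matrix (Fin d) (Fin d) ℝ) :
    Cfg d →ₗ[ℝ] Cfg d where
  toFun := rox R O
  map_add' := rox_add R O
  map_smul' := rox_smul R O

/-- `rox` as a linear equivalence. -/
noncomputable def roxE {R : Matrix (Fin 9) (Fin 9) ℝ} {O : Matrix (Fin d) (Fin d) ℝ}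
    (h1 : ∀ x, rox R.transpose O.transpose (rox R O x) = x)
    (h2 : ∀ x, rox R O (rox R.transpose O.transpose x) = x) : Cfg d ≃ₗ[ℝ] Cfg d where
  toFun := rox R O
  map_add' := rox_add R O
  map_smul' := rox_smul R O
  invFun := rox R.transpose O.transpose
  left_inv := h1
  right_inv := h2

/-- Basic facts. -/
structure Fx (R : Matrix (Fin 9) (Fin 9) ℝ) (O : Matrix (Fin d) (Fin d) ℝ) : Prop where
  l : ∀ x, rox R.transpose O.transpose (rox R O x) = x
  r : ∀ x, rox R O (rox R.transpose O.transpose x) = x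
  nm : ∀ x, ‖rox R O x‖ = ‖x‖
  mp : MeasurePreserving (rox R O : Cfg d → Cfg d) volume volume
  em : MeasurableEmbedding (rox R O : Cfg d → Cfg d)

lemma mkFx {S : Setup d F} (h : AN.RotStmt S) {R : Matrix (Fin 9) (Fin 9) ℝ}
    (hR : R * R.transpose = 1) {O : Matrix (Fin d) (Fin d) ℝ} (hO : O * O.transpose = 1) :
    Fx R O := by
  obtain ⟨a1, a2, a3, _⟩ := h R hR O hO
  have hR' : R.transpose * R.transpose.transpose = 1 := by
    rw [Matrix.transpose_transpose]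
    exact mul_eq_one_comm.1 hR
  have hO' : O.transpose * O.transpose.transpose = 1 := by
    rw [Matrix.transpose_transpose]
    exact mul_eq_one_comm.1 hO
  obtain ⟨_, _, b3, _⟩ := h R.transpose hR' O.transpose hO'
  simp only [Matrix.transpose_transpose] at b3
  exact ⟨a3, b3, a1, a2, (roxE a3 b3).toContinuousLinearEquiv.toHomeomorph.measurableEmbedding⟩

lemma Fx.setInt {R : Matrix (Fin 9) (Fin 9) ℝ} {O : Matrix (Fin d) (Fin d) ℝ} (h : Fx R O)
    (g : Cfg d → ℝ) (A : Set (Cfg d)) :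
    ∫ x in A, g x = ∫ x in rox R O ⁻¹' A, g (rox R O x) :=
  (h.mp.setIntegral_preimage_emb h.em g A).symm

lemma Fx.setInt' {R : Matrix (Fin 9) (Fin 9) ℝ} {O : Matrix (Fin d) (Fin d) ℝ} (h : Fx R O)
    (g : Cfg d → ℝ) {A : Set (Cfg d)} (hA : ∀ x, rox R O x ∈ A ↔ x ∈ A) :
    ∫ x in A, g x = ∫ x in A, g (rox R O x) := by
  have : rox R O ⁻¹' A = A := Set.ext hA
  rw [h.setInt, this]

lemma Fx.shl {R : Matrix (Fin 9) (Fin 9) ℝ} {O : Matrix (Fin d) (Fin d) ℝ} (h : Fx R O)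
    (s t : ℝ) (x : Cfg d) : rox R O x ∈ shl d s t ↔ x ∈ shl d s t := by
  simp only [AD.shl, Set.mem_ofPred_eq, h.nm]

lemma Fx.tst {R : Matrix (Fin 9) (Fin 9) ℝ} {O : Matrix (Fin d) (Fin d) ℝ} (h : Fx R O)
    {u : Cfg d → F} (hu : Setup.Tst u) :
    Setup.Tst fun x => u (rox R.transpose O.transpose x) := by
  set e := (roxE h.l h.r).symm.toContinuousLinearEquiv with he
  have h1 : (fun x => u (rox R.transpose O.transpose x)) = u ∘ e := rfl
  rw [h1]
  exact ⟨hu.1.comp e.contDiff, hu.2.comp_homeomorph e.toHomeomorph⟩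

/-- The map on the colour space. -/
noncomputable def oE {O : Matrix (Fin d) (Fin d) ℝ} (hO : O * O.transpose = 1) :
    (Fin d → ℝ) ≃ₗ[ℝ] (Fin d → ℝ) where
  toFun := fun v => O *ᵥ v
  map_add' := fun x y => Matrix.mulVec_add O x y
  map_smul' := fun c x => Matrix.mulVec_smul O c x
  invFun := fun v => O.transpose *ᵥ v
  left_inv := fun v => by
    simp only [Matrix.mulVec_mulVec, mul_eq_one_comm.1 hO, Matrix.one_mulVec]
  right_inv := fun v => by
    simp only [Matrix.mulVec_mulVec, hO, Matrix.one_mulVec]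

lemma sum_five {α : Type*} [Fintype α] (T : α → α → α → α → α → ℝ) :
    ∑ a, ∑ b, ∑ a', ∑ b', ∑ c', T a b a' b' c' = ∑ a', ∑ b', ∑ c', ∑ a, ∑ b, T a b a' b' c' := by
  calc ∑ a, ∑ b, ∑ a', ∑ b', ∑ c', T a b a' b' c'
      = ∑ a, ∑ a', ∑ b, ∑ b', ∑ c', T a b a' b' c' :=
        Finset.sum_congr rfl fun a _ => Finset.sum_comm
    _ = ∑ a', ∑ a, ∑ b, ∑ b', ∑ c', T a b a' b' c' := Finset.sum_comm
    _ = ∑ a', ∑ a, ∑ b', ∑ b, ∑ c', T a b a' b' c' :=
        Finset.sum_congr rfl fun a' _ => Finset.sum_congr rfl fun a _ => Finset.sum_comm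
    _ = ∑ a', ∑ b', ∑ a, ∑ b, ∑ c', T a b a' b' c' :=
        Finset.sum_congr rfl fun a' _ => Finset.sum_comm
    _ = ∑ a', ∑ b', ∑ a, ∑ c', ∑ b, T a b a' b' c' :=
        Finset.sum_congr rfl fun a' _ => Finset.sum_congr rfl fun b' _ =>
          Finset.sum_congr rfl fun a _ => Finset.sum_comm
    _ = ∑ a', ∑ b', ∑ c', ∑ a, ∑ b, T a b a' b' c' :=
        Finset.sum_congr rfl fun a' _ => Finset.sum_congr rfl fun b' _ => Finset.sum_comm

lemma sum_four {α β : Type*} [Fintype α] [Fintype β] (T : α → α → α → β → ℝ) :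
    ∑ a, ∑ b, ∑ c, ∑ j, T a b c j = ∑ j, ∑ c, ∑ a, ∑ b, T a b c j := by
  calc ∑ a, ∑ b, ∑ c, ∑ j, T a b c j
      = ∑ a, ∑ b, ∑ j, ∑ c, T a b c j :=
        Finset.sum_congr rfl fun a _ => Finset.sum_congr rfl fun b _ => Finset.sum_comm
    _ = ∑ a, ∑ j, ∑ b, ∑ c, T a b c j := Finset.sum_congr rfl fun a _ => Finset.sum_comm
    _ = ∑ j, ∑ a, ∑ b, ∑ c, T a b c j := Finset.sum_comm
    _ = ∑ j, ∑ a, ∑ c, ∑ b, T a b c j :=
        Finset.sum_congr rfl fun j _ => Finset.sum_congr rfl fun a _ => Finset.sum_comm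
    _ = ∑ j, ∑ c, ∑ a, ∑ b, T a b c j := Finset.sum_congr rfl fun j _ => Finset.sum_comm

lemma o_back {O : Matrix (Fin d) (Fin d) ℝ} (hO : O * O.transpose = 1) (a : Fin d → ℝ)
    (k : Fin d) : ∑ A, O A k * (O *ᵥ a) A = a k := by
  have h1 := congrFun ((oE hO).symm_apply_apply a) k
  exact h1

lemma cz_key (S : Setup d F) {R : Matrix (Fin 9) (Fin 9) ℝ} (hR : R * R.transpose = 1)
    {O : Matrix (Fin d) (Fin d) ℝ} (hO : O * O.transpose = 1) (Y : Cfg d) (v : Fin d → ℝ)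
    (i : Fin 9) (C : Fin d) :
    ∑ A, ∑ B, (S.rot R hR O hO).f A B C * (O *ᵥ v) A * (rox R O Y) (i, B) =
      ∑ j, R i j * ∑ C', O C C' * ∑ A, ∑ B, S.f A B C' * v A * Y (j, B) := by
  have hX : ∀ B, (rox R O Y) (i, B) = (O *ᵥ fun B' => ∑ j, R i j * Y (j, B')) B := by
    intro B
    simp only [rox, Matrix.mulVec, dotProduct, Finset.mul_sum]
    rw [Finset.sum_comm]
    refine Finset.sum_congr rfl fun B' _ => Finset.sum_congr rfl fun j _ => ?_
    ring
  have h1 : ∀ A B, (S.rot R hR O hO).f A B C * (O *ᵥ v) A * (rox R O Y) (i, B) =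
      ∑ A', ∑ B', ∑ C', (O C C' * S.f A' B' C') * ((O A A' * (O *ᵥ v) A) *
        (O B B' * (rox R O Y) (i, B))) := by
    intro A B
    show (∑ A', ∑ B', ∑ C', O A A' * O B B' * O C C' * S.f A' B' C') * (O *ᵥ v) A *
      (rox R O Y) (i, B) = _
    simp only [Finset.sum_mul]
    refine Finset.sum_congr rfl fun A' _ => Finset.sum_congr rfl fun B' _ =>
      Finset.sum_congr rfl fun C' _ => ?_
    ring
  simp only [h1]
  rw [sum_five fun A B A' B' C' => (O C C' * S.f A' B' C') * ((O A A' * (O *ᵥ v) A) *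
        (O B B' * (rox R O Y) (i, B)))]
  have h2 : ∀ A' B' C', ∑ A, ∑ B, (O C C' * S.f A' B' C') * ((O A A' * (O *ᵥ v) A) *
        (O B B' * (rox R O Y) (i, B))) = ∑ j, R i j * (O C C' * (S.f A' B' C' * v A' *
          Y (j, B'))) := by
    intro A' B' C'
    simp only [← Finset.mul_sum]
    rw [← Finset.sum_mul, o_back hO]
    simp only [hX]
    rw [o_back hO, Finset.mul_sum, Finset.mul_sum]
    refine Finset.sum_congr rfl fun j _ => ?_
    ring
  simp only [h2]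
  rw [sum_four fun A' B' C' j => R i j * (O C C' * (S.f A' B' C' * v A' * Y (j, B')))]
  simp only [Finset.mul_sum]

lemma cd_eq (S : Setup d F) {R : Matrix (Fin 9) (Fin 9) ℝ} (hR : R * R.transpose = 1)
    {O : Matrix (Fin d) (Fin d) ℝ} (hO : O * O.transpose = 1) (Y : Cfg d) :
    cd (S.rot R hR O hO) (rox R O Y) = cd S Y := by
  have hO' : O.transpose * O = 1 := mul_eq_one_comm.1 hO
  have hR' : R.transpose * R = 1 := mul_eq_one_comm.1 hR
  have h1 : (cz S Y).map (oE hO : (Fin d → ℝ) →ₗ[ℝ] (Fin d → ℝ)) =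
      cz (S.rot R hR O hO) (rox R O Y) := by
    ext v'
    rw [Submodule.mem_map]
    constructor
    · rintro ⟨v, hv, rfl⟩ i C
      show ∑ A, ∑ B, (S.rot R hR O hO).f A B C * (O *ᵥ v) A * (rox R O Y) (i, B) = 0
      rw [cz_key]
      refine Finset.sum_eq_zero fun j _ => ?_
      rw [Finset.sum_eq_zero, mul_zero]
      intro C' _
      rw [hv j C', mul_zero]
    · intro hv'
      refine ⟨(oE hO).symm v', ?_, (oE hO).apply_symm_apply v'⟩
      set v := (oE hO).symm v' with hv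
      have hvv : v' = O *ᵥ v := ((oE hO).apply_symm_apply v').symm
      set T : Matrix (Fin 9) (Fin d) ℝ := Matrix.of fun j C' =>
        ∑ A, ∑ B, S.f A B C' * v A * Y (j, B) with hT
      have h2 : R * T * O.transpose = 0 := by
        ext i C
        have h3 := hv' i C
        rw [hvv, cz_key] at h3
        rw [Matrix.zero_apply, ← h3, Matrix.mul_assoc, Matrix.mul_apply]
        refine Finset.sum_congr rfl fun j _ => ?_
        congr 1
        rw [Matrix.mul_apply]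
        refine Finset.sum_congr rfl fun C' _ => ?_
        rw [Matrix.transpose_apply, mul_comm]
        rfl
      have h4 : T = 0 := by
        calc T = (R.transpose * R) * T * (O.transpose * O) := by
              rw [hR', hO', Matrix.one_mul, Matrix.mul_one]
          _ = R.transpose * (R * T * O.transpose) * O := by
              simp only [Matrix.mul_assoc]
          _ = 0 := by rw [h2, Matrix.mul_zero, Matrix.zero_mul]
      intro j C'
      exact congrFun (congrFun h4 j) C'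
  unfold cd
  rw [← h1]
  exact LinearEquiv.finrank_map_eq (oE hO) (cz S Y)

end Tr

open Tr in
/-- L13 -/
theorem trOf (S : Setup d F) : TrOfStmt S := by
  intro hrot R hR O hO Rn u
  have hF := mkFx hrot hR hO
  obtain ⟨_, _, _, hV, hW, hQ, hG⟩ := hrot R hR O hO
  have hback : ∀ n, (fun z => (fun x => u n (rox R.transpose O.transpose x)) (rox R O z)) = u n := by
    intro n
    funext z
    show u n (rox R.transpose O.transpose (rox R O z)) = u n z
    rw [hF.l]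
  have hmas : ∀ n (A : Set (Cfg d)), (∀ x, rox R O x ∈ A ↔ x ∈ A) →
      mas (fun x => u n (rox R.transpose O.transpose x)) A = mas (u n) A := by
    intro n A hA
    unfold mas
    rw [hF.setInt' _ hA]
    refine integral_congr_ae (Eventually.of_forall fun x => ?_)
    show ‖u n (rox R.transpose O.transpose (rox R O x))‖ ^ 2 = ‖u n x‖ ^ 2
    rw [hF.l]
  have hena : ∀ n (A : Set (Cfg d)), (∀ x, rox R O x ∈ A ↔ x ∈ A) → Setup.Tst (u n) →
      ena (S.rot R hR O hO) (fun x => u n (rox R.transpose O.transpose x)) A = ena S (u n) A := by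
    intro n A hA hu
    unfold ena
    refine Finset.sum_congr rfl fun β _ => ?_
    rw [hF.setInt' _ hA]
    refine integral_congr_ae (Eventually.of_forall fun x => ?_)
    show ‖(S.rot R hR O hO).Q β (fun x => u n (rox R.transpose O.transpose x)) (rox R O x)‖ ^ 2 =
      ‖S.Q β (u n) x‖ ^ 2
    rw [hQ _ ((hF.tst hu).1.differentiable (by simp)) β x, hback]
  refine ⟨?_, ?_, ?_, fun Y => cd_eq S hR hO Y, hV, hF.shl⟩
  · intro hS
    refine ⟨?_, hS.pos, hS.lim, ?_⟩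
    · intro n
      refine ⟨hF.tst (hS.inv n).1, ?_⟩
      intro C x
      have h1 := hG _ ((hF.tst (hS.inv n).1).1.differentiable (by simp)) C
        (rox R.transpose O.transpose x)
      rw [hF.r, hback] at h1
      rw [h1]
      refine Finset.sum_eq_zero fun C' _ => ?_
      rw [(hS.inv n).2, smul_zero]
    · intro s t hs ht
      obtain ⟨C, hC⟩ := hS.bd s t hs ht
      refine ⟨C, fun n => ?_⟩
      rw [hmas n _ (hF.shl _ _), hena n _ (hF.shl _ _) (hS.inv n).1]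
      exact hC n
  · intro n A _ hA
    exact ⟨hmas n A hA, hena n A hA⟩
  · intro Y ε
    unfold NulE
    have h1 : ∀ n, mas (fun x => u n (rox R.transpose O.transpose x))
        (Metric.ball (Rn n • rox R O Y) (ε * Rn n)) = mas (u n) (Metric.ball (Rn n • Y) (ε * Rn n)) := by
      intro n
      unfold mas
      rw [hF.setInt]
      have h2 : rox R O ⁻¹' Metric.ball (Rn n • rox R O Y) (ε * Rn n) =
          Metric.ball (Rn n • Y) (ε * Rn n) := by
        ext x
        rw [Set.mem_preimage, Metric.mem_ball, Metric.mem_ball, dist_eq_norm, dist_eq_norm,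
          ← rox_smul]
        have h3 : rox R O x - rox R O (Rn n • Y) = rox R O (x - Rn n • Y) :=
          (map_sub (roxL R O) x (Rn n • Y)).symm
        rw [h3, hF.nm]
      rw [h2]
      refine integral_congr_ae (Eventually.of_forall fun x => ?_)
      show ‖u n (rox R.transpose O.transpose (rox R O x))‖ ^ 2 = ‖u n x‖ ^ 2
      rw [hF.l]
    simp only [h1]

end Vale.Agent.P353.Z.AD
end

section

/-! # P353, all `N`, block E: limit equation for the global functional near a point (`LocZStmt`) -/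

open MeasureTheory Filter Topology Matrix
open scoped ContDiff

namespace Vale.Agent.P353.Z.AE

namespace LocZ518

variable {d dh dm r ds : ℕ} {F : Type*} [NormedAddCommGroup F] [InnerProductSpace ℂ F]

/-! ### frozen points -/

lemma frz {S : Setup d F} {φ : Spl dh dm d} {ψ : Spl r ds dh} (hs : S.IsSub φ) (hc : S.IsCen φ ψ) {y : Cfg r}
    (h8 : (S.Dz φ ψ y 8).det ≠ 0) : Frz (S.Dz φ ψ y) := by
  have hT := AX.tor_Dz hs hc h8
  rw [← AX.DM_Dz] at h8 ⊢
  refine ⟨?_, ?_, h8⟩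
  · intro i
    simp only [DM, Matrix.transpose_sum, Matrix.transpose_smul, hT.anti, smul_neg, Finset.sum_neg_distrib]
  · intro i j
    simp only [DM, Finset.sum_mul_sum, smul_mul_smul_comm]
    rw [Finset.sum_comm]
    refine Finset.sum_congr rfl fun a _ => Finset.sum_congr rfl fun b _ => ?_
    rw [hT.comm, mul_comm]

lemma std {S : Setup d F} {φ : Spl dh dm d} {ψ : Spl r ds dh} (hs : S.IsSub φ) (hc : S.IsCen φ ψ) {y : Cfg r}
    (h8 : (S.Dz φ ψ y 8).det ≠ 0) : AN.Std S φ (cmb ψ y 0) := by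
  refine ⟨hs, ?_, h8⟩
  intro i B C
  rw [← ψ.sum_comp, Fintype.sum_sum_type]
  have e1 : ∀ A : Fin ds, cmb ψ y 0 (i, ψ (Sum.inr A)) = 0 := by
    intro A
    simp [cmb]
  have e2 : ∀ A : Fin r, S.f (φ (Sum.inl (ψ (Sum.inl A)))) (φ (Sum.inl B)) (φ (Sum.inl C)) = 0 :=
    fun A => hc A B C
  simp [e1, e2]

/-! ### linearity -/

lemma ZL_smul (S : Setup d F) (φ : Spl dh dm d) (ψ : Spl r ds dh) (Om : Cfg r → Matrix (Fin dm) (Fin dm) ℝ)
    (χ : Cfg r × Cfg ds × Cfg dm → ℝ) (R : ℝ) (a : Cfg r → Cfg ds → F) (c : ℂ) (u : Cfg d → F) :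
    ZL S φ ψ Om χ R a (fun x => c • u x) = c * ZL S φ ψ Om χ R a u := by
  unfold ZL
  simp only [inner_smul_right]
  exact integral_const_mul _ _

lemma SL_smul (S : Setup d F) (φ : Spl dh dm d) (ψ : Spl r ds dh) (Om : Cfg r → Matrix (Fin dm) (Fin dm) ℝ)
    (y₀ : Cfg r) (ε R : ℝ) (a : Cfg r → Cfg ds → F) (c : ℂ) (u : Cfg d → F) :
    SL S φ ψ Om y₀ ε R a (fun x => c • u x) = c * SL S φ ψ Om y₀ ε R a u := by
  have h : ∀ (y : Cfg dh) (w : Wsp dm), S.res φ (fun x => c • u x) y w = c • S.res φ u y w := by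
    intro y w
    simp only [Setup.res]
    rw [smul_comm]
  unfold SL
  simp only [h, inner_smul_right]
  exact integral_const_mul _ _

lemma GI_smul {S : Setup d F} {u : Cfg d → F} (h : GI S u) (c : ℝ) : GI S (fun x => (c : ℂ) • u x) := by
  refine ⟨Setup.Tst.rsmul (φ := fun _ => c) contDiff_const h.tst, fun C x => ?_⟩
  have hd : Differentiable ℝ u := fun x => h.tst.diff x
  have hp : ∀ (i : Fin 9) (A : Fin d) (x : Cfg d), pd i A (fun y => (c : ℂ) • u y) x = (c : ℂ) • pd i A u x := by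
    intro i A x
    have := pd_rsmul (i := i) (A := A) (φ := fun _ => c) (u := u) (x := x)
      (differentiableAt_const c) (hd x)
    simpa using this
  have h1 : S.G C (fun y => (c : ℂ) • u y) x = (c : ℂ) • S.G C u x := by
    simp only [Setup.G, hp, map_smul]
    simp only [smul_comm _ (c : ℂ), ← Finset.smul_sum]
    rw [smul_add]
  rw [h1, h.inv, smul_zero]

lemma nsq_smul (c : ℝ) (u : Cfg d → F) : nsq (fun x => (c : ℂ) • u x) = c ^ 2 * nsq u := by
  unfold nsq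
  rw [← integral_const_mul]
  congr 1
  funext x
  rw [norm_smul, Complex.norm_real, mul_pow, Real.norm_eq_abs, sq_abs]

/-! ### square integrability of the sections -/

lemma mem_sec {U : Set (Cfg r)} {V : Cfg r → F →L[ℂ] F} (hU : IsOpen U) (hV : ContinuousOn V U) {h : Cfg r → ℂ}
    (hh : Continuous h) (hc : HasCompactSupport h) (hsub : tsupport h ⊆ U) (T : F →L[ℂ] F) {o : Cfg ds → F}
    (ho : MemLp o 2 (volume : Measure (Cfg ds))) :
    MemLp (fun q : Cfg r × Cfg ds => V q.1 (h q.1 • T (o q.2))) 2 (volume.prod volume) := by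
  set g : Cfg r → F →L[ℂ] F := fun η => h η • V η with hg
  have hgt : tsupport g ⊆ tsupport h := closure_mono (Function.support_smul_subset_left h V)
  have hgc : Continuous g := (hh.continuousOn.smul hV).continuous_of_tsupport_subset hU (hgt.trans hsub)
  have hgs : HasCompactSupport g := hc.of_isClosed_subset (isClosed_tsupport _) hgt
  have hTo : MemLp (fun s => T (o s)) 2 (volume : Measure (Cfg ds)) := T.comp_memLp' ho
  have e : ∀ q : Cfg r × Cfg ds, V q.1 (h q.1 • T (o q.2)) = g q.1 (T (o q.2)) := by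
    intro q
    rw [hg, map_smul]
    rfl
  simp only [e]
  have hm : AEStronglyMeasurable (fun q : Cfg r × Cfg ds => g q.1 (T (o q.2))) (volume.prod volume) := by
    have h1 : AEStronglyMeasurable (fun q : Cfg r × Cfg ds => g q.1) (volume.prod volume) :=
      (hgc.comp continuous_fst).aestronglyMeasurable
    have h2 : AEStronglyMeasurable (fun q : Cfg r × Cfg ds => T (o q.2)) (volume.prod volume) := hTo.1.comp_snd
    exact (ContinuousLinearMap.id ℂ (F →L[ℂ] F)).aestronglyMeasurable_comp₂ h1 h2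
  rw [memLp_two_iff_integrable_sq_norm hm]
  have h1 : Integrable (fun η => ‖g η‖ ^ 2) (volume : Measure (Cfg r)) := by
    refine (hgc.norm.pow 2).integrable_of_hasCompactSupport (hgs.mono ?_)
    intro x hx
    simp only [Function.mem_support] at hx ⊢
    intro h0
    exact hx (by simp [h0])
  have h2 : Integrable (fun s => ‖T (o s)‖ ^ 2) (volume : Measure (Cfg ds)) := hTo.integrable_norm_pow (by norm_num)
  refine (h1.mul_prod h2).mono' (hm.norm.pow 2) (Eventually.of_forall fun q => ?_)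
  rw [Real.norm_of_nonneg (by positivity), ← mul_pow]
  exact pow_le_pow_left₀ (norm_nonneg _) ((g q.1).le_opNorm _) 2

/-- the profile `DF (ζ o)` in terms of `o` -/
lemma DF_pp (S : Setup d F) (φ : Spl dh dm d) (ψ : Spl r ds dh) (N : Fin 9 → Matrix (Fin 16) (Fin 16) ℂ) (μ : ℝ)
    (β : Fin 16) {ζ : Cfg r → ℂ} (hζ : ContDiff ℝ ∞ ζ) (o : Cfg ds → F) (y : Cfg r) (s : Cfg ds) :
    S.DF φ ψ N μ β (pp ζ o) y s =
      (-Complex.I) • ∑ i, ∑ A, fderiv ℝ ζ y (EuclideanSpace.single (i, A) 1) •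
        S.vec (S.g i) (φ (Sum.inl (ψ (Sum.inl A)))) β (o s) +
      (μ : ℂ) • ∑ i, ∑ A, (((y (i, A) : ℝ) : ℂ) * ζ y) • S.vec (N i) (φ (Sum.inl (ψ (Sum.inl A)))) β (o s) := by
  have h1 : ∀ (i : Fin 9) (A : Fin r), pd i A (fun y' => pp ζ o y' s) y =
      fderiv ℝ ζ y (EuclideanSpace.single (i, A) 1) • o s := by
    intro i A
    have h2 := pd_csmul (i := i) (A := A) (c := ζ) (u := fun _ : Cfg r => o s) (x := y)
      (hζ.differentiable (by simp) y) (differentiableAt_const _)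
    have h3 : pd i A (fun _ : Cfg r => o s) y = 0 := by
      unfold pd
      simp
    rw [h3, smul_zero, add_zero] at h2
    exact h2
  simp only [Setup.DF, h1, map_smul]
  simp only [pp, map_smul, smul_smul]

lemma mem_DF {S : Setup d F} {φ : Spl dh dm d} {ψ : Spl r ds dh} {U : Set (Cfg r)} {V : Cfg r → F →L[ℂ] F}
    (hU : IsOpen U) (hV : ContinuousOn V U) (N : Fin 9 → Matrix (Fin 16) (Fin 16) ℂ) (μ : ℝ) (β : Fin 16)
    {ζ : Cfg r → ℂ} (hζ : ContDiff ℝ ∞ ζ) (hc : HasCompactSupport ζ) (hsub : tsupport ζ ⊆ U) {o : Cfg ds → F}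
    (ho : MemLp o 2 (volume : Measure (Cfg ds))) :
    MemLp (fun q : Cfg r × Cfg ds => V q.1 (S.DF φ ψ N μ β (pp ζ o) q.1 q.2)) 2 (volume.prod volume) := by
  have h1 : ∀ (i : Fin 9) (A : Fin r), MemLp (fun q : Cfg r × Cfg ds =>
      V q.1 (fderiv ℝ ζ q.1 (EuclideanSpace.single (i, A) 1) • S.vec (S.g i) (φ (Sum.inl (ψ (Sum.inl A)))) β (o q.2)))
      2 (volume.prod volume) := by
    intro i A
    have ht := tsupport_fderiv_apply_subset ℝ (f := ζ) (EuclideanSpace.single (i, A) 1)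
    exact mem_sec hU hV ((hζ.continuous_fderiv (by simp)).clm_apply continuous_const)
      (hc.of_isClosed_subset (isClosed_tsupport _) ht) (ht.trans hsub) _ ho
  have h2 : ∀ (i : Fin 9) (A : Fin r), MemLp (fun q : Cfg r × Cfg ds =>
      V q.1 ((((q.1 (i, A) : ℝ) : ℂ) * ζ q.1) • S.vec (N i) (φ (Sum.inl (ψ (Sum.inl A)))) β (o q.2)))
      2 (volume.prod volume) := by
    intro i A
    have ht : tsupport (fun y : Cfg r => ((y (i, A) : ℝ) : ℂ) * ζ y) ⊆ tsupport ζ := tsupport_mul_subset_right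
    refine mem_sec hU hV (h := fun y : Cfg r => ((y (i, A) : ℝ) : ℂ) * ζ y) ?_
      (hc.of_isClosed_subset (isClosed_tsupport _) ht) (ht.trans hsub) _ ho
    have h3 : Continuous fun y : Cfg r => y (i, A) := by fun_prop
    exact (Complex.continuous_ofReal.comp h3).mul hζ.continuous
  have e : (fun q : Cfg r × Cfg ds => V q.1 (S.DF φ ψ N μ β (pp ζ o) q.1 q.2)) = fun q =>
      (-Complex.I) • (∑ i, ∑ A, V q.1 (fderiv ℝ ζ q.1 (EuclideanSpace.single (i, A) 1) •
        S.vec (S.g i) (φ (Sum.inl (ψ (Sum.inl A)))) β (o q.2))) +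
      (μ : ℂ) • ∑ i, ∑ A, V q.1 ((((q.1 (i, A) : ℝ) : ℂ) * ζ q.1) •
        S.vec (N i) (φ (Sum.inl (ψ (Sum.inl A)))) β (o q.2)) := by
    funext q
    rw [DF_pp S φ ψ N μ β hζ o q.1 q.2]
    simp only [map_add, map_smul, map_sum]
  rw [e]
  refine MemLp.add (MemLp.const_smul ?_ _) (MemLp.const_smul ?_ _)
  · exact memLp_finsetSum _ fun i _ => memLp_finsetSum _ fun A _ => h1 i A
  · exact memLp_finsetSum _ fun i _ => memLp_finsetSum _ fun A _ => h2 i A

lemma DF_zero (S : Setup d F) (φ : Spl dh dm d) (ψ : Spl r ds dh) (N : Fin 9 → Matrix (Fin 16) (Fin 16) ℂ) (μ : ℝ)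
    (β : Fin 16) {ζ : Cfg r → ℂ} (hζ : ContDiff ℝ ∞ ζ) (o : Cfg ds → F) {y : Cfg r} (hy : y ∉ tsupport ζ) (s : Cfg ds) :
    S.DF φ ψ N μ β (pp ζ o) y s = 0 := by
  rw [DF_pp S φ ψ N μ β hζ o y s, fderiv_of_notMem_tsupport ℝ hy, image_eq_zero_of_notMem_tsupport hy]
  simp

end LocZ518

open LocZ518 in
/-- **EG-LocZ** -/
theorem locZ {d dh dm r ds : ℕ} {F : Type*} [NormedAddCommGroup F] [InnerProductSpace ℂ F] (S : Setup d F)
    (φ : Spl dh dm d) (ψ : Spl r ds dh) (hG : GluDStmt S) (hL : LocGStmt S φ ψ) (hQ : QInvStmt S)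
    (_hTL : TLStmt S φ ψ) : LocZStmt S φ ψ := by
  intro hfin hφ hc N hN U Om V K hV y₀ hy₀
  have hstd : AN.Std S φ (cmb ψ y₀ 0) := std hφ hc (hV.det y₀ hy₀)
  obtain ⟨ε1, hε1, hG1⟩ := hG hfin dh dm r ds φ ψ y₀ hc hstd
  obtain ⟨ε2, hε2, hL1⟩ := hL hfin hφ hc N hN U Om V K hV y₀ hy₀ hstd
  set ε := min ε1 ε2 with hε
  have hεpos : 0 < ε := lt_min hε1 hε2
  obtain ⟨δ₀, hδ₀, hG2⟩ := hG1 ε hεpos (min_le_left _ _)
  have hL2 := hL1 ε hεpos (min_le_right _ _)
  obtain ⟨ρ, hρ, hρU⟩ := Metric.isOpen_iff.1 hV.opn y₀ hy₀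
  set δ := min δ₀ (min (ε / 2) (ρ / 3)) with hδ
  have hδpos : 0 < δ := lt_min hδ₀ (lt_min (by positivity) (by positivity))
  have hδ1 : δ ≤ δ₀ := min_le_left _ _
  have hδ2 : δ ≤ ε / 2 := (min_le_right _ _).trans (min_le_left _ _)
  have hδ3 : δ ≤ ρ / 3 := (min_le_right _ _).trans (min_le_right _ _)
  have hin : ∀ η : Cfg r, ‖η - y₀‖ ≤ 2 * δ → η ∈ U := by
    intro η hη
    refine hρU ?_
    rw [Metric.mem_ball, dist_eq_norm]
    linarith
  have hOm : ∀ η : Cfg r, ‖η - y₀‖ ≤ 2 * δ → Frz (S.Dz φ ψ η) ∧ IsOm S.κ (S.Dz φ ψ η) (Om η) := fun η hη =>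
    ⟨frz hφ hc (hV.det η (hin η hη)), hV.om η (hin η hη)⟩
  have hOmc : ContinuousOn Om {η | ‖η - y₀‖ ≤ 2 * δ} := by
    refine continuousOn_pi.2 fun B => continuousOn_pi.2 fun C => ?_
    exact (hV.om_c B C).continuousOn.mono fun η hη => hin η hη
  have hG3 := hG2 δ hδpos hδ1 Om hOm hOmc
  refine ⟨δ, hδpos, ?_⟩
  intro ζ hζ hζs μ hμ o ho R u C hu χ hχ β
  have hζs2 : tsupport ζ ⊆ Metric.ball y₀ (ε / 2) := hζs.trans (Metric.ball_subset_ball hδ2)
  have hζU : tsupport ζ ⊆ U := fun η hη => hin η (by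
    have h1 := hζs hη
    rw [Metric.mem_ball, dist_eq_norm] at h1
    linarith)
  have hζc : HasCompactSupport ζ :=
    (isCompact_closedBall y₀ δ).of_isClosed_subset (isClosed_tsupport _) (hζs.trans Metric.ball_subset_closedBall)
  have hVc : ContinuousOn V U := hV.v_c.continuousOn
  have hnear : ∀ η : Cfg r, η ∈ tsupport ζ → ‖η - y₀‖ ≤ δ := by
    intro η hη
    have h1 := hζs hη
    rw [Metric.mem_ball, dist_eq_norm] at h1
    exact h1.le
  -- the slice limit equation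
  have hA := hL2 ζ hζ hζs2 μ hμ o ho R u C hu β
  -- section 1
  have hB := hG3 (fun η s => V η (pp ζ o η s))
    (mem_sec hV.opn hVc hζ.continuous hζc hζU (ContinuousLinearMap.id ℂ F) ho.mem)
    (by
      intro η s h0
      refine hnear η ?_
      by_contra hη
      apply h0
      simp only [pp]
      rw [image_eq_zero_of_notMem_tsupport hη, zero_smul, map_zero])
    R χ (fun n x => ((R n : ℝ) : ℂ) • QN S N (μ / R n ^ 2) β (u n) x) C hu.lim hχ
    (fun n => GI_smul (hQ N _ β (u n) (hu.gi n)) (R n))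
    (by
      intro n
      rw [nsq_smul]
      refine le_trans ?_ (hu.en n)
      exact mul_le_mul_of_nonneg_left (Finset.single_le_sum (f := fun β => nsq (QN S N (μ / R n ^ 2) β (u n)))
        (fun β _ => nsq_nonneg _) (Finset.mem_univ β)) (by positivity))
  simp only [ZL_smul, SL_smul] at hB
  -- section 2
  have hC := hG3 (fun η s => V η (S.DF φ ψ N μ β (pp ζ o) η s)) (mem_DF hV.opn hVc N μ β hζ hζc hζU ho.mem)
    (by
      intro η s h0
      refine hnear η ?_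
      by_contra hη
      apply h0
      rw [DF_zero S φ ψ N μ β hζ o hη, map_zero])
    R χ u C hu.lim hχ hu.gi hu.nrm
  have hD := (hB.add hA).sub hC
  rw [add_zero, sub_zero] at hD
  refine hD.congr fun n => ?_
  ring

end Vale.Agent.P353.Z.AE
end
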