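import Mathlib
import Vale.Agent.P353.BdA.B2
import Vale.Agent.P353.BdZ.B16
import Vale.Agent.P353.BdA.B1

set_option linter.all false

section

/-! # P353, all `N`, block G, G18: the trial function is a test function -/

open MeasureTheory Filter Topology
open scoped ContDiff

namespace Vale.Agent.P353.AN.G

open Vale.Agent.P353.Z Vale.Agent.P353.Z.U

namespace TvTst

lemma cut_smooth : ContDiff ℝ ∞ cut := by
  unfold cut
  exact Real.smoothTransition.contDiff.comp ((contDiff_const.sub contDiff_id).div_const 3)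

lemma cut_nonneg (t : ℝ) : 0 ≤ cut t := Real.smoothTransition.nonneg _

lemma cut_le_one (t : ℝ) : cut t ≤ 1 := Real.smoothTransition.le_one _

lemma cut_one {t : ℝ} (h : t ≤ 1) : cut t = 1 :=
  Real.smoothTransition.one_of_one_le (by linarith)

lemma cut_zero {t : ℝ} (h : 4 ≤ t) : cut t = 0 :=
  Real.smoothTransition.zero_of_nonpos (by linarith)

variable {d : ℕ}

lemma om_smooth (m : ℝ) (ξ : Cfg d) : ContDiff ℝ ∞ (om m ξ) := by
  unfold om
  exact (contDiff_id.sub contDiff_const).const_smul _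

lemma qK_smooth (m : ℝ) (ξ : Cfg d) (K : Cfg d →L[ℝ] Cfg d) : ContDiff ℝ ∞ (qK m ξ K) := by
  unfold qK
  exact (om_smooth m ξ).inner ℝ (K.contDiff.comp (om_smooth m ξ))

lemma ph_smooth (m L : ℝ) (ξ : Cfg d) (K : Cfg d →L[ℝ] Cfg d) : ContDiff ℝ ∞ (ph m L ξ K) := by
  unfold ph
  refine ContDiff.mul ?_ ?_
  · exact cut_smooth.comp (((om_smooth m ξ).norm_sq ℝ).div_const (L ^ 2))
  · exact Real.contDiff_exp.comp ((contDiff_const (c := -(1 / 2 : ℝ))).mul (qK_smooth m ξ K))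

lemma ph_supp {m L : ℝ} (hL : 0 < L) {ξ : Cfg d} {K : Cfg d →L[ℝ] Cfg d} {x : Cfg d}
    (h : ph m L ξ K x ≠ 0) : ‖om m ξ x‖ ≤ 2 * L := by
  by_contra hc
  push Not at hc
  refine h ?_
  unfold ph
  rw [cut_zero, zero_mul]
  rw [le_div_iff₀ (by positivity)]
  nlinarith [norm_nonneg (om m ξ x)]

lemma ph_hcs {m L : ℝ} (hm : 0 < m) (hL : 0 < L) (ξ : Cfg d) (K : Cfg d →L[ℝ] Cfg d) :
    HasCompactSupport (ph m L ξ K) := by
  refine HasCompactSupport.intro (isCompact_closedBall (m • ξ) (2 * L / Real.sqrt m)) ?_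
  intro x hx
  by_contra h
  refine hx ?_
  have h1 := ph_supp hL h
  have hs : 0 < Real.sqrt m := Real.sqrt_pos.2 hm
  rw [mem_closedBall_iff_norm, le_div_iff₀ hs]
  have h2 : ‖om m ξ x‖ = Real.sqrt m * ‖x - m • ξ‖ := by
    unfold om
    rw [norm_smul, Real.norm_of_nonneg hs.le]
  rw [h2] at h1
  linarith [mul_comm (Real.sqrt m) ‖x - m • ξ‖]

end TvTst

theorem tvTst (d : ℕ) (F : Type*) [NormedAddCommGroup F] [InnerProductSpace ℂ F] :
    TvTstStmt d F := by
  intro ξ K m L hm hL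
  have hsm := TvTst.ph_smooth m L ξ K
  have hcs := TvTst.ph_hcs hm hL ξ K
  refine ⟨fun Ω => ⟨?_, ?_⟩, hsm, hcs, fun x => ⟨?_, ?_⟩, fun x hx => ?_, fun x hx => TvTst.ph_supp hL hx⟩
  · exact (Complex.ofRealCLM.contDiff.comp hsm).smul contDiff_const
  · refine hcs.mono ?_
    intro x hx
    simp only [Function.mem_support, tv] at hx ⊢
    intro h0
    exact hx (by rw [h0]; simp)
  · exact mul_nonneg (TvTst.cut_nonneg _) (Real.exp_pos _).le
  · by_cases h0 : ph m L ξ K x = 0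
    · rw [h0]
      unfold ph2
      split_ifs
      · exact (Real.exp_pos _).le
      · exact le_rfl
    · have h1 := TvTst.ph_supp hL h0
      unfold ph2 ph
      rw [if_pos h1]
      have := TvTst.cut_le_one (‖om m ξ x‖ ^ 2 / L ^ 2)
      nlinarith [Real.exp_pos (-(1 / 2) * qK m ξ K x)]
  · unfold ph2 ph
    rw [if_pos (by linarith), TvTst.cut_one, one_mul]
    rw [div_le_one (by positivity)]
    nlinarith [norm_nonneg (om m ξ x)]

end Vale.Agent.P353.AN.G
end

section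

/-! # P353, all `N`, block G: G29 (comparison of averages) -/

open MeasureTheory Filter Topology
open scoped ContDiff

namespace Vale.Agent.P353.AN.G

open Vale.Agent.P353.Z Vale.Agent.P353.Z.U

universe w

namespace RatP

variable {N d : ℕ} {F : Type w} [NormedAddCommGroup F] [InnerProductSpace ℂ F]
  {M : BFSS.Model N d F}

theorem act_cont (h : ActStmt M) : Continuous fun p : BFSS.SU N × Cfg d => M.act p.1 p.2 :=
  h.2.2.2.2.2.1

theorem act_inv_cont (h : ActStmt M) :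
    Continuous fun p : Cfg d × BFSS.SU N => M.act p.2⁻¹ p.1 := by
  have h1 : Continuous fun p : Cfg d × BFSS.SU N => p.2⁻¹ := continuous_inv.comp continuous_snd
  have h2 := Continuous.comp' (act_cont h) (h1.prodMk continuous_fst)
  exact h2

theorem act_inv_act (h : ActStmt M) (U : BFSS.SU N) (x : Cfg d) : M.act U⁻¹ (M.act U x) = x := by
  rw [← h.1, inv_mul_cancel, h.2.1]

theorem act_act_inv (h : ActStmt M) (U : BFSS.SU N) (x : Cfg d) : M.act U (M.act U⁻¹ x) = x := by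
  rw [← h.1, mul_inv_cancel, h.2.1]

/-- the action as linear isometries -/
noncomputable def actE (h : ActStmt M) (U : BFSS.SU N) : Cfg d ≃ₗᵢ[ℝ] Cfg d where
  toFun := M.act U
  map_add' := h.2.2.1 U
  map_smul' := h.2.2.2.1 U
  invFun := M.act U⁻¹
  left_inv := act_inv_act h U
  right_inv := act_act_inv h U
  norm_map' := h.2.2.2.2.1 U

theorem act_sub (h : ActStmt M) (U : BFSS.SU N) (x y : Cfg d) :
    M.act U (x - y) = M.act U x - M.act U y := (actE h U).map_sub x y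

theorem act_norm (h : ActStmt M) (U : BFSS.SU N) (x : Cfg d) : ‖M.act U x‖ = ‖x‖ :=
  h.2.2.2.2.1 U x

theorem act_dist (h : ActStmt M) (U : BFSS.SU N) (x y : Cfg d) :
    ‖M.act U x - M.act U y‖ = ‖x - y‖ := by rw [← act_sub h, act_norm h]

theorem act_inv_dist (h : ActStmt M) (U : BFSS.SU N) (p : Cfg d) :
    ‖M.act U⁻¹ p - p‖ = ‖M.act U p - p‖ := by
  have h1 := act_dist h U (M.act U⁻¹ p) p
  rw [act_act_inv h] at h1
  rw [← h1, norm_sub_rev]

/-- good functions: measurable, with values in `[0,B]`, supported in `‖x‖ ≤ R` -/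
structure Gd (φ : Cfg d → ℝ) (B R : ℝ) : Prop where
  ms : Measurable φ
  nn : ∀ x, 0 ≤ φ x
  le : ∀ x, φ x ≤ B
  sp : ∀ x, φ x ≠ 0 → ‖x‖ ≤ R

theorem int_of {f : Cfg d → ℝ} (hf : Measurable f) {C R : ℝ} (hC : ∀ x, ‖f x‖ ≤ C)
    (hR : ∀ x, f x ≠ 0 → ‖x‖ ≤ R) : Integrable f := by
  have h1 : IntegrableOn f (Metric.closedBall 0 R) :=
    Measure.integrableOn_of_bounded (M := C) measure_closedBall_lt_top.ne
      hf.aestronglyMeasurable (ae_of_all _ hC)
  rwa [integrableOn_iff_integrable_of_support_subset] at h1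
  intro x hx
  rw [mem_closedBall_zero_iff]
  exact hR x hx

section

variable {φ : Cfg d → ℝ} {B R : ℝ}

theorem Gd.norm (g : Gd φ B R) (x : Cfg d) : ‖φ x‖ ≤ B := by
  rw [Real.norm_of_nonneg (g.nn x)]
  exact g.le x

theorem Gd.mU (g : Gd φ B R) (h : ActStmt M) (x : Cfg d) :
    Measurable fun U : BFSS.SU N => φ (M.act U⁻¹ x) :=
  g.ms.comp ((act_inv_cont h).comp (continuous_const.prodMk continuous_id)).measurable

theorem Gd.iU (g : Gd φ B R) (h : ActStmt M) (x : Cfg d) :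
    Integrable (fun U : BFSS.SU N => φ (M.act U⁻¹ x)) (hm N) :=
  Integrable.of_bound (g.mU h x).aestronglyMeasurable B (ae_of_all _ fun _ => g.norm _)

theorem avs_nonneg (g : Gd φ B R) (x : Cfg d) : 0 ≤ avs M φ x :=
  integral_nonneg fun _ => g.nn _

theorem avs_norm (g : Gd φ B R) (x : Cfg d) : ‖avs M φ x‖ ≤ B := by
  have h1 : ‖avs M φ x‖ ≤ B * (hm N).real Set.univ :=
    norm_integral_le_of_norm_le_const (ae_of_all _ fun _ => g.norm _)
  rwa [probReal_univ, mul_one] at h1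

theorem avs_sp (g : Gd φ B R) (h : ActStmt M) (x : Cfg d) (hx : avs M φ x ≠ 0) : ‖x‖ ≤ R := by
  by_contra hR
  apply hx
  unfold avs
  have h1 : ∀ U : BFSS.SU N, φ (M.act U⁻¹ x) = 0 := by
    intro U
    by_contra h2
    have h3 := g.sp _ h2
    rw [act_norm h] at h3
    exact hR h3
  simp only [h1, integral_zero]

theorem avs_meas (g : Gd φ B R) (h : ActStmt M) : Measurable (avs M φ) := by
  have h1 : StronglyMeasurable fun p : Cfg d × BFSS.SU N => φ (M.act p.2⁻¹ p.1) :=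
    (g.ms.comp (act_inv_cont h).measurable).stronglyMeasurable
  exact (h1.integral_prod_right (ν := hm N)).measurable

theorem avs_inv (h : ActStmt M) (φ : Cfg d → ℝ) (V : BFSS.SU N) (x : Cfg d) :
    avs M φ (M.act V x) = avs M φ x := by
  have h1 := integral_mul_left_eq_self (μ := hm N) (fun U => φ (M.act U⁻¹ x)) V⁻¹
  unfold avs
  rw [← h1]
  refine integral_congr_ae (ae_of_all _ fun U => ?_)
  show φ (M.act U⁻¹ (M.act V x)) = φ (M.act (V⁻¹ * U)⁻¹ x)
  rw [mul_inv_rev, inv_inv, h.1]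

theorem avs_sq_int (g : Gd φ B R) (h : ActStmt M) : Integrable fun x => avs M φ x ^ 2 := by
  refine int_of ((avs_meas g h).pow_const 2) (C := B ^ 2) (R := R) (fun x => ?_) fun x hx => ?_
  · rw [norm_pow]
    exact pow_le_pow_left₀ (norm_nonneg _) (avs_norm g x) 2
  · exact avs_sp g h x fun h0 => hx (by rw [h0]; ring)

theorem avs_mul_int (g : Gd φ B R) (h : ActStmt M) : Integrable fun x => φ x * avs M φ x := by
  refine int_of (g.ms.mul (avs_meas g h)) (C := B * B) (R := R) (fun x => ?_) fun x hx => ?_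
  · rw [norm_mul]
    exact mul_le_mul (g.norm x) (avs_norm g x) (norm_nonneg _) ((norm_nonneg _).trans (g.norm x))
  · exact g.sp x fun h0 => hx (by rw [h0, zero_mul])

theorem avs_sq (g : Gd φ B R) (h : ActStmt M) :
    (∫ x, avs M φ x ^ 2) = ∫ x, φ x * avs M φ x := by
  have h1 : Integrable (Function.uncurry fun (x : Cfg d) (U : BFSS.SU N) =>
      φ (M.act U⁻¹ x) * avs M φ x) (volume.prod (hm N)) := by
    have hm1 : Measurable (Function.uncurry fun (x : Cfg d) (U : BFSS.SU N) =>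
        φ (M.act U⁻¹ x) * avs M φ x) :=
      (g.ms.comp (act_inv_cont h).measurable).mul ((avs_meas g h).comp measurable_fst)
    have h2 : IntegrableOn (Function.uncurry fun (x : Cfg d) (U : BFSS.SU N) =>
        φ (M.act U⁻¹ x) * avs M φ x) (Metric.closedBall 0 R ×ˢ Set.univ)
        (volume.prod (hm N)) := by
      refine Measure.integrableOn_of_bounded (M := B * B) ?_ hm1.aestronglyMeasurable
        (ae_of_all _ fun p => ?_)
      · rw [Measure.prod_prod, measure_univ, mul_one]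
        exact measure_closedBall_lt_top.ne
      · show ‖φ (M.act p.2⁻¹ p.1) * avs M φ p.1‖ ≤ B * B
        rw [norm_mul]
        exact mul_le_mul (g.norm _) (avs_norm g _) (norm_nonneg _)
          ((norm_nonneg _).trans (g.norm p.1))
    rwa [integrableOn_iff_integrable_of_support_subset] at h2
    rintro ⟨x, U⟩ hx
    refine ⟨?_, Set.mem_univ _⟩
    rw [mem_closedBall_zero_iff]
    have hx' : φ (M.act U⁻¹ x) * avs M φ x ≠ 0 := hx
    exact avs_sp g h x (right_ne_zero_of_mul hx')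
  calc (∫ x, avs M φ x ^ 2) = ∫ x, ∫ U, φ (M.act U⁻¹ x) * avs M φ x ∂(hm N) := by
        refine integral_congr_ae (ae_of_all _ fun x => ?_)
        show avs M φ x ^ 2 = ∫ U, φ (M.act U⁻¹ x) * avs M φ x ∂(hm N)
        rw [integral_mul_const, sq]
        rfl
    _ = ∫ U, (∫ x, φ (M.act U⁻¹ x) * avs M φ x) ∂(hm N) := integral_integral_swap h1
    _ = ∫ _U, (∫ x, φ x * avs M φ x) ∂(hm N) := by
        refine integral_congr_ae (ae_of_all _ fun U => ?_)
        show (∫ x, φ (M.act U⁻¹ x) * avs M φ x) = ∫ x, φ x * avs M φ x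
        have h2 := (actE h U⁻¹).measurePreserving.integral_comp
          (actE h U⁻¹).toHomeomorph.measurableEmbedding (fun x => φ x * avs M φ x)
        rw [← h2]
        refine integral_congr_ae (ae_of_all _ fun x => ?_)
        show φ (M.act U⁻¹ x) * avs M φ x = φ (M.act U⁻¹ x) * avs M φ (M.act U⁻¹ x)
        rw [avs_inv h]
    _ = ∫ x, φ x * avs M φ x := by
        rw [integral_const, probReal_univ, one_smul]

end

section

variable {ξ : Cfg d} {K : Cfg d →L[ℝ] Cfg d} {m L : ℝ}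

theorem om_le (hm0 : 0 < m) {x : Cfg d} {c : ℝ} : ‖om m ξ x‖ ≤ c ↔ ‖x - m • ξ‖ ≤ c / √m := by
  unfold om
  rw [norm_smul, Real.norm_of_nonneg (Real.sqrt_nonneg m), le_div_iff₀ (Real.sqrt_pos.2 hm0),
    mul_comm]

theorem om_cont : Continuous (om m ξ) := by
  unfold om
  fun_prop

theorem qK_cont : Continuous (qK m ξ K) := by
  unfold qK
  exact (om_cont (m := m) (ξ := ξ)).inner (K.continuous.comp om_cont)

theorem ph2_meas : Measurable (ph2 m L ξ K) := by
  unfold ph2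
  refine Measurable.ite ?_ ?_ measurable_const
  · exact measurableSet_le (om_cont (m := m) (ξ := ξ)).norm.measurable measurable_const
  · exact (Real.continuous_exp.comp (continuous_const.mul qK_cont)).measurable

theorem ph2_of (x : Cfg d) (hx : ‖om m ξ x‖ ≤ 2 * L) :
    ph2 m L ξ K x = Real.exp (-(1 / 2) * qK m ξ K x) := by
  unfold ph2
  rw [if_pos hx]

theorem ph2_ne (x : Cfg d) (hx : ph2 m L ξ K x ≠ 0) : ‖om m ξ x‖ ≤ 2 * L := by
  by_contra h
  apply hx
  unfold ph2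
  rw [if_neg h]

theorem ph2_nn (x : Cfg d) : 0 ≤ ph2 m L ξ K x := by
  unfold ph2
  split_ifs
  · positivity
  · exact le_rfl

theorem ph2_le (hK : ∀ x, 0 ≤ inner ℝ x (K x)) (x : Cfg d) : ph2 m L ξ K x ≤ 1 := by
  unfold ph2
  split_ifs
  · rw [Real.exp_le_one_iff]
    have := hK (om m ξ x)
    unfold qK
    linarith
  · exact zero_le_one

theorem sp_of (hm0 : 0 < m) {x : Cfg d} (hx : ‖om m ξ x‖ ≤ 2 * L) :
    ‖x‖ ≤ 2 * L / √m + ‖m • ξ‖ := by
  rw [om_le hm0] at hx
  have h1 := norm_add_le (x - m • ξ) (m • ξ)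
  rw [sub_add_cancel] at h1
  linarith

theorem gd2 (hK : ∀ x, 0 ≤ inner ℝ x (K x)) (hm0 : 0 < m) :
    Gd (ph2 m L ξ K) 1 (2 * L / √m + ‖m • ξ‖) :=
  ⟨ph2_meas, ph2_nn, ph2_le hK, fun x hx => sp_of hm0 (ph2_ne x hx)⟩

theorem gd1 (h18 : TvTstStmt d F) (hK : ∀ x, 0 ≤ inner ℝ x (K x)) (hm0 : 0 < m) (hL : 0 < L) :
    Gd (ph m L ξ K) 1 (2 * L / √m + ‖m • ξ‖) := by
  obtain ⟨-, h1, -, h2, -, h3⟩ := h18 ξ K m L hm0 hL
  exact ⟨h1.continuous.measurable, fun x => (h2 x).1, fun x => (h2 x).2.trans (ph2_le hK x),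
    fun x hx => sp_of hm0 (h3 x hx)⟩

theorem muSet_meas (h : ActStmt M) (p : Cfg d) (r : ℝ) :
    MeasurableSet {U : BFSS.SU N | ‖M.act U p - p‖ ≤ r} := by
  have h1 : Continuous fun U : BFSS.SU N => M.act U p := by
    have h2 := Continuous.comp' (act_cont h)
      ((continuous_id (X := BFSS.SU N)).prodMk (continuous_const (y := p)))
    exact h2
  exact (isClosed_le (h1.sub continuous_const).norm continuous_const).measurableSet

/-- near constancy -/
def NC (M : BFSS.Model N d F) (ξ : Cfg d) (K : Cfg d →L[ℝ] Cfg d) (m L : ℝ) : Prop :=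
  ∀ U x, ‖om m ξ x‖ ≤ 2 * L → ‖om m ξ (M.act U x)‖ ≤ 2 * L →
    |qK m ξ K (M.act U x) - qK m ξ K x| ≤ 2

theorem up (h : ActStmt M) (hK : ∀ x, 0 ≤ inner ℝ x (K x)) (hm0 : 0 < m)
    (hn : NC M ξ K m L) (x : Cfg d) :
    ph2 m L ξ K x * avs M (ph2 m L ξ K) x ≤
      Real.exp 1 * mu M (m • ξ) (2 * (2 * L / √m)) * ph2 m L ξ K x ^ 2 := by
  by_cases hx : ph2 m L ξ K x = 0
  · rw [hx]; simp
  have hx1 := ph2_ne x hx
  have hx2 := (om_le hm0).1 hx1
  have key : avs M (ph2 m L ξ K) x ≤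
      mu M (m • ξ) (2 * (2 * L / √m)) * (Real.exp 1 * ph2 m L ξ K x) := by
    have h1 := integral_indicator_const (μ := hm N) (Real.exp 1 * ph2 m L ξ K x)
      (muSet_meas h (m • ξ) (2 * (2 * L / √m)))
    rw [smul_eq_mul] at h1
    unfold mu
    rw [← h1]
    refine integral_mono ((gd2 hK hm0).iU h x)
      ((integrable_const _).indicator (muSet_meas h _ _)) fun U => ?_
    show ph2 m L ξ K (M.act U⁻¹ x) ≤ _
    have he : 0 ≤ Real.exp 1 * ph2 m L ξ K x := mul_nonneg (Real.exp_pos 1).le (ph2_nn x)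
    by_cases hU : ph2 m L ξ K (M.act U⁻¹ x) = 0
    · rw [hU]
      exact Set.indicator_nonneg (fun _ _ => he) U
    have hU1 := ph2_ne _ hU
    have hU2 := (om_le hm0).1 hU1
    have hmem : U ∈ {U : BFSS.SU N | ‖M.act U (m • ξ) - m • ξ‖ ≤ 2 * (2 * L / √m)} := by
      have h3 := act_dist h U (m • ξ) (M.act U⁻¹ x)
      rw [act_act_inv h, norm_sub_rev (m • ξ)] at h3
      have h4 := norm_sub_le_norm_sub_add_norm_sub (M.act U (m • ξ)) x (m • ξ)
      show ‖M.act U (m • ξ) - m • ξ‖ ≤ 2 * (2 * L / √m)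
      linarith
    rw [Set.indicator_of_mem hmem, ph2_of _ hU1, ph2_of _ hx1, ← Real.exp_add, Real.exp_le_exp]
    have h5 := (abs_le.1 (hn U⁻¹ x hx1 hU1)).1
    linarith
  calc ph2 m L ξ K x * avs M (ph2 m L ξ K) x ≤ ph2 m L ξ K x *
      (mu M (m • ξ) (2 * (2 * L / √m)) * (Real.exp 1 * ph2 m L ξ K x)) :=
        mul_le_mul_of_nonneg_left key (ph2_nn x)
    _ = _ := by ring

theorem low (h18 : TvTstStmt d F) (h : ActStmt M) (hK : ∀ x, 0 ≤ inner ℝ x (K x)) (hm0 : 0 < m)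
    (hL : 0 < L) (hn : NC M ξ K m L) (x : Cfg d) :
    Real.exp (-1) * mu M (m • ξ) (2 * L / √m / 4) *
      (if ‖om m ξ x‖ ≤ L / 2 then ph2 m L ξ K x ^ 2 else 0) ≤
      ph m L ξ K x * avs M (ph m L ξ K) x := by
  have g1 := gd1 (ξ := ξ) (K := K) h18 hK hm0 hL
  obtain ⟨-, -, -, -, h2, -⟩ := h18 ξ K m L hm0 hL
  split_ifs with hx
  swap
  · rw [mul_zero]
    exact mul_nonneg (g1.nn x) (avs_nonneg g1 x)
  have hx1 : ‖om m ξ x‖ ≤ 2 * L := by linarith
  have hx2 := (om_le hm0).1 hx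
  have key : mu M (m • ξ) (2 * L / √m / 4) * (Real.exp (-1) * ph2 m L ξ K x) ≤
      avs M (ph m L ξ K) x := by
    have h1 := integral_indicator_const (μ := hm N) (Real.exp (-1) * ph2 m L ξ K x)
      (muSet_meas h (m • ξ) (2 * L / √m / 4))
    rw [smul_eq_mul] at h1
    unfold mu
    rw [← h1]
    refine integral_mono ((integrable_const _).indicator (muSet_meas h _ _)) (g1.iU h x)
      fun U => ?_
    show _ ≤ ph m L ξ K (M.act U⁻¹ x)
    by_cases hmem : U ∈ {U : BFSS.SU N | ‖M.act U (m • ξ) - m • ξ‖ ≤ 2 * L / √m / 4}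
    swap
    · rw [Set.indicator_of_notMem hmem]
      exact g1.nn _
    have h3 : ‖M.act U⁻¹ (m • ξ) - m • ξ‖ ≤ 2 * L / √m / 4 := by
      rw [act_inv_dist h]
      exact hmem
    have h4 : ‖M.act U⁻¹ x - m • ξ‖ ≤ L / √m := by
      have h5 := norm_sub_le_norm_sub_add_norm_sub (M.act U⁻¹ x) (M.act U⁻¹ (m • ξ)) (m • ξ)
      rw [act_dist h] at h5
      have h6 : L / 2 / √m + 2 * L / √m / 4 = L / √m := by ring
      linarith
    have h7 : ‖om m ξ (M.act U⁻¹ x)‖ ≤ L := (om_le hm0).2 h4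
    have h8 : ‖om m ξ (M.act U⁻¹ x)‖ ≤ 2 * L := by linarith
    rw [Set.indicator_of_mem hmem, h2 _ h7, ph2_of _ h8, ph2_of _ hx1, ← Real.exp_add,
      Real.exp_le_exp]
    have h5 := (abs_le.1 (hn U⁻¹ x hx1 h8)).2
    linarith
  have h9 : ph m L ξ K x = ph2 m L ξ K x := h2 x (by linarith)
  rw [h9]
  calc Real.exp (-1) * mu M (m • ξ) (2 * L / √m / 4) * ph2 m L ξ K x ^ 2 = ph2 m L ξ K x *
      (mu M (m • ξ) (2 * L / √m / 4) * (Real.exp (-1) * ph2 m L ξ K x)) := by ring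
    _ ≤ _ := mul_le_mul_of_nonneg_left key (ph2_nn x)

/-- the restricted square -/
noncomputable def qs (m L : ℝ) (ξ : Cfg d) (K : Cfg d →L[ℝ] Cfg d) (x : Cfg d) : ℝ :=
  if ‖om m ξ x‖ ≤ L / 2 then ph2 m L ξ K x ^ 2 else 0

theorem qs_nn (x : Cfg d) : 0 ≤ qs m L ξ K x := by
  unfold qs
  split_ifs
  · positivity
  · exact le_rfl

theorem qs_int (hK : ∀ x, 0 ≤ inner ℝ x (K x)) (hm0 : 0 < m) (hL : 0 < L) :
    Integrable (qs m L ξ K) := by
  refine int_of (C := 1) (R := 2 * L / √m + ‖m • ξ‖) ?_ (fun x => ?_) fun x hx => ?_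
  · unfold qs
    refine Measurable.ite ?_ (ph2_meas.pow_const 2) measurable_const
    exact measurableSet_le (om_cont (m := m) (ξ := ξ)).norm.measurable measurable_const
  · rw [Real.norm_of_nonneg (qs_nn x)]
    unfold qs
    split_ifs
    · exact pow_le_one₀ (ph2_nn x) (ph2_le hK x)
    · exact zero_le_one
  · refine sp_of hm0 ?_
    by_contra h1
    apply hx
    unfold qs
    rw [if_neg]
    intro h2
    exact h1 (by linarith)

theorem ph2_sq_int (hK : ∀ x, 0 ≤ inner ℝ x (K x)) (hm0 : 0 < m) :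
    Integrable fun x => ph2 m L ξ K x ^ 2 := by
  refine int_of (C := 1) (R := 2 * L / √m + ‖m • ξ‖) (ph2_meas.pow_const 2) (fun x => ?_)
    fun x hx => ?_
  · rw [norm_pow, Real.norm_of_nonneg (ph2_nn x)]
    exact pow_le_one₀ (ph2_nn x) (ph2_le hK x)
  · exact sp_of hm0 (ph2_ne x fun h0 => hx (by rw [h0]; ring))

theorem qs_pos (hK : ∀ x, 0 ≤ inner ℝ x (K x)) (hm0 : 0 < m) (hL : 0 < L) :
    0 < ∫ x, qs m L ξ K x := by
  rw [integral_pos_iff_support_of_nonneg (fun x => qs_nn x) (qs_int hK hm0 hL)]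
  have h1 : 0 < L / 2 / √m := div_pos (by linarith) (Real.sqrt_pos.2 hm0)
  refine lt_of_lt_of_le (Metric.measure_ball_pos volume (m • ξ) h1) (measure_mono fun x hx => ?_)
  have h2 : ‖om m ξ x‖ ≤ L / 2 := by
    rw [om_le hm0, ← dist_eq_norm]
    exact (Metric.mem_ball.1 hx).le
  have h3 : ‖om m ξ x‖ ≤ 2 * L := by linarith
  show qs m L ξ K x ≠ 0
  unfold qs
  rw [if_pos h2, ph2_of x h3]
  positivity

end

end RatP

open RatP in
theorem rat {N d : ℕ} {F : Type w} [NormedAddCommGroup F] [InnerProductSpace ℂ F]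
    (M : BFSS.Model N d F) (h18 : TvTstStmt d F) (h21 : GRatStmt d) (h22 : ActStmt M)
    (h28 : DblStmt M) : RatStmt M := by
  intro ξ K hK m L hm0 hL hn
  have g1 := gd1 (ξ := ξ) (K := K) h18 hK hm0 hL
  have g2 := gd2 (L := L) (ξ := ξ) hK hm0
  have hr : 0 < 2 * L / √m := div_pos (by linarith) (Real.sqrt_pos.2 hm0)
  obtain ⟨-, hd⟩ := h28 (m • ξ) (2 * L / √m) hr
  have hmu : 0 < mu M (m • ξ) (2 * L / √m / 4) := (h28 (m • ξ) (2 * L / √m / 4) (by linarith)).1
  have hJ := qs_pos (ξ := ξ) hK hm0 hL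
  have hlow : Real.exp (-1) * mu M (m • ξ) (2 * L / √m / 4) * ∫ x, qs m L ξ K x ≤
      ∫ x, avs M (ph m L ξ K) x ^ 2 := by
    rw [avs_sq g1 h22, ← integral_const_mul]
    exact integral_mono ((qs_int hK hm0 hL).const_mul _) (avs_mul_int g1 h22)
      fun x => low h18 h22 hK hm0 hL hn x
  have hup : (∫ x, avs M (ph2 m L ξ K) x ^ 2) ≤
      Real.exp 1 * mu M (m • ξ) (2 * (2 * L / √m)) * ∫ x, ph2 m L ξ K x ^ 2 := by
    rw [avs_sq g2 h22, ← integral_const_mul]
    exact integral_mono (avs_mul_int g2 h22) ((ph2_sq_int hK hm0).const_mul _)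
      fun x => up h22 hK hm0 hn x
  have h21' : (∫ x, ph2 m L ξ K x ^ 2) ≤ 4 ^ (9 * d) * ∫ x, qs m L ξ K x :=
    h21 ξ K hK m L hm0 hL
  refine ⟨avs_sq_int g1 h22, avs_sq_int g2 h22, lt_of_lt_of_le ?_ hlow, ?_⟩
  · exact mul_pos (mul_pos (Real.exp_pos _) hmu) hJ
  · have e1 : Real.exp 1 = Real.exp 2 * Real.exp (-1) := by
      rw [← Real.exp_add]; norm_num
    have e2 : (68 : ℝ) ^ (9 * d) = 17 ^ (9 * d) * 4 ^ (9 * d) := by
      rw [← mul_pow]; norm_num
    calc (∫ x, avs M (ph2 m L ξ K) x ^ 2)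
        ≤ Real.exp 1 * mu M (m • ξ) (2 * (2 * L / √m)) * ∫ x, ph2 m L ξ K x ^ 2 := hup
      _ ≤ Real.exp 1 * (17 ^ (9 * d) * mu M (m • ξ) (2 * L / √m / 4)) *
          (4 ^ (9 * d) * ∫ x, qs m L ξ K x) := by
          refine mul_le_mul (mul_le_mul_of_nonneg_left hd (Real.exp_pos 1).le) h21'
            (integral_nonneg fun x => by positivity) ?_
          exact mul_nonneg (Real.exp_pos 1).le (mul_nonneg (by positivity) hmu.le)
      _ = Real.exp 2 * 68 ^ (9 * d) *
          (Real.exp (-1) * mu M (m • ξ) (2 * L / √m / 4) * ∫ x, qs m L ξ K x) := by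
          rw [e1, e2]; ring
      _ ≤ _ := mul_le_mul_of_nonneg_left hlow (by positivity)

end Vale.Agent.P353.AN.G
end

section

/-! # P353, all `N`, block GL: equivariance of gauge invariant functions (GL1) -/

open MeasureTheory Filter Topology
open scoped ContDiff

namespace Vale.Agent.P353.Z.AN

variable {d : ℕ} {F : Type*} [NormedAddCommGroup F] [InnerProductSpace ℂ F]

/-- generator of the spin transport -/
noncomputable def eqvK (S : Setup d F) (a : Fin d → ℝ) : F →L[ℂ] F :=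
  (-Complex.I) • ∑ C, (a C : ℂ) • S.cS C

lemma eqvK_symm (S : Setup d F) (a : Fin d → ℝ) (v w : F) :
    inner ℂ (eqvK S a v) w = inner ℂ v (eqvK S (-a) w) := by
  simp only [eqvK, smul_apply, sum_apply, inner_smul_left, inner_smul_right, sum_inner,
    inner_sum, S.cS_symm, Complex.conj_ofReal, map_neg, Complex.conj_I, neg_neg, Pi.neg_apply,
    Complex.ofReal_neg, neg_mul, Finset.sum_neg_distrib, mul_neg]

lemma eqvK_neg (S : Setup d F) (a : Fin d → ℝ) : eqvK S (-a) = -eqvK S a := by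
  simp only [eqvK, Pi.neg_apply, Complex.ofReal_neg, neg_smul, Finset.sum_neg_distrib, smul_neg]

lemma eqv_deriv (S : Setup d F) {u : Cfg d → F} (hu : ContDiff ℝ ∞ u)
    (hG : ∀ C x, S.G C u x = 0) (a : Fin d → ℝ) (x : Cfg d) (t : ℝ) :
    HasDerivAt (fun t : ℝ => u (ro (NormedSpace.exp (t • S.adm a)) x))
      (eqvK S a (u (ro (NormedSpace.exp (t • S.adm a)) x))) t := by
  have h1 : HasDerivAt (fun t : ℝ => u (ro (NormedSpace.exp (t • S.adm a)) x))
      (fderiv ℝ u (ro (NormedSpace.exp (t • S.adm a)) x)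
        (ro (S.adm a) (ro (NormedSpace.exp (t • S.adm a)) x))) t :=
    ((hu.differentiable (by simp)) _).hasFDerivAt.comp_hasDerivAt t
      (U.gx983_hasDerivAt_ro (S.adm a) t x)
  refine h1.congr_deriv ?_
  rw [U.gx983_fderiv_ad]
  simp only [eqvK, smul_apply, sum_apply, Finset.smul_sum (r := -Complex.I)]
  refine Finset.sum_congr rfl fun C _ => ?_
  have h2 := hG C (ro (NormedSpace.exp (t • S.adm a)) x)
  unfold Setup.G at h2
  have h3 := congrArg (fun v => Complex.I • v) h2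
  simp only [smul_add, smul_smul, smul_zero] at h3
  rw [show Complex.I * -Complex.I = 1 by rw [mul_neg, Complex.I_mul_I, neg_neg], one_smul] at h3
  rw [smul_comm, neg_smul]
  congr 1
  exact eq_neg_of_add_eq_zero_left h3

/-- **GL1** -/
theorem eqv_stmt (S : Setup d F) : EqvStmt S := by
  intro hF
  have : CompleteSpace F := FiniteDimensional.complete ℂ F
  let _ : NormedAlgebra ℚ (F →L[ℂ] F) := NormedAlgebra.restrictScalars ℚ ℂ (F →L[ℂ] F)
  have hK : ∀ a, spn S a = NormedSpace.exp (eqvK S a) := fun a => rfl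
  have hadj : ∀ a, star (eqvK S a) = eqvK S (-a) := by
    intro a
    rw [ContinuousLinearMap.star_eq_adjoint]
    refine ContinuousLinearMap.ext fun w => ?_
    refine ext_inner_left ℂ fun v => ?_
    rw [ContinuousLinearMap.adjoint_inner_right, eqvK_symm]
  have h2 : ∀ a v w, inner ℂ (spn S a v) w = inner ℂ v (spn S (-a) w) := by
    intro a v w
    rw [hK, hK, ← hadj, ← NormedSpace.star_exp, ContinuousLinearMap.star_eq_adjoint,
      ContinuousLinearMap.adjoint_inner_right]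
  have hinv : ∀ a, spn S (-a) * spn S a = 1 := by
    intro a
    rw [hK, hK, eqvK_neg]
    have hc : Commute (-eqvK S a) (eqvK S a) := (Commute.refl _).neg_left
    rw [← NormedSpace.exp_add_of_commute hc, neg_add_cancel, NormedSpace.exp_zero]
  have h1 : ∀ a v, ‖spn S a v‖ = ‖v‖ := by
    intro a v
    have h : inner ℂ (spn S a v) (spn S a v) = inner ℂ v v := by
      rw [h2]
      congr 1
      have := congrArg (fun T : F →L[ℂ] F => T v) (hinv a)
      simpa using this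
    simp only [inner_self_eq_norm_sq_to_K] at h
    have h4 : ‖spn S a v‖ ^ 2 = ‖v‖ ^ 2 := by exact_mod_cast h
    exact (sq_eq_sq₀ (norm_nonneg _) (norm_nonneg _)).1 h4
  refine ⟨h1, h2, ?_, ?_, ?_⟩
  · have hc0 : Continuous fun a : Fin d → ℝ => ∑ C, (a C : ℂ) • S.cS C :=
      continuous_finsetSum _ fun C _ =>
        (Complex.continuous_ofReal.comp (continuous_apply C)).smul continuous_const
    have hc : Continuous fun a => eqvK S a :=
      (continuous_const_smul (-Complex.I : ℂ)).comp hc0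
    exact NormedSpace.exp_continuous.comp hc
  · rw [hK]
    have : eqvK S 0 = 0 := by simp [eqvK]
    rw [this, NormedSpace.exp_zero]
  · intro u hu hG a x
    have hE : ∀ t : ℝ, HasDerivAt (fun t : ℝ => NormedSpace.exp (t • (-eqvK S a)))
        (NormedSpace.exp (t • (-eqvK S a)) * (-eqvK S a)) t :=
      fun t => hasDerivAt_exp_smul_const (𝕂 := ℝ) (-eqvK S a) t
    have hE' : ∀ t : ℝ, HasDerivAt
        (fun t : ℝ => (NormedSpace.exp (t • (-eqvK S a))).restrictScalars ℝ)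
        ((NormedSpace.exp (t • (-eqvK S a)) * (-eqvK S a)).restrictScalars ℝ) t := fun t =>
      (ContinuousLinearMap.restrictScalarsL ℂ F F ℝ ℝ).hasFDerivAt.comp_hasDerivAt t (hE t)
    have hg : ∀ t : ℝ, HasDerivAt (fun t : ℝ =>
        (NormedSpace.exp (t • (-eqvK S a))) (u (ro (NormedSpace.exp (t • S.adm a)) x))) 0 t := by
      intro t
      have h := (hE' t).clm_apply (eqv_deriv S hu hG a x t)
      refine h.congr_deriv ?_
      simp
    have hc := is_const_of_deriv_eq_zero (f := fun t : ℝ =>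
        (NormedSpace.exp (t • (-eqvK S a))) (u (ro (NormedSpace.exp (t • S.adm a)) x)))
      (fun t => (hg t).differentiableAt) (fun t => (hg t).deriv) 1 0
    simp only [one_smul, zero_smul, NormedSpace.exp_zero, U.gx983_ro_one,
      one_apply_eq_self] at hc
    rw [← eqvK_neg, ← hK] at hc
    have h5 := hinv (-a)
    rw [neg_neg] at h5
    have h6 := congrArg (fun T : F →L[ℂ] F => T (u (ro (NormedSpace.exp (S.adm a)) x))) h5
    simp only [mul_apply_eq_comp, one_apply_eq_self] at h6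
    rw [hc] at h6
    exact h6.symm

end Vale.Agent.P353.Z.AN
end

section

/-! # P353, all `N`, block NF: change of the colour frame of a model -/

open MeasureTheory Filter Topology Matrix
open scoped ContDiff

namespace Vale.Agent.P353.Z.ANF

universe u

variable {N d : ℕ}

theorem basM_stmt : BasMStmt.{u} := by
  intro N d F _ _ M
  exact ⟨M.dim_eq, M.T_hermitian, M.T_traceless, M.T_orthonormal, M.T_comm⟩

/-- rotated basis -/
noncomputable def rotm_T (O : Matrix (Fin d) (Fin d) ℝ) (T : Fin d → Matrix (Fin N) (Fin N) ℂ) (A : Fin d) :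
    Matrix (Fin N) (Fin N) ℂ := ∑ B, ((O A B : ℝ) : ℂ) • T B

lemma rotm_row {O : Matrix (Fin d) (Fin d) ℝ} (hO : O * Oᵀ = 1) (A B : Fin d) :
    ∑ k, O A k * O B k = if A = B then 1 else 0 := by
  have := congrFun (congrFun hO A) B
  rw [Matrix.mul_apply, Matrix.one_apply] at this
  simpa [Matrix.transpose_apply] using this

lemma rotm_col {O : Matrix (Fin d) (Fin d) ℝ} (hO : O * Oᵀ = 1) (k l : Fin d) :
    ∑ E, O E k * O E l = if k = l then 1 else 0 := by
  have hO' : Oᵀ * O = 1 := mul_eq_one_comm.1 hO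
  have := congrFun (congrFun hO' k) l
  rw [Matrix.mul_apply, Matrix.one_apply] at this
  simpa [Matrix.transpose_apply] using this

/-- back rotation in a complex module -/
lemma rotm_back {V : Type*} [AddCommGroup V] [Module ℂ V] {O : Matrix (Fin d) (Fin d) ℝ} (hO : O * Oᵀ = 1)
    (x : Fin d → V) (k : Fin d) :
    ∑ A, ((O A k : ℝ) : ℂ) • ∑ B, ((O A B : ℝ) : ℂ) • x B = x k := by
  have h1 : ∀ A, ((O A k : ℝ) : ℂ) • (∑ B, ((O A B : ℝ) : ℂ) • x B) =
      ∑ B, ((O A k * O A B : ℝ) : ℂ) • x B := by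
    intro A
    rw [Finset.smul_sum]
    refine Finset.sum_congr rfl fun B _ => ?_
    rw [smul_smul, Complex.ofReal_mul]
  simp only [h1]
  rw [Finset.sum_comm]
  have h2 : ∀ B, (∑ A, ((O A k * O A B : ℝ) : ℂ) • x B) = if k = B then x B else 0 := by
    intro B
    rw [← Finset.sum_smul, ← Complex.ofReal_sum, rotm_col hO]
    split_ifs
    · rw [Complex.ofReal_one, one_smul]
    · rw [Complex.ofReal_zero, zero_smul]
  simp only [h2, Finset.sum_ite_eq, Finset.mem_univ, if_true]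

lemma rotm_ad (O : Matrix (Fin d) (Fin d) ℝ) (T : Fin d → Matrix (Fin N) (Fin N) ℂ) (U : BFSS.SU N)
    (B A : Fin d) :
    BFSS.adCoeff (rotm_T O T) U B A = ∑ C, ∑ D, O B C * (O A D * BFSS.adCoeff T U C D) := by
  unfold BFSS.adCoeff rotm_T
  have h1 : U.val * (∑ D, ((O A D : ℝ) : ℂ) • T D) * U.val.conjTranspose =
      ∑ D, ((O A D : ℝ) : ℂ) • (U.val * T D * U.val.conjTranspose) := by
    rw [Finset.mul_sum, Finset.sum_mul]
    refine Finset.sum_congr rfl fun D _ => ?_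
    rw [Matrix.mul_smul, Matrix.smul_mul]
  rw [h1, Finset.sum_mul, Matrix.trace_sum, Complex.re_sum]
  refine Finset.sum_congr rfl fun C _ => ?_
  rw [Matrix.smul_mul, Finset.mul_sum, Matrix.trace_smul, Matrix.trace_sum, smul_eq_mul,
    Complex.re_ofReal_mul, Complex.re_sum, Finset.mul_sum]
  refine Finset.sum_congr rfl fun D _ => ?_
  rw [Matrix.mul_smul, Matrix.trace_smul, smul_eq_mul, Complex.re_ofReal_mul]

lemma rotm_adO (O : Matrix (Fin d) (Fin d) ℝ) (T : Fin d → Matrix (Fin N) (Fin N) ℂ) (U : BFSS.SU N) :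
    adO (rotm_T O T) U = O * adO T U * Oᵀ := by
  ext B A
  unfold adO
  rw [Matrix.of_apply, rotm_ad, Matrix.mul_apply, Finset.sum_comm]
  refine Finset.sum_congr rfl fun D _ => ?_
  rw [Matrix.mul_apply, Finset.sum_mul]
  refine Finset.sum_congr rfl fun C _ => ?_
  rw [Matrix.transpose_apply, Matrix.of_apply]
  ring

/-- `Σ_B (O X Oᵀ)_{BA} Σ_E O_{BE} x_E = Σ_C Σ_D O_{AD} X_{CD} x_C` -/
lemma rotm_conj {V : Type*} [AddCommGroup V] [Module ℂ V] {O : Matrix (Fin d) (Fin d) ℝ} (hO : O * Oᵀ = 1)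
    (X : Matrix (Fin d) (Fin d) ℝ) (x : Fin d → V) (A : Fin d) :
    ∑ B, (((O * X * Oᵀ) B A : ℝ) : ℂ) • ∑ E, ((O B E : ℝ) : ℂ) • x E =
      ∑ D, ((O A D : ℝ) : ℂ) • ∑ C, ((X C D : ℝ) : ℂ) • x C := by
  have h1 : ∀ B, (((O * X * Oᵀ) B A : ℝ) : ℂ) = ∑ D, ∑ C, ((O A D : ℝ) : ℂ) * (((X C D : ℝ) : ℂ) * ((O B C : ℝ) : ℂ)) := by
    intro B
    rw [Matrix.mul_apply, Complex.ofReal_sum]
    refine Finset.sum_congr rfl fun D _ => ?_
    rw [Matrix.mul_apply, Finset.sum_mul, Complex.ofReal_sum]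
    refine Finset.sum_congr rfl fun C _ => ?_
    rw [Matrix.transpose_apply]
    push_cast
    ring
  have h2 : ∀ B, (((O * X * Oᵀ) B A : ℝ) : ℂ) • (∑ E, ((O B E : ℝ) : ℂ) • x E) =
      ∑ D, ((O A D : ℝ) : ℂ) • ∑ C, ((X C D : ℝ) : ℂ) • (((O B C : ℝ) : ℂ) • ∑ E, ((O B E : ℝ) : ℂ) • x E) := by
    intro B
    rw [h1, Finset.sum_smul]
    refine Finset.sum_congr rfl fun D _ => ?_
    rw [Finset.sum_smul, Finset.smul_sum]
    refine Finset.sum_congr rfl fun C _ => ?_
    rw [smul_smul, smul_smul, mul_assoc]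
  simp only [h2]
  rw [Finset.sum_comm]
  refine Finset.sum_congr rfl fun D _ => ?_
  rw [← Finset.smul_sum, Finset.sum_comm]
  congr 1
  refine Finset.sum_congr rfl fun C _ => ?_
  rw [← Finset.smul_sum, rotm_back hO x C]

theorem rotM_stmt : RotMStmt.{u} := by
  intro N d F _ _ M S hR O h1 hO
  set S' : Setup d F := S.rot 1 h1 O hO with hS'
  have hth : ∀ α A, S'.th α A = ∑ B, ((O A B : ℝ) : ℂ) • M.θ α B := by
    intro α A
    rw [hS']
    show ∑ B, ((O A B : ℝ) : ℂ) • S.th α B = _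
    rw [hR.hth]
  have hf : ∀ A B C, S'.f A B C = ∑ A', ∑ B', ∑ C', O A A' * O B B' * O C C' * M.f A' B' C' := by
    intro A B C
    rw [hS', ← hR.hf]
    rfl
  have hback : ∀ α k v, M.θ α k v = ∑ A, ((O A k : ℝ) : ℂ) • S'.th α A v := by
    intro α k v
    have e1 := DFunLike.congr_fun (rotm_back hO (M.θ α) k) v
    rw [← e1, _root_.sum_apply]
    refine Finset.sum_congr rfl fun A _ => ?_
    rw [_root_.smul_apply, hth]
  let M' : BFSS.Model N d F :=
    { dim_eq := M.dim_eq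
      T := rotm_T O M.T
      T_hermitian := by
        intro A
        unfold rotm_T
        rw [Matrix.conjTranspose_sum]
        refine Finset.sum_congr rfl fun B _ => ?_
        rw [Matrix.conjTranspose_smul, M.T_hermitian]
        congr 1
        exact Complex.conj_ofReal _
      T_traceless := by
        intro A
        unfold rotm_T
        rw [Matrix.trace_sum]
        refine Finset.sum_eq_zero fun B _ => ?_
        rw [Matrix.trace_smul, M.T_traceless, smul_zero]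
      T_orthonormal := by
        intro A B
        unfold rotm_T
        rw [Finset.sum_mul, Matrix.trace_sum]
        have e1 : ∀ C, (((O A C : ℝ) : ℂ) • M.T C * ∑ D, ((O B D : ℝ) : ℂ) • M.T D).trace =
            ((O A C * O B C : ℝ) : ℂ) := by
          intro C
          rw [Matrix.smul_mul, Matrix.trace_smul, Finset.mul_sum, Matrix.trace_sum]
          have e2 : ∀ D, (M.T C * (((O B D : ℝ) : ℂ) • M.T D)).trace =
              if C = D then ((O B D : ℝ) : ℂ) else 0 := by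
            intro D
            rw [Matrix.mul_smul, Matrix.trace_smul, M.T_orthonormal]
            split_ifs
            · rw [smul_eq_mul, mul_one]
            · rw [smul_zero]
          simp only [e2, Finset.sum_ite_eq, Finset.mem_univ, if_true, smul_eq_mul, Complex.ofReal_mul]
        simp only [e1]
        rw [← Complex.ofReal_sum, rotm_row hO]
        split_ifs
        · exact Complex.ofReal_one
        · exact Complex.ofReal_zero
      f := S'.f
      T_comm := by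
        intro A B
        have e1 : rotm_T O M.T A * rotm_T O M.T B - rotm_T O M.T B * rotm_T O M.T A =
            ∑ A', ∑ B', (((O A A' : ℝ) : ℂ) * ((O B B' : ℝ) : ℂ)) • (M.T A' * M.T B' - M.T B' * M.T A') := by
          unfold rotm_T
          rw [Finset.sum_mul_sum, Finset.sum_mul_sum, Finset.sum_comm (s := Finset.univ) (t := Finset.univ)
            (f := fun l k => (((O B l : ℝ) : ℂ) • M.T l) * (((O A k : ℝ) : ℂ) • M.T k)), ← Finset.sum_sub_distrib]
          refine Finset.sum_congr rfl fun k _ => ?_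
          rw [← Finset.sum_sub_distrib]
          refine Finset.sum_congr rfl fun l _ => ?_
          rw [smul_mul_smul_comm, smul_mul_smul_comm, smul_sub, mul_comm (((O B l : ℝ) : ℂ))]
        rw [e1]
        have e3 : ∀ A' B', M.T A' * M.T B' - M.T B' * M.T A' =
            ∑ C', (Complex.I * (M.f A' B' C' : ℂ)) • ∑ C, ((O C C' : ℝ) : ℂ) • rotm_T O M.T C := by
          intro A' B'
          rw [M.T_comm]
          refine Finset.sum_congr rfl fun C' _ => ?_
          unfold rotm_T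
          rw [rotm_back hO M.T C']
        have e4 : ∀ C, (Complex.I * (S'.f A B C : ℂ)) • rotm_T O M.T C =
            ∑ A', ∑ B', ∑ C', (((O A A' : ℝ) : ℂ) * ((O B B' : ℝ) : ℂ)) •
              ((Complex.I * (M.f A' B' C' : ℂ)) • (((O C C' : ℝ) : ℂ) • rotm_T O M.T C)) := by
          intro C
          rw [hf]
          push_cast
          rw [Finset.mul_sum, Finset.sum_smul]
          refine Finset.sum_congr rfl fun A' _ => ?_
          rw [Finset.mul_sum, Finset.sum_smul]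
          refine Finset.sum_congr rfl fun B' _ => ?_
          rw [Finset.mul_sum, Finset.sum_smul]
          refine Finset.sum_congr rfl fun C' _ => ?_
          rw [smul_smul, smul_smul]
          congr 1
          ring
        symm
        simp only [e4]
        rw [Finset.sum_comm]
        refine Finset.sum_congr rfl fun A' _ => ?_
        rw [Finset.sum_comm]
        refine Finset.sum_congr rfl fun B' _ => ?_
        rw [Finset.sum_comm, e3, Finset.smul_sum]
        refine Finset.sum_congr rfl fun C' _ => ?_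
        rw [Finset.smul_sum, Finset.smul_sum]
      γ := M.γ
      γ_symm := M.γ_symm
      γ_anticomm := M.γ_anticomm
      θ := S'.th
      θ_selfAdjoint := S'.th_sa
      θ_anticomm := by
        intro α A β B v
        have e1 := DFunLike.congr_fun (S'.th_anti α A β B) v
        have e2 : (if α = β ∧ A = B then (1 : F →L[ℂ] F) else 0) v = if α = β ∧ A = B then v else 0 := by
          split_ifs
          · rfl
          · rfl
        rw [e2] at e1
        exact e1
      θ_irreducible := by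
        intro W hW
        refine M.θ_irreducible W fun α k v hv => ?_
        rw [hback]
        exact Submodule.sum_mem _ fun A _ => W.smul_mem _ (hW α A v hv)
      nontrivial := M.nontrivial
      S := M.S
      S_mul := M.S_mul
      S_isometry := M.S_isometry
      S_continuous := M.S_continuous
      S_rotates := by
        intro U α A v
        have e0 : ∀ B, ((BFSS.adCoeff (rotm_T O M.T) U B A : ℝ) : ℂ) = (((O * adO M.T U * Oᵀ) B A : ℝ) : ℂ) := by
          intro B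
          rw [← rotm_adO]
          rfl
        have e1 : ∀ B (w : F), S'.th α B w = ∑ E, ((O B E : ℝ) : ℂ) • M.θ α E w := by
          intro B w
          rw [hth, _root_.sum_apply]
          exact Finset.sum_congr rfl fun E _ => _root_.smul_apply _ _ _
        have e2 := rotm_conj hO (adO M.T U) (fun E => M.θ α E (M.S U v)) A
        simp only [e0, e1]
        rw [e2, map_sum]
        refine Finset.sum_congr rfl fun D _ => ?_
        rw [map_smul, M.S_rotates]
        rfl }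
  refine ⟨M', ⟨?_, rfl, ?_, rfl⟩, fun A => rfl, rfl, ?_, ?_⟩
  · exact hR.hκ
  · intro i α β
    show (∑ j, ((((1 : Matrix (Fin 9) (Fin 9) ℝ) i j : ℝ) : ℂ)) • S.g j) α β = ((M.γ i α β : ℝ) : ℂ)
    rw [Matrix.sum_apply, Finset.sum_eq_single i]
    · rw [Matrix.smul_apply, Matrix.one_apply_eq, Complex.ofReal_one, one_smul, hR.hg]
    · intro j _ hj
      rw [Matrix.smul_apply, Matrix.one_apply_ne hj.symm, Complex.ofReal_zero, zero_smul]
    · intro h
      exact absurd (Finset.mem_univ _) h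
  · intro V x
    have e0 : ∀ B A, BFSS.adCoeff (rotm_T O M.T) V B A = (O * adO M.T V * Oᵀ) B A := by
      intro B A
      rw [← rotm_adO]
      rfl
    have hO' : Oᵀ * O = 1 := mul_eq_one_comm.1 hO
    ext p
    show ∑ A, BFSS.adCoeff (rotm_T O M.T) V p.2 A * ∑ B, O A B * x (p.1, B) =
      ∑ B, O p.2 B * ∑ A, BFSS.adCoeff M.T V B A * x (p.1, A)
    simp only [e0]
    have e1 : (O * adO M.T V * Oᵀ) *ᵥ (O *ᵥ fun B => x (p.1, B)) =
        O *ᵥ (adO M.T V *ᵥ fun B => x (p.1, B)) := by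
      rw [mulVec_mulVec, mulVec_mulVec, Matrix.mul_assoc, hO', Matrix.mul_one]
    exact congrFun e1 p.2
  · intro V
    exact rotm_adO O M.T V

end Vale.Agent.P353.Z.ANF
end

section

/-! # P353, all `N`, block X: `Ω(η)`, the path of complex structures, `F0` as a kernel (X-OmP, X-Path, X-KrF) -/

open MeasureTheory Filter Topology Matrix
open scoped ContDiff

namespace Vale.Agent.P353.Z.AX

variable {d dh dm : ℕ} {F : Type*} [NormedAddCommGroup F] [InnerProductSpace ℂ F]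

/-! ## calculus of `sp` -/

private theorem spx_sum {r : ℕ} (E : Matrix (Fin dm) (Fin dm) ℝ) (f : Fin r → Fin dm → ℝ) :
    ∑ a, sp E (f a) = sp E (fun k => ∑ a, f a k) := by
  have h : (diagonal fun k => ∑ a, f a k : Matrix (Fin dm) (Fin dm) ℝ) = ∑ a, diagonal (f a) := by
    ext p q
    rw [Matrix.sum_apply]
    rcases eq_or_ne p q with h | h
    · subst h
      simp
    · simp [Matrix.diagonal_apply_ne _ h]
  unfold sp
  rw [h, Finset.mul_sum, Finset.sum_mul]

private theorem spx_comm1 {r : ℕ} {M : Fin r → Matrix (Fin dm) (Fin dm) ℝ} {t : Fin r → ℝ}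
    {Kc E : Matrix (Fin dm) (Fin dm) ℝ} {l : Fin dm → Fin r → ℝ} (h : RD M t Kc E l) (f : (Fin r → ℝ) → ℝ) :
    Kc * sp E (fun k => f (l k)) = sp E (fun k => f (l k)) * Kc := h.comm f

/-- `sp f Kc sp g Kc = - sp (f g)` -/
private theorem spx_KK {r : ℕ} {M : Fin r → Matrix (Fin dm) (Fin dm) ℝ} {t : Fin r → ℝ}
    {Kc E : Matrix (Fin dm) (Fin dm) ℝ} {l : Fin dm → Fin r → ℝ} (hSp : SpStmt) (h : RD M t Kc E l)
    (f g : (Fin r → ℝ) → ℝ) :
    (sp E (fun k => f (l k)) * Kc) * (sp E (fun k => g (l k)) * Kc) = -sp E (fun k => f (l k) * g (l k)) := by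
  rw [Matrix.mul_assoc, ← Matrix.mul_assoc Kc, h.comm g, Matrix.mul_assoc, h.sq, mul_neg, mul_one, mul_neg,
    (hSp dm E h.orth).1]

private theorem spx_DM {r : ℕ} {M : Fin r → Matrix (Fin dm) (Fin dm) ℝ} {t : Fin r → ℝ}
    {Kc E : Matrix (Fin dm) (Fin dm) ℝ} {l : Fin dm → Fin r → ℝ} (hSp : SpStmt) (h : RD M t Kc E l) (c : Fin r → ℝ) :
    ∑ a, c a • M a = sp E (fun k => ∑ a, l k a * c a) * Kc := by
  rw [← spx_sum E (fun a k => l k a * c a), Finset.sum_mul]
  refine Finset.sum_congr rfl fun a _ => ?_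
  rw [h.M_eq a, ← smul_mul_assoc, (hSp dm E h.orth).2.2.1]
  congr 2
  funext k
  ring

private theorem spx_anti {r : ℕ} {M : Fin r → Matrix (Fin dm) (Fin dm) ℝ} {t : Fin r → ℝ}
    {Kc E : Matrix (Fin dm) (Fin dm) ℝ} {l : Fin dm → Fin r → ℝ} (hSp : SpStmt) (h : RD M t Kc E l)
    (f : (Fin r → ℝ) → ℝ) :
    (sp E (fun k => f (l k)) * Kc)ᵀ = -(sp E (fun k => f (l k)) * Kc) := by
  rw [transpose_mul, h.anti, (hSp dm E h.orth).2.2.2.2.1, neg_mul, h.comm f]

/-- if `∑ D_i² = - sp (q²)`, `q > 0`, then `κ sp q` is `Ω` -/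
private theorem spx_isOm (hSp : SpStmt) {E : Matrix (Fin dm) (Fin dm) ℝ} (hE : E * Eᵀ = 1) {κ : ℝ} (hκ : 0 < κ)
    {D : Fin 9 → Matrix (Fin dm) (Fin dm) ℝ} {q : Fin dm → ℝ} (hq : ∀ k, 0 < q k)
    (hD : ∑ i, D i * D i = -sp E (fun k => q k * q k)) : IsOm κ D (κ • sp E q) := by
  obtain ⟨h1, h2, h3, h4, h5, h6, h7, h8, h9⟩ := hSp dm E hE
  refine ⟨?_, ?_, ?_, ?_⟩
  · rw [transpose_smul, h5]
  · intro v hv
    rw [h3]
    exact h8 _ (fun k => mul_pos hκ (hq k)) v hv
  · rw [hD, smul_mul_assoc, mul_smul_comm, smul_smul, h1, smul_neg, neg_neg, sq]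
  · intro X hX
    rw [hD, mul_neg, neg_mul, neg_inj] at hX
    rw [mul_smul_comm, smul_mul_assoc]
    congr 1
    refine h9 _ _ X (fun j k hjk => ?_) hX
    have := hq j
    have := hq k
    nlinarith

private theorem spx_nz (z : Fin 9 → ℝ) : nz z * nz z = ∑ i, z i * z i := by
  rw [nz, Real.mul_self_sqrt (Finset.sum_nonneg fun i _ => sq_nonneg _)]
  exact Finset.sum_congr rfl fun i _ => sq (z i)

private theorem spx_sqsum {r : ℕ} {M : Fin r → Matrix (Fin dm) (Fin dm) ℝ} {t : Fin r → ℝ}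
    {Kc E : Matrix (Fin dm) (Fin dm) ℝ} {l : Fin dm → Fin r → ℝ} (hSp : SpStmt) (h : RD M t Kc E l) (η : Cfg r) :
    ∑ i, DM M η i * DM M η i = -sp E (fun k => nz (zk (l k) η) * nz (zk (l k) η)) := by
  have e : ∀ i, DM M η i * DM M η i = -sp E (fun k => zk (l k) η i * zk (l k) η i) := by
    intro i
    have e1 : DM M η i = sp E (fun k => zk (l k) η i) * Kc := by
      rw [DM, spx_DM hSp h (fun a => η (i, a))]
      rfl
    rw [e1]
    exact spx_KK hSp h (fun x => zk x η i) (fun x => zk x η i)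
  rw [Finset.sum_congr rfl fun i _ => e i, Finset.sum_neg_distrib, spx_sum]
  congr 2
  funext k
  rw [spx_nz]

private theorem spx_DT {r : ℕ} {M : Fin r → Matrix (Fin dm) (Fin dm) ℝ} {t : Fin r → ℝ}
    {Kc E : Matrix (Fin dm) (Fin dm) ℝ} {l : Fin dm → Fin r → ℝ} (hSp : SpStmt) (h : RD M t Kc E l) (i : Fin 9) :
    DT M t i = if i = 8 then sp E (fun k => ∑ a, l k a * t a) * Kc else 0 := by
  rw [DT, spx_DM hSp h t]

/-- **X-OmP** -/
theorem omP (hSp : SpStmt) (_hVec : VecStmt) : OmPStmt := by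
  intro r dm κ M t Kc E l hκ h
  obtain ⟨h1, h2, h3, h4, h5, h6, h7, h8, h9⟩ := hSp dm E h.orth
  have hdet : ∀ η : Cfg r, (∑ i, DM M η i * DM M η i).det ≠ 0 ↔ ∀ k, 0 < nz (zk (l k) η) := by
    intro η
    have e : -sp E (fun k => nz (zk (l k) η) * nz (zk (l k) η)) = sp E (fun k => -(nz (zk (l k) η) * nz (zk (l k) η))) := by
      rw [← neg_one_smul ℝ, h3]
      congr 1
      funext k
      ring
    rw [spx_sqsum hSp h η, e, h6, Finset.prod_ne_zero_iff]
    constructor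
    · intro h0 k
      have h1 := h0 k (Finset.mem_univ _)
      refine lt_of_le_of_ne (Real.sqrt_nonneg _) fun h2 => h1 ?_
      rw [← h2]
      simp
    · intro h0 k _
      have := h0 k
      exact neg_ne_zero.2 (mul_pos this this).ne'
  refine ⟨?_, ?_, ?_, ?_, ?_, ?_⟩
  · intro η i
    rw [DM, spx_DM hSp h (fun a => η (i, a))]
    rfl
  · intro η hη
    have h0 := (hdet η).1 hη
    exact ⟨h0, spx_isOm hSp h.orth hκ h0 (spx_sqsum hSp h η)⟩
  · intro η hη
    exact (hdet η).2 hη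
  · refine spx_isOm hSp h.orth hκ h.pos ?_
    rw [Finset.sum_eq_single (8 : Fin 9)]
    · rw [spx_DT hSp h, if_pos rfl]
      exact spx_KK hSp h (fun x => ∑ a, x a * t a) (fun x => ∑ a, x a * t a)
    · intro i _ hi
      rw [spx_DT hSp h, if_neg hi, mul_zero]
    · intro h0
      exact absurd (Finset.mem_univ _) h0
  · intro i
    rw [spx_DT hSp h]
    split_ifs with hi
    · exact spx_anti hSp h (fun x => ∑ a, x a * t a)
    · rw [transpose_zero, neg_zero]
  · intro i j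
    rw [spx_DT hSp h, spx_DT hSp h]
    split_ifs <;> simp

/-! ## Kronecker products -/

/-- `x ⊗ X` -/
private noncomputable def krx (x : Matrix (Fin 16) (Fin 16) ℂ) (X : Matrix (Fin dm) (Fin dm) ℝ) :
    Matrix (Fin 16 × Fin dm) (Fin 16 × Fin dm) ℂ :=
  Matrix.of fun p q => x p.1 q.1 * ((X p.2 q.2 : ℝ) : ℂ)

private theorem krx_mul (x y : Matrix (Fin 16) (Fin 16) ℂ) (X Y : Matrix (Fin dm) (Fin dm) ℝ) :
    krx x X * krx y Y = krx (x * y) (X * Y) := by
  ext p q
  simp only [krx, Matrix.mul_apply, Matrix.of_apply, Fintype.sum_prod_type, Complex.ofReal_sum, Complex.ofReal_mul]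
  rw [Finset.sum_mul_sum]
  refine Finset.sum_congr rfl fun i _ => Finset.sum_congr rfl fun j _ => ?_
  ring

private theorem krx_T (x : Matrix (Fin 16) (Fin 16) ℂ) (X : Matrix (Fin dm) (Fin dm) ℝ) :
    (krx x X)ᵀ = krx xᵀ Xᵀ := by
  ext p q
  simp [krx]

private theorem krx_one : krx (dm := dm) 1 1 = 1 := by
  ext ⟨a, A⟩ ⟨b, B⟩
  simp only [krx, Matrix.of_apply, Matrix.one_apply, Prod.mk.injEq]
  by_cases h1 : a = b <;> by_cases h2 : A = B <;> simp [h1, h2]

private theorem krx_negR (x : Matrix (Fin 16) (Fin 16) ℂ) (X : Matrix (Fin dm) (Fin dm) ℝ) :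
    krx x (-X) = -krx x X := by
  ext p q
  simp [krx]

private theorem krx_negL (x : Matrix (Fin 16) (Fin 16) ℂ) (X : Matrix (Fin dm) (Fin dm) ℝ) :
    krx (-x) X = -krx x X := by
  ext p q
  simp [krx]

private theorem krx_zeroR (x : Matrix (Fin 16) (Fin 16) ℂ) : krx x (0 : Matrix (Fin dm) (Fin dm) ℝ) = 0 := by
  ext p q
  simp [krx]

private theorem krx_zeroL (X : Matrix (Fin dm) (Fin dm) ℝ) : krx 0 X = 0 := by
  ext p q
  simp [krx]

private theorem krx_addL (x y : Matrix (Fin 16) (Fin 16) ℂ) (X : Matrix (Fin dm) (Fin dm) ℝ) :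
    krx (x + y) X = krx x X + krx y X := by
  ext p q
  simp [krx, add_mul]

private theorem krx_subL (x y : Matrix (Fin 16) (Fin 16) ℂ) (X : Matrix (Fin dm) (Fin dm) ℝ) :
    krx (x - y) X = krx x X - krx y X := by
  ext p q
  simp [krx, sub_mul]

private theorem krx_smulR (c : ℝ) (x : Matrix (Fin 16) (Fin 16) ℂ) (X : Matrix (Fin dm) (Fin dm) ℝ) :
    krx x (c • X) = (c : ℂ) • krx x X := by
  ext p q
  simp only [krx, Matrix.of_apply, Matrix.smul_apply, smul_eq_mul, Complex.ofReal_mul]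
  ring

private theorem krx_smulL (c : ℂ) (x : Matrix (Fin 16) (Fin 16) ℂ) (X : Matrix (Fin dm) (Fin dm) ℝ) :
    krx (c • x) X = c • krx x X := by
  ext p q
  simp only [krx, Matrix.of_apply, Matrix.smul_apply, smul_eq_mul]
  ring

private theorem krx_sumR {ι : Type*} (s : Finset ι) (x : Matrix (Fin 16) (Fin 16) ℂ)
    (X : ι → Matrix (Fin dm) (Fin dm) ℝ) : krx x (∑ i ∈ s, X i) = ∑ i ∈ s, krx x (X i) := by
  ext p q
  simp only [krx, Matrix.of_apply, Matrix.sum_apply, Complex.ofReal_sum, Finset.mul_sum]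

private theorem krx_real (x : Matrix (Fin 16) (Fin 16) ℂ) (hx : ∀ a b, (x a b).im = 0)
    (X : Matrix (Fin dm) (Fin dm) ℝ) (p q : Fin 16 × Fin dm) : (krx x X p q).im = 0 := by
  simp [krx, hx]

private theorem krx_realM (x y : Matrix (Fin 16) (Fin 16) ℂ) (hx : ∀ a b, (x a b).im = 0)
    (hy : ∀ a b, (y a b).im = 0) (a b : Fin 16) : ((x * y) a b).im = 0 := by
  rw [Matrix.mul_apply, Complex.im_sum]
  exact Finset.sum_eq_zero fun i _ => by rw [Complex.mul_im, hx, hy]; ring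

private theorem krx_realS {ι : Type*} (s : Finset ι) (X : ι → Matrix (Fin 16 × Fin dm) (Fin 16 × Fin dm) ℂ)
    (h : ∀ i p q, (X i p q).im = 0) (p q : Fin 16 × Fin dm) : ((∑ i ∈ s, X i) p q).im = 0 := by
  rw [Matrix.sum_apply, Complex.im_sum]
  exact Finset.sum_eq_zero fun i _ => h i p q

section
variable (S : Setup d F)

private theorem krx_bb {r : ℕ} (E : Matrix (Fin dm) (Fin dm) ℝ) (l : Fin dm → Fin r → ℝ) (η : Cfg r) :
    S.bb E l η = ∑ j : Fin 8, krx (S.g j.castSucc * S.g 8) (sp E (fun k => be (zk (l k) η) j)) := by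
  ext p q
  simp only [Setup.bb, krx, Matrix.of_apply, Matrix.sum_apply]

private theorem krx_JJ {r : ℕ} (Kc E : Matrix (Fin dm) (Fin dm) ℝ) (l : Fin dm → Fin r → ℝ) (τ : ℝ) (η : Cfg r) :
    S.JJ Kc E l τ η = ∑ i : Fin 9, krx (S.g i) (sp E (fun k => nn τ (zk (l k) η) i) * Kc) := by
  ext p q
  simp only [Setup.JJ, krx, Matrix.of_apply, Matrix.sum_apply]

private theorem krx_J0 (Kc : Matrix (Fin dm) (Fin dm) ℝ) : S.J0 Kc = krx (S.g 8) Kc := rfl

private theorem gx_sq (i : Fin 9) : S.g i * S.g i = 1 := by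
  have h := S.g_anti i i
  rw [if_pos rfl, ← two_mul] at h
  ext a b
  have h2 := congrFun (congrFun h a) b
  have e : ((2 : Matrix (Fin 16) (Fin 16) ℂ) * (S.g i * S.g i)) a b = 2 * (S.g i * S.g i) a b := by
    rw [two_mul, Matrix.add_apply, two_mul]
  have e2 : (2 : Matrix (Fin 16) (Fin 16) ℂ) a b = 2 * (1 : Matrix (Fin 16) (Fin 16) ℂ) a b := by
    rw [← one_add_one_eq_two, Matrix.add_apply, ← one_add_one_eq_two]
    ring
  rw [e, e2] at h2
  exact mul_left_cancel₀ two_ne_zero h2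

private theorem gx_swap {i j : Fin 9} (h : i ≠ j) : S.g i * S.g j = -(S.g j * S.g i) := by
  have := S.g_anti i j
  rw [if_neg h] at this
  exact eq_neg_of_add_eq_zero_left this

private theorem cs8 (j : Fin 8) : j.castSucc ≠ (8 : Fin 9) := by
  intro h
  have := congrArg Fin.val h
  have h2 := j.isLt
  simp at this
  omega

/-! ## the path of complex structures -/

private theorem pathx_bbRA {r : ℕ} {M : Fin r → Matrix (Fin dm) (Fin dm) ℝ} {t : Fin r → ℝ}
    {Kc E : Matrix (Fin dm) (Fin dm) ℝ} {l : Fin dm → Fin r → ℝ} (hSp : SpStmt) (h : RD M t Kc E l) (η : Cfg r) :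
    RA (S.bb E l η) := by
  obtain ⟨h1, h2, h3, h4, h5, h6, h7, h8, h9⟩ := hSp dm E h.orth
  rw [krx_bb]
  refine ⟨krx_realS _ _ fun j => krx_real _ (krx_realM _ _ (S.g_real _) (S.g_real _)) _, ?_⟩
  rw [Matrix.transpose_sum, ← Finset.sum_neg_distrib]
  refine Finset.sum_congr rfl fun j _ => ?_
  rw [krx_T, h5, transpose_mul, S.g_symm, S.g_symm, gx_swap S (cs8 j).symm, krx_negL]

private theorem pathx_J0 {r : ℕ} {M : Fin r → Matrix (Fin dm) (Fin dm) ℝ} {t : Fin r → ℝ}
    {Kc E : Matrix (Fin dm) (Fin dm) ℝ} {l : Fin dm → Fin r → ℝ} (h : RD M t Kc E l) :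
    CStr (S.J0 Kc) := by
  rw [krx_J0]
  refine ⟨⟨krx_real _ (S.g_real _) _, ?_⟩, ?_⟩
  · rw [krx_T, S.g_symm, h.anti, krx_negR]
  · rw [krx_mul, gx_sq, h.sq, krx_negR, krx_one]

private theorem pathx_JJ {r : ℕ} {M : Fin r → Matrix (Fin dm) (Fin dm) ℝ} {t : Fin r → ℝ}
    {Kc E : Matrix (Fin dm) (Fin dm) ℝ} {l : Fin dm → Fin r → ℝ} (hSp : SpStmt) (hVec : VecStmt) (h : RD M t Kc E l)
    (η : Cfg r) (hη : ∀ k, nz8 (zk (l k) η) ≠ 0) (τ : ℝ) : CStr (S.JJ Kc E l τ η) := by
  obtain ⟨h1, h2, h3, h4, h5, h6, h7, h8, h9⟩ := hSp dm E h.orth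
  rw [krx_JJ]
  refine ⟨⟨krx_realS _ _ fun j => krx_real _ (S.g_real _) _, ?_⟩, ?_⟩
  · rw [Matrix.transpose_sum, ← Finset.sum_neg_distrib]
    refine Finset.sum_congr rfl fun i _ => ?_
    rw [krx_T, S.g_symm, spx_anti hSp h (fun x => nn τ (zk x η) i), krx_negR]
  · have e : ∀ i j, krx (S.g i) (sp E (fun k => nn τ (zk (l k) η) i) * Kc) *
        krx (S.g j) (sp E (fun k => nn τ (zk (l k) η) j) * Kc) =
        -krx (S.g i * S.g j) (sp E (fun k => nn τ (zk (l k) η) i * nn τ (zk (l k) η) j)) := by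
      intro i j
      rw [krx_mul, spx_KK hSp h (fun x => nn τ (zk x η) i) (fun x => nn τ (zk x η) j), krx_negR]
    have e2 : (∑ i, krx (S.g i) (sp E (fun k => nn τ (zk (l k) η) i) * Kc)) *
        (∑ j, krx (S.g j) (sp E (fun k => nn τ (zk (l k) η) j) * Kc)) =
        -∑ i, ∑ j, krx (S.g i * S.g j) (sp E (fun k => nn τ (zk (l k) η) i * nn τ (zk (l k) η) j)) := by
      rw [Finset.sum_mul_sum, ← Finset.sum_neg_distrib]
      refine Finset.sum_congr rfl fun i _ => ?_
      rw [← Finset.sum_neg_distrib]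
      exact Finset.sum_congr rfl fun j _ => e i j
    rw [e2]
    set X := ∑ i, ∑ j, krx (S.g i * S.g j) (sp E (fun k => nn τ (zk (l k) η) i * nn τ (zk (l k) η) j)) with hX
    have e3 : X + X = 1 + 1 := by
      have e4 : X = ∑ i, ∑ j, krx (S.g j * S.g i) (sp E (fun k => nn τ (zk (l k) η) i * nn τ (zk (l k) η) j)) := by
        rw [hX, Finset.sum_comm]
        refine Finset.sum_congr rfl fun i _ => Finset.sum_congr rfl fun j _ => ?_
        congr 2
        funext k
        ring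
      nth_rewrite 2 [e4]
      rw [hX, ← Finset.sum_add_distrib]
      have e5 : ∀ i, (∑ j, krx (S.g i * S.g j) (sp E (fun k => nn τ (zk (l k) η) i * nn τ (zk (l k) η) j)) +
          ∑ j, krx (S.g j * S.g i) (sp E (fun k => nn τ (zk (l k) η) i * nn τ (zk (l k) η) j))) =
          krx 1 (sp E (fun k => nn τ (zk (l k) η) i ^ 2)) + krx 1 (sp E (fun k => nn τ (zk (l k) η) i ^ 2)) := by
        intro i
        rw [← Finset.sum_add_distrib, Finset.sum_eq_single i]
        · rw [gx_sq]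
          simp only [sq]
        · intro j _ hj
          rw [gx_swap S hj, krx_negL, add_neg_cancel]
        · intro h0
          exact absurd (Finset.mem_univ _) h0
      rw [Finset.sum_congr rfl fun i _ => e5 i, Finset.sum_add_distrib, ← krx_sumR, spx_sum]
      have e6 : (fun k => ∑ a, nn τ (zk (l k) η) a ^ 2) = fun _ => (1 : ℝ) := by
        funext k
        exact (hVec _ (hη k)).2.2.1 τ
      rw [e6, h4, krx_one]
    have e7 : X = 1 := by
      ext p q
      have := congrFun (congrFun e3 p) q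
      simp only [Matrix.add_apply] at this
      linear_combination this / 2
    rw [e7]

private theorem pathx_zero {r : ℕ} {M : Fin r → Matrix (Fin dm) (Fin dm) ℝ} {t : Fin r → ℝ}
    {Kc E : Matrix (Fin dm) (Fin dm) ℝ} {l : Fin dm → Fin r → ℝ} (hSp : SpStmt) (hVec : VecStmt) (h : RD M t Kc E l)
    (η : Cfg r) (hη : ∀ k, nz8 (zk (l k) η) ≠ 0) : S.JJ Kc E l 0 η = S.J0 Kc := by
  obtain ⟨h1, h2, h3, h4, h5, h6, h7, h8, h9⟩ := hSp dm E h.orth
  have hz : sp E (fun _ => (0 : ℝ)) = 0 := by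
    have := h3 0 (fun _ => (0 : ℝ))
    rw [zero_smul] at this
    rw [this]
    congr 1
    funext k
    ring
  rw [krx_JJ, krx_J0, Fin.sum_univ_castSucc, Finset.sum_eq_zero, zero_add]
  · have e : (fun k => nn 0 (zk (l k) η) (Fin.last 8)) = fun _ => (1 : ℝ) := by
      funext k
      exact (hVec _ (hη k)).2.2.2.1.1
    rw [e, h4, one_mul]
    rfl
  · intro j _
    have e : (fun k => nn 0 (zk (l k) η) j.castSucc) = fun _ => (0 : ℝ) := by
      funext k
      exact (hVec _ (hη k)).2.2.2.1.2 j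
    rw [e, hz, zero_mul, krx_zeroR]

private theorem pathx_der (E Kc : Matrix (Fin dm) (Fin dm) ℝ) (x : Matrix (Fin 16) (Fin 16) ℂ)
    (f : ℝ → Fin dm → ℝ) (f' : Fin dm → ℝ) (τ : ℝ) (hf : ∀ k, HasDerivAt (fun s => f s k) (f' k) τ)
    (p q : Fin 16 × Fin dm) :
    HasDerivAt (fun s => krx x (sp E (f s) * Kc) p q) (krx x (sp E f' * Kc) p q) τ := by
  have e : ∀ g : Fin dm → ℝ, (sp E g * Kc) p.2 q.2 = ∑ k, g k * (E k p.2 * (E * Kc) k q.2) := by
    intro g
    rw [sp, Matrix.mul_assoc, Matrix.mul_assoc, Matrix.mul_apply]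
    refine Finset.sum_congr rfl fun k _ => ?_
    rw [Matrix.diagonal_mul, transpose_apply]
    ring
  have h1 : HasDerivAt (fun s => (sp E (f s) * Kc) p.2 q.2) ((sp E f' * Kc) p.2 q.2) τ := by
    rw [e f']
    refine HasDerivAt.congr_of_eventuallyEq ?_ (Filter.Eventually.of_forall fun s => e (f s))
    exact HasDerivAt.fun_sum fun k _ => (hf k).mul_const _
  exact (h1.ofReal_comp).const_mul _

private theorem pathx_comm {r : ℕ} {M : Fin r → Matrix (Fin dm) (Fin dm) ℝ} {t : Fin r → ℝ}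
    {Kc E : Matrix (Fin dm) (Fin dm) ℝ} {l : Fin dm → Fin r → ℝ} (hSp : SpStmt) (h : RD M t Kc E l)
    (η : Cfg r) (τ : ℝ) :
    S.bb E l η * S.JJ Kc E l τ η - S.JJ Kc E l τ η * S.bb E l η =
      ∑ j : Fin 8, krx (S.g j.castSucc) (sp E (fun k => 2 * be (zk (l k) η) j * nn τ (zk (l k) η) 8) * Kc) +
      krx (S.g 8) (sp E (fun k => -2 * ∑ j : Fin 8, be (zk (l k) η) j * nn τ (zk (l k) η) j.castSucc) * Kc) := by
  obtain ⟨h1, h2, h3, h4, h5, h6, h7, h8, h9⟩ := hSp dm E h.orth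
  have e : ∀ (j : Fin 8) (i : Fin 9), krx (S.g j.castSucc * S.g 8) (sp E (fun k => be (zk (l k) η) j)) *
      krx (S.g i) (sp E (fun k => nn τ (zk (l k) η) i) * Kc) -
      krx (S.g i) (sp E (fun k => nn τ (zk (l k) η) i) * Kc) *
        krx (S.g j.castSucc * S.g 8) (sp E (fun k => be (zk (l k) η) j)) =
      krx (S.g j.castSucc * S.g 8 * S.g i - S.g i * (S.g j.castSucc * S.g 8))
        (sp E (fun k => be (zk (l k) η) j * nn τ (zk (l k) η) i) * Kc) := by
    intro j i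
    have c1 : sp E (fun k => be (zk (l k) η) j) * (sp E (fun k => nn τ (zk (l k) η) i) * Kc) =
        sp E (fun k => be (zk (l k) η) j * nn τ (zk (l k) η) i) * Kc := by
      rw [← Matrix.mul_assoc, h1]
    have c2 : sp E (fun k => nn τ (zk (l k) η) i) * Kc * sp E (fun k => be (zk (l k) η) j) =
        sp E (fun k => be (zk (l k) η) j * nn τ (zk (l k) η) i) * Kc := by
      rw [Matrix.mul_assoc, h.comm (fun x => be (zk x η) j), ← Matrix.mul_assoc, h1]
      congr 2
      funext k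
      ring
    rw [krx_mul, krx_mul, krx_subL, c1, c2]
  rw [krx_bb, krx_JJ, Finset.sum_mul_sum, Finset.sum_mul_sum, Finset.sum_comm (s := (Finset.univ : Finset (Fin 9))),
    ← Finset.sum_sub_distrib]
  simp_rw [← Finset.sum_sub_distrib, e]
  simp_rw [Fin.sum_univ_castSucc (n := 8)]
  rw [Finset.sum_add_distrib, add_comm]
  congr 1
  · refine Finset.sum_congr rfl fun j _ => ?_
    have g1 : S.g j.castSucc * S.g 8 * S.g (Fin.last 8) - S.g (Fin.last 8) * (S.g j.castSucc * S.g 8) =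
        (2 : ℂ) • S.g j.castSucc := by
      have : (Fin.last 8 : Fin 9) = 8 := rfl
      rw [this, Matrix.mul_assoc, gx_sq, mul_one, ← Matrix.mul_assoc, gx_swap S (cs8 j).symm, neg_mul,
        Matrix.mul_assoc, gx_sq, mul_one, two_smul, sub_neg_eq_add]
    rw [g1, krx_smulL]
    have g2 : (fun k => 2 * be (zk (l k) η) j * nn τ (zk (l k) η) 8) =
        fun k => 2 * (be (zk (l k) η) j * nn τ (zk (l k) η) 8) := by
      funext k
      ring
    rw [g2, ← h3, smul_mul_assoc, krx_smulR]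
    norm_cast
  · have g3 : ∀ j i : Fin 8, krx (S.g j.castSucc * S.g 8 * S.g i.castSucc - S.g i.castSucc * (S.g j.castSucc * S.g 8))
        (sp E (fun k => be (zk (l k) η) j * nn τ (zk (l k) η) i.castSucc) * Kc) =
        if i = j then (-2 : ℂ) • krx (S.g 8) (sp E (fun k => be (zk (l k) η) j * nn τ (zk (l k) η) j.castSucc) * Kc)
          else 0 := by
      intro j i
      have g4 : S.g j.castSucc * S.g 8 * S.g i.castSucc - S.g i.castSucc * (S.g j.castSucc * S.g 8) =
          -((S.g j.castSucc * S.g i.castSucc + S.g i.castSucc * S.g j.castSucc) * S.g 8) := by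
        rw [Matrix.mul_assoc, gx_swap S (cs8 i).symm, mul_neg, ← Matrix.mul_assoc, ← Matrix.mul_assoc, add_mul]
        abel
      rw [g4]
      split_ifs with hij
      · subst hij
        rw [gx_sq, ← krx_smulL]
        congr 1
        rw [add_mul, one_mul, neg_smul, two_smul]
      · rw [gx_swap S (fun h0 => hij ((Fin.castSucc_injective 8 h0).symm)), neg_add_cancel, zero_mul, neg_zero,
          krx_zeroL]
    simp_rw [g3]
    simp only [Finset.sum_ite_eq', Finset.mem_univ, if_true]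
    rw [← Finset.smul_sum, ← krx_sumR, ← Finset.sum_mul, spx_sum, ← h3, smul_mul_assoc, krx_smulR]
    norm_cast

/-- **X-Path** -/
theorem path (hSp : SpStmt) (hVec : VecStmt) : PathStmt S := by
  intro r dm M t Kc E l h
  refine ⟨fun η => pathx_bbRA S hSp h η, pathx_J0 S h, fun η hη => ⟨fun τ => pathx_JJ S hSp hVec h η hη τ,
    pathx_zero S hSp hVec h η hη, fun τ p q => ?_⟩⟩
  rw [pathx_comm S hSp h η τ]
  have e : ∀ s, S.JJ Kc E l s η p q =
      ∑ j : Fin 8, krx (S.g j.castSucc) (sp E (fun k => nn s (zk (l k) η) j.castSucc) * Kc) p q +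
        krx (S.g 8) (sp E (fun k => nn s (zk (l k) η) 8) * Kc) p q := by
    intro s
    rw [krx_JJ, Fin.sum_univ_castSucc, Matrix.add_apply, Matrix.sum_apply]
    rfl
  refine HasDerivAt.congr_of_eventuallyEq ?_ (Filter.Eventually.of_forall e)
  rw [Matrix.add_apply, Matrix.sum_apply]
  refine HasDerivAt.add (HasDerivAt.fun_sum fun j _ => ?_) ?_
  · exact pathx_der E Kc _ (fun s k => nn s (zk (l k) η) j.castSucc) _ τ
      (fun k => (hVec _ (hη k)).2.2.2.2.2.1 τ j) p q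
  · exact pathx_der E Kc _ (fun s k => nn s (zk (l k) η) 8) _ τ
      (fun k => (hVec _ (hη k)).2.2.2.2.1 τ) p q

/-! ## `F0` as a kernel -/

variable (φ : Spl dh dm d)

private theorem krfx_F0 (D : Fin 9 → Matrix (Fin dm) (Fin dm) ℝ) (Om : Matrix (Fin dm) (Fin dm) ℝ) :
    S.F0 φ D Om = S.Kr φ (S.Lam D Om) := by
  ext v
  change (∀ p, S.Lth φ D Om p v = 0) ↔ (∀ p, ∑ q, S.Lam D Om p q • S.tm φ q v = 0)
  simp only [Setup.Lth, Setup.tm, _root_.sum_apply, _root_.smul_apply]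

private theorem krfx_le (A B : Matrix (Fin 16 × Fin dm) (Fin 16 × Fin dm) ℂ) : S.Kr φ A ≤ S.Kr φ (B * A) := by
  intro v hv p
  have hv' : ∀ p, ∑ q, A p q • S.tm φ q v = 0 := hv
  have e : ∑ q, (B * A) p q • S.tm φ q v = ∑ s, B p s • ∑ q, A s q • S.tm φ q v := by
    simp only [Matrix.mul_apply, Finset.sum_smul, Finset.smul_sum, smul_smul]
    rw [Finset.sum_comm]
  rw [e]
  exact Finset.sum_eq_zero fun s _ => by rw [hv', smul_zero]

private theorem krfx_eq (A B C : Matrix (Fin 16 × Fin dm) (Fin 16 × Fin dm) ℂ) (h : C * B = 1) :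
    S.Kr φ (B * A) = S.Kr φ A := by
  refine le_antisymm ?_ (krfx_le S φ A B)
  have := krfx_le S φ (B * A) C
  rwa [← Matrix.mul_assoc, h, Matrix.one_mul] at this

/-- `Λ = ½ (1 ⊗ Ω)(1 - i J)` if `(1 ⊗ Ω) J = P` -/
private theorem krfx_main (hSp : SpStmt) {E : Matrix (Fin dm) (Fin dm) ℝ} (hE : E * Eᵀ = 1)
    (D : Fin 9 → Matrix (Fin dm) (Fin dm) ℝ) {q : Fin dm → ℝ} (hq : ∀ k, 0 < q k)
    (J : Matrix (Fin 16 × Fin dm) (Fin 16 × Fin dm) ℂ)
    (hJ : krx 1 (sp E q) * J = ∑ i, krx (S.g i) (D i)) :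
    S.Kr φ (1 - Complex.I • J) = S.F0 φ D (S.κ • sp E q) := by
  obtain ⟨h1, h2, h3, h4, h5, h6, h7, h8, h9⟩ := hSp dm E hE
  have hκ := S.κ_pos
  have hP : S.PP D = (S.κ : ℂ) • ∑ i, krx (S.g i) (D i) := by
    ext p q
    simp only [Setup.PP, krx, Matrix.of_apply, Matrix.smul_apply, Matrix.sum_apply, smul_eq_mul]
  have hL : S.Lam D (S.κ • sp E q) =
      (((1 / 2 : ℂ) * (S.κ : ℂ)) • krx 1 (sp E q)) * (1 - Complex.I • J) := by
    have e0 : S.Lam D (S.κ • sp E q) = (1 / 2 : ℂ) • (krx 1 (S.κ • sp E q) - Complex.I • S.PP D) := by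
      ext p q
      simp only [Setup.Lam, krx, Matrix.of_apply, Matrix.smul_apply, Matrix.sub_apply, smul_eq_mul,
        Matrix.one_apply]
      split_ifs <;> simp
    rw [e0, hP, ← hJ, krx_smulR, mul_sub, mul_one, mul_smul_comm, smul_mul_assoc, smul_sub, smul_smul, smul_smul,
      smul_smul, smul_smul]
    congr 2
    ring
  rw [krfx_F0, hL]
  refine (krfx_eq S φ _ _ ((((1 / 2 : ℂ) * (S.κ : ℂ))⁻¹) • krx 1 (sp E (fun k => (q k)⁻¹))) ?_).symm
  have hc : ((1 / 2 : ℂ) * (S.κ : ℂ)) ≠ 0 :=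
    mul_ne_zero (by norm_num) (Complex.ofReal_ne_zero.2 hκ.ne')
  rw [smul_mul_assoc, mul_smul_comm, smul_smul, inv_mul_cancel₀ hc, one_smul, krx_mul, h1, one_mul]
  have : (fun k => (q k)⁻¹ * q k) = fun _ => (1 : ℝ) := by
    funext k
    exact inv_mul_cancel₀ (hq k).ne'
  rw [this, h4, krx_one]

/-- **X-KrF** -/
theorem krF (hSp : SpStmt) (hVec : VecStmt) : KrFStmt S φ := by
  intro r M t Kc E l h
  obtain ⟨h1, h2, h3, h4, h5, h6, h7, h8, h9⟩ := hSp dm E h.orth
  refine ⟨?_, fun η hη => ?_⟩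
  · refine krfx_main S φ hSp h.orth (DT M t) h.pos _ ?_
    rw [krx_J0, krx_mul, one_mul, Finset.sum_eq_single (8 : Fin 9)]
    · rw [spx_DT hSp h, if_pos rfl]
    · intro i _ hi
      rw [spx_DT hSp h, if_neg hi, krx_zeroR]
    · intro h0
      exact absurd (Finset.mem_univ _) h0
  · refine krfx_main S φ hSp h.orth (DM M η) (fun k => (hVec _ (hη k)).1) _ ?_
    rw [krx_JJ, Finset.mul_sum]
    refine Finset.sum_congr rfl fun i _ => ?_
    rw [krx_mul, one_mul, ← Matrix.mul_assoc, h1, DM, spx_DM hSp h (fun a => η (i, a))]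
    congr 3
    funext k
    have e := (hVec _ (hη k)).2.1 i
    have e0 := (hVec _ (hη k)).1
    rw [e, mul_div_cancel₀ _ e0.ne']
    rfl

end

end Vale.Agent.P353.Z.AX
end

section

/-! # P353, all `N`, block NF: frames are in standard position (helper964) -/

open MeasureTheory Filter Topology Matrix
open scoped ContDiff

namespace Vale.Agent.P353.Z.ANF

universe u

section algebra

variable {N d : ℕ} {T : Fin d → Matrix (Fin N) (Fin N) ℂ} {f : Fin d → Fin d → Fin d → ℝ}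

/-- structure constants as traces -/
lemma nst_f (hB : Bas N d T f) (A B C : Fin d) :
    ((T A * T B - T B * T A) * T C).trace = Complex.I * (f A B C : ℂ) := by
  rw [hB.comm, Finset.sum_mul, Matrix.trace_sum]
  simp only [Matrix.smul_mul, Matrix.trace_smul, hB.ortho, smul_eq_mul, mul_ite, mul_one, mul_zero]
  simp

lemma nst_f0 (hB : Bas N d T f) (A B C : Fin d) (h : ((T A * T B - T B * T A) * T C).trace = 0) : f A B C = 0 := by
  have h1 := nst_f hB A B C
  rw [h] at h1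
  have h2 := (mul_eq_zero.1 h1.symm).resolve_left Complex.I_ne_zero
  exact_mod_cast h2

/-- coordinates of matrices -/
noncomputable def nstPhi (T : Fin d → Matrix (Fin N) (Fin N) ℂ) : ((Fin d → ℂ) × ℂ) →ₗ[ℂ] Matrix (Fin N) (Fin N) ℂ where
  toFun p := ∑ A, p.1 A • T A + p.2 • (1 : Matrix (Fin N) (Fin N) ℂ)
  map_add' p q := by
    simp only [Prod.fst_add, Prod.snd_add, Pi.add_apply, add_smul, Finset.sum_add_distrib]
    abel
  map_smul' c p := by
    simp only [Prod.smul_fst, Prod.smul_snd, Pi.smul_apply, smul_eq_mul, RingHom.id_apply,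
      smul_add, Finset.smul_sum, smul_smul]

lemma nstPhi_trace (hB : Bas N d T f) (p : (Fin d → ℂ) × ℂ) : (nstPhi T p).trace = p.2 * (N : ℂ) := by
  simp only [nstPhi, LinearMap.coe_mk, AddHom.coe_mk, Matrix.trace_add, Matrix.trace_sum,
    Matrix.trace_smul, hB.tr0, Matrix.trace_one, Fintype.card_fin, smul_eq_mul, mul_zero,
    Finset.sum_const_zero, zero_add]

lemma nstPhi_trace_mul (hB : Bas N d T f) (p : (Fin d → ℂ) × ℂ) (B : Fin d) :
    (nstPhi T p * T B).trace = p.1 B := by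
  simp only [nstPhi, LinearMap.coe_mk, AddHom.coe_mk, Matrix.add_mul, Finset.sum_mul,
    Matrix.smul_mul, Matrix.one_mul, Matrix.trace_add, Matrix.trace_sum, Matrix.trace_smul,
    hB.ortho, hB.tr0, smul_eq_mul, mul_zero, add_zero, mul_ite, mul_one]
  simp

/-- the `T_A` and the identity span the matrices -/
lemma nst_surj (hN : 1 ≤ N) (hB : Bas N d T f) (Y : Matrix (Fin N) (Fin N) ℂ) : ∃ p, nstPhi T p = Y := by
  have hN' : (N : ℂ) ≠ 0 := by
    have : N ≠ 0 := by omega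
    exact_mod_cast this
  have hdN : d + 1 = N * N := by
    have h := hB.dim_eq
    have h2 : 0 < N * N := Nat.mul_pos hN hN
    rw [pow_two] at h
    omega
  have hinj : Function.Injective (nstPhi T) := by
    rw [injective_iff_map_eq_zero]
    intro p hp
    have h1 := nstPhi_trace hB p
    rw [hp, Matrix.trace_zero] at h1
    have h2 : p.2 = 0 := by
      rcases mul_eq_zero.1 h1.symm with h | h
      · exact h
      · exact absurd h hN'
    have h3 : p.1 = 0 := by
      funext B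
      have h4 := nstPhi_trace_mul hB p B
      rw [hp, Matrix.zero_mul, Matrix.trace_zero] at h4
      exact h4.symm
    exact Prod.ext h3 h2
  have hfin : Module.finrank ℂ ((Fin d → ℂ) × ℂ) =
      Module.finrank ℂ (Matrix (Fin N) (Fin N) ℂ) := by
    rw [Module.finrank_prod, Module.finrank_fin_fun, Module.finrank_self, Module.finrank_matrix,
      Module.finrank_self, Fintype.card_fin, mul_one, hdN]
  exact (LinearMap.injective_iff_surjective_of_finrank_eq_finrank hfin).1 hinj Y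

/-- no centre -/
lemma nst_centre (hN : 1 ≤ N) (hB : Bas N d T f) (X : Matrix (Fin N) (Fin N) ℂ) (hX : X.trace = 0)
    (hc : ∀ A, X * T A = T A * X) : X = 0 := by
  have h1 : ∀ Y, X * Y = Y * X := by
    intro Y
    obtain ⟨p, rfl⟩ := nst_surj hN hB Y
    simp only [nstPhi, LinearMap.coe_mk, AddHom.coe_mk, Matrix.mul_add, Matrix.add_mul, Finset.sum_mul,
      Finset.mul_sum, Matrix.mul_smul, Matrix.smul_mul, hc, Matrix.mul_one, Matrix.one_mul]
  obtain ⟨c, rfl⟩ := Matrix.mem_range_scalar_of_commute_single (M := X) (fun i j _ => (h1 _).symm)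
  have h2 : (N : ℂ) * c = 0 := by
    simpa [Matrix.trace] using hX
  have hN' : (N : ℂ) ≠ 0 := by
    have : N ≠ 0 := by omega
    exact_mod_cast this
  have h3 : c = 0 := (mul_eq_zero.1 h2).resolve_left hN'
  rw [h3, map_zero]

end algebra

variable {N d dh dm ds dz k : ℕ} {n : Fin k → ℕ} {T : Fin d → Matrix (Fin N) (Fin N) ℂ} {φ : Spl dh dm d} {ψ : Spl ds dz dh}

/-- products of block diagonal matrices -/
lemma nst_bdmul (E : (Σ a, Fin (n a)) ≃ Fin N) {X Y : Matrix (Fin N) (Fin N) ℂ}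
    (hX : ∀ s t, s.1 ≠ t.1 → X (E s) (E t) = 0) (hY : ∀ s t, s.1 ≠ t.1 → Y (E s) (E t) = 0) :
    ∀ s t, s.1 ≠ t.1 → (X * Y) (E s) (E t) = 0 := by
  intro s t hst
  rw [Matrix.mul_apply, ← E.sum_comp]
  refine Finset.sum_eq_zero fun r _ => ?_
  by_cases h : s.1 = r.1
  · rw [hY r t (by rw [← h]; exact hst), mul_zero]
  · rw [hX s r h, zero_mul]

/-- block scalars commute with block diagonal matrices -/
lemma nst_bdcomm (E : (Σ a, Fin (n a)) ≃ Fin N) (v : Fin k → ℂ) {X : Matrix (Fin N) (Fin N) ℂ}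
    (hX : ∀ s t, s.1 ≠ t.1 → X (E s) (E t) = 0) : bd E v * X = X * bd E v := by
  ext x y
  obtain ⟨s, rfl⟩ := E.surjective x
  obtain ⟨t, rfl⟩ := E.surjective y
  have h1 : (bd E v * X) (E s) (E t) = v s.1 * X (E s) (E t) := by
    rw [Matrix.mul_apply, ← E.sum_comp, Finset.sum_eq_single s]
    · simp [bd]
    · intro r _ hr
      simp [bd, Matrix.diagonal_apply_ne' _ hr]
    · intro h
      exact absurd (Finset.mem_univ _) h
  have h2 : (X * bd E v) (E s) (E t) = X (E s) (E t) * v t.1 := by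
    rw [Matrix.mul_apply, ← E.sum_comp, Finset.sum_eq_single t]
    · simp [bd]
    · intro r _ hr
      simp [bd, Matrix.diagonal_apply_ne _ hr]
    · intro h
      exact absurd (Finset.mem_univ _) h
  rw [h1, h2]
  by_cases h : s.1 = t.1
  · rw [h, mul_comm]
  · rw [hX s t h, mul_zero, zero_mul]

/-- the matrices of `h` are block diagonal -/
lemma nst_bd (fr : NFr n T φ ψ) (A : Fin dh) (s t : Σ a, Fin (n a)) (h : s.1 ≠ t.1) :
    T (φ (Sum.inl A)) (fr.E s) (fr.E t) = 0 := by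
  obtain ⟨A', rfl⟩ := ψ.surjective A
  rcases A' with A' | B
  · obtain ⟨⟨a, i⟩, rfl⟩ := fr.es.surjective A'
    rw [fr.s_eq]
    obtain ⟨s1, s2⟩ := s
    obtain ⟨t1, t2⟩ := t
    simp only [bk, Matrix.submatrix_apply, Equiv.symm_apply_apply]
    exact Matrix.blockDiagonal'_apply_ne _ _ _ h
  · rw [fr.z_eq]
    simp only [bd, Matrix.submatrix_apply, Equiv.symm_apply_apply]
    exact Matrix.diagonal_apply_ne _ (fun h' => h (by rw [h']))

/-- `h` is a subalgebra -/
lemma nst_sub {f : Fin d → Fin d → Fin d → ℝ} (hB : Bas N d T f) (fr : NFr n T φ ψ) (A B : Fin dh) (C : Fin dm) :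
    f (φ (Sum.inl A)) (φ (Sum.inl B)) (φ (Sum.inr C)) = 0 := by
  refine nst_f0 hB _ _ _ ?_
  have h1 := nst_bdmul fr.E (nst_bd fr A) (nst_bd fr B)
  have h2 := nst_bdmul fr.E (nst_bd fr B) (nst_bd fr A)
  rw [Matrix.trace, ← fr.E.sum_comp]
  refine Finset.sum_eq_zero fun s _ => ?_
  rw [Matrix.diag_apply, Matrix.mul_apply, ← fr.E.sum_comp]
  refine Finset.sum_eq_zero fun t _ => ?_
  by_cases h : s.1 = t.1
  · rw [fr.m_eq C t s h.symm, mul_zero]
  · rw [Matrix.sub_apply, h1 s t h, h2 s t h, sub_zero, zero_mul]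

/-- the `z` colours are central in `h` -/
lemma nst_cen {f : Fin d → Fin d → Fin d → ℝ} (hB : Bas N d T f) (fr : NFr n T φ ψ) (A : Fin dz) (B : Fin dh)
    (C : Fin d) : f (φ (Sum.inl (ψ (Sum.inr A)))) (φ (Sum.inl B)) C = 0 := by
  refine nst_f0 hB _ _ _ ?_
  rw [fr.z_eq, nst_bdcomm fr.E _ (nst_bd fr B), sub_self, Matrix.zero_mul, Matrix.trace_zero]

/-- block diagonal matrix of a family -/
noncomputable def nstB (E : (Σ a, Fin (n a)) ≃ Fin N) (X : ∀ a, Matrix (Fin (n a)) (Fin (n a)) ℂ) :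
    Matrix (Fin N) (Fin N) ℂ := (Matrix.blockDiagonal' X).submatrix E.symm E.symm

lemma nstB_apply (E : (Σ a, Fin (n a)) ≃ Fin N) (X : ∀ a, Matrix (Fin (n a)) (Fin (n a)) ℂ) (a : Fin k)
    (p q : Fin (n a)) : nstB E X (E ⟨a, p⟩) (E ⟨a, q⟩) = X a p q := by
  simp only [nstB, Matrix.submatrix_apply, Equiv.symm_apply_apply]
  exact Matrix.blockDiagonal'_apply_eq _ _ _ _

lemma nstB_mul (E : (Σ a, Fin (n a)) ≃ Fin N) (X Y : ∀ a, Matrix (Fin (n a)) (Fin (n a)) ℂ) :
    nstB E X * nstB E Y = nstB E (fun a => X a * Y a) := by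
  rw [nstB, nstB, nstB, Matrix.submatrix_mul_equiv, ← Matrix.blockDiagonal'_mul]

/-- the `s` colours have no centre -/
lemma nst_less {f : Fin d → Fin d → Fin d → ℝ} (hB : Bas N d T f) (fr : NFr n T φ ψ)
    (hcyc : ∀ A B C, f A B C = f B C A) (v : Fin ds → ℝ)
    (hv : ∀ B C, ∑ A, f (φ (Sum.inl (ψ (Sum.inl A)))) (φ (Sum.inl (ψ (Sum.inl B))))
      (φ (Sum.inl (ψ (Sum.inl C)))) * v A = 0) : v = 0 := by
  set Y : ∀ a, Matrix (Fin (n a)) (Fin (n a)) ℂ := fun a =>
    ∑ i, ((v (fr.es ⟨a, i⟩) : ℝ) : ℂ) • fr.Tb (n a) i with hY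
  -- the matrix of `v`
  have hX : ∑ A, ((v A : ℝ) : ℂ) • T (φ (Sum.inl (ψ (Sum.inl A)))) = nstB fr.E Y := by
    rw [← fr.es.sum_comp, Fintype.sum_sigma]
    simp only [fr.s_eq]
    ext x y
    obtain ⟨s, rfl⟩ := fr.E.surjective x
    obtain ⟨t, rfl⟩ := fr.E.surjective y
    obtain ⟨s1, s2⟩ := s
    obtain ⟨t1, t2⟩ := t
    simp only [Matrix.sum_apply, Matrix.smul_apply, bk, nstB, Matrix.submatrix_apply, Equiv.symm_apply_apply]
    by_cases h : s1 = t1
    · subst h
      simp only [Matrix.blockDiagonal'_apply_eq]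
      rw [Finset.sum_eq_single s1]
      · simp only [Pi.single_eq_same, hY, Matrix.sum_apply, Matrix.smul_apply]
      · intro b _ hb
        simp only [Pi.single_eq_of_ne hb.symm, Matrix.zero_apply, smul_zero, Finset.sum_const_zero]
      · intro h
        exact absurd (Finset.mem_univ _) h
    · simp only [Matrix.blockDiagonal'_apply_ne _ _ _ h, smul_zero, Finset.sum_const_zero]
  -- it commutes with all `s` matrices
  have hC : ∀ B : Fin ds, nstB fr.E Y * T (φ (Sum.inl (ψ (Sum.inl B)))) =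
      T (φ (Sum.inl (ψ (Sum.inl B)))) * nstB fr.E Y := by
    intro B
    rw [← sub_eq_zero, ← hX, Finset.sum_mul, Finset.mul_sum, ← Finset.sum_sub_distrib]
    simp only [Matrix.smul_mul, Matrix.mul_smul, ← smul_sub, hB.comm, Finset.smul_sum, smul_smul]
    rw [Finset.sum_comm]
    have h1 : ∀ C : Fin d, ∑ A, f (φ (Sum.inl (ψ (Sum.inl A)))) (φ (Sum.inl (ψ (Sum.inl B)))) C * v A = 0 := by
      intro C
      obtain ⟨C', rfl⟩ := φ.surjective C
      rcases C' with C' | C'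
      · obtain ⟨C'', rfl⟩ := ψ.surjective C'
        rcases C'' with C'' | C''
        · exact hv B C''
        · refine Finset.sum_eq_zero fun A _ => ?_
          rw [hcyc, hcyc, nst_cen hB fr, zero_mul]
      · refine Finset.sum_eq_zero fun A _ => ?_
        rw [nst_sub hB fr, zero_mul]
    refine Finset.sum_eq_zero fun C _ => ?_
    rw [← Finset.sum_smul]
    have h2 : ∑ A, ((v A : ℝ) : ℂ) * (Complex.I * ((f (φ (Sum.inl (ψ (Sum.inl A)))) (φ (Sum.inl (ψ (Sum.inl B)))) C : ℝ) : ℂ)) =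
        Complex.I * ((∑ A, f (φ (Sum.inl (ψ (Sum.inl A)))) (φ (Sum.inl (ψ (Sum.inl B)))) C * v A : ℝ) : ℂ) := by
      push_cast
      rw [Finset.mul_sum]
      exact Finset.sum_congr rfl fun A _ => by ring
    rw [h2, h1 C]
    simp
  -- block by block
  have hblk : ∀ a (j : Fin (n a ^ 2 - 1)), Y a * fr.Tb (n a) j = fr.Tb (n a) j * Y a := by
    intro a j
    have h1 := hC (fr.es ⟨a, j⟩)
    rw [fr.s_eq] at h1
    have h2 : bk fr.E a (fr.Tb (n a) j) = nstB fr.E (Pi.single a (fr.Tb (n a) j)) := rfl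
    rw [h2, nstB_mul, nstB_mul] at h1
    ext p q
    have h3 := congrFun (congrFun h1 (fr.E ⟨a, p⟩)) (fr.E ⟨a, q⟩)
    rw [nstB_apply, nstB_apply] at h3
    simpa only [Pi.single_eq_same] using h3
  have hYt : ∀ a, (Y a).trace = 0 := by
    intro a
    simp only [hY, Matrix.trace_sum, Matrix.trace_smul, (fr.Tb_bas (n a) (fr.pos a)).tr0, smul_zero,
      Finset.sum_const_zero]
  have hY0 : ∀ a, Y a = 0 := fun a =>
    nst_centre (fr.pos a) (fr.Tb_bas (n a) (fr.pos a)) (Y a) (hYt a) (hblk a)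
  funext A
  obtain ⟨⟨a, j⟩, rfl⟩ := fr.es.surjective A
  have h1 : (Y a * fr.Tb (n a) j).trace = ((v (fr.es ⟨a, j⟩) : ℝ) : ℂ) := by
    simp only [hY, Finset.sum_mul, Matrix.smul_mul, Matrix.trace_sum, Matrix.trace_smul,
      (fr.Tb_bas (n a) (fr.pos a)).ortho, smul_eq_mul, mul_ite, mul_one, mul_zero]
    simp
  rw [hY0 a, Matrix.zero_mul, Matrix.trace_zero] at h1
  exact_mod_cast h1.symm

/-- **NF-Std** -/
theorem std_stmt {F : Type u} [NormedAddCommGroup F] [InnerProductSpace ℂ F] (S : Setup d F) (fr : NFr n T φ ψ) :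
    StdStmt S fr := by
  intro hB hR z₀ hz
  have hsub : S.IsSub φ := fun A B C => nst_sub hB fr A B C
  have hcen : ∀ (A : Fin dz) (B C : Fin dh), S.f (φ (Sum.inl (ψ (Sum.inr A)))) (φ (Sum.inl B)) (φ (Sum.inl C)) = 0 :=
    fun A B C => nst_cen hB fr A B _
  refine ⟨⟨hsub, ?_, ?_⟩, hcen, fun v hv => nst_less hB fr S.f_cyc v hv⟩
  · intro i B C
    refine Finset.sum_eq_zero fun A _ => ?_
    obtain ⟨A', rfl⟩ := ψ.surjective A
    rcases A' with A' | A'
    · simp [AD.cmb]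
    · rw [hcen, zero_mul]
  · have h1 := (hR hB {8} z₀).2 (fun a b hab => ⟨8, Finset.mem_singleton_self _, hz a b hab⟩)
    rw [Finset.sum_singleton, Matrix.det_mul] at h1
    exact (mul_ne_zero_iff.1 h1).1

end Vale.Agent.P353.Z.ANF
end

section

/-! # P353, all `N`, block NF, NF-Sf: structure constants of the semisimple part -/

open MeasureTheory Filter Topology Matrix
open scoped ContDiff

namespace Vale.Agent.P353.Z

universe u

namespace ANF

/-- structure constants from the trace form -/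
lemma sf76_f {N d : ℕ} {T : Fin d → Matrix (Fin N) (Fin N) ℂ} {f : Fin d → Fin d → Fin d → ℝ}
    (h : Bas N d T f) (A B C : Fin d) :
    Complex.I * (f A B C : ℂ) = (T A * T B * T C).trace - (T B * T A * T C).trace := by
  have h1 : ((T A * T B - T B * T A) * T C).trace =
      ((∑ D, (Complex.I * (f A B D : ℂ)) • T D) * T C).trace := by rw [h.comm A B]
  rw [Matrix.sub_mul, Matrix.trace_sub] at h1
  rw [h1, Matrix.sum_mul, Matrix.trace_sum, Fintype.sum_eq_single C]
  · rw [Matrix.smul_mul, Matrix.trace_smul, h.ortho, if_pos rfl, smul_eq_mul, mul_one]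
  · intro D hD
    rw [Matrix.smul_mul, Matrix.trace_smul, h.ortho, if_neg hD, smul_zero]

/-- product of block matrices with the same block -/
lemma sf76_mul {N k : ℕ} {n : Fin k → ℕ} (E : (Σ a, Fin (n a)) ≃ Fin N) (a : Fin k)
    (X Y : Matrix (Fin (n a)) (Fin (n a)) ℂ) : bk E a X * bk E a Y = bk E a (X * Y) := by
  unfold bk
  rw [Matrix.submatrix_mul_equiv, ← Matrix.blockDiagonal'_mul]
  congr 2
  funext b
  by_cases h : b = a
  · subst h
    simp only [Pi.single_eq_same]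
  · simp only [Pi.single_eq_of_ne h, Matrix.mul_zero]

/-- product of block matrices with different blocks -/
lemma sf76_ne {N k : ℕ} {n : Fin k → ℕ} (E : (Σ a, Fin (n a)) ≃ Fin N) {a b : Fin k} (hab : a ≠ b)
    (X : Matrix (Fin (n a)) (Fin (n a)) ℂ) (Y : Matrix (Fin (n b)) (Fin (n b)) ℂ) :
    bk E a X * bk E b Y = 0 := by
  unfold bk
  rw [Matrix.submatrix_mul_equiv, ← Matrix.blockDiagonal'_mul]
  have h : (fun c => (Pi.single a X : ∀ c, Matrix (Fin (n c)) (Fin (n c)) ℂ) c *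
      (Pi.single b Y : ∀ c, Matrix (Fin (n c)) (Fin (n c)) ℂ) c) = 0 := by
    funext c
    by_cases h : c = a
    · subst h
      simp only [Pi.single_eq_of_ne hab, Matrix.mul_zero, Pi.zero_apply]
    · simp only [Pi.single_eq_of_ne h, Matrix.zero_mul, Pi.zero_apply]
  rw [h, Matrix.blockDiagonal'_zero, Matrix.submatrix_zero]
  rfl

/-- trace of a block matrix -/
lemma sf76_tr {N k : ℕ} {n : Fin k → ℕ} (E : (Σ a, Fin (n a)) ≃ Fin N) (a : Fin k)
    (X : Matrix (Fin (n a)) (Fin (n a)) ℂ) : (bk E a X).trace = X.trace := by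
  unfold bk
  have h : ∀ M : Matrix (Σ a, Fin (n a)) (Σ a, Fin (n a)) ℂ,
      (M.submatrix E.symm E.symm).trace = M.trace := by
    intro M
    unfold Matrix.trace
    simp only [Matrix.diag, Matrix.submatrix_apply]
    exact Equiv.sum_comp E.symm (fun i => M i i)
  rw [h, Matrix.trace_blockDiagonal', Fintype.sum_eq_single a]
  · simp only [Pi.single_eq_same]
  · intro b hb
    simp only [Pi.single_eq_of_ne hb, Matrix.trace_zero]

variable {N d dh dm ds dz k : ℕ} {n : Fin k → ℕ} {T : Fin d → Matrix (Fin N) (Fin N) ℂ} {φ : Spl dh dm d} {ψ : Spl ds dz dh}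
  {F : Type u} [NormedAddCommGroup F] [InnerProductSpace ℂ F]

/-- NF-Sf -/
theorem sf_stmt (S : Setup d F) (fr : NFr n T φ ψ) : SfStmt S fr := by
  intro hB a b c i j l
  have h1 := sf76_f hB (φ (Sum.inl (ψ (Sum.inl (fr.es ⟨a, i⟩))))) (φ (Sum.inl (ψ (Sum.inl (fr.es ⟨b, j⟩)))))
    (φ (Sum.inl (ψ (Sum.inl (fr.es ⟨c, l⟩)))))
  rw [fr.s_eq, fr.s_eq, fr.s_eq] at h1
  by_cases hab : a = b
  · subst hab
    rw [sf76_mul, sf76_mul] at h1
    by_cases hac : a = c
    · subst hac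
      rw [dif_pos ⟨rfl, rfl⟩]
      rw [sf76_mul, sf76_mul, sf76_tr, sf76_tr,
        ← sf76_f (fr.Tb_bas (n a) (fr.pos a)) i j l] at h1
      exact_mod_cast mul_left_cancel₀ Complex.I_ne_zero h1
    · rw [dif_neg fun h => hac h.2]
      rw [sf76_ne fr.E hac, sf76_ne fr.E hac, sub_self] at h1
      exact_mod_cast (mul_eq_zero.mp h1).resolve_left Complex.I_ne_zero
  · rw [dif_neg fun h => hab h.1]
    rw [sf76_ne fr.E hab, sf76_ne fr.E (Ne.symm hab), Matrix.zero_mul, sub_self] at h1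
    exact_mod_cast (mul_eq_zero.mp h1).resolve_left Complex.I_ne_zero

end ANF

end Vale.Agent.P353.Z
end

section

/-! # P353, all `N`, block X2: `ZmsStmt` (helper393)

The zero modes with values in a subspace form a subspace of `L²`. -/

open MeasureTheory Filter Topology Matrix
open scoped ContDiff

namespace Vale.Agent.P353.Z.AX2

universe u

variable {d : ℕ} {F : Type u} [NormedAddCommGroup F] [InnerProductSpace ℂ F]

lemma zmsx_pd_smul (c : ℂ) {i : Fin 9} {A : Fin d} {u : Cfg d → F} {x : Cfg d} (hu : DifferentiableAt ℝ u x) :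
    pd i A (fun y => c • u y) x = c • pd i A u x := by
  unfold pd
  rw [fderiv_fun_const_smul hu]
  rfl

lemma zmsx_Q_add (S : Setup d F) {β : Fin 16} {u v : Cfg d → F} {x : Cfg d} (hu : DifferentiableAt ℝ u x)
    (hv : DifferentiableAt ℝ v x) : S.Q β (fun y => u y + v y) x = S.Q β u x + S.Q β v x := by
  simp only [Setup.Q, pd_add hu hv, map_add, Finset.sum_add_distrib, smul_add]
  abel

lemma zmsx_Q_smul (S : Setup d F) (c : ℂ) {β : Fin 16} {u : Cfg d → F} {x : Cfg d} (hu : DifferentiableAt ℝ u x) :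
    S.Q β (fun y => c • u y) x = c • S.Q β u x := by
  simp only [Setup.Q, zmsx_pd_smul c hu, map_smul, ← Finset.smul_sum, smul_add]
  rw [smul_comm c]

lemma zmsx_G_add (S : Setup d F) {C : Fin d} {u v : Cfg d → F} {x : Cfg d} (hu : DifferentiableAt ℝ u x)
    (hv : DifferentiableAt ℝ v x) : S.G C (fun y => u y + v y) x = S.G C u x + S.G C v x := by
  simp only [Setup.G, pd_add hu hv, map_add, Finset.sum_add_distrib, smul_add]
  abel

lemma zmsx_G_smul (S : Setup d F) (c : ℂ) {C : Fin d} {u : Cfg d → F} {x : Cfg d} (hu : DifferentiableAt ℝ u x) :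
    S.G C (fun y => c • u y) x = c • S.G C u x := by
  simp only [Setup.G, zmsx_pd_smul c hu, map_smul, smul_add, Finset.smul_sum]
  congr 1
  refine Finset.sum_congr rfl fun i _ => Finset.sum_congr rfl fun A _ => Finset.sum_congr rfl fun B _ => ?_
  simp only [smul_smul]
  congr 1
  ring

lemma zmsx_tst_smul (c : ℂ) {u : Cfg d → F} (hu : Setup.Tst u) : Setup.Tst (fun x => c • u x) := by
  refine ⟨contDiff_const.smul hu.1, hu.2.mono ?_⟩
  intro x hx
  simp only [Function.mem_support] at hx ⊢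
  intro h0
  exact hx (by rw [h0, smul_zero])

lemma zmsx_IsZM_add (S : Setup d F) {Ψ Φ : Lp F 2 (volume : Measure (Cfg d))} (h1 : S.IsZM Ψ) (h2 : S.IsZM Φ) :
    S.IsZM (Ψ + Φ) := by
  obtain ⟨u, hu1, hu2, hu3, hu4⟩ := h1
  obtain ⟨v, hv1, hv2, hv3, hv4⟩ := h2
  refine ⟨fun n x => u n x + v n x, fun n => (hu1 n).add (hv1 n), fun n C x => ?_, ?_, fun β => ?_⟩
  · rw [zmsx_G_add S ((hu1 n).diff x) ((hv1 n).diff x), hu2, hv2, add_zero]
  · have h := ((Lp_L2t hu1 hu3).add (Lp_L2t hv1 hv3)).lim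
    refine h.congr fun n => integral_congr_ae ?_
    filter_upwards [Lp.coeFn_add Ψ Φ] with x hx
    rw [hx, Pi.add_apply]
  · have h := ((zero_L2t (fun n => (hu1 n).Q S β) (hu4 β)).add (zero_L2t (fun n => (hv1 n).Q S β) (hv4 β))).lim
    refine h.congr fun n => integral_congr_ae (Filter.Eventually.of_forall fun x => ?_)
    simp only [zmsx_Q_add S ((hu1 n).diff x) ((hv1 n).diff x), add_zero, sub_zero]

lemma zmsx_IsZM_smul (S : Setup d F) {Ψ : Lp F 2 (volume : Measure (Cfg d))} (c : ℂ) (h1 : S.IsZM Ψ) :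
    S.IsZM (c • Ψ) := by
  obtain ⟨u, hu1, hu2, hu3, hu4⟩ := h1
  refine ⟨fun n x => c • u n x, fun n => zmsx_tst_smul c (hu1 n), fun n C x => ?_, ?_, fun β => ?_⟩
  · rw [zmsx_G_smul S c ((hu1 n).diff x), hu2, smul_zero]
  · have h : Tendsto (fun n => ‖c‖ ^ 2 * ∫ x, ‖u n x - Ψ x‖ ^ 2) atTop (𝓝 0) := by
      simpa using hu3.const_mul (‖c‖ ^ 2)
    refine h.congr fun n => ?_
    rw [← integral_const_mul]
    refine integral_congr_ae ?_
    filter_upwards [Lp.coeFn_smul c Ψ] with x hx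
    rw [hx, Pi.smul_apply, ← smul_sub, norm_smul, mul_pow]
  · have h : Tendsto (fun n => ‖c‖ ^ 2 * ∫ x, ‖S.Q β (u n) x‖ ^ 2) atTop (𝓝 0) := by
      simpa using (hu4 β).const_mul (‖c‖ ^ 2)
    refine h.congr fun n => ?_
    rw [← integral_const_mul]
    refine integral_congr_ae (Filter.Eventually.of_forall fun x => ?_)
    simp only [zmsx_Q_smul S c ((hu1 n).diff x), norm_smul, mul_pow]

lemma zmsx_IsZM_zero (S : Setup d F) : S.IsZM (0 : Lp F 2 (volume : Measure (Cfg d))) := by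
  have hT : Setup.Tst (fun _ : Cfg d => (0 : F)) := ⟨contDiff_const, HasCompactSupport.zero⟩
  have hG : ∀ C x, S.G C (fun _ : Cfg d => (0 : F)) x = 0 := by
    intro C x
    have h := zmsx_G_smul S 0 (C := C) (hT.diff x)
    simpa only [zero_smul] using h
  have hQ : ∀ β x, S.Q β (fun _ : Cfg d => (0 : F)) x = 0 := by
    intro β x
    have h := zmsx_Q_smul S 0 (β := β) (hT.diff x)
    simpa only [zero_smul] using h
  refine ⟨fun _ _ => 0, fun _ => hT, fun _ C x => hG C x, ?_, fun β => ?_⟩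
  · have h : ∫ x : Cfg d, ‖(0 : F) - (0 : Lp F 2 (volume : Measure (Cfg d))) x‖ ^ 2 = 0 := by
      rw [← integral_zero (Cfg d) ℝ (μ := volume)]
      refine integral_congr_ae ?_
      filter_upwards [Lp.coeFn_zero F 2 (volume : Measure (Cfg d))] with x hx
      rw [hx]
      simp
    simp only [h]
    exact tendsto_const_nhds
  · simp only [hQ, norm_zero, ne_eq, OfNat.ofNat_ne_zero, not_false_eq_true, zero_pow, integral_zero]
    exact tendsto_const_nhds

/-- **X2-Zms**: the zero modes with values in `K0` form a subspace -/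
theorem zms_stmt {d : ℕ} {F : Type u} [NormedAddCommGroup F] [InnerProductSpace ℂ F] (S : Setup d F) : ZmsStmt S := by
  intro K0 Ψ
  refine ⟨fun h => ?_, fun h => Submodule.subset_span h⟩
  refine Submodule.span_induction (p := fun Ψ _ => S.IsZM Ψ ∧ ∀ᵐ x ∂(volume : Measure (Cfg d)), Ψ x ∈ K0)
    ?_ ?_ ?_ ?_ h
  · intro Ψ h
    exact h
  · refine ⟨zmsx_IsZM_zero S, ?_⟩
    filter_upwards [Lp.coeFn_zero F 2 (volume : Measure (Cfg d))] with x hx
    rw [hx]
    exact K0.zero_mem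
  · rintro Ψ Φ - - ⟨h1, h2⟩ ⟨h3, h4⟩
    refine ⟨zmsx_IsZM_add S h1 h3, ?_⟩
    filter_upwards [Lp.coeFn_add Ψ Φ, h2, h4] with x hx hy hz
    rw [hx]
    exact K0.add_mem hy hz
  · rintro c Ψ - ⟨h1, h2⟩
    refine ⟨zmsx_IsZM_smul S c h1, ?_⟩
    filter_upwards [Lp.coeFn_smul c Ψ, h2] with x hx hy
    rw [hx]
    exact K0.smul_mem c hy

end Vale.Agent.P353.Z.AX2
end

section

/-! # P353, all `N`, block X2: the zero modes form an irreducible module of the other fermions -/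

open MeasureTheory Filter Topology Matrix
open scoped ContDiff

namespace Vale.Agent.P353.Z.AX2

universe u

section gen

variable {d : ℕ} {E : Type u} [NormedAddCommGroup E] [InnerProductSpace ℂ E]

theorem q216_amF (S : Setup d E) (V : Submodule ℂ E) (hV : ∀ α A, ∀ v ∈ V, S.th α A v ∈ V)
    (A : Fin d) (α : Fin 16) (v : V) : (((S.rst V hV).amF A α v : V) : E) = S.amF A α v := by
  have h1 : ∀ γ : Fin 16, (((S.rst V hV).th γ A v : V) : E) = S.th γ A v := fun γ => rfl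
  have h2 : (S.rst V hV).Gam = S.Gam := rfl
  unfold Setup.amF CS.vec
  rw [h2]
  simp only [_root_.sub_apply, _root_.smul_apply, _root_.sum_apply, Submodule.coe_sub,
    Submodule.coe_smul, Submodule.coe_sum, h1]

/-- a nonzero submodule contains the vacuum vector -/
theorem q216_mem (hvex : ∀ (d : ℕ) (E : Type u) [NormedAddCommGroup E] [InnerProductSpace ℂ E]
      (S : Setup d E), VexStmt S) (S : Setup d E) (k : E)
    (hk : ∀ w : E, (∀ A α, S.amF A α w = 0) → ∃ c : ℂ, w = c • k) (W : Submodule ℂ E)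
    (hW : ∀ α A, ∀ v ∈ W, S.th α A v ∈ W) (hne : W ≠ ⊥) : k ∈ W := by
  obtain ⟨v, hv, hv0⟩ := W.exists_mem_ne_zero_of_ne_bot hne
  obtain ⟨w, hw0, hw⟩ := hvex d W (S.rst W hW) ⟨⟨v, hv⟩, fun h => hv0 (congrArg Subtype.val h)⟩
  obtain ⟨c, hc⟩ := hk (w : E) fun A α => by
    rw [← q216_amF S W hW A α w, hw A α]
    rfl
  have hc0 : c ≠ 0 := by
    rintro rfl
    rw [zero_smul] at hc
    exact hw0 (Subtype.ext hc)
  have h1 : k = c⁻¹ • (w : E) := by
    rw [hc, smul_smul, inv_mul_cancel₀ hc0, one_smul]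
  rw [h1]
  exact W.smul_mem _ w.2

/-- a finite dimensional submodule containing the vacuum vector is everything -/
theorem q216_top (hvex : ∀ (d : ℕ) (E : Type u) [NormedAddCommGroup E] [InnerProductSpace ℂ E]
      (S : Setup d E), VexStmt S) (S : Setup d E) (k : E) (hk0 : k ≠ 0)
    (hk : ∀ w : E, (∀ A α, S.amF A α w = 0) → ∃ c : ℂ, w = c • k) (W : Submodule ℂ E)
    (hW : ∀ α A, ∀ v ∈ W, S.th α A v ∈ W) [FiniteDimensional ℂ W] (hkW : k ∈ W) : W = ⊤ := by
  by_contra hne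
  have h1 : Wᗮ ≠ ⊥ := fun h => hne (Submodule.orthogonal_eq_bot_iff.1 h)
  have h2 : ∀ α A, ∀ v ∈ Wᗮ, S.th α A v ∈ Wᗮ := by
    intro α A v hv
    rw [Submodule.mem_orthogonal] at hv ⊢
    intro u hu
    rw [← S.th_sa α A u v]
    exact hv _ (hW α A u hu)
  have h3 := q216_mem hvex S k hk Wᗮ h2 h1
  have h4 : inner ℂ k k = (0 : ℂ) := (Submodule.mem_orthogonal _ _).1 h3 k hkW
  exact hk0 (inner_self_eq_zero.1 h4)

end gen

section pw

variable {d1 d2 : ℕ} {F : Type u} [NormedAddCommGroup F] [InnerProductSpace ℂ F]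

theorem q216_pwa_mul (T T' : F →L[ℂ] F) (Ψ : Lp F 2 (volume : Measure (Cfg d1))) :
    Setup.pwa d1 (T * T') Ψ = Setup.pwa d1 T (Setup.pwa d1 T' Ψ) := by
  apply Lp.ext
  filter_upwards [Setup.pwa_ae (T * T') Ψ, Setup.pwa_ae T (Setup.pwa d1 T' Ψ), Setup.pwa_ae T' Ψ]
    with x e1 e2 e3
  rw [e1, e2, e3]
  rfl

theorem q216_pwa_one (Ψ : Lp F 2 (volume : Measure (Cfg d1))) :
    Setup.pwa d1 (1 : F →L[ℂ] F) Ψ = Ψ := by
  apply Lp.ext
  filter_upwards [Setup.pwa_ae (1 : F →L[ℂ] F) Ψ] with x e1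
  rw [e1]
  rfl

/-- `T ↦ T Ψ` -/
noncomputable def q216_ev (Ψ : Lp F 2 (volume : Measure (Cfg d1))) :
    (F →L[ℂ] F) →ₗ[ℂ] Lp F 2 (volume : Measure (Cfg d1)) where
  toFun := fun T => Setup.pwa d1 T Ψ
  map_add' := fun T T' => by
    apply Lp.ext
    filter_upwards [Setup.pwa_ae (T + T') Ψ, Setup.pwa_ae T Ψ, Setup.pwa_ae T' Ψ,
      Lp.coeFn_add (Setup.pwa d1 T Ψ) (Setup.pwa d1 T' Ψ)] with x e1 e2 e3 e4
    rw [e1, e4, Pi.add_apply, e2, e3]
    rfl
  map_smul' := fun c T => by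
    apply Lp.ext
    filter_upwards [Setup.pwa_ae (c • T) Ψ, Setup.pwa_ae T Ψ,
      Lp.coeFn_smul c (Setup.pwa d1 T Ψ)] with x e1 e2 e3
    rw [e1, RingHom.id_apply, e3, Pi.smul_apply, e2]
    rfl

/-- the algebra generated by the fermions of `S2` -/
noncomputable def q216_alg (S2 : Setup d2 F) : Subalgebra ℂ (F →L[ℂ] F) :=
  Algebra.adjoin ℂ {T | ∃ α A, T = S2.th α A}

end pw

theorem q216_line {d1 : ℕ} {F : Type u} [NormedAddCommGroup F] [InnerProductSpace ℂ F]
    (S1 : Setup d1 F) (hzms : ZmsStmt S1) (hrst : RstStmt S1) (hF : FiniteDimensional ℂ F)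
    (V : Submodule ℂ F) (hV : ∀ α A, ∀ v ∈ V, S1.th α A v ∈ V) (hone : OneD (S1.rst V hV)) :
    ∃ Φ₀ ∈ S1.zms V, Φ₀ ≠ 0 ∧ ∀ Φ ∈ S1.zms V, ∃ c : ℂ, Φ = c • Φ₀ := by
  obtain ⟨Ψ₀, hΨ₀, hΨ₀0, huniq⟩ := hone
  have a1 : S1.IsZM (V.subtypeL.compLpL 2 volume Ψ₀) := ((hrst hF V hV).1 Ψ₀).1 hΨ₀
  have a2 : ∀ᵐ x ∂(volume : Measure (Cfg d1)), V.subtypeL.compLpL 2 volume Ψ₀ x
      = V.subtypeL (Ψ₀ x) := V.subtypeL.coeFn_compLpL Ψ₀
  have a3 : ∀ᵐ x ∂(volume : Measure (Cfg d1)), V.subtypeL.compLpL 2 volume Ψ₀ x ∈ V := by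
    filter_upwards [a2] with x hx
    rw [hx]
    exact (Ψ₀ x).2
  refine ⟨V.subtypeL.compLpL 2 volume Ψ₀, (hzms V _).2 ⟨a1, a3⟩, ?_, ?_⟩
  · intro h
    apply hΨ₀0
    apply Lp.ext
    filter_upwards [a2, Lp.coeFn_zero V 2 (volume : Measure (Cfg d1)),
      Lp.coeFn_zero F 2 (volume : Measure (Cfg d1))] with x e1 e2 e3
    rw [h, e3] at e1
    rw [e2]
    exact Subtype.ext e1.symm
  · intro Φ hΦ
    obtain ⟨b1, b2⟩ := (hzms V Φ).1 hΦ
    obtain ⟨Ψ, rfl⟩ := (hrst hF V hV).2 Φ b2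
    obtain ⟨c, rfl⟩ := huniq Ψ (((hrst hF V hV).1 Ψ).2 b1)
    exact ⟨c, by rw [map_smul]⟩

section mod

variable {d1 d2 : ℕ} {F : Type u} [NormedAddCommGroup F] [InnerProductSpace ℂ F]
  (S2 : Setup d2 F) (Z : Submodule ℂ (Lp F 2 (volume : Measure (Cfg d1))))
  (hZ : ∀ α A, ∀ Ψ ∈ Z, Setup.pwa d1 (S2.th α A) Ψ ∈ Z)

/-- the module generated by `k` -/
noncomputable def q216_W (k : Z) : Submodule ℂ Z :=
  ((Subalgebra.toSubmodule (q216_alg S2)).map
    (q216_ev (k : Lp F 2 (volume : Measure (Cfg d1))))).comap Z.subtype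

theorem q216_W_fin (hF : FiniteDimensional ℂ F) (k : Z) : FiniteDimensional ℂ (q216_W S2 Z k) := by
  have : FiniteDimensional ℂ ((Subalgebra.toSubmodule (q216_alg S2)).map
    (q216_ev (k : Lp F 2 (volume : Measure (Cfg d1))))) := inferInstance
  have h1 : (q216_W S2 Z k).map Z.subtype ≤ (Subalgebra.toSubmodule (q216_alg S2)).map
    (q216_ev (k : Lp F 2 (volume : Measure (Cfg d1)))) := Submodule.map_comap_le _ _
  have : FiniteDimensional ℂ ((q216_W S2 Z k).map Z.subtype) :=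
    Submodule.finiteDimensional_of_le h1
  exact (Submodule.equivMapOfInjective Z.subtype Z.injective_subtype
    (q216_W S2 Z k)).symm.finiteDimensional

theorem q216_W_mem (k : Z) : k ∈ q216_W S2 Z k := by
  refine ⟨1, (q216_alg S2).one_mem, ?_⟩
  exact q216_pwa_one _

theorem q216_W_inv (k : Z) (α : Fin 16) (A : Fin d2) (v : Z) (hv : v ∈ q216_W S2 Z k) :
    (S2.lft Z hZ).th α A v ∈ q216_W S2 Z k := by
  obtain ⟨T, hT, hTv⟩ := hv
  refine ⟨S2.th α A * T, (q216_alg S2).mul_mem (Algebra.subset_adjoin ⟨α, A, rfl⟩) hT, ?_⟩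
  have h1 : Setup.pwa d1 T (k : Lp F 2 (volume : Measure (Cfg d1))) = v := hTv
  have h2 : Setup.pwa d1 (S2.th α A * T) (k : Lp F 2 (volume : Measure (Cfg d1)))
      = Setup.pwa d1 (S2.th α A) (v : Lp F 2 (volume : Measure (Cfg d1))) := by
    rw [q216_pwa_mul, h1]
  exact h2

theorem q216_W_le (k : Z) (W : Submodule ℂ Z)
    (hW : ∀ α A, ∀ v ∈ W, (S2.lft Z hZ).th α A v ∈ W) (hk : k ∈ W) : q216_W S2 Z k ≤ W := by
  rintro v ⟨T, hT, hTv⟩
  have key : ∀ T ∈ q216_alg S2, ∀ w ∈ W, ∃ w' ∈ W,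
      (w' : Lp F 2 (volume : Measure (Cfg d1))) = Setup.pwa d1 T w := by
    intro T hT
    induction hT using Algebra.adjoin_induction with
    | mem T hT =>
      obtain ⟨α, A, rfl⟩ := hT
      intro w hw
      exact ⟨(S2.lft Z hZ).th α A w, hW α A w hw, rfl⟩
    | algebraMap c =>
      intro w hw
      refine ⟨c • w, W.smul_mem _ hw, ?_⟩
      rw [Algebra.algebraMap_eq_smul_one]
      have : Setup.pwa d1 (c • (1 : F →L[ℂ] F)) (w : Lp F 2 (volume : Measure (Cfg d1)))
          = c • Setup.pwa d1 (1 : F →L[ℂ] F) (w : Lp F 2 (volume : Measure (Cfg d1))) :=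
        (q216_ev (w : Lp F 2 (volume : Measure (Cfg d1)))).map_smul c 1
      rw [this, q216_pwa_one]
      rfl
    | add T T' _ _ h h' =>
      intro w hw
      obtain ⟨u, hu, hu'⟩ := h w hw
      obtain ⟨u', hu'', hu3⟩ := h' w hw
      refine ⟨u + u', W.add_mem hu hu'', ?_⟩
      have : Setup.pwa d1 (T + T') (w : Lp F 2 (volume : Measure (Cfg d1)))
          = Setup.pwa d1 T (w : Lp F 2 (volume : Measure (Cfg d1)))
            + Setup.pwa d1 T' (w : Lp F 2 (volume : Measure (Cfg d1))) :=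
        (q216_ev (w : Lp F 2 (volume : Measure (Cfg d1)))).map_add T T'
      rw [this, ← hu', ← hu3]
      rfl
    | mul T T' _ _ h h' =>
      intro w hw
      obtain ⟨u, hu, hu'⟩ := h' w hw
      obtain ⟨u', hu'', hu3⟩ := h u hu
      refine ⟨u', hu'', ?_⟩
      rw [hu3, hu', q216_pwa_mul]
  obtain ⟨w', hw', hw''⟩ := key T hT k hk
  have : w' = v := by
    apply Subtype.ext
    rw [hw'']
    exact hTv
  rwa [← this]

/-- irreducibility from a unique vacuum vector -/
theorem q216_irr (hvex : ∀ (d : ℕ) (E : Type u) [NormedAddCommGroup E] [InnerProductSpace ℂ E]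
      (S : Setup d E), VexStmt S) (hF : FiniteDimensional ℂ F) (k : Z) (hk0 : k ≠ 0)
    (hk : ∀ w : Z, (∀ A α, (S2.lft Z hZ).amF A α w = 0) → ∃ c : ℂ, w = c • k) :
    FiniteDimensional ℂ Z ∧ (S2.lft Z hZ).Irr := by
  have := q216_W_fin S2 Z hF k
  have w3 : q216_W S2 Z k = ⊤ := q216_top hvex (S2.lft Z hZ) k hk0 hk (q216_W S2 Z k)
    (fun α A v hv => q216_W_inv S2 Z hZ k α A v hv) (q216_W_mem S2 Z k)
  constructor
  · have h1 : FiniteDimensional ℂ (⊤ : Submodule ℂ Z) := by rw [← w3]; infer_instance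
    exact (Submodule.topEquiv (R := ℂ) (M := Z)).finiteDimensional
  · intro W hW
    by_cases hne : W = ⊥
    · exact Or.inl hne
    · right
      have h1 : k ∈ W := q216_mem hvex (S2.lft Z hZ) k hk W hW hne
      have h2 := q216_W_le S2 Z hZ k W hW h1
      rw [w3] at h2
      exact eq_top_iff.2 h2

end mod

theorem zirr_stmt {d1 d2 : ℕ} {F : Type u} [NormedAddCommGroup F] [InnerProductSpace ℂ F]
    (S1 : Setup d1 F) (S2 : Setup d2 F) (hzms : ZmsStmt S1) (hrst : RstStmt S1)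
    (hvex : ∀ (d : ℕ) (E : Type u) [NormedAddCommGroup E] [InnerProductSpace ℂ E]
      (S : Setup d E), VexStmt S) (hzvc : ZvcStmt S1 S2) : ZirrStmt S1 S2 := by
  intro hF hAnt K0 hK0 hV hone hZ
  obtain ⟨Φ₀, a4, a6, a7⟩ := q216_line S1 hzms hrst hF _ hV hone
  have hVK : vca S2 K0 ≤ K0 := fun v hv => hv.1
  have a5 : Φ₀ ∈ S1.zms K0 := by
    obtain ⟨b1, b2⟩ := (hzms _ Φ₀).1 a4
    exact (hzms K0 Φ₀).2 ⟨b1, by filter_upwards [b2] with x hx using hVK hx⟩
  have n0 : (‖Φ₀‖ : ℂ) ≠ 0 := by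
    rw [Ne, Complex.ofReal_eq_zero, norm_eq_zero]
    exact a6
  obtain ⟨k, hk⟩ : ∃ k : S1.zms K0, k = ((‖Φ₀‖ : ℂ)⁻¹) • (⟨Φ₀, a5⟩ : S1.zms K0) := ⟨_, rfl⟩
  have hkc : (k : Lp F 2 (volume : Measure (Cfg d1))) = ((‖Φ₀‖ : ℂ)⁻¹) • Φ₀ := by
    rw [hk]; rfl
  have k1 : ‖k‖ = 1 := by
    rw [Submodule.coe_norm, hkc, norm_smul, norm_inv, Complex.norm_real, norm_norm,
      inv_mul_cancel₀]
    rw [Ne, norm_eq_zero]
    exact a6
  have k0 : k ≠ 0 := by
    intro h
    rw [h, norm_zero] at k1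
    exact zero_ne_one k1
  have k2 : ∀ A α, (S2.lft (S1.zms K0) hZ).amF A α k = 0 := by
    refine (hzvc hzms K0 hZ k).2 ?_
    rw [hkc]
    exact (S1.zms (vca S2 K0)).smul_mem _ a4
  have k3 : ∀ w : S1.zms K0, (∀ A α, (S2.lft (S1.zms K0) hZ).amF A α w = 0) →
      ∃ c : ℂ, w = c • k := by
    intro w hw
    obtain ⟨c, hc⟩ := a7 _ ((hzvc hzms K0 hZ w).1 hw)
    refine ⟨c * ‖Φ₀‖, Subtype.ext ?_⟩
    rw [Submodule.coe_smul, hkc, smul_smul, mul_assoc, mul_inv_cancel₀ n0, mul_one]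
    exact hc
  obtain ⟨f1, f2⟩ := q216_irr S2 (S1.zms K0) hZ hvex hF k k0 k3
  exact ⟨f1, f2, k, k1, k2, k3⟩

end Vale.Agent.P353.Z.AX2
end

section

/-! # P353, all `N`, block X2: X2-Main (zero modes with values in a module) -/

open MeasureTheory Filter Topology Matrix
open scoped ContDiff

namespace Vale.Agent.P353.Z.AX2

universe u

section

variable {d dh dm ds dz : ℕ} {F : Type u} [NormedAddCommGroup F] [InnerProductSpace ℂ F] {S : Setup d F} {φ : Spl dh dm d}
  {ψ : Spl ds dz dh} {z₀ : Cfg dz}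

lemma x2m_ss_th (h : AD.Std2 S φ ψ z₀) (α : Fin 16) (A : Fin ds) :
    h.ss.th α A = S.th α (φ (Sum.inl (ψ (Sum.inl A)))) := rfl

lemma x2m_cz_th (h : AD.Std2 S φ ψ z₀) (α : Fin 16) (A : Fin dz) :
    (czs h).th α A = S.th α (φ (Sum.inl (ψ (Sum.inr A)))) := rfl

lemma x2m_ant (h : AD.Std2 S φ ψ z₀) : Ant h.ss (czs h) := by
  refine ⟨rfl, ?_⟩
  intro α A β B
  rw [x2m_ss_th, x2m_cz_th, S.th_anti, if_neg]
  rintro ⟨-, h2⟩
  have h3 := ψ.injective (Sum.inl_injective (φ.injective h2))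
  exact Sum.inl_ne_inr h3

lemma x2m_irr2 (h : AD.Std2 S φ ψ z₀) (hI : S.Irr) (hne : ∃ v : F, v ≠ 0) {L : Finset (Fin dz → ℝ)}
    {Om : Cfg dz → Matrix (Fin dm) (Fin dm) ℝ} {K : Submodule ℂ F} {U : Cfg dz → F →L[ℂ] F}
    (hB : AX.Bun S φ (AX.Mz S φ ψ) L Om K U) : IrrOn2 h.ss (czs h) K where
  inv1 := fun α A v hv => hB.K_th α _ v hv
  inv2 := fun α A v hv => hB.K_th α _ v hv
  ne := by
    obtain ⟨v, hv, hv0⟩ := hB.K_ne hne
    intro hK
    rw [hK] at hv
    exact hv0 ((Submodule.mem_bot ℂ).1 hv)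
  irr := by
    intro W hW h1 h2
    refine hB.K_irr hI W hW ?_
    intro α A v hv
    obtain ⟨p, rfl⟩ := ψ.surjective A
    rcases p with a | a
    · exact h1 α a v hv
    · exact h2 α a v hv

end

lemma x2m_rst_irr {d : ℕ} {F : Type u} [NormedAddCommGroup F] [InnerProductSpace ℂ F] (S : Setup d F) (V : Submodule ℂ F)
    (hV : ∀ α A, ∀ v ∈ V, S.th α A v ∈ V) (h : IrrOn S V) : (S.rst V hV).Irr := by
  intro W hW
  have h1 := h.irr (W.map V.subtype) (Submodule.map_subtype_le V W) ?_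
  · rcases h1 with h1 | h1
    · left
      apply Submodule.map_injective_of_injective V.injective_subtype
      rw [h1, Submodule.map_bot]
    · right
      apply Submodule.map_injective_of_injective V.injective_subtype
      rw [h1, Submodule.map_subtype_top]
  · rintro α A v ⟨w, hw, rfl⟩
    exact ⟨(S.rst V hV).th α A w, hW α A w hw, rfl⟩

/-- **X2-Main** -/
theorem x2_stmt
    (hVI : ∀ {d1 d2 : ℕ} {F : Type u} [NormedAddCommGroup F] [InnerProductSpace ℂ F] (S1 : Setup d1 F) (S2 : Setup d2 F),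
      VcaIrrStmt S1 S2)
    (hZI : ∀ {d1 d2 : ℕ} {F : Type u} [NormedAddCommGroup F] [InnerProductSpace ℂ F] (S1 : Setup d1 F) (S2 : Setup d2 F),
      ZInvStmt S1 S2)
    (hZr : ∀ {d1 d2 : ℕ} {F : Type u} [NormedAddCommGroup F] [InnerProductSpace ℂ F] (S1 : Setup d1 F) (S2 : Setup d2 F),
      ZirrStmt S1 S2) : X2Stmt.{u} := by
  intro d dh dm ds dz F _ _ hfd S φ ψ z₀ h hI hne L Om K U hB hOne
  have hA := x2m_ant h
  have hI2 := x2m_irr2 h hI hne hB
  obtain ⟨hV, ζ, hζ, hζ1, -, -⟩ := hVI h.ss (czs h) hfd hA K hI2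
  have hZ := hZI h.ss (czs h) hA K hI2.inv2
  have h1 : OneD (h.ss.rst (vca (czs h) K) hV.inv) := by
    refine hOne (vca (czs h) K) inferInstance (h.ss.rst (vca (czs h) K) hV.inv) rfl rfl (x2m_rst_irr _ _ _ hV) ⟨⟨ζ, hζ⟩, ?_⟩
    intro h0
    have h2 : ζ = 0 := congrArg Subtype.val h0
    rw [h2, norm_zero] at hζ1
    exact zero_ne_one hζ1
  exact ⟨hZ, hZr h.ss (czs h) hfd hA K hI2 hV.inv h1 hZ⟩

end Vale.Agent.P353.Z.AX2
end

section

/-! # P353, all `N`, block X2: every irreducible module over `su(n)` carries a model (helper497) -/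

set_option linter.all false

open MeasureTheory Filter Topology Matrix
open scoped ContDiff

namespace Vale.Agent.P353.Z.AX2

universe u

section ModT

variable {n d : ℕ} {T : Fin d → Matrix (Fin n) (Fin n) ℂ} {f : Fin d → Fin d → Fin d → ℝ}

/-- completeness of the basis `T_A`, `1` -/
theorem mod_complete (h : Bas n d T f) (hN : 0 < n) (X : Matrix (Fin n) (Fin n) ℂ) :
    X = ∑ A, (T A * X).trace • T A + (X.trace / n) • (1 : Matrix (Fin n) (Fin n) ℂ) := by
  have hN' : (n : ℂ) ≠ 0 := by exact_mod_cast hN.ne'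
  let Λ : Matrix (Fin n) (Fin n) ℂ →ₗ[ℂ] (Fin d → ℂ) × ℂ :=
    { toFun := fun X => (fun A => (T A * X).trace, X.trace)
      map_add' := fun X Y => by
        ext <;> simp [mul_add, Matrix.trace_add]
      map_smul' := fun c X => by
        ext <;> simp [Matrix.trace_smul] }
  have hval : ∀ (c : Fin d → ℂ) (s : ℂ), Λ (∑ A, c A • T A +
      (s / n) • (1 : Matrix (Fin n) (Fin n) ℂ)) = (c, s) := by
    intro c s
    apply Prod.ext
    · funext B
      show (T B * (∑ A, c A • T A + (s / n) • (1 : Matrix (Fin n) (Fin n) ℂ))).trace = c B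
      rw [mul_add, Matrix.mul_sum, Matrix.trace_add, Matrix.trace_sum, Finset.sum_eq_single B]
      · rw [Matrix.mul_smul, Matrix.trace_smul, h.ortho, if_pos rfl, Matrix.mul_smul,
          mul_one, Matrix.trace_smul, h.tr0]
        simp
      · intro A _ hA
        rw [Matrix.mul_smul, Matrix.trace_smul, h.ortho, if_neg (Ne.symm hA), smul_zero]
      · simp
    · show (∑ A, c A • T A + (s / n) • (1 : Matrix (Fin n) (Fin n) ℂ)).trace = s
      rw [Matrix.trace_add, Matrix.trace_sum, Finset.sum_eq_zero (fun A _ => by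
        rw [Matrix.trace_smul, h.tr0, smul_zero]), Matrix.trace_smul, Matrix.trace_one]
      simp [hN']
  have hsurj : Function.Surjective Λ := fun y => ⟨_, hval y.1 y.2⟩
  have hrank : Module.finrank ℂ (Matrix (Fin n) (Fin n) ℂ) =
      Module.finrank ℂ ((Fin d → ℂ) × ℂ) := by
    rw [Module.finrank_matrix, Module.finrank_prod, Module.finrank_pi, Module.finrank_self,
      Fintype.card_fin, Fintype.card_fin, h.dim_eq, mul_one]
    have : 1 ≤ n ^ 2 := Nat.one_le_pow _ _ hN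
    have h2 : n ^ 2 = n * n := sq n
    omega
  have hinj : Function.Injective Λ :=
    (LinearMap.injective_iff_surjective_of_finrank_eq_finrank hrank).2 hsurj
  apply hinj
  rw [hval]
  rfl

/-- the coefficients of the adjoint action are real traces -/
theorem mod_real (h : Bas n d T f) (U : BFSS.SU n) (B A : Fin d) :
    (T B * (U.val * T A * U.val.conjTranspose)).trace = ((BFSS.adCoeff T U B A : ℝ) : ℂ) := by
  unfold BFSS.adCoeff
  symm
  rw [← Complex.conj_eq_iff_re]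
  have h1 : (T B * (U.val * T A * U.val.conjTranspose)).conjTranspose.trace =
      star (T B * (U.val * T A * U.val.conjTranspose)).trace :=
    Matrix.trace_conjTranspose _
  rw [Matrix.conjTranspose_mul, Matrix.conjTranspose_mul, Matrix.conjTranspose_mul,
    Matrix.conjTranspose_conjTranspose, h.herm, h.herm, ← Matrix.mul_assoc U.val,
    Matrix.trace_mul_comm] at h1
  exact h1.symm

theorem mod_unit (V : BFSS.SU n) : V.val.conjTranspose * V.val = 1 :=
  (Unitary.mem_iff.1 (Matrix.mem_specialUnitaryGroup_iff.1 V.2).1).1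

/-- `V T_A V* = ∑ ad(V)_{CA} T_C` -/
theorem mod_conj (h : Bas n d T f) (hN : 0 < n) (V : BFSS.SU n) (A : Fin d) :
    V.val * T A * V.val.conjTranspose = ∑ C, ((BFSS.adCoeff T V C A : ℝ) : ℂ) • T C := by
  have h1 := mod_complete h hN (V.val * T A * V.val.conjTranspose)
  have ht : (V.val * T A * V.val.conjTranspose).trace = 0 := by
    rw [Matrix.trace_mul_comm, ← Matrix.mul_assoc, mod_unit, one_mul, h.tr0]
  rw [ht, zero_div, zero_smul, add_zero] at h1
  rw [h1]
  refine Finset.sum_congr rfl fun C _ => ?_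
  rw [mod_real h]

/-- the adjoint representation is multiplicative -/
theorem mod_ad_mul (h : Bas n d T f) (U V : BFSS.SU n) (B A : Fin d) :
    BFSS.adCoeff T (U * V) B A = ∑ C, BFSS.adCoeff T U B C * BFSS.adCoeff T V C A := by
  rcases Nat.eq_zero_or_pos n with hN | hN
  · have hd : d = 0 := by rw [h.dim_eq, hN]; rfl
    subst hd
    exact B.elim0
  · have h1 : (U * V).val * T A * (U * V).val.conjTranspose =
        ∑ C, ((BFSS.adCoeff T V C A : ℝ) : ℂ) • (U.val * T C * U.val.conjTranspose) := by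
      have e : (U * V).val * T A * (U * V).val.conjTranspose =
          U.val * (V.val * T A * V.val.conjTranspose) * U.val.conjTranspose := by
        show U.val * V.val * T A * (U.val * V.val).conjTranspose = _
        rw [Matrix.conjTranspose_mul]
        simp only [Matrix.mul_assoc]
      rw [e, mod_conj h hN V A, Finset.mul_sum, Finset.sum_mul]
      refine Finset.sum_congr rfl fun C _ => ?_
      rw [Matrix.mul_smul, Matrix.smul_mul]
    have h2 : ((BFSS.adCoeff T (U * V) B A : ℝ) : ℂ) =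
        ((∑ C, BFSS.adCoeff T U B C * BFSS.adCoeff T V C A : ℝ) : ℂ) := by
      rw [← mod_real h (U * V) B A, h1, Finset.mul_sum, Matrix.trace_sum]
      push_cast
      refine Finset.sum_congr rfl fun C _ => ?_
      rw [Matrix.mul_smul, Matrix.trace_smul, mod_real h, smul_eq_mul, mul_comm]
    exact_mod_cast h2

/-- the adjoint matrix -/
noncomputable def modO (T : Fin d → Matrix (Fin n) (Fin n) ℂ) (U : BFSS.SU n) : Matrix (Fin d) (Fin d) ℝ :=
  Matrix.of fun B A => BFSS.adCoeff T U B A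

theorem modO_mul (h : Bas n d T f) (U V : BFSS.SU n) : modO T (U * V) = modO T U * modO T V := by
  ext B A
  rw [Matrix.mul_apply]
  exact mod_ad_mul h U V B A

theorem modO_one (h : Bas n d T f) : modO T (1 : BFSS.SU n) = 1 := by
  ext B A
  have h1 : modO T (1 : BFSS.SU n) B A = (T B * T A).trace.re := by
    show (T B * ((1 : BFSS.SU n).val * T A * (1 : BFSS.SU n).val.conjTranspose)).trace.re = _
    have : (1 : BFSS.SU n).val = 1 := rfl
    rw [this, one_mul, Matrix.conjTranspose_one, mul_one]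
  rw [h1, h.ortho, Matrix.one_apply]
  split_ifs <;> simp

theorem modO_inv (U : BFSS.SU n) : modO T U⁻¹ = (modO T U)ᵀ := by
  ext B A
  show (T B * ((U⁻¹).val * T A * (U⁻¹).val.conjTranspose)).trace.re =
    (T A * (U.val * T B * U.val.conjTranspose)).trace.re
  have e : (U⁻¹).val = U.val.conjTranspose := rfl
  rw [e, Matrix.conjTranspose_conjTranspose]
  congr 1
  rw [← Matrix.mul_assoc, ← Matrix.mul_assoc, Matrix.trace_mul_comm, ← Matrix.mul_assoc, ← Matrix.mul_assoc,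
    Matrix.trace_mul_comm (T A)]

theorem modO_orth (h : Bas n d T f) (U : BFSS.SU n) : modO T U * (modO T U)ᵀ = 1 := by
  rw [← modO_inv, ← modO_mul h, mul_inv_cancel, modO_one h]

theorem modO_cont : Continuous fun U : BFSS.SU n => modO T U := by
  refine continuous_matrix fun B A => ?_
  show Continuous fun U : BFSS.SU n => BFSS.adCoeff T U B A
  unfold BFSS.adCoeff
  refine Complex.continuous_re.comp (Continuous.matrix_trace ?_)
  have hv : Continuous fun U : BFSS.SU n => U.val := continuous_subtype_val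
  exact continuous_const.mul ((hv.mul continuous_const).mul hv.star)

end ModT

section ModS

variable {d : ℕ} {F : Type u} [NormedAddCommGroup F] [InnerProductSpace ℂ F]

/-- `Imp` on vectors -/
theorem mod_imp {S : Setup d F} {O : Matrix (Fin d) (Fin d) ℝ} {G : F →L[ℂ] F} (hG : Imp S O G) (α : Fin 16) (A : Fin d)
    (v : F) : G (S.th α A v) = ∑ B, ((O B A : ℝ) : ℂ) • S.th α B (G v) := by
  have h := congrArg (fun T : F →L[ℂ] F => T v) (hG.imp α A)
  simpa only [_root_.mul_apply_eq_comp, _root_.sum_apply, _root_.smul_apply] using h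

/-- the implementers compose -/
theorem mod_comp {S : Setup d F} {O P : Matrix (Fin d) (Fin d) ℝ} {G H : F →L[ℂ] F} (hG : Imp S O G) (hH : Imp S P H) :
    Imp S (O * P) (G * H) := by
  refine ⟨?_, ?_, ?_, ?_⟩
  · rw [Matrix.transpose_mul, Matrix.mul_assoc, ← Matrix.mul_assoc P, hH.orth, Matrix.one_mul, hG.orth]
  · intro α A
    ext v
    simp only [_root_.mul_apply_eq_comp, _root_.sum_apply, _root_.smul_apply]
    rw [mod_imp hH, map_sum]
    have h1 : ∀ B, G (((P B A : ℝ) : ℂ) • S.th α B (H v)) =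
        ∑ C, (((O C B : ℝ) : ℂ) * ((P B A : ℝ) : ℂ)) • S.th α C (G (H v)) := by
      intro B
      rw [map_smul, mod_imp hG, Finset.smul_sum]
      refine Finset.sum_congr rfl fun C _ => ?_
      rw [smul_smul, mul_comm]
    rw [Finset.sum_congr rfl fun B _ => h1 B, Finset.sum_comm]
    refine Finset.sum_congr rfl fun C _ => ?_
    rw [← Finset.sum_smul, Matrix.mul_apply]
    push_cast
    rfl
  · intro v
    show ‖G (H v)‖ = ‖v‖
    rw [hG.norm, hH.norm]
  · intro v hv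
    show G (H v) = v
    rw [hH.vac v hv, hG.vac v hv]

/-- real gamma matrices -/
noncomputable def modg (S : Setup d F) (i : Fin 9) : Matrix (Fin 16) (Fin 16) ℝ := Matrix.of fun α β => (S.g i α β).re

theorem modg_coe (S : Setup d F) (i : Fin 9) (α β : Fin 16) : S.g i α β = ((modg S i α β : ℝ) : ℂ) :=
  Complex.ext (by simp [modg]) (by simp [modg, S.g_real])

theorem modg_map (S : Setup d F) (i : Fin 9) : (modg S i).map (Complex.ofRealHom : ℝ →+* ℂ) = S.g i := by
  ext α β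
  rw [Matrix.map_apply]
  exact (modg_coe S i α β).symm

theorem modg_symm (S : Setup d F) (i : Fin 9) : (modg S i).transpose = modg S i := by
  ext α β
  have h := congrFun (congrFun (S.g_symm i) α) β
  rw [Matrix.transpose_apply] at h
  show (S.g i β α).re = (S.g i α β).re
  rw [h]

theorem modg_anti (S : Setup d F) (i j : Fin 9) :
    modg S i * modg S j + modg S j * modg S i = if i = j then 2 else 0 := by
  have hinj : Function.Injective fun X : Matrix (Fin 16) (Fin 16) ℝ =>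
      (Complex.ofRealHom : ℝ →+* ℂ).mapMatrix X := by
    intro X Y hXY
    ext α β
    have h := congrFun (congrFun hXY α) β
    exact Complex.ofReal_injective h
  apply hinj
  show (Complex.ofRealHom : ℝ →+* ℂ).mapMatrix (modg S i * modg S j + modg S j * modg S i) =
    (Complex.ofRealHom : ℝ →+* ℂ).mapMatrix (if i = j then 2 else 0)
  have e : ∀ k, (Complex.ofRealHom : ℝ →+* ℂ).mapMatrix (modg S k) = S.g k := fun k => modg_map S k
  rw [map_add, map_mul, map_mul, e, e, S.g_anti]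
  by_cases hij : i = j
  · rw [if_pos hij, if_pos hij, map_ofNat]
  · rw [if_neg hij, if_neg hij, map_zero]

/-- **X2-Mod** -/
theorem mod_stmt : (∀ (d : ℕ) (F : Type u) [NormedAddCommGroup F] [InnerProductSpace ℂ F] (S : Setup d F), SecStmt S) →
    ModStmt.{u} := by
  intro hSec n d E _ _ hfd T S hB hκ hirr hne
  obtain ⟨⟨G, hG, hc⟩, hu⟩ := hSec d E S hfd hirr hne
  have hI : ∀ U : BFSS.SU n, Imp S (modO T U) (G (modO T U)) := fun U => hG _ (modO_orth hB U)
  refine ⟨{ dim_eq := hB.dim_eq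
            T := T
            T_hermitian := hB.herm
            T_traceless := hB.tr0
            T_orthonormal := hB.ortho
            f := S.f
            T_comm := hB.comm
            γ := modg S
            γ_symm := modg_symm S
            γ_anticomm := modg_anti S
            θ := S.th
            θ_selfAdjoint := S.th_sa
            θ_anticomm := ?_
            θ_irreducible := hirr
            nontrivial := hne
            S := fun U => G (modO T U)
            S_mul := ?_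
            S_isometry := fun U v => (hI U).norm v
            S_continuous := fun v => (hc v).comp_continuous modO_cont fun U => modO_orth hB U
            S_rotates := fun U α A v => mod_imp (hI U) α A v }, ⟨hκ, rfl, fun i α β => modg_coe S i α β, rfl⟩, rfl⟩
  · intro α A β B v
    have h := congrArg (fun X : E →L[ℂ] E => X v) (S.th_anti α A β B)
    have h2 : (S.th α A * S.th β B + S.th β B * S.th α A) v = S.th α A (S.th β B v) + S.th β B (S.th α A v) := rfl
    have h3 : (S.th α A * S.th β B + S.th β B * S.th α A) v = (if α = β ∧ A = B then (1 : E →L[ℂ] E) else 0) v := h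
    rw [← h2, h3]
    by_cases hab : α = β ∧ A = B
    · rw [if_pos hab, if_pos hab]
      rfl
    · rw [if_neg hab, if_neg hab]
      rfl
  · intro U V v
    have h1 := mod_comp (hI U) (hI V)
    rw [← modO_mul hB] at h1
    have h2 := hu _ _ _ (hI (U * V)) h1
    show G (modO T (U * V)) v = G (modO T U) (G (modO T V) v)
    rw [h2]
    rfl

end ModS

end Vale.Agent.P353.Z.AX2
end

section

/-! # P353, all `N`, block B: the gap at the frozen point (`B-Gap`) -/

open MeasureTheory Filter Topology Matrix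
open scoped ContDiff

namespace Vale.Agent.P353.Z

variable {d dh dm : ℕ} {F : Type*} [NormedAddCommGroup F] [InnerProductSpace ℂ F]

theorem gapF_gauss (M : Wsp dm →L[ℝ] Wsp dm) {c : ℝ} (hc : 0 < c)
    (h : ∀ w, c * ‖w‖ ^ 2 ≤ inner ℝ w (M w)) :
    Integrable (fun w : Wsp dm => Real.exp (-(1 / 2) * inner ℝ w (M w)) ^ 2) := by
  have h0 : 0 < ((c : ℂ)).re := by simpa using hc
  have h1 := (GaussianFourier.integrable_cexp_neg_mul_sq_norm_add (V := Wsp dm) h0 0 0).norm
  have h2 : Integrable (fun w : Wsp dm => Real.exp (-c * ‖w‖ ^ 2)) := by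
    refine h1.congr (Eventually.of_forall fun w => ?_)
    simp only [Complex.norm_exp]
    congr 1
    simp only [zero_mul, add_zero]
    rw [show (-(c : ℂ) * (‖w‖ : ℂ) ^ 2) = ((-c * ‖w‖ ^ 2 : ℝ) : ℂ) by push_cast; ring,
      Complex.ofReal_re]
  refine h2.mono' ?_ (Eventually.of_forall fun w => ?_)
  · have : Continuous (fun w : Wsp dm => Real.exp (-(1 / 2) * inner ℝ w (M w)) ^ 2) := by
      fun_prop
    exact this.aestronglyMeasurable
  · rw [Real.norm_eq_abs, abs_of_nonneg (by positivity), ← Real.exp_nat_mul]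
    apply Real.exp_le_exp.2
    have := h w
    push_cast
    linarith

theorem gapF_intf {f : Wsp dm → F} (hf : FT f) {E : Type*} [NormedAddCommGroup E]
    {φ : F → E} (hφ : Continuous φ) (h0 : φ 0 = 0) :
    Integrable (fun w => φ (f w)) :=
  (hφ.comp hf.1.continuous).integrable_of_hasCompactSupport (hf.2.comp_left h0)

theorem gapF_int2 (M : Wsp dm →L[ℝ] Wsp dm) {c : ℝ} (hc : 0 < c)
    (h : ∀ w, c * ‖w‖ ^ 2 ≤ inner ℝ w (M w)) {f : Wsp dm → F} (hf : FT f) (Z : ℝ) (v : F) :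
    Integrable (fun w : Wsp dm =>
      ‖f w - ((Real.exp (-(1 / 2) * inner ℝ w (M w)) / Z : ℝ) : ℂ) • v‖ ^ 2) := by
  have h1 : Integrable (fun w => ‖f w‖ ^ 2) :=
    gapF_intf hf (φ := fun x => ‖x‖ ^ 2) (by fun_prop) (by simp)
  have h2 := (gapF_gauss M hc h).mul_const ((1 / Z) ^ 2 * ‖v‖ ^ 2)
  refine ((h1.add h2).const_mul 2).mono' ?_ (Eventually.of_forall fun w => ?_)
  · have hcf := hf.1.continuous
    have : Continuous (fun w : Wsp dm =>
        ‖f w - ((Real.exp (-(1 / 2) * inner ℝ w (M w)) / Z : ℝ) : ℂ) • v‖ ^ 2) := by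
      have h3 : Continuous (fun w : Wsp dm =>
          ((Real.exp (-(1 / 2) * inner ℝ w (M w)) / Z : ℝ) : ℂ)) := by
        fun_prop
      exact ((hcf.sub (h3.smul continuous_const)).norm).pow 2
    exact this.aestronglyMeasurable
  · rw [Real.norm_eq_abs, abs_of_nonneg (by positivity)]
    have h3 : ‖f w - ((Real.exp (-(1 / 2) * inner ℝ w (M w)) / Z : ℝ) : ℂ) • v‖ ≤
        ‖f w‖ + ‖((Real.exp (-(1 / 2) * inner ℝ w (M w)) / Z : ℝ) : ℂ) • v‖ := norm_sub_le _ _
    have h4 : ‖((Real.exp (-(1 / 2) * inner ℝ w (M w)) / Z : ℝ) : ℂ) • v‖ ^ 2 =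
        Real.exp (-(1 / 2) * inner ℝ w (M w)) ^ 2 * ((1 / Z) ^ 2 * ‖v‖ ^ 2) := by
      rw [norm_smul, Complex.norm_real, mul_pow, Real.norm_eq_abs, sq_abs]
      ring
    simp only [Pi.add_apply]
    rw [← h4]
    nlinarith [norm_nonneg (f w - ((Real.exp (-(1 / 2) * inner ℝ w (M w)) / Z : ℝ) : ℂ) • v),
      sq_nonneg (‖f w‖ - ‖((Real.exp (-(1 / 2) * inner ℝ w (M w)) / Z : ℝ) : ℂ) • v‖),
      norm_nonneg (f w), norm_nonneg (((Real.exp (-(1 / 2) * inner ℝ w (M w)) / Z : ℝ) : ℂ) • v)]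

theorem gapF_split (K : Submodule ℂ F) [K.HasOrthogonalProjection] (a b : F) :
    ‖a - K.starProjection b‖ ^ 2 ≤ ‖a - K.starProjection a‖ ^ 2 + ‖a - b‖ ^ 2 := by
  have h1 : a - K.starProjection b = (a - K.starProjection a) + K.starProjection (a - b) := by
    rw [map_sub]
    abel
  have h2 : inner ℂ (a - K.starProjection a) (K.starProjection (a - b)) = (0 : ℂ) :=
    K.starProjection_inner_eq_zero _ _ (K.starProjection_apply_mem _)
  have h3 := norm_add_sq_eq_norm_sq_add_norm_sq_of_inner_eq_zero (𝕜 := ℂ)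
    (a - K.starProjection a) (K.starProjection (a - b)) h2
  have h4 := K.norm_starProjection_apply_le (a - b)
  have h5 := norm_nonneg (K.starProjection (a - b))
  rw [h1]
  nlinarith

theorem gapF (S : Setup d F) (φ : Spl dh dm d) (hQF : QFStmt) (hEn : EnFStmt S φ)
    (hLam : LamStmt S φ) (hPoi : PoiStmt dm F) : GapFStmt S φ := by
  intro hfd D Om hF hOm
  obtain ⟨M, hsym, hqf, hent, cM, hcM, hpos⟩ := hQF dm S.κ D Om S.κ_pos hF hOm
  obtain ⟨c1, hc1, hP⟩ := hPoi M hsym ⟨cM, hcM, hpos⟩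
  obtain ⟨c2, hc2, hL⟩ := hLam hfd D Om hF hOm
  refine ⟨min (c1 / 2) c2, lt_min (by linarith) hc2, fun f hf => ?_⟩
  set K := S.F0 φ D Om with hK
  set Z : ℝ := ∫ w' : Wsp dm, Real.exp (-(1 / 2) * inner ℝ w' (M w')) ^ 2 with hZ
  set v : F := ∫ w', ((Real.exp (-(1 / 2) * inner ℝ w' (M w')) : ℝ) : ℂ) • f w' with hv
  have hg : ∀ w : Wsp dm, gR D Om 1 w = Real.exp (-(1 / 2) * inner ℝ w (M w)) := by
    intro w
    unfold gR
    rw [hqf]
  have hPR : ∀ w, S.PR φ D Om 1 f w =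
      K.starProjection (((Real.exp (-(1 / 2) * inner ℝ w (M w)) / Z : ℝ) : ℂ) • v) := by
    intro w
    unfold Setup.PR
    simp only [hg]
    rw [map_smul]
  -- the two pieces
  have hI1 : Integrable (fun w => ‖f w - K.starProjection (f w)‖ ^ 2) :=
    gapF_intf hf (φ := fun x => ‖x - K.starProjection x‖ ^ 2) (by fun_prop) (by simp)
  have hI2 : Integrable (fun w : Wsp dm =>
      ‖f w - ((Real.exp (-(1 / 2) * inner ℝ w (M w)) / Z : ℝ) : ℂ) • v‖ ^ 2) :=
    gapF_int2 M hcM hpos hf Z v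
  have hA : nsf (fun w => f w - S.PR φ D Om 1 f w) ≤
      (∫ w, ‖f w - K.starProjection (f w)‖ ^ 2) +
        ∫ w : Wsp dm, ‖f w - ((Real.exp (-(1 / 2) * inner ℝ w (M w)) / Z : ℝ) : ℂ) • v‖ ^ 2 := by
    rw [← integral_add hI1 hI2]
    unfold nsf
    refine integral_mono_of_nonneg (Eventually.of_forall fun w => by positivity) (hI1.add hI2)
      (Eventually.of_forall fun w => ?_)
    simp only [hPR]
    exact gapF_split K _ _
  -- bosonic piece
  have hB : c1 * (∫ w : Wsp dm,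
      ‖f w - ((Real.exp (-(1 / 2) * inner ℝ w (M w)) / Z : ℝ) : ℂ) • v‖ ^ 2) ≤
      ∑ i, ∑ B, nsf (fun w => dd D i B f w + (((Om *ᵥ VV D w i) B : ℝ) : ℂ) • f w) := by
    refine (hP f hf).trans ?_
    rw [Fin.sum_univ_castSucc (fun i : Fin 9 =>
      ∑ B, nsf (fun w => dd D i B f w + (((Om *ᵥ VV D w i) B : ℝ) : ℂ) • f w))]
    have h1 : ∀ j : Fin 8, ∀ B : Fin dm,
        nsf (fun w => pf j B f w + ((M w (j, B) : ℝ) : ℂ) • f w) =
        nsf (fun w => dd D j.castSucc B f w +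
          (((Om *ᵥ VV D w j.castSucc) B : ℝ) : ℂ) • f w) := by
      intro j B
      congr 1
      funext w
      rw [hent]
      unfold dd
      rw [Fin.lastCases_castSucc]
    simp only [h1]
    have h2 : 0 ≤ ∑ B, nsf (fun w => dd D (Fin.last 8) B f w +
        (((Om *ᵥ VV D w (Fin.last 8)) B : ℝ) : ℂ) • f w) :=
      Finset.sum_nonneg fun B _ => integral_nonneg fun w => by positivity
    linarith
  -- fermionic piece
  have hC : c2 * (∫ w, ‖f w - K.starProjection (f w)‖ ^ 2) ≤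
      (∫ w, inner ℂ (f w) (S.NF φ D Om (f w))).re := by
    have hI3 : Integrable (fun w => (inner ℂ (f w) (S.NF φ D Om (f w)) : ℂ)) :=
      gapF_intf hf (φ := fun x => (inner ℂ x (S.NF φ D Om x) : ℂ)) (by fun_prop) (by simp)
    have h1 : (∫ w, inner ℂ (f w) (S.NF φ D Om (f w))).re =
        ∫ w, (inner ℂ (f w) (S.NF φ D Om (f w)) : ℂ).re := by
      have := integral_re hI3
      exact this.symm
    rw [h1, ← integral_const_mul]
    refine integral_mono (hI1.const_mul c2) hI3.re fun w => ?_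
    obtain ⟨v0, hv0, horth, hle⟩ := hL (f w)
    have h2 : K.starProjection (f w) = v0 := by
      refine Submodule.eq_starProjection_of_mem_of_inner_eq_zero hv0 fun u hu => ?_
      rw [← inner_conj_symm, horth u hu, map_zero]
    show c2 * ‖f w - K.starProjection (f w)‖ ^ 2 ≤ _
    rw [h2]
    exact hle
  rw [hEn D Om hF hOm f hf]
  have hn1 : 0 ≤ ∫ w, ‖f w - K.starProjection (f w)‖ ^ 2 :=
    integral_nonneg fun w => by positivity
  have hn2 : 0 ≤ ∫ w : Wsp dm,
      ‖f w - ((Real.exp (-(1 / 2) * inner ℝ w (M w)) / Z : ℝ) : ℂ) • v‖ ^ 2 :=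
    integral_nonneg fun w => by positivity
  have hm1 := min_le_left (c1 / 2) c2
  have hm2 := min_le_right (c1 / 2) c2
  have hm0 : 0 < min (c1 / 2) c2 := lt_min (by linarith) hc2
  have h5 := mul_le_mul_of_nonneg_left hA hm0.le
  have h6 := mul_le_mul_of_nonneg_right hm1 hn2
  have h7 := mul_le_mul_of_nonneg_right hm2 hn1
  rw [mul_add] at h5
  linarith

end Vale.Agent.P353.Z
end

section

/-! # P353, all `N`, block D: D6 Hardy inequality at infinity -/

open MeasureTheory Filter Topology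
open scoped ContDiff

namespace Vale.Agent.P353.Z.AD

variable {d : ℕ} {F : Type*} [NormedAddCommGroup F] [InnerProductSpace ℂ F]

namespace HInf

lemma isOpen_shl (s t : ℝ) : IsOpen (shl d s t) := by
  have h1 : IsOpen {x : Cfg d | s < ‖x‖} := isOpen_lt continuous_const continuous_norm
  have h2 : IsOpen {x : Cfg d | ‖x‖ < t} := isOpen_lt continuous_norm continuous_const
  exact h1.inter h2

lemma meas_dsh (j : ℤ) : MeasurableSet (dsh d j) := (isOpen_shl _ _).measurableSet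

lemma disj_dsh : Pairwise (Function.onFun Disjoint fun j : ℤ => dsh d j) := by
  have key : ∀ i j : ℤ, i < j → Disjoint (dsh d i) (dsh d j) := by
    intro i j hij
    rw [Set.disjoint_left]
    rintro x ⟨_, h1⟩ ⟨h2, _⟩
    have h3 : (2 : ℝ) ^ (i + 1) ≤ (2 : ℝ) ^ j := zpow_le_zpow_right₀ (by norm_num) (by omega)
    linarith
  intro i j hij
  rcases lt_or_gt_of_ne hij with h | h
  · exact key i j h
  · exact (key j i h).symm

lemma tst_int {G : Type*} [NormedAddCommGroup G] [InnerProductSpace ℂ G] {u : Cfg d → G}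
    (hu : Setup.Tst u) : Integrable (fun x => ‖u x‖ ^ 2) (volume : Measure (Cfg d)) := by
  have h1 : Continuous fun x => ‖u x‖ ^ 2 := by
    have := hu.1.continuous
    fun_prop
  apply h1.integrable_of_hasCompactSupport
  exact hu.2.comp_left (g := fun y : G => ‖y‖ ^ 2) (by simp)

/-- The union of the shells with `P`. -/
def US (d : ℕ) (P : ℤ → Prop) : Set (Cfg d) := ⋃ j : ℤ, {x | P j ∧ x ∈ dsh d j}

/-- Sums of shell integrals. -/
lemma hasSum_dsh {f : Cfg d → ℝ} (hf : Integrable f (volume : Measure (Cfg d))) (P : ℤ → Prop)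
    [DecidablePred P] :
    HasSum (fun j : ℤ => if P j then ∫ x in dsh d j, f x else 0) (∫ x in US d P, f x) := by
  have h0 : ∀ j : ℤ, {x | P j ∧ x ∈ dsh d j} = if P j then dsh d j else ∅ := by
    intro j
    split_ifs with h <;> simp [h]
  have h1 : ∀ j : ℤ, MeasurableSet {x | P j ∧ x ∈ dsh d j} := by
    intro j
    rw [h0]
    split_ifs
    · exact meas_dsh j
    · exact MeasurableSet.empty
  have h2 : Pairwise (Function.onFun Disjoint fun j : ℤ => {x | P j ∧ x ∈ dsh d j}) := by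
    intro i j hij
    have h3 := disj_dsh (d := d) hij
    exact h3.mono (fun x hx => hx.2) (fun x hx => hx.2)
  have h4 := hasSum_integral_iUnion h1 h2 (f := f) hf.integrableOn
  have h5 : (fun j : ℤ => if P j then ∫ x in dsh d j, f x else 0) =
      fun j : ℤ => ∫ x in {x | P j ∧ x ∈ dsh d j}, f x := by
    funext j
    rw [h0]
    split_ifs with h
    · rfl
    · simp
  rw [h5]
  exact h4

lemma summable_dsh {f : Cfg d → ℝ} (hf : Integrable f (volume : Measure (Cfg d))) :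
    Summable fun j : ℤ => ∫ x in dsh d j, f x := by
  have := (hasSum_dsh hf fun _ => True).summable
  simpa using this

lemma tsum_dsh_le {f : Cfg d → ℝ} (hf : Integrable f (volume : Measure (Cfg d)))
    (h0 : ∀ x, 0 ≤ f x) : ∑' j : ℤ, ∫ x in dsh d j, f x ≤ ∫ x, f x := by
  have h1 := (hasSum_dsh hf fun _ => True).tsum_eq
  simp only [if_true] at h1
  rw [h1]
  exact setIntegral_le_integral hf (Eventually.of_forall h0)

/-- The weights. -/
noncomputable def dwt (j : ℤ) : ℝ := (2 : ℝ) ^ (-(2 * max j 0))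

lemma dwt_pos (j : ℤ) : 0 < dwt j := by unfold dwt; positivity

lemma dwt_le_one (j : ℤ) : dwt j ≤ 1 := by
  unfold dwt
  apply zpow_le_one_of_nonpos₀ (by norm_num)
  have := le_max_right j 0
  omega

lemma dwt_mul (i k : ℤ) : dwt (i + k) ≤ (2 : ℝ) ^ (2 * |k|) * dwt i := by
  unfold dwt
  rw [← zpow_add₀ (by norm_num : (2 : ℝ) ≠ 0)]
  apply zpow_le_zpow_right₀ (by norm_num)
  have h1 := le_abs_self k
  have h2 := neg_abs_le k
  rcases le_total (i + k) 0 with h3 | h3 <;> rcases le_total i 0 with h4 | h4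
  · rw [max_eq_right h3, max_eq_right h4]; have := abs_nonneg k; omega
  · rw [max_eq_right h3, max_eq_left h4]; omega
  · rw [max_eq_left h3, max_eq_right h4]; omega
  · rw [max_eq_left h3, max_eq_left h4]; omega

lemma dwt_four (j : ℤ) : dwt j * (4 : ℝ) ^ j ≤ 1 := by
  have h4 : (4 : ℝ) ^ j = (2 : ℝ) ^ (2 * j) := by
    rw [zpow_mul]
    norm_num
  unfold dwt
  rw [h4, ← zpow_add₀ (by norm_num : (2 : ℝ) ≠ 0)]
  apply zpow_le_one_of_nonpos₀ (by norm_num)
  have := le_max_left j 0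
  omega

lemma inv_le_dwt {j : ℤ} {x : Cfg d} (hx : x ∈ dsh d j) : 1 / (1 + ‖x‖ ^ 2) ≤ dwt j := by
  have hn : 0 < 1 + ‖x‖ ^ 2 := by positivity
  rw [div_le_iff₀ hn]
  unfold dwt
  have h2 : (0 : ℝ) < (2 : ℝ) ^ (2 * max j 0) := by positivity
  rw [zpow_neg, ← div_eq_inv_mul, le_div_iff₀ h2, one_mul]
  rcases le_total j 0 with h | h
  · rw [max_eq_right h]
    have := sq_nonneg ‖x‖
    simp
  · rw [max_eq_left h]
    have h3 : (2 : ℝ) ^ j < ‖x‖ := hx.1
    have h4 : (2 : ℝ) ^ (2 * j) = ((2 : ℝ) ^ j) ^ 2 := by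
      rw [mul_comm, zpow_mul]
      norm_cast
    rw [h4]
    have h5 : (0 : ℝ) < (2 : ℝ) ^ j := by positivity
    nlinarith

/-- Outside of a ball the shells cover up to a null set. -/
lemma ae_cover (j₀ : ℤ) : ∀ᵐ x ∂(volume : Measure (Cfg d)), x ∉ Metric.ball (0 : Cfg d) ((2 : ℝ) ^ j₀) →
    x ∈ US d fun j => j₀ ≤ j := by
  have h1 : ∀ n : ℤ, ∀ᵐ x ∂(volume : Measure (Cfg d)), ‖x‖ ≠ (2 : ℝ) ^ n := by
    intro n
    have h2 : (volume : Measure (Cfg d)) (Metric.sphere 0 ((2 : ℝ) ^ n)) = 0 :=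
      Measure.addHaar_sphere_of_ne_zero _ _ (by positivity)
    rw [ae_iff]
    convert h2 using 2
    ext x
    simp
  rw [← ae_all_iff] at h1
  filter_upwards [h1] with x hx hxb
  rw [Metric.mem_ball, dist_zero_right, not_lt] at hxb
  have hpos : 0 < ‖x‖ := lt_of_lt_of_le (by positivity) hxb
  obtain ⟨n, hn1, hn2⟩ := exists_mem_Ico_zpow hpos (by norm_num : (1 : ℝ) < 2)
  refine Set.mem_iUnion.2 ⟨n, ?_, lt_of_le_of_ne hn1 (Ne.symm (hx n)), hn2⟩
  by_contra hcon
  have h3 : (2 : ℝ) ^ (n + 1) ≤ (2 : ℝ) ^ j₀ := zpow_le_zpow_right₀ (by norm_num) (by omega)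
  linarith

end HInf

open HInf in
/-- D6 -/
theorem hInf (S : Setup d F) : HInfStmt S := by
  classical
  intro hDy hDisc
  obtain ⟨j₀, C₀, hC₀, hdy⟩ := hDy (1 / 4) (by norm_num)
  refine ⟨(2 : ℝ) ^ (j₀ : ℤ), 2 + 6 * C₀, by positivity, by positivity, ?_⟩
  intro u hu
  have hui := tst_int hu.1
  have hQi : ∀ β, Integrable (fun x => ‖S.Q β u x‖ ^ 2) (volume : Measure (Cfg d)) := fun β =>
    tst_int (Setup.Tst.Q S hu.1 β)
  set M : ℤ → ℝ := fun j => mas u (dsh d j) with hM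
  set E : ℤ → ℝ := fun j => ena S u (dsh d j) with hE
  have hM0 : ∀ j, 0 ≤ M j := fun j => integral_nonneg fun x => by positivity
  have hE0 : ∀ j, 0 ≤ E j := fun j => Finset.sum_nonneg fun β _ =>
    integral_nonneg fun x => by positivity
  have hMs : Summable M := summable_dsh hui
  have hEs : Summable E := by
    have : E = fun j => ∑ β, ∫ x in dsh d j, ‖S.Q β u x‖ ^ 2 := rfl
    rw [this]
    exact summable_sum fun β _ => summable_dsh (hQi β)
  have hEle : ∑' j, E j ≤ En S u := by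
    have : ∑' j, E j = ∑ β, ∑' j, ∫ x in dsh d j, ‖S.Q β u x‖ ^ 2 :=
      Summable.tsum_finsetSum fun β _ => summable_dsh (hQi β)
    rw [this]
    unfold En nsq
    exact Finset.sum_le_sum fun β _ => tsum_dsh_le (hQi β) fun x => by positivity
  have hwM : Summable fun j => dwt j * M j :=
    Summable.of_nonneg_of_le (fun j => mul_nonneg (dwt_pos j).le (hM0 j))
      (fun j => mul_le_of_le_one_left (hM0 j) (dwt_le_one j)) hMs
  have hwe_le : ∀ j, dwt j * ((4 : ℝ) ^ j * E j) ≤ E j := by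
    intro j
    rw [← mul_assoc]
    exact mul_le_of_le_one_left (hE0 j) (dwt_four j)
  have hwe : Summable fun j => dwt j * ((4 : ℝ) ^ j * E j) :=
    Summable.of_nonneg_of_le (fun j => mul_nonneg (dwt_pos j).le
      (mul_nonneg (by positivity) (hE0 j))) hwe_le hEs
  have key := hDisc M (fun j => (4 : ℝ) ^ j * E j) dwt j₀ C₀ hC₀ hM0
    (fun j => mul_nonneg (by positivity) (hE0 j)) dwt_pos dwt_mul hwM hwe
    (fun j hj => hdy u hu j hj)
  set ρ : ℝ := (2 : ℝ) ^ (j₀ : ℤ) with hρ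
  -- inner part
  have hB : (∑' j : ℤ, if (j₀ : ℤ) ≤ j then 0 else dwt j * M j) ≤ mas u (Metric.ball 0 ρ) := by
    have h1 := hasSum_dsh hui fun j => ¬ ((j₀ : ℤ) ≤ j)
    have h2 : (∑' j : ℤ, if (j₀ : ℤ) ≤ j then 0 else dwt j * M j) ≤
        ∑' j : ℤ, if ¬ ((j₀ : ℤ) ≤ j) then ∫ x in dsh d j, ‖u x‖ ^ 2 else 0 := by
      refine Summable.tsum_le_tsum ?_ ?_ h1.summable
      · intro j
        by_cases hj : (j₀ : ℤ) ≤ j
        · simp [hj]
        · simp only [hj, if_false, not_false_eq_true, if_true]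
          exact mul_le_of_le_one_left (hM0 j) (dwt_le_one j)
      · refine Summable.of_nonneg_of_le ?_ ?_ hwM
        · intro j
          split_ifs
          · exact le_rfl
          · exact mul_nonneg (dwt_pos j).le (hM0 j)
        · intro j
          split_ifs
          · exact mul_nonneg (dwt_pos j).le (hM0 j)
          · exact le_rfl
    refine h2.trans ?_
    rw [h1.tsum_eq]
    unfold mas
    refine setIntegral_mono_set hui.integrableOn (Eventually.of_forall fun x => by positivity) ?_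
    refine (HasSubset.Subset.eventuallyLE ?_)
    intro x hx
    obtain ⟨j, hj, hxj⟩ := Set.mem_iUnion.1 hx
    rw [Metric.mem_ball, dist_zero_right]
    refine lt_of_lt_of_le hxj.2 ?_
    exact zpow_le_zpow_right₀ (by norm_num) (by omega)
  -- outer part
  have hgc : Continuous fun x : Cfg d => ‖u x‖ ^ 2 / (1 + ‖x‖ ^ 2) := by
    have := hu.1.1.continuous
    refine Continuous.div (by fun_prop) (by fun_prop) ?_
    intro x
    positivity
  have hgle : ∀ x : Cfg d, ‖u x‖ ^ 2 / (1 + ‖x‖ ^ 2) ≤ ‖u x‖ ^ 2 := by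
    intro x
    apply div_le_self (by positivity)
    have := sq_nonneg ‖x‖
    linarith
  have hg0 : ∀ x : Cfg d, 0 ≤ ‖u x‖ ^ 2 / (1 + ‖x‖ ^ 2) := fun x => by positivity
  have hgi : Integrable (fun x : Cfg d => ‖u x‖ ^ 2 / (1 + ‖x‖ ^ 2)) volume := by
    refine hui.mono' hgc.aestronglyMeasurable (Eventually.of_forall fun x => ?_)
    rw [Real.norm_of_nonneg (hg0 x)]
    exact hgle x
  have hOut : ∫ x in (Metric.ball (0 : Cfg d) ρ)ᶜ, ‖u x‖ ^ 2 / (1 + ‖x‖ ^ 2) ≤
      ∑' j : ℤ, if (j₀ : ℤ) ≤ j then dwt j * M j else 0 := by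
    have h1 := hasSum_dsh hgi fun j => (j₀ : ℤ) ≤ j
    have h2 : ∫ x in (Metric.ball (0 : Cfg d) ρ)ᶜ, ‖u x‖ ^ 2 / (1 + ‖x‖ ^ 2) ≤
        ∫ x in US d fun j => (j₀ : ℤ) ≤ j, ‖u x‖ ^ 2 / (1 + ‖x‖ ^ 2) := by
      refine setIntegral_mono_set hgi.integrableOn (Eventually.of_forall fun x => hg0 x) ?_
      filter_upwards [ae_cover (d := d) (j₀ : ℤ)] with x hx hxb
      exact hx hxb
    refine h2.trans ?_
    rw [← h1.tsum_eq]
    refine Summable.tsum_le_tsum ?_ h1.summable ?_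
    · intro j
      split_ifs
      · have h3 : ∫ x in dsh d j, ‖u x‖ ^ 2 / (1 + ‖x‖ ^ 2) ≤ ∫ x in dsh d j, dwt j * ‖u x‖ ^ 2 := by
          refine setIntegral_mono_on hgi.integrableOn (hui.const_mul _).integrableOn (meas_dsh j) ?_
          intro x hx
          rw [div_eq_mul_one_div, mul_comm]
          exact mul_le_mul_of_nonneg_right (inv_le_dwt hx) (by positivity)
        refine h3.trans ?_
        rw [integral_const_mul]
        exact le_rfl
      · exact le_rfl
    · refine Summable.of_nonneg_of_le ?_ ?_ hwM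
      · intro j
        split_ifs
        · exact mul_nonneg (dwt_pos j).le (hM0 j)
        · exact le_rfl
      · intro j
        split_ifs
        · exact le_rfl
        · exact mul_nonneg (dwt_pos j).le (hM0 j)
  have hIn : ∫ x in Metric.ball (0 : Cfg d) ρ, ‖u x‖ ^ 2 / (1 + ‖x‖ ^ 2) ≤
      mas u (Metric.ball 0 ρ) :=
    setIntegral_mono hgi.integrableOn hui.integrableOn hgle
  have hsum : ∑' j, dwt j * ((4 : ℝ) ^ j * E j) ≤ En S u :=
    (Summable.tsum_le_tsum hwe_le hwe hEs).trans hEle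
  have hsplit : wn u = (∫ x in Metric.ball (0 : Cfg d) ρ, ‖u x‖ ^ 2 / (1 + ‖x‖ ^ 2)) +
      ∫ x in (Metric.ball (0 : Cfg d) ρ)ᶜ, ‖u x‖ ^ 2 / (1 + ‖x‖ ^ 2) :=
    (integral_add_compl Metric.isOpen_ball.measurableSet hgi).symm
  have hm0 : 0 ≤ mas u (Metric.ball 0 ρ) := integral_nonneg fun x => by positivity
  have hEn0 : 0 ≤ En S u := Finset.sum_nonneg fun β _ => integral_nonneg fun x => by positivity
  rw [hsplit]
  have h6 : 6 * C₀ * ∑' j, dwt j * ((4 : ℝ) ^ j * E j) ≤ 6 * C₀ * En S u :=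
    mul_le_mul_of_nonneg_left hsum (by positivity)
  nlinarith [mul_nonneg hC₀ hm0, mul_nonneg hC₀ hEn0]

end Vale.Agent.P353.Z.AD
end

section

/-! # P353, all `N`, block D: local theorem, preparations -/

open MeasureTheory Filter Topology Matrix
open scoped ContDiff

namespace Vale.Agent.P353.Z.AD

variable {d dh dm ds dz : ℕ} {F : Type*} [NormedAddCommGroup F] [InnerProductSpace ℂ F]

/-! ### `Q1` on test functions -/

lemma lo_tloc (S : Setup d F) (φ : Spl dh dm d) (hA : AN.CalcA dh dm F) {Y : Cfg dh} {ε0 R : ℝ}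
    (hdet : ∀ y : Cfg dh, ‖y - R • Y‖ ≤ ε0 * R → (S.Dy φ 8 y).det ≠ 0)
    {c : Cfg dh → ℝ} (hc : ContDiffOn ℝ ∞ c (AN.Op687.UU S φ)) {v : Cfg dh → Wsp dm → F} (hv : Tst2 v)
    (hs : ∀ y w, v y w ≠ 0 → ‖y - R • Y‖ ≤ ε0 * R) : Tst2 (fun y w => ((c y : ℝ) : ℂ) • v y w) := by
  refine hA.mulOn c v {y | ‖y - R • Y‖ ≤ ε0 * R} (AN.Op687.UU S φ) ?_ (AN.Op687.isOpen_UU S φ) ?_ hc hs hv
  · exact isClosed_le (by fun_prop) continuous_const
  · intro y hy
    exact hdet y hy

lemma lo_tQ1 (S : Setup d F) (φ : Spl dh dm d) (hA : AN.CalcA dh dm F) {Y : Cfg dh} {ε0 R : ℝ}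
    (hdet : ∀ y : Cfg dh, ‖y - R • Y‖ ≤ ε0 * R → (S.Dy φ 8 y).det ≠ 0)
    (v : Cfg dh → Wsp dm → F) (hv : Tst2 v) (hs : Sup2 Y ε0 R v) (β : Fin 16) :
    Tst2 (S.Q1 φ β v) := by
  have h1 : Tst2 (fun y w => (-Complex.I) • (∑ j : Fin 8, ∑ B,
      S.vec (S.g j.castSucc) (φ (Sum.inr B)) β (pw j B v y w))) :=
    hA.smul _ _ (AN.Op687.t_sum hA _ _ fun j _ => AN.Op687.t_sum hA _ _ fun B _ => hA.clm _ _ (hA.pw j B v hv))
  have h2 : ∀ C : Fin dm, Tst2 (fun y w => ∑ j : Fin 8, ∑ E,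
      ((S.Dy φ j.castSucc y C E : ℝ) : ℂ) • pw j E v y w) := fun C =>
    AN.Op687.t_sum hA _ _ fun j _ => AN.Op687.t_sum hA _ _ fun E _ =>
      AN.Op687.t_mulc hA (fun y _ => S.Dy φ j.castSucc y C E) (AN.Op687.cd_Dy S φ _ C E) _ (hA.pw j E v hv)
  have h3 : ∀ (C : Fin dm) (y : Cfg dh) (w : Wsp dm), (∑ j : Fin 8, ∑ E,
      ((S.Dy φ j.castSucc y C E : ℝ) : ℂ) • pw j E v y w) ≠ 0 → ‖y - R • Y‖ ≤ ε0 * R := by
    intro C y w h
    by_contra hn
    obtain ⟨_, _, h0⟩ := AN.Op687.van hA hv hs (y := y) (w := w) fun h' => hn h'.1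
    apply h
    simp [h0]
  have h4 : Tst2 (fun y w => Complex.I • (∑ B, S.vec (S.g 8) (φ (Sum.inr B)) β
      (∑ C, (((S.Dy φ 8 y)⁻¹ B C : ℝ) : ℂ) • ∑ j : Fin 8, ∑ E,
        ((S.Dy φ j.castSucc y C E : ℝ) : ℂ) • pw j E v y w))) :=
    hA.smul _ _ (AN.Op687.t_sum hA _ _ fun B _ => hA.clm _ _ (AN.Op687.t_sum hA _ _ fun C _ =>
      lo_tloc S φ hA hdet (AN.Op687.cd_inv S φ B C) (h2 C) (h3 C)))
  have h5 : Tst2 (fun y w => (1 / 2 : ℂ) • ∑ B, ∑ i, ∑ j, ((S.FL φ B i j y w : ℝ) : ℂ) •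
      S.vec (S.g2 i j) (φ (Sum.inr B)) β (v y w)) :=
    hA.smul _ _ (AN.Op687.t_sum hA _ _ fun B _ => AN.Op687.t_sum hA _ _ fun i _ => AN.Op687.t_sum hA _ _ fun j _ =>
      AN.Op687.t_mulT hA (fun y w => S.FL φ B i j y w) (AN.Op687.cd_FL S φ B i j) _ v hv)
  exact hA.add _ _ (hA.add _ _ h1 h4) h5

/-! ### the boson density -/

lemma lo_wt_cont (i : Fin 9) (B : Fin dm) : Continuous fun w : Wsp dm => wt w i B := by
  unfold wt
  induction i using Fin.lastCases with
  | last =>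
    simp only [Fin.lastCases_last]
    exact continuous_const
  | cast j =>
    simp only [Fin.lastCases_castSucc]
    fun_prop

lemma lo_mulVec_cont {n m : ℕ} {X : Type*} [TopologicalSpace X] (A : Matrix (Fin n) (Fin m) ℝ) {f : X → Fin m → ℝ}
    (hf : ∀ j, Continuous fun x => f x j) (i : Fin n) : Continuous fun x => (A *ᵥ f x) i := by
  simp only [Matrix.mulVec, dotProduct]
  exact continuous_finsetSum _ fun j _ => continuous_const.mul (hf j)

lemma lo_gR_cont (D : Fin 9 → Matrix (Fin dm) (Fin dm) ℝ) (Om : Matrix (Fin dm) (Fin dm) ℝ) (R : ℝ) :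
    Continuous (gR D Om R : Wsp dm → ℝ) := by
  have h1 : ∀ B, Continuous fun w : Wsp dm => sV D w B := by
    intro B
    unfold sV
    refine lo_mulVec_cont _ (fun j => ?_) B
    simp only [Finset.sum_apply]
    exact continuous_finsetSum _ fun i _ => lo_mulVec_cont _ (fun j => lo_wt_cont i j) j
  have h2 : ∀ i B, Continuous fun w : Wsp dm => VV D w i B := by
    intro i B
    unfold VV
    simp only [Pi.sub_apply]
    exact (lo_wt_cont i B).sub (lo_mulVec_cont _ h1 B)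
  unfold gR qf
  refine Real.continuous_exp.comp (continuous_const.mul (continuous_finsetSum _ fun i _ => ?_))
  simp only [dotProduct]
  exact continuous_finsetSum _ fun B _ => (h2 i B).mul (lo_mulVec_cont _ (h2 i) B)

lemma lo_gn_cont (S : Setup d F) (φ : Spl dh dm d) (ψ : Spl ds dz dh) (yz : Cfg dz) :
    Continuous (gn S φ ψ yz) := by
  unfold gn
  exact (lo_gR_cont _ _ _).div_const _

lemma lo_gn (S : Setup d F) (φ : Spl dh dm d) (ψ : Spl ds dz dh) (yz : Cfg dz) :
    Integrable (fun w => gn S φ ψ yz w ^ 2) ∧ ∫ w, gn S φ ψ yz w ^ 2 ≤ 1 := by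
  set g : Wsp dm → ℝ := gR (Dz S φ ψ yz) (omc S.κ (Dz S φ ψ yz)) 1 with hg
  have h0 : 0 ≤ ∫ w, g w ^ 2 := integral_nonneg fun w => sq_nonneg _
  have h1 : (fun w => gn S φ ψ yz w ^ 2) = fun w => (∫ w', g w' ^ 2)⁻¹ * g w ^ 2 := by
    funext w
    unfold gn
    rw [div_pow, Real.sq_sqrt h0, div_eq_inv_mul]
  rw [h1]
  by_cases hi : Integrable fun w => g w ^ 2
  · refine ⟨hi.const_mul _, ?_⟩
    rw [integral_const_mul]
    by_cases h2 : ∫ w', g w' ^ 2 = 0
    · rw [h2]; simp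
    · rw [inv_mul_cancel₀ h2]
  · rw [integral_undef hi]
    simp

/-- splitting of the fibre norm -/
lemma lo_fib (f : Wsp dm → F) (hf : FT f) (g : Wsp dm → ℝ) (hg : Continuous g) (hgi : Integrable fun w => g w ^ 2)
    (hg1 : ∫ w, g w ^ 2 ≤ 1) (a : F) :
    nsf f ≤ 2 * nsf (fun w => f w - ((g w : ℝ) : ℂ) • a) + 2 * ‖a‖ ^ 2 := by
  have hfi : Integrable fun w => ‖f w‖ ^ 2 := by
    refine Continuous.integrable_of_hasCompactSupport (hf.1.continuous.norm.pow 2) ?_
    exact hf.2.comp_left (g := fun x : F => ‖x‖ ^ 2) (by simp)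
  have hga : ∀ w, ‖((g w : ℝ) : ℂ) • a‖ ^ 2 = g w ^ 2 * ‖a‖ ^ 2 := by
    intro w
    rw [norm_smul, Complex.norm_real, mul_pow, Real.norm_eq_abs, sq_abs]
  have hgc : Continuous fun w => ((g w : ℝ) : ℂ) • a := by fun_prop
  have hgai : Integrable fun w => ‖((g w : ℝ) : ℂ) • a‖ ^ 2 := by
    simp only [hga]
    exact hgi.mul_const _
  have hpt : ∀ x y : F, ‖x + y‖ ^ 2 ≤ 2 * ‖x‖ ^ 2 + 2 * ‖y‖ ^ 2 := by
    intro x y
    have h1 := norm_add_le x y
    have h2 : ‖x + y‖ ^ 2 ≤ (‖x‖ + ‖y‖) ^ 2 := pow_le_pow_left₀ (norm_nonneg _) h1 2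
    nlinarith [sq_nonneg (‖x‖ - ‖y‖)]
  have hdi : Integrable fun w => ‖f w - ((g w : ℝ) : ℂ) • a‖ ^ 2 := by
    refine Integrable.mono' ((hfi.const_mul 2).add (hgai.const_mul 2)) ?_ (Eventually.of_forall fun w => ?_)
    · exact ((hf.1.continuous.sub hgc).norm.pow 2).aestronglyMeasurable
    · rw [Real.norm_eq_abs, abs_of_nonneg (by positivity)]
      have := hpt (f w) (-(((g w : ℝ) : ℂ) • a))
      rw [norm_neg, ← sub_eq_add_neg] at this
      exact this
  have h1 : nsf f ≤ ∫ w, (2 * ‖f w - ((g w : ℝ) : ℂ) • a‖ ^ 2 + 2 * ‖((g w : ℝ) : ℂ) • a‖ ^ 2) := by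
    unfold nsf
    refine integral_mono hfi ((hdi.const_mul 2).add (hgai.const_mul 2)) fun w => ?_
    have := hpt (f w - ((g w : ℝ) : ℂ) • a) (((g w : ℝ) : ℂ) • a)
    rwa [sub_add_cancel] at this
  rw [integral_add (hdi.const_mul 2) (hgai.const_mul 2), integral_const_mul, integral_const_mul] at h1
  have h2 : ∫ w, ‖((g w : ℝ) : ℂ) • a‖ ^ 2 ≤ ‖a‖ ^ 2 := by
    simp only [hga]
    rw [integral_mul_const]
    have := mul_le_mul_of_nonneg_right hg1 (sq_nonneg ‖a‖)
    linarith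
  unfold nsf at h1 ⊢
  linarith

/-! ### inner completeness for one function -/

omit [InnerProductSpace ℂ F] in
lemma lo_sum_sq {n : ℕ} (x : Fin n → F) : ‖∑ j, x j‖ ^ 2 ≤ n * ∑ j, ‖x j‖ ^ 2 := by
  have h1 : ‖∑ j, x j‖ ≤ ∑ j, ‖x j‖ := norm_sum_le _ _
  have h2 : ‖∑ j, x j‖ ^ 2 ≤ (∑ j, ‖x j‖) ^ 2 := pow_le_pow_left₀ (norm_nonneg _) h1 2
  have h3 := sq_sum_le_card_mul_sum_sq (s := (Finset.univ : Finset (Fin n))) (f := fun j => ‖x j‖)
  simp only [Finset.card_univ, Fintype.card_fin] at h3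
  exact h2.trans h3

lemma lo_ic (S : Setup ds F) {n : ℕ} {o : Fin n → Cfg ds → F} {CI : ℝ} (hCI : 0 ≤ CI) (hz : ∀ j, ZM S (o j))
    (ho : ∀ j k, ∫ x, inner ℂ (o j x) (o k x) = if j = k then 1 else 0)
    (hic : ∀ ρ : ℝ, 1 ≤ ρ → ∀ u, GInv S u →
      mas (fun x => u x - ∑ j, (∫ z, inner ℂ (o j z) (u z)) • o j x) (Metric.ball 0 ρ) ≤ CI * ρ ^ 2 * En S u)
    {r : ℝ} (a : Cfg ds → F) (ha : GInv S a) :
    mas a (Metric.ball 0 r) ≤ 2 * CI * (1 + r ^ 2) * En S a + 2 * n * ∑ j, ‖∫ z, inner ℂ (o j z) (a z)‖ ^ 2 := by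
  set c : Fin n → ℂ := fun j => ∫ z, inner ℂ (o j z) (a z) with hc
  set s : Cfg ds → F := fun x => ∑ j, c j • o j x with hs
  have hom : ∀ j, MemLp (o j) 2 (volume : Measure (Cfg ds)) := fun j => by
    obtain ⟨u, _, hu, _⟩ := hz j
    exact hu.mem'
  have hoi : ∀ j, Integrable fun x => ‖o j x‖ ^ 2 := fun j => (hom j).integrable_norm_pow (by norm_num)
  have ho1 : ∀ j, ∫ x, ‖o j x‖ ^ 2 = 1 := by
    intro j
    have h1 := ho j j
    rw [if_pos rfl] at h1
    have h2 : ∫ x, inner ℂ (o j x) (o j x) = ((∫ x, ‖o j x‖ ^ 2 : ℝ) : ℂ) := by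
      rw [← integral_complex_ofReal]
      refine integral_congr_ae (Eventually.of_forall fun x => ?_)
      simp only [inner_self_eq_norm_sq_to_K]
      norm_cast
    rw [h2] at h1
    exact_mod_cast h1
  have hai : Integrable fun x => ‖a x‖ ^ 2 := by
    refine Continuous.integrable_of_hasCompactSupport (ha.1.1.continuous.norm.pow 2) ?_
    exact ha.1.2.comp_left (g := fun x : F => ‖x‖ ^ 2) (by simp)
  have hsm : MemLp s 2 (volume : Measure (Cfg ds)) := by
    have := memLp_finsetSum (Finset.univ : Finset (Fin n)) (fun j _ => (hom j).const_smul (c j))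
    exact this
  have ham : MemLp a 2 (volume : Measure (Cfg ds)) := ha.1.1.continuous.memLp_of_hasCompactSupport ha.1.2
  have hsi : Integrable fun x => ‖s x‖ ^ 2 := hsm.integrable_norm_pow (by norm_num)
  have hdi : Integrable fun x => ‖a x - s x‖ ^ 2 := (ham.sub hsm).integrable_norm_pow (by norm_num)
  have hpt : ∀ x y : F, ‖x + y‖ ^ 2 ≤ 2 * ‖x‖ ^ 2 + 2 * ‖y‖ ^ 2 := by
    intro x y
    have h1 := norm_add_le x y
    have h2 : ‖x + y‖ ^ 2 ≤ (‖x‖ + ‖y‖) ^ 2 := pow_le_pow_left₀ (norm_nonneg _) h1 2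
    nlinarith [sq_nonneg (‖x‖ - ‖y‖)]
  set ρ : ℝ := max 1 r with hρ
  have hρ1 : 1 ≤ ρ := le_max_left _ _
  have hρr : r ≤ ρ := le_max_right _ _
  have hρ2 : ρ ^ 2 ≤ 1 + r ^ 2 := by
    rcases max_choice 1 r with h | h
    · rw [hρ, h]; nlinarith [sq_nonneg r]
    · rw [hρ, h]; linarith
  -- step 1: split
  have e1 : mas a (Metric.ball 0 r) ≤ mas a (Metric.ball 0 ρ) := by
    unfold mas
    exact setIntegral_mono_set hai.integrableOn (Eventually.of_forall fun x => by positivity)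
      (LE.le.eventuallyLE (Metric.ball_subset_ball hρr))
  have e2 : mas a (Metric.ball 0 ρ) ≤ 2 * mas (fun x => a x - s x) (Metric.ball 0 ρ) + 2 * nsq s := by
    have h1 : mas a (Metric.ball 0 ρ) ≤ ∫ x in Metric.ball (0 : Cfg ds) ρ, (2 * ‖a x - s x‖ ^ 2 + 2 * ‖s x‖ ^ 2) := by
      unfold mas
      refine integral_mono hai.integrableOn ((hdi.const_mul 2).add (hsi.const_mul 2)).integrableOn fun x => ?_
      have := hpt (a x - s x) (s x)
      rwa [sub_add_cancel] at this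
    rw [integral_add (hdi.const_mul 2).integrableOn (hsi.const_mul 2).integrableOn, integral_const_mul,
      integral_const_mul] at h1
    have h2 : ∫ x in Metric.ball (0 : Cfg ds) ρ, ‖s x‖ ^ 2 ≤ nsq s :=
      setIntegral_le_integral hsi (Eventually.of_forall fun x => by positivity)
    unfold mas at h1 ⊢
    linarith
  have e3 : nsq s ≤ n * ∑ j, ‖c j‖ ^ 2 := by
    have h1 : nsq s ≤ ∫ x, (n : ℝ) * ∑ j, ‖c j‖ ^ 2 * ‖o j x‖ ^ 2 := by
      unfold nsq
      refine integral_mono hsi ((integrable_finsetSum _ fun j _ => (hoi j).const_mul _).const_mul _) fun x => ?_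
      have := lo_sum_sq (fun j => c j • o j x)
      simp only [norm_smul, mul_pow] at this
      exact this
    rw [integral_const_mul, integral_finsetSum _ fun j _ => (hoi j).const_mul _] at h1
    simp only [integral_const_mul, ho1, mul_one] at h1
    exact h1
  have e4 := hic ρ hρ1 a ha
  have e5 : 0 ≤ En S a := Finset.sum_nonneg fun β _ => nsq_nonneg _
  have e6 : CI * ρ ^ 2 * En S a ≤ CI * (1 + r ^ 2) * En S a :=
    mul_le_mul_of_nonneg_right (mul_le_mul_of_nonneg_left hρ2 hCI) e5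
  change mas (fun x => a x - s x) (Metric.ball 0 ρ) ≤ _ at e4
  have e7 : 2 * CI * (1 + r ^ 2) * En S a = 2 * (CI * (1 + r ^ 2) * En S a) := by ring
  have e8 : 2 * (n : ℝ) * ∑ j, ‖c j‖ ^ 2 = 2 * (n * ∑ j, ‖c j‖ ^ 2) := by ring
  rw [e7, e8]
  linarith

/-- the coefficient function is square integrable -/
lemma lo_coef (a : Cfg dz × Cfg ds → F) (ha : Continuous a) (hac : HasCompactSupport a) (o : Cfg ds → F)
    (ho : MemLp o 2 (volume : Measure (Cfg ds))) :
    Integrable (fun yz : Cfg dz => ‖∫ ys, inner ℂ (o ys) (a (yz, ys))‖ ^ 2) := by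
  obtain ⟨M, hM⟩ : ∃ M, ∀ p, ‖a p‖ ≤ M := hac.exists_bound_of_continuous ha
  have hM0 : 0 ≤ M := (norm_nonneg _).trans (hM 0)
  set K1 : Set (Cfg dz) := Prod.fst '' tsupport a with hK1
  set K2 : Set (Cfg ds) := Prod.snd '' tsupport a with hK2
  have hK1c : IsCompact K1 := hac.isCompact.image continuous_fst
  have hK2c : IsCompact K2 := hac.isCompact.image continuous_snd
  have hoI : IntegrableOn (fun x => ‖o x‖) K2 := by
    have h1 : MemLp o 2 ((volume : Measure (Cfg ds)).restrict K2) := ho.restrict K2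
    have : IsFiniteMeasure ((volume : Measure (Cfg ds)).restrict K2) := ⟨by
      rw [Measure.restrict_apply_univ]; exact hK2c.measure_lt_top⟩
    exact (h1.integrable (by norm_num)).norm
  set L : ℝ := M * ∫ x in K2, ‖o x‖ with hL
  have hL0 : 0 ≤ L := mul_nonneg hM0 (integral_nonneg fun x => norm_nonneg _)
  have hz : ∀ yz, yz ∉ K1 → ∀ ys, a (yz, ys) = 0 := by
    intro yz hyz ys
    by_contra h
    exact hyz ⟨(yz, ys), subset_tsupport _ h, rfl⟩
  have hz2 : ∀ yz ys, ys ∉ K2 → a (yz, ys) = 0 := by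
    intro yz ys hys
    by_contra h
    exact hys ⟨(yz, ys), subset_tsupport _ h, rfl⟩
  have hb : ∀ yz, ‖∫ ys, inner ℂ (o ys) (a (yz, ys))‖ ≤ L := by
    intro yz
    have h1 : ∫ ys, inner ℂ (o ys) (a (yz, ys)) = ∫ ys in K2, inner ℂ (o ys) (a (yz, ys)) := by
      symm
      refine setIntegral_eq_integral_of_forall_compl_eq_zero fun ys hys => ?_
      rw [hz2 yz ys hys, inner_zero_right]
    rw [h1]
    refine (norm_integral_le_of_norm_le (hoI.const_mul M) (Eventually.of_forall fun ys => ?_)).trans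
      (le_of_eq (integral_const_mul _ _))
    exact (norm_inner_le_norm _ _).trans (by
      rw [mul_comm]; exact mul_le_mul_of_nonneg_right (hM _) (norm_nonneg _))
  have hmeas : AEStronglyMeasurable (fun yz : Cfg dz => ∫ ys, inner ℂ (o ys) (a (yz, ys)))
      (volume : Measure (Cfg dz)) := by
    have h1 : AEStronglyMeasurable (fun p : Cfg dz × Cfg ds => inner ℂ (o p.2) (a p))
        ((volume : Measure (Cfg dz)).prod (volume : Measure (Cfg ds))) := by
      exact (ho.1.comp_snd).inner ha.aestronglyMeasurable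
    exact h1.integral_prod_right'
  have hind : Integrable (K1.indicator fun _ => L ^ 2 : Cfg dz → ℝ) := by
    rw [integrable_indicator_iff hK1c.measurableSet]
    exact integrableOn_const hK1c.measure_lt_top.ne
  refine Integrable.mono' hind (hmeas.norm.pow 2) (Eventually.of_forall fun yz => ?_)
  rw [Real.norm_eq_abs, abs_of_nonneg (by positivity)]
  by_cases hyz : yz ∈ K1
  · rw [Set.indicator_of_mem hyz]
    exact pow_le_pow_left₀ (norm_nonneg _) (hb yz) 2
  · rw [Set.indicator_of_notMem hyz]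
    simp [hz yz hyz]

end Vale.Agent.P353.Z.AD
end

section

/-! # P353, all `N`, block GL7: the support of the global functional lies in the tube -/

open MeasureTheory Filter Topology
open scoped ContDiff

namespace Vale.Agent.P353.Z.AN

variable {d dh dm r ds : ℕ} {F : Type*} [NormedAddCommGroup F] [InnerProductSpace ℂ F]

lemma sup_norm_sq (φ : Spl dh dm d) (ψ : Spz r ds dh) (x : Cfg d) :
    ‖x‖ ^ 2 = ‖hz ψ (zy φ x)‖ ^ 2 + ‖hs ψ (zy φ x)‖ ^ 2 + ‖pm φ x‖ ^ 2 := by
  rw [EuclideanSpace.norm_sq_eq, EuclideanSpace.norm_sq_eq, EuclideanSpace.norm_sq_eq,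
    EuclideanSpace.norm_sq_eq, Fintype.sum_prod_type, Fintype.sum_prod_type, Fintype.sum_prod_type,
    Fintype.sum_prod_type, ← Finset.sum_add_distrib, ← Finset.sum_add_distrib]
  refine Finset.sum_congr rfl fun i _ => ?_
  rw [← φ.sum_comp, Fintype.sum_sum_type]
  congr 1
  rw [← ψ.sum_comp, Fintype.sum_sum_type]
  rfl

lemma sup_hz (φ : Spl dh dm d) (ψ : Spz r ds dh) (z₀ : Cfg r) (R : ℝ) (x : Cfg d) :
    hz ψ (zy φ (x - R • emb φ (cmb ψ z₀ 0) 0)) = hz ψ (zy φ x) - R • z₀ := by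
  ext p
  simp [hz, zy, emb, cmb]

lemma sup_hs (φ : Spl dh dm d) (ψ : Spz r ds dh) (z₀ : Cfg r) (R : ℝ) (x : Cfg d) :
    hs ψ (zy φ (x - R • emb φ (cmb ψ z₀ 0) 0)) = hs ψ (zy φ x) := by
  ext p
  simp [hs, zy, emb, cmb]

lemma sup_last (i : Fin 9) : Fin.lastCases (motive := fun _ => ℝ) 0 (fun _ : Fin 8 => (0 : ℝ)) i = 0 := by
  refine Fin.lastCases ?_ (fun j => ?_) i
  · rw [Fin.lastCases_last]
  · rw [Fin.lastCases_castSucc]

lemma sup_pm (φ : Spl dh dm d) (y : Cfg dh) (R : ℝ) (x : Cfg d) :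
    pm φ (x - R • emb φ y 0) = pm φ x := by
  ext p
  have h : emb φ y 0 (p.1, φ (Sum.inr p.2)) = 0 := by
    have h1 : emb φ y 0 (p.1, φ (Sum.inr p.2)) =
        Fin.lastCases (motive := fun _ => ℝ) 0 (fun _ : Fin 8 => (0 : ℝ)) p.1 := by
      simp [emb]
    rw [h1, sup_last]
  simp only [pm, PiLp.sub_apply, PiLp.smul_apply, h, smul_zero, sub_zero]

theorem sup_stmt (S : Setup d F) : TubeStmt S → SupStmt S := by
  intro hT dh dm r ds φ ψ z₀ hstd
  obtain ⟨ε₀, ρ₀, hε₀, hρ₀, h⟩ := hT dh dm φ (cmb ψ z₀ 0) hstd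
  refine ⟨ε₀, ρ₀, hε₀, hρ₀, ?_⟩
  intro ε ρ hε hε' hρ hρ'
  obtain ⟨c, δ, _, hδ, h2⟩ := h ε ρ hε hε' hρ hρ'
  refine ⟨δ / 2, by positivity, ?_⟩
  intro R hR b hb x hx
  have hball := (h2 R hR).2.1
  apply hball
  have hbq : b (R⁻¹ • hz ψ (zy φ x), hs ψ (zy φ x), Real.sqrt R • pm φ x) ≠ 0 := by
    intro h0
    apply hx
    unfold Zb
    rw [h0, smul_zero]
  obtain ⟨b1, b2, b3⟩ := hb _ hbq
  simp only at b1 b2 b3
  set e := R • emb φ (cmb ψ z₀ 0) 0 with he
  have n1 : ‖hz ψ (zy φ (x - e))‖ ≤ δ / 2 * R := by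
    rw [he, sup_hz]
    have h3 : hz ψ (zy φ x) - R • z₀ = R • (R⁻¹ • hz ψ (zy φ x) - z₀) := by
      rw [smul_sub, smul_smul, mul_inv_cancel₀ hR.ne', one_smul]
    rw [h3, norm_smul, Real.norm_of_nonneg hR.le, mul_comm]
    exact mul_le_mul_of_nonneg_right b1 hR.le
  have n2 : ‖hs ψ (zy φ (x - e))‖ ≤ δ / 2 * R := by
    rw [he, sup_hs]
    exact b2
  have n3 : ‖pm φ (x - e)‖ ≤ δ / 2 * R := by
    rw [he, sup_pm]
    rw [norm_smul, Real.norm_of_nonneg (Real.sqrt_nonneg R)] at b3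
    have hs0 : 0 < Real.sqrt R := Real.sqrt_pos.2 hR
    refine le_of_mul_le_mul_left ?_ hs0
    calc Real.sqrt R * ‖pm φ x‖ ≤ δ / 2 * (R * Real.sqrt R) := b3
      _ = _ := by ring
  rw [Metric.mem_ball, dist_eq_norm]
  have hsq := sup_norm_sq φ ψ (x - e)
  have hδR : 0 < δ / 2 * R := by positivity
  have m1 := pow_le_pow_left₀ (norm_nonneg _) n1 2
  have m2 := pow_le_pow_left₀ (norm_nonneg _) n2 2
  have m3 := pow_le_pow_left₀ (norm_nonneg _) n3 2
  have h4 : ‖x - e‖ ^ 2 < (δ * R) ^ 2 := by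
    rw [hsq]
    nlinarith [pow_pos hδR 2]
  exact lt_of_pow_lt_pow_left₀ 2 (by positivity) h4

end Vale.Agent.P353.Z.AN
end

section

/-! # P353, all `N`, block E: the quadratic form as a smooth function of the central point (helper492) -/

open MeasureTheory Filter Topology Matrix
open scoped ContDiff

namespace Vale.Agent.P353.Z.AE

section Mat

variable {X : Type*} [NormedAddCommGroup X] [NormedSpace ℝ X] {U : Set X} {n : ℕ}

private theorem emz_det {A : X → Matrix (Fin n) (Fin n) ℝ} (hA : ∀ i j, ContDiffOn ℝ ∞ (fun y => A y i j) U) :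
    ContDiffOn ℝ ∞ (fun y => (A y).det) U := by
  simp only [Matrix.det_apply]
  refine ContDiffOn.sum fun σ _ => ?_
  refine ContDiffOn.const_smul _ ?_
  exact contDiffOn_prod fun i _ => hA _ _

private theorem emz_adj {A : X → Matrix (Fin n) (Fin n) ℝ} (hA : ∀ i j, ContDiffOn ℝ ∞ (fun y => A y i j) U)
    (i j : Fin n) : ContDiffOn ℝ ∞ (fun y => (A y).adjugate i j) U := by
  simp only [Matrix.adjugate_apply]
  refine emz_det fun k l => ?_
  by_cases hk : k = j
  · subst hk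
    simp only [Matrix.updateRow_self]
    exact contDiffOn_const
  · simp only [Matrix.updateRow_ne hk]
    exact hA k l

private theorem emz_inv {A : X → Matrix (Fin n) (Fin n) ℝ} (hA : ∀ i j, ContDiffOn ℝ ∞ (fun y => A y i j) U)
    (hd : ∀ y ∈ U, (A y).det ≠ 0) (i j : Fin n) : ContDiffOn ℝ ∞ (fun y => (A y)⁻¹ i j) U := by
  have h1 : ∀ y, (A y)⁻¹ i j = ((A y).det)⁻¹ * (A y).adjugate i j := by
    intro y
    rw [Matrix.inv_def, Ring.inverse_eq_inv', Matrix.smul_apply, smul_eq_mul]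
  simp only [h1]
  exact ((emz_det hA).inv hd).mul (emz_adj hA i j)

private theorem emz_mul {A B : X → Matrix (Fin n) (Fin n) ℝ} (hA : ∀ i j, ContDiffOn ℝ ∞ (fun y => A y i j) U)
    (hB : ∀ i j, ContDiffOn ℝ ∞ (fun y => B y i j) U) (i j : Fin n) :
    ContDiffOn ℝ ∞ (fun y => (A y * B y) i j) U := by
  simp only [Matrix.mul_apply]
  exact ContDiffOn.sum fun k _ => (hA i k).mul (hB k j)

private theorem emz_mv {A : X → Matrix (Fin n) (Fin n) ℝ} {v : X → Fin n → ℝ}
    (hA : ∀ i j, ContDiffOn ℝ ∞ (fun y => A y i j) U)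
    (hv : ∀ i, ContDiffOn ℝ ∞ (fun y => v y i) U) (i : Fin n) :
    ContDiffOn ℝ ∞ (fun y => (A y *ᵥ v y) i) U := by
  simp only [Matrix.mulVec, dotProduct]
  exact ContDiffOn.sum fun k _ => (hA i k).mul (hv k)

end Mat

section Smooth

variable {X : Type*} [NormedAddCommGroup X] [NormedSpace ℝ X] {U : Set X} {dm : ℕ}
  {D : X → Fin 9 → Matrix (Fin dm) (Fin dm) ℝ} {Om : X → Matrix (Fin dm) (Fin dm) ℝ}

private theorem emz_VV (hD : ∀ k i j, ContDiffOn ℝ ∞ (fun y => D y k i j) U) (h8 : ∀ y ∈ U, (D y 8).det ≠ 0)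
    (ht : ∀ y ∈ U, (t2 (D y)).det ≠ 0) (w : Wsp dm) (k : Fin 9) (B : Fin dm) :
    ContDiffOn ℝ ∞ (fun y => VV (D y) w k B) U := by
  have hT : ∀ k i j, ContDiffOn ℝ ∞ (fun y => tI (D y) k i j) U := by
    intro k i j
    unfold tI
    exact emz_mul (emz_inv (hD 8) h8) (hD k) i j
  have h2 : ∀ i j, ContDiffOn ℝ ∞ (fun y => t2 (D y) i j) U := by
    intro i j
    unfold t2
    simp only [Matrix.sum_apply]
    exact ContDiffOn.sum fun k _ => emz_mul (hT k) (hT k) i j
  have hs : ∀ i, ContDiffOn ℝ ∞ (fun y => sV (D y) w i) U := by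
    intro i
    unfold sV
    refine emz_mv (emz_inv h2 ht) (fun i => ?_) i
    simp only [Finset.sum_apply]
    exact ContDiffOn.sum fun k _ => emz_mv (v := fun _ => wt w k) (hT k) (fun _ => contDiffOn_const) i
  unfold VV
  simp only [Pi.sub_apply]
  exact contDiffOn_const.sub (emz_mv (hT k) hs B)

end Smooth

section Hom

variable {dm : ℕ}

private theorem emz_tI_smul (D : Fin 9 → Matrix (Fin dm) (Fin dm) ℝ) {t : ℝ} (ht : t ≠ 0) (h8 : (D 8).det ≠ 0)
    (k : Fin 9) : tI (fun i => t • D i) k = tI D k := by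
  unfold tI
  have h1 : (t • D 8)⁻¹ = t⁻¹ • (D 8)⁻¹ := by
    refine Matrix.inv_eq_left_inv ?_
    rw [Matrix.smul_mul, Matrix.mul_smul, smul_smul, inv_mul_cancel₀ ht, one_smul,
      Matrix.nonsing_inv_mul _ (isUnit_iff_ne_zero.2 h8)]
  rw [h1, Matrix.smul_mul, Matrix.mul_smul, smul_smul, inv_mul_cancel₀ ht, one_smul]

private theorem emz_VV_smul (D : Fin 9 → Matrix (Fin dm) (Fin dm) ℝ) {t : ℝ} (ht : t ≠ 0) (h8 : (D 8).det ≠ 0)
    (w : Wsp dm) (k : Fin 9) : VV (fun i => t • D i) w k = VV D w k := by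
  have hT : tI (fun i => t • D i) = tI D := funext fun k => emz_tI_smul D ht h8 k
  unfold VV sV t2
  rw [hT]

end Hom

variable {d dh dm r ds : ℕ} {F : Type*} [NormedAddCommGroup F] [InnerProductSpace ℂ F]

section Alg

variable (S : Setup d F) (φ : Spl dh dm d) (ψ : Spl r ds dh)

private theorem emz_Dz_apply (y : Cfg r) (i : Fin 9) (B C : Fin dm) :
    S.Dz φ ψ y i B C =
      ∑ a, S.f (φ (Sum.inr B)) (φ (Sum.inl (ψ (Sum.inl a)))) (φ (Sum.inr C)) * y (i, a) := by
  unfold Setup.Dz Setup.Dy Setup.Dm cmb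
  simp only [Matrix.of_apply]
  rw [← ψ.sum_comp, Fintype.sum_sum_type]
  simp

private theorem emz_Dz_smul (y : Cfg r) (t : ℝ) (i : Fin 9) : S.Dz φ ψ (t • y) i = t • S.Dz φ ψ y i := by
  ext B C
  rw [Matrix.smul_apply, emz_Dz_apply, emz_Dz_apply, smul_eq_mul, Finset.mul_sum]
  refine Finset.sum_congr rfl fun a _ => ?_
  rw [PiLp.smul_apply, smul_eq_mul]
  ring

private theorem emz_Dz_c (U : Set (Cfg r)) (k : Fin 9) (B C : Fin dm) :
    ContDiffOn ℝ ∞ (fun y => S.Dz φ ψ y k B C) U := by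
  simp only [emz_Dz_apply]
  refine ContDiffOn.sum fun a _ => contDiffOn_const.mul ?_
  exact (contDiff_euclidean.1 contDiff_id (k, a)).contDiffOn

private theorem emz_Dz_anti (y : Cfg r) (i : Fin 9) : (S.Dz φ ψ y i)ᵀ = -S.Dz φ ψ y i := by
  ext B C
  rw [Matrix.transpose_apply, Matrix.neg_apply, emz_Dz_apply, emz_Dz_apply, ← Finset.sum_neg_distrib]
  refine Finset.sum_congr rfl fun a _ => ?_
  rw [← neg_mul]
  congr 1
  rw [S.f_cyc (φ (Sum.inr C)), S.f_swap]

private theorem emz_jac (hφ : S.IsSub φ) (hc : S.IsCen φ ψ) (B C : Fin dm) (a b : Fin r) :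
    ∑ E, S.f (φ (Sum.inr B)) (φ (Sum.inl (ψ (Sum.inl a)))) (φ (Sum.inr E)) *
      S.f (φ (Sum.inr E)) (φ (Sum.inl (ψ (Sum.inl b)))) (φ (Sum.inr C)) =
    ∑ E, S.f (φ (Sum.inr B)) (φ (Sum.inl (ψ (Sum.inl b)))) (φ (Sum.inr E)) *
      S.f (φ (Sum.inr E)) (φ (Sum.inl (ψ (Sum.inl a)))) (φ (Sum.inr C)) := by
  have h1 := S.f_jac (φ (Sum.inr B)) (φ (Sum.inl (ψ (Sum.inl a)))) (φ (Sum.inl (ψ (Sum.inl b)))) (φ (Sum.inr C))
  rw [← φ.sum_comp, Fintype.sum_sum_type] at h1
  have hz : ∀ A A' : Fin dh, ∀ B : Fin dm, S.f (φ (Sum.inr B)) (φ (Sum.inl A)) (φ (Sum.inl A')) = 0 := by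
    intro A A' B
    rw [S.f_cyc]
    exact hφ _ _ _
  have hz' : ∀ A A' : Fin dh, ∀ B : Fin dm, S.f (φ (Sum.inl A)) (φ (Sum.inr B)) (φ (Sum.inl A')) = 0 := by
    intro A A' B
    rw [S.f_swap, hz, neg_zero]
  have e1 : ∀ E : Fin dh, S.f (φ (Sum.inr B)) (φ (Sum.inl (ψ (Sum.inl a)))) (φ (Sum.inl E)) *
        S.f (φ (Sum.inl E)) (φ (Sum.inl (ψ (Sum.inl b)))) (φ (Sum.inr C)) +
      S.f (φ (Sum.inl (ψ (Sum.inl a)))) (φ (Sum.inl (ψ (Sum.inl b)))) (φ (Sum.inl E)) *
        S.f (φ (Sum.inl E)) (φ (Sum.inr B)) (φ (Sum.inr C)) +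
      S.f (φ (Sum.inl (ψ (Sum.inl b)))) (φ (Sum.inr B)) (φ (Sum.inl E)) *
        S.f (φ (Sum.inl E)) (φ (Sum.inl (ψ (Sum.inl a)))) (φ (Sum.inr C)) = 0 := by
    intro E
    rw [hz, hc, hz']
    ring
  have e2 : ∀ E : Fin dm, S.f (φ (Sum.inr B)) (φ (Sum.inl (ψ (Sum.inl a)))) (φ (Sum.inr E)) *
        S.f (φ (Sum.inr E)) (φ (Sum.inl (ψ (Sum.inl b)))) (φ (Sum.inr C)) +
      S.f (φ (Sum.inl (ψ (Sum.inl a)))) (φ (Sum.inl (ψ (Sum.inl b)))) (φ (Sum.inr E)) *
        S.f (φ (Sum.inr E)) (φ (Sum.inr B)) (φ (Sum.inr C)) +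
      S.f (φ (Sum.inl (ψ (Sum.inl b)))) (φ (Sum.inr B)) (φ (Sum.inr E)) *
        S.f (φ (Sum.inr E)) (φ (Sum.inl (ψ (Sum.inl a)))) (φ (Sum.inr C)) =
      S.f (φ (Sum.inr B)) (φ (Sum.inl (ψ (Sum.inl a)))) (φ (Sum.inr E)) *
        S.f (φ (Sum.inr E)) (φ (Sum.inl (ψ (Sum.inl b)))) (φ (Sum.inr C)) -
      S.f (φ (Sum.inr B)) (φ (Sum.inl (ψ (Sum.inl b)))) (φ (Sum.inr E)) *
        S.f (φ (Sum.inr E)) (φ (Sum.inl (ψ (Sum.inl a)))) (φ (Sum.inr C)) := by
    intro E
    rw [hφ, S.f_swap (φ (Sum.inl (ψ (Sum.inl b)))) (φ (Sum.inr B))]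
    ring
  simp only [e1, e2, Finset.sum_const_zero, zero_add, Finset.sum_sub_distrib] at h1
  linarith

private theorem emz_Dz_comm (hφ : S.IsSub φ) (hc : S.IsCen φ ψ) (y : Cfg r) (i j : Fin 9) :
    S.Dz φ ψ y i * S.Dz φ ψ y j = S.Dz φ ψ y j * S.Dz φ ψ y i := by
  have h1 : ∀ i j B C, (S.Dz φ ψ y i * S.Dz φ ψ y j) B C = ∑ a, ∑ b, y (i, a) * y (j, b) *
      ∑ E, S.f (φ (Sum.inr B)) (φ (Sum.inl (ψ (Sum.inl a)))) (φ (Sum.inr E)) *
        S.f (φ (Sum.inr E)) (φ (Sum.inl (ψ (Sum.inl b)))) (φ (Sum.inr C)) := by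
    intro i j B C
    rw [Matrix.mul_apply]
    simp only [emz_Dz_apply, Finset.sum_mul_sum]
    rw [Finset.sum_comm]
    refine Finset.sum_congr rfl fun a _ => ?_
    rw [Finset.sum_comm]
    refine Finset.sum_congr rfl fun b _ => ?_
    rw [Finset.mul_sum]
    refine Finset.sum_congr rfl fun E _ => ?_
    ring
  ext B C
  rw [h1, h1, Finset.sum_comm]
  refine Finset.sum_congr rfl fun b _ => Finset.sum_congr rfl fun a _ => ?_
  rw [emz_jac S φ ψ hφ hc B C a b]
  ring

private theorem emz_frz (hφ : S.IsSub φ) (hc : S.IsCen φ ψ) (y : Cfg r) (h8 : (S.Dz φ ψ y 8).det ≠ 0) :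
    Frz (S.Dz φ ψ y) :=
  ⟨emz_Dz_anti S φ ψ y, emz_Dz_comm S φ ψ hφ hc y, h8⟩

end Alg

/-- **E-Mz** -/
theorem mz (S : Setup d F) (φ : Spl dh dm d) (ψ : Spl r ds dh) (hA : AlgStmt) (hQ : QFStmt) :
    MzStmt S φ ψ := by
  intro hφ hc U Om V K hV
  have hF : ∀ y ∈ U, Frz (S.Dz φ ψ y) := fun y hy => emz_frz S φ ψ hφ hc y (hV.det y hy)
  refine ⟨hF, ?_⟩
  have hM : ∀ y : Cfg r, ∃ M : Wsp dm →L[ℝ] Wsp dm, y ∈ U → (∀ v w, inner ℝ (M v) w = inner ℝ v (M w)) ∧
      (∀ w, qf (S.Dz φ ψ y) (Om y) w = inner ℝ w (M w)) ∧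
      (∀ (w : Wsp dm) (j : Fin 8) (B : Fin dm), M w (j, B) = (Om y *ᵥ VV (S.Dz φ ψ y) w j.castSucc) B) ∧
      ∃ c : ℝ, 0 < c ∧ ∀ w, c * ‖w‖ ^ 2 ≤ inner ℝ w (M w) := by
    intro y
    by_cases hy : y ∈ U
    · obtain ⟨M, h1⟩ := hQ dm S.κ (S.Dz φ ψ y) (Om y) S.κ_pos (hF y hy) (hV.om y hy)
      exact ⟨M, fun _ => h1⟩
    · exact ⟨0, fun h => absurd h hy⟩
  choose M hM using hM
  refine ⟨M, ?_, fun y hy => (hM y hy).1, fun y hy => (hM y hy).2.1, ?_, fun y hy => (hM y hy).2.2.1,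
    fun y hy => (hM y hy).2.2.2⟩
  · rw [contDiffOn_clm_apply]
    intro w
    rw [contDiffOn_euclidean]
    rintro ⟨j, B⟩
    have h1 : ∀ y ∈ U, M y w (j, B) = (Om y *ᵥ VV (S.Dz φ ψ y) w j.castSucc) B :=
      fun y hy => (hM y hy).2.2.1 w j B
    refine ContDiffOn.congr ?_ h1
    refine emz_mv hV.om_c (fun k => ?_) B
    refine emz_VV (fun k i j => emz_Dz_c S φ ψ U k i j) hV.det (fun y hy => ?_) w j.castSucc k
    exact (hA dm S.κ (S.Dz φ ψ y) (Om y) S.κ_pos (hF y hy) (hV.om y hy)).2.2.2.2.2.1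
  · intro y hy t ht
    ext w p
    obtain ⟨j, B⟩ := p
    have hty := hV.cone y hy t ht
    have e1 : S.Dz φ ψ (t • y) = fun i => t • S.Dz φ ψ y i := funext fun i => emz_Dz_smul S φ ψ y t i
    rw [(hM (t • y) hty).2.2.1 w j B, _root_.smul_apply, PiLp.smul_apply,
      (hM y hy).2.2.1 w j B, e1, emz_VV_smul _ ht.ne' (hV.det y hy), hV.om_h y hy t ht, Matrix.smul_mulVec,
      Pi.smul_apply]

end Vale.Agent.P353.Z.AE
end

section

/-! # P353, all `N`, block L: assembly of `LioStmt` -/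

open MeasureTheory Filter Topology Matrix
open scoped ContDiff

namespace Vale.Agent.P353.Z.AL

variable {d dh dm r ds n : ℕ} {F : Type*} [NormedAddCommGroup F] [InnerProductSpace ℂ F]

theorem lio_spsw (ψ : Spl ds r dh) : spsw (spsw ψ) = ψ := by
  apply Equiv.ext
  intro x
  cases x <;> rfl

theorem lio_sqM {S : Setup d F} {R : ℕ → ℝ} {u : ℕ → Cfg d → F} (h : AD.Sq S R u) : SqM S R u where
  inv := h.inv
  pos := h.pos
  lim := h.lim
  bd := by
    intro s t hs ht
    obtain ⟨C, hC⟩ := h.bd s t hs ht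
    refine ⟨C, fun n => ?_⟩
    have h1 := hC n
    have h2 : 0 ≤ R n ^ 2 * AD.ena S (u n) (AD.shl d (s * R n) (t * R n)) := by
      refine mul_nonneg (sq_nonneg _) (Finset.sum_nonneg fun β _ => ?_)
      exact integral_nonneg fun x => by positivity
    linarith

theorem lio_cmb_zero (φ : Spl dh dm d) (ψ : Spl ds r dh) : emb φ (AD.cmb ψ 0 (0 : Cfg r)) 0 = 0 := by
  ext p
  rcases h : φ.symm p.2 with A | B
  · rcases h2 : ψ.symm A with a | b
    · simp [emb, AD.cmb, h]
    · simp [emb, AD.cmb, h]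
  · have h3 : ∀ i : Fin 9, Fin.lastCases (motive := fun _ => ℝ) 0 (fun j => (0 : Wsp dm) (j, B)) i = 0 := by
      intro i
      induction i using Fin.lastCases with
      | last => exact Fin.lastCases_last
      | cast j => simp
    simpa [emb, h] using h3 p.1

theorem lio_of (S : Setup d F) : LioOfStmt S := by
  intro hC hD hZ hP hF dh dm ds dz φ ψ' z₀ h hne hIC
  obtain ⟨ψ, rfl⟩ : ∃ ψ : Spl dz ds dh, ψ' = spsw ψ := ⟨spsw ψ', (lio_spsw ψ').symm⟩
  have hz : z₀ ≠ 0 := by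
    rintro rfl
    exact hne (lio_cmb_zero φ (spsw ψ))
  obtain ⟨L, Om, K, U, n, o, T, hdat⟩ := hD hF dh dm dz ds φ ψ z₀ h hIC
  obtain ⟨ε₀, hε₀, hmain⟩ := hP hF hC dh dm dz ds n φ ψ z₀ h hz L Om K U o T hdat
  refine ⟨ε₀, hε₀, fun ε hε hε' R u hSq hG hV => ⟨id, strictMono_id, ?_⟩⟩
  exact hmain ε hε hε' R u (lio_sqM hSq)
    (hZ hF hC dh dm dz ds n φ ψ z₀ h L Om K U o T hdat R u hSq hG hV)

end Vale.Agent.P353.Z.AL
end

section

/-! # P353, all `N`, block L: L-Iso (helper38) -/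

open MeasureTheory Filter Topology Matrix
open scoped ContDiff

namespace Vale.Agent.P353.Z.AL

variable {d dh dm r ds n : ℕ} {F : Type*} [NormedAddCommGroup F] [InnerProductSpace ℂ F]

private lemma iso_inner_int {f g : Cfg ds → F} (hf : MemLp f 2 (volume : Measure (Cfg ds)))
    (hg : MemLp g 2 (volume : Measure (Cfg ds))) : Integrable fun x => inner ℂ (f x) (g x) := by
  have h := hf.norm.integrable_mul hg.norm
  refine h.mono' ?_ ?_
  · exact continuous_inner.comp_aestronglyMeasurable (hf.1.prodMk hg.1)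
  · exact Eventually.of_forall fun x => by
      simpa using norm_inner_le_norm (𝕜 := ℂ) (f x) (g x)

private lemma iso_fib {U : Cfg r → F →L[ℂ] F} (hU : ∀ η v w, inner ℂ (U η v) (U η w) = inner ℂ v w)
    {o : Fin n → Cfg ds → F} (hm : ∀ j, MemLp (o j) 2 (volume : Measure (Cfg ds)))
    (ort : ∀ j k, ∫ x, inner ℂ (o j x) (o k x) = if j = k then 1 else 0) (b : Cfg r → Ek n) (η : Cfg r) :
    Integrable (fun s => ‖sc U o b η s‖ ^ 2) ∧ ∫ s, ‖sc U o b η s‖ ^ 2 = ‖b η‖ ^ 2 := by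
  have e : ∀ s, (((‖sc U o b η s‖ ^ 2 : ℝ)) : ℂ) =
      ∑ j, ∑ k, (starRingEnd ℂ) (b η j) * (b η k * inner ℂ (o j s) (o k s)) := by
    intro s
    have : (((‖sc U o b η s‖ ^ 2 : ℝ)) : ℂ) = inner ℂ (sc U o b η s) (sc U o b η s) := by
      rw [inner_self_eq_norm_sq_to_K]; push_cast; rfl
    rw [this, sc, sum_inner]
    refine Finset.sum_congr rfl fun j _ => ?_
    rw [inner_sum]
    refine Finset.sum_congr rfl fun k _ => ?_
    rw [inner_smul_left, inner_smul_right, hU]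
  have hi : ∀ j k, Integrable fun s => (starRingEnd ℂ) (b η j) * (b η k * inner ℂ (o j s) (o k s)) :=
    fun j k => ((iso_inner_int (hm j) (hm k)).const_mul _).const_mul _
  have hI : Integrable fun s => (((‖sc U o b η s‖ ^ 2 : ℝ)) : ℂ) := by
    simp_rw [e]
    exact integrable_finsetSum _ fun j _ => integrable_finsetSum _ fun k _ => hi j k
  have hR : Integrable fun s => ‖sc U o b η s‖ ^ 2 :=
    hI.re.congr (Eventually.of_forall fun s => Complex.ofReal_re _)
  refine ⟨hR, ?_⟩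
  have h1 : ((∫ s, ‖sc U o b η s‖ ^ 2 : ℝ) : ℂ) = ((‖b η‖ ^ 2 : ℝ) : ℂ) := by
    rw [← integral_complex_ofReal]
    simp_rw [e]
    rw [integral_finsetSum _ fun j _ => integrable_finsetSum _ fun k _ => hi j k]
    have : ∀ j, ∫ s, ∑ k, (starRingEnd ℂ) (b η j) * (b η k * inner ℂ (o j s) (o k s)) =
        (starRingEnd ℂ) (b η j) * b η j := by
      intro j
      rw [integral_finsetSum _ fun k _ => hi j k]
      simp_rw [integral_const_mul, ort]
      simp
    simp_rw [this]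
    rw [EuclideanSpace.norm_sq_eq]
    push_cast
    refine Finset.sum_congr rfl fun j _ => ?_
    rw [mul_comm, Complex.mul_conj, Complex.normSq_eq_norm_sq]
    push_cast; rfl
  exact_mod_cast h1

private lemma iso_meas {U : Cfg r → F →L[ℂ] F} {A : Set (Cfg r)} (hA : IsCompact A) (hU : ContinuousOn U A)
    {o : Fin n → Cfg ds → F} (hm : ∀ j, AEStronglyMeasurable (o j) (volume : Measure (Cfg ds)))
    {b : Cfg r → Ek n} (hb : AEStronglyMeasurable b (volume : Measure (Cfg r))) (h0 : ∀ x, x ∉ A → b x = 0) :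
    AEStronglyMeasurable (fun q : Cfg r × Cfg ds => sc U o b q.1 q.2) (volume.prod volume) := by
  have hUm : AEStronglyMeasurable (A.indicator U) (volume : Measure (Cfg r)) := by
    rw [aestronglyMeasurable_indicator_iff hA.measurableSet]
    exact hU.aestronglyMeasurable_of_isCompact hA hA.measurableSet
  have e : (fun q : Cfg r × Cfg ds => sc U o b q.1 q.2) =
      fun q : Cfg r × Cfg ds => ∑ j, b q.1 j • (A.indicator U q.1) (o j q.2) := by
    funext q
    refine Finset.sum_congr rfl fun j _ => ?_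
    by_cases hq : q.1 ∈ A
    · rw [Set.indicator_of_mem hq]
    · rw [h0 _ hq]; simp
  rw [e]
  refine Finset.aestronglyMeasurable_fun_sum _ fun j _ => ?_
  have hbj : AEStronglyMeasurable (fun x => b x j) (volume : Measure (Cfg r)) :=
    (EuclideanSpace.proj (𝕜 := ℂ) j).continuous.comp_aestronglyMeasurable hb
  have h2 : AEStronglyMeasurable (fun q : Cfg r × Cfg ds => (A.indicator U q.1) (o j q.2))
      (volume.prod volume) :=
    (isBoundedBilinearMap_apply (𝕜 := ℂ) (E := F) (F := F)).continuous.comp_aestronglyMeasurable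
      ((hUm.comp_fst).prodMk ((hm j).comp_snd))
  exact (hbj.comp_fst).smul h2

/-- **L-Iso** -/
theorem iso (S : Setup d F) : IsoStmt S := by
  intro dh dm r ds n φ ψ L Om K U o T hD A hA hAL b hb h0
  have hUc : ContinuousOn U A := hD.bun.U_smooth.continuousOn.mono hAL
  have hmeas := iso_meas hA hUc (fun j => (hD.mem j).1) hb.1 h0
  have hfib := iso_fib (U := U) hD.bun.U_inner hD.mem hD.ort b
  have hmsq : AEStronglyMeasurable (fun q : Cfg r × Cfg ds => ‖sc U o b q.1 q.2‖ ^ 2)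
      (volume.prod volume) := hmeas.norm.pow 2
  have hint : Integrable (fun q : Cfg r × Cfg ds => ‖sc U o b q.1 q.2‖ ^ 2) (volume.prod volume) := by
    rw [integrable_prod_iff hmsq]
    refine ⟨Eventually.of_forall fun η => (hfib η).1, ?_⟩
    have : (fun η => ∫ s, ‖‖sc U o b η s‖ ^ 2‖) = fun η => ‖b η‖ ^ 2 := by
      funext η
      rw [← (hfib η).2]
      refine integral_congr_ae (Eventually.of_forall fun s => ?_)
      simp
    rw [this]
    exact (memLp_two_iff_integrable_sq_norm hb.1).1 hb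
  refine ⟨⟨(memLp_two_iff_integrable_sq_norm hmeas).2 hint, ?_⟩, ?_⟩
  · intro η s hs
    by_contra hη
    apply hs
    simp [sc, h0 η hη]
  · rw [n2, integral_prod _ hint]
    refine integral_congr_ae (Eventually.of_forall fun η => ?_)
    exact (hfib η).2

end Vale.Agent.P353.Z.AL
end
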