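import Mathlib
import Vale.Agent.P353.BdA.B2
import Vale.Agent.P353.BdZ.B11
import Vale.Agent.P353.BdZ.B16
import Vale.Agent.P353.BdZ.B6
import Vale.Agent.P353.BdZ.B17
import Vale.Agent.P353.BdA.B1

set_option linter.all false

section

/-! # P353, block H: rotated supercharges of the BMN deformation, invariance of the energy -/

open MeasureTheory Filter Topology
open scoped ContDiff Matrix

namespace Vale.Agent.P353.Z.AH.Cir

open Vale.Agent.P353.Z.Setup

variable {d : ℕ} {F : Type*} [NormedAddCommGroup F] [InnerProductSpace ℂ F]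

/-- the weighted configuration -/
noncomputable def awx (x : Cfg d) : Cfg d := WithLp.toLp 2 fun p => aw p.1 * x p

lemma aw_same {k l : Fin 9} (h : Same k l) : aw k = aw l := by
  have h2 := h.2
  unfold aw
  by_cases hk : k.val < 3
  · rw [if_pos hk, if_pos (h2.1 hk)]
  · rw [if_neg hk, if_neg (fun hl => hk (h2.2 hl))]

lemma awx_RR {k l : Fin 9} (h : Same k l) (t : ℝ) (y : Cfg d) :
    awx (RR k l t y) = RR k l t (awx y) := by
  have hk := aw_same h
  ext ⟨i, A⟩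
  have e1 : ∀ (z : Cfg d) (j : Fin 9) (B : Fin d), awx z (j, B) = aw j * z (j, B) :=
    fun _ _ _ => rfl
  rw [e1, RR_apply, RR_apply, e1]
  by_cases h1 : i = k
  · subst h1
    simp only [if_true, if_neg h.1, e1, hk]
    ring
  · by_cases h2 : i = l
    · subst h2
      simp only [if_true, if_neg h1, e1, hk]
      ring
    · simp only [if_neg h1, if_neg h2]
      ring

lemma PA_eq (S : Setup d F) (A : Fin d) (x : Cfg d) : S.PA_a1 A x = S.XB A (awx x) := rfl

lemma gt_Gam (S : Setup d F) {k l : Fin 9} (h : Same k l) (t : ℝ) :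
    S.gt k l t * S.Gam = S.Gam * S.gt k l t := by
  simp only [gt, add_mul, mul_add, Matrix.smul_mul, Matrix.mul_smul, one_mul, mul_one,
    S.Gam_comm_g2 h]

lemma PAG_RR (S : Setup d F) {k l : Fin 9} (h : Same k l) (t : ℝ) (A : Fin d) (y : Cfg d) :
    S.PA_a1 A (RR k l t y) * S.Gam * S.gt k l t = S.gt k l t * (S.PA_a1 A y * S.Gam) := by
  rw [mul_assoc, ← gt_Gam S h, ← mul_assoc, PA_eq, PA_eq, awx_RR h, S.XB_RR h.1, mul_assoc]

/-- unitarity of the spinor rotation -/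
lemma gt_conj_mul (S : Setup d F) {k l : Fin 9} (h : k ≠ l) (t : ℝ) :
    (S.gt k l t)ᴴ * S.gt k l t = 1 := by
  have e1 : (S.gt k l t)ᴴ = (Real.cos (t / 2) : ℂ) • 1 - (Real.sin (t / 2) : ℂ) • S.g2 k l := by
    rw [gt, Matrix.conjTranspose_add, Matrix.conjTranspose_smul, Matrix.conjTranspose_smul,
      Matrix.conjTranspose_one, U.a5_g2_conj S, Complex.star_def, Complex.conj_ofReal,
      Complex.conj_ofReal, smul_neg, sub_eq_add_neg]
  have hsc : (Real.cos (t / 2) : ℂ) ^ 2 + (Real.sin (t / 2) : ℂ) ^ 2 = 1 := by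
    have := Real.cos_sq_add_sin_sq (t / 2)
    exact_mod_cast this
  rw [e1, gt]
  simp only [sub_mul, mul_add, Matrix.smul_mul, Matrix.mul_smul, one_mul, mul_one, S.g2_sq h]
  linear_combination (norm := module) hsc • (1 : Matrix (Fin 16) (Fin 16) ℂ)

/-- a unitary matrix preserves the sum of the squares -/
lemma sum_sq_unitary (M : Matrix (Fin 16) (Fin 16) ℂ) (hM : Mᴴ * M = 1) (w : Fin 16 → F) :
    ∑ b, ‖∑ c, M b c • w c‖ ^ 2 = ∑ c, ‖w c‖ ^ 2 := by
  have h1 : ((∑ b, ‖∑ c, M b c • w c‖ ^ 2 : ℝ) : ℂ) = ((∑ c, ‖w c‖ ^ 2 : ℝ) : ℂ) := by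
    have e : ∀ b, ((‖∑ c, M b c • w c‖ ^ 2 : ℝ) : ℂ) =
        ∑ c, ∑ c', (star (M b c) * M b c') * inner ℂ (w c) (w c') := by
      intro b
      rw [Complex.ofReal_pow]
      have := inner_self_eq_norm_sq_to_K (𝕜 := ℂ) (∑ c, M b c • w c)
      rw [sum_inner] at this
      have h2 : ((‖∑ c, M b c • w c‖ : ℝ) : ℂ) ^ 2 =
          ∑ c, inner ℂ (M b c • w c) (∑ c, M b c • w c) := this.symm
      rw [h2]
      refine Finset.sum_congr rfl fun c _ => ?_
      rw [inner_sum]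
      refine Finset.sum_congr rfl fun c' _ => ?_
      rw [inner_smul_left, inner_smul_right, ← mul_assoc]
      rfl
    rw [Complex.ofReal_sum]
    simp only [e]
    rw [Finset.sum_comm]
    have e2 : ∀ c, ∑ b, ∑ c', (star (M b c) * M b c') * inner ℂ (w c) (w c') =
        ∑ c', (Mᴴ * M) c c' * inner ℂ (w c) (w c') := by
      intro c
      rw [Finset.sum_comm]
      refine Finset.sum_congr rfl fun c' _ => ?_
      rw [Matrix.mul_apply, Finset.sum_mul]
      rfl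
    simp only [e2, hM, Matrix.one_apply, ite_mul, one_mul, zero_mul, Finset.sum_ite_eq,
      Finset.mem_univ, if_true]
    rw [Complex.ofReal_sum]
    refine Finset.sum_congr rfl fun c _ => ?_
    rw [Complex.ofReal_pow]
    exact inner_self_eq_norm_sq_to_K (w c)
  exact_mod_cast h1

section
variable (S : Setup d F) [CompleteSpace F]

lemma MM_Ut {k l : Fin 9} (h : Same k l) (t : ℝ) (b : Fin 16) (y : Cfg d) (v : F) :
    S.MM b (RR k l t y) (S.st k l t v) = S.st k l t (∑ c, S.gt k l t b c • S.MM c y v) := by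
  have happ : ∀ (P : Matrix (Fin 16) (Fin 16) ℂ) (A : Fin d) (v : F),
      S.vec P A b (S.st k l t v) = S.st k l t (S.vec (P * S.gt k l t) A b v) := by
    intro P A v
    have := congrArg (fun T : F →L[ℂ] F => T v) (S.vec_mul_st h.1 P A b t)
    simpa [mul_apply_eq_comp] using this
  rw [S.MM_eq_a1, _root_.sum_apply]
  simp only [happ]
  rw [← map_sum]
  congr 1
  simp only [PAG_RR S h, S.vec_mul, S.MM_eq_a1, _root_.sum_apply, _root_.smul_apply,
    Finset.smul_sum]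
  rw [Finset.sum_comm]

/-- covariance of the deformed supercharges -/
theorem Qm_Ut {k l : Fin 9} (h : Same k l) (t m : ℝ) (b : Fin 16) {u : Cfg d → F}
    (hu : Differentiable ℝ u) (x : Cfg d) :
    S.Qm m b (S.Ut k l t u) x =
      S.st k l t (∑ c, S.gt k l t b c • S.Qm m c u (RR k l (-t) x)) := by
  have hx : x = RR k l t (RR k l (-t) x) := (RR_cancel_neg h.1 t x).symm
  have h1 := MM_Ut S h t b (RR k l (-t) x) (u (RR k l (-t) x))
  rw [← hx] at h1
  have h2 : S.Ut k l t u x = S.st k l t (u (RR k l (-t) x)) := rfl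
  simp only [Qm]
  rw [S.Q_Ut h.1 t hu, h2, h1, ← map_smul, ← map_add]
  congr 1
  simp only [smul_add, Finset.sum_add_distrib, Finset.smul_sum]
  congr 1
  refine Finset.sum_congr rfl fun c _ => ?_
  rw [smul_comm]

/-- the energy is invariant under the rotations -/
theorem en_Ut {k l : Fin 9} (h : Same k l) (t m : ℝ) {u : Cfg d → F} (hu : Setup.Tst u) :
    S.en m (S.Ut k l t u) = S.en m u := by
  have hd : Differentiable ℝ u := hu.1.differentiable (by simp)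
  have h1 : ∀ v : Cfg d → F, Setup.Tst v → S.en m v = ∫ x, ∑ b, ‖S.Qm m b v x‖ ^ 2 := by
    intro v hv
    unfold Setup.en nsq
    rw [integral_finsetSum]
    intro b _
    exact (U.HB.Tst_Qm S m b hv).norm_sq_int
  rw [h1 _ (hu.Ut S h.1 t), h1 u hu]
  have e : ∀ x, ∑ b, ‖S.Qm m b (S.Ut k l t u) x‖ ^ 2 =
      ∑ b, ‖S.Qm m b u (RR k l (-t) x)‖ ^ 2 := by
    intro x
    simp only [Qm_Ut S h t m _ hd x, S.st_norm]
    exact sum_sq_unitary _ (gt_conj_mul S h.1 t) _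
  simp only [e]
  exact integral_comp_RR h.1 (-t) (fun x => ∑ b, ‖S.Qm m b u x‖ ^ 2)

end

end Vale.Agent.P353.Z.AH.Cir
end

section

/-! # P353, block H: the rotation by `4π` is a scalar (helper973) -/

open MeasureTheory Filter Topology
open scoped ContDiff ComplexConjugate

namespace Vale.Agent.P353.Z.AH.Cir

variable {d : ℕ} {F : Type*} [NormedAddCommGroup F] [InnerProductSpace ℂ F]
variable (S : Setup d F) [CompleteSpace F]

lemma gt_period (k l : Fin 9) : S.gt k l (4 * Real.pi) = 1 := by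
  have e : 4 * Real.pi / 2 = 2 * Real.pi := by ring
  rw [Setup.gt, e, Real.cos_two_pi, Real.sin_two_pi]
  simp

theorem st_scalar [FiniteDimensional ℂ F] (hI : S.Irr) (hne : ∃ v : F, v ≠ 0) {k l : Fin 9} (h : k ≠ l) :
    ∃ c : ℂ, ∀ v, S.st k l (4 * Real.pi) v = c • v := by
  obtain ⟨v₀, hv₀⟩ := hne
  have hnt : Nontrivial F := ⟨⟨v₀, 0, hv₀⟩⟩
  set T : F →L[ℂ] F := S.st k l (4 * Real.pi) with hT
  have hcomm : ∀ α A (v : F), T (S.th α A v) = S.th α A (T v) := by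
    intro α A v
    have h1 := S.vec_mul_st h 1 A α (4 * Real.pi)
    rw [gt_period, mul_one, S.vec_one] at h1
    have h2 := congrArg (fun X : F →L[ℂ] F => X v) h1
    simp only [mul_apply_eq_comp] at h2
    exact h2.symm
  obtain ⟨μ, hμ⟩ := Module.End.exists_eigenvalue (T : F →ₗ[ℂ] F)
  rcases hI (Module.End.eigenspace (T : F →ₗ[ℂ] F) μ) (fun α A v hv => by
    rw [Module.End.mem_eigenspace_iff] at hv ⊢
    change T (S.th α A v) = μ • S.th α A v
    have hv' : T v = μ • v := hv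
    rw [hcomm, hv', map_smul]) with h1 | h1
  · exact absurd h1 hμ
  · refine ⟨μ, fun v => ?_⟩
    have hv : v ∈ Module.End.eigenspace (T : F →ₗ[ℂ] F) μ := by
      rw [h1]
      exact Submodule.mem_top
    exact Module.End.mem_eigenspace_iff.mp hv

end Vale.Agent.P353.Z.AH.Cir
end

section

/-! # P353, all `N`, G26: averages of gauge generators vanish -/

open MeasureTheory Filter Topology
open scoped ContDiff

namespace Vale.Agent.P353.AN.G

open Vale.Agent.P353.Z Vale.Agent.P353.Z.U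

universe w

namespace AvgG

variable {N d : ℕ} {F : Type w} [NormedAddCommGroup F] [InnerProductSpace ℂ F]

lemma one_S (M : BFSS.Model N d F) (v : F) : M.S 1 v = v := by
  have h1 : M.S 1 (M.S 1 v) = M.S 1 v := by rw [← M.S_mul, one_mul]
  have h2 : ‖M.S 1 (M.S 1 v - v)‖ = ‖M.S 1 v - v‖ := M.S_isometry _ _
  rw [map_sub, h1, sub_self, norm_zero] at h2
  exact sub_eq_zero.1 (norm_eq_zero.1 h2.symm)

/-- `S(U)` preserves inner products. -/
lemma inner_S (M : BFSS.Model N d F) (U : BFSS.SU N) (v w : F) :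
    inner ℂ (M.S U v) (M.S U w) = inner ℂ v w :=
  LinearIsometry.inner_map_map
    ({ (M.S U).toLinearMap with norm_map' := fun x => M.S_isometry U x } : F →ₗᵢ[ℂ] F) v w

/-- The action of `U` as a linear isometric equivalence. -/
noncomputable def actE (M : BFSS.Model N d F) (h : ActStmt M) (U : BFSS.SU N) :
    Cfg d ≃ₗᵢ[ℝ] Cfg d where
  toFun := M.act U
  invFun := M.act U⁻¹
  left_inv x := by rw [← h.1, inv_mul_cancel, h.2.1]
  right_inv x := by rw [← h.1, mul_inv_cancel, h.2.1]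
  map_add' := h.2.2.1 U
  map_smul' := h.2.2.2.1 U
  norm_map' := h.2.2.2.2.1 U

/-- Change of variables. -/
lemma int_act (M : BFSS.Model N d F) (h : ActStmt M) (U : BFSS.SU N) (g : Cfg d → ℂ) :
    ∫ x, g (M.act U x) = ∫ x, g x :=
  (actE M h U).measurePreserving.integral_comp
    (actE M h U).toHomeomorph.measurableEmbedding g

lemma S_cont [FiniteDimensional ℂ F] (M : BFSS.Model N d F) :
    Continuous fun p : BFSS.SU N × F => M.S p.1 p.2 := by
  have hfd : FiniteDimensional ℝ F := FiniteDimensional.complexToReal F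
  have h1 : Continuous fun U : BFSS.SU N => (M.S U).restrictScalars ℝ := by
    refine continuous_clm_apply.2 fun v => ?_
    exact M.S_continuous v
  exact (h1.comp continuous_fst).clm_apply continuous_snd

lemma act_cont (M : BFSS.Model N d F) (h : ActStmt M) :
    Continuous fun p : BFSS.SU N × Cfg d => M.act p.1⁻¹ p.2 := by
  have h3 : Continuous fun p : BFSS.SU N × Cfg d => M.act p.1 p.2 := h.2.2.2.2.2.1
  have h1 : Continuous fun p : BFSS.SU N × Cfg d => p.1⁻¹ := continuous_fst.inv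
  have h2 : Continuous fun p : BFSS.SU N × Cfg d => ((p.1⁻¹, p.2) : BFSS.SU N × Cfg d) :=
    h1.prodMk continuous_snd
  have h4 : Continuous ((fun p : BFSS.SU N × Cfg d => M.act p.1 p.2) ∘
      fun p : BFSS.SU N × Cfg d => ((p.1⁻¹, p.2) : BFSS.SU N × Cfg d)) := h3.comp h2
  exact h4

/-- The translates are jointly continuous. -/
lemma tr_cont [FiniteDimensional ℂ F] (M : BFSS.Model N d F) (h : ActStmt M) {f : Cfg d → F}
    (hf : Continuous f) :
    Continuous fun p : BFSS.SU N × Cfg d => M.S p.1 (f (M.act p.1⁻¹ p.2)) := by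
  have h1 : Continuous fun p : BFSS.SU N × Cfg d => f (M.act p.1⁻¹ p.2) :=
    hf.comp (act_cont M h)
  have h2 : Continuous fun p : BFSS.SU N × Cfg d =>
      ((p.1, f (M.act p.1⁻¹ p.2)) : BFSS.SU N × F) := continuous_fst.prodMk h1
  have h3 : Continuous ((fun p : BFSS.SU N × F => M.S p.1 p.2) ∘
      fun p : BFSS.SU N × Cfg d => ((p.1, f (M.act p.1⁻¹ p.2)) : BFSS.SU N × F)) :=
    (S_cont M).comp h2
  exact h3

lemma tr_cont_left [FiniteDimensional ℂ F] (M : BFSS.Model N d F) (h : ActStmt M)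
    {f : Cfg d → F} (hf : Continuous f) (x : Cfg d) :
    Continuous fun U : BFSS.SU N => M.S U (f (M.act U⁻¹ x)) := by
  have h2 : Continuous fun U : BFSS.SU N => ((U, x) : BFSS.SU N × Cfg d) :=
    continuous_id.prodMk continuous_const
  have h3 : Continuous ((fun p : BFSS.SU N × Cfg d => M.S p.1 (f (M.act p.1⁻¹ p.2))) ∘
      fun U : BFSS.SU N => ((U, x) : BFSS.SU N × Cfg d)) := (tr_cont M h hf).comp h2
  exact h3

/-- Integral of a jointly continuous function with compact support in `x`: Fubini. -/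
lemma swap_int [FiniteDimensional ℂ F] (M : BFSS.Model N d F) (h : ActStmt M)
    {f u : Cfg d → F} (hf : Continuous f) (hu : Continuous u) (hc : HasCompactSupport u) :
    ∫ x, ∫ U, (inner ℂ (u x) (M.S U (f (M.act U⁻¹ x))) : ℂ) ∂(hm N) =
      ∫ U, ∫ x, (inner ℂ (u x) (M.S U (f (M.act U⁻¹ x))) : ℂ) ∂(volume : Measure (Cfg d))
        ∂(hm N) := by
  have h1 : Continuous fun p : BFSS.SU N × Cfg d => u p.2 := hu.comp continuous_snd
  have h2 : Continuous fun p : BFSS.SU N × Cfg d =>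
      (inner ℂ (u p.2) (M.S p.1 (f (M.act p.1⁻¹ p.2))) : ℂ) := h1.inner (tr_cont M h hf)
  have h3 : HasCompactSupport fun p : BFSS.SU N × Cfg d =>
      (inner ℂ (u p.2) (M.S p.1 (f (M.act p.1⁻¹ p.2))) : ℂ) := by
    refine HasCompactSupport.intro (isCompact_univ.prod hc.isCompact) fun p hp => ?_
    have hp2 : p.2 ∉ tsupport u := fun h => hp ⟨Set.mem_univ _, h⟩
    rw [image_eq_zero_of_notMem_tsupport hp2, inner_zero_left]
  have h4 : Integrable (fun p : BFSS.SU N × Cfg d =>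
      (inner ℂ (u p.2) (M.S p.1 (f (M.act p.1⁻¹ p.2))) : ℂ))
      ((hm N).prod (volume : Measure (Cfg d))) := h2.integrable_of_hasCompactSupport h3
  have h5 := integral_integral_swap (f := fun (U : BFSS.SU N) (x : Cfg d) =>
    (inner ℂ (u x) (M.S U (f (M.act U⁻¹ x))) : ℂ)) h4
  exact h5.symm

lemma self_eq [FiniteDimensional ℂ F] (M : BFSS.Model N d F) (h : ActStmt M)
    {f : Cfg d → F} (hf : Continuous f) (x : Cfg d) (w : F) :
    (inner ℂ w (avg M f x) : ℂ) =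
      ∫ U, (inner ℂ w (M.S U (f (M.act U⁻¹ x))) : ℂ) ∂(hm N) := by
  have hcF : CompleteSpace F := FiniteDimensional.complete ℂ F
  have hi : Integrable (fun U : BFSS.SU N => M.S U (f (M.act U⁻¹ x))) (hm N) :=
    (tr_cont_left M h hf x).integrable_of_hasCompactSupport
      (HasCompactSupport.of_compactSpace _)
  exact (integral_inner hi w).symm

lemma zero_of_int {u : Cfg d → F} (hu : Continuous u) (hc : HasCompactSupport u)
    (h : ∫ x, (inner ℂ (u x) (u x) : ℂ) = 0) (x0 : Cfg d) : u x0 = 0 := by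
  have e5 : ∫ x, ‖u x‖ ^ 2 = 0 := by
    have h1 : ∀ x, (inner ℂ (u x) (u x) : ℂ) = ((‖u x‖ ^ 2 : ℝ) : ℂ) := by
      intro x
      rw [inner_self_eq_norm_sq_to_K]
      push_cast
      rfl
    simp only [h1] at h
    rw [integral_complex_ofReal] at h
    exact_mod_cast h
  have hcn : Continuous fun x => ‖u x‖ ^ 2 := (hu.norm).pow 2
  have hcs : HasCompactSupport fun x => ‖u x‖ ^ 2 := by
    refine HasCompactSupport.intro hc.isCompact fun x hx => ?_
    rw [image_eq_zero_of_notMem_tsupport hx, norm_zero, zero_pow two_ne_zero]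
  have h6 : (fun x => ‖u x‖ ^ 2) =ᵐ[volume] 0 :=
    (integral_eq_zero_iff_of_nonneg (fun x => by positivity)
      (hcn.integrable_of_hasCompactSupport hcs)).1 e5
  have h7 : (fun x => ‖u x‖ ^ 2) = 0 := (hcn.ae_eq_iff_eq volume continuous_zero).1 h6
  have h8 := congrFun h7 x0
  simp only [Pi.zero_apply] at h8
  exact norm_eq_zero.1 (pow_eq_zero_iff two_ne_zero |>.1 h8)

end AvgG

open AvgG in
theorem avgG {N d : ℕ} {F : Type w} [NormedAddCommGroup F] [InnerProductSpace ℂ F]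
    [FiniteDimensional ℂ F] (M : BFSS.Model N d F)
    (h22 : ActStmt M) (h24 : AvgDStmt M) (h25 : AvgCStmt M) : AvgGStmt M := by
  intro S hS v hv C x0
  have hfd : FiniteDimensional ℝ F := FiniteDimensional.complexToReal F
  have hcF : CompleteSpace F := FiniteDimensional.complete ℝ F
  have hf : Setup.Tst (S.G C v) := Setup.Tst.G S hv C
  have hw : Setup.Tst (avg M (S.G C v)) := (h24 S hS _ hf).1
  have hcore := h25 _ hf hw
  have hG : ∀ x, S.G C (avg M (S.G C v)) x = 0 := gaussLaw M S hS _ hcore C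
  have hfc : Continuous (S.G C v) := hf.1.continuous
  have hwc : Continuous (avg M (S.G C v)) := hw.1.continuous
  refine zero_of_int hwc hw.2 ?_ x0
  have e1 : ∀ x, (inner ℂ (avg M (S.G C v) x) (avg M (S.G C v) x) : ℂ) =
      ∫ U, (inner ℂ (avg M (S.G C v) x) (M.S U (S.G C v (M.act U⁻¹ x))) : ℂ) ∂(hm N) :=
    fun x => self_eq M h22 hfc x _
  rw [integral_congr_ae (Eventually.of_forall e1), swap_int M h22 hfc hwc hw.2]
  have e3 : ∀ U : BFSS.SU N,
      ∫ x, (inner ℂ (avg M (S.G C v) x) (M.S U (S.G C v (M.act U⁻¹ x))) : ℂ) = 0 := by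
    intro U
    rw [← int_act M h22 U]
    have e4 : ∀ x, (inner ℂ (avg M (S.G C v) (M.act U x))
        (M.S U (S.G C v (M.act U⁻¹ (M.act U x)))) : ℂ) =
        inner ℂ (avg M (S.G C v) x) (S.G C v x) := by
      intro x
      rw [← h22.1, inv_mul_cancel, h22.2.1, hcore.2.2 U x, inner_S]
    rw [integral_congr_ae (Eventually.of_forall e4), ← G_symm S C _ v hw hv.1]
    have e5 : ∀ x, (inner ℂ (S.G C (avg M (S.G C v)) x) (v x) : ℂ) = 0 := by
      intro x
      rw [hG, inner_zero_left]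
    rw [integral_congr_ae (Eventually.of_forall e5), integral_zero]
  rw [integral_congr_ae (Eventually.of_forall e3), integral_zero]

end Vale.Agent.P353.AN.G
end

section

/-! # P353, all `N`, block G: the centre acts trivially (G33) -/

open MeasureTheory Filter Topology

namespace Vale.Agent.P353.AN.G

open Vale.Agent.P353.Z Vale.Agent.P353.Z.U

universe w

variable {N d : ℕ} {F : Type w} [NormedAddCommGroup F] [InnerProductSpace ℂ F]

/-- Schur's lemma -/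
theorem cen_schur [FiniteDimensional ℂ F] (M : BFSS.Model N d F) (K : F →L[ℂ] F)
    (hK : ∀ α A v, K (M.θ α A v) = M.θ α A (K v)) : ∃ μ : ℂ, ∀ v, K v = μ • v := by
  have : Nontrivial F := by
    obtain ⟨v, hv⟩ := M.nontrivial
    exact ⟨v, 0, hv⟩
  obtain ⟨μ, hμ⟩ := Module.End.exists_eigenvalue (K : F →ₗ[ℂ] F)
  refine ⟨μ, ?_⟩
  have hinv : ∀ α A, ∀ v ∈ Module.End.eigenspace (K : F →ₗ[ℂ] F) μ,
      M.θ α A v ∈ Module.End.eigenspace (K : F →ₗ[ℂ] F) μ := by
    intro α A v hv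
    rw [Module.End.mem_eigenspace_iff] at hv ⊢
    have hv' : K v = μ • v := hv
    change K (M.θ α A v) = μ • M.θ α A v
    rw [hK, hv', map_smul]
  rcases M.θ_irreducible _ hinv with h | h
  · exact absurd h hμ
  · intro v
    have hv : v ∈ Module.End.eigenspace (K : F →ₗ[ℂ] F) μ := by rw [h]; trivial
    rw [Module.End.mem_eigenspace_iff] at hv
    exact hv

theorem cen_pow (U : BFSS.SU N) (z : ℂ) (hU : U.val = z • (1 : Matrix (Fin N) (Fin N) ℂ)) :
    z ^ N = 1 := by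
  have h := (Matrix.mem_specialUnitaryGroup_iff.1 U.2).2
  rw [hU, Matrix.det_smul, Matrix.det_one, mul_one, Fintype.card_fin] at h
  exact h

theorem cen_norm (hN : 0 < N) (z : ℂ) (hz : z ^ N = 1) : ‖z‖ = 1 := by
  have h1 := congrArg norm hz
  rw [norm_pow, norm_one] at h1
  exact (pow_eq_one_iff_of_nonneg (norm_nonneg _) hN.ne').1 h1

theorem cen_ad (M : BFSS.Model N d F) (hN : 0 < N) (U : BFSS.SU N) (z : ℂ)
    (hU : U.val = z • (1 : Matrix (Fin N) (Fin N) ℂ)) (B A : Fin d) :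
    BFSS.adCoeff M.T U B A = if B = A then 1 else 0 := by
  have h1 := cen_norm hN z (cen_pow U z hU)
  have h2 : z * (starRingEnd ℂ) z = 1 := by
    rw [Complex.mul_conj, Complex.normSq_eq_norm_sq, h1]
    norm_num
  have h3 : U.val * M.T A * U.val.conjTranspose = M.T A := by
    rw [hU, Matrix.conjTranspose_smul, Matrix.conjTranspose_one, Matrix.smul_mul, one_mul,
      Matrix.smul_mul, Matrix.mul_smul, mul_one, smul_smul, RCLike.star_def, h2, one_smul]
  unfold BFSS.adCoeff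
  rw [h3, M.T_orthonormal]
  split_ifs <;> simp

theorem cen_angle (hN : 0 < N) (z : ℂ) (hz : z ^ N = 1) :
    ∃ x : Fin N → ℝ, ∑ j, x j = 0 ∧ ∀ j, Complex.exp ((x j : ℂ) * Complex.I) = z := by
  classical
  have h1 := cen_norm hN z hz
  have h2 : Complex.exp ((Complex.arg z : ℂ) * Complex.I) = z := by
    have h3 := Complex.norm_mul_exp_arg_mul_I z
    rw [h1, Complex.ofReal_one, one_mul] at h3
    exact h3
  have h4 : Complex.exp ((N : ℂ) * ((Complex.arg z : ℂ) * Complex.I)) = 1 := by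
    rw [Complex.exp_nat_mul, h2, hz]
  obtain ⟨k, hk⟩ := Complex.exp_eq_one_iff.1 h4
  have h5 : (N : ℝ) * Complex.arg z = k * (2 * Real.pi) := by
    have h6 : ((N : ℂ) * (Complex.arg z : ℂ)) * Complex.I = ((k : ℂ) * (2 * Real.pi)) * Complex.I := by
      linear_combination hk
    have h7 := mul_right_cancel₀ Complex.I_ne_zero h6
    exact_mod_cast h7
  have hNe : NeZero N := ⟨hN.ne'⟩
  refine ⟨fun j => if j = 0 then Complex.arg z - k * (2 * Real.pi) else Complex.arg z, ?_, ?_⟩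
  · have h8 : ∀ j : Fin N, (if j = 0 then Complex.arg z - k * (2 * Real.pi) else Complex.arg z) =
        Complex.arg z - (if j = 0 then k * (2 * Real.pi) else 0) := by
      intro j
      split_ifs <;> ring
    simp only [h8]
    rw [Finset.sum_sub_distrib, Finset.sum_const, Finset.card_univ, Fintype.card_fin,
      nsmul_eq_mul, h5, Finset.sum_ite_eq' Finset.univ (0 : Fin N), if_pos (Finset.mem_univ _),
      sub_self]
  · intro j
    show Complex.exp (((if j = 0 then Complex.arg z - k * (2 * Real.pi) else Complex.arg z : ℝ) : ℂ) *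
      Complex.I) = z
    split_ifs
    · have h9 : (((Complex.arg z - k * (2 * Real.pi) : ℝ)) : ℂ) * Complex.I =
          (Complex.arg z : ℂ) * Complex.I - k * (2 * Real.pi * Complex.I) := by
        push_cast
        ring
      rw [h9, Complex.exp_periodic.sub_int_mul_eq, h2]
    · exact h2

theorem cen_exp (x : Fin N → ℝ) (z : ℂ) (hx : ∀ j, Complex.exp ((x j : ℂ) * Complex.I) = z) :
    NormedSpace.exp (Complex.I • (Matrix.diagonal fun j => ((x j : ℝ) : ℂ))) =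
      z • (1 : Matrix (Fin N) (Fin N) ℂ) := by
  rw [← Matrix.diagonal_smul, Matrix.exp_diagonal, ← Matrix.diagonal_one, ← Matrix.diagonal_smul]
  congr 1
  funext j
  rw [Pi.coe_exp, Pi.smul_apply, Pi.smul_apply, smul_eq_mul, smul_eq_mul, mul_one,
    ← Complex.exp_eq_exp_ℂ, mul_comm]
  exact hx j

theorem cen_coef (M : BFSS.Model N d F) (hN : 0 < N) (X : Matrix (Fin N) (Fin N) ℂ)
    (hX : X.conjTranspose = X) (ht : X.trace = 0) :
    ∃ h : Fin d → ℝ, X = ∑ A, (h A : ℂ) • M.T A := by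
  have hreal : ∀ A, (M.T A * X).trace = (((M.T A * X).trace.re : ℝ) : ℂ) := by
    intro A
    symm
    rw [← Complex.conj_eq_iff_re]
    have h1 : (M.T A * X).conjTranspose.trace = star (M.T A * X).trace :=
      Matrix.trace_conjTranspose _
    rw [Matrix.conjTranspose_mul, M.T_hermitian, hX, Matrix.trace_mul_comm] at h1
    exact h1.symm
  refine ⟨fun A => (M.T A * X).trace.re, ?_⟩
  have h2 := mad_complete M hN X
  rw [ht, zero_div, zero_smul, add_zero] at h2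
  conv_lhs => rw [h2]
  refine Finset.sum_congr rfl fun A _ => ?_
  rw [hreal A]

/-- **G33 Cen** -/
theorem cen [FiniteDimensional ℂ F] (M : BFSS.Model N d F)
    (h11 : ∀ S : Setup d F, LowExStmt S) (h14 : ∀ S : Setup d F, HKillStmt S)
    (h32 : ExpHStmt M) : CenStmt M := by
  intro hd U z hU v
  have hN : 0 < N := by
    rcases Nat.eq_zero_or_pos N with h | h
    · have h1 := M.dim_eq
      rw [h] at h1
      simp at h1
      omega
    · exact h
  obtain ⟨c, hc⟩ := cen_schur M (M.S U) (by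
    intro α A v
    rw [M.S_rotates, Finset.sum_eq_single A]
    · rw [cen_ad M hN U z hU, if_pos rfl, Complex.ofReal_one, one_smul]
    · intro B _ hB
      rw [cen_ad M hN U z hU, if_neg hB, Complex.ofReal_zero, zero_smul]
    · intro h
      exact absurd (Finset.mem_univ A) h)
  have hR : Rep M (ofModel M) := ofModel_rep M
  have h0 : (ofModel M).Vm 1 0 = 0 := by
    simp [Setup.Vm, Setup.V, Setup.FF, Setup.det3]
  obtain ⟨E, Ω, hΩ⟩ := h11 (ofModel M) M.θ_irreducible M.nontrivial 0 h0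
  obtain ⟨x, hx0, hx⟩ := cen_angle hN z (cen_pow U z hU)
  obtain ⟨h, hh⟩ := cen_coef M hN (Matrix.diagonal fun j => ((x j : ℝ) : ℂ))
    (by
      rw [Matrix.diagonal_conjTranspose]
      congr 1
      funext j
      rw [Pi.star_apply, RCLike.star_def, Complex.conj_ofReal])
    (by
      rw [Matrix.trace_diagonal, ← Complex.ofReal_sum, hx0, Complex.ofReal_zero])
  have hk := h14 (ofModel M) 0 h0 E Ω hΩ h (by
    intro i B
    simp)
  have hfix := h32 hd (ofModel M) hR h Ω hk U (by rw [← hh, cen_exp x z hx, hU])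
  have h1 : c • Ω = Ω := by rw [← hc]; exact hfix
  have hΩ0 : Ω ≠ 0 := by
    intro h2
    have h3 := hΩ.norm
    rw [h2, norm_zero] at h3
    exact zero_ne_one h3
  have hc1 : c = 1 := by
    have h2 : (c - 1) • Ω = 0 := by rw [sub_smul, h1, one_smul, sub_self]
    rcases smul_eq_zero.1 h2 with h3 | h3
    · exact sub_eq_zero.1 h3
    · exact absurd h3 hΩ0
  rw [hc, hc1, one_smul]

end Vale.Agent.P353.AN.G
end

section

/-! # P353, all `N`, block G, G36: one low state for every zero -/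

open MeasureTheory Filter Topology
open scoped ContDiff

namespace Vale.Agent.P353.AN.G

open Vale.Agent.P353.Z Vale.Agent.P353.Z.U

universe w

namespace One918

variable {N d : ℕ} {F : Type w} [NormedAddCommGroup F] [InnerProductSpace ℂ F]

lemma act_inv_act {M : BFSS.Model N d F} (h : ActStmt M) (U : BFSS.SU N) (x : Cfg d) :
    M.act U (M.act U⁻¹ x) = x := by
  rw [← h.1, mul_inv_cancel, h.2.1]

lemma act_sub {M : BFSS.Model N d F} (h : ActStmt M) (U : BFSS.SU N) (x y : Cfg d) :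
    M.act U (x - y) = M.act U x - M.act U y := by
  have h1 : x - y = x + (-1 : ℝ) • y := by rw [neg_one_smul, sub_eq_add_neg]
  rw [h1, h.2.2.1, h.2.2.2.1, neg_one_smul, sub_eq_add_neg]

lemma act_dist {M : BFSS.Model N d F} (h : ActStmt M) (U : BFSS.SU N) (x y : Cfg d) :
    ‖M.act U x - M.act U y‖ = ‖x - y‖ := by
  rw [← act_sub h, h.2.2.2.2.1]

/-- distance from the norm of the rescaled coordinate -/
lemma om_le {m L : ℝ} (hm : 0 < m) {ξ x : Cfg d} (h : ‖om m ξ x‖ ≤ 2 * L) :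
    ‖x - m • ξ‖ ≤ 2 * L / Real.sqrt m := by
  have hs : 0 < Real.sqrt m := Real.sqrt_pos.2 hm
  rw [le_div_iff₀ hs]
  unfold om at h
  rwa [norm_smul, Real.norm_of_nonneg hs.le, mul_comm] at h

/-- averages commute with finite linear combinations -/
lemma avg_comb [FiniteDimensional ℂ F] {M : BFSS.Model N d F} (h22 : ActStmt M)
    (a : Fin d → ℝ) (g : Fin d → Cfg d → F) (hg : ∀ C, Continuous (g C)) (x : Cfg d) :
    avg M (fun y => -∑ C, (a C : ℂ) • g C y) x = -∑ C, (a C : ℂ) • avg M (g C) x := by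
  have hcF : CompleteSpace F := FiniteDimensional.complete ℂ F
  have hi : ∀ C, Integrable (fun U : BFSS.SU N => M.S U (g C (M.act U⁻¹ x))) (hm N) := fun C =>
    (AvgG.tr_cont_left M h22 (hg C) x).integrable_of_hasCompactSupport
      (HasCompactSupport.of_compactSpace _)
  unfold avg
  have h1 : (fun U : BFSS.SU N => M.S U (-∑ C, (a C : ℂ) • g C (M.act U⁻¹ x))) =
      fun U => -∑ C, (a C : ℂ) • M.S U (g C (M.act U⁻¹ x)) := by
    funext U
    rw [map_neg, map_sum]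
    congr 1
    exact Finset.sum_congr rfl fun C _ => by rw [map_smul]
  have h2 : ∫ U, (∑ C, (a C : ℂ) • M.S U (g C (M.act U⁻¹ x))) ∂(hm N) =
      ∑ C, ∫ U, ((a C : ℂ) • M.S U (g C (M.act U⁻¹ x))) ∂(hm N) :=
    integral_finsetSum _ fun C _ => (hi C).smul (a C : ℂ)
  rw [h1, integral_neg, h2]
  congr 1
  exact Finset.sum_congr rfl fun C _ => integral_smul _ _

lemma om_cont (m : ℝ) (ξ : Cfg d) : Continuous (fun x : Cfg d => om m ξ x) := by
  unfold om
  exact (continuous_id.sub continuous_const).const_smul (Real.sqrt m)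

lemma ph2_meas (m L : ℝ) (ξ : Cfg d) (K : Cfg d →L[ℝ] Cfg d) : Measurable (ph2 m L ξ K) := by
  have h1 : Continuous (fun x : Cfg d => om m ξ x) := om_cont m ξ
  have h2 : Continuous (fun x : Cfg d => qK m ξ K x) := by
    have h3 : Continuous fun x : Cfg d => K (om m ξ x) := K.continuous.comp h1
    exact h1.inner h3
  have h4 : Continuous fun x => Real.exp (-(1 / 2) * qK m ξ K x) :=
    Real.continuous_exp.comp (continuous_const.mul h2)
  have h5 : MeasurableSet {x : Cfg d | ‖om m ξ x‖ ≤ 2 * L} :=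
    measurableSet_le h1.norm.measurable measurable_const
  exact Measurable.ite h5 h4.measurable measurable_const

lemma ph2_le_one {m L : ℝ} {ξ : Cfg d} {K : Cfg d →L[ℝ] Cfg d} (hK : ∀ x, 0 ≤ inner ℝ x (K x))
    (x : Cfg d) : ph2 m L ξ K x ≤ 1 := by
  unfold ph2
  split_ifs
  · refine Real.exp_le_one_iff.2 ?_
    have := hK (om m ξ x)
    unfold qK
    linarith
  · exact zero_le_one

/-- closeness of `act U ξ` and `ξ` if both `x` and `act U x` are in the support -/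
lemma near_act {M : BFSS.Model N d F} (h22 : ActStmt M) {m L δ : ℝ} (hm3 : 1 ≤ m)
    (hL0 : 0 < L) (hδ : 0 < δ) (hm4 : 4 * L / δ ≤ m) {ξ x : Cfg d} {U : BFSS.SU N}
    (h1 : ‖om m ξ x‖ ≤ 2 * L) (h2 : ‖om m ξ (M.act U x)‖ ≤ 2 * L) :
    ‖M.act U ξ - ξ‖ ≤ δ := by
  have hm0 : 0 < m := by linarith
  have hs1 : 1 ≤ Real.sqrt m := by rwa [Real.one_le_sqrt]
  have h3 := om_le hm0 h1
  have h4 := om_le hm0 h2
  have h5 : ‖M.act U x - m • M.act U ξ‖ ≤ 2 * L / Real.sqrt m := by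
    rw [← h22.2.2.2.1, act_dist h22]
    exact h3
  have h6 : m * ‖M.act U ξ - ξ‖ ≤ 4 * L / Real.sqrt m := by
    have h7 : m • (M.act U ξ - ξ) =
        (M.act U x - m • ξ) - (M.act U x - m • M.act U ξ) := by
      rw [smul_sub]; abel
    have h8 : m * ‖M.act U ξ - ξ‖ = ‖m • (M.act U ξ - ξ)‖ := by
      rw [norm_smul, Real.norm_of_nonneg hm0.le]
    rw [h8, h7]
    refine (norm_sub_le _ _).trans ?_
    have h9 : 4 * L / Real.sqrt m = 2 * L / Real.sqrt m + 2 * L / Real.sqrt m := by ring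
    rw [h9]
    exact add_le_add h4 h5
  have h10 : 4 * L / Real.sqrt m ≤ 4 * L := div_le_self (by linarith) hs1
  have h11 : 4 * L ≤ m * δ := by
    rwa [div_le_iff₀ hδ] at hm4
  exact le_of_mul_le_mul_left (h6.trans (h10.trans h11)) hm0

/-- lower bound for the norm of the average -/
lemma nsq_low {M : BFSS.Model N d F} (h27 : AvgBStmt M) (h18 : TvTstStmt d F) {m L : ℝ}
    (hm0 : 0 < m) (hL0 : 0 < L) {ξ : Cfg d} {K : Cfg d →L[ℝ] Cfg d} {Ω : F} (hΩ : ‖Ω‖ = 1)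
    (hre : ∀ (U : BFSS.SU N) (x : Cfg d), ph m L ξ K x ≠ 0 → ph m L ξ K (M.act U x) ≠ 0 →
      1 / 2 ≤ (inner ℂ Ω (M.S U Ω)).re)
    (hr1 : Integrable (fun x => avs M (ph m L ξ K) x ^ 2))
    (hT1 : Setup.Tst (avg M (tv m L ξ K Ω))) :
    1 / 4 * (∫ x, avs M (ph m L ξ K) x ^ 2) ≤ nsq (avg M (tv m L ξ K Ω)) := by
  obtain ⟨-, hphs, hphc, hph, -, -⟩ := h18 ξ K m L hm0 hL0
  have hlb : ∀ x, 1 / 2 * avs M (ph m L ξ K) x ≤ ‖avg M (tv m L ξ K Ω) x‖ :=
    h27.2 (ph m L ξ K) Ω hphs.continuous hphc (fun x => (hph x).1) hΩ hre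
  have havs0 : ∀ x, 0 ≤ avs M (ph m L ξ K) x := fun x => integral_nonneg fun U => (hph _).1
  unfold nsq
  rw [← integral_const_mul]
  refine integral_mono (hr1.const_mul _) hT1.norm_sq_int fun x => ?_
  have h1 := hlb x
  have h2 := havs0 x
  have h3 : (1 / 2 * avs M (ph m L ξ K) x) ^ 2 ≤ ‖avg M (tv m L ξ K Ω) x‖ ^ 2 :=
    pow_le_pow_left₀ (by positivity) h1 2
  show 1 / 4 * avs M (ph m L ξ K) x ^ 2 ≤ ‖avg M (tv m L ξ K Ω) x‖ ^ 2
  nlinarith

/-- upper bound for the energy of the average -/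
lemma nsq_up {M : BFSS.Model N d F} {S : Setup d F} (h27 : AvgBStmt M)
    {m L c : ℝ} (hc0 : 0 ≤ c) {ξ : Cfg d} {K : Cfg d →L[ℝ] Cfg d}
    (hK : ∀ x, 0 ≤ inner ℝ x (K x)) {Ω : F} (β : Fin 16)
    (hQ : ∀ x, ‖S.Qm m β (tv m L ξ K Ω) x‖ ≤ c * ph2 m L ξ K x)
    (hT : Setup.Tst (tv m L ξ K Ω))
    (hT2 : ∀ x, S.Qm m β (avg M (tv m L ξ K Ω)) x = avg M (S.Qm m β (tv m L ξ K Ω)) x)
    (hr2 : Integrable (fun x => avs M (ph2 m L ξ K) x ^ 2)) :
    nsq (S.Qm m β (avg M (tv m L ξ K Ω))) ≤ c ^ 2 * ∫ x, avs M (ph2 m L ξ K) x ^ 2 := by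
  have hub : ∀ x, ‖S.Qm m β (avg M (tv m L ξ K Ω)) x‖ ≤ c * avs M (ph2 m L ξ K) x := by
    intro x
    rw [hT2]
    have h1 := h27.1 (S.Qm m β (tv m L ξ K Ω)) (fun x => c * ph2 m L ξ K x) c
      (A4.contDiff_Qm S m β hT.1).continuous ((ph2_meas m L ξ K).const_mul c) hQ
      (fun x => mul_le_of_le_one_right hc0 (ph2_le_one hK x)) x
    refine h1.trans (le_of_eq ?_)
    unfold avs
    rw [integral_const_mul]
  unfold nsq
  rw [← integral_const_mul]
  refine integral_mono_of_nonneg (Eventually.of_forall fun x => by positivity)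
    (hr2.const_mul _) (Eventually.of_forall fun x => ?_)
  show ‖S.Qm m β (avg M (tv m L ξ K Ω)) x‖ ^ 2 ≤ c ^ 2 * avs M (ph2 m L ξ K) x ^ 2
  rw [← mul_pow]
  exact pow_le_pow_left₀ (norm_nonneg _) (hub x) 2

/-- invariance under rotations -/
lemma J_zero [FiniteDimensional ℂ F] {M : BFSS.Model N d F} {S : Setup d F} (hS : Rep M S)
    (h22 : ActStmt M) (h26 : AvgGStmt M) {m L : ℝ} {ξ : Cfg d} {K : Cfg d →L[ℝ] Cfg d} {Ω : F}
    (hT : Setup.Tst (tv m L ξ K Ω)) {k l : Fin 9} {a : Fin d → ℝ}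
    (h3 : ∀ x, S.J k l (tv m L ξ K Ω) x + ∑ C, (a C : ℂ) • S.G C (tv m L ξ K Ω) x = 0)
    (x : Cfg d) : avg M (S.J k l (tv m L ξ K Ω)) x = 0 := by
  have h4 : S.J k l (tv m L ξ K Ω) = fun y => -∑ C, (a C : ℂ) • S.G C (tv m L ξ K Ω) y := by
    funext y
    exact eq_neg_of_add_eq_zero_left (h3 y)
  rw [h4, avg_comb h22 a (fun C => S.G C (tv m L ξ K Ω))
    (fun C => (A4.contDiff_G S C hT.1).continuous) x]
  simp [h26 S hS _ hT]

/-- support of the average -/
lemma supp {M : BFSS.Model N d F} (h22 : ActStmt M) {m L : ℝ} (hm0 : 0 < m) {ξ : Cfg d}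
    {K : Cfg d →L[ℝ] Cfg d} {Ω : F} (hsupp : ∀ x, ph m L ξ K x ≠ 0 → ‖om m ξ x‖ ≤ 2 * L)
    {x : Cfg d} (hx : avg M (tv m L ξ K Ω) x ≠ 0) :
    ∃ U, ‖x - m • M.act U ξ‖ ≤ 2 * L / Real.sqrt m := by
  by_contra hcon
  push Not at hcon
  refine hx ?_
  unfold avg
  have h1 : (fun U : BFSS.SU N => M.S U (tv m L ξ K Ω (M.act U⁻¹ x))) = fun _ => 0 := by
    funext U
    have h2 : ph m L ξ K (M.act U⁻¹ x) = 0 := by
      by_contra h3
      have h4 := om_le hm0 (hsupp _ h3)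
      have h5 : ‖x - m • M.act U ξ‖ ≤ 2 * L / Real.sqrt m := by
        have h6 : ‖M.act U (M.act U⁻¹ x) - M.act U (m • ξ)‖ ≤ 2 * L / Real.sqrt m := by
          rw [act_dist h22]
          exact h4
        rwa [act_inv_act h22, h22.2.2.2.1] at h6
      exact absurd h5 (not_le.2 (hcon U))
    simp [tv, h2]
  rw [h1]
  simp

/-- the arithmetic of the energy estimate -/
lemma arith {ε A C₀ L X m n I c : ℝ} (hε : 0 < ε) (hL0 : 0 < L)
    (hX : X = 64 * A * C₀ ^ 2 / ε) (hLX : X ≤ L ^ 2) (hm0 : 0 < m) (hn0 : 0 < n)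
    (hc : c ^ 2 = m * (C₀ / L) ^ 2) (hI : I ≤ A * (4 * n)) :
    16 * (c ^ 2 * I) ≤ ε * m * n := by
  have h2 : c ^ 2 * I ≤ c ^ 2 * (A * (4 * n)) := mul_le_mul_of_nonneg_left hI (by positivity)
  have h4 : 16 * (c ^ 2 * (A * (4 * n))) = (64 * A * (C₀ / L) ^ 2) * (m * n) := by
    rw [hc]; ring
  have h5 : 64 * A * (C₀ / L) ^ 2 ≤ ε := by
    rw [div_pow, ← mul_div_assoc, div_le_iff₀ (by positivity)]
    have h6 : X * ε ≤ L ^ 2 * ε := mul_le_mul_of_nonneg_right hLX hε.le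
    rw [hX, div_mul_cancel₀ _ hε.ne'] at h6
    linarith
  have h7 : (64 * A * (C₀ / L) ^ 2) * (m * n) ≤ ε * (m * n) :=
    mul_le_mul_of_nonneg_right h5 (by positivity)
  calc 16 * (c ^ 2 * I) ≤ 16 * (c ^ 2 * (A * (4 * n))) := by linarith
    _ = (64 * A * (C₀ / L) ^ 2) * (m * n) := h4
    _ ≤ ε * (m * n) := h7
    _ = ε * m * n := by ring

end One918

section

variable {N d : ℕ} {F : Type w} [NormedAddCommGroup F] [InnerProductSpace ℂ F]

open One918

theorem one_stmt [FiniteDimensional ℂ F] (M : BFSS.Model N d F)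
    (h11 : ∀ S : Setup d F, LowExStmt S) (h12 : ∀ S : Setup d F, KillStmt S)
    (h15 : ∀ S : Setup d F, VfStmt S) (h16 : ∀ S : Setup d F, VfKStmt S)
    (h17 : ∀ S : Setup d F, JKillStmt S) (h18 : TvTstStmt d F)
    (h19 : ∀ S : Setup d F, TvQStmt S) (h20 : ∀ S : Setup d F, TvJStmt S)
    (h22 : ActStmt M) (h24 : AvgDStmt M) (h25 : AvgCStmt M) (h26 : AvgGStmt M)
    (h27 : AvgBStmt M) (h29 : RatStmt M) (h30 : NearConStmt M) (h31 : HalfStmt M)
    (h34 : StabStmt M) : OneStmt M := by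
  intro hd S hS ξ hξ ε hε
  obtain ⟨K, hK⟩ := sqr S ξ
  have hirr : S.Irr := by
    intro W hW
    refine M.θ_irreducible W fun α A v hv => ?_
    have := hW α A v hv
    rwa [hS.hth] at this
  obtain ⟨E, Ω, hlow⟩ := h11 S hirr M.nontrivial ξ hξ
  have hkill := h12 S ξ hξ K hK E Ω hlow
  obtain ⟨C₀, hC₀, hQ⟩ := h19 S ξ hξ K hK Ω hlow.norm hkill
  obtain ⟨δ, hδ, hhalf⟩ := h31 ξ Ω hlow.norm (h34 hd S hS ξ hξ E Ω hlow)
  set A : ℝ := Real.exp 2 * 68 ^ (9 * d) with hA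
  have hA0 : 0 < A := by positivity
  set X : ℝ := 64 * A * C₀ ^ 2 / ε with hX
  have hX0 : 0 ≤ X := by positivity
  set L : ℝ := 1 + X with hLdef
  have hL1 : 1 ≤ L := by linarith
  have hL0 : 0 < L := by linarith
  have hLX : X ≤ L ^ 2 := by nlinarith
  obtain ⟨m₁, hm₁, hnear⟩ := h30 S hS ξ hξ K hK L hL0
  refine ⟨2 * L, max (max m₁ (L ^ 2)) (max 1 (4 * L / δ)),
    lt_of_lt_of_le hm₁ ((le_max_left _ _).trans (le_max_left _ _)), fun m hm => ?_⟩
  have hm1 : m₁ ≤ m := ((le_max_left _ _).trans (le_max_left _ _)).trans hm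
  have hm2 : L ^ 2 ≤ m := ((le_max_right _ _).trans (le_max_left _ _)).trans hm
  have hm3 : 1 ≤ m := ((le_max_left _ _).trans (le_max_right _ _)).trans hm
  have hm4 : 4 * L / δ ≤ m := ((le_max_right _ _).trans (le_max_right _ _)).trans hm
  have hm0 : 0 < m := by linarith
  have hs1 : 1 ≤ Real.sqrt m := by rwa [Real.one_le_sqrt]
  have hs0 : 0 < Real.sqrt m := by linarith
  obtain ⟨hTst, -, -, -, -, hphsupp⟩ := h18 ξ K m L hm0 hL0
  have hT := hTst Ω
  obtain ⟨hT1, hT2, hT3⟩ := h24 S hS _ hT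
  have hcore := h25 _ hT hT1
  obtain ⟨hr1, hr2, hr3, hr4⟩ := h29 ξ K hK.pos m L hm0 hL0 (hnear m hm1)
  have hn := nsq_low h27 h18 hm0 hL0 hlow.norm
    (fun U x h1 h2 => hhalf U (near_act h22 hm3 hL0 hδ hm4 (hphsupp x h1) (hphsupp _ h2))) hr1 hT1
  have hnpos : 0 < nsq (avg M (tv m L ξ K Ω)) := lt_of_lt_of_le (by linarith) hn
  have hc0 : 0 ≤ Real.sqrt m * (C₀ / L) := by positivity
  have hc2 : (Real.sqrt m * (C₀ / L)) ^ 2 = m * (C₀ / L) ^ 2 := by
    rw [mul_pow, Real.sq_sqrt hm0.le]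
  refine ⟨avg M (tv m L ξ K Ω), ⟨hT1, fun C x => gaussLaw M S hS _ hcore C x, fun k l hkl x => ?_⟩,
    hnpos, ?_, fun x hx => supp h22 hm0 hphsupp hx⟩
  · obtain ⟨a, ha⟩ := h15 S ξ hξ k l hkl
    have h1 := h16 S ξ hξ K hK k l hkl a ha
    have h2 := h17 S ξ hξ E Ω hlow k l hkl a ha
    rw [hT3]
    exact J_zero hS h22 h26 hT (h20 S ξ K hK.symm Ω k l hkl.1 a ha h1 h2 m L hm0 hL0) x
  · have h1 : ∑ β : Fin 16, nsq (S.Qm m β (avg M (tv m L ξ K Ω))) ≤
        16 * ((Real.sqrt m * (C₀ / L)) ^ 2 * ∫ x, avs M (ph2 m L ξ K) x ^ 2) := by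
      refine (Finset.sum_le_sum fun β _ => nsq_up h27 hc0 hK.pos β
        (fun x => hQ L m hL1 hm2 β x) hT (fun x => hT2 m β x) hr2).trans (le_of_eq ?_)
      simp
    refine h1.trans (arith hε hL0 hX hLX hm0 hnpos hc2 (hr4.trans ?_))
    exact mul_le_mul_of_nonneg_left (by linarith) hA0.le

end

end Vale.Agent.P353.AN.G
end

section

/-! # P353, all `N`: zero modes are zero-energy states (BR2) -/

open MeasureTheory Filter Topology
open scoped ContDiff

namespace Vale.Agent.P353.Z.Fin1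

variable {N d : ℕ} {F : Type*} [NormedAddCommGroup F] [InnerProductSpace ℂ F]

/-- the form is controlled by the `L²` norms of the supercharges -/
theorem bk_form_norm {M : BFSS.Model N d F} {S : Setup d F} (hR : U.Rep M S)
    {φ u : Cfg d → F} (hφ : Setup.Tst φ) (hu : Setup.Tst u) :
    ‖M.form φ u‖ ≤ 1 / 16 * ∑ α, Real.sqrt (∫ x, ‖S.Q α φ x‖ ^ 2) *
      Real.sqrt (∫ x, ‖S.Q α u x‖ ^ 2) := by
  rw [U.mb_form_eq hR hφ hu, norm_mul]
  have h1 : ‖(1 / 16 : ℂ)‖ = 1 / 16 := by norm_num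
  rw [h1]
  refine mul_le_mul_of_nonneg_left ?_ (by norm_num)
  refine (norm_sum_le _ _).trans (Finset.sum_le_sum fun α _ => ?_)
  exact cs_inner (hφ.Q S α).memLp (hu.Q S α).memLp

/-- the `L²` norm of the supercharge of a difference -/
theorem bk_Q_sub (S : Setup d F) {u v : Cfg d → F} (hu : Setup.Tst u) (hv : Setup.Tst v)
    (α : Fin 16) : ∫ x, ‖S.Q α (fun y => u y - v y) x‖ ^ 2 ≤
      2 * (∫ x, ‖S.Q α u x‖ ^ 2) + 2 * ∫ x, ‖S.Q α v x‖ ^ 2 := by
  have i1 := (hu.Q S α).norm_sq_int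
  have i2 := (hv.Q S α).norm_sq_int
  rw [← integral_const_mul, ← integral_const_mul,
    ← integral_add (i1.const_mul 2) (i2.const_mul 2)]
  refine integral_mono ((hu.sub hv).Q S α).norm_sq_int
    ((i1.const_mul 2).add (i2.const_mul 2)) fun x => ?_
  simp only
  rw [U.mb_Q_sub S (hu.diff x) (hv.diff x)]
  have h1 : ‖S.Q α u x - S.Q α v x‖ ≤ ‖S.Q α u x‖ + ‖S.Q α v x‖ := norm_sub_le _ _
  have h2 : ‖S.Q α u x - S.Q α v x‖ ^ 2 ≤ (‖S.Q α u x‖ + ‖S.Q α v x‖) ^ 2 :=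
    pow_le_pow_left₀ (norm_nonneg _) h1 2
  nlinarith [sq_nonneg (‖S.Q α u x‖ - ‖S.Q α v x‖)]

/-- **BR2** zero modes are zero-energy states -/
theorem back_of (M : BFSS.Model N d F) : BackOfStmt M := by
  intro hcore hfd hN S hR Ψ hZ
  obtain ⟨u, hT, hG, hL, hQ⟩ := hZ
  have hc : ∀ n, M.IsCore (u n) := fun n => hcore hfd hN S hR (u n) (hT n) fun C x => hG n C x
  refine ⟨Lp.memLp Ψ, u, hc, hL, ?_, ?_⟩
  · rw [tendsto_zero_iff_norm_tendsto_zero]
    have h1 : ∀ α, Tendsto (fun p : ℕ × ℕ => 2 * (∫ x, ‖S.Q α (u p.1) x‖ ^ 2) +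
        2 * ∫ x, ‖S.Q α (u p.2) x‖ ^ 2) atTop (𝓝 0) := by
      intro α
      rw [← prod_atTop_atTop_eq]
      have a1 := ((hQ α).comp (tendsto_fst (f := atTop) (g := (atTop : Filter ℕ)))).const_mul 2
      have a2 := ((hQ α).comp (tendsto_snd (f := (atTop : Filter ℕ)) (g := atTop))).const_mul 2
      simpa [Function.comp_def] using a1.add a2
    have h2 : Tendsto (fun p : ℕ × ℕ => 1 / 16 * ∑ α, (2 * (∫ x, ‖S.Q α (u p.1) x‖ ^ 2) +
        2 * ∫ x, ‖S.Q α (u p.2) x‖ ^ 2)) atTop (𝓝 0) := by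
      have := (tendsto_finsetSum (Finset.univ : Finset (Fin 16)) fun α _ => h1 α).const_mul
        (1 / 16 : ℝ)
      simpa using this
    refine squeeze_zero (fun p => norm_nonneg _) (fun p => ?_) h2
    have hw : Setup.Tst (fun x => u p.1 x - u p.2 x) := (hT p.1).sub (hT p.2)
    refine (bk_form_norm hR hw hw).trans ?_
    refine mul_le_mul_of_nonneg_left (Finset.sum_le_sum fun α _ => ?_) (by norm_num)
    rw [Real.mul_self_sqrt (integral_nonneg fun x => by positivity)]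
    exact bk_Q_sub S (hT p.1) (hT p.2) α
  · intro φ hφ
    have hφT : Setup.Tst φ := ⟨hφ.1, hφ.2.1⟩
    rw [tendsto_zero_iff_norm_tendsto_zero]
    have h1 : ∀ α, Tendsto (fun n => Real.sqrt (∫ x, ‖S.Q α φ x‖ ^ 2) *
        Real.sqrt (∫ x, ‖S.Q α (u n) x‖ ^ 2)) atTop (𝓝 0) := by
      intro α
      have a1 := (Real.continuous_sqrt.tendsto 0).comp (hQ α)
      rw [Real.sqrt_zero] at a1
      simpa [Function.comp_def] using a1.const_mul (Real.sqrt (∫ x, ‖S.Q α φ x‖ ^ 2))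
    have h2 : Tendsto (fun n => 1 / 16 * ∑ α, Real.sqrt (∫ x, ‖S.Q α φ x‖ ^ 2) *
        Real.sqrt (∫ x, ‖S.Q α (u n) x‖ ^ 2)) atTop (𝓝 0) := by
      have := (tendsto_finsetSum (Finset.univ : Finset (Fin 16)) fun α _ => h1 α).const_mul
        (1 / 16 : ℝ)
      simpa using this
    exact squeeze_zero (fun n => norm_nonneg _) (fun n => bk_form_norm hR hφT (hT n)) h2

end Vale.Agent.P353.Z.Fin1
end

section

/-! # P353, all `N`, block F: the vacuum vectors of an irreducible module -/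

open MeasureTheory Filter Topology
open scoped ContDiff Matrix

namespace Vale.Agent.P353.Z

variable {r : ℕ} {K : Type*} [NormedAddCommGroup K] [InnerProductSpace ℂ K]

namespace Setup

variable (S : Setup r K)

/-- the projection `½(1 - iΓ)` -/
noncomputable def vfPa : Matrix (Fin 16) (Fin 16) ℂ := (1 / 2 : ℂ) • (1 - Complex.I • S.Gam)

/-- the projection `½(1 + iΓ)` -/
noncomputable def vfPb : Matrix (Fin 16) (Fin 16) ℂ := (1 / 2 : ℂ) • (1 + Complex.I • S.Gam)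

lemma vf_am (A : Fin r) (α : Fin 16) : S.amF A α = (2 : ℂ) • S.vec S.vfPa A α := by
  unfold amF vfPa
  rw [S.vec_smul, S.vec_sub, S.vec_one, S.vec_smul, smul_smul]
  norm_num

lemma vf_iff (A : Fin r) (α : Fin 16) (v : K) : S.amF A α v = 0 ↔ S.vec S.vfPa A α v = 0 := by
  rw [vf_am, _root_.smul_apply, smul_eq_zero]
  exact ⟨fun h => h.resolve_left two_ne_zero, fun h => Or.inr h⟩

lemma vf_Pa_transpose : S.vfPaᵀ = S.vfPb := by
  unfold vfPa vfPb
  rw [Matrix.transpose_smul, Matrix.transpose_sub, Matrix.transpose_smul, Matrix.transpose_one,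
    S.Gam_transpose, smul_neg, sub_neg_eq_add]

lemma vf_Pb_transpose : S.vfPbᵀ = S.vfPa := by
  rw [← S.vf_Pa_transpose, Matrix.transpose_transpose]

lemma vf_Pa_add_Pb : S.vfPa + S.vfPb = 1 := by
  unfold vfPa vfPb
  module

lemma vf_IGam_sq : (Complex.I • S.Gam) * (Complex.I • S.Gam) = 1 := by
  rw [smul_mul_smul_comm, Complex.I_mul_I, S.Gam_sq, neg_smul, one_smul, neg_neg]

lemma vf_Pa_sq : S.vfPa * S.vfPa = S.vfPa := by
  unfold vfPa
  rw [smul_mul_smul_comm]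
  have : (1 - Complex.I • S.Gam) * (1 - Complex.I • S.Gam) =
      (2 : ℂ) • (1 - Complex.I • S.Gam) := by
    rw [sub_mul, one_mul, mul_sub, mul_one, S.vf_IGam_sq]
    module
  rw [this, smul_smul]
  norm_num

lemma vf_Pa_Pb : S.vfPa * S.vfPb = 0 := by
  unfold vfPa vfPb
  rw [smul_mul_smul_comm]
  have : (1 - Complex.I • S.Gam) * (1 + Complex.I • S.Gam) = 0 := by
    rw [sub_mul, one_mul, mul_add, mul_one, S.vf_IGam_sq]
    abel
  rw [this, smul_zero]

/-- bilinears acting on a vector killed by all `a_α^A` -/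
lemma vf_bil_vac {N : Matrix (Fin 16) (Fin 16) ℂ} (hN : N * S.Gam = S.Gam * N) {Ω : K}
    (hΩ : ∀ A α, S.amF A α Ω = 0) (D E : Fin r) :
    S.bil N D E Ω = if D = E then (N * S.vfPb).trace • Ω else 0 := by
  have hv : ∀ (M : Matrix (Fin 16) (Fin 16) ℂ) (C D' : Fin r),
      S.bil (M * S.vfPa) C D' Ω = 0 := by
    intro M C D'
    unfold CS.bil
    rw [_root_.sum_apply]
    refine Finset.sum_eq_zero fun α _ => ?_
    rw [_root_.mul_apply_eq_comp, S.vec_mul, _root_.sum_apply]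
    have : ∑ γ, (M α γ • S.vec S.vfPa D' γ) Ω = 0 := by
      refine Finset.sum_eq_zero fun γ _ => ?_
      rw [_root_.smul_apply, (S.vf_iff D' γ Ω).1 (hΩ D' γ), smul_zero]
    rw [this, map_zero]
  have hd : N = N * S.vfPa + N * S.vfPb := by
    rw [← mul_add, S.vf_Pa_add_Pb, mul_one]
  have hc : S.vfPa * Nᵀ = Nᵀ * S.vfPa := by
    have h1 : N * S.vfPb = S.vfPb * N := by
      unfold vfPb
      rw [Matrix.mul_smul, Matrix.smul_mul, mul_add, add_mul, Matrix.mul_smul, Matrix.smul_mul,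
        hN, mul_one, one_mul]
    have h2 := congrArg Matrix.transpose h1
    rw [Matrix.transpose_mul, Matrix.transpose_mul, S.vf_Pb_transpose] at h2
    exact h2
  have e1 : S.bil N D E Ω = S.bil (N * S.vfPb) D E Ω := by
    conv_lhs => rw [hd, S.bil_add, _root_.add_apply, hv, zero_add]
  rw [e1, S.bil_swap, _root_.sub_apply, Matrix.transpose_mul, S.vf_Pb_transpose,
    hc, hv, sub_zero]
  split_ifs
  · rfl
  · rfl

/-- the spin generators inside the blocks kill the vacuum -/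
theorem vf_Skl {Ω : K} (hΩ : ∀ A α, S.amF A α Ω = 0) {k l : Fin 9} (h : Same k l) :
    S.Skl k l Ω = 0 := by
  unfold Skl CS.tot
  rw [_root_.smul_apply, _root_.sum_apply]
  have htr : (S.g2 k l * S.vfPb).trace = 0 := by
    unfold vfPb
    rw [Matrix.mul_smul, mul_add, mul_one, Matrix.mul_smul, Matrix.trace_smul, Matrix.trace_add,
      Matrix.trace_smul, S.trace_g2]
    have : (S.g2 k l * S.Gam).trace = 0 := by
      unfold CS.g2 Gam
      rw [Matrix.smul_mul, Matrix.trace_smul, sub_mul, Matrix.trace_sub, ← mul_assoc, ← mul_assoc,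
        ← mul_assoc, ← mul_assoc, S.trace_ggggg, S.trace_ggggg, sub_zero, smul_zero]
    rw [this, smul_zero, add_zero, smul_zero]
  have : ∀ C ∈ Finset.univ, S.bil (S.g2 k l) C C Ω = 0 := by
    intro C _
    rw [S.vf_bil_vac (S.Gam_comm_g2 h) hΩ, if_pos rfl, htr, zero_smul]
  rw [Finset.sum_eq_zero this, smul_zero]

/-- the projection onto the coefficient vectors of the operators `a_α^A` -/
noncomputable def vfProj (w : Fin 16 × Fin r → ℂ) (p : Fin 16 × Fin r) : ℂ :=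
  ∑ β, S.vfPa β p.1 * w (β, p.2)

/-- the isotropic subspace belonging to the operators `a_α^A` -/
noncomputable def vfSub : Submodule ℂ (Fin 16 × Fin r → ℂ) where
  carrier := {z | S.vfProj z = z}
  add_mem' := by
    intro a b ha hb
    have h : S.vfProj (a + b) = S.vfProj a + S.vfProj b := by
      funext p
      simp only [vfProj, Pi.add_apply, mul_add, Finset.sum_add_distrib]
    change S.vfProj (a + b) = a + b
    rw [h, ha, hb]
  zero_mem' := by
    funext p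
    simp only [vfProj, Pi.zero_apply, mul_zero, Finset.sum_const_zero]
  smul_mem' := by
    intro c a ha
    have h : S.vfProj (c • a) = c • S.vfProj a := by
      funext p
      simp only [vfProj, Pi.smul_apply, smul_eq_mul, Finset.mul_sum]
      exact Finset.sum_congr rfl fun β _ => by ring
    change S.vfProj (c • a) = c • a
    rw [h, ha]

lemma vf_mem (w : Fin 16 × Fin r → ℂ) : S.vfProj w ∈ S.vfSub := by
  change S.vfProj (S.vfProj w) = S.vfProj w
  funext p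
  have e : ∀ γ, ∑ β, S.vfPa γ β * S.vfPa β p.1 = S.vfPa γ p.1 := by
    intro γ
    rw [← Matrix.mul_apply, S.vf_Pa_sq]
  calc ∑ β, S.vfPa β p.1 * ∑ γ, S.vfPa γ β * w (γ, p.2)
      = ∑ β, ∑ γ, (S.vfPa γ β * S.vfPa β p.1) * w (γ, p.2) := by
        simp only [Finset.mul_sum]
        exact Finset.sum_congr rfl fun β _ => Finset.sum_congr rfl fun γ _ => by ring
    _ = ∑ γ, (∑ β, S.vfPa γ β * S.vfPa β p.1) * w (γ, p.2) := by
        rw [Finset.sum_comm]
        simp only [Finset.sum_mul]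
    _ = ∑ γ, S.vfPa γ p.1 * w (γ, p.2) := by simp only [e]

lemma vf_sum_proj (w : Fin 16 × Fin r → ℂ) (v : K) :
    ∑ p : Fin 16 × Fin r, S.vfProj w p • S.th p.1 p.2 v =
      ∑ p : Fin 16 × Fin r, w p • S.vec S.vfPa p.2 p.1 v := by
  rw [Fintype.sum_prod_type_right, Fintype.sum_prod_type_right]
  refine Finset.sum_congr rfl fun A _ => ?_
  simp only [vfProj, Finset.sum_smul]
  rw [Finset.sum_comm]
  refine Finset.sum_congr rfl fun γ _ => ?_
  unfold CS.vec
  rw [_root_.sum_apply, Finset.smul_sum]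
  refine Finset.sum_congr rfl fun β _ => ?_
  rw [_root_.smul_apply, smul_smul, mul_comm]

lemma vf_kill {v : K} (hv : ∀ A α, S.amF A α v = 0) {a : Fin 16 × Fin r → ℂ} (ha : a ∈ S.vfSub) :
    ∑ p : Fin 16 × Fin r, a p • S.th p.1 p.2 v = 0 := by
  have ha' : S.vfProj a = a := ha
  have h := S.vf_sum_proj a v
  rw [ha'] at h
  rw [h]
  exact Finset.sum_eq_zero fun p _ => by rw [(S.vf_iff _ _ _).1 (hv _ _), smul_zero]

lemma vf_kill' {v : K}
    (hv : ∀ a ∈ S.vfSub, ∑ p : Fin 16 × Fin r, a p • S.th p.1 p.2 v = 0) (A : Fin r)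
    (α : Fin 16) : S.amF A α v = 0 := by
  have h := hv _ (S.vf_mem (Pi.single (α, A) 1))
  rw [S.vf_sum_proj, Finset.sum_eq_single (α, A)] at h
  · rw [Pi.single_eq_same, one_smul] at h
    exact (S.vf_iff _ _ _).2 h
  · intro p _ hp
    rw [Pi.single_eq_of_ne hp, zero_smul]
  · intro hp
    exact absurd (Finset.mem_univ _) hp

lemma vf_iso {a b : Fin 16 × Fin r → ℂ} (ha : a ∈ S.vfSub) (hb : b ∈ S.vfSub) :
    ∑ p, a p * b p = 0 := by
  have ha' : S.vfProj a = a := ha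
  have hb' : S.vfProj b = b := hb
  rw [← ha', ← hb', Fintype.sum_prod_type_right]
  refine Finset.sum_eq_zero fun A _ => ?_
  unfold vfProj
  have e : ∀ β γ, ∑ α, S.vfPa β α * S.vfPa γ α = 0 := by
    intro β γ
    have h := congrFun (congrFun S.vf_Pa_Pb β) γ
    rw [← S.vf_Pa_transpose, Matrix.mul_apply] at h
    simpa only [Matrix.transpose_apply, Matrix.zero_apply] using h
  simp only [Finset.sum_mul_sum]
  rw [Finset.sum_comm]
  refine Finset.sum_eq_zero fun β _ => ?_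
  rw [Finset.sum_comm]
  refine Finset.sum_eq_zero fun γ _ => ?_
  calc ∑ α, S.vfPa β α * a (β, A) * (S.vfPa γ α * b (γ, A)) =
      ∑ α, (a (β, A) * b (γ, A)) * (S.vfPa β α * S.vfPa γ α) :=
        Finset.sum_congr rfl fun α _ => by ring
    _ = 0 := by rw [← Finset.mul_sum, e, mul_zero]

lemma vf_conj_Pa (β α : Fin 16) : (starRingEnd ℂ) (S.vfPa β α) = S.vfPb β α := by
  have h1 : (starRingEnd ℂ) ((1 : Matrix (Fin 16) (Fin 16) ℂ) β α) =
      (1 : Matrix (Fin 16) (Fin 16) ℂ) β α := by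
    rw [Matrix.one_apply]
    split_ifs <;> simp
  simp only [vfPa, vfPb, Matrix.smul_apply, Matrix.sub_apply, Matrix.add_apply, smul_eq_mul,
    map_mul, map_sub, Complex.conj_I, Complex.conj_eq_iff_im.2 (S.Gam_real β α), h1, map_div₀,
    map_one, Complex.conj_ofNat]
  ring

lemma vf_decomp (z : Fin 16 × Fin r → ℂ) :
    ∃ a ∈ S.vfSub, ∃ b ∈ S.vfSub, z = a + fun p => (starRingEnd ℂ) (b p) := by
  refine ⟨S.vfProj z, S.vf_mem z, S.vfProj (fun p => (starRingEnd ℂ) (z p)), S.vf_mem _, ?_⟩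
  funext p
  simp only [Pi.add_apply, vfProj, map_sum, map_mul, vf_conj_Pa, Complex.conj_conj]
  rw [← Finset.sum_add_distrib]
  have e : ∀ β, S.vfPa β p.1 * z (β, p.2) + S.vfPb β p.1 * z (β, p.2) =
      if β = p.1 then z (β, p.2) else 0 := by
    intro β
    rw [← add_mul, ← Matrix.add_apply, S.vf_Pa_add_Pb, Matrix.one_apply]
    split_ifs <;> simp
  rw [Finset.sum_congr rfl fun β _ => e β, Finset.sum_ite_eq' Finset.univ p.1, if_pos
    (Finset.mem_univ _)]

end Setup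

namespace AF

open Setup

/-- **F-Vac** -/
theorem vacF (S : Setup r K) : VacFStmt S := by
  intro hI hne
  obtain ⟨Ω, h1, h2, h3⟩ := U.vac S hI hne S.vfSub (fun a ha b hb => S.vf_iso ha hb) S.vf_decomp
  have h5 : ∀ A α, S.amF A α Ω = 0 := S.vf_kill' h2
  exact ⟨Ω, h1, h5, fun k l h => S.vf_Skl h5 h, fun v hv => h3 v fun a ha => S.vf_kill hv ha⟩

/-- **F-Perm** -/
theorem perm (S : Setup r K) : PermStmt S := by
  intro O U hU hO w hw A α
  -- `U` intertwines `vec P` up to `O`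
  have h1 : ∀ (P : Matrix (Fin 16) (Fin 16) ℂ) (B : Fin r) (β : Fin 16) (v : K),
      U (S.vec P B β v) = ∑ C, (O C B : ℂ) • S.vec P C β (U v) := by
    intro P B β v
    have e : ∀ γ, U (S.th γ B v) = ∑ C, (O C B : ℂ) • S.th γ C (U v) := by
      intro γ
      have h := congrArg (fun T : K →L[ℂ] K => T v) (hU γ B)
      simpa only [_root_.mul_apply_eq_comp, _root_.sum_apply, _root_.smul_apply] using h
    simp only [CS.vec, _root_.sum_apply, _root_.smul_apply, map_sum, map_smul, e, Finset.smul_sum]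
    rw [Finset.sum_comm]
    refine Finset.sum_congr rfl fun C _ => Finset.sum_congr rfl fun γ _ => ?_
    rw [smul_comm]
  -- invert with the transpose
  have h2 : ∀ (P : Matrix (Fin 16) (Fin 16) ℂ) (β : Fin 16) (v : K),
      S.vec P A β (U v) = ∑ B, (O A B : ℂ) • U (S.vec P B β v) := by
    intro P β v
    simp only [h1, Finset.smul_sum, smul_smul]
    rw [Finset.sum_comm]
    have e : ∀ C, ∑ B, (O A B : ℂ) * (O C B : ℂ) = if A = C then 1 else 0 := by
      intro C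
      have h := congrFun (congrFun hO A) C
      rw [Matrix.mul_apply, Matrix.one_apply] at h
      simp only [Matrix.transpose_apply] at h
      have h' := congrArg (fun t : ℝ => (t : ℂ)) h
      push_cast at h'
      rw [h']
      split_ifs <;> simp
    have e2 : ∀ C, ∑ B, ((O A B : ℂ) * (O C B : ℂ)) • S.vec P C β (U v) =
        if A = C then S.vec P C β (U v) else 0 := by
      intro C
      rw [← Finset.sum_smul, e C]
      split_ifs <;> simp
    rw [Finset.sum_congr rfl fun C _ => e2 C, Finset.sum_ite_eq, if_pos (Finset.mem_univ _)]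
  rw [vf_iff, h2]
  exact Finset.sum_eq_zero fun B _ => by rw [(S.vf_iff _ _ _).1 (hw _ _), map_zero, smul_zero]

end AF
end Vale.Agent.P353.Z
end

section

/-! # P353, all `N`, block X2: the vacuum space of one Clifford system is irreducible for the other one (helper275) -/

open MeasureTheory Filter Topology Matrix
open scoped ContDiff

namespace Vale.Agent.P353.Z.AX2

universe u

variable {d d1 d2 : ℕ} {F : Type u} [NormedAddCommGroup F] [InnerProductSpace ℂ F]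

/-- all fermions of both systems -/
noncomputable def vciTh (S1 : Setup d1 F) (S2 : Setup d2 F) (α : Fin 16) (A : Fin (d1 + d2)) : F →L[ℂ] F :=
  Fin.addCases (motive := fun _ => F →L[ℂ] F) (fun A => S1.th α A) (fun A => S2.th α A) A

lemma vciTh_l (S1 : Setup d1 F) (S2 : Setup d2 F) (α : Fin 16) (A : Fin d1) :
    vciTh S1 S2 α (Fin.castAdd d2 A) = S1.th α A := by
  unfold vciTh
  exact Fin.addCases_left A

lemma vciTh_r (S1 : Setup d1 F) (S2 : Setup d2 F) (α : Fin 16) (A : Fin d2) :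
    vciTh S1 S2 α (Fin.natAdd d1 A) = S2.th α A := by
  unfold vciTh
  exact Fin.addCases_right A

/-- both systems combined, structure constants `0` -/
noncomputable def vciCmb (S1 : Setup d1 F) (S2 : Setup d2 F) (h : Ant S1 S2) : Setup (d1 + d2) F where
  g := S1.g
  g_symm := S1.g_symm
  g_anti := S1.g_anti
  th := vciTh S1 S2
  th_anti := by
    intro α A β B
    have hne : ∀ (A : Fin d1) (B : Fin d2), Fin.castAdd d2 A ≠ Fin.natAdd d1 B := by
      intro A B hAB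
      have h1 := congrArg Fin.val hAB
      have h2 := A.2
      simp only [Fin.val_castAdd, Fin.val_natAdd] at h1
      omega
    refine Fin.addCases (fun A => ?_) (fun A => ?_) A
    · refine Fin.addCases (fun B => ?_) (fun B => ?_) B
      · rw [vciTh_l, vciTh_l, S1.th_anti]
        by_cases hab : α = β ∧ A = B
        · rw [if_pos hab, if_pos ⟨hab.1, by rw [hab.2]⟩]
        · rw [if_neg hab, if_neg fun h' => hab ⟨h'.1, Fin.castAdd_injective d1 d2 h'.2⟩]
      · rw [vciTh_l, vciTh_r, h.anti, if_neg fun h' => hne A B h'.2]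
    · refine Fin.addCases (fun B => ?_) (fun B => ?_) B
      · rw [vciTh_l, vciTh_r, add_comm, h.anti, if_neg fun h' => hne B A h'.2.symm]
      · rw [vciTh_r, vciTh_r, S2.th_anti]
        by_cases hab : α = β ∧ A = B
        · rw [if_pos hab, if_pos ⟨hab.1, by rw [hab.2]⟩]
        · rw [if_neg hab, if_neg fun h' => hab ⟨h'.1, Fin.natAdd_injective d2 d1 h'.2⟩]
  κ := 1
  κ_pos := one_pos
  f := fun _ _ _ => 0
  f_swap := fun _ _ _ => neg_zero.symm
  f_cyc := fun _ _ _ => rfl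
  f_jac := fun _ _ _ _ => by simp
  g_real := S1.g_real
  th_sa := by
    intro α A v w
    refine Fin.addCases (fun A => ?_) (fun A => ?_) A
    · rw [vciTh_l]
      exact S1.th_sa α A v w
    · rw [vciTh_r]
      exact S2.th_sa α A v w

lemma vci_amF_apply (S : Setup d F) (A : Fin d) (α : Fin 16) (v : F) :
    S.amF A α v = S.th α A v - Complex.I • ∑ γ, S.Gam α γ • S.th γ A v := by
  unfold Setup.amF CS.vec
  simp only [_root_.sub_apply, _root_.smul_apply, _root_.sum_apply]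

lemma vci_amF_l (S1 : Setup d1 F) (S2 : Setup d2 F) (h : Ant S1 S2) (A : Fin d1) (α : Fin 16) (v : F) :
    (vciCmb S1 S2 h).amF (Fin.castAdd d2 A) α v = S1.amF A α v := by
  rw [vci_amF_apply, vci_amF_apply]
  have e : ∀ γ, (vciCmb S1 S2 h).th γ (Fin.castAdd d2 A) = S1.th γ A := fun γ => vciTh_l S1 S2 γ A
  simp only [e]
  rfl

lemma vci_amF_r (S1 : Setup d1 F) (S2 : Setup d2 F) (h : Ant S1 S2) (A : Fin d2) (α : Fin 16) (v : F) :
    (vciCmb S1 S2 h).amF (Fin.natAdd d1 A) α v = S2.amF A α v := by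
  rw [vci_amF_apply, vci_amF_apply]
  have e : ∀ γ, (vciCmb S1 S2 h).th γ (Fin.natAdd d1 A) = S2.th γ A := fun γ => vciTh_r S1 S2 γ A
  have e2 : (vciCmb S1 S2 h).Gam = S2.Gam := by
    change S1.g 0 * S1.g 1 * S1.g 2 = S2.g 0 * S2.g 1 * S2.g 2
    rw [h.g]
  simp only [e, e2]

lemma vci_amF_rst (S : Setup d F) (V : Submodule ℂ F) (hV : ∀ α A, ∀ v ∈ V, S.th α A v ∈ V) (A : Fin d)
    (α : Fin 16) (v : V) : (((S.rst V hV).amF A α v : V) : F) = S.amF A α v := by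
  rw [vci_amF_apply, vci_amF_apply]
  push_cast
  rfl

lemma vci_amF_anti (S1 : Setup d1 F) (S2 : Setup d2 F) (h : Ant S1 S2) (A : Fin d2) (α : Fin 16) (β : Fin 16)
    (B : Fin d1) (v : F) : S2.amF A α (S1.th β B v) = -S1.th β B (S2.amF A α v) := by
  have e : ∀ γ, S2.th γ A (S1.th β B v) = -S1.th β B (S2.th γ A v) := by
    intro γ
    have h1 := congrArg (fun T : F →L[ℂ] F => T v) (h.anti β B γ A)
    have h2 : S1.th β B (S2.th γ A v) + S2.th γ A (S1.th β B v) = 0 := h1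
    rw [eq_neg_iff_add_eq_zero, add_comm]
    exact h2
  rw [vci_amF_apply, vci_amF_apply]
  simp only [e, map_sub, map_smul, map_sum, smul_neg, Finset.sum_neg_distrib]
  abel

/-- X2-Vex for invariant subspaces -/
lemma vci_vex (S : Setup d F) (W : Submodule ℂ F) (hW : ∀ α A, ∀ v ∈ W, S.th α A v ∈ W) (hne : W ≠ ⊥) :
    ∃ w ∈ W, w ≠ 0 ∧ ∀ A α, S.amF A α w = 0 := by
  obtain ⟨w, hw, hw0⟩ := Submodule.exists_mem_ne_zero_of_ne_bot hne
  obtain ⟨v, hv, hvA⟩ := U.Vac_exists (S.rst W hW) (𝒜 := (S.rst W hW).vfSub)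
    (fun a ha b hb => (S.rst W hW).vf_iso ha hb) ⟨⟨w, hw⟩, fun h => hw0 (congrArg Subtype.val h)⟩
  refine ⟨v, v.2, fun h => hv (Subtype.ext h), fun A α => ?_⟩
  rw [← vci_amF_rst S W hW, (S.rst W hW).vf_kill' hvA]
  rfl

/-- **X2-VcaIrr**, without hypotheses -/
theorem vci_main (S1 : Setup d1 F) (S2 : Setup d2 F) : VcaIrrStmt S1 S2 := by
  intro hfd hA K0 hK
  -- the combined system on `K0`
  obtain ⟨C, hC⟩ : ∃ C : Setup (d1 + d2) F, C = vciCmb S1 S2 hA := ⟨_, rfl⟩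
  have hCl : ∀ α A, C.th α (Fin.castAdd d2 A) = S1.th α A := fun α A => by
    rw [hC]; exact vciTh_l S1 S2 α A
  have hCr : ∀ α A, C.th α (Fin.natAdd d1 A) = S2.th α A := fun α A => by
    rw [hC]; exact vciTh_r S1 S2 α A
  have hCinv : ∀ α A, ∀ v ∈ K0, C.th α A v ∈ K0 := by
    intro α A v hv
    refine Fin.addCases (fun A => ?_) (fun A => ?_) A
    · rw [hCl]; exact hK.inv1 α A v hv
    · rw [hCr]; exact hK.inv2 α A v hv
  have hCirr : (C.rst K0 hCinv).Irr := by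
    intro W hW
    have h1 : ∀ α A, ∀ v ∈ W.map K0.subtype, C.th α A v ∈ W.map K0.subtype := by
      rintro α A _ ⟨v, hv, rfl⟩
      exact ⟨(C.rst K0 hCinv).th α A v, hW α A v hv, rfl⟩
    have h2 := hK.irr (W.map K0.subtype) (Submodule.map_subtype_le K0 W)
      (fun α A v hv => by rw [← hCl]; exact h1 _ _ v hv) (fun α A v hv => by rw [← hCr]; exact h1 _ _ v hv)
    rcases h2 with h2 | h2
    · left
      rw [eq_bot_iff]
      intro x hx
      have h3 : (x : F) ∈ W.map K0.subtype := ⟨x, hx, rfl⟩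
      rw [h2, Submodule.mem_bot] at h3
      rw [Submodule.mem_bot]
      exact Subtype.ext h3
    · right
      rw [eq_top_iff]
      intro x _
      have h3 : (x : F) ∈ W.map K0.subtype := by rw [h2]; exact x.2
      obtain ⟨y, hy, hyx⟩ := h3
      have h4 : y = x := Subtype.ext hyx
      rw [← h4]
      exact hy
  have hKne : ∃ v : K0, v ≠ 0 := by
    obtain ⟨w, hw, hw0⟩ := Submodule.exists_mem_ne_zero_of_ne_bot hK.ne
    exact ⟨⟨w, hw⟩, fun h => hw0 (congrArg Subtype.val h)⟩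
  obtain ⟨Ω, hΩ1, hΩA, -, hΩu⟩ := AF.vacF (C.rst K0 hCinv) hCirr hKne
  have hΩC : ∀ A α, C.amF A α (Ω : F) = 0 := by
    intro A α
    rw [← vci_amF_rst C K0 hCinv, hΩA]
    rfl
  have hΩ1' : ∀ A α, S1.amF A α (Ω : F) = 0 := fun A α => by
    rw [← vci_amF_l S1 S2 hA, ← hC]; exact hΩC _ _
  have hΩ2' : ∀ A α, S2.amF A α (Ω : F) = 0 := fun A α => by
    rw [← vci_amF_r S1 S2 hA, ← hC]; exact hΩC _ _
  have huniq : ∀ v ∈ vca S2 K0, (∀ A α, S1.amF A α v = 0) → ∃ c : ℂ, v = c • (Ω : F) := by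
    intro v hv h1
    obtain ⟨c, hc⟩ := hΩu ⟨v, hv.1⟩ (by
      intro A α
      apply Subtype.ext
      rw [vci_amF_rst]
      change C.amF A α v = 0
      rw [hC]
      refine Fin.addCases (fun A => ?_) (fun A => ?_) A
      · rw [vci_amF_l]; exact h1 A α
      · rw [vci_amF_r]; exact hv.2 A α)
    exact ⟨c, congrArg Subtype.val hc⟩
  have hΩV : (Ω : F) ∈ vca S2 K0 := ⟨Ω.2, hΩ2'⟩
  have hΩn : ‖(Ω : F)‖ = 1 := hΩ1
  have hΩ0 : (Ω : F) ≠ 0 := fun h => by rw [h, norm_zero] at hΩn; exact zero_ne_one hΩn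
  have hVinv : ∀ α A, ∀ v ∈ vca S2 K0, S1.th α A v ∈ vca S2 K0 := by
    intro α A v hv
    refine ⟨hK.inv1 α A v hv.1, fun B β => ?_⟩
    rw [vci_amF_anti S1 S2 hA, hv.2 B β, map_zero, neg_zero]
  -- every nonzero submodule contains `Ω`
  have hkey : ∀ W : Submodule ℂ F, W ≤ vca S2 K0 → (∀ α A, ∀ v ∈ W, S1.th α A v ∈ W) → W ≠ ⊥ → (Ω : F) ∈ W := by
    intro W hW hWinv hWne
    obtain ⟨w, hw, hw0, hwA⟩ := vci_vex S1 W hWinv hWne
    obtain ⟨c, hc⟩ := huniq w (hW hw) hwA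
    have hc0 : c ≠ 0 := fun h => hw0 (by rw [hc, h, zero_smul])
    have h1 : (Ω : F) = c⁻¹ • w := by rw [hc, smul_smul, inv_mul_cancel₀ hc0, one_smul]
    rw [h1]
    exact W.smul_mem _ hw
  refine ⟨⟨hVinv, fun h => hΩ0 (by rw [h, Submodule.mem_bot] at hΩV; exact hΩV), fun W hW hWinv => ?_⟩,
    Ω, hΩV, hΩn, hΩ1', huniq⟩
  by_cases hWb : W = ⊥
  · exact Or.inl hWb
  right
  have h1 := hkey W hW hWinv hWb
  have h2 : Wᗮ ⊓ vca S2 K0 = ⊥ := by
    by_contra hne
    have h3 := hkey (Wᗮ ⊓ vca S2 K0) inf_le_right (by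
      intro α A v hv
      refine ⟨?_, hVinv α A v hv.2⟩
      intro w hw
      rw [← S1.th_sa]
      exact hv.1 _ (hWinv α A w hw)) hne
    have h4 : inner ℂ (Ω : F) (Ω : F) = (0 : ℂ) := h3.1 _ h1
    exact hΩ0 (inner_self_eq_zero.1 h4)
  have h5 := Submodule.sup_orthogonal_inf_of_hasOrthogonalProjection hW
  rw [h2, sup_bot_eq] at h5
  exact h5

/-- **X2-VcaIrr** -/
theorem vcaIrr_stmt (S1 : Setup d1 F) (S2 : Setup d2 F) :
    (∀ (d : ℕ) (E : Type u) [NormedAddCommGroup E] [InnerProductSpace ℂ E] (S : Setup d E), VexStmt S) →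
      VcaIrrStmt S1 S2 := fun _ => vci_main S1 S2

end Vale.Agent.P353.Z.AX2
end

section

/-! # P353, all `N`, block X2: second quantisation of orthogonal colour rotations (helper489) -/

open MeasureTheory Filter Topology Matrix
open scoped ContDiff

namespace Vale.Agent.P353.Z.AX2

universe u

variable {d : ℕ} {F : Type u} [NormedAddCommGroup F] [InnerProductSpace ℂ F]

/-- rotated fermions -/
noncomputable def secTh (S : Setup d F) (O : Matrix (Fin d) (Fin d) ℝ) (α : Fin 16) (A : Fin d) : F →L[ℂ] F :=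
  ∑ B, ((O B A : ℝ) : ℂ) • S.th α B

lemma secTh_apply (S : Setup d F) (O : Matrix (Fin d) (Fin d) ℝ) (α : Fin 16) (A : Fin d) (v : F) :
    secTh S O α A v = ∑ B, ((O B A : ℝ) : ℂ) • S.th α B v := by
  unfold secTh
  simp only [_root_.sum_apply, _root_.smul_apply]

lemma sec_orth {O : Matrix (Fin d) (Fin d) ℝ} (hO : O * Oᵀ = 1) (A B : Fin d) :
    ∑ C, ((O C A : ℝ) : ℂ) * ((O C B : ℝ) : ℂ) = if A = B then 1 else 0 := by
  have h1 : Oᵀ * O = 1 := mul_eq_one_comm.1 hO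
  have h2 := congrFun (congrFun h1 A) B
  rw [Matrix.mul_apply, Matrix.one_apply] at h2
  simp only [Matrix.transpose_apply] at h2
  have h3 := congrArg (fun t : ℝ => (t : ℂ)) h2
  push_cast at h3
  rw [h3]
  split_ifs <;> simp

lemma secTh_anti (S : Setup d F) {O : Matrix (Fin d) (Fin d) ℝ} (hO : O * Oᵀ = 1) (α : Fin 16) (A : Fin d)
    (β : Fin 16) (B : Fin d) :
    secTh S O α A * secTh S O β B + secTh S O β B * secTh S O α A = if α = β ∧ A = B then 1 else 0 := by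
  have h1 : secTh S O α A * secTh S O β B =
      ∑ C, ∑ D, (((O C A : ℝ) : ℂ) * ((O D B : ℝ) : ℂ)) • (S.th α C * S.th β D) := by
    unfold secTh
    rw [Finset.sum_mul_sum]
    refine Finset.sum_congr rfl fun C _ => Finset.sum_congr rfl fun D _ => ?_
    rw [smul_mul_smul_comm]
  have h2 : secTh S O β B * secTh S O α A =
      ∑ C, ∑ D, (((O C A : ℝ) : ℂ) * ((O D B : ℝ) : ℂ)) • (S.th β D * S.th α C) := by
    unfold secTh
    rw [Finset.sum_mul_sum, Finset.sum_comm]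
    refine Finset.sum_congr rfl fun C _ => Finset.sum_congr rfl fun D _ => ?_
    rw [smul_mul_smul_comm, mul_comm ((O D B : ℝ) : ℂ)]
  rw [h1, h2, ← Finset.sum_add_distrib]
  have h3 : ∀ C, ∑ D, (((O C A : ℝ) : ℂ) * ((O D B : ℝ) : ℂ)) • (S.th α C * S.th β D) +
      ∑ D, (((O C A : ℝ) : ℂ) * ((O D B : ℝ) : ℂ)) • (S.th β D * S.th α C) =
      (((O C A : ℝ) : ℂ) * ((O C B : ℝ) : ℂ)) • (if α = β then (1 : F →L[ℂ] F) else 0) := by
    intro C
    rw [← Finset.sum_add_distrib, Finset.sum_eq_single C]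
    · rw [← smul_add, S.th_anti]
      by_cases h : α = β
      · rw [if_pos h, if_pos ⟨h, rfl⟩]
      · rw [if_neg h, if_neg fun h' => h h'.1]
    · intro D _ hD
      rw [← smul_add, S.th_anti, if_neg fun h' => hD h'.2.symm, smul_zero]
    · intro h
      exact absurd (Finset.mem_univ _) h
  rw [Finset.sum_congr rfl fun C _ => h3 C, ← Finset.sum_smul, sec_orth hO]
  by_cases h : α = β
  · by_cases h' : A = B
    · rw [if_pos h, if_pos h', if_pos ⟨h, h'⟩, one_smul]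
    · rw [if_neg h', zero_smul, if_neg (fun hh : α = β ∧ A = B => h' hh.2)]
  · rw [if_neg h, smul_zero, if_neg (fun hh : α = β ∧ A = B => h hh.1)]

/-- the rotated Clifford system (structure constants `0`) -/
noncomputable def secS (S : Setup d F) (O : Matrix (Fin d) (Fin d) ℝ) (hO : O * Oᵀ = 1) : Setup d F where
  g := S.g
  g_symm := S.g_symm
  g_anti := S.g_anti
  th := secTh S O
  th_anti := secTh_anti S hO
  κ := 1
  κ_pos := one_pos
  f := fun _ _ _ => 0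
  f_swap := fun _ _ _ => neg_zero.symm
  f_cyc := fun _ _ _ => rfl
  f_jac := fun _ _ _ _ => by simp
  g_real := S.g_real
  th_sa := by
    intro α A v w
    rw [secTh_apply, secTh_apply, sum_inner, inner_sum]
    refine Finset.sum_congr rfl fun B _ => ?_
    rw [inner_smul_left, inner_smul_right, S.th_sa, Complex.conj_ofReal]

lemma sec_amF_apply (S : Setup d F) (A : Fin d) (α : Fin 16) (v : F) :
    S.amF A α v = S.th α A v - Complex.I • ∑ γ, S.Gam α γ • S.th γ A v := by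
  unfold Setup.amF CS.vec
  simp only [_root_.sub_apply, _root_.smul_apply, _root_.sum_apply]

lemma sec_amF (S : Setup d F) (O : Matrix (Fin d) (Fin d) ℝ) (hO : O * Oᵀ = 1) (A : Fin d) (α : Fin 16) (v : F) :
    (secS S O hO).amF A α v = ∑ B, ((O B A : ℝ) : ℂ) • S.amF B α v := by
  rw [sec_amF_apply]
  have h1 : (secS S O hO).Gam = S.Gam := rfl
  have h2 : ∀ γ, (secS S O hO).th γ A v = ∑ B, ((O B A : ℝ) : ℂ) • S.th γ B v := fun γ => secTh_apply S O γ A v
  rw [h1]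
  simp only [h2, sec_amF_apply S, smul_sub, Finset.sum_sub_distrib, Finset.smul_sum]
  congr 1
  rw [Finset.sum_comm]
  refine Finset.sum_congr rfl fun B _ => Finset.sum_congr rfl fun γ _ => ?_
  rw [smul_smul, smul_smul, smul_smul, smul_smul]
  congr 1
  ring

/-- action of words on a vector, as a linear map -/
noncomputable def secL (S : Setup d F) (ζ : F) : FreeAlgebra ℂ (Fin 16 × Fin d) →ₗ[ℂ] F where
  toFun := fun X => S.rep X ζ
  map_add' := fun X Y => by rw [map_add]; rfl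
  map_smul' := fun c X => by rw [map_smul]; rfl

lemma secL_ι (S : Setup d F) (ζ : F) (p : Fin 16 × Fin d) (X : FreeAlgebra ℂ (Fin 16 × Fin d)) :
    secL S ζ (FreeAlgebra.ι ℂ p * X) = S.th p.1 p.2 (secL S ζ X) := by
  change S.rep (FreeAlgebra.ι ℂ p * X) ζ = S.th p.1 p.2 (S.rep X ζ)
  rw [map_mul]
  have h : S.rep (FreeAlgebra.ι ℂ p) = S.th p.1 p.2 := by
    unfold Setup.rep
    rw [FreeAlgebra.lift_ι_apply]
  rw [h]
  rfl

lemma secL_surj (S : Setup d F) (hirr : S.Irr) {ζ : F} (h0 : ζ ≠ 0) : Function.Surjective (secL S ζ) := by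
  rw [← LinearMap.range_eq_top]
  rcases hirr (LinearMap.range (secL S ζ)) (by
    rintro α A _ ⟨X, rfl⟩
    exact ⟨FreeAlgebra.ι ℂ (α, A) * X, secL_ι S ζ (α, A) X⟩) with h | h
  · exfalso
    have h1 : ζ ∈ LinearMap.range (secL S ζ) := ⟨1, by
      change S.rep 1 ζ = ζ
      rw [map_one]
      rfl⟩
    rw [h, Submodule.mem_bot] at h1
    exact h0 h1
  · exact h

/-- uniqueness -/
lemma sec_uniq (S : Setup d F) (hirr : S.Irr) {ζ : F} (h0 : ζ ≠ 0) (hζ : ∀ A α, S.amF A α ζ = 0)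
    {O : Matrix (Fin d) (Fin d) ℝ} {G G' : F →L[ℂ] F} (hG : Imp S O G) (hG' : Imp S O G') : G = G' := by
  have e : ∀ {H : F →L[ℂ] F}, Imp S O H → ∀ α A v, H (S.th α A v) = ∑ B, ((O B A : ℝ) : ℂ) • S.th α B (H v) := by
    intro H hH α A v
    have h := congrArg (fun T : F →L[ℂ] F => T v) (hH.imp α A)
    simpa only [_root_.mul_apply_eq_comp, _root_.sum_apply, _root_.smul_apply] using h
  have hW : ∀ α A, ∀ v ∈ LinearMap.eqLocus (G : F →ₗ[ℂ] F) (G' : F →ₗ[ℂ] F),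
      S.th α A v ∈ LinearMap.eqLocus (G : F →ₗ[ℂ] F) (G' : F →ₗ[ℂ] F) := by
    intro α A v hv
    have hv' : G v = G' v := hv
    change G (S.th α A v) = G' (S.th α A v)
    rw [e hG, e hG', hv']
  rcases hirr _ hW with h | h
  · exfalso
    have h1 : ζ ∈ LinearMap.eqLocus (G : F →ₗ[ℂ] F) (G' : F →ₗ[ℂ] F) := by
      change G ζ = G' ζ
      rw [hG.vac ζ hζ, hG'.vac ζ hζ]
    rw [h, Submodule.mem_bot] at h1
    exact h0 h1
  · ext v
    have h1 : v ∈ LinearMap.eqLocus (G : F →ₗ[ℂ] F) (G' : F →ₗ[ℂ] F) := by rw [h]; exact Submodule.mem_top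
    exact h1

/-- existence for one rotation, with the formula on words -/
lemma sec_ex (hWick : WickStmt.{u}) (S : Setup d F) (hfd : FiniteDimensional ℂ F) (hirr : S.Irr) {ζ : F} (h1 : ‖ζ‖ = 1)
    (hζ : ∀ A α, S.amF A α ζ = 0) (hu : ∀ v : F, (∀ A α, S.amF A α v = 0) → ∃ c : ℂ, v = c • ζ)
    (O : Matrix (Fin d) (Fin d) ℝ) (hO : O * Oᵀ = 1) :
    ∃ G : F →L[ℂ] F, Imp S O G ∧ ∀ X, G (S.rep X ζ) = (secS S O hO).rep X ζ := by
  have h0 : ζ ≠ 0 := fun h => by rw [h, norm_zero] at h1; exact zero_ne_one h1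
  have hζ' : ∀ A α, (secS S O hO).amF A α ζ = 0 := by
    intro A α
    rw [sec_amF]
    exact Finset.sum_eq_zero fun B _ => by rw [hζ, smul_zero]
  have hn : ∀ X, ‖secL S ζ X‖ = ‖secL (secS S O hO) ζ X‖ := by
    intro X
    have h := (hWick d F F S (secS S O hO) rfl ζ ζ hζ hζ').2 X
    rw [h1, mul_one, mul_one] at h
    exact h
  obtain ⟨s, hs⟩ := (secL S ζ).exists_rightInverse_of_surjective
    (LinearMap.range_eq_top.2 (secL_surj S hirr h0))
  have hs' : ∀ v, secL S ζ (s v) = v := fun v => by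
    have := congrArg (fun T : F →ₗ[ℂ] F => T v) hs
    exact this
  obtain ⟨G₀, hG₀⟩ : ∃ G₀ : F →ₗ[ℂ] F, G₀ = (secL (secS S O hO) ζ).comp s := ⟨_, rfl⟩
  have hX : ∀ X, G₀ (secL S ζ X) = secL (secS S O hO) ζ X := by
    intro X
    have h2 : secL S ζ (s (secL S ζ X) - X) = 0 := by rw [map_sub, hs', sub_self]
    have h3 : ‖secL (secS S O hO) ζ (s (secL S ζ X) - X)‖ = 0 := by rw [← hn, h2, norm_zero]
    rw [norm_eq_zero, map_sub, sub_eq_zero] at h3
    rw [hG₀]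
    exact h3
  obtain ⟨G, hG⟩ : ∃ G : F →L[ℂ] F, ∀ v, G v = G₀ v :=
    ⟨LinearMap.toContinuousLinearMap G₀, fun v => rfl⟩
  have hGX : ∀ X, G (secL S ζ X) = secL (secS S O hO) ζ X := fun X => by rw [hG, hX]
  refine ⟨G, ⟨hO, ?_, ?_, ?_⟩, hGX⟩
  · intro α A
    ext v
    obtain ⟨X, rfl⟩ := secL_surj S hirr h0 v
    simp only [_root_.mul_apply_eq_comp, _root_.sum_apply, _root_.smul_apply]
    rw [← secL_ι S ζ (α, A) X, hGX, hGX, secL_ι]
    exact secTh_apply S O α A _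
  · intro v
    obtain ⟨X, rfl⟩ := secL_surj S hirr h0 v
    rw [hGX, hn]
  · intro v hv
    obtain ⟨c, rfl⟩ := hu v hv
    have h2 : G ζ = ζ := by
      have h3 := hGX 1
      have h4 : secL S ζ 1 = ζ := by
        change S.rep 1 ζ = ζ
        rw [map_one]
        rfl
      have h5 : secL (secS S O hO) ζ 1 = ζ := by
        change (secS S O hO).rep 1 ζ = ζ
        rw [map_one]
        rfl
      rw [h4, h5] at h3
      exact h3
    rw [map_smul, h2]

/-- words in the rotated fermions depend continuously on the matrix -/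
lemma sec_cont (S : Setup d F) (X : FreeAlgebra ℂ (Fin 16 × Fin d)) :
    Continuous fun O : Matrix (Fin d) (Fin d) ℝ =>
      (FreeAlgebra.lift ℂ (fun p : Fin 16 × Fin d => secTh S O p.1 p.2) : FreeAlgebra ℂ (Fin 16 × Fin d) →ₐ[ℂ] (F →L[ℂ] F)) X := by
  refine FreeAlgebra.induction ℂ (Fin 16 × Fin d)
    (motive := fun X => Continuous fun O : Matrix (Fin d) (Fin d) ℝ =>
      (FreeAlgebra.lift ℂ (fun p : Fin 16 × Fin d => secTh S O p.1 p.2) :
        FreeAlgebra ℂ (Fin 16 × Fin d) →ₐ[ℂ] (F →L[ℂ] F)) X) ?_ ?_ ?_ ?_ X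
  · intro r
    simp only [AlgHom.commutes]
    exact continuous_const
  · intro p
    simp only [FreeAlgebra.lift_ι_apply]
    unfold secTh
    refine continuous_finsetSum _ fun B _ => ?_
    have h1 : Continuous fun O : Matrix (Fin d) (Fin d) ℝ => O B p.2 := continuous_id.matrix_elem B p.2
    exact (Complex.continuous_ofReal.comp h1).smul continuous_const
  · intro X Y hX hY
    simp only [map_mul]
    exact hX.mul hY
  · intro X Y hX hY
    simp only [map_add]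
    exact hX.add hY

/-- **X2-Sec** from the universality of the vacuum state -/
theorem sec_of (hWick : WickStmt.{u}) (S : Setup d F) : SecStmt S := by
  intro hfd hirr hne
  obtain ⟨ζ, h1, hζ, -, hu⟩ := AF.vacF S hirr hne
  have h0 : ζ ≠ 0 := fun h => by rw [h, norm_zero] at h1; exact zero_ne_one h1
  refine ⟨?_, fun O G G' hG hG' => sec_uniq S hirr h0 hζ hG hG'⟩
  have hex : ∀ O : Matrix (Fin d) (Fin d) ℝ, ∃ G : F →L[ℂ] F, ∀ hO : O * Oᵀ = 1,
      Imp S O G ∧ ∀ X, G (S.rep X ζ) = (secS S O hO).rep X ζ := by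
    intro O
    by_cases hO : O * Oᵀ = 1
    · obtain ⟨G, hG⟩ := sec_ex hWick S hfd hirr h1 hζ hu O hO
      exact ⟨G, fun _ => hG⟩
    · exact ⟨0, fun h => absurd h hO⟩
  choose G hG using hex
  refine ⟨G, fun O hO => (hG O hO).1, fun v => ?_⟩
  obtain ⟨X, rfl⟩ := secL_surj S hirr h0 v
  have hc : Continuous fun O : Matrix (Fin d) (Fin d) ℝ =>
      (FreeAlgebra.lift ℂ (fun p : Fin 16 × Fin d => secTh S O p.1 p.2) :
        FreeAlgebra ℂ (Fin 16 × Fin d) →ₐ[ℂ] (F →L[ℂ] F)) X ζ := (sec_cont S X).clm_apply continuous_const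
  refine hc.continuousOn.congr fun O hO => ?_
  exact (hG O hO).2 X

/-- **X2-Sec** -/
theorem sec_stmt (S : Setup d F) : WickStmt.{u} → VexStmt S → SecStmt S := fun hWick _ => sec_of hWick S

end Vale.Agent.P353.Z.AX2
end

section

/-! # P353, all `N`, block E, EG-QInv: the supercharges with mass preserve gauge invariant test functions -/

open MeasureTheory Filter Topology Matrix
open scoped ContDiff

namespace Vale.Agent.P353.Z.AE

variable {d : ℕ} {F : Type*} [NormedAddCommGroup F] [InnerProductSpace ℂ F]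

namespace QInv533

open U

variable (S : Setup d F) (N : Fin 9 → Matrix (Fin 16) (Fin 16) ℂ)

lemma contDiff_Mx (β : Fin 16) : ContDiff ℝ ∞ (S.Mx N β) := by
  unfold Setup.Mx
  refine ContDiff.sum fun i _ => ContDiff.sum fun A _ => ?_
  exact (Setup.contDiff_ofReal (Setup.contDiff_coord _)).smul contDiff_const

lemma Mx_line (β : Fin 16) (x v : Cfg d) (t : ℝ) :
    S.Mx N β (x + t • v) = S.Mx N β x + (t : ℂ) • S.Mx N β v := by
  simp only [Setup.Mx, PiLp.add_apply, PiLp.smul_apply, smul_eq_mul, Finset.smul_sum,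
    ← Finset.sum_add_distrib]
  refine Finset.sum_congr rfl fun i _ => Finset.sum_congr rfl fun A _ => ?_
  push_cast
  module

lemma fderiv_Mx (β : Fin 16) (x v : Cfg d) : fderiv ℝ (S.Mx N β) x v = S.Mx N β v := by
  refine line_fderiv (b := 0) ((contDiff_Mx S N β).differentiable (by simp) x) fun t => ?_
  rw [Mx_line, smul_zero, add_zero]

lemma comm_Mx (C : Fin d) (β : Fin 16) (x : Cfg d) :
    S.cS C * S.Mx N β x - S.Mx N β x * S.cS C = Complex.I • S.Mx N β (gLc S C x) := by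
  have h1 : S.Mx N β (gLc S C x) = ∑ i, ∑ A, ((x (i, A) : ℝ) : ℂ) • ∑ E, (S.f C A E : ℂ) • S.vec (N i) E β := by
    simp only [Setup.Mx, gLc_apply, Complex.ofReal_sum, Finset.sum_smul, Finset.smul_sum, smul_smul]
    refine Finset.sum_congr rfl fun i _ => ?_
    rw [Finset.sum_comm]
    refine Finset.sum_congr rfl fun A _ => Finset.sum_congr rfl fun E _ => ?_
    congr 1
    push_cast
    ring
  rw [h1]
  simp only [Setup.Mx, Finset.mul_sum, Finset.sum_mul, ← Finset.sum_sub_distrib, Finset.smul_sum (r := Complex.I)]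
  refine Finset.sum_congr rfl fun i _ => Finset.sum_congr rfl fun A _ => ?_
  rw [mul_smul_comm, smul_mul_assoc, ← smul_sub, comm_cS, smul_comm]

lemma G_Mx (C : Fin d) (β : Fin 16) {u : Cfg d → F} (hu : ContDiff ℝ ∞ u) (x : Cfg d) :
    S.G C (fun y => S.Mx N β y (u y)) x = S.Mx N β x (S.G C u x) := by
  rw [G_eq, G_eq, fderiv_clm_app ((contDiff_Mx S N β).differentiable (by simp) x)
    (hu.differentiable (by simp) x), fderiv_Mx]
  have h1 := congrArg (fun T : F →L[ℂ] F => T (u x)) (comm_Mx S N C β x)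
  change S.cS C (S.Mx N β x (u x)) - S.Mx N β x (S.cS C (u x)) = Complex.I • S.Mx N β (gLc S C x) (u x) at h1
  rw [sub_eq_iff_eq_add.1 h1, map_add, map_smul]
  module

end QInv533

open QInv533 in
/-- **EG-QInv** -/
theorem qInv (S : Setup d F) : QInvStmt S := by
  intro N m β u hu
  have hM : Setup.Tst (fun x => S.Mx N β x (u x)) := Setup.Tst.clm (contDiff_Mx S N β) hu.tst
  refine ⟨(hu.tst.Q S β).add (U.HB.Tst_csmul (m : ℂ) hM), fun C x => ?_⟩
  have h1 : S.G C (S.Q β u) x = 0 := by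
    have h2 := U.a3 S 0 C β u hu.tst.1 x
    have h3 : S.Qm 0 β u = S.Q β u := by
      funext y
      simp [Setup.Qm]
    have h4 : S.G C u = fun _ => 0 := by
      funext y
      exact hu.inv C y
    rw [h3, h4, U.HB.Qm_zero] at h2
    exact h2
  have h5 : S.G C (fun y => (m : ℂ) • S.Mx N β y (u y)) x = 0 := by
    rw [U.HB.G_csmul S C (m : ℂ) hM.1 x, G_Mx S N C β hu.tst.1, hu.inv, map_zero, smul_zero]
  have h6 := U.HB.G_add S C (S.contDiff_Q β hu.tst.1) (U.HB.Tst_csmul (m : ℂ) hM).1 x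
  rw [h1, h5, add_zero] at h6
  exact h6

end Vale.Agent.P353.Z.AE
end

section

/-! # P353, all `N`, block SGN: covariance of the ground state sections under the normaliser — statements (architect helper679)

OUTPUT `SgnStmt`: for `V ∈ SU(N)` respecting the splitting and an internal zero mode `Ψ` (vacuum vector of the module of zero modes):
`M.S V (U(η) Ψ(x)) = U(O_z η) Ψ(O_s x)` for a.e. `x`. -/

open MeasureTheory Filter Topology Matrix
open scoped ContDiff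

namespace Vale.Agent.P353.Z.AS

universe u

variable {d dh dm ds dz : ℕ} {F : Type*} [NormedAddCommGroup F] [InnerProductSpace ℂ F]

/-! ## Part 1: the fermionic vacua -/

/-- vacuum space of the complex structure `J` on all fermions -/
noncomputable def JV (S : Setup d F) (J : Matrix (Fin 16 × Fin d) (Fin 16 × Fin d) ℂ) : Submodule ℂ F where
  carrier := {v | ∀ p, ∑ q : Fin 16 × Fin d,
    ((1 : Matrix (Fin 16 × Fin d) (Fin 16 × Fin d) ℂ) - Complex.I • J) p q • S.th q.1 q.2 v = 0}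
  add_mem' := by
    intro a b ha hb p
    simp only [map_add, smul_add, Finset.sum_add_distrib]
    rw [ha p, hb p, add_zero]
  zero_mem' := by
    intro p
    simp
  smul_mem' := by
    intro c a ha p
    simp only [map_smul, smul_comm _ c]
    rw [← Finset.smul_sum, ha p, smul_zero]

/-- `M` implements the matrix `T` on the one particle space -/
def ImT (S : Setup d F) (T : Matrix (Fin 16 × Fin d) (Fin 16 × Fin d) ℂ) (M : F →L[ℂ] F) : Prop :=
  ∀ q, M * S.th q.1 q.2 = ∑ p : Fin 16 × Fin d, T p q • (S.th p.1 p.2 * M)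

/-- complex structure: `Γ` on the `h` colours, `c κ γ^i ⊗ Ω⁻¹D_i + s Γ` on the `m` colours -/
noncomputable def JF (S : Setup d F) (φ : Spl dh dm d) (D : Fin 9 → Matrix (Fin dm) (Fin dm) ℝ)
    (Om : Matrix (Fin dm) (Fin dm) ℝ) (c s : ℝ) : Matrix (Fin 16 × Fin d) (Fin 16 × Fin d) ℂ :=
  Matrix.of fun p q => Sum.elim
    (fun A => Sum.elim (fun B => if A = B then S.Gam p.1 q.1 else 0) (fun _ => 0) (φ.symm q.2))
    (fun A => Sum.elim (fun _ => 0) (fun B => (c : ℂ) * ((S.κ : ℂ) * ∑ i, S.g i p.1 q.1 * (((Om⁻¹ * D i) A B : ℝ) : ℂ)) +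
      (s : ℂ) * (if A = B then S.Gam p.1 q.1 else 0)) (φ.symm q.2)) (φ.symm p.2)

/-- colour matrix on the one particle space -/
noncomputable def cT (O : Matrix (Fin d) (Fin d) ℝ) : Matrix (Fin 16 × Fin d) (Fin 16 × Fin d) ℂ :=
  Matrix.of fun p q => if p.1 = q.1 then ((O p.2 q.2 : ℝ) : ℂ) else 0

/-- spinor matrix on the one particle space -/
noncomputable def sT (g : Matrix (Fin 16) (Fin 16) ℂ) : Matrix (Fin 16 × Fin d) (Fin 16 × Fin d) ℂ :=
  Matrix.of fun p q => if p.2 = q.2 then g p.1 q.1 else 0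

/-- `exp(i t S_{kl})` (definitionally `S.st k l t`) -/
noncomputable def spr (S : Setup d F) (k l : Fin 9) (t : ℝ) : F →L[ℂ] F :=
  NormedSpace.exp ((t : ℂ) • (Complex.I • S.Skl k l))

/-- spinor rotation matrix (definitionally `S.gt k l t`) -/
noncomputable def gtt (S : Setup d F) (k l : Fin 9) (t : ℝ) : Matrix (Fin 16) (Fin 16) ℂ :=
  (Real.cos (t / 2) : ℂ) • 1 + (Real.sin (t / 2) : ℂ) • S.g2 k l

/-- `O` is orthogonal and preserves the structure constants -/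
structure Sym (S : Setup d F) (O : Matrix (Fin d) (Fin d) ℝ) : Prop where
  orth : O * Oᵀ = 1
  inv : ∀ A B C, ∑ A', ∑ B', ∑ C', O A' A * O B' B * O C' C * S.f A' B' C' = S.f A B C

/-- **S1 Line** PROOF: `U.Vac_exists`, `U.Vac_unique` for the isotropic space spanned by the rows of `1 - iJ` (`(1-iJ)(1-iJ)ᵀ = 1 + J² = 0`; `z = ½(1-iJ)ᵀ…`: every `z` is
`a + conj b`: `z = ½(1-iJ)z + ½(1+iJ)z`), as in `AN/F/Vac.lean`, `AN/X/Irr.lean`. -/
def LineStmt (S : Setup d F) : Prop := S.Irr → (∃ v : F, v ≠ 0) → ∀ J, CStr J →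
  ∃ ζ ∈ JV S J, ‖ζ‖ = 1 ∧ ∀ v ∈ JV S J, ∃ c : ℂ, v = c • ζ

/-- **S2 Two** two point function. PROOF as `AX.TwoStmt` (`AN/X/TwoCov.lean`). `Skl k l = -(i/4)∑_{pq}(γ^{kl} ⊗ 1)_{pq}θ_pθ_q`. -/
def TwoStmt (S : Setup d F) : Prop := ∀ J, CStr J → ∀ v ∈ JV S J,
  (∀ p q : Fin 16 × Fin d, inner ℂ v (S.th p.1 p.2 (S.th q.1 q.2 v)) =
    (1 / 2 : ℂ) * ((if p = q then 1 else 0) - Complex.I * J p q) * inner ℂ v v) ∧
  ∀ k l : Fin 9, k ≠ l → inner ℂ v (S.Skl k l v) =
    -(1 / 8 : ℂ) * (∑ α, ∑ β, ∑ A, S.g2 k l α β * J (α, A) (β, A)) * inner ℂ v v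

/-- **S3 ImpT** PROOF. `0 = M∑_q(1-iJ)_{pq}θ_qv = ∑_r((1-iJ)Tᵀ)_{pr}θ_rMv`, multiply by `T` from the left, `TTᵀ = 1`. -/
def ImpTStmt (S : Setup d F) : Prop := ∀ (T J : Matrix (Fin 16 × Fin d) (Fin 16 × Fin d) ℂ) (M : F →L[ℂ] F),
  T * Tᵀ = 1 → ImT S T M → ∀ v ∈ JV S J, M v ∈ JV S (T * J * Tᵀ)

/-- **S4 Eig** constancy of the eigenvalue. PROOF. S1: `JV(J_s) = ℂζ_s`; `M` maps it into itself (S3, `TJ_sTᵀ = J_s`): `Mζ_s = λ(s)ζ_s`. `λ` is continuous: `s_n → s`, a subsequence of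
`ζ_{s_n}` converges to a unit vector `ζ'`, in `JV(J_s)` (`J` continuous), so `ζ' = cζ_s`, `λ(s_n) = ⟨ζ_{s_n},Mζ_{s_n}⟩ → ⟨ζ',Mζ'⟩ = λ(s)`. The eigenvalues of `M` form a finite set, so the
continuous function `λ` on `[0,1]` is constant, `λ(1) = 1`. -/
def EigStmt (S : Setup d F) : Prop := FiniteDimensional ℂ F → S.Irr → (∃ v : F, v ≠ 0) →
  ∀ (J : ℝ → Matrix (Fin 16 × Fin d) (Fin 16 × Fin d) ℂ) (T : Matrix (Fin 16 × Fin d) (Fin 16 × Fin d) ℂ) (M : F →L[ℂ] F),
  Continuous J → (∀ s, CStr (J s)) → T * Tᵀ = 1 → (∀ s, T * J s = J s * T) → ImT S T M → (∀ v, ‖M v‖ = ‖v‖) →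
  (∀ v ∈ JV S (J 1), M v = v) → ∀ v ∈ JV S (J 0), M v = v

/-- **S5 JF** PROOF. `Λ = ½Ω(1 - iΩ⁻¹P)`, `Ω` invertible, commuting with `D_i`; `Γ` real antisymmetric, `Γ² = -1` (`GamLem`). `(Ω⁻¹P)² = κ²Ω⁻²∑D_i² = -1` (`γ^iγ^j + γ^jγ^i = 2δ_{ij}`, `D`
commute); `Ω⁻¹D_i` is antisymmetric. If `D_0 = D_1 = D_2 = 0` then `Ω⁻¹P` anticommutes with `Γ ⊗ 1` (`γ^iΓ = -Γγ^i` for `i ≥ 3`), so the square of the combination is `-(c² + s²)`. -/
def JFStmt (S : Setup d F) (φ : Spl dh dm d) : Prop := ∀ (D : Fin 9 → Matrix (Fin dm) (Fin dm) ℝ) (Om : Matrix (Fin dm) (Fin dm) ℝ),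
  (∀ i, (D i)ᵀ = -D i) → (∀ i j, D i * D j = D j * D i) → IsOm S.κ D Om →
  CStr (JF S φ D Om 1 0) ∧
  (D 0 = 0 → D 1 = 0 → D 2 = 0 → ∀ c s : ℝ, c ^ 2 + s ^ 2 = 1 → CStr (JF S φ D Om c s)) ∧
  (∀ v, v ∈ JV S (JF S φ D Om 1 0) ↔ v ∈ S.F0 φ D Om ∧ ∀ A α, S.amF (φ (Sum.inl A)) α v = 0) ∧
  (∀ v, v ∈ JV S (JF S φ D Om 0 1) ↔ ∀ A α, S.amF A α v = 0)

/-- **S6 Cov** covariance of the complex structures. PROOF. (1) Colour: invariance of `f` gives `D(O_zη) = O_mD(η)O_mᵀ`, `Ω` by uniqueness (`AX.omU`); `Γ ⊗ 1` commutes with `1 ⊗ O`.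
(2) Spinor: `g_tX(y) = X(R_ty)g_t` (`XB_RR`), `∑D_i(R_tη)² = ∑D_i(η)²`, and `g_t` commutes with `Γ` if `Same k l`. -/
def CovStmt (S : Setup d F) (φ : Spl dh dm d) (ψ : Spl ds dz dh) : Prop :=
  (∀ O : Matrix (Fin d) (Fin d) ℝ, Sym S O → Blk φ ψ O → ∀ (η : Cfg dz) (Om Om' : Matrix (Fin dm) (Fin dm) ℝ),
    IsOm S.κ (AD.Dz S φ ψ η) Om → IsOm S.κ (AD.Dz S φ ψ (ro (zO φ ψ O) η)) Om' → ∀ c s : ℝ,
      cT O * JF S φ (AD.Dz S φ ψ η) Om c s = JF S φ (AD.Dz S φ ψ (ro (zO φ ψ O) η)) Om' c s * cT O) ∧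
  ∀ k l : Fin 9, Same k l → ∀ (t : ℝ) (η : Cfg dz) (Om : Matrix (Fin dm) (Fin dm) ℝ), IsOm S.κ (AD.Dz S φ ψ η) Om →
    IsOm S.κ (AD.Dz S φ ψ (RR k l t η)) Om ∧ ∀ c s : ℝ,
      sT (gtt S k l t) * JF S φ (AD.Dz S φ ψ η) Om c s = JF S φ (AD.Dz S φ ψ (RR k l t η)) Om c s * sT (gtt S k l t)

/-- **S7 VacR** rotations and colour maps on the one particle space. PROOF. `Setup.vec_mul_st`, `st_norm`; `S_{kl}` kills the `Γ`-vacuum for `Same k l`: `S_{kl}v` is again a vacuum vector (`γ^{kl}`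
commutes with `Γ`); direct: S2 with `J = Γ ⊗ 1`: `∑γ^{kl}_{αβ}Γ_{αβ} = -tr(γ^{kl}Γ) = 0` and `S_{kl}v` is a multiple of `v` (on the vacuum `θ_p = iΓθ_p`-type relations give `4 S_{kl}v = const v`,
as in `AN/D/VacSpin.lean`). Last part: `tr(γ^{kl}γ^i)`, `tr(γ^{kl}Γ)` vanish (`Same k l`), or `tr(Ω⁻¹D_i) = 0`. -/
def VacRStmt (S : Setup d F) (φ : Spl dh dm d) : Prop := FiniteDimensional ℂ F → ∀ k l : Fin 9, Same k l →
  (∀ t, ImT S (sT (gtt S k l t)) (spr S k l t) ∧ (∀ v, ‖spr S k l t v‖ = ‖v‖) ∧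
    (sT (gtt S k l t) : Matrix (Fin 16 × Fin d) (Fin 16 × Fin d) ℂ) * (sT (gtt S k l t))ᵀ = 1) ∧
  (∀ v, (∀ A α, S.amF A α v = 0) → S.Skl k l v = 0 ∧ ∀ t, spr S k l t v = v) ∧
  ∀ (D : Fin 9 → Matrix (Fin dm) (Fin dm) ℝ) (Om : Matrix (Fin dm) (Fin dm) ℝ), (∀ i, (D i)ᵀ = -D i) →
    (∀ i j, D i * D j = D j * D i) → IsOm S.κ D Om →
    ∑ α, ∑ β, ∑ A, S.g2 k l α β * JF S φ D Om 1 0 (α, A) (β, A) = 0

/-- `ζ` is a typical ground vector: in `K`, vacuum for the `h` colours -/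
def Gv (S : Setup d F) (φ : Spl dh dm d) (K : Submodule ℂ F) (ζ : F) : Prop :=
  ζ ∈ K ∧ ∀ A α, S.amF (φ (Sum.inl A)) α ζ = 0

/-- **S8 EtaL** the vacuum line at `η`. PROOF. `Bun.U_mem`, `Bun.om`, `DM_Mz`, `U_comm` (`U η` commutes with the `h` fermions), S5, S1. Last part: `Mv` again in `JV` (S3, S6), so `Mv = cζ'`. -/
def EtaStmt (S : Setup d F) (φ : Spl dh dm d) (ψ : Spl ds dz dh) : Prop := FiniteDimensional ℂ F → S.Irr →
  ∀ (L : Finset (Fin dz → ℝ)) (Om : Cfg dz → Matrix (Fin dm) (Fin dm) ℝ) (K : Submodule ℂ F) (U : Cfg dz → F →L[ℂ] F),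
  AX.Bun S φ (AX.Mz S φ ψ) L Om K U →
  (∀ η ∉ Coll L, ∀ ζ, Gv S φ K ζ ↔ U η ζ ∈ JV S (JF S φ (AD.Dz S φ ψ η) (Om η) 1 0)) ∧
  (∀ ζ, Gv S φ K ζ → ζ ≠ 0 → ∀ η ∉ Coll L, ∀ v ∈ JV S (JF S φ (AD.Dz S φ ψ η) (Om η) 1 0), ∃ c : ℂ, v = c • U η ζ)

/-- **S9 RPar** rotated vacuum = parallel transported vacuum. PROOF. `V_t = spr S k l t`. `V_tU(η)ζ ∈ JV(R_tη)` (S3, S6, S7, S8), so `V_tU(η)ζ = c(t)U(R_tη)ζ`, `c(t) = ⟨U(R_tη)ζ,V_tU(η)ζ⟩` (`‖ζ‖ = 1`), `|c| = 1`,
`c(0) = 1`. `c' = ⟨(d/dt U(R_tη))ζ,V_tU(η)ζ⟩ + ⟨U(R_tη)ζ, iS_{kl}V_tU(η)ζ⟩ = c·conj⟨Uζ,U'ζ⟩ + i c⟨Uζ,S_{kl}Uζ⟩ = 0` (`U_par`, S2 and S7). -/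
def RParStmt (S : Setup d F) (φ : Spl dh dm d) (ψ : Spl ds dz dh) : Prop := FiniteDimensional ℂ F → S.Irr →
  ∀ (L : Finset (Fin dz → ℝ)) (Om : Cfg dz → Matrix (Fin dm) (Fin dm) ℝ) (K : Submodule ℂ F) (U : Cfg dz → F →L[ℂ] F),
  AX.Bun S φ (AX.Mz S φ ψ) L Om K U → ∀ ζ, Gv S φ K ζ → ∀ k l : Fin 9, Same k l → ∀ η : Cfg dz, (∀ t, RR k l t η ∉ Coll L) →
    ∀ t, spr S k l t (U η ζ) = U (RR k l t η) ζ

/-- **S10 FerAt** PROOF. `J(s) = JF(D(η), Ω, cos(πs/2), sin(πs/2))` (S5; `D_0 = D_1 = D_2 = 0`), `J(1) = Γ ⊗ 1`. (A) `M = G`, `T = cT O` commutes with `J(s)` (S6, `O_zη = η`), `G` fixes the `Γ`-vacuum (`Imp.vac`); S4 gives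
`Gv = v` on `JV(J(0)) ∋ U(η)ζ`. (B) `M = spr S 3 4 (-π) * G`, `T = sT(g_{-π})cT O` commutes with `J(s)` (`R_{-π}O_zη = η`), fixes the `Γ`-vacuum (S7); S4: `G U(η)ζ = spr S 3 4 π (U(η)ζ) = U(R_πη)ζ` (S9). -/
def FerAtStmt (S : Setup d F) (φ : Spl dh dm d) (ψ : Spl ds dz dh) : Prop := FiniteDimensional ℂ F → S.Irr →
  ∀ (L : Finset (Fin dz → ℝ)) (Om : Cfg dz → Matrix (Fin dm) (Fin dm) ℝ) (K : Submodule ℂ F) (U : Cfg dz → F →L[ℂ] F),
  AX.Bun S φ (AX.Mz S φ ψ) L Om K U → ∀ (O : Matrix (Fin d) (Fin d) ℝ) (G : F →L[ℂ] F), Sym S O → Blk φ ψ O → Imp S O G →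
  ∀ η : Cfg dz, η ∉ Coll L → (∀ i : Fin 9, i.val < 3 → ∀ a, η (i, a) = 0) →
  (ro (zO φ ψ O) η = η ∨ (ro (zO φ ψ O) η = RR 3 4 Real.pi η ∧ ∀ t, RR 3 4 t η ∉ Coll L)) →
  ∀ ζ, Gv S φ K ζ → G (U η ζ) = U (ro (zO φ ψ O) η) ζ

/-- **S11 Ext** extension from one point by parallel transport. PROOF. `c(η) = ⟨U(O_zη)ζ,G U(η)ζ⟩` on the open set `(Coll L)ᶜ` (`‖ζ‖ = 1`); `G U(η)ζ = c(η)U(O_zη)ζ` (S3, S6, S8), derivative `0` by `U_par` (at `O_zη` and at `η`;
`⟨U(O_zη)ζ, G dU(η)ζ⟩ = ⟨G⁻¹U(O_zη)ζ, dU(η)ζ⟩`, `G⁻¹U(O_zη)ζ = c⁻¹U(η)ζ`); `(Coll L)ᶜ` is preconnected (`AX.ConnStmt`), so `c = c(η₀) = 1`. -/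
def ExtStmt (S : Setup d F) (φ : Spl dh dm d) (ψ : Spl ds dz dh) : Prop := FiniteDimensional ℂ F → S.Irr → AX.ConnStmt →
  ∀ (L : Finset (Fin dz → ℝ)) (Om : Cfg dz → Matrix (Fin dm) (Fin dm) ℝ) (K : Submodule ℂ F) (U : Cfg dz → F →L[ℂ] F),
  AX.Bun S φ (AX.Mz S φ ψ) L Om K U → ∀ (O : Matrix (Fin d) (Fin d) ℝ) (G : F →L[ℂ] F), Sym S O → Blk φ ψ O → Imp S O G →
  (∀ η, η ∉ Coll L → ro (zO φ ψ O) η ∉ Coll L) → ∀ ζ, Gv S φ K ζ →
  ∀ η₀ ∉ Coll L, G (U η₀ ζ) = U (ro (zO φ ψ O) η₀) ζ → ∀ η ∉ Coll L, G (U η ζ) = U (ro (zO φ ψ O) η) ζ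

/-- **S12 CollC** the collision set in terms of `D`. PROOF as `AX.OmPStmt`: `D_i = sp(z_{k,i})Kc`, `∑_{i<8}D_i² = -sp(∑_{i<8}z_{k,i}²)`, its determinant is `±∏_k nz8(z_k)²`. -/
def CollStmt : Prop := ∀ (r dm : ℕ) (M : Fin r → Matrix (Fin dm) (Fin dm) ℝ) (t : Fin r → ℝ) (Kc E : Matrix (Fin dm) (Fin dm) ℝ)
  (l : Fin dm → Fin r → ℝ), RD M t Kc E l → ∀ η : Cfg r,
    η ∉ Coll (Finset.univ.image l) ↔ (∑ i ∈ Finset.univ.erase (8 : Fin 9), DM M η i * DM M η i).det ≠ 0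

/-! ## Part 2: the internal zero modes -/

/-- zero modes are fixed by the implementers of `O` that fix the `Γ`-vacuum, in all irreducible modules -/
def SSig.{v} (κ : ℝ) (f : Fin d → Fin d → Fin d → ℝ) (O : Matrix (Fin d) (Fin d) ℝ) : Prop :=
  ∀ (E : Type v) [NormedAddCommGroup E] [InnerProductSpace ℂ E] (_ : FiniteDimensional ℂ E) (S : Setup d E),
    S.f = f → S.κ = κ → S.Irr → (∃ v : E, v ≠ 0) → ∀ W, Imp S O W → ∀ Ψ : Lp E 2 (volume : Measure (Cfg d)),
      S.IsZM Ψ → ∀ᵐ x ∂(volume : Measure (Cfg d)), W (Ψ x) = Ψ (ro O x)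

/-- `ad a` in terms of `f` -/
noncomputable def adf (f : Fin d → Fin d → Fin d → ℝ) (a : Fin d → ℝ) : Matrix (Fin d) (Fin d) ℝ :=
  Matrix.of fun A C => ∑ B, f A B C * a B

/-- **S13 Sex** gauge invariance. PROOF. `W₀ = spn S a = exp(-i a·𝒮)` implements `exp(ad a)` (linear ODE, `[𝒮_C,θ^A]`), fixes the `Γ`-vacuum (`AX2.CsVStmt`), isometric: `Imp S (exp(ad a)) W₀`, so `W = W₀`
(`AX2.SecStmt`, uniqueness). The approximants satisfy `u(exp(ad a)x) = spn S a (u x)` (`AN.EqvStmt`, proved in `AN/GL/Eqv.lean`); pass to the `L²` limit. -/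
def SexStmt : Prop := ∀ (κ : ℝ) (d : ℕ) (f : Fin d → Fin d → Fin d → ℝ) (a : Fin d → ℝ), SSig.{u} κ f (NormedSpace.exp (adf f a))

/-- **S14 Even** zero modes are even. PROOF. `V_t = spr S 3 4 t`; `V_{2π}` implements `-1` (`g_{2π} = -1`), fixes the `Γ`-vacuum (S7), so `V_{2π} = P` (uniqueness in `AX2.SecStmt`). Weak `J_{34}` invariance (`U.zj`) gives
`⟨U_tw,Ψ⟩ = ⟨w,Ψ⟩` for `w ∈ Tst`, `U_tw(x) = V_tw(R_{-t}x)` (`hasDerivAt_integral_Ut` in `Z/RotD.lean`, cf. `rot_diff_bound`, `weak_J`); `t = 2π`: `⟨V_{2π}w,Ψ⟩ = ⟨w,Ψ⟩` for all `w`. -/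
def EvenStmt (S : Setup d F) : Prop := FiniteDimensional ℂ F → S.Irr → (∃ v : F, v ≠ 0) → ∀ P, Imp S (-1) P →
  ∀ Ψ : Lp F 2 (volume : Measure (Cfg d)), S.IsZM Ψ → ∀ᵐ x ∂(volume : Measure (Cfg d)), P (Ψ x) = Ψ x

/-- position of a colour: first copy, second copy, rest -/
def tag {d1 d3 : ℕ} (e : (Fin d1 ⊕ Fin d1) ⊕ Fin d3 ≃ Fin d) (A : Fin d) : Fin 3 :=
  Sum.elim (Sum.elim (fun _ => 0) (fun _ => 1)) (fun _ => 2) (e.symm A)

/-- `f = f1 + f1 + f3` -/
structure Dbl {d1 d3 : ℕ} (e : (Fin d1 ⊕ Fin d1) ⊕ Fin d3 ≃ Fin d) (f : Fin d → Fin d → Fin d → ℝ)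
    (f1 : Fin d1 → Fin d1 → Fin d1 → ℝ) (f3 : Fin d3 → Fin d3 → Fin d3 → ℝ) : Prop where
  a1 : ∀ A B C, f (e (Sum.inl (Sum.inl A))) (e (Sum.inl (Sum.inl B))) (e (Sum.inl (Sum.inl C))) = f1 A B C
  a2 : ∀ A B C, f (e (Sum.inl (Sum.inr A))) (e (Sum.inl (Sum.inr B))) (e (Sum.inl (Sum.inr C))) = f1 A B C
  a3 : ∀ A B C, f (e (Sum.inr A)) (e (Sum.inr B)) (e (Sum.inr C)) = f3 A B C
  mix : ∀ A B C, ¬ (tag e A = tag e B ∧ tag e B = tag e C) → f A B C = 0

/-- the exchange of the two copies -/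
noncomputable def swO {d1 d3 : ℕ} (e : (Fin d1 ⊕ Fin d1) ⊕ Fin d3 ≃ Fin d) : Matrix (Fin d) (Fin d) ℝ :=
  Matrix.of fun A B => if A = e (Sum.map Sum.swap id (e.symm B)) then 1 else 0

/-- data of the product construction on an irreducible module `E` (`ζ` unit `Γ`-vacuum, `W` exchange, `P` parity of the whole module):
`𝒯(aζ, a'ζ, k) = a σ(a') k` -/
structure Tri {d1 d3 : ℕ} (e : (Fin d1 ⊕ Fin d1) ⊕ Fin d3 ≃ Fin d) (S : Setup d F) (W P : F →L[ℂ] F)
    (τ : F →ₗ[ℂ] F →ₗ[ℂ] F →ₗ[ℂ] F) : Prop where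
  /-- norm; `u, u'` killed by the annihilators of the second copy and the rest, `k` by those of both copies -/
  norm : ∀ u u' k, (∀ A α, tag e A ≠ 0 → S.amF A α u = 0) → (∀ A α, tag e A ≠ 0 → S.amF A α u' = 0) →
    (∀ A α, tag e A ≠ 2 → S.amF A α k = 0) → ‖τ u u' k‖ = ‖u‖ * ‖u'‖ * ‖k‖
  t1 : ∀ u u' k α A, (∀ A α, tag e A ≠ 0 → S.amF A α u = 0) → (∀ A α, tag e A ≠ 0 → S.amF A α u' = 0) →
    (∀ A α, tag e A ≠ 2 → S.amF A α k = 0) →
    S.th α (e (Sum.inl (Sum.inl A))) (τ u u' k) = τ (S.th α (e (Sum.inl (Sum.inl A))) u) u' k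
  t2 : ∀ u u' k α A, P u = u → (∀ A α, tag e A ≠ 0 → S.amF A α u = 0) → (∀ A α, tag e A ≠ 0 → S.amF A α u' = 0) →
    (∀ A α, tag e A ≠ 2 → S.amF A α k = 0) →
    S.th α (e (Sum.inl (Sum.inr A))) (τ u u' k) = τ u (S.th α (e (Sum.inl (Sum.inl A))) u') k
  t3 : ∀ u u' k α A, P u = u → P u' = u' → (∀ A α, tag e A ≠ 0 → S.amF A α u = 0) →
    (∀ A α, tag e A ≠ 0 → S.amF A α u' = 0) → (∀ A α, tag e A ≠ 2 → S.amF A α k = 0) →
    S.th α (e (Sum.inr A)) (τ u u' k) = τ u u' (S.th α (e (Sum.inr A)) k)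
  sw : ∀ u u' k, P u = u → P u' = u' → (∀ A α, tag e A ≠ 0 → S.amF A α u = 0) →
    (∀ A α, tag e A ≠ 0 → S.amF A α u' = 0) → (∀ A α, tag e A ≠ 2 → S.amF A α k = 0) →
    W (τ u u' k) = τ u' u k

/-- **S15 Tri** PROOF. `E₁` = vectors killed by the annihilators of tag `1, 2`; `E₁ = 𝔸₁ζ`, `𝔸₁` = algebra generated by the fermions of the first copy (irreducible, `AX2.VcaIrrStmt`). (‡) If `a ∈ 𝔸₁`, `aζ = 0` then
`ae = 0` for every `e` killed by the annihilators of the first copy (`AX2.WickStmt`: `‖ae‖ = ‖aζ‖‖e‖`). Linear section `s : E → 𝔸₁`, `s(v)ζ = v` for `v ∈ E₁` (`E` finite dimensional; `s(v)` even for even `v`: average with `PaP⁻¹`),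
`τ u u' k = s(u)(W s(u') W⁻¹)k`. (t1): `θs(u) - s(θu)` kills `ζ`. (t2): even elements commute with the other fermions, `θ^{(2)} = Wθ^{(1)}W⁻¹`. (sw): `W k = k` for `k` of tag type `{2}` (`k = bζ`, `b` in the algebra of
the rest, which commutes with `W`), `W² = 1`, even elements commute. (norm): Wick twice: `‖s(u)e‖ = ‖u‖‖e‖`, `e = σ(s(u'))k` is killed by the annihilators of the first copy. -/
def TriStmt : Prop := ∀ (d d1 d3 : ℕ) (e : (Fin d1 ⊕ Fin d1) ⊕ Fin d3 ≃ Fin d) (F : Type u) [NormedAddCommGroup F]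
  [InnerProductSpace ℂ F] (_ : FiniteDimensional ℂ F) (S : Setup d F), S.Irr → (∃ v : F, v ≠ 0) →
  ∀ W P, Imp S (swO e) W → Imp S (-1) P → ∃ τ, Tri e S W P τ

/-- **S16 SwpA** a symmetric zero mode. PROOF. `S1`, `S3` = setups of the first copy and of the rest (`S.th` on those colours, `f1`, `f3`). `φ` = zero mode of `S1.rst E₁`, `φ_n` its approximants, made even (`(1+P)/2`; S14 for the irreducible
module `E₁`; `Q` is odd, `G` even). `k_n` approximants of the zero mode of `S3.rst V_{12}`. `u_n(x) = τ(φ_n(x_1), φ_n(x_2), k_n(x_3))`: `Tst`, `G_Cu_n = 0`, `Q_βu_n = τ(Q^{(1)}_βφ_n,φ_n,k_n) + τ(φ_n,Q^{(1)}_βφ_n,k_n) + τ(φ_n,φ_n,Q^{(3)}_βk_n)`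
(`Dbl.mix`; (t1), (t2), (t3)), so `∫‖Q_βu_n‖² → 0` (norm, Fubini); Cauchy in `L²` (trilinearity and norm), limit `Ψ`, `‖Ψ‖ = ‖φ‖²‖k‖ ≠ 0`; `W u_n(x) = u_n(swO e x)` (sw), so the same for `Ψ`. -/
def SwpAStmt : Prop := ∀ (κ : ℝ) (d d1 d3 : ℕ) (e : (Fin d1 ⊕ Fin d1) ⊕ Fin d3 ≃ Fin d) (f : Fin d → Fin d → Fin d → ℝ)
  (f1 : Fin d1 → Fin d1 → Fin d1 → ℝ) (f3 : Fin d3 → Fin d3 → Fin d3 → ℝ), Dbl e f f1 f3 → OneA.{u} κ f1 → OneA.{u} κ f3 →
  ∀ (E : Type u) [NormedAddCommGroup E] [InnerProductSpace ℂ E] (_ : FiniteDimensional ℂ E) (S : Setup d E),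
    S.f = f → S.κ = κ → S.Irr → (∃ v : E, v ≠ 0) → ∀ W, Imp S (swO e) W → ∃ Ψ : Lp E 2 (volume : Measure (Cfg d)),
      S.IsZM Ψ ∧ Ψ ≠ 0 ∧ ∀ᵐ x ∂(volume : Measure (Cfg d)), W (Ψ x) = Ψ (ro (swO e) x)

/-- **S17 Swp** PROOF: S16 and uniqueness of the zero mode. -/
def SwpStmt : Prop := ∀ (κ : ℝ) (d d1 d3 : ℕ) (e : (Fin d1 ⊕ Fin d1) ⊕ Fin d3 ≃ Fin d) (f : Fin d → Fin d → Fin d → ℝ)
  (f1 : Fin d1 → Fin d1 → Fin d1 → ℝ) (f3 : Fin d3 → Fin d3 → Fin d3 → ℝ), Dbl e f f1 f3 → OneA.{u} κ f1 → OneA.{u} κ f3 →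
  OneA.{u} κ f → SSig.{u} κ f (swO e)

/-! ## Part 3: assembly -/

/-- **S18 Comb** PROOF. `V₀ = vca (AX2.czs h) K`, irreducible for the `s` fermions, with vacuum line `ℂζ` (`AX2.VcaIrrStmt`), `Gv S φ K ζ`. `W = U(O_zη)⁻¹ G U(η)` on `V₀`: implements `O_s` on the `s` fermions (`U` commutes with them), `Wζ = ζ`, so
`W(aζ) = α(a)ζ ∈ V₀` for `a` in the algebra of the `s` fermions: `Imp ((h.ss).rst V₀) (sO φ ψ O) W`. `Ψ ∈ zms V₀` corresponds to a zero mode of `h.ss.rst V₀` (`AX2.RstStmt`); `SSig` gives `WΨ(x) = Ψ(O_sx)`. -/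
def CombStmt : Prop := ∀ (d dh dm ds dz : ℕ) (F : Type u) [NormedAddCommGroup F] [InnerProductSpace ℂ F] (_ : FiniteDimensional ℂ F)
  (S : Setup d F) (φ : Spl dh dm d) (ψ : Spl ds dz dh) (z₀ : Cfg dz) (h : AD.Std2 S φ ψ z₀), S.Irr → (∃ v : F, v ≠ 0) →
  ∀ (L : Finset (Fin dz → ℝ)) (Om : Cfg dz → Matrix (Fin dm) (Fin dm) ℝ) (K : Submodule ℂ F) (U : Cfg dz → F →L[ℂ] F),
  AX.Bun S φ (AX.Mz S φ ψ) L Om K U → ∀ (O : Matrix (Fin d) (Fin d) ℝ) (G : F →L[ℂ] F), Sym S O → Blk φ ψ O → Imp S O G →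
  SSig.{u} S.κ h.ss.f (sO φ ψ O) →
  ∀ η : Cfg dz, (∀ ζ, Gv S φ K ζ → G (U η ζ) = U (ro (zO φ ψ O) η) ζ) →
  ∀ Ψ ∈ h.ss.zms (vca (AX2.czs h) K), ∀ᵐ x ∂(volume : Measure (Cfg ds)),
    G (U η (Ψ x)) = U (ro (zO φ ψ O) η) (Ψ (ro (sO φ ψ O) x))

variable {N k : ℕ} {n : Fin k → ℕ} {T : Fin d → Matrix (Fin N) (Fin N) ℂ} {φ : Spl dh dm d} {ψ : Spl ds dz dh}

/-- **S19 AdSym** adjoint matrices are symmetries. PROOF: `U.AdStmt`-type algebra: `T` is an orthonormal basis, `X ↦ VXV^*` preserves trace form and commutators. -/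
def AdSymStmt : Prop := ∀ (N d : ℕ) (F : Type u) [NormedAddCommGroup F] [InnerProductSpace ℂ F] (T : Fin d → Matrix (Fin N) (Fin N) ℂ)
  (S : Setup d F), Bas N d T S.f → (∀ V : BFSS.SU N, Sym S (adO T V)) ∧ ∀ V W : BFSS.SU N, adO T (V * W) = adO T V * adO T W

/-- **S20 EtaStar** good points. PROOF. `RegStmt` (with `I = erase 8`), `CollStmt`, `DM_Mz`, `ValStmt`. First part: invariance of the collision set under `O_z` (`∑_{i<8}D_i(O_zη)² = O_m(∑_{i<8}D_i(η)²)O_mᵀ`). (A) values `v_3(a)` pairwise different with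
`∑n_av_3(a) = 0`, other directions `0`. (B) `v_3(a) = 1`, `v_3(b) = -1`, `v_5(c) > 0` pairwise different for `c ≠ a,b`, `v_5(a) = v_5(b) = -(∑_{c≠a,b}n_cv_5(c))/(n_a + n_b)`; `R_t` rotates the `(3,4)` components; `R_π` exchanges `a` and `b` (`n_a = n_b`). -/
def EtaStarStmt {F : Type u} [NormedAddCommGroup F] [InnerProductSpace ℂ F] (S : Setup d F) (fr : NFr n T φ ψ) : Prop :=
  Bas N d T S.f → ANF.ValStmt S.f fr → ANF.RegStmt S fr → CollStmt →
  ∀ (t : Fin dz → ℝ) (Kc E : Matrix (Fin dm) (Fin dm) ℝ) (l : Fin dm → Fin dz → ℝ), RD (AX.Mz S φ ψ) t Kc E l →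
  (∀ O, Sym S O → Blk φ ψ O → ∀ η, η ∉ Coll (Finset.univ.image l) → ro (zO φ ψ O) η ∉ Coll (Finset.univ.image l)) ∧
  (∃ η : Cfg dz, η ∉ Coll (Finset.univ.image l) ∧ ∀ i : Fin 9, i.val < 3 → ∀ a, η (i, a) = 0) ∧
  ∀ a b : Fin k, a ≠ b → n a = n b → ∃ η : Cfg dz, (∀ i : Fin 9, i.val < 3 → ∀ e, η (i, e) = 0) ∧
    (∀ t, RR 3 4 t η ∉ Coll (Finset.univ.image l)) ∧
    ∀ i e, fr.val (RR 3 4 Real.pi η) i e = fr.val η i (Equiv.swap a b e)

/-- **S21 ExF** the `s` part of a normaliser element with trivial `z` part is inner. PROOF. `V` commutes with the block projections, so it is block diagonal; `V = exp(iH)` with `H` block diagonal hermitian (logarithm in each block), corrected by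
a block scalar to be traceless (or: conjugation only depends on `V` up to block scalars); `H_s = ∑a_iT_i` (traceless part in each block), conjugation with `exp(iH)` on `s` is `exp(-ad a)`. -/
def ExFStmt (f : Fin d → Fin d → Fin d → ℝ) (fr : NFr n T φ ψ) : Prop := Bas N d T f →
  ∀ V : BFSS.SU N, Blk φ ψ (adO T V) → zO φ ψ (adO T V) = 1 → ∃ a : Fin ds → ℝ, sO φ ψ (adO T V) =
    NormedSpace.exp (adf (fun A B C => f (φ (Sum.inl (ψ (Sum.inl A)))) (φ (Sum.inl (ψ (Sum.inl B)))) (φ (Sum.inl (ψ (Sum.inl C))))) a)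

/-- **S22 OneFam** direct sums of finite families. PROOF: induction on `k` with `AX2.ProdStmt`, `AX2.ZeroStmt`. -/
def OneFamStmt : Prop := AX2.ProdStmt.{u} → AX2.ZeroStmt.{u} → ∀ (κ : ℝ) (k : ℕ) (dd : Fin k → ℕ)
  (ff : ∀ a, Fin (dd a) → Fin (dd a) → Fin (dd a) → ℝ) (D : ℕ) (e : (Σ a, Fin (dd a)) ≃ Fin D) (f : Fin D → Fin D → Fin D → ℝ),
  (∀ (a : Fin k) (i j l : Fin (dd a)), f (e ⟨a, i⟩) (e ⟨a, j⟩) (e ⟨a, l⟩) = ff a i j l) →
  (∀ s t v : Σ a, Fin (dd a), ¬ (s.1 = t.1 ∧ t.1 = v.1) → f (e s) (e t) (e v) = 0) →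
  (∀ a, OneA.{u} κ (ff a)) → OneA.{u} κ f

/-- **S23 SwF** the `s` part of an exchange. PROOF. `ANF.SwStmt`: `sO` is the permutation matrix exchanging the blocks `a`, `b` of `fr.es`; build `e : (Fin d1 ⊕ Fin d1) ⊕ Fin d3 ≃ Fin ds` with `d1 = n_a² - 1` (blocks `a`, `b`, the rest), `Dbl` by `ANF.SfStmt`,
`OneA` of the rest by S22; S17. -/
def SwFStmt {F : Type u} [NormedAddCommGroup F] [InnerProductSpace ℂ F] (S : Setup d F) (fr : NFr n T φ ψ) : Prop :=
  Bas N d T S.f → ANF.SwStmt S.f fr → ANF.SfStmt S fr → OneFamStmt.{u} → AX2.ProdStmt.{u} → AX2.ZeroStmt.{u} →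
  SwpStmt.{u} → (∀ a, OneA.{u} 1 (fr.fb (n a))) →
  ∀ (a b : Fin k) (_ : a ≠ b) (hab : n a = n b) (V : BFSS.SU N) (c : ℂ), ‖c‖ = 1 →
    (∀ s t, V.val (fr.E s) (fr.E t) = if s = ANF.swP a b hab t then c else 0) →
    SSig.{u} 1 (fun A B C => S.f (φ (Sum.inl (ψ (Sum.inl A)))) (φ (Sum.inl (ψ (Sum.inl B)))) (φ (Sum.inl (ψ (Sum.inl C)))))
      (sO φ ψ (adO T V))

/-- **S24 Sgn** OUTPUT. PROOF. The set of `V` for which the conclusion holds (for all `η`, `Ψ`) is closed under products (`M.S` and `adO` are multiplicative, `ro (sO …)` preserves null sets; `O_zη ∉ Coll L`). `ANF.NrmStmt`: generators with `zO = 1`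
(S10 (A) at the point of S20 (A), S11, S21, S13, S18) and exchanges (S10 (B) at the point of S20 (B): `O_zη = R_πη` by `ANF.SwStmt`, `ValStmt`; S11, S23, S18). `Imp S (adO T V) (M.S V)`: `AX2.ImpMStmt`. -/
def SgnStmt : Prop := ∀ (N d dh dm ds dz k : ℕ) (n : Fin k → ℕ) (F : Type u) [NormedAddCommGroup F] [InnerProductSpace ℂ F]
  (_ : FiniteDimensional ℂ F) (M : BFSS.Model N d F) (S : Setup d F) (φ : Spl dh dm d) (ψ : Spl ds dz dh) (fr : NFr n M.T φ ψ)
  (z₀ : Cfg dz) (h : AD.Std2 S φ ψ z₀), U.Rep M S → (∀ a, OneA.{u} 1 (fr.fb (n a))) →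
  ∀ (t : Fin dz → ℝ) (Kc E : Matrix (Fin dm) (Fin dm) ℝ) (l : Fin dm → Fin dz → ℝ), RD (AX.Mz S φ ψ) t Kc E l →
  ∀ V : BFSS.SU N, Blk φ ψ (adO M.T V) →
  ∀ η ∉ Coll (Finset.univ.image l), ro (zO φ ψ (adO M.T V)) η ∉ Coll (Finset.univ.image l) ∧
  ∀ Ψ ∈ h.ss.zms (vca (AX2.czs h) (S.Kr φ (1 - Complex.I • S.J0 Kc))), ∀ᵐ x ∂(volume : Measure (Cfg ds)),
    M.S V (S.UU φ E l η (Ψ x)) = S.UU φ E l (ro (zO φ ψ (adO M.T V)) η) (Ψ (ro (sO φ ψ (adO M.T V)) x))

end Vale.Agent.P353.Z.AS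
end

section

/-! # P353, all `N`, block LOW: LOW9, first half: the weighted error -/

open MeasureTheory Filter Topology
open scoped ContDiff ENNReal

namespace Vale.Agent.P353.AN.LW

open Vale.Agent.P353.Z Vale.Agent.P353.Z.U Vale.Agent.P353.Z.AN Vale.Agent.P353.AN.G

variable {r ds dm : ℕ} {F : Type*} [NormedAddCommGroup F] [InnerProductSpace ℂ F]

namespace OuteErr

omit [InnerProductSpace ℂ F] in
theorem eLpNorm_two_sq {α : Type*} [MeasurableSpace α] (μ : Measure α) (f : α → F) :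
    eLpNorm f 2 μ ^ 2 = ∫⁻ x, ‖f x‖ₑ ^ 2 ∂μ := by
  rw [eLpNorm_eq_lintegral_rpow_enorm_toReal (by norm_num) (by norm_num)]
  rw [← ENNReal.rpow_natCast, ← ENNReal.rpow_mul]
  norm_num

theorem gss_cont : Continuous (gss : Cfg r → ℝ) := by
  unfold gss
  fun_prop

theorem qX_cont (Om : Matrix (Fin dm) (Fin dm) ℝ) : Continuous fun X : Cfg dm => qX Om X := by
  unfold qX
  fun_prop

/-- elementary pointwise bound -/
theorem ptw (c : ℝ) (hc0 : 0 ≤ c) (hc1 : c ≤ 1) (u w : F) :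
    ‖(c : ℂ) • u - w‖ ^ 2 ≤ 2 * ‖w - u‖ ^ 2 + (1 - c) * (2 * ‖w‖ ^ 2) := by
  have h1 : (c : ℂ) • u - w = (c : ℂ) • (u - w) - ((1 - c : ℝ) : ℂ) • w := by
    rw [Complex.ofReal_sub, Complex.ofReal_one, sub_smul, one_smul, smul_sub]
    abel
  have h2 : ‖(c : ℂ) • u - w‖ ≤ c * ‖w - u‖ + (1 - c) * ‖w‖ := by
    rw [h1]
    refine (norm_sub_le _ _).trans ?_
    rw [norm_smul, norm_smul, Complex.norm_real, Complex.norm_real, Real.norm_of_nonneg hc0,
      Real.norm_of_nonneg (by linarith : (0 : ℝ) ≤ 1 - c), norm_sub_rev u w]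
  have h3 : ‖(c : ℂ) • u - w‖ ^ 2 ≤ (c * ‖w - u‖ + (1 - c) * ‖w‖) ^ 2 :=
    pow_le_pow_left₀ (norm_nonneg _) h2 2
  have hA := norm_nonneg (w - u)
  have hB := norm_nonneg w
  nlinarith [mul_nonneg hc0 (sub_nonneg.2 hc1), sq_nonneg (‖w - u‖ - ‖w‖), sq_nonneg ‖w - u‖, sq_nonneg ‖w‖,
    mul_nonneg (mul_nonneg hc0 (sub_nonneg.2 hc1)) (sq_nonneg (‖w - u‖ - ‖w‖)),
    mul_nonneg (sub_nonneg.2 hc1) (sq_nonneg ‖w - u‖), mul_nonneg (sub_nonneg.2 hc1) (sq_nonneg ‖w‖),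
    mul_nonneg (mul_nonneg hc0 (sub_nonneg.2 hc1)) (sq_nonneg ‖w‖),
    mul_nonneg (mul_nonneg hc0 (sub_nonneg.2 hc1)) (sq_nonneg ‖w - u‖)]

end OuteErr

open OuteErr in
/-- weighted error of the approximate Gaussian profile -/
theorem oute_err (κ : ℝ) (χ : Cfg r → ℝ) (V : Cfg r → F →L[ℂ] F) (w₀ g : Cfg ds → F)
    (Ωm : Cfg r → Matrix (Fin dm) (Fin dm) ℝ)
    (hV : ∀ η v, ‖V η v‖ = ‖v‖) (hw : MemLp w₀ 2 (volume : Measure (Cfg ds))) (hw1 : ∫ s, ‖w₀ s‖ ^ 2 = 1)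
    (hχ : Continuous χ) (hχs : HasCompactSupport χ) (hg : Continuous g) (hgs : HasCompactSupport g)
    (C ε₁ ε₂ L : ℝ) (hC0 : 0 ≤ C) (h2 : 0 ≤ ε₂)
    (hC : ∀ η ∈ tsupport χ, ∫⁻ X : Cfg dm, ENNReal.ofReal ((1 + ‖X‖ ^ 2) ^ (dm + 1) *
      (Nf κ (Ωm η) * Real.exp (-(1 / 2) * qX (Ωm η) X)) ^ 2) ≤ ENNReal.ofReal C)
    (hL : ∀ η ∈ tsupport χ, ∫⁻ X in {X : Cfg dm | L ≤ ‖X‖}, ENNReal.ofReal ((1 + ‖X‖ ^ 2) ^ (dm + 1) *
      (Nf κ (Ωm η) * Real.exp (-(1 / 2) * qX (Ωm η) X)) ^ 2) ≤ ENNReal.ofReal ε₂)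
    (ct : Cfg dm → ℝ) (hct : ∀ X, 0 ≤ ct X ∧ ct X ≤ 1) (hct1 : ∀ X, ‖X‖ ≤ L → ct X = 1)
    (he : ∫ s, ‖w₀ s - g s‖ ^ 2 ≤ ε₁) :
    eLpNorm (fun q : Cfg r × Cfg ds × Cfg dm =>
      ((χ q.1 * gss q.1 * (Nf κ (Ωm q.1) * Real.exp (-(1 / 2) * qX (Ωm q.1) q.2.2)) * ct q.2.2 : ℝ) : ℂ) •
        V q.1 (g q.2.1) - bG κ Ωm (fun η s => ((χ η * gss η : ℝ) : ℂ) • V η (w₀ s)) q) 2 (wM r ds dm) ^ 2 ≤
      ENNReal.ofReal (2 * (∫ η, (χ η * gss η) ^ 2) * (C * ε₁ + ε₂)) := by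
  have hgm : MemLp g 2 (volume : Measure (Cfg ds)) := hg.memLp_of_hasCompactSupport hgs
  have hint1 : Integrable (fun s => ‖w₀ s - g s‖ ^ 2) (volume : Measure (Cfg ds)) :=
    (hw.sub hgm).integrable_norm_pow (p := 2) (by norm_num)
  have hint0 : Integrable (fun s => ‖w₀ s‖ ^ 2) (volume : Measure (Cfg ds)) :=
    hw.integrable_norm_pow (p := 2) (by norm_num)
  have hint2 : Integrable (fun η : Cfg r => (χ η * gss η) ^ 2) := by
    have hc : Continuous fun η : Cfg r => (χ η * gss η) ^ 2 := (hχ.mul gss_cont).pow 2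
    refine hc.integrable_of_hasCompactSupport ?_
    have h1 : (fun η : Cfg r => (χ η * gss η) ^ 2) = fun η => χ η * (gss η * (χ η * gss η)) := by
      funext η
      ring
    rw [h1]
    exact hχs.mul_right
  -- abbreviations
  set G : Cfg r → Cfg dm → ℝ := fun η X => Nf κ (Ωm η) * Real.exp (-(1 / 2) * qX (Ωm η) X) with hG
  set h : Cfg r → Cfg dm → ℝ≥0∞ := fun η X => ENNReal.ofReal ((1 + ‖X‖ ^ 2) ^ (dm + 1) * (G η X) ^ 2) with hh
  set TL : Set (Cfg dm) := {X : Cfg dm | L ≤ ‖X‖} with hTL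
  set A : Cfg ds → ℝ≥0∞ := fun s => ENNReal.ofReal (2 * ‖w₀ s - g s‖ ^ 2) with hA
  set B : Cfg ds → ℝ≥0∞ := fun s => ENNReal.ofReal (2 * ‖w₀ s‖ ^ 2) with hB
  set D : Cfg r → ℝ≥0∞ := fun η => ENNReal.ofReal ((χ η * gss η) ^ 2) with hD
  have hTm : MeasurableSet TL := (isClosed_le continuous_const continuous_norm).measurableSet
  have hGc : ∀ η, Continuous (G η) := fun η =>
    continuous_const.mul (Real.continuous_exp.comp (continuous_const.mul (qX_cont (Ωm η))))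
  have hhm : ∀ η, Measurable (h η) := fun η => by
    have : Continuous fun X : Cfg dm => (1 + ‖X‖ ^ 2) ^ (dm + 1) * (G η X) ^ 2 := by
      have := hGc η
      fun_prop
    exact this.measurable.ennreal_ofReal
  have hAint : ∫⁻ s, A s ≤ ENNReal.ofReal (2 * ε₁) := by
    rw [hA, ← ofReal_integral_eq_lintegral_ofReal (hint1.const_mul 2) (Eventually.of_forall fun s => by positivity),
      integral_const_mul]
    exact ENNReal.ofReal_le_ofReal (by linarith)
  have hBint : ∫⁻ s, B s ≤ ENNReal.ofReal 2 := by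
    rw [hB, ← ofReal_integral_eq_lintegral_ofReal (hint0.const_mul 2) (Eventually.of_forall fun s => by positivity),
      integral_const_mul, hw1, mul_one]
  have hDint : ∫⁻ η, D η = ENNReal.ofReal (∫ η, (χ η * gss η) ^ 2) := by
    rw [hD, ← ofReal_integral_eq_lintegral_ofReal hint2 (Eventually.of_forall fun s => sq_nonneg _)]
  -- pointwise
  have hpt : ∀ q : Cfg r × Cfg ds × Cfg dm, ENNReal.ofReal ((1 + ‖q.2.2‖ ^ 2) ^ (dm + 1)) *
      ‖((χ q.1 * gss q.1 * (Nf κ (Ωm q.1) * Real.exp (-(1 / 2) * qX (Ωm q.1) q.2.2)) * ct q.2.2 : ℝ) : ℂ) •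
        V q.1 (g q.2.1) - bG κ Ωm (fun η s => ((χ η * gss η : ℝ) : ℂ) • V η (w₀ s)) q‖ₑ ^ 2 ≤
      D q.1 * (h q.1 q.2.2 * A q.2.1 + TL.indicator (h q.1) q.2.2 * B q.2.1) := by
    rintro ⟨η, s, X⟩
    have e1 : ((χ η * gss η * (Nf κ (Ωm η) * Real.exp (-(1 / 2) * qX (Ωm η) X)) * ct X : ℝ) : ℂ) •
        V η (g s) - bG κ Ωm (fun η s => ((χ η * gss η : ℝ) : ℂ) • V η (w₀ s)) (η, s, X) =
        ((χ η * gss η * G η X : ℝ) : ℂ) • V η ((ct X : ℂ) • g s - w₀ s) := by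
      simp only [bG, hG, map_sub, map_smul, smul_sub, smul_smul]
      push_cast
      congr 2
      ring
    have e2 : ‖((χ η * gss η * G η X : ℝ) : ℂ) • V η ((ct X : ℂ) • g s - w₀ s)‖ ^ 2 =
        (χ η * gss η) ^ 2 * (G η X ^ 2 * ‖(ct X : ℂ) • g s - w₀ s‖ ^ 2) := by
      rw [norm_smul, hV, Complex.norm_real, Real.norm_eq_abs, mul_pow, sq_abs]
      ring
    have e3 : (1 - ct X) * (2 * ‖w₀ s‖ ^ 2) ≤ TL.indicator (fun _ => (1 : ℝ)) X * (2 * ‖w₀ s‖ ^ 2) := by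
      refine mul_le_mul_of_nonneg_right ?_ (by positivity)
      by_cases hX : X ∈ TL
      · rw [Set.indicator_of_mem hX]
        linarith [(hct X).1]
      · rw [Set.indicator_of_notMem hX]
        have : ‖X‖ ≤ L := le_of_lt (not_le.1 hX)
        rw [hct1 X this]
        norm_num
    have e4 : ‖(ct X : ℂ) • g s - w₀ s‖ ^ 2 ≤
        2 * ‖w₀ s - g s‖ ^ 2 + TL.indicator (fun _ => (1 : ℝ)) X * (2 * ‖w₀ s‖ ^ 2) :=
      (ptw (ct X) (hct X).1 (hct X).2 (g s) (w₀ s)).trans (by linarith)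
    have hi0 : 0 ≤ TL.indicator (fun _ => (1 : ℝ)) X := Set.indicator_nonneg (fun _ _ => zero_le_one) X
    show ENNReal.ofReal ((1 + ‖X‖ ^ 2) ^ (dm + 1)) * ‖_‖ₑ ^ 2 ≤ _
    rw [e1, ← ofReal_norm, ← ENNReal.ofReal_pow (norm_nonneg _), ← ENNReal.ofReal_mul (by positivity), e2]
    have e5 : TL.indicator (h η) X = ENNReal.ofReal (TL.indicator (fun _ => (1 : ℝ)) X * ((1 + ‖X‖ ^ 2) ^ (dm + 1) * (G η X) ^ 2)) := by
      by_cases hX : X ∈ TL
      · rw [Set.indicator_of_mem hX, Set.indicator_of_mem hX, one_mul]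
      · rw [Set.indicator_of_notMem hX, Set.indicator_of_notMem hX, zero_mul, ENNReal.ofReal_zero]
    show _ ≤ D η * (h η X * A s + TL.indicator (h η) X * B s)
    rw [e5, hD, hh, hA, hB]
    simp only
    rw [← ENNReal.ofReal_mul (by positivity), ← ENNReal.ofReal_mul (by positivity),
      ← ENNReal.ofReal_add (by positivity) (by positivity), ← ENNReal.ofReal_mul (by positivity)]
    refine ENNReal.ofReal_le_ofReal ?_
    have e6 := mul_le_mul_of_nonneg_left e4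
      (by positivity : 0 ≤ (χ η * gss η) ^ 2 * ((1 + ‖X‖ ^ 2) ^ (dm + 1) * G η X ^ 2))
    nlinarith [e6]
  have hinner : ∀ η s, ∫⁻ X, D η * (h η X * A s + TL.indicator (h η) X * B s) ≤
      D η * (ENNReal.ofReal C * A s + ENNReal.ofReal ε₂ * B s) := by
    intro η s
    rw [lintegral_const_mul' _ _ (by rw [hD]; exact ENNReal.ofReal_ne_top)]
    by_cases hη : η ∈ tsupport χ
    · refine mul_le_mul_right ?_ _
      rw [lintegral_add_left ((hhm η).mul_const _), lintegral_mul_const' _ _ (by rw [hA]; exact ENNReal.ofReal_ne_top),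
        lintegral_mul_const' _ _ (by rw [hB]; exact ENNReal.ofReal_ne_top), lintegral_indicator hTm]
      exact add_le_add (mul_le_mul_left (hC η hη) _) (mul_le_mul_left (hL η hη) _)
    · have : D η = 0 := by
        rw [hD]
        simp only
        rw [image_eq_zero_of_notMem_tsupport hη, zero_mul]
        simp
      rw [this, zero_mul, zero_mul]
  have hAm : AEMeasurable A (volume : Measure (Cfg ds)) :=
    (hint1.const_mul 2).aestronglyMeasurable.aemeasurable.ennreal_ofReal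
  have hmid : ∀ η, ∫⁻ p : Cfg ds × Cfg dm, D η * (h η p.2 * A p.1 + TL.indicator (h η) p.2 * B p.1) ≤
      D η * ENNReal.ofReal (2 * (C * ε₁ + ε₂)) := by
    intro η
    have hDt : D η ≠ ⊤ := by
      rw [hD]
      exact ENNReal.ofReal_ne_top
    refine (lintegral_prod_le _).trans ((lintegral_mono fun s => hinner η s).trans ?_)
    rw [lintegral_const_mul' _ _ hDt, lintegral_add_left' (hAm.const_mul _), lintegral_const_mul' _ _ ENNReal.ofReal_ne_top,
      lintegral_const_mul' _ _ ENNReal.ofReal_ne_top]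
    refine mul_le_mul_right ?_ _
    have hε₁ : 0 ≤ ε₁ := le_trans (integral_nonneg fun s => by positivity) he
    calc (ENNReal.ofReal C * ∫⁻ s, A s) + (ENNReal.ofReal ε₂ * ∫⁻ s, B s) ≤
        ENNReal.ofReal C * ENNReal.ofReal (2 * ε₁) + ENNReal.ofReal ε₂ * ENNReal.ofReal 2 :=
          add_le_add (mul_le_mul_right hAint _) (mul_le_mul_right hBint _)
      _ = ENNReal.ofReal (2 * (C * ε₁ + ε₂)) := by
          rw [← ENNReal.ofReal_mul hC0, ← ENNReal.ofReal_mul h2, ← ENNReal.ofReal_add (by positivity) (by positivity)]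
          congr 1
          ring
  rw [eLpNorm_two_sq]
  unfold wM
  have hwm : Measurable fun q : Cfg r × Cfg ds × Cfg dm => ENNReal.ofReal ((1 + ‖q.2.2‖ ^ 2) ^ (dm + 1)) := by
    have : Continuous fun q : Cfg r × Cfg ds × Cfg dm => (1 + ‖q.2.2‖ ^ 2) ^ (dm + 1) := by fun_prop
    exact this.measurable.ennreal_ofReal
  refine (lintegral_withDensity_le_lintegral_mul _ hwm _).trans ?_
  refine (lintegral_mono fun q => hpt q).trans ?_
  refine (lintegral_prod_le _).trans ((lintegral_mono fun η => hmid η).trans ?_)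
  rw [lintegral_mul_const' _ _ ENNReal.ofReal_ne_top, hDint,
    ← ENNReal.ofReal_mul (integral_nonneg fun η => sq_nonneg _)]
  exact ENNReal.ofReal_le_ofReal (le_of_eq (by ring))

end Vale.Agent.P353.AN.LW
end

section

/-! # P353, all `N`, block SGN: task S1 Line (the vacuum line of a complex structure) (helper516) -/

open Matrix

namespace Vale.Agent.P353.Z.AS

variable {d : ℕ} {F : Type*} [NormedAddCommGroup F] [InnerProductSpace ℂ F]

section

variable {J : Matrix (Fin 16 × Fin d) (Fin 16 × Fin d) ℂ}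

lemma lnSq (hJ : CStr J) : ((1 : Matrix (Fin 16 × Fin d) (Fin 16 × Fin d) ℂ) - Complex.I • J) *
    (1 - Complex.I • J) = (2 : ℂ) • (1 - Complex.I • J) := by
  have h : (Complex.I • J) * (Complex.I • J) = 1 := by
    rw [smul_mul_smul_comm, Complex.I_mul_I, hJ.sq, neg_smul, one_smul, neg_neg]
  rw [sub_mul, one_mul, mul_sub, mul_one, h]
  module

lemma lnT (hJ : CStr J) : ((1 : Matrix (Fin 16 × Fin d) (Fin 16 × Fin d) ℂ) - Complex.I • J)ᵀ =
    1 + Complex.I • J := by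
  rw [transpose_sub, transpose_one, transpose_smul, hJ.anti, smul_neg, sub_neg_eq_add]

lemma lnZ (hJ : CStr J) : ((1 : Matrix (Fin 16 × Fin d) (Fin 16 × Fin d) ℂ) - Complex.I • J) *
    (1 - Complex.I • J)ᵀ = 0 := by
  have h : (Complex.I • J) * (Complex.I • J) = 1 := by
    rw [smul_mul_smul_comm, Complex.I_mul_I, hJ.sq, neg_smul, one_smul, neg_neg]
  rw [lnT hJ, sub_mul, one_mul, mul_add, mul_one, h]
  abel

end

/-- the isotropic space spanned by the rows of `1 - iJ` -/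
noncomputable def lnA (J : Matrix (Fin 16 × Fin d) (Fin 16 × Fin d) ℂ) :
    Submodule ℂ (Fin 16 × Fin d → ℂ) where
  carrier := {z | z ᵥ* ((1 : Matrix (Fin 16 × Fin d) (Fin 16 × Fin d) ℂ) - Complex.I • J) = (2 : ℂ) • z}
  add_mem' := by
    intro a b ha hb
    change (a + b) ᵥ* _ = (2 : ℂ) • (a + b)
    have ha' : a ᵥ* ((1 : Matrix (Fin 16 × Fin d) (Fin 16 × Fin d) ℂ) - Complex.I • J) = (2 : ℂ) • a := ha
    have hb' : b ᵥ* ((1 : Matrix (Fin 16 × Fin d) (Fin 16 × Fin d) ℂ) - Complex.I • J) = (2 : ℂ) • b := hb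
    rw [add_vecMul, ha', hb', smul_add]
  zero_mem' := by
    change (0 : Fin 16 × Fin d → ℂ) ᵥ* _ = (2 : ℂ) • 0
    rw [zero_vecMul, smul_zero]
  smul_mem' := by
    intro c a ha
    have ha' : a ᵥ* ((1 : Matrix (Fin 16 × Fin d) (Fin 16 × Fin d) ℂ) - Complex.I • J) = (2 : ℂ) • a := ha
    change (c • a) ᵥ* _ = (2 : ℂ) • (c • a)
    rw [smul_vecMul, ha', smul_comm]

lemma lnA_iff {J : Matrix (Fin 16 × Fin d) (Fin 16 × Fin d) ℂ} {z : Fin 16 × Fin d → ℂ} :
    z ∈ lnA J ↔ z ᵥ* ((1 : Matrix (Fin 16 × Fin d) (Fin 16 × Fin d) ℂ) - Complex.I • J) = (2 : ℂ) • z :=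
  Iff.rfl

lemma lnA_mem {J : Matrix (Fin 16 × Fin d) (Fin 16 × Fin d) ℂ} (hJ : CStr J) (w : Fin 16 × Fin d → ℂ) :
    w ᵥ* ((1 : Matrix (Fin 16 × Fin d) (Fin 16 × Fin d) ℂ) - Complex.I • J) ∈ lnA J := by
  rw [lnA_iff, vecMul_vecMul, lnSq hJ, vecMul_smul]

/-- the vacuum space in terms of the isotropic space -/
lemma ln_iff (S : Setup d F) {J : Matrix (Fin 16 × Fin d) (Fin 16 × Fin d) ℂ} (hJ : CStr J) (v : F) :
    v ∈ JV S J ↔ ∀ a ∈ lnA J, ∑ p : Fin 16 × Fin d, a p • S.th p.1 p.2 v = 0 := by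
  constructor
  · intro hv a ha
    have hv' : ∀ p, ∑ q : Fin 16 × Fin d,
        ((1 : Matrix (Fin 16 × Fin d) (Fin 16 × Fin d) ℂ) - Complex.I • J) p q • S.th q.1 q.2 v = 0 := hv
    have ha' := lnA_iff.1 ha
    have h1 : (2 : ℂ) • ∑ q : Fin 16 × Fin d, a q • S.th q.1 q.2 v = 0 := by
      have h2 : ∀ q, (2 : ℂ) • (a q • S.th q.1 q.2 v) =
          ∑ p, a p • (((1 : Matrix (Fin 16 × Fin d) (Fin 16 × Fin d) ℂ) - Complex.I • J) p q • S.th q.1 q.2 v) := by
        intro q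
        have h3 : (2 : ℂ) * a q = ∑ p, a p *
            ((1 : Matrix (Fin 16 × Fin d) (Fin 16 × Fin d) ℂ) - Complex.I • J) p q := by
          have := congrFun ha' q
          rw [Pi.smul_apply, smul_eq_mul] at this
          rw [← this]
          rfl
        rw [smul_smul, h3, Finset.sum_smul]
        exact Finset.sum_congr rfl fun p _ => by rw [mul_smul]
      rw [Finset.smul_sum, Finset.sum_congr rfl fun q _ => h2 q, Finset.sum_comm]
      refine Finset.sum_eq_zero fun p _ => ?_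
      rw [← Finset.smul_sum, hv' p, smul_zero]
    exact (smul_eq_zero.1 h1).resolve_left two_ne_zero
  · intro h p
    have h1 : (fun q => ((1 : Matrix (Fin 16 × Fin d) (Fin 16 × Fin d) ℂ) - Complex.I • J) p q) ∈ lnA J := by
      have h2 := lnA_mem hJ (Pi.single p 1)
      rw [single_one_vecMul] at h2
      exact h2
    exact h _ h1

/-- **S1 Line** -/
theorem line_stmt (S : Setup d F) : LineStmt S := by
  intro hirr hF J hJ
  have hiso : ∀ a ∈ lnA J, ∀ b ∈ lnA J, ∑ p, a p * b p = 0 := by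
    intro a ha b hb
    have ha' := lnA_iff.1 ha
    have hb' := lnA_iff.1 hb
    have h1 : ((2 : ℂ) • a) ⬝ᵥ ((2 : ℂ) • b) = 0 := by
      rw [← ha', ← hb', ← dotProduct_mulVec, ← mulVec_transpose, mulVec_mulVec, lnZ hJ]
      simp
    rw [smul_dotProduct, dotProduct_smul, smul_smul] at h1
    have h2 := (smul_eq_zero.1 h1).resolve_left (by norm_num)
    exact h2
  have hmax : ∀ z : Fin 16 × Fin d → ℂ, ∃ a ∈ lnA J, ∃ b ∈ lnA J, z = a + fun p => (starRingEnd ℂ) (b p) := by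
    intro z
    refine ⟨(1 / 2 : ℂ) • (z ᵥ* (1 - Complex.I • J)), Submodule.smul_mem _ _ (lnA_mem hJ z),
      (1 / 2 : ℂ) • ((fun p => (starRingEnd ℂ) (z p)) ᵥ* (1 - Complex.I • J)),
      Submodule.smul_mem _ _ (lnA_mem hJ _), ?_⟩
    funext q
    have hr : ∀ p, (starRingEnd ℂ) (J p q) = J p q := fun p => Complex.conj_eq_iff_im.2 (hJ.real p q)
    have h1 : (z ᵥ* ((1 : Matrix (Fin 16 × Fin d) (Fin 16 × Fin d) ℂ) - Complex.I • J)) q =
        z q - Complex.I * ∑ p, z p * J p q := by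
      rw [vecMul_sub, Pi.sub_apply, vecMul_one, vecMul_smul, Pi.smul_apply, smul_eq_mul]
      rfl
    have h2 : (starRingEnd ℂ) (((fun p => (starRingEnd ℂ) (z p)) ᵥ*
        ((1 : Matrix (Fin 16 × Fin d) (Fin 16 × Fin d) ℂ) - Complex.I • J)) q) =
        z q + Complex.I * ∑ p, z p * J p q := by
      rw [vecMul_sub, Pi.sub_apply, vecMul_one, vecMul_smul, Pi.smul_apply, smul_eq_mul, map_sub, map_mul,
        Complex.conj_conj, Complex.conj_I]
      have h3 : (starRingEnd ℂ) (((fun p => (starRingEnd ℂ) (z p)) ᵥ* J) q) = ∑ p, z p * J p q := by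
        change (starRingEnd ℂ) (∑ p, (starRingEnd ℂ) (z p) * J p q) = _
        rw [map_sum]
        refine Finset.sum_congr rfl fun p _ => ?_
        rw [map_mul, Complex.conj_conj, hr]
      rw [h3]
      ring
    rw [Pi.add_apply, Pi.smul_apply, Pi.smul_apply, smul_eq_mul, smul_eq_mul, h1, map_mul, h2]
    have h4 : (starRingEnd ℂ) (1 / 2 : ℂ) = 1 / 2 := by
      rw [map_div₀, map_one, map_ofNat]
    rw [h4]
    ring
  obtain ⟨Ω, hn, hΩ, hu⟩ := U.vac S hirr hF (lnA J) hiso hmax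
  exact ⟨Ω, (ln_iff S hJ Ω).2 hΩ, hn, fun v hv => hu v ((ln_iff S hJ v).1 hv)⟩

end Vale.Agent.P353.Z.AS
end

section

/-! # P353, all `N`, block SGN: good points (`EtaStarStmt`) -/

open MeasureTheory Filter Topology Matrix
open scoped ContDiff

namespace Vale.Agent.P353.Z.AS

universe u

namespace Es518

variable {d dh dm ds dz N k : ℕ} {F : Type*} [NormedAddCommGroup F] [InnerProductSpace ℂ F]

/-- the `m` part -/
noncomputable def mO (φ : Spl dh dm d) (O : Matrix (Fin d) (Fin d) ℝ) : Matrix (Fin dm) (Fin dm) ℝ :=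
  Matrix.of fun A B => O (φ (Sum.inr A)) (φ (Sum.inr B))

/-- structure constants as a matrix -/
noncomputable def fM (S : Setup d F) (B : Fin d) : Matrix (Fin d) (Fin d) ℝ := Matrix.of fun A C => S.f A B C

lemma sum_spl (φ : Spl dh dm d) (g : Fin d → ℝ) :
    ∑ A, g A = ∑ A, g (φ (Sum.inl A)) + ∑ A, g (φ (Sum.inr A)) := by
  rw [← φ.sum_comp, Fintype.sum_sum_type]

lemma fM_eq (S : Setup d F) {O : Matrix (Fin d) (Fin d) ℝ} (hO : Sym S O) (B : Fin d) :
    fM S B = ∑ B', O B' B • (Oᵀ * fM S B' * O) := by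
  ext A C
  rw [fM, Matrix.of_apply, ← hO.inv A B C, Matrix.sum_apply, Finset.sum_comm]
  refine Finset.sum_congr rfl fun B' _ => ?_
  rw [Matrix.smul_apply, Matrix.mul_apply, smul_eq_mul, Finset.mul_sum, Finset.sum_comm]
  refine Finset.sum_congr rfl fun C' _ => ?_
  rw [Matrix.mul_apply, Finset.sum_mul, Finset.mul_sum]
  refine Finset.sum_congr rfl fun A' _ => ?_
  rw [Matrix.transpose_apply, fM, Matrix.of_apply]
  ring

lemma fM_tr (S : Setup d F) {O : Matrix (Fin d) (Fin d) ℝ} (hO : Sym S O) (B : Fin d) :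
    O * fM S B * Oᵀ = ∑ B', O B' B • fM S B' := by
  rw [fM_eq S hO B, Finset.mul_sum, Finset.sum_mul]
  refine Finset.sum_congr rfl fun B' _ => ?_
  rw [Matrix.mul_smul, Matrix.smul_mul]
  congr 1
  have h1 : O * (Oᵀ * fM S B' * O) * Oᵀ = (O * Oᵀ) * fM S B' * (O * Oᵀ) := by
    simp only [Matrix.mul_assoc]
  rw [h1, hO.orth, Matrix.one_mul, Matrix.mul_one]

lemma mO_orth (S : Setup d F) {φ : Spl dh dm d} {ψ : Spl ds dz dh} {O : Matrix (Fin d) (Fin d) ℝ} (hO : Sym S O)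
    (hb : Blk φ ψ O) : mO φ O * (mO φ O)ᵀ = 1 := by
  ext X Y
  have h1 := congrFun (congrFun hO.orth (φ (Sum.inr X))) (φ (Sum.inr Y))
  rw [Matrix.mul_apply, sum_spl φ] at h1
  simp only [hb.mh, zero_mul, Finset.sum_const_zero, zero_add] at h1
  rw [Matrix.mul_apply]
  simp only [mO, Matrix.transpose_apply, Matrix.of_apply] at h1 ⊢
  rw [h1, Matrix.one_apply, Matrix.one_apply]
  simp only [EmbeddingLike.apply_eq_iff_eq, Sum.inr.injEq]

lemma Mz_tr (S : Setup d F) {φ : Spl dh dm d} {ψ : Spl ds dz dh} {O : Matrix (Fin d) (Fin d) ℝ} (hO : Sym S O)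
    (hb : Blk φ ψ O) (a : Fin dz) :
    mO φ O * AX.Mz S φ ψ a * (mO φ O)ᵀ = ∑ a', zO φ ψ O a' a • AX.Mz S φ ψ a' := by
  ext X Y
  have h1 := congrFun (congrFun (fM_tr S hO (φ (Sum.inl (ψ (Sum.inr a))))) (φ (Sum.inr X))) (φ (Sum.inr Y))
  rw [Matrix.mul_apply, sum_spl φ] at h1
  simp only [Matrix.transpose_apply, hb.mh, mul_zero, Finset.sum_const_zero, zero_add] at h1
  rw [Matrix.sum_apply, sum_spl φ] at h1
  simp only [Matrix.smul_apply, hb.mh, zero_smul, Finset.sum_const_zero, add_zero] at h1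
  rw [sum_spl ψ (fun A => O (φ (Sum.inl A)) (φ (Sum.inl (ψ (Sum.inr a)))) • fM S (φ (Sum.inl A)) (φ (Sum.inr X)) (φ (Sum.inr Y)))] at h1
  simp only [hb.sz, zero_smul, Finset.sum_const_zero, zero_add] at h1
  rw [Matrix.sum_apply]
  simp only [Matrix.smul_apply]
  rw [show (∑ a', zO φ ψ O a' a • AX.Mz S φ ψ a' X Y) = ∑ A, O (φ (Sum.inl (ψ (Sum.inr A)))) (φ (Sum.inl (ψ (Sum.inr a)))) •
    fM S (φ (Sum.inl (ψ (Sum.inr A)))) (φ (Sum.inr X)) (φ (Sum.inr Y)) from rfl, ← h1, Matrix.mul_apply]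
  refine Finset.sum_congr rfl fun C _ => ?_
  congr 1
  rw [Matrix.mul_apply, Matrix.mul_apply, sum_spl φ]
  simp only [hb.mh, zero_mul, Finset.sum_const_zero, zero_add]
  rfl

lemma DM_tr (S : Setup d F) {φ : Spl dh dm d} {ψ : Spl ds dz dh} {O : Matrix (Fin d) (Fin d) ℝ} (hO : Sym S O)
    (hb : Blk φ ψ O) (η : Cfg dz) (i : Fin 9) :
    DM (AX.Mz S φ ψ) (ro (zO φ ψ O) η) i = mO φ O * DM (AX.Mz S φ ψ) η i * (mO φ O)ᵀ := by
  have h1 : ∀ a, ro (zO φ ψ O) η (i, a) = ∑ b, zO φ ψ O a b * η (i, b) := fun a => rfl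
  rw [DM, DM, Finset.mul_sum, Finset.sum_mul]
  simp only [Matrix.mul_smul, Matrix.smul_mul, Mz_tr S hO hb, h1, Finset.sum_smul, Finset.smul_sum, smul_smul]
  rw [Finset.sum_comm]
  refine Finset.sum_congr rfl fun b _ => Finset.sum_congr rfl fun a _ => ?_
  rw [mul_comm]

lemma det_tr (S : Setup d F) {φ : Spl dh dm d} {ψ : Spl ds dz dh} {O : Matrix (Fin d) (Fin d) ℝ} (hO : Sym S O)
    (hb : Blk φ ψ O) (η : Cfg dz) (I : Finset (Fin 9))
    (h : (∑ i ∈ I, DM (AX.Mz S φ ψ) η i * DM (AX.Mz S φ ψ) η i).det ≠ 0) :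
    (∑ i ∈ I, DM (AX.Mz S φ ψ) (ro (zO φ ψ O) η) i * DM (AX.Mz S φ ψ) (ro (zO φ ψ O) η) i).det ≠ 0 := by
  have h1 := mO_orth S hO hb
  have h2 : (mO φ O)ᵀ * mO φ O = 1 := mul_eq_one_comm.1 h1
  have h3 : (∑ i ∈ I, DM (AX.Mz S φ ψ) (ro (zO φ ψ O) η) i * DM (AX.Mz S φ ψ) (ro (zO φ ψ O) η) i) =
      mO φ O * (∑ i ∈ I, DM (AX.Mz S φ ψ) η i * DM (AX.Mz S φ ψ) η i) * (mO φ O)ᵀ := by
    rw [Finset.mul_sum, Finset.sum_mul]
    refine Finset.sum_congr rfl fun i _ => ?_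
    rw [DM_tr S hO hb]
    have h4 : ∀ D : Matrix (Fin dm) (Fin dm) ℝ, mO φ O * D * (mO φ O)ᵀ * (mO φ O * D * (mO φ O)ᵀ) =
        mO φ O * D * ((mO φ O)ᵀ * mO φ O) * D * (mO φ O)ᵀ := by
      intro D
      simp only [Matrix.mul_assoc]
    rw [h4, h2, Matrix.mul_one]
    simp only [Matrix.mul_assoc]
  rw [h3, Matrix.det_mul, Matrix.det_mul]
  have h5 : (mO φ O).det * ((mO φ O)ᵀ).det = 1 := by
    rw [← Matrix.det_mul, h1, Matrix.det_one]
  intro h6
  have h7 : (∑ i ∈ I, DM (AX.Mz S φ ψ) η i * DM (AX.Mz S φ ψ) η i).det *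
      ((mO φ O).det * ((mO φ O)ᵀ).det) = 0 := by
    rw [← h6]
    ring
  rw [h5, mul_one] at h7
  exact h h7

variable {n : Fin k → ℕ} {T : Fin d → Matrix (Fin N) (Fin N) ℂ} {φ : Spl dh dm d} {ψ : Spl ds dz dh}

lemma val_RR (fr : NFr n T φ ψ) (t : ℝ) (η : Cfg dz) (i : Fin 9) (e : Fin k) :
    fr.val (RR 3 4 t η) i e = fr.val η i e + (Real.cos t - 1) *
      ((if i = 3 then fr.val η 3 e else 0) + (if i = 4 then fr.val η 4 e else 0)) +
      Real.sin t * ((if i = 3 then fr.val η 4 e else 0) - (if i = 4 then fr.val η 3 e else 0)) := by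
  have h : ∀ (j : Fin 9) (g : Fin dz → ℝ), (if i = j then ∑ x, g x else 0) = ∑ x, if i = j then g x else 0 := by
    intro j g
    split_ifs
    · rfl
    · rw [Finset.sum_const_zero]
  simp only [NFr.val, RR_apply]
  rw [h, h, h, h, ← Finset.sum_add_distrib, ← Finset.sum_sub_distrib, Finset.mul_sum, Finset.mul_sum,
    ← Finset.sum_add_distrib, ← Finset.sum_add_distrib]
  refine Finset.sum_congr rfl fun x _ => ?_
  split_ifs <;> ring

end Es518

open Es518 in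
/-- **SGN-S20** -/
theorem etaStar_stmt {d dh dm ds dz N k : ℕ} {n : Fin k → ℕ} {T : Fin d → Matrix (Fin N) (Fin N) ℂ} {φ : Spl dh dm d}
    {ψ : Spl ds dz dh} {F : Type u} [NormedAddCommGroup F] [InnerProductSpace ℂ F] (S : Setup d F) (fr : NFr n T φ ψ) :
    EtaStarStmt S fr := by
  intro hB hVal hReg hColl t Kc E l hRD
  obtain ⟨hv1, hv2, hv3, hv4, hv5⟩ := hVal hB
  have hC : ∀ η : Cfg dz, η ∉ Coll (Finset.univ.image l) ↔
      (∑ i ∈ Finset.univ.erase (8 : Fin 9), DM (AX.Mz S φ ψ) η i * DM (AX.Mz S φ ψ) η i).det ≠ 0 :=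
    hColl dz dm (AX.Mz S φ ψ) t Kc E l hRD
  have hR : ∀ η : Cfg dz, η ∉ Coll (Finset.univ.image l) ↔
      ∀ a b, a ≠ b → ∃ i ∈ Finset.univ.erase (8 : Fin 9), fr.val η i a ≠ fr.val η i b := by
    intro η
    rw [hC, AX.DM_Mz]
    exact hReg hB _ η
  -- vanishing directions
  have hz : ∀ (η : Cfg dz) (i : Fin 9), (∀ e, fr.val η i e = 0) → ∀ B, η (i, B) = 0 := by
    intro η i h B
    have h1 := hv4 η i
    simp only [h] at h1
    have h2 : ∑ B, η (i, B) ^ 2 = 0 := by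
      rw [h1]
      simp
    have h3 := (Finset.sum_eq_zero_iff_of_nonneg (fun B _ => sq_nonneg (η (i, B)))).1 h2 B (Finset.mem_univ _)
    exact pow_eq_zero_iff (two_ne_zero) |>.1 h3
  -- centring
  have hn : (0 : ℝ) < ∑ e, (n e : ℝ) := by
    have h2 := fr.two
    have : Nonempty (Fin k) := ⟨⟨0, by omega⟩⟩
    refine Finset.sum_pos (fun e _ => ?_) Finset.univ_nonempty
    have := fr.pos e
    exact_mod_cast this
  have hctr : ∀ u : Fin k → ℝ, ∑ e, (n e : ℝ) * (u e - (∑ e', (n e' : ℝ) * u e') / ∑ e', (n e' : ℝ)) = 0 := by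
    intro u
    simp only [mul_sub, Finset.sum_sub_distrib]
    rw [← Finset.sum_mul, mul_div_cancel₀ _ hn.ne', sub_self]
  refine ⟨?_, ?_, ?_⟩
  · intro O hO hb η hη
    rw [hC] at hη ⊢
    exact det_tr S hO hb η _ hη
  · obtain ⟨η, hη⟩ := hv2 (fun i e => if i = 3 then (e.val : ℝ) - (∑ e' : Fin k, (n e' : ℝ) * (e'.val : ℝ)) / ∑ e', (n e' : ℝ)
      else 0) (by
        intro i
        by_cases hi : i = 3
        · simp only [if_pos hi]
          exact hctr (fun e => (e.val : ℝ))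
        · simp only [if_neg hi]
          simp)
    refine ⟨η, ?_, ?_⟩
    · rw [hR]
      intro a b hab
      refine ⟨3, by decide, ?_⟩
      rw [hη, hη, if_pos rfl, if_pos rfl]
      intro h
      have h1 : (a.val : ℝ) = (b.val : ℝ) := by linarith
      exact hab (Fin.ext (by exact_mod_cast h1))
    · intro i hi a
      refine hz η i (fun e => ?_) a
      rw [hη, if_neg]
      rintro rfl
      exact absurd hi (by decide)
  · intro a b hab hnab
    -- the values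
    let u3 : Fin k → ℝ := fun e => if e = a then 1 else if e = b then -1 else 0
    let u5 : Fin k → ℝ := fun e => if e = a ∨ e = b then 0 else (e.val : ℝ) + 1
    have hu3 : ∑ e, (n e : ℝ) * u3 e = 0 := by
      have h1 : ∀ e, (n e : ℝ) * u3 e = (if e = a then (n a : ℝ) else 0) - (if e = b then (n b : ℝ) else 0) := by
        intro e
        by_cases h2 : e = a
        · subst h2
          simp [u3, hab]
        · by_cases h3 : e = b
          · subst h3
            simp [u3, h2]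
          · simp [u3, h2, h3]
      rw [Finset.sum_congr rfl fun e _ => h1 e, Finset.sum_sub_distrib]
      simp [hnab]
    obtain ⟨η, hη⟩ := hv2 (fun i e => if i = 3 then u3 e else
      if i = 5 then u5 e - (∑ e', (n e' : ℝ) * u5 e') / ∑ e', (n e' : ℝ) else 0) (by
        intro i
        by_cases hi : i = 3
        · simp only [if_pos hi]
          exact hu3
        · by_cases hi5 : i = 5
          · simp only [if_neg hi, if_pos hi5]
            exact hctr u5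
          · simp only [if_neg hi, if_neg hi5]
            simp)
    have h3 : ∀ e, fr.val η 3 e = u3 e := fun e => by rw [hη, if_pos rfl]
    have h4 : ∀ e, fr.val η 4 e = 0 := fun e => by
      rw [hη, if_neg (by decide), if_neg (by decide)]
    have h5 : ∀ e, fr.val η 5 e = u5 e - (∑ e', (n e' : ℝ) * u5 e') / ∑ e', (n e' : ℝ) := fun e => by
      rw [hη, if_neg (by decide), if_pos rfl]
    have r3 : ∀ t e, fr.val (RR 3 4 t η) 3 e = Real.cos t * u3 e := by
      intro t e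
      rw [val_RR, if_pos rfl, if_pos rfl, if_neg (by decide), if_neg (by decide), h3, h4]
      ring
    have r4 : ∀ t e, fr.val (RR 3 4 t η) 4 e = -(Real.sin t * u3 e) := by
      intro t e
      rw [val_RR, if_pos rfl, if_pos rfl, if_neg (by decide), if_neg (by decide), h3, h4]
      ring
    have r5 : ∀ t e, fr.val (RR 3 4 t η) 5 e = fr.val η 5 e := by
      intro t e
      rw [val_RR, if_neg (by decide), if_neg (by decide), if_neg (by decide), if_neg (by decide)]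
      ring
    refine ⟨η, ?_, ?_, ?_⟩
    · intro i hi e
      refine hz η i (fun e => ?_) e
      rw [hη, if_neg, if_neg]
      · rintro rfl
        exact absurd hi (by decide)
      · rintro rfl
        exact absurd hi (by decide)
    · intro t
      rw [hR]
      intro c e hce
      by_cases hc5 : u5 c = u5 e
      · -- then `c`, `e` are `a`, `b`
        have hcc : (c = a ∨ c = b) ∧ (e = a ∨ e = b) := by
          by_cases q1 : c = a ∨ c = b
          · by_cases q2 : e = a ∨ e = b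
            · exact ⟨q1, q2⟩
            · exfalso
              simp only [u5, if_pos q1, if_neg q2] at hc5
              have : (0 : ℝ) ≤ (e.val : ℝ) := Nat.cast_nonneg _
              linarith
          · by_cases q2 : e = a ∨ e = b
            · exfalso
              simp only [u5, if_neg q1, if_pos q2] at hc5
              have : (0 : ℝ) ≤ (c.val : ℝ) := Nat.cast_nonneg _
              linarith
            · exfalso
              simp only [u5, if_neg q1, if_neg q2] at hc5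
              have h1 : (c.val : ℝ) = (e.val : ℝ) := by linarith
              exact hce (Fin.ext (by exact_mod_cast h1))
        have hu : u3 c ≠ u3 e := by
          rcases hcc with ⟨rfl | rfl, rfl | rfl⟩
          · exact absurd rfl hce
          · simp only [u3, if_true, if_neg hab.symm]
            norm_num
          · simp only [u3, if_true, if_neg hab.symm]
            norm_num
          · exact absurd rfl hce
        by_cases hcos : Real.cos t = 0
        · refine ⟨4, by decide, ?_⟩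
          rw [r4, r4]
          intro h
          have hs : Real.sin t ≠ 0 := by
            intro hs
            have := Real.sin_sq_add_cos_sq t
            rw [hs, hcos] at this
            norm_num at this
          apply hu
          have h1 : Real.sin t * u3 c = Real.sin t * u3 e := neg_injective h
          exact mul_left_cancel₀ hs h1
        · refine ⟨3, by decide, ?_⟩
          rw [r3, r3]
          intro h
          exact hu (mul_left_cancel₀ hcos h)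
      · refine ⟨5, by decide, ?_⟩
        rw [r5, r5, h5, h5]
        intro h
        apply hc5
        linarith
    · intro i e
      by_cases i3 : i = 3
      · subst i3
        rw [r3, h3, Real.cos_pi]
        by_cases q1 : e = a
        · subst q1
          simp only [u3, Equiv.swap_apply_left, if_true, if_neg hab.symm]
          norm_num
        · by_cases q2 : e = b
          · subst q2
            simp only [u3, Equiv.swap_apply_right, if_true, if_neg hab.symm]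
            norm_num
          · rw [Equiv.swap_apply_of_ne_of_ne q1 q2]
            simp only [u3, if_neg q1, if_neg q2]
            norm_num
      · by_cases i4 : i = 4
        · subst i4
          rw [r4, h4, Real.sin_pi]
          norm_num
        · by_cases i5 : i = 5
          · subst i5
            rw [r5, h5, h5]
            congr 1
            by_cases q1 : e = a
            · subst q1
              simp only [u5, Equiv.swap_apply_left]
              simp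
            · by_cases q2 : e = b
              · subst q2
                simp only [u5, Equiv.swap_apply_right]
                simp
              · rw [Equiv.swap_apply_of_ne_of_ne q1 q2]
          · rw [val_RR, if_neg i3, if_neg i4, if_neg i3, if_neg i4, hη, hη, if_neg i3, if_neg i5, if_neg i3, if_neg i5]
            ring

end Vale.Agent.P353.Z.AS
end
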