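import Mathlib
import Vale.Agent.P353.BdA.B2
import Vale.Agent.P353.BdA.B1

set_option linter.all false

section

/-! # P353, all `N`, block G: G07 -/

open MeasureTheory Filter Topology
open scoped ContDiff

namespace Vale.Agent.P353.AN.G

open Vale.Agent.P353.Z Vale.Agent.P353.Z.U
open Vale.Agent.P353.Z.Setup (c3)

variable {d : ℕ} {F : Type*} [NormedAddCommGroup F] [InnerProductSpace ℂ F] (S : Setup d F)

/-- the linearised field strength in terms of the matrices `D_k` -/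
theorem gap_lin (ξ w : Cfg d) (k : Fin 3) (A : Fin d) :
    S.LG ξ k A w = 2 * (w (c3 k, A) - ((hesD S ξ (k + 1)).mulVec (fun A => w (c3 (k + 2), A)) A -
      (hesD S ξ (k + 2)).mulVec (fun A => w (c3 (k + 1), A)) A)) := by
  rw [hesD_mulVec, hesD_mulVec]
  unfold Setup.LG Setup.LF
  have h2 : ∑ B, ∑ C, S.f A B C * (ξ (c3 (k + 1), B) * w (c3 (k + 2), C) +
      w (c3 (k + 1), B) * ξ (c3 (k + 2), C)) =
      ∑ B, ∑ C, S.f A B C * ξ (c3 (k + 1), B) * w (c3 (k + 2), C) -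
      ∑ B, ∑ C, S.f A B C * ξ (c3 (k + 2), B) * w (c3 (k + 1), C) := by
    rw [Finset.sum_comm (f := fun B C => S.f A B C * ξ (c3 (k + 2), B) * w (c3 (k + 1), C)),
      ← Finset.sum_sub_distrib]
    refine Finset.sum_congr rfl fun B _ => ?_
    rw [← Finset.sum_sub_distrib]
    refine Finset.sum_congr rfl fun C _ => ?_
    rw [S.f_swap' A B C]
    ring
  rw [h2]
  ring

theorem gap_norm (x : Cfg d) : ‖x‖ ^ 2 = (∑ k : Fin 3, ∑ A, x (c3 k, A) ^ 2) +
    ∑ i : Fin 9, ∑ A, (if i.val < 3 then 0 else x (i, A) ^ 2 : ℝ) := by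
  rw [EuclideanSpace.real_norm_sq_eq, Fintype.sum_prod_type,
    hes_sum9 fun i => ∑ A, x (i, A) ^ 2]
  congr 1
  refine Finset.sum_congr rfl fun i _ => ?_
  by_cases hi : i.val < 3
  · simp only [if_pos hi, Finset.sum_const_zero]
  · simp only [if_neg hi]

/-- **G07 Gap** -/
theorem gap (h : Gap3Stmt d) : GapStmt S := by
  intro ξ hξ K hK x hx
  obtain ⟨z1, z2, -⟩ := hes_zero S hξ
  have h1 := h (hesD S ξ) (hesD_transpose S ξ) (hesD_comm S z1) (fun k A => x (c3 k, A)) (by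
    rw [Fin.sum_univ_three]
    exact hes_perp S hx z2)
  have h2 : ∑ k, ∑ A, S.LG ξ k A x ^ 2 = 4 * ∑ k : Fin 3, ∑ A, (x (c3 k, A) -
      ((hesD S ξ (k + 1)).mulVec (fun A => x (c3 (k + 2), A)) A -
        (hesD S ξ (k + 2)).mulVec (fun A => x (c3 (k + 1), A)) A)) ^ 2 := by
    rw [Finset.mul_sum]
    refine Finset.sum_congr rfl fun k _ => ?_
    rw [Finset.mul_sum]
    refine Finset.sum_congr rfl fun A _ => ?_
    rw [gap_lin]
    ring
  have n3 : 0 ≤ ∑ i : Fin 9, ∑ j : Fin 9, ∑ A,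
      (if i.val < 3 ∧ j.val < 3 then 0 else S.LF ξ A i j x ^ 2 : ℝ) := by
    refine Finset.sum_nonneg fun i _ => Finset.sum_nonneg fun j _ =>
      Finset.sum_nonneg fun A _ => ?_
    split_ifs
    · exact le_rfl
    · exact sq_nonneg _
  rw [hK.sq, gap_norm]
  unfold Setup.hq
  linarith

end Vale.Agent.P353.AN.G
end

section

/-! # P353, all `N`, block G: G19 TvQ, local energy bound of the trial function -/

open MeasureTheory Filter Topology
open scoped ContDiff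

namespace Vale.Agent.P353.AN.G

open Vale.Agent.P353.Z Vale.Agent.P353.Z.U

namespace TvQ

theorem cut_contDiff : ContDiff ℝ ∞ cut := by
  unfold cut
  exact Real.smoothTransition.contDiff.comp ((contDiff_const.sub contDiff_id).div_const _)

theorem cut_nonneg (t : ℝ) : 0 ≤ cut t := Real.smoothTransition.nonneg _

theorem cut_le_one (t : ℝ) : cut t ≤ 1 := Real.smoothTransition.le_one _

theorem cut_zero {t : ℝ} (h : 4 ≤ t) : cut t = 0 :=
  Real.smoothTransition.zero_of_nonpos (by linarith)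

theorem deriv_cut_zero {t : ℝ} (h : 4 < t) : deriv cut t = 0 := by
  have h1 : cut =ᶠ[𝓝 t] fun _ => (0 : ℝ) :=
    (eventually_gt_nhds h).mono fun s hs => cut_zero hs.le
  rw [h1.deriv_eq]
  simp

theorem exists_deriv_cut : ∃ C : ℝ, 0 ≤ C ∧ ∀ t : ℝ, 0 ≤ t → t ≤ 4 → |deriv cut t| ≤ C := by
  have hc : Continuous (deriv cut) := cut_contDiff.continuous_deriv (by simp)
  obtain ⟨C, hC⟩ := (isCompact_Icc (a := (0 : ℝ)) (b := 4)).exists_bound_of_continuousOn
    hc.continuousOn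
  refine ⟨C, (norm_nonneg _).trans (hC 0 (by constructor <;> norm_num)), fun t h0 h4 => ?_⟩
  exact hC t ⟨h0, h4⟩

theorem hasDerivAt_cut (t : ℝ) : HasDerivAt cut (deriv cut t) t :=
  (cut_contDiff.differentiable (by simp) t).hasDerivAt

variable {d : ℕ}

theorem hasFDerivAt_om (m : ℝ) (ξ x : Cfg d) :
    HasFDerivAt (om m ξ) (Real.sqrt m • ContinuousLinearMap.id ℝ (Cfg d)) x :=
  ((hasFDerivAt_id x).sub_const (m • ξ)).fun_const_smul (Real.sqrt m)

theorem hasFDerivAt_ph {K : Cfg d →L[ℝ] Cfg d}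
    (hK : ∀ x y, inner ℝ (K x) y = inner ℝ x (K y)) (m L : ℝ) (ξ x : Cfg d) :
    HasFDerivAt (ph m L ξ K) (innerSL ℝ ((deriv cut (‖om m ξ x‖ ^ 2 / L ^ 2) *
      (2 * Real.sqrt m / L ^ 2) * Real.exp (-(1 / 2) * qK m ξ K x)) • om m ξ x -
      (Real.sqrt m * ph m L ξ K x) • K (om m ξ x))) x := by
  have h0 := hasFDerivAt_om m ξ x
  have h1 : HasFDerivAt (fun y => ‖om m ξ y‖ ^ 2 / L ^ 2) _ x := h0.norm_sq.mul_const (L ^ 2)⁻¹
  have h2 := (hasDerivAt_cut (‖om m ξ x‖ ^ 2 / L ^ 2)).comp_hasFDerivAt x h1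
  have h3 : HasFDerivAt (fun y => K (om m ξ y)) _ x := K.hasFDerivAt.comp x h0
  have h4 : HasFDerivAt (fun y => inner ℝ (om m ξ y) (K (om m ξ y))) _ x := h0.inner ℝ h3
  have h5 := (h4.const_mul (-(1 / 2))).exp
  have h6 := h2.mul h5
  refine h6.congr_fderiv ?_
  ext v
  have e1 : inner ℝ (om m ξ x) (K v) = inner ℝ (K (om m ξ x)) v := (hK _ _).symm
  have e2 : inner ℝ v (K (om m ξ x)) = inner ℝ (K (om m ξ x)) v := real_inner_comm _ _
  simp only [Function.comp_apply, _root_.add_apply, _root_.smul_apply,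
    ContinuousLinearMap.comp_apply, fderivInnerCLM_apply, ContinuousLinearMap.prod_apply,
    ContinuousLinearMap.id_apply, innerSL_apply_apply, smul_eq_mul, inner_sub_left,
    inner_smul_left, inner_smul_right, map_smul, e1, e2, conj_trivial, ph, qK]
  ring

variable {F : Type*} [NormedAddCommGroup F] [InnerProductSpace ℂ F] (S : Setup d F)

theorem B_lin (β : Fin 16) (a b : ℝ) (x y : Cfg d) :
    S.B β (a • x - b • y) = (a : ℂ) • S.B β x - (b : ℂ) • S.B β y := by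
  simp only [Setup.B, Finset.smul_sum, ← Finset.sum_sub_distrib]
  refine Finset.sum_congr rfl fun i _ => Finset.sum_congr rfl fun A _ => ?_
  rw [smul_smul, smul_smul, ← sub_smul]
  congr 1
  rw [PiLp.sub_apply, PiLp.smul_apply, PiLp.smul_apply, smul_eq_mul, smul_eq_mul]
  push_cast
  ring

theorem norm_B_le (β : Fin 16) (x : Cfg d) :
    ‖S.B β x‖ ≤ (∑ i, ∑ A, ‖S.vec (S.g i) A β‖) * ‖x‖ := by
  rw [Setup.B, Finset.sum_mul]
  refine (norm_sum_le _ _).trans (Finset.sum_le_sum fun i _ => ?_)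
  rw [Finset.sum_mul]
  refine (norm_sum_le _ _).trans (Finset.sum_le_sum fun A _ => ?_)
  rw [norm_smul, Complex.norm_real, mul_comm]
  exact mul_le_mul_of_nonneg_left (PiLp.norm_apply_le x (i, A)) (norm_nonneg _)

theorem norm_W_le (β : Fin 16) (x : Cfg d) :
    ‖S.W β x‖ ≤ (S.κ * ∑ A, ∑ B, ∑ C, ∑ i, ∑ j, |S.f A B C| * ‖S.vec (S.g2 i j) A β‖) *
      ‖x‖ ^ 2 := by
  have hk := S.κ_pos
  have h1 : ‖lmT S β x x‖ ≤
      (∑ A, ∑ B, ∑ C, ∑ i, ∑ j, |S.f A B C| * ‖S.vec (S.g2 i j) A β‖) * ‖x‖ ^ 2 := by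
    rw [lmT]
    simp only [Finset.sum_mul]
    refine (norm_sum_le _ _).trans (Finset.sum_le_sum fun A _ => ?_)
    refine (norm_sum_le _ _).trans (Finset.sum_le_sum fun B _ => ?_)
    refine (norm_sum_le _ _).trans (Finset.sum_le_sum fun C _ => ?_)
    refine (norm_sum_le _ _).trans (Finset.sum_le_sum fun i _ => ?_)
    refine (norm_sum_le _ _).trans (Finset.sum_le_sum fun j _ => ?_)
    rw [norm_smul, norm_mul, norm_mul, Complex.norm_real, Complex.norm_real, Complex.norm_real,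
      Real.norm_eq_abs]
    have h2 := PiLp.norm_apply_le x (i, B)
    have h3 := PiLp.norm_apply_le x (j, C)
    have h4 : ‖x (i, B)‖ * ‖x (j, C)‖ ≤ ‖x‖ ^ 2 := by
      rw [pow_two]
      exact mul_le_mul h2 h3 (norm_nonneg _) (norm_nonneg _)
    calc |S.f A B C| * ‖x (i, B)‖ * ‖x (j, C)‖ * ‖S.vec (S.g2 i j) A β‖
        = |S.f A B C| * ‖S.vec (S.g2 i j) A β‖ * (‖x (i, B)‖ * ‖x (j, C)‖) := by ring
      _ ≤ |S.f A B C| * ‖S.vec (S.g2 i j) A β‖ * ‖x‖ ^ 2 :=
        mul_le_mul_of_nonneg_left h4 (mul_nonneg (abs_nonneg _) (norm_nonneg _))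
  rw [lm_W, norm_smul, mul_assoc]
  have h5 : ‖(1 / 2 : ℂ) * (S.κ : ℂ)‖ ≤ S.κ := by
    rw [norm_mul, Complex.norm_real, Real.norm_of_nonneg hk.le]
    norm_num
    linarith
  exact mul_le_mul h5 h1 (norm_nonneg _) hk.le

/-- the scaled operator -/
theorem W_MM (β : Fin 16) {m : ℝ} (hm : 0 < m) (ξ x : Cfg d) (hcr : S.W β ξ + S.MM β ξ = 0) :
    S.W β x + (m : ℂ) • S.MM β x =
      (Real.sqrt m : ℂ) • Lb S ξ β (om m ξ x) + ((m⁻¹ : ℝ) : ℂ) • S.W β (om m ξ x) := by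
  have ht : 0 < Real.sqrt m := Real.sqrt_pos.2 hm
  have ht2 : Real.sqrt m ^ 2 = m := Real.sq_sqrt hm.le
  have hx : x = m • ξ + (Real.sqrt m)⁻¹ • om m ξ x := by
    rw [om, smul_smul, inv_mul_cancel₀ ht.ne', one_smul]
    abel
  have hW : S.W β ξ = -S.MM β ξ := eq_neg_of_add_eq_zero_left hcr
  have e1 := lm_W_affine S β m (Real.sqrt m)⁻¹ ξ (om m ξ x)
  have e2 := lm_MM_affine S β m (Real.sqrt m)⁻¹ ξ (om m ξ x)
  rw [← hx] at e1 e2
  have e3 : m * (Real.sqrt m)⁻¹ = Real.sqrt m := by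
    rw [← div_eq_mul_inv, div_eq_iff ht.ne', ← pow_two, ht2]
  have e4 : (Real.sqrt m)⁻¹ ^ 2 = m⁻¹ := by rw [inv_pow, ht2]
  rw [e1, e2, hW, e3, e4, Lb, smul_add, smul_smul, smul_smul, ← Complex.ofReal_mul,
    ← Complex.ofReal_mul, e3, ← pow_two]
  module

/-- the supercharge of the trial function -/
theorem Qm_tv {K : Cfg d →L[ℝ] Cfg d} (hK : ∀ x y, inner ℝ (K x) y = inner ℝ x (K y))
    {m L : ℝ} (hm : 0 < m) {ξ : Cfg d} (Ω : F) {β : Fin 16} (hcr : S.W β ξ + S.MM β ξ = 0)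
    (hkill : ∀ x : Cfg d, Lb S ξ β x Ω + Complex.I • S.B β (K x) Ω = 0) (x : Cfg d) :
    S.Qm m β (tv m L ξ K Ω) x =
      (-Complex.I * ((deriv cut (‖om m ξ x‖ ^ 2 / L ^ 2) *
      (2 * Real.sqrt m / L ^ 2) * Real.exp (-(1 / 2) * qK m ξ K x) : ℝ) : ℂ)) •
        S.B β (om m ξ x) Ω +
      ((ph m L ξ K x * m⁻¹ : ℝ) : ℂ) • S.W β (om m ξ x) Ω := by
  have hd := hasFDerivAt_ph hK m L ξ x
  set a : ℝ := deriv cut (‖om m ξ x‖ ^ 2 / L ^ 2) *
      (2 * Real.sqrt m / L ^ 2) * Real.exp (-(1 / 2) * qK m ξ K x) with ha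
  have hpd : ∀ i A, pd i A (tv m L ξ K Ω) x =
      (((a • om m ξ x - (Real.sqrt m * ph m L ξ K x) • K (om m ξ x)) (i, A) : ℝ) : ℂ) • Ω := by
    intro i A
    have h1 := pd_rsmul (i := i) (A := A) (u := fun _ : Cfg d => Ω) hd.differentiableAt
      (differentiableAt_const Ω)
    have h2 : pd i A (fun _ : Cfg d => Ω) x = 0 := by
      unfold pd; simp
    rw [h2, smul_zero, add_zero, hd.fderiv, innerSL_apply_apply] at h1
    refine h1.trans ?_
    congr 2
    rw [EuclideanSpace.inner_single_right]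
    simp
  have hQ : (∑ i, ∑ A, S.vec (S.g i) A β (pd i A (tv m L ξ K Ω) x)) =
      (a : ℂ) • S.B β (om m ξ x) Ω -
        ((Real.sqrt m * ph m L ξ K x : ℝ) : ℂ) • S.B β (K (om m ξ x)) Ω := by
    have h1 := congrArg (fun T : F →L[ℂ] F => T Ω)
      (B_lin S β a (Real.sqrt m * ph m L ξ K x) (om m ξ x) (K (om m ξ x)))
    simp only [_root_.sub_apply, _root_.smul_apply] at h1
    rw [← h1, Setup.B]
    simp only [_root_.sum_apply, _root_.smul_apply, hpd, map_smul]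
  have hWM := congrArg (fun T : F →L[ℂ] F => T Ω) (W_MM S β hm ξ x hcr)
  simp only [_root_.add_apply, _root_.smul_apply] at hWM
  have hk : Lb S ξ β (om m ξ x) Ω = -(Complex.I • S.B β (K (om m ξ x)) Ω) :=
    eq_neg_of_add_eq_zero_left (hkill _)
  have htv : tv m L ξ K Ω x = ((ph m L ξ K x : ℝ) : ℂ) • Ω := rfl
  rw [Setup.Qm, Setup.Q, hQ, htv, map_smul, map_smul]
  have e1 : (-Complex.I) • ((a : ℂ) • S.B β (om m ξ x) Ω -
        ((Real.sqrt m * ph m L ξ K x : ℝ) : ℂ) • S.B β (K (om m ξ x)) Ω) +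
        ((ph m L ξ K x : ℝ) : ℂ) • S.W β x Ω + (m : ℂ) • ((ph m L ξ K x : ℝ) : ℂ) • S.MM β x Ω =
      (-Complex.I) • ((a : ℂ) • S.B β (om m ξ x) Ω -
        ((Real.sqrt m * ph m L ξ K x : ℝ) : ℂ) • S.B β (K (om m ξ x)) Ω) +
        ((ph m L ξ K x : ℝ) : ℂ) • (S.W β x Ω + (m : ℂ) • S.MM β x Ω) := by
    module
  rw [e1, hWM, hk]
  push_cast
  module

end TvQ

variable {d : ℕ} {F : Type*} [NormedAddCommGroup F] [InnerProductSpace ℂ F]

open TvQ in
theorem tvQ (S : Setup d F) : TvQStmt S := by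
  intro ξ hξ K hK Ω hΩ hkill
  obtain ⟨C0, hC00, hC0⟩ := exists_deriv_cut
  set CB : ℝ := ∑ β : Fin 16, ∑ i, ∑ A, ‖S.vec (S.g i) A β‖ with hCB
  set CW : ℝ := ∑ β : Fin 16, S.κ * ∑ A, ∑ B, ∑ C, ∑ i, ∑ j,
    |S.f A B C| * ‖S.vec (S.g2 i j) A β‖ with hCW
  have hk := S.κ_pos
  have hCB0 : 0 ≤ CB := by positivity
  have hCW0 : 0 ≤ CW := by positivity
  have hB : ∀ (β : Fin 16) (x : Cfg d), ‖S.B β x Ω‖ ≤ CB * ‖x‖ := by
    intro β x
    refine (ContinuousLinearMap.le_opNorm _ _).trans ?_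
    rw [hΩ, mul_one]
    refine (norm_B_le S β x).trans (mul_le_mul_of_nonneg_right ?_ (norm_nonneg _))
    exact Finset.single_le_sum (f := fun β : Fin 16 => ∑ i, ∑ A, ‖S.vec (S.g i) A β‖)
      (fun _ _ => by positivity) (Finset.mem_univ β)
  have hW : ∀ (β : Fin 16) (x : Cfg d), ‖S.W β x Ω‖ ≤ CW * ‖x‖ ^ 2 := by
    intro β x
    refine (ContinuousLinearMap.le_opNorm _ _).trans ?_
    rw [hΩ, mul_one]
    refine (norm_W_le S β x).trans (mul_le_mul_of_nonneg_right ?_ (by positivity))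
    exact Finset.single_le_sum (f := fun β : Fin 16 => S.κ * ∑ A, ∑ B, ∑ C, ∑ i, ∑ j,
      |S.f A B C| * ‖S.vec (S.g2 i j) A β‖)
      (fun _ _ => by positivity) (Finset.mem_univ β)
  refine ⟨4 * C0 * CB + 4 * CW, by positivity, ?_⟩
  intro L m hL hLm β x
  have hL0 : 0 < L := by linarith
  have hm : 0 < m := lt_of_lt_of_le (by positivity) hLm
  have hsm : 0 < Real.sqrt m := Real.sqrt_pos.2 hm
  have hsm2 : Real.sqrt m ^ 2 = m := Real.sq_sqrt hm.le
  have hLs : L ≤ Real.sqrt m := Real.le_sqrt_of_sq_le hLm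
  rw [Qm_tv S hK.symm hm Ω (crit S ξ hξ β) (hkill β) x]
  set o := om m ξ x with ho
  set g : ℝ := Real.exp (-(1 / 2) * qK m ξ K x) with hg
  have hg0 : 0 < g := Real.exp_pos _
  by_cases hcase : ‖o‖ ≤ 2 * L
  · have hph2 : ph2 m L ξ K x = g := by rw [ph2, if_pos hcase]
    have ht4 : ‖o‖ ^ 2 / L ^ 2 ≤ 4 := by
      rw [div_le_iff₀ (by positivity)]
      nlinarith [norm_nonneg o]
    have hd := hC0 (‖o‖ ^ 2 / L ^ 2) (by positivity) ht4
    rw [hph2]
    refine (norm_add_le _ _).trans ?_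
    rw [norm_smul, norm_smul, norm_mul, norm_neg, Complex.norm_I, one_mul, Complex.norm_real,
      Complex.norm_real, Real.norm_eq_abs, Real.norm_eq_abs, abs_mul, abs_mul,
      abs_of_pos hg0, abs_of_pos (show 0 < 2 * Real.sqrt m / L ^ 2 by positivity)]
    have hph : |ph m L ξ K x * m⁻¹| ≤ g * m⁻¹ := by
      rw [abs_mul, abs_of_pos (inv_pos.2 hm)]
      refine mul_le_mul_of_nonneg_right ?_ (inv_pos.2 hm).le
      rw [ph, abs_mul, abs_of_nonneg (cut_nonneg _), abs_of_pos hg0]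
      exact mul_le_of_le_one_left hg0.le (cut_le_one _)
    have hB1 : ‖S.B β o Ω‖ ≤ CB * (2 * L) :=
      (hB β o).trans (mul_le_mul_of_nonneg_left hcase hCB0)
    have hW1 : ‖S.W β o Ω‖ ≤ CW * (4 * L ^ 2) := by
      refine (hW β o).trans (mul_le_mul_of_nonneg_left ?_ hCW0)
      nlinarith [norm_nonneg o]
    have t1 : |deriv cut (‖o‖ ^ 2 / L ^ 2)| * (2 * Real.sqrt m / L ^ 2) * g * ‖S.B β o Ω‖ ≤
        C0 * (2 * Real.sqrt m / L ^ 2) * g * (CB * (2 * L)) := by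
      refine mul_le_mul ?_ hB1 (norm_nonneg _) (by positivity)
      refine mul_le_mul_of_nonneg_right ?_ hg0.le
      exact mul_le_mul_of_nonneg_right hd (by positivity)
    have t2 : |ph m L ξ K x * m⁻¹| * ‖S.W β o Ω‖ ≤ g * m⁻¹ * (CW * (4 * L ^ 2)) :=
      mul_le_mul hph hW1 (norm_nonneg _) (by positivity)
    have t3 : C0 * (2 * Real.sqrt m / L ^ 2) * g * (CB * (2 * L)) =
        Real.sqrt m * (4 * C0 * CB / L) * g := by
      field_simp
      ring
    have t4 : m⁻¹ * L ^ 2 ≤ Real.sqrt m / L := by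
      rw [inv_mul_eq_div, div_le_div_iff₀ hm hL0]
      calc L ^ 2 * L ≤ m * Real.sqrt m := mul_le_mul hLm hLs hL0.le hm.le
        _ = Real.sqrt m * m := mul_comm _ _
    have t5 : g * m⁻¹ * (CW * (4 * L ^ 2)) ≤ Real.sqrt m * (4 * CW / L) * g := by
      calc g * m⁻¹ * (CW * (4 * L ^ 2)) = (m⁻¹ * L ^ 2) * (4 * CW * g) := by ring
        _ ≤ (Real.sqrt m / L) * (4 * CW * g) :=
          mul_le_mul_of_nonneg_right t4 (by positivity)
        _ = Real.sqrt m * (4 * CW / L) * g := by ring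
    calc _ ≤ Real.sqrt m * (4 * C0 * CB / L) * g + Real.sqrt m * (4 * CW / L) * g :=
          add_le_add (t1.trans t3.le) (t2.trans t5)
      _ = Real.sqrt m * ((4 * C0 * CB + 4 * CW) / L) * g := by ring
  · have hph2 : ph2 m L ξ K x = 0 := by rw [ph2, if_neg hcase]
    have ht4 : 4 < ‖o‖ ^ 2 / L ^ 2 := by
      rw [lt_div_iff₀ (by positivity)]
      push Not at hcase
      nlinarith [norm_nonneg o]
    have hph : ph m L ξ K x = 0 := by rw [ph, cut_zero ht4.le, zero_mul]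
    rw [hph2, hph, deriv_cut_zero ht4]
    simp

end Vale.Agent.P353.AN.G
end

section

/-! # P353, all `N`, block G21: scaling of Gaussian integrals -/

open MeasureTheory Filter Topology

namespace Vale.Agent.P353.AN.G

open Vale.Agent.P353.Z Vale.Agent.P353.Z.U

theorem gRat_om {d : ℕ} (m : ℝ) (ξ z : Cfg d) : om m ξ (m • ξ + z) = Real.sqrt m • z := by
  simp [om]

theorem gRat_om4 {d : ℕ} (m : ℝ) (ξ z : Cfg d) :
    om m ξ (m • ξ + (4 : ℝ) • z) = (4 : ℝ) • om m ξ (m • ξ + z) := by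
  rw [gRat_om, gRat_om, smul_comm]

theorem gRat_fin (d : ℕ) : Module.finrank ℝ (Cfg d) = 9 * d := by
  simp [Cfg]

theorem gRat (d : ℕ) : GRatStmt d := by
  intro ξ K hK m L hm hL
  have hs : 0 < Real.sqrt m := Real.sqrt_pos.2 hm
  set f : Cfg d → ℝ := fun x => ph2 m L ξ K x ^ 2 with hf
  set h : Cfg d → ℝ := fun x => if ‖om m ξ x‖ ≤ L / 2 then ph2 m L ξ K x ^ 2 else 0 with hh
  have e1 : ∫ z, f (m • ξ + z) = ∫ x, f x := integral_add_left_eq_self f (m • ξ)
  have e2 : ∫ z, h (m • ξ + z) = ∫ x, h x := integral_add_left_eq_self h (m • ξ)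
  have e3 : ∫ z, f (m • ξ + (4 : ℝ) • z) =
      |((4 : ℝ) ^ Module.finrank ℝ (Cfg d))⁻¹| • ∫ z, f (m • ξ + z) :=
    Measure.integral_comp_smul volume (fun z => f (m • ξ + z)) 4
  have e4 : ∫ x, f x = 4 ^ (9 * d) * ∫ z, f (m • ξ + (4 : ℝ) • z) := by
    rw [e3, gRat_fin, e1, smul_eq_mul, ← mul_assoc, abs_of_pos (by positivity),
      mul_inv_cancel₀ (by positivity), one_mul]
  have hle : ∀ z, f (m • ξ + (4 : ℝ) • z) ≤ h (m • ξ + z) := by
    intro z
    have hq : qK m ξ K (m • ξ + (4 : ℝ) • z) = 16 * qK m ξ K (m • ξ + z) := by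
      rw [qK, gRat_om4, qK, map_smul, inner_smul_left, inner_smul_right]
      simp
      ring
    have hq0 : 0 ≤ qK m ξ K (m • ξ + z) := hK _
    simp only [hf, hh, ph2]
    rw [gRat_om4, norm_smul, hq]
    have h4 : ‖(4 : ℝ)‖ = 4 := by norm_num
    rw [h4]
    by_cases hz : ‖om m ξ (m • ξ + z)‖ ≤ L / 2
    · rw [if_pos (by linarith), if_pos hz, if_pos (by linarith)]
      exact pow_le_pow_left₀ (Real.exp_pos _).le (Real.exp_le_exp.2 (by linarith)) 2
    · rw [if_neg (by linarith), if_neg hz]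
      simp
  have hint : Integrable (fun z => h (m • ξ + z)) := by
    have hc : Continuous fun z : Cfg d => Real.exp (-(1 / 2) * qK m ξ K (m • ξ + z)) ^ 2 := by
      have : Continuous fun z : Cfg d => qK m ξ K (m • ξ + z) := by
        unfold qK om
        fun_prop
      fun_prop
    have hI : (fun z => h (m • ξ + z)) = (Metric.closedBall (0 : Cfg d) (L / 2 / Real.sqrt m)).indicator
        (fun z : Cfg d => Real.exp (-(1 / 2) * qK m ξ K (m • ξ + z)) ^ 2) := by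
      funext z
      have hiff : ‖om m ξ (m • ξ + z)‖ ≤ L / 2 ↔ z ∈ Metric.closedBall (0 : Cfg d) (L / 2 / Real.sqrt m) := by
        rw [gRat_om, norm_smul, Real.norm_of_nonneg hs.le, mem_closedBall_zero_iff, le_div_iff₀ hs, mul_comm]
      by_cases hz : ‖om m ξ (m • ξ + z)‖ ≤ L / 2
      · rw [Set.indicator_of_mem (hiff.1 hz)]
        simp only [hh, ph2]
        rw [if_pos hz, if_pos (by linarith)]
      · rw [Set.indicator_of_notMem (fun hm' => hz (hiff.2 hm'))]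
        simp only [hh]
        rw [if_neg hz]
    rw [hI, integrable_indicator_iff Metric.isClosed_closedBall.measurableSet]
    exact hc.continuousOn.integrableOn_compact (isCompact_closedBall _ _)
  rw [e4, ← e2]
  refine mul_le_mul_of_nonneg_left ?_ (by positivity)
  exact integral_mono_of_nonneg (Eventually.of_forall fun z => by positivity) hint
    (Eventually.of_forall hle)
end Vale.Agent.P353.AN.G
end

section

/-! # P353, all `N`, block G: G22, `SU(N)` acts by linear isometries, jointly continuously -/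

open MeasureTheory Filter Topology
open scoped ContDiff

namespace Vale.Agent.P353.AN.G

open Vale.Agent.P353.Z Vale.Agent.P353.Z.U

section Act

variable {N d : ℕ} {F : Type*} [NormedAddCommGroup F] [InnerProductSpace ℂ F]

/-- the adjoint matrix of `U` -/
noncomputable def actO (M : BFSS.Model N d F) (U : BFSS.SU N) : Matrix (Fin d) (Fin d) ℝ :=
  Matrix.of fun B A => BFSS.adCoeff M.T U B A

theorem act_eq_ro (M : BFSS.Model N d F) (U : BFSS.SU N) (x : Cfg d) :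
    M.act U x = ro (actO M U) x := rfl

/-- the coefficients of the adjoint action are real traces -/
theorem act_real (M : BFSS.Model N d F) (U : BFSS.SU N) (B A : Fin d) :
    (M.T B * (U.val * M.T A * U.val.conjTranspose)).trace =
      ((BFSS.adCoeff M.T U B A : ℝ) : ℂ) := by
  unfold BFSS.adCoeff
  symm
  rw [← Complex.conj_eq_iff_re]
  have h1 : (M.T B * (U.val * M.T A * U.val.conjTranspose)).conjTranspose.trace =
      star (M.T B * (U.val * M.T A * U.val.conjTranspose)).trace :=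
    Matrix.trace_conjTranspose _
  rw [Matrix.conjTranspose_mul, Matrix.conjTranspose_mul, Matrix.conjTranspose_mul,
    Matrix.conjTranspose_conjTranspose, M.T_hermitian, M.T_hermitian, ← Matrix.mul_assoc U.val,
    Matrix.trace_mul_comm] at h1
  exact h1.symm

theorem act_unit (V : BFSS.SU N) : V.val.conjTranspose * V.val = 1 :=
  (Unitary.mem_iff.1 (Matrix.mem_specialUnitaryGroup_iff.1 V.2).1).1

/-- `V T_A V* = ∑ ad(V)_{CA} T_C` -/
theorem act_conj (M : BFSS.Model N d F) (hN : 0 < N) (V : BFSS.SU N) (A : Fin d) :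
    V.val * M.T A * V.val.conjTranspose = ∑ C, ((BFSS.adCoeff M.T V C A : ℝ) : ℂ) • M.T C := by
  have h := mad_complete M hN (V.val * M.T A * V.val.conjTranspose)
  have ht : (V.val * M.T A * V.val.conjTranspose).trace = 0 := by
    rw [Matrix.trace_mul_comm, ← Matrix.mul_assoc, act_unit, one_mul, M.T_traceless]
  rw [ht, zero_div, zero_smul, add_zero] at h
  rw [h]
  refine Finset.sum_congr rfl fun C _ => ?_
  rw [act_real]

/-- the adjoint representation is multiplicative -/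
theorem act_ad_mul (M : BFSS.Model N d F) (U V : BFSS.SU N) (B A : Fin d) :
    BFSS.adCoeff M.T (U * V) B A =
      ∑ C, BFSS.adCoeff M.T U B C * BFSS.adCoeff M.T V C A := by
  rcases Nat.eq_zero_or_pos N with hN | hN
  · have hd : d = 0 := by rw [M.dim_eq, hN]; rfl
    subst hd
    exact B.elim0
  · have h1 : (U * V).val * M.T A * (U * V).val.conjTranspose =
        ∑ C, ((BFSS.adCoeff M.T V C A : ℝ) : ℂ) • (U.val * M.T C * U.val.conjTranspose) := by
      have e : (U * V).val * M.T A * (U * V).val.conjTranspose =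
          U.val * (V.val * M.T A * V.val.conjTranspose) * U.val.conjTranspose := by
        show U.val * V.val * M.T A * (U.val * V.val).conjTranspose = _
        rw [Matrix.conjTranspose_mul]
        simp only [Matrix.mul_assoc]
      rw [e, act_conj M hN V A, Finset.mul_sum, Finset.sum_mul]
      refine Finset.sum_congr rfl fun C _ => ?_
      rw [Matrix.mul_smul, Matrix.smul_mul]
    have h2 : ((BFSS.adCoeff M.T (U * V) B A : ℝ) : ℂ) =
        ((∑ C, BFSS.adCoeff M.T U B C * BFSS.adCoeff M.T V C A : ℝ) : ℂ) := by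
      rw [← act_real M (U * V) B A, h1, Finset.mul_sum, Matrix.trace_sum]
      push_cast
      refine Finset.sum_congr rfl fun C _ => ?_
      rw [Matrix.mul_smul, Matrix.trace_smul, act_real, smul_eq_mul, mul_comm]
    exact_mod_cast h2

theorem actO_mul (M : BFSS.Model N d F) (U V : BFSS.SU N) :
    actO M (U * V) = actO M U * actO M V := by
  ext B A
  rw [Matrix.mul_apply]
  exact act_ad_mul M U V B A

theorem actO_one (M : BFSS.Model N d F) : actO M (1 : BFSS.SU N) = 1 := by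
  ext B A
  have h : actO M (1 : BFSS.SU N) B A = (M.T B * M.T A).trace.re := by
    show (M.T B * ((1 : BFSS.SU N).val * M.T A * (1 : BFSS.SU N).val.conjTranspose)).trace.re = _
    have : (1 : BFSS.SU N).val = 1 := rfl
    rw [this, one_mul, Matrix.conjTranspose_one, mul_one]
  rw [h, M.T_orthonormal, Matrix.one_apply]
  split_ifs <;> simp

theorem actO_mem (M : BFSS.Model N d F) (S : Setup d F) (hS : Rep M S) (U : BFSS.SU N) :
    actO M U ∈ S.grp :=
  adS M (fun S a t => exp_mem S a t) S hS U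

theorem act_coeff_cont (M : BFSS.Model N d F) (B A : Fin d) :
    Continuous fun U : BFSS.SU N => BFSS.adCoeff M.T U B A := by
  unfold BFSS.adCoeff
  refine Complex.continuous_re.comp (Continuous.matrix_trace ?_)
  have hv : Continuous fun U : BFSS.SU N => U.val := continuous_subtype_val
  exact continuous_const.mul ((hv.mul continuous_const).mul hv.star)

/-- **G22 Act** -/
theorem act_stmt (M : BFSS.Model N d F) : ActStmt M := by
  obtain ⟨S₀, hS₀⟩ := setS M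
  refine ⟨fun U V x => ?_, fun x => ?_, fun U x y => ?_, fun U c x => ?_, fun U x => ?_, ?_,
    fun S hS U m x => ?_⟩
  · rw [act_eq_ro, act_eq_ro, act_eq_ro, actO_mul, grp_ro_mul]
  · rw [act_eq_ro, actO_one, grp_ro_one]
  · ext p
    show ∑ A, BFSS.adCoeff M.T U p.2 A * (x + y) (p.1, A) =
      ∑ A, BFSS.adCoeff M.T U p.2 A * x (p.1, A) + ∑ A, BFSS.adCoeff M.T U p.2 A * y (p.1, A)
    rw [← Finset.sum_add_distrib]
    exact Finset.sum_congr rfl fun A _ => mul_add _ _ _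
  · ext p
    show ∑ A, BFSS.adCoeff M.T U p.2 A * (c • x) (p.1, A) =
      c * ∑ A, BFSS.adCoeff M.T U p.2 A * x (p.1, A)
    rw [Finset.mul_sum]
    refine Finset.sum_congr rfl fun A _ => ?_
    show BFSS.adCoeff M.T U p.2 A * (c * x (p.1, A)) = _
    ring
  · rw [act_eq_ro]
    exact grp_norm (actO_mem M S₀ hS₀ U).1 x
  · show Continuous fun p : BFSS.SU N × Cfg d => (WithLp.toLp 2 fun q : Fin 9 × Fin d =>
      ∑ A, BFSS.adCoeff M.T p.1 q.2 A * p.2 (q.1, A) : Cfg d)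
    refine (PiLp.continuous_toLp 2 _).comp (continuous_pi fun q => ?_)
    refine continuous_finsetSum _ fun A _ => ?_
    exact ((act_coeff_cont M q.2 A).comp continuous_fst).mul
      ((EuclideanSpace.proj (𝕜 := ℝ) (q.1, A)).continuous.comp continuous_snd)
  · rw [act_eq_ro]
    exact grp_Vm S (actO_mem M S hS U) m x

end Act

end Vale.Agent.P353.AN.G
end

section

/-! # P353, all `N`, G24: averages of test functions over `SU(N)` -/

open MeasureTheory Filter Topology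
open scoped ContDiff

namespace Vale.Agent.P353.AN.G

open Vale.Agent.P353.Z Vale.Agent.P353.Z.U

universe w

namespace AvgD

variable {N d : ℕ} {F : Type w} [NormedAddCommGroup F] [InnerProductSpace ℂ F]

/-- the action of `U` as a continuous linear map -/
noncomputable def rho (M : BFSS.Model N d F) (h : ActStmt M) (U : BFSS.SU N) :
    Cfg d →L[ℝ] Cfg d :=
  LinearMap.toContinuousLinearMap
    { toFun := M.act U⁻¹
      map_add' := h.2.2.1 U⁻¹
      map_smul' := h.2.2.2.1 U⁻¹ }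

lemma rho_apply (M : BFSS.Model N d F) (h : ActStmt M) (U : BFSS.SU N) (x : Cfg d) :
    rho M h U x = M.act U⁻¹ x := rfl

lemma rho_cont (M : BFSS.Model N d F) (h : ActStmt M) : Continuous (rho M h) := by
  refine continuous_clm_apply.2 fun x => ?_
  have h1 : Continuous fun U : BFSS.SU N => U⁻¹ := continuous_inv
  have h2 : Continuous fun U : BFSS.SU N => ((U⁻¹, x) : BFSS.SU N × Cfg d) :=
    h1.prodMk continuous_const
  have h3 : Continuous fun p : BFSS.SU N × Cfg d => M.act p.1 p.2 := h.2.2.2.2.2.1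
  have h4 : Continuous ((fun p : BFSS.SU N × Cfg d => M.act p.1 p.2) ∘
      fun U : BFSS.SU N => ((U⁻¹, x) : BFSS.SU N × Cfg d)) := h3.comp h2
  exact h4

/-- `S(U)` as a real linear map -/
noncomputable def sr (M : BFSS.Model N d F) (U : BFSS.SU N) : F →L[ℝ] F :=
  (M.S U).restrictScalars ℝ

lemma sr_apply (M : BFSS.Model N d F) (U : BFSS.SU N) (v : F) : sr M U v = M.S U v := rfl

lemma sr_cont [FiniteDimensional ℝ F] (M : BFSS.Model N d F) : Continuous (sr M) := by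
  refine continuous_clm_apply.2 fun v => ?_
  simp only [sr_apply]
  exact M.S_continuous v

/-- the translate `y ↦ S(U)v(U⁻¹y)` -/
noncomputable def tr (M : BFSS.Model N d F) (v : Cfg d → F) (U : BFSS.SU N) (y : Cfg d) : F :=
  M.S U (v (M.act U⁻¹ y))

lemma tr_fderiv (M : BFSS.Model N d F) (h : ActStmt M) {v : Cfg d → F} (hv : ContDiff ℝ ∞ v)
    (U : BFSS.SU N) (x w : Cfg d) :
    fderiv ℝ (tr M v U) x w = sr M U (fderiv ℝ v (rho M h U x) (rho M h U w)) := by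
  have h1 : HasFDerivAt v (fderiv ℝ v (rho M h U x)) (rho M h U x) :=
    ((hv.differentiable (by simp)) _).hasFDerivAt
  have h2 : HasFDerivAt (tr M v U)
      ((sr M U).comp ((fderiv ℝ v (rho M h U x)).comp (rho M h U))) x :=
    (sr M U).hasFDerivAt.comp x (h1.comp x (rho M h U).hasFDerivAt)
  rw [h2.fderiv]
  rfl

lemma smint [FiniteDimensional ℝ F] (M : BFSS.Model N d F)
    (h1 : SmIntStmt.{w} (BFSS.SU N) (Cfg d)) (h : ActStmt M) {v : Cfg d → F}
    (hv : ContDiff ℝ ∞ v) :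
    ContDiff ℝ ∞ (avg M v) ∧ ∀ x w, fderiv ℝ (avg M v) x w =
      ∫ U, fderiv ℝ (tr M v U) x w ∂(hm N) := by
  have h2 := h1 (hm N) (rho M h) (rho_cont M h) F F (sr M) (sr_cont M) v hv
  refine ⟨h2.1, fun x w => ?_⟩
  simp only [tr_fderiv M h hv]
  exact h2.2 x w

lemma fd_cont [FiniteDimensional ℝ F] (M : BFSS.Model N d F) (h : ActStmt M) {v : Cfg d → F}
    (hv : ContDiff ℝ ∞ v) (x w : Cfg d) : Continuous fun U => fderiv ℝ (tr M v U) x w := by
  simp only [tr_fderiv M h hv]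
  have h1 : Continuous fun U => rho M h U x := (rho_cont M h).clm_apply continuous_const
  have h2 : Continuous fun U => rho M h U w := (rho_cont M h).clm_apply continuous_const
  have h3 : Continuous (fderiv ℝ v) := hv.continuous_fderiv (by simp)
  exact (sr_cont M).clm_apply ((h3.comp h1).clm_apply h2)

lemma tr_cont [FiniteDimensional ℝ F] (M : BFSS.Model N d F) (h : ActStmt M) {v : Cfg d → F}
    (hv : ContDiff ℝ ∞ v) (x : Cfg d) : Continuous fun U => tr M v U x := by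
  have h1 : Continuous fun U => rho M h U x := (rho_cont M h).clm_apply continuous_const
  exact (sr_cont M).clm_apply (hv.continuous.comp h1)

lemma int_of_cont {G : Type*} [NormedAddCommGroup G] {f : BFSS.SU N → G} (hf : Continuous f) :
    Integrable f (hm N) := by
  refine hf.integrable_of_hasCompactSupport ?_
  exact HasCompactSupport.of_compactSpace f

lemma op_avg [FiniteDimensional ℂ F] (M : BFSS.Model N d F)
    (h1 : SmIntStmt.{w} (BFSS.SU N) (Cfg d)) (h : ActStmt M) {v : Cfg d → F}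
    (hv : ContDiff ℝ ∞ v) (c : Fin 9 → Fin d → F →L[ℂ] F) (c0 : F →L[ℂ] F) (x : Cfg d) :
    (∑ i, ∑ A, c i A (pd i A (avg M v) x)) + c0 (avg M v x) =
      ∫ U, ((∑ i, ∑ A, c i A (pd i A (tr M v U) x)) + c0 (tr M v U x)) ∂(hm N) := by
  have hfd : FiniteDimensional ℝ F := FiniteDimensional.complexToReal F
  have hcF : CompleteSpace F := FiniteDimensional.complete ℝ F
  have h2 : ∀ i A, Continuous fun U => c i A (pd i A (tr M v U) x) := fun i A =>
    (c i A).continuous.comp (fd_cont M h hv x _)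
  have h3 : Continuous fun U => c0 (tr M v U x) := c0.continuous.comp (tr_cont M h hv x)
  rw [integral_add (int_of_cont (continuous_finsetSum _ fun i _ =>
    continuous_finsetSum _ fun A _ => h2 i A)) (int_of_cont h3),
    integral_finsetSum _ fun i _ => int_of_cont (continuous_finsetSum _ fun A _ => h2 i A)]
  congr 1
  · refine Finset.sum_congr rfl fun i _ => ?_
    rw [integral_finsetSum _ fun A _ => int_of_cont (h2 i A)]
    refine Finset.sum_congr rfl fun A _ => ?_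
    have h4 := ContinuousLinearMap.integral_comp_comm (c i A)
      (int_of_cont (fd_cont M h hv x (EuclideanSpace.single (i, A) 1)))
    rw [← (smint M h1 h hv).2 x _] at h4
    exact h4.symm
  · rw [ContinuousLinearMap.integral_comp_comm c0 (int_of_cont (tr_cont M h hv x))]
    rfl

lemma Qm_eq (S : Setup d F) (m : ℝ) (β : Fin 16) (u : Cfg d → F) (x : Cfg d) :
    S.Qm m β u x = (∑ i, ∑ A, ((-Complex.I) • S.vec (S.g i) A β) (pd i A u x)) +
      (S.W β x + (m : ℂ) • S.MM β x) (u x) := by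
  simp only [Setup.Qm, Setup.Q, _root_.smul_apply, _root_.add_apply, Finset.smul_sum]
  abel

lemma J_eq (S : Setup d F) (k l : Fin 9) (u : Cfg d → F) (x : Cfg d) :
    S.J k l u x = (∑ i, ∑ A, ((-Complex.I * ((if i = l then (x (k, A) : ℂ) else 0) -
      (if i = k then (x (l, A) : ℂ) else 0))) • (1 : F →L[ℂ] F)) (pd i A u x)) +
      S.Skl k l (u x) := by
  rw [Finset.sum_comm]
  have h : ∀ (c : ℂ) (w : F), (c • (1 : F →L[ℂ] F)) w = c • w := fun c w => rfl
  simp only [Setup.J, h]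
  simp only [mul_smul, sub_smul,
    Finset.smul_sum, Finset.sum_sub_distrib, ite_smul, zero_smul, smul_sub, smul_ite, smul_zero,
    Finset.sum_ite_eq', Finset.mem_univ, if_true]

end AvgD

open AvgD in
theorem avgD {N d : ℕ} {F : Type w} [NormedAddCommGroup F] [InnerProductSpace ℂ F]
    [FiniteDimensional ℂ F] (M : BFSS.Model N d F)
    (h1 : SmIntStmt.{w} (BFSS.SU N) (Cfg d)) (h22 : ActStmt M) (h23 : QActStmt M) :
    AvgDStmt M := by
  intro S hS v hv
  have hfd : FiniteDimensional ℝ F := FiniteDimensional.complexToReal F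
  refine ⟨⟨(smint M h1 h22 hv.1).1, ?_⟩, fun m β x => ?_, fun k l x => ?_⟩
  · obtain ⟨R, hR⟩ := hv.2.isCompact.isBounded.subset_closedBall (0 : Cfg d)
    refine HasCompactSupport.intro (isCompact_closedBall (0 : Cfg d) R) fun x hx => ?_
    have h2 : ∀ U : BFSS.SU N, M.S U (v (M.act U⁻¹ x)) = 0 := by
      intro U
      have h3 : M.act U⁻¹ x ∉ tsupport v := by
        intro h4
        have h5 := hR h4
        rw [mem_closedBall_zero_iff] at h5 hx
        rw [h22.2.2.2.2.1] at h5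
        exact hx h5
      rw [image_eq_zero_of_notMem_tsupport h3, map_zero]
    simp only [avg, h2, integral_zero]
  · rw [AvgD.Qm_eq, op_avg M h1 h22 hv.1]
    refine integral_congr_ae (Eventually.of_forall fun U => ?_)
    have h3 := (h23 S hS U v hv.1).1 m β x
    exact (AvgD.Qm_eq S m β (tr M v U) x).symm.trans h3
  · rw [J_eq, op_avg M h1 h22 hv.1]
    refine integral_congr_ae (Eventually.of_forall fun U => ?_)
    have h3 := (h23 S hS U v hv.1).2 k l x
    exact (J_eq S k l (tr M v U) x).symm.trans h3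

end Vale.Agent.P353.AN.G
end

section

/-! # P353, all `N`, block G: G32, the action of `exp (iH)` on vectors killed by the generator -/

open MeasureTheory Filter Topology
open scoped ContDiff

namespace Vale.Agent.P353.AN.G

open Vale.Agent.P353.Z Vale.Agent.P353.Z.U

variable {N d : ℕ} {F : Type*} [NormedAddCommGroup F] [InnerProductSpace ℂ F]

/-- the generators in basis-free form -/
lemma exh_cS (M : BFSS.Model N d F) (S : Setup d F) (hrep : Rep M S) (C : Fin d) :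
    S.cS C = (-Complex.I) • mgz M.toOld (M.toOld.T C) := by
  have hf : S.f = M.toOld.f := hrep.hf
  have hth : S.th = M.toOld.θ := hrep.hth
  have hb : ∀ D E, S.bil 1 D E = mgb M.toOld D E := by
    intro D E
    simp only [CS.bil, CS.vec_one, hth]
    rfl
  have ht : ∀ D E, (M.toOld.T C * (M.toOld.T D * M.toOld.T E -
      M.toOld.T E * M.toOld.T D)).trace = Complex.I * (M.f C D E : ℂ) := by
    intro D E
    rw [Matrix.trace_mul_comm]
    have h3 := mf_trace M D E C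
    rw [← mf_cyc M C D E] at h3
    exact h3
  rw [mgz_apply, Setup.cS]
  simp only [hb, ht, hf]
  rw [smul_smul, Finset.smul_sum, Finset.smul_sum]
  refine Finset.sum_congr rfl fun D _ => ?_
  rw [Finset.smul_sum, Finset.smul_sum]
  refine Finset.sum_congr rfl fun E _ => ?_
  rw [smul_smul, smul_smul]
  congr 1
  show -Complex.I / 2 * (M.f C D E : ℂ) = -Complex.I * (-Complex.I / 2) *
    (Complex.I * (M.f C D E : ℂ))
  linear_combination (-Complex.I / 2 * (M.f C D E : ℂ)) * Complex.I_sq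

/-- `exp (s z) v = v` if `z v = 0` -/
lemma exh_kill [CompleteSpace F] (z : F →L[ℂ] F) (v : F) (hz : z v = 0) (s : ℝ) :
    mgE z s v = v := by
  have hφ : ∀ s, HasDerivAt (fun s => mgE z s v) 0 s := by
    intro s
    have h1 := ((ContinuousLinearMap.apply ℂ F v).restrictScalars ℝ).hasFDerivAt.comp_hasDerivAt s
      (mgE_deriv z s)
    refine h1.congr_deriv ?_
    show (z * mgE z s) v = 0
    have hc : z * mgE z s = mgE z s * z := mgE_comm (Commute.refl z) s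
    rw [hc]
    show mgE z s (z v) = 0
    rw [hz, map_zero]
  have hconst := is_const_of_deriv_eq_zero (fun s => (hφ s).differentiableAt)
    (fun s => (hφ s).deriv) s 0
  rw [hconst, mgE_zero]
  rfl

/-- `exp (i U x U*) = U exp (i x) U*` -/
lemma exh_tor (U : Matrix.specialUnitaryGroup (Fin N) ℂ) (x : mgH N) :
    NormedSpace.exp (Complex.I • mgc U.val (mgd x)) = mgc U.val (mgtorM x) := by
  have hinv : (U.val)⁻¹ = U.val.conjTranspose :=
    Matrix.inv_eq_right_inv (mg_unit U).2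
  have hU : IsUnit U.val := by
    rw [Matrix.isUnit_iff_isUnit_det]
    rw [(Matrix.mem_specialUnitaryGroup_iff.1 U.2).2]
    exact isUnit_one
  have h1 : Complex.I • mgc U.val (mgd x) = U.val * (Complex.I • mgd x) * (U.val)⁻¹ := by
    rw [hinv, mgc, Matrix.mul_smul, Matrix.smul_mul]
  rw [h1, Matrix.exp_conj _ _ hU, hinv, mgc]
  congr 2
  rw [mgd, mgtorM, ← Matrix.diagonal_smul, Matrix.exp_diagonal]
  congr 1
  funext j
  rw [Pi.coe_exp, ← Complex.exp_eq_exp_ℂ]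
  show Complex.exp (Complex.I * _) = _
  rw [mul_comm]

/-- **G32** -/
theorem expH [FiniteDimensional ℂ F] (M : BFSS.Model N d F) : ExpHStmt M := by
  intro hd S hrep h v hv V hV
  have hcomp : CompleteSpace F := FiniteDimensional.complete ℂ F
  obtain ⟨hN, -⟩ := mg_dim M.toOld hd
  set H : Matrix (Fin N) (Fin N) ℂ := ∑ A, (h A : ℂ) • M.T A with hHdef
  have hH : H.conjTranspose = H := by
    rw [hHdef, Matrix.conjTranspose_sum]
    refine Finset.sum_congr rfl fun A _ => ?_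
    rw [Matrix.conjTranspose_smul, M.T_hermitian, RCLike.star_def, Complex.conj_ofReal]
  have htr : H.trace = 0 := by
    rw [hHdef, Matrix.trace_sum]
    refine Finset.sum_eq_zero fun A _ => ?_
    rw [Matrix.trace_smul, M.T_traceless, smul_zero]
  obtain ⟨U, x, hUx⟩ := mg_diag hN H hH htr
  have hV2 : V = U * mgtor ((1 : ℝ) • x) * U⁻¹ := by
    apply Subtype.ext
    rw [hV, ← hUx, exh_tor, one_smul]
    rfl
  have hS : M.S V = mgE (mgz M.toOld H) 1 := by
    rw [hV2, ← hUx]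
    exact mgS_conj M.toOld hd U x 1
  rw [hS]
  apply exh_kill
  have hZ : mgz M.toOld H = Complex.I • ∑ C, (h C : ℂ) • S.cS C := by
    rw [hHdef, map_sum, Finset.smul_sum]
    refine Finset.sum_congr rfl fun C _ => ?_
    rw [map_smul, exh_cS M S hrep C, smul_smul, smul_smul]
    show (h C : ℂ) • mgz M.toOld (M.toOld.T C) = _
    congr 1
    linear_combination (h C : ℂ) * Complex.I_sq
  rw [hZ]
  show Complex.I • ((∑ C, (h C : ℂ) • S.cS C) v) = 0
  have h5 : (∑ C, (h C : ℂ) • S.cS C) v = ∑ C, (h C : ℂ) • S.cS C v := by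
    rw [_root_.sum_apply]
    rfl
  rw [h5, hv, smul_zero]

end Vale.Agent.P353.AN.G
end

section

/-! # P353, all `N`, block LOW, part H: Haar measure and geometry of `SU(N)` near the normaliser of `z` (helper847)

`x = R·E(η) + x^s + x^m`, `|x^s| ≤ L`, `|x^m| ≤ L R^{-1/2}` (`InB`). Result `GeoStmt`: if `x` and `U·x` are both of this form then
`U = U_N V` with `U_N` in the normaliser of the splitting and `|V - 1| ≤ C R^{-3/2}`; `GoodStmt`: the set of `U = exp(iξ)` with `|ξ| ≤ ρ`,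
`|ξ_m| ≤ δ` has Haar measure `≥ c δ^{dm}`. -/

open MeasureTheory Filter Topology
open scoped ContDiff

namespace Vale.Agent.P353.AN.LW

open Vale.Agent.P353.Z Vale.Agent.P353.Z.U Vale.Agent.P353.Z.AN Vale.Agent.P353.AN.G

variable {N d dh dm r ds : ℕ} {F : Type*} [NormedAddCommGroup F] [InnerProductSpace ℂ F]

/-- Frobenius norm -/
noncomputable def fn (X : Matrix (Fin N) (Fin N) ℂ) : ℝ := Real.sqrt (∑ j, ∑ k, ‖X j k‖ ^ 2)

/-- `exp(i∑ξ_AT_A)` -/
noncomputable def eT (M : BFSS.Model N d F) (ξ : EuclideanSpace ℝ (Fin d)) : Matrix (Fin N) (Fin N) ℂ :=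
  NormedSpace.exp (Complex.I • ∑ A, (ξ A : ℂ) • M.T A)

/-- block of a colour index: `0` = `z`, `1` = `s`, `2` = `m` -/
def bl (φ : Spl dh dm d) (ψ : Spz r ds dh) (A : Fin d) : Fin 3 :=
  Sum.elim (fun B => Sum.elim (fun _ => 0) (fun _ => 1) (ψ.symm B)) (fun _ => 2) (φ.symm A)

/-- `U` normalises the splitting `z ⊕ s ⊕ m` -/
def Nrm (M : BFSS.Model N d F) (φ : Spl dh dm d) (ψ : Spz r ds dh) (U : BFSS.SU N) : Prop :=
  ∀ A B, bl φ ψ A ≠ bl φ ψ B → BFSS.adCoeff M.T U A B = 0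

/-- the configuration with `z`-coordinates `η` -/
noncomputable def Ez (φ : Spl dh dm d) (ψ : Spz r ds dh) (η : Cfg r) : Cfg d := emb φ (Vale.Agent.P353.Z.AN.cmb ψ η 0) 0

/-- `η` is regular: no direction of `m` commutes with it -/
def RegP (S : Setup d F) (φ : Spl dh dm d) (ψ : Spz r ds dh) (η : Cfg r) : Prop :=
  ∀ v : Fin dm → ℝ, (∀ i, (Dz S φ ψ η i).mulVec v = 0) → v = 0

/-- `s` has no centre -/
def Less (S : Setup d F) (φ : Spl dh dm d) (ψ : Spz r ds dh) : Prop :=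
  ∀ v : Fin ds → ℝ, (∀ B C, ∑ A, S.f (φ (Sum.inl (ψ (Sum.inr A)))) (φ (Sum.inl (ψ (Sum.inr B))))
    (φ (Sum.inl (ψ (Sum.inr C)))) * v A = 0) → v = 0

/-- `x = R·E(η) + O(L)` in `h`, `O(L R^{-1/2})` in `m`, `η ∈ K` -/
def InB (φ : Spl dh dm d) (ψ : Spz r ds dh) (K : Set (Cfg r)) (L R : ℝ) (x : Cfg d) : Prop :=
  R⁻¹ • hz ψ (zy φ x) ∈ K ∧ ‖hs ψ (zy φ x)‖ ≤ L ∧ ‖Real.sqrt R • pm φ x‖ ≤ L

/-- **LH1 Log** logarithm near `1`. PROOF. `mad_log`: `U = exp(iK)`, `K` Hermitian with eigenvalues `arg` of the eigenvalues of `U`, so `|K|_F ≤ 2|U-1|_F`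
(`|arg z| ≤ (π/2)|z-1|` for `|z| = 1`; work in an eigenbasis of `U`), `det U = 1` gives `tr K ∈ 2πℤ`, small, so `tr K = 0`, and `K = ∑ξ_AT_A` with `ξ_A = tr(T_AK)`
(`mad_complete`, `d > 0` or trivial), `|ξ| = |K|_F`. -/
def LogStmt (M : BFSS.Model N d F) : Prop := ∃ δ C : ℝ, 0 < δ ∧ 0 < C ∧ ∀ U : BFSS.SU N, fn (U.val - 1) ≤ δ →
  ∃ ξ : EuclideanSpace ℝ (Fin d), U.val = eT M ξ ∧ ‖ξ‖ ≤ C * fn (U.val - 1)

/-- **LH2 ExpLip** the exponential is bi-Lipschitz near `0`, takes values in `SU(N)` and is continuous. PROOF. Power series / derivative `1` at `0`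
(strict differentiability of `NormedSpace.exp` at `0`), `|∑ξ_AT_A|_F = |ξ|`; unitary as `iH` is skew-Hermitian, `det exp = exp tr = 1`
(`Matrix.det_exp` or diagonalise). -/
def ExpLipStmt (M : BFSS.Model N d F) : Prop := (∀ ξ, eT M ξ ∈ Matrix.specialUnitaryGroup (Fin N) ℂ) ∧
  Continuous (eT M) ∧ eT M 0 = 1 ∧ ∃ ρ c C : ℝ, 0 < ρ ∧ 0 < c ∧ 0 < C ∧ ∀ ξ ζ, ‖ξ‖ ≤ ρ → ‖ζ‖ ≤ ρ →
    c * ‖ξ - ζ‖ ≤ fn (eT M ξ - eT M ζ) ∧ fn (eT M ξ - eT M ζ) ≤ C * ‖ξ - ζ‖

/-- **LH3 HL** Haar measure dominates Lebesgue measure in the exponential chart.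
PROOF. `ρ` small. For measurable `E`, `f(U) = Leb{ξ : |ξ| ≤ 2ρ, U·exp(ξ) ∈ E}`: `∫f(U)dhm(U) = Leb(B_{2ρ})·hm(E)` (Tonelli, right invariance). For `U` in the
neighbourhood `W = {fn(U-1) ≤ δ'}` of `1` (positive measure) and `ξ'` with `|ξ'| ≤ ρ`, `exp(ξ') ∈ E`: `U⁻¹exp(ξ') = exp(ξ)` with `|ξ| ≤ 2ρ` (LH1, `fn` bi-invariant),
so `ξ` is counted in `f(U)`; the map `{counted ξ} → ξ'` (`ξ'` = the logarithm of `U exp(ξ)` in the ball of radius `ρ`) is `C/c`-Lipschitz by LH2 (`fn(exp ξ₁' - exp ξ₂') = fn(exp ξ₁ - exp ξ₂)`),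
so `Leb{ξ' : |ξ'| ≤ ρ, exp ξ' ∈ E} ≤ (C/c)^d f(U)` (`LipschitzOnWith` and Hausdorff/Lebesgue measure, e.g. `LipschitzOnWith.hausdorffMeasure_image_le`). Integrate over `W`. -/
def HLStmt (M : BFSS.Model N d F) : Prop := ∃ ρ C : ℝ, 0 < ρ ∧ 0 < C ∧ ∀ E : Set (BFSS.SU N), MeasurableSet E →
  (volume : Measure (EuclideanSpace ℝ (Fin d))) {ξ | ‖ξ‖ ≤ ρ ∧ ∃ U ∈ E, U.val = eT M ξ} ≤ ENNReal.ofReal C * hm N E

/-- **LH4 Good** PROOF. The set is the image of the compact set `{|ξ| ≤ ρ', |ξ_m| ≤ δ}` under the continuous `eT`, so compact; HL; the Lebesgue measure of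
`{|ξ| ≤ ρ', |ξ_m| ≤ δ}` is `≥` the product of a ball in `h` and a ball of radius `cδ` in `m` (`d = dh + dm`; permutation of coordinates preserves
the volume), `= c'δ^{dm}`. -/
def GoodStmt (M : BFSS.Model N d F) : Prop := ∀ (dh dm : ℕ) (φ : Spl dh dm d), ∃ ρ : ℝ, 0 < ρ ∧ ∀ ρ' : ℝ, 0 < ρ' → ρ' ≤ ρ →
  ∃ c : ℝ, 0 < c ∧ ∀ δ : ℝ, 0 < δ → δ ≤ ρ' → c * δ ^ dm ≤ (hm N).real {U : BFSS.SU N |
    ∃ ξ : EuclideanSpace ℝ (Fin d), ‖ξ‖ ≤ ρ' ∧ (∀ B : Fin dm, |ξ (φ (Sum.inr B))| ≤ δ) ∧ U.val = eT M ξ} ∧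
    MeasurableSet {U : BFSS.SU N |
    ∃ ξ : EuclideanSpace ℝ (Fin d), ‖ξ‖ ≤ ρ' ∧ (∀ B : Fin dm, |ξ (φ (Sum.inr B))| ≤ δ) ∧ U.val = eT M ξ}

/-- **LH5 AdE** adjoint action of exponentials. PROOF: second half of `mad_exp` (`mad_conj`), with `K = ∑ξ_AT_A`. (`d = 0` trivial.) -/
def AdEStmt (M : BFSS.Model N d F) : Prop := ∀ S : Setup d F, Rep M S → ∀ (U : BFSS.SU N) (ξ : EuclideanSpace ℝ (Fin d)),
  U.val = eT M ξ → (Matrix.of fun B A => BFSS.adCoeff M.T U B A) = NormedSpace.exp ((-1 : ℝ) • S.adm ξ)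

/-- **LH6 SUni** `S(U)` and `act U` are uniformly continuous: PROOF: `F` finite dimensional, `S` is a unitary representation, continuity at `1`, compactness;
`‖act U x - x‖ ≤ C fn(U-1)‖x‖` from the formula of `adCoeff`. -/
def SUniStmt (M : BFSS.Model N d F) : Prop := FiniteDimensional ℂ F →
  (∀ ε : ℝ, 0 < ε → ∃ δ : ℝ, 0 < δ ∧ ∀ U V : BFSS.SU N, fn (U.val - V.val) ≤ δ → ∀ v, ‖M.S U v - M.S V v‖ ≤ ε * ‖v‖) ∧
  ∃ C : ℝ, 0 < C ∧ ∀ (U V : BFSS.SU N) (x : Cfg d), ‖M.act U x - M.act V x‖ ≤ C * fn (U.val - V.val) * ‖x‖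

/-- **LH7 Near** elements that move a regular point of `K` close to another one are close to the normaliser.
PROOF by contradiction: `U_n → U` (compactness of `SU(N)`), `η_n → η`, `η_n' → η'` in `K`, `act U (Ez η) = Ez η'`. `Ad U` is an automorphism of the Lie algebra
(`f` invariant), orthogonal, and maps the centraliser of `Ez η` onto that of `Ez η'`; both are `h` (`z` central in `h`: `⊇`; `RegP`: `⊆`, since the `m`-part of an
element commuting with `Ez η` also commutes, `h` and `m` being invariant under `ad (Ez η)_i`). So `Ad U` preserves `h`, its centre (which is `z` by `Less`), and by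
orthogonality `s = h ∩ z^⊥` and `m = h^⊥`: `Nrm U`; but `fn(U_n - U) → 0`. -/
def NearStmt (M : BFSS.Model N d F) : Prop := ∀ S : Setup d F, Rep M S → ∀ (dh dm r ds : ℕ) (φ : Spl dh dm d)
  (ψ : Spz r ds dh), S.IsSub φ → IsZ S φ ψ → Less S φ ψ → ∀ K : Set (Cfg r), IsCompact K → (∀ η ∈ K, RegP S φ ψ η) →
  ∀ ε : ℝ, 0 < ε → ∃ δ : ℝ, 0 < δ ∧ ∀ (U : BFSS.SU N) (η η' : Cfg r), η ∈ K → η' ∈ K →
    ‖M.act U (Ez φ ψ η) - Ez φ ψ η'‖ ≤ δ → ∃ U₀ : BFSS.SU N, Nrm M φ ψ U₀ ∧ fn (U.val - U₀.val) ≤ ε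

/-- **LH8 Geo** PROOF. `η = R⁻¹x^z`, `η' = R⁻¹(Ux)^z`: `|act U (Ez η) - Ez η'| ≤ 4(L+1)/R`, so by LH7 there is `U₀` normalising with `V₀ = U₀⁻¹U` close to `1`; LH1: `V₀ = exp(iξ)`, `ξ` small.
`act V₀ x = act U₀⁻¹(act U x)` is again `InB` (with the compact set `⋃_{U₀ ∈ Nrm}U₀⁻¹K`, same `L`): in particular `|(act V₀ x)^m| ≤ L R^{-1/2}`. With `A = -ad ξ` (LH5):
`exp(A)(R Ez η) = R Ez η + φ(A)[A(R Ez η)]`, `φ(t) = (e^t-1)/t = 1 + O(|ξ|)`, `A(Ez η)` depends only on `ξ_m` (as `[h,z] = 0`), lies in `m`, and has norm `≥ c|ξ_m|` (`RegP`, compactness);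
the `m`-component of `exp(A)x^s` is `O(|ξ_m|)L` (`exp` of the block diagonal `ad ξ_h` preserves `h`; difference `≤ C|ξ_m|`) and that of `exp(A)x^m` is `≤ L R^{-1/2}`:
`cR|ξ_m| ≤ 2L R^{-1/2} + C|ξ_m|L`, `|ξ_m| ≤ C'R^{-3/2}`. Put `U_N = U₀·exp(iξ_h)` (`exp(iξ_h)` is in `Nrm`), `V = exp(-iξ_h)exp(iξ)`: `fn(V-1) = fn(exp(iξ)-exp(iξ_h)) ≤ C|ξ_m|` (LH2),
`U = U_N V`. `‖act V x - x‖ ≤ C fn(V-1)‖x‖ ≤ C'R^{-3/2}·R` (LH6). -/
def GeoStmt (M : BFSS.Model N d F) : Prop := ∀ S : Setup d F, Rep M S → ∀ (dh dm r ds : ℕ) (φ : Spl dh dm d)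
  (ψ : Spz r ds dh), S.IsSub φ → IsZ S φ ψ → Less S φ ψ → ∀ K : Set (Cfg r), IsCompact K → (∀ η ∈ K, RegP S φ ψ η) →
  ∀ L : ℝ, 0 < L → ∃ R₀ C : ℝ, 1 ≤ R₀ ∧ 0 < C ∧ ∀ R : ℝ, R₀ ≤ R → ∀ (U : BFSS.SU N) (x : Cfg d),
    InB φ ψ K L R x → InB φ ψ K L R (M.act U x) →
    ∃ UN V : BFSS.SU N, U = UN * V ∧ Nrm M φ ψ UN ∧ fn (V.val - 1) ≤ C / (R * Real.sqrt R) ∧
      ‖M.act V x - x‖ ≤ C / Real.sqrt R

/-- **LH9 GoodA** the good elements move points of `InB` only little. PROOF: as in LH8 (upper bounds): `exp(A)(R Ez η) - R Ez η = φ(A)A(R Ez η) = O(R|ξ_m|)`, its `h`-component is `O(|ξ|·R|ξ_m|)`;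
`exp(A)x^s - x^s = O(|ξ|)L`, with `m`-component `O(|ξ_m|L)`; `exp(A)x^m = O(R^{-1/2})`. -/
def GoodAStmt (M : BFSS.Model N d F) : Prop := ∀ S : Setup d F, Rep M S → ∀ (dh dm r ds : ℕ) (φ : Spl dh dm d)
  (ψ : Spz r ds dh), S.IsSub φ → IsZ S φ ψ → ∀ K : Set (Cfg r), IsCompact K → ∀ L : ℝ, 0 < L →
  ∃ ρ C : ℝ, 0 < ρ ∧ 0 < C ∧ ∀ R : ℝ, 1 ≤ R → ∀ (U : BFSS.SU N) (ξ : EuclideanSpace ℝ (Fin d)), ‖ξ‖ ≤ ρ →
    (∀ B : Fin dm, |ξ (φ (Sum.inr B))| ≤ (R * Real.sqrt R)⁻¹) → U.val = eT M ξ → ∀ x, InB φ ψ K L R x →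
    ‖hz ψ (zy φ (M.act U x)) - hz ψ (zy φ x)‖ ≤ C * (‖ξ‖ + (Real.sqrt R)⁻¹) ∧
    ‖hs ψ (zy φ (M.act U x)) - hs ψ (zy φ x)‖ ≤ C * (‖ξ‖ + (Real.sqrt R)⁻¹) ∧
    ‖Real.sqrt R • pm φ (M.act U x)‖ ≤ C

end Vale.Agent.P353.AN.LW
end

section

/-! # P353, all `N`, block LOW, LH2: the exponential is bi-Lipschitz near `0` (helper584) -/

open MeasureTheory Filter Topology
open scoped ContDiff

namespace Vale.Agent.P353.AN.LW

open Vale.Agent.P353.Z Vale.Agent.P353.Z.U Vale.Agent.P353.Z.AN Vale.Agent.P353.AN.G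

namespace ExpLip

variable {N d : ℕ} {F : Type*} [NormedAddCommGroup F] [InnerProductSpace ℂ F]

/-- `∑ξ_AT_A` is Hermitian -/
lemma herm (M : BFSS.Model N d F) (ξ : EuclideanSpace ℝ (Fin d)) :
    (∑ A, (ξ A : ℂ) • M.T A).conjTranspose = ∑ A, (ξ A : ℂ) • M.T A := by
  rw [Matrix.conjTranspose_sum]
  refine Finset.sum_congr rfl fun A _ => ?_
  rw [Matrix.conjTranspose_smul, M.T_hermitian, RCLike.star_def, Complex.conj_ofReal]

/-- `∑ξ_AT_A` is traceless -/
lemma trless (M : BFSS.Model N d F) (ξ : EuclideanSpace ℝ (Fin d)) :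
    (∑ A, (ξ A : ℂ) • M.T A).trace = 0 := by
  rw [Matrix.trace_sum]
  refine Finset.sum_eq_zero fun A _ => ?_
  rw [Matrix.trace_smul, M.T_traceless, smul_zero]

lemma mem (M : BFSS.Model N d F) (ξ : EuclideanSpace ℝ (Fin d)) :
    eT M ξ ∈ Matrix.specialUnitaryGroup (Fin N) ℂ := by
  rcases Nat.eq_zero_or_pos N with hN | hN
  · subst hN
    have : eT M ξ = 1 := Subsingleton.elim _ _
    rw [this]
    exact one_mem _
  · obtain ⟨U, x, hUx⟩ := mg_diag hN _ (herm M ξ) (trless M ξ)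
    have h : eT M ξ = (U * mgtor x * U⁻¹ : Matrix.specialUnitaryGroup (Fin N) ℂ).val := by
      rw [eT, ← hUx, exh_tor]
      rfl
    rw [h]
    exact (U * mgtor x * U⁻¹).2

/-- `fn` is homogeneous of the isometry `ξ ↦ ∑ξ_AT_A` -/
lemma fn_sq (X : Matrix (Fin N) (Fin N) ℂ) :
    ((fn X ^ 2 : ℝ) : ℂ) = (X.conjTranspose * X).trace := by
  rw [fn, Real.sq_sqrt (Finset.sum_nonneg fun j _ => Finset.sum_nonneg fun k _ => sq_nonneg _)]
  rw [Matrix.trace, Finset.sum_comm]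
  push_cast
  refine Finset.sum_congr rfl fun k _ => ?_
  rw [Matrix.diag_apply, Matrix.mul_apply]
  refine Finset.sum_congr rfl fun j _ => ?_
  rw [Matrix.conjTranspose_apply, Complex.star_def, Complex.conj_mul']

lemma fn_lin (M : BFSS.Model N d F) (ξ : EuclideanSpace ℝ (Fin d)) :
    fn (Complex.I • ∑ A, (ξ A : ℂ) • M.T A) = ‖ξ‖ := by
  have h1 : fn (Complex.I • ∑ A, (ξ A : ℂ) • M.T A) ^ 2 = ‖ξ‖ ^ 2 := by
    have h2 := fn_sq (Complex.I • ∑ A, (ξ A : ℂ) • M.T A)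
    rw [Matrix.conjTranspose_smul, herm, Matrix.smul_mul, Matrix.mul_smul, smul_smul,
      Matrix.trace_smul, Matrix.sum_mul, Matrix.trace_sum] at h2
    have h3 : ∀ A, (((ξ A : ℂ) • M.T A) * ∑ B, (ξ B : ℂ) • M.T B).trace = ((ξ A ^ 2 : ℝ) : ℂ) := by
      intro A
      rw [Matrix.mul_sum, Matrix.trace_sum, Finset.sum_eq_single A]
      · rw [Matrix.smul_mul, Matrix.mul_smul, Matrix.trace_smul, Matrix.trace_smul,
          M.T_orthonormal, if_pos rfl]
        push_cast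
        simp [sq]
      · intro B _ hB
        rw [Matrix.smul_mul, Matrix.mul_smul, Matrix.trace_smul, Matrix.trace_smul,
          M.T_orthonormal, if_neg (Ne.symm hB)]
        simp
      · simp
    rw [Finset.sum_congr rfl fun A _ => h3 A, ← Complex.ofReal_sum] at h2
    have h4 : star Complex.I * Complex.I = 1 := by
      rw [Complex.star_def, Complex.conj_I]
      linear_combination -Complex.I_mul_I
    rw [h4, one_smul] at h2
    have h5 := Complex.ofReal_injective h2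
    rw [h5, EuclideanSpace.norm_sq_eq]
    refine Finset.sum_congr rfl fun A _ => ?_
    rw [Real.norm_eq_abs, sq_abs]
  have h6 : 0 ≤ fn (Complex.I • ∑ A, (ξ A : ℂ) • M.T A) := Real.sqrt_nonneg _
  exact (pow_left_inj₀ h6 (norm_nonneg _) two_ne_zero).1 h1

section Fr

open scoped Matrix.Norms.Frobenius

lemma fn_norm (X : Matrix (Fin N) (Fin N) ℂ) : fn X = ‖X‖ := by
  rw [fn, Matrix.frobenius_norm_def, Real.sqrt_eq_rpow]
  simp only [Real.rpow_two]

/-- the linear map `ξ ↦ i∑ξ_AT_A` -/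
noncomputable def lin (M : BFSS.Model N d F) : EuclideanSpace ℝ (Fin d) →ₗᵢ[ℝ] Matrix (Fin N) (Fin N) ℂ where
  toFun ξ := Complex.I • ∑ A, (ξ A : ℂ) • M.T A
  map_add' := fun ξ ζ => by
    simp only [PiLp.add_apply, Complex.ofReal_add, add_smul, Finset.sum_add_distrib, smul_add]
  map_smul' := fun c ξ => by
    simp only [PiLp.smul_apply, smul_eq_mul, Complex.ofReal_mul, mul_smul, Finset.smul_sum,
      RingHom.id_apply]
    refine Finset.sum_congr rfl fun A _ => ?_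
    rw [smul_comm Complex.I (c : ℂ)]
    rfl
  norm_map' := fun ξ => by
    rw [← fn_norm]
    exact fn_lin M ξ

lemma eT_eq (M : BFSS.Model N d F) (ξ : EuclideanSpace ℝ (Fin d)) :
    eT M ξ = NormedSpace.exp (lin M ξ) := rfl

lemma cont (M : BFSS.Model N d F) : Continuous (eT M) := by
  have h : eT M = fun ξ => NormedSpace.exp (lin M ξ) := rfl
  rw [h]
  exact NormedSpace.exp_continuous.comp (lin M).continuous

lemma bilip (M : BFSS.Model N d F) : ∃ ρ c C : ℝ, 0 < ρ ∧ 0 < c ∧ 0 < C ∧ ∀ ξ ζ, ‖ξ‖ ≤ ρ → ‖ζ‖ ≤ ρ →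
    c * ‖ξ - ζ‖ ≤ fn (eT M ξ - eT M ζ) ∧ fn (eT M ξ - eT M ζ) ≤ C * ‖ξ - ζ‖ := by
  have h0 : HasStrictFDerivAt (NormedSpace.exp : Matrix (Fin N) (Fin N) ℂ → _)
      (1 : Matrix (Fin N) (Fin N) ℂ →L[ℝ] Matrix (Fin N) (Fin N) ℂ) 0 := hasStrictFDerivAt_exp_zero
  obtain ⟨s, hs, happ⟩ := h0.approximates_deriv_on_nhds (c := 1 / 2) (Or.inr (by norm_num))
  obtain ⟨ε, hε, hball⟩ := Metric.mem_nhds_iff.1 hs
  refine ⟨ε / 2, 1 / 2, 3 / 2, by positivity, by norm_num, by norm_num, fun ξ ζ hξ hζ => ?_⟩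
  have hm : ∀ ξ : EuclideanSpace ℝ (Fin d), ‖ξ‖ ≤ ε / 2 → lin M ξ ∈ s := by
    intro ξ h
    apply hball
    rw [mem_ball_zero_iff, (lin M).norm_map]
    linarith
  have h1 : ‖NormedSpace.exp (lin M ξ) - NormedSpace.exp (lin M ζ) - (lin M ξ - lin M ζ)‖ ≤
      ((1 / 2 : NNReal) : ℝ) * ‖lin M ξ - lin M ζ‖ :=
    happ (lin M ξ) (hm ξ hξ) (lin M ζ) (hm ζ hζ)
  rw [← map_sub, (lin M).norm_map] at h1
  have h1' : ‖eT M ξ - eT M ζ - lin M (ξ - ζ)‖ ≤ 1 / 2 * ‖ξ - ζ‖ := by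
    refine le_trans h1 (le_of_eq ?_)
    norm_num
  rw [fn_norm]
  have h2 : ‖lin M (ξ - ζ)‖ = ‖ξ - ζ‖ := (lin M).norm_map _
  have h3 := norm_sub_norm_le (eT M ξ - eT M ζ) (lin M (ξ - ζ))
  have h4 := norm_sub_norm_le (lin M (ξ - ζ)) (eT M ξ - eT M ζ)
  rw [norm_sub_rev (lin M (ξ - ζ))] at h4
  constructor <;> linarith

end Fr

end ExpLip

variable {N d : ℕ} {F : Type*} [NormedAddCommGroup F] [InnerProductSpace ℂ F]

/-- **LH2 ExpLip** -/
theorem expLip_stmt (M : BFSS.Model N d F) : ExpLipStmt M := by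
  refine ⟨ExpLip.mem M, ExpLip.cont M, ?_, ExpLip.bilip M⟩
  have h : (Complex.I • ∑ A, (((0 : EuclideanSpace ℝ (Fin d)) A : ℝ) : ℂ) • M.T A) = 0 := by
    simp
  rw [eT, h, NormedSpace.exp_zero]

end Vale.Agent.P353.AN.LW
end

section

/-! # P353, all `N`, block LOW, LH1: the logarithm near `1` (helper409) -/

open MeasureTheory Filter Topology
open scoped ContDiff

namespace Vale.Agent.P353.AN.LW

open Vale.Agent.P353.Z Vale.Agent.P353.Z.U Vale.Agent.P353.Z.AN Vale.Agent.P353.AN.G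

namespace LogS

variable {N d : ℕ} {F : Type*} [NormedAddCommGroup F] [InnerProductSpace ℂ F]

/-- `|θ| ≤ (π/2)|exp(iθ) - 1|` for `|θ| ≤ π` -/
lemma abs_le {θ : ℝ} (hθ : |θ| ≤ Real.pi) :
    |θ| ≤ Real.pi / 2 * ‖Complex.exp ((θ : ℂ) * Complex.I) - 1‖ := by
  have h1 : ‖Complex.exp ((θ : ℂ) * Complex.I) - 1‖ = 2 * |Real.sin (θ / 2)| := by
    rw [mul_comm, Complex.norm_exp_I_mul_ofReal_sub_one, norm_mul, Real.norm_eq_abs,
      Real.norm_eq_abs, abs_two]
  have h2 : 2 / Real.pi * |θ / 2| ≤ |Real.sin (θ / 2)| := by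
    apply Real.mul_abs_le_abs_sin
    rw [abs_div, abs_two]
    linarith
  rw [h1]
  rw [abs_div, abs_two] at h2
  have hπ := Real.pi_pos
  have h3 : |θ| = Real.pi / 2 * (2 * (2 / Real.pi * (|θ| / 2))) := by
    field_simp
  rw [h3]
  gcongr

lemma fn_nonneg (X : Matrix (Fin N) (Fin N) ℂ) : 0 ≤ fn X := Real.sqrt_nonneg _

/-- `fn` is invariant under conjugation -/
lemma fn_mgc (U : BFSS.SU N) (X : Matrix (Fin N) (Fin N) ℂ) : fn (mgc U.val X) = fn X := by
  have h1 : fn (mgc U.val X) ^ 2 = fn X ^ 2 := by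
    apply Complex.ofReal_injective
    rw [ExpLip.fn_sq, ExpLip.fn_sq, mgc, Matrix.conjTranspose_mul, Matrix.conjTranspose_mul,
      Matrix.conjTranspose_conjTranspose, Matrix.trace_mul_comm]
    have h2 : U.val * X * U.val.conjTranspose * (U.val * (X.conjTranspose * U.val.conjTranspose)) =
        U.val * (X * (U.val.conjTranspose * U.val) * X.conjTranspose) * U.val.conjTranspose := by
      simp only [Matrix.mul_assoc]
    rw [h2, (mg_unit U).1, Matrix.mul_one, Matrix.trace_mul_comm, ← Matrix.mul_assoc,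
      (mg_unit U).1, Matrix.one_mul, Matrix.trace_mul_comm]
  exact (pow_left_inj₀ (fn_nonneg _) (fn_nonneg _) two_ne_zero).1 h1

lemma fn_diag (z : Fin N → ℂ) : fn (Matrix.diagonal z) = Real.sqrt (∑ j, ‖z j‖ ^ 2) := by
  rw [fn]
  congr 1
  refine Finset.sum_congr rfl fun j _ => ?_
  rw [Finset.sum_eq_single j]
  · rw [Matrix.diagonal_apply_eq]
  · intro k _ hk
    rw [Matrix.diagonal_apply_ne _ (Ne.symm hk), norm_zero]
    simp
  · simp

lemma fn_I (X : Matrix (Fin N) (Fin N) ℂ) : fn (Complex.I • X) = fn X := by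
  rw [fn, fn]
  congr 1
  refine Finset.sum_congr rfl fun j _ => Finset.sum_congr rfl fun k _ => ?_
  rw [Matrix.smul_apply, norm_smul, Complex.norm_I, one_mul]

lemma mgc_sub (U X Y : Matrix (Fin N) (Fin N) ℂ) : mgc U (X - Y) = mgc U X - mgc U Y := by
  rw [mgc, mgc, mgc, Matrix.mul_sub, Matrix.sub_mul]

lemma mgc_one (U : BFSS.SU N) : mgc U.val (1 : Matrix (Fin N) (Fin N) ℂ) = 1 := by
  rw [mgc, Matrix.mul_one, (mg_unit U).2]

/-- exponential of a conjugate of a diagonal matrix -/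
lemma exp_mgc (U : BFSS.SU N) (x : Fin N → ℝ) :
    NormedSpace.exp (Complex.I • mgc U.val (Matrix.diagonal fun j => (x j : ℂ))) =
      mgc U.val (Matrix.diagonal fun j => Complex.exp ((x j : ℂ) * Complex.I)) := by
  have hinv : (U.val)⁻¹ = U.val.conjTranspose :=
    Matrix.inv_eq_right_inv (mg_unit U).2
  have hU : IsUnit U.val := by
    rw [Matrix.isUnit_iff_isUnit_det]
    rw [(Matrix.mem_specialUnitaryGroup_iff.1 U.2).2]
    exact isUnit_one
  have h1 : Complex.I • mgc U.val (Matrix.diagonal fun j => (x j : ℂ)) =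
      U.val * (Complex.I • Matrix.diagonal fun j => (x j : ℂ)) * (U.val)⁻¹ := by
    rw [hinv, mgc, Matrix.mul_smul, Matrix.smul_mul]
  rw [h1, Matrix.exp_conj _ _ hU, hinv, mgc]
  congr 2
  rw [← Matrix.diagonal_smul, Matrix.exp_diagonal]
  congr 1
  funext j
  rw [Pi.coe_exp, ← Complex.exp_eq_exp_ℂ]
  show Complex.exp (Complex.I * _) = _
  rw [mul_comm]

/-- `U = V diag(z) V*` with `|z_j| = 1` -/
lemma diag_unitary (hN : 0 < N) (U : BFSS.SU N) : ∃ (V : BFSS.SU N) (x : Fin N → ℝ),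
    U.val = mgc V.val (Matrix.diagonal fun j => Complex.exp ((x j : ℂ) * Complex.I)) := by
  have hU : U.val ∈ unitary (Matrix (Fin N) (Fin N) ℂ) :=
    (Matrix.mem_specialUnitaryGroup_iff.1 U.2).1
  obtain ⟨K, hK, hKU⟩ := mad_log U.val hU
  obtain ⟨V, hV⟩ := mg_phase hN (hK.eigenvectorUnitary : Matrix (Fin N) (Fin N) ℂ)
    hK.eigenvectorUnitary.2
  have h1 : mgc (hK.eigenvectorUnitary : Matrix (Fin N) (Fin N) ℂ)
      (Matrix.diagonal fun j => ((hK.eigenvalues j : ℝ) : ℂ)) = K := by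
    have h2 := hK.spectral_theorem
    rw [Unitary.conjStarAlgAut_apply] at h2
    exact h2.symm
  refine ⟨V, hK.eigenvalues, ?_⟩
  rw [← exp_mgc, hV, h1, hKU]

end LogS

variable {N d : ℕ} {F : Type*} [NormedAddCommGroup F] [InnerProductSpace ℂ F]

open LogS in
/-- **LH1 Log** -/
theorem log_stmt (M : BFSS.Model N d F) : LogStmt M := by
  refine ⟨1 / (N + 1), Real.pi / 2, by positivity, by positivity, fun U hU => ?_⟩
  rcases Nat.eq_zero_or_pos N with hN | hN
  · subst hN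
    refine ⟨0, Subsingleton.elim _ _, ?_⟩
    rw [norm_zero]
    exact mul_nonneg (by positivity) (fn_nonneg _)
  obtain ⟨V, x, hx⟩ := diag_unitary hN U
  set z : Fin N → ℂ := fun j => Complex.exp ((x j : ℂ) * Complex.I) with hz
  set μ : Fin N → ℝ := fun j => (z j).arg with hμ
  have hz1 : ∀ j, ‖z j‖ = 1 := fun j => Complex.norm_exp_ofReal_mul_I _
  have hμz : ∀ j, Complex.exp ((μ j : ℂ) * Complex.I) = z j := by
    intro j
    have h := Complex.norm_mul_exp_arg_mul_I (z j)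
    rw [hz1 j, Complex.ofReal_one, one_mul] at h
    exact h
  have hμa : ∀ j, |μ j| ≤ Real.pi / 2 * ‖z j - 1‖ := by
    intro j
    have h := LogS.abs_le (Complex.abs_arg_le_pi (z j))
    rw [hμz j] at h
    exact h
  have hfn : fn (U.val - 1) = Real.sqrt (∑ j, ‖z j - 1‖ ^ 2) := by
    have h1 : U.val - 1 = mgc V.val (Matrix.diagonal fun j => z j - 1) := by
      have h2 : (Matrix.diagonal fun j => z j - 1) = Matrix.diagonal z - 1 := by
        rw [← Matrix.diagonal_one, Matrix.diagonal_sub]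
      rw [h2, mgc_sub, mgc_one, hx]
    rw [h1, fn_mgc, fn_diag]
  have hle : ∀ j, ‖z j - 1‖ ≤ fn (U.val - 1) := by
    intro j
    rw [hfn]
    apply Real.le_sqrt_of_sq_le
    exact Finset.single_le_sum (f := fun j => ‖z j - 1‖ ^ 2) (fun _ _ => sq_nonneg _)
      (Finset.mem_univ j)
  have hdet : Complex.exp (((∑ j, μ j : ℝ) : ℂ) * Complex.I) = 1 := by
    have h1 := (Matrix.mem_specialUnitaryGroup_iff.1 U.2).2
    have h2 : U.val.det = ∏ j, z j := by
      rw [hx, mgc, Matrix.det_mul, Matrix.det_mul, Matrix.det_diagonal, mul_right_comm,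
        ← Matrix.det_mul, (mg_unit V).2, Matrix.det_one, one_mul]
    rw [h2] at h1
    rw [← h1, Complex.ofReal_sum, Finset.sum_mul, Complex.exp_sum]
    exact Finset.prod_congr rfl fun j _ => hμz j
  have hsum : ∑ j, μ j = 0 := by
    rw [Complex.exp_eq_one_iff] at hdet
    obtain ⟨n, hn⟩ := hdet
    have h1 : ∑ j, μ j = n * (2 * Real.pi) := by
      have h2 : ((∑ j, μ j : ℝ) : ℂ) = ((n * (2 * Real.pi) : ℝ) : ℂ) := by
        apply mul_right_cancel₀ Complex.I_ne_zero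
        rw [hn]
        push_cast
        ring
      exact_mod_cast h2
    have hπ := Real.pi_pos
    have h3 : |∑ j, μ j| < 2 * Real.pi := by
      calc |∑ j, μ j| ≤ ∑ j, |μ j| := Finset.abs_sum_le_sum_abs _ _
        _ ≤ ∑ _j : Fin N, Real.pi / 2 * (1 / (N + 1)) := by
            refine Finset.sum_le_sum fun j _ => (hμa j).trans ?_
            have := (hle j).trans hU
            gcongr
        _ = Real.pi / 2 * (N / (N + 1)) := by
            rw [Finset.sum_const, Finset.card_univ, Fintype.card_fin, nsmul_eq_mul]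
            ring
        _ ≤ Real.pi / 2 * 1 := by
            have h4 : (N : ℝ) / (N + 1) ≤ 1 := by
              rw [div_le_one (by positivity)]
              linarith
            gcongr
        _ < 2 * Real.pi := by linarith
    rw [h1, abs_mul, abs_of_pos (by positivity : 0 < 2 * Real.pi)] at h3
    have h5 : |(n : ℝ)| < 1 := by
      by_contra hcon
      push Not at hcon
      nlinarith
    have h6 : n = 0 := by
      rw [← Int.cast_abs] at h5
      have h7 : |n| < 1 := by exact_mod_cast h5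
      exact Int.abs_lt_one_iff.1 h7
    rw [h1, h6]
    simp
  set K : Matrix (Fin N) (Fin N) ℂ := mgc V.val (Matrix.diagonal fun j => (μ j : ℂ)) with hK
  have hKU : NormedSpace.exp (Complex.I • K) = U.val := by
    rw [hK, exp_mgc, hx]
    congr 2
    funext j
    exact hμz j
  have hKh : K.conjTranspose = K := by
    rw [hK, mgc, Matrix.conjTranspose_mul, Matrix.conjTranspose_mul,
      Matrix.conjTranspose_conjTranspose, Matrix.diagonal_conjTranspose, Matrix.mul_assoc]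
    congr 3
    funext j
    rw [Pi.star_apply, RCLike.star_def, Complex.conj_ofReal]
  have hKt : K.trace = 0 := by
    rw [hK, mgc, Matrix.trace_mul_comm, ← Matrix.mul_assoc, (mg_unit V).1, Matrix.one_mul,
      Matrix.trace_diagonal, ← Complex.ofReal_sum, hsum, Complex.ofReal_zero]
  have hreal : ∀ A, (M.T A * K).trace = (((M.T A * K).trace.re : ℝ) : ℂ) := by
    intro A
    symm
    rw [← Complex.conj_eq_iff_re]
    have h1 : (M.T A * K).conjTranspose.trace = star (M.T A * K).trace :=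
      Matrix.trace_conjTranspose _
    rw [Matrix.conjTranspose_mul, M.T_hermitian, hKh, Matrix.trace_mul_comm] at h1
    exact h1.symm
  let ξ : EuclideanSpace ℝ (Fin d) := WithLp.toLp 2 fun A => (M.T A * K).trace.re
  have hξ : ∑ A, (ξ A : ℂ) • M.T A = K := by
    have h1 := mad_complete M hN K
    rw [hKt, zero_div, zero_smul, add_zero] at h1
    rw [h1]
    refine Finset.sum_congr rfl fun A _ => ?_
    rw [hreal A]
  refine ⟨ξ, ?_, ?_⟩
  · rw [eT, hξ, hKU]
  · have h1 := ExpLip.fn_lin M ξ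
    rw [← h1, hξ, fn_I, hK, fn_mgc, fn_diag, hfn]
    have hπ := Real.pi_pos
    rw [← Real.sqrt_sq (by positivity : 0 ≤ Real.pi / 2), ← Real.sqrt_mul (sq_nonneg _),
      Finset.mul_sum]
    apply Real.sqrt_le_sqrt
    refine Finset.sum_le_sum fun j _ => ?_
    rw [Complex.norm_real, Real.norm_eq_abs, ← mul_pow]
    exact pow_le_pow_left₀ (abs_nonneg _) (hμa j) 2

end Vale.Agent.P353.AN.LW
end

section

/-! # P353, all `N`, block LOW, LH3: Haar measure dominates Lebesgue measure in the exponential chart (helper378) -/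

open MeasureTheory Filter Topology
open scoped ContDiff ENNReal NNReal

namespace Vale.Agent.P353.AN.LW

open Vale.Agent.P353.Z Vale.Agent.P353.Z.U Vale.Agent.P353.Z.AN Vale.Agent.P353.AN.G

namespace HL

variable {N d : ℕ} {F : Type*} [NormedAddCommGroup F] [InnerProductSpace ℂ F]

/-- the matrix as a Euclidean vector -/
noncomputable def vv (X : Matrix (Fin N) (Fin N) ℂ) : EuclideanSpace ℂ (Fin N × Fin N) :=
  WithLp.toLp 2 fun p => X p.1 p.2

theorem fn_vv (X : Matrix (Fin N) (Fin N) ℂ) : fn X = ‖vv X‖ := by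
  unfold fn
  rw [EuclideanSpace.norm_eq, Fintype.sum_prod_type]
  rfl

theorem fn_add (X Y : Matrix (Fin N) (Fin N) ℂ) : fn (X + Y) ≤ fn X + fn Y := by
  rw [fn_vv, fn_vv, fn_vv]
  exact norm_add_le (vv X) (vv Y)

theorem fn_neg (X : Matrix (Fin N) (Fin N) ℂ) : fn (-X) = fn X := by
  unfold fn
  simp only [Matrix.neg_apply, norm_neg]

theorem fn_cont : Continuous (fn : Matrix (Fin N) (Fin N) ℂ → ℝ) := by
  unfold fn
  refine Real.continuous_sqrt.comp ?_
  refine continuous_finsetSum _ fun j _ => continuous_finsetSum _ fun k _ => ?_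
  exact (continuous_norm.comp ((continuous_apply k).comp (continuous_apply j))).pow 2

theorem fn_sq (X : Matrix (Fin N) (Fin N) ℂ) :
    ((∑ j, ∑ k, ‖X j k‖ ^ 2 : ℝ) : ℂ) = (star X * X).trace := by
  rw [Matrix.trace]
  push_cast
  rw [Finset.sum_comm]
  refine Finset.sum_congr rfl fun k _ => ?_
  rw [Matrix.diag_apply, Matrix.mul_apply]
  refine Finset.sum_congr rfl fun j _ => ?_
  rw [Matrix.star_apply, Complex.star_def, Complex.conj_mul']

theorem fn_mul (U : BFSS.SU N) (X : Matrix (Fin N) (Fin N) ℂ) : fn (U.val * X) = fn X := by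
  have h : star U.val * U.val = 1 :=
    Matrix.mem_unitaryGroup_iff'.1 (Matrix.mem_specialUnitaryGroup_iff.1 U.2).1
  have h1 : ((∑ j, ∑ k, ‖(U.val * X) j k‖ ^ 2 : ℝ) : ℂ) = ((∑ j, ∑ k, ‖X j k‖ ^ 2 : ℝ) : ℂ) := by
    rw [fn_sq, fn_sq, star_mul, mul_assoc, ← mul_assoc (star U.val), h, one_mul]
  unfold fn
  rw [Complex.ofReal_injective h1]

/-- Lipschitz images of sets in `ℝ^d` -/
theorem vol_image {s : Set (EuclideanSpace ℝ (Fin d))} {K : ℝ≥0}
    {g : EuclideanSpace ℝ (Fin d) → EuclideanSpace ℝ (Fin d)} (hg : LipschitzOnWith K g s) :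
    (volume : Measure (EuclideanSpace ℝ (Fin d))) (g '' s) ≤ (K : ℝ≥0∞) ^ (d : ℝ) * volume s := by
  have h0 : (volume : Measure (EuclideanSpace ℝ (Fin d))) =
      Measure.addHaarScalarFactor (volume : Measure (EuclideanSpace ℝ (Fin d)))
        (μH[(Module.finrank ℝ (EuclideanSpace ℝ (Fin d)) : ℝ)]) •
        (μH[(Module.finrank ℝ (EuclideanSpace ℝ (Fin d)) : ℝ)]) :=
    Measure.isAddLeftInvariant_eq_smul _ _
  have h1 := hg.hausdorffMeasure_image_le
    (d := (Module.finrank ℝ (EuclideanSpace ℝ (Fin d)) : ℝ)) (Nat.cast_nonneg _)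
  have hd : (Module.finrank ℝ (EuclideanSpace ℝ (Fin d)) : ℝ) = (d : ℝ) := by
    rw [finrank_euclideanSpace_fin]
  have h2 : (K : ℝ≥0∞) ^ (Module.finrank ℝ (EuclideanSpace ℝ (Fin d)) : ℝ) =
      (K : ℝ≥0∞) ^ (d : ℝ) := by rw [hd]
  rw [h2] at h1
  generalize Measure.addHaarScalarFactor (volume : Measure (EuclideanSpace ℝ (Fin d)))
        (μH[(Module.finrank ℝ (EuclideanSpace ℝ (Fin d)) : ℝ)]) = c at h0
  rw [h0, Measure.smul_apply, Measure.smul_apply]
  simp only [ENNReal.smul_def, smul_eq_mul]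
  calc _ ≤ _ * ((K : ℝ≥0∞) ^ (d : ℝ) *
        (μH[(Module.finrank ℝ (EuclideanSpace ℝ (Fin d)) : ℝ)]) s) := mul_le_mul_right h1 _
    _ = _ := by ring

end HL

open HL in
/-- **LH3** -/
theorem hl_stmt {N d : ℕ} {F : Type*} [NormedAddCommGroup F] [InnerProductSpace ℂ F]
    (M : BFSS.Model N d F) (h1 : LogStmt M) (h2 : ExpLipStmt M) : HLStmt M := by
  obtain ⟨δ, C₁, hδ, hC₁, hlog⟩ := h1
  obtain ⟨hmem, hcont, hzero, ρ₀, c, C₀, hρ₀, hc, hC₀, hlip⟩ := h2
  -- the exponential as a map into the group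
  let e : EuclideanSpace ℝ (Fin d) → BFSS.SU N := fun ξ => ⟨eT M ξ, hmem ξ⟩
  have he : Continuous e := hcont.subtype_mk _
  have hev : ∀ ξ, (e ξ).val = eT M ξ := fun _ => rfl
  -- radii
  let δ' : ℝ := min (δ / 2) (ρ₀ / (2 * C₁))
  have hδ' : 0 < δ' := lt_min (by positivity) (by positivity)
  let ρ : ℝ := min ρ₀ (δ' / C₀)
  have hρ : 0 < ρ := lt_min hρ₀ (by positivity)
  have hρρ : ρ ≤ ρ₀ := min_le_left _ _
  have hCρ : C₀ * ρ ≤ δ' := by
    have : ρ ≤ δ' / C₀ := min_le_right _ _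
    rw [le_div_iff₀ hC₀] at this
    linarith
  -- the neighbourhood
  let W : Set (BFSS.SU N) := {U | fn (U.val - 1) < δ'}
  have hWo : IsOpen W := by
    refine isOpen_lt ?_ continuous_const
    exact fn_cont.comp (continuous_subtype_val.sub continuous_const)
  have hW1 : (1 : BFSS.SU N) ∈ W := by
    show fn ((1 : BFSS.SU N).val - 1) < δ'
    have : ((1 : BFSS.SU N).val - 1 : Matrix (Fin N) (Fin N) ℂ) = 0 := sub_self _
    rw [this]
    have h0 : fn (0 : Matrix (Fin N) (Fin N) ℂ) = 0 := by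
      unfold fn; simp
    rw [h0]; exact hδ'
  have hWpos : 0 < hm N W := hWo.measure_pos _ ⟨1, hW1⟩
  have hWfin : hm N W ≠ ⊤ := measure_ne_top _ _
  -- constants
  let K : ℝ≥0 := ⟨C₀ / c, by positivity⟩
  let B : ℝ≥0∞ := (volume : Measure (EuclideanSpace ℝ (Fin d))) (Metric.closedBall 0 ρ₀)
  have hB : B ≠ ⊤ := (isCompact_closedBall _ _).measure_lt_top.ne
  let D : ℝ≥0∞ := (K : ℝ≥0∞) ^ (d : ℝ) * B / hm N W
  have hD : D ≠ ⊤ := by
    refine ENNReal.div_ne_top (ENNReal.mul_ne_top ?_ hB) hWpos.ne'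
    exact ENNReal.rpow_ne_top_of_nonneg (Nat.cast_nonneg _) ENNReal.coe_ne_top
  refine ⟨ρ, D.toReal + 1, hρ, by positivity, fun E hE => ?_⟩
  -- the counted sets
  let S : Set (BFSS.SU N × EuclideanSpace ℝ (Fin d)) :=
    {p | ‖p.2‖ ≤ ρ₀ ∧ p.1 * e p.2 ∈ E}
  have hS : MeasurableSet S := by
    refine MeasurableSet.inter ?_ ?_
    · exact measurableSet_le (measurable_norm.comp measurable_snd) measurable_const
    · exact (measurable_fst.mul (he.measurable.comp measurable_snd)) hE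
  let A : Set (EuclideanSpace ℝ (Fin d)) := {ξ | ‖ξ‖ ≤ ρ ∧ ∃ U ∈ E, U.val = eT M ξ}
  have hA : ∀ ξ ∈ A, ‖ξ‖ ≤ ρ ∧ e ξ ∈ E := by
    rintro ξ ⟨h, U, hU, hUe⟩
    refine ⟨h, ?_⟩
    have : e ξ = U := Subtype.ext hUe.symm
    rw [this]; exact hU
  -- key estimate
  have key : ∀ U ∈ W, volume A ≤ (K : ℝ≥0∞) ^ (d : ℝ) * volume (Prod.mk U ⁻¹' S) := by
    intro U hU
    let T : Set (EuclideanSpace ℝ (Fin d)) :=
      {ξ | (‖ξ‖ ≤ ρ₀ ∧ U * e ξ ∈ E) ∧ ∃ ξ', ‖ξ'‖ ≤ ρ ∧ e ξ' = U * e ξ}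
    have hT : ∀ ξ, ∃ ξ' : EuclideanSpace ℝ (Fin d), ξ ∈ T → ‖ξ'‖ ≤ ρ ∧ e ξ' = U * e ξ := by
      intro ξ
      by_cases h : ξ ∈ T
      · obtain ⟨ξ', h'⟩ := h.2
        exact ⟨ξ', fun _ => h'⟩
      · exact ⟨0, fun h' => absurd h' h⟩
    choose g hg using hT
    have hgl : LipschitzOnWith K g T := by
      refine LipschitzOnWith.of_dist_le_mul fun ξ hξ ζ hζ => ?_
      obtain ⟨a1, a2⟩ := hg ξ hξ
      obtain ⟨b1, b2⟩ := hg ζ hζ
      have h3 := (hlip (g ξ) (g ζ) (a1.trans hρρ) (b1.trans hρρ)).1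
      have h4 := (hlip ξ ζ hξ.1.1 hζ.1.1).2
      have h5 : fn (eT M (g ξ) - eT M (g ζ)) = fn (eT M ξ - eT M ζ) := by
        have e1 : eT M (g ξ) = U.val * eT M ξ := congrArg Subtype.val a2
        have e2 : eT M (g ζ) = U.val * eT M ζ := congrArg Subtype.val b2
        rw [e1, e2, ← mul_sub, fn_mul]
      rw [dist_eq_norm, dist_eq_norm]
      show ‖g ξ - g ζ‖ ≤ C₀ / c * ‖ξ - ζ‖
      rw [div_mul_eq_mul_div, le_div_iff₀ hc]
      rw [h5] at h3
      linarith
    have hsub : A ⊆ g '' T := by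
      intro ξ' hξ'
      obtain ⟨hn, hE'⟩ := hA ξ' hξ'
      have h3 : fn ((U⁻¹ * e ξ').val - 1) ≤ 2 * δ' := by
        rw [← fn_mul U]
        have e1 : U.val * ((U⁻¹ * e ξ').val - 1) = eT M ξ' - U.val := by
          rw [mul_sub, mul_one]
          congr 1
          exact congrArg Subtype.val (mul_inv_cancel_left U (e ξ'))
        rw [e1]
        have e2 : eT M ξ' - U.val = (eT M ξ' - eT M 0) + -(U.val - 1) := by
          rw [hzero]; abel
        rw [e2]
        refine (fn_add _ _).trans ?_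
        rw [fn_neg]
        have h4 := (hlip ξ' 0 (hn.trans hρρ) (by simpa using hρ₀.le)).2
        rw [sub_zero] at h4
        have h5 : C₀ * ‖ξ'‖ ≤ δ' := (mul_le_mul_of_nonneg_left hn hC₀.le).trans hCρ
        have h6 : fn (U.val - 1) < δ' := hU
        linarith
      have h7 : 2 * δ' ≤ δ := by
        have : δ' ≤ δ / 2 := min_le_left _ _
        linarith
      obtain ⟨ξ, hξ1, hξ2⟩ := hlog (U⁻¹ * e ξ') (h3.trans h7)
      have hξ3 : ‖ξ‖ ≤ ρ₀ := by
        have h8 : δ' ≤ ρ₀ / (2 * C₁) := min_le_right _ _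
        rw [le_div_iff₀ (by positivity)] at h8
        have h9 := mul_le_mul_of_nonneg_left h3 hC₁.le
        linarith
      have hξ4 : e ξ' = U * e ξ := by
        have : U⁻¹ * e ξ' = e ξ := Subtype.ext hξ1
        rw [← this, mul_inv_cancel_left]
      have hξT : ξ ∈ T := ⟨⟨hξ3, hξ4 ▸ hE'⟩, ξ', hn, hξ4⟩
      refine ⟨ξ, hξT, ?_⟩
      obtain ⟨a1, a2⟩ := hg ξ hξT
      have h10 := (hlip (g ξ) ξ' (a1.trans hρρ) (hn.trans hρρ)).1
      have e3 : eT M (g ξ) - eT M ξ' = 0 := by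
        have : e (g ξ) = e ξ' := a2.trans hξ4.symm
        rw [sub_eq_zero]; exact congrArg Subtype.val this
      rw [e3] at h10
      have h0 : fn (0 : Matrix (Fin N) (Fin N) ℂ) = 0 := by
        unfold fn; simp
      rw [h0] at h10
      have h11 : ‖g ξ - ξ'‖ ≤ 0 := by
        by_contra hh
        push Not at hh
        have := mul_pos hc hh
        linarith
      exact sub_eq_zero.1 (norm_le_zero_iff.1 h11)
    calc volume A ≤ volume (g '' T) := measure_mono hsub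
      _ ≤ (K : ℝ≥0∞) ^ (d : ℝ) * volume T := vol_image hgl
      _ ≤ _ := mul_le_mul_right (measure_mono fun ξ hξ => hξ.1) _
  -- Tonelli
  have hton : ∫⁻ U, volume (Prod.mk U ⁻¹' S) ∂(hm N) ≤ B * hm N E := by
    rw [← Measure.prod_apply hS, Measure.prod_apply_symm hS]
    have h3 : ∀ ξ : EuclideanSpace ℝ (Fin d), hm N ((fun U => (U, ξ)) ⁻¹' S) ≤
        (Metric.closedBall (0 : EuclideanSpace ℝ (Fin d)) ρ₀).indicator (fun _ => hm N E) ξ := by
      intro ξ
      by_cases h : ξ ∈ Metric.closedBall (0 : EuclideanSpace ℝ (Fin d)) ρ₀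
      · rw [Set.indicator_of_mem h]
        calc _ ≤ hm N ((fun U => U * e ξ) ⁻¹' E) := measure_mono fun U hU => hU.2
          _ = hm N E := measure_preimage_mul_right _ _ _
      · rw [Set.indicator_of_notMem h]
        have : (fun U : BFSS.SU N => (U, ξ)) ⁻¹' S = ∅ := by
          ext U
          simp only [Set.mem_preimage, Set.mem_empty_iff_false, iff_false]
          intro hU
          exact h (mem_closedBall_zero_iff.2 hU.1)
        rw [this, measure_empty]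
    refine (lintegral_mono h3).trans ?_
    rw [lintegral_indicator Metric.isClosed_closedBall.measurableSet, lintegral_const,
      Measure.restrict_apply MeasurableSet.univ, Set.univ_inter, mul_comm]
  -- integrate over `W`
  have hint : volume A * hm N W ≤ (K : ℝ≥0∞) ^ (d : ℝ) * (B * hm N E) := by
    calc volume A * hm N W = ∫⁻ _ in W, volume A ∂(hm N) := by
          rw [lintegral_const, Measure.restrict_apply MeasurableSet.univ, Set.univ_inter]
      _ ≤ ∫⁻ U in W, (K : ℝ≥0∞) ^ (d : ℝ) * volume (Prod.mk U ⁻¹' S) ∂(hm N) :=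
          setLIntegral_mono' hWo.measurableSet key
      _ ≤ ∫⁻ U, (K : ℝ≥0∞) ^ (d : ℝ) * volume (Prod.mk U ⁻¹' S) ∂(hm N) :=
          setLIntegral_le_lintegral _ _
      _ = (K : ℝ≥0∞) ^ (d : ℝ) * ∫⁻ U, volume (Prod.mk U ⁻¹' S) ∂(hm N) :=
          lintegral_const_mul _ (measurable_measure_prodMk_left hS)
      _ ≤ _ := mul_le_mul_right hton _
  have hfin : volume A ≤ D * hm N E := by
    have h3 : volume A ≤ (K : ℝ≥0∞) ^ (d : ℝ) * (B * hm N E) / hm N W :=
      (ENNReal.le_div_iff_mul_le (Or.inl hWpos.ne') (Or.inl hWfin)).2 hint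
    refine h3.trans (le_of_eq ?_)
    show _ = (K : ℝ≥0∞) ^ (d : ℝ) * B / hm N W * hm N E
    rw [← mul_assoc, ENNReal.div_eq_inv_mul, ENNReal.div_eq_inv_mul]
    ring
  refine hfin.trans (mul_le_mul_left ?_ _)
  rw [ENNReal.ofReal_add ENNReal.toReal_nonneg zero_le_one, ENNReal.ofReal_toReal hD]
  exact le_self_add

end Vale.Agent.P353.AN.LW
end

section

/-! # P353, all `N`, block LOW, part H: `GoodStmt` (helper862) -/

open MeasureTheory Filter Topology
open scoped ContDiff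

namespace Vale.Agent.P353.AN.LW.LH4

open Vale.Agent.P353.Z Vale.Agent.P353.Z.U Vale.Agent.P353.Z.AN Vale.Agent.P353.AN.G
  Vale.Agent.P353.AN.LW

variable {N d dh dm : ℕ} {F : Type*} [NormedAddCommGroup F] [InnerProductSpace ℂ F]

/-- the parameter set -/
def Kc (φ : Spl dh dm d) (ρ δ : ℝ) : Set (EuclideanSpace ℝ (Fin d)) :=
  {ξ | ‖ξ‖ ≤ ρ ∧ ∀ B : Fin dm, |ξ (φ (Sum.inr B))| ≤ δ}

theorem isCompact_Kc (φ : Spl dh dm d) (ρ δ : ℝ) : IsCompact (Kc φ ρ δ) := by
  have h1 : IsCompact (Metric.closedBall (0 : EuclideanSpace ℝ (Fin d)) ρ) :=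
    isCompact_closedBall _ _
  refine h1.of_isClosed_subset ?_ fun ξ hξ => by
    rw [mem_closedBall_zero_iff]
    exact hξ.1
  have h2 : Kc φ ρ δ = {ξ : EuclideanSpace ℝ (Fin d) | ‖ξ‖ ≤ ρ} ∩
      ⋂ B : Fin dm, {ξ | |ξ (φ (Sum.inr B))| ≤ δ} := by
    ext ξ
    simp [Kc]
  rw [h2]
  refine (isClosed_le continuous_norm continuous_const).inter (isClosed_iInter fun B => ?_)
  refine isClosed_le (Continuous.abs ?_) continuous_const
  fun_prop

/-- volume of a box -/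
theorem vol_box (r : Fin d → ℝ) :
    (volume : Measure (EuclideanSpace ℝ (Fin d))) {ξ | ∀ A, |ξ A| ≤ r A} =
      ∏ A, ENNReal.ofReal (2 * r A) := by
  have h1 : {ξ : EuclideanSpace ℝ (Fin d) | ∀ A, |ξ A| ≤ r A} =
      (@WithLp.ofLp 2 (Fin d → ℝ)) ⁻¹' (Set.Icc (fun A => - r A) r) := by
    ext ξ
    simp only [Set.mem_ofPred_eq, Set.mem_preimage, Set.mem_Icc, Pi.le_def]
    constructor
    · intro h
      exact ⟨fun A => (abs_le.1 (h A)).1, fun A => (abs_le.1 (h A)).2⟩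
    · intro h A
      exact abs_le.2 ⟨h.1 A, h.2 A⟩
  rw [h1, (PiLp.volume_preserving_ofLp (Fin d)).measure_preimage
    measurableSet_Icc.nullMeasurableSet, Real.volume_Icc_pi]
  refine Finset.prod_congr rfl fun A _ => ?_
  congr 1
  ring

theorem good_stmt (M : BFSS.Model N d F) (h2 : ExpLipStmt M) (h3 : HLStmt M) : GoodStmt M := by
  intro dh dm φ
  obtain ⟨hSU, hcont, -, -⟩ := h2
  obtain ⟨ρ, C, hρ, hC, hH⟩ := h3
  refine ⟨ρ, hρ, fun ρ' hρ' hle => ?_⟩
  set s : ℝ := 1 / ((d : ℝ) + 1) with hs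
  have hs0 : 0 < s := by positivity
  have hsd : (d : ℝ) * s ^ 2 ≤ 1 := by
    rw [hs, div_pow, one_pow, mul_one_div, div_le_one (by positivity)]
    nlinarith [(Nat.cast_nonneg d : (0 : ℝ) ≤ d)]
  refine ⟨(2 * (ρ' * s)) ^ dh * (2 * s) ^ dm / C, by positivity, fun δ hδ hδ' => ?_⟩
  set E : Set (BFSS.SU N) := {U : BFSS.SU N |
    ∃ ξ : EuclideanSpace ℝ (Fin d), ‖ξ‖ ≤ ρ' ∧ (∀ B : Fin dm, |ξ (φ (Sum.inr B))| ≤ δ) ∧ U.val = eT M ξ}
    with hE
  set g : EuclideanSpace ℝ (Fin d) → BFSS.SU N := fun ξ => ⟨eT M ξ, hSU ξ⟩ with hg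
  have hgc : Continuous g := Continuous.subtype_mk hcont _
  have hEi : E = g '' Kc φ ρ' δ := by
    ext U
    simp only [hE, Set.mem_ofPred_eq, Set.mem_image, Kc, hg]
    constructor
    · rintro ⟨ξ, h1, h2, h3⟩
      exact ⟨ξ, ⟨h1, h2⟩, Subtype.ext h3.symm⟩
    · rintro ⟨ξ, ⟨h1, h2⟩, h3⟩
      exact ⟨ξ, h1, h2, by rw [← h3]⟩
  have hEm : MeasurableSet E := by
    rw [hEi]
    exact ((isCompact_Kc φ ρ' δ).image hgc).isClosed.measurableSet
  refine ⟨?_, hEm⟩
  have h4 := hH E hEm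
  have h5 : (volume : Measure (EuclideanSpace ℝ (Fin d))) {ξ | ∀ A, |ξ A| ≤
      Sum.elim (fun _ => ρ' * s) (fun _ => δ * s) (φ.symm A)} ≤
      volume {ξ : EuclideanSpace ℝ (Fin d) | ‖ξ‖ ≤ ρ ∧ ∃ U ∈ E, U.val = eT M ξ} := by
    refine measure_mono fun ξ hξ => ?_
    have hξ' : ∀ A, |ξ A| ≤ ρ' * s := by
      intro A
      refine (hξ A).trans ?_
      rcases φ.symm A with a | a
      · simp
      · simp only [Sum.elim_inr]
        gcongr
    have hn : ‖ξ‖ ≤ ρ' := by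
      rw [EuclideanSpace.norm_eq]
      refine Real.sqrt_le_iff.2 ⟨hρ'.le, ?_⟩
      calc ∑ A, ‖ξ A‖ ^ 2 ≤ ∑ _A : Fin d, (ρ' * s) ^ 2 := by
            refine Finset.sum_le_sum fun A _ => ?_
            rw [Real.norm_eq_abs]
            exact pow_le_pow_left₀ (abs_nonneg _) (hξ' A) 2
        _ = ρ' ^ 2 * (d * s ^ 2) := by
            rw [Finset.sum_const, Finset.card_univ, Fintype.card_fin, nsmul_eq_mul]
            ring
        _ ≤ ρ' ^ 2 := mul_le_of_le_one_right (sq_nonneg _) hsd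
    refine ⟨hn.trans hle, g ξ, ?_, rfl⟩
    rw [hEi]
    refine ⟨ξ, ⟨hn, fun B => ?_⟩, rfl⟩
    have := hξ (φ (Sum.inr B))
    rw [Equiv.symm_apply_apply, Sum.elim_inr] at this
    refine this.trans (mul_le_of_le_one_right hδ.le ?_)
    rw [hs, div_le_one (by positivity)]
    linarith [(Nat.cast_nonneg d : (0 : ℝ) ≤ d)]
  rw [vol_box] at h5
  have h6 : (∏ A, ENNReal.ofReal (2 * Sum.elim (fun _ => ρ' * s) (fun _ => δ * s) (φ.symm A))) =
      ENNReal.ofReal ((2 * (ρ' * s)) ^ dh * (2 * (δ * s)) ^ dm) := by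
    rw [← ENNReal.ofReal_prod_of_nonneg (fun A _ => by
      rcases φ.symm A with a | a
      · simp only [Sum.elim_inl]
        positivity
      · simp only [Sum.elim_inr]
        positivity)]
    congr 1
    rw [← Equiv.prod_comp φ, Fintype.prod_sum_type]
    simp
  rw [h6] at h5
  have h7 := h5.trans h4
  have h8 : hm N E = ENNReal.ofReal ((hm N).real E) := by
    rw [measureReal_def, ENNReal.ofReal_toReal (measure_ne_top _ _)]
  rw [h8, ← ENNReal.ofReal_mul hC.le, ENNReal.ofReal_le_ofReal_iff (by positivity)] at h7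
  calc (2 * (ρ' * s)) ^ dh * (2 * s) ^ dm / C * δ ^ dm
      = ((2 * (ρ' * s)) ^ dh * (2 * (δ * s)) ^ dm) / C := by
        rw [show 2 * (δ * s) = (2 * s) * δ by ring, mul_pow (2 * s)]
        ring
    _ ≤ (C * (hm N).real E) / C := by gcongr
    _ = (hm N).real E := by field_simp

end Vale.Agent.P353.AN.LW.LH4
end

section

/-! # P353, all `N`, block LOW: LH7 Near (helper491)

Elements that move a regular point of a compact set close to another one are close to the normaliser of the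
splitting. -/

open MeasureTheory Filter Topology
open scoped ContDiff

namespace Vale.Agent.P353.AN.LW.Near

open Vale.Agent.P353.Z Vale.Agent.P353.Z.U Vale.Agent.P353.Z.AN Vale.Agent.P353.AN.G

variable {N d dh dm r ds : ℕ} {F : Type*} [NormedAddCommGroup F] [InnerProductSpace ℂ F]

/-- the three kinds of colour indices -/
theorem nr_cases (φ : Spl dh dm d) (ψ : Spz r ds dh) (A : Fin d) :
    (∃ a, A = φ (Sum.inl (ψ (Sum.inl a)))) ∨ (∃ b, A = φ (Sum.inl (ψ (Sum.inr b)))) ∨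
      ∃ c, A = φ (Sum.inr c) := by
  obtain ⟨q, rfl⟩ := φ.surjective A
  rcases q with B | c
  · obtain ⟨q, rfl⟩ := ψ.surjective B
    rcases q with a | b
    · exact Or.inl ⟨a, rfl⟩
    · exact Or.inr (Or.inl ⟨b, rfl⟩)
  · exact Or.inr (Or.inr ⟨c, rfl⟩)

theorem nr_sum (φ : Spl dh dm d) (g : Fin d → ℝ) :
    ∑ A, g A = ∑ B, g (φ (Sum.inl B)) + ∑ C, g (φ (Sum.inr C)) := by
  rw [← φ.sum_comp, Fintype.sum_sum_type]

theorem nr_Ez_h (φ : Spl dh dm d) (ψ : Spz r ds dh) (η : Cfg r) (i : Fin 9) (A : Fin dh) :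
    Ez φ ψ η (i, φ (Sum.inl A)) = Vale.Agent.P353.Z.AN.cmb ψ η 0 (i, A) := by
  show Sum.elim (fun A => Vale.Agent.P353.Z.AN.cmb ψ η 0 (i, A)) _ (φ.symm (φ (Sum.inl A))) = _
  rw [Equiv.symm_apply_apply]
  rfl

theorem nr_Ez_m (φ : Spl dh dm d) (ψ : Spz r ds dh) (η : Cfg r) (i : Fin 9) (C : Fin dm) :
    Ez φ ψ η (i, φ (Sum.inr C)) = 0 := by
  show Sum.elim _ (fun B => Fin.lastCases (motive := fun _ => ℝ) 0 (fun j => (0 : Wsp dm) (j, B)) i)
    (φ.symm (φ (Sum.inr C))) = _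
  rw [Equiv.symm_apply_apply]
  show Fin.lastCases (motive := fun _ => ℝ) 0 (fun j => (0 : Wsp dm) (j, C)) i = 0
  refine Fin.lastCases ?_ (fun j => ?_) i
  · rw [Fin.lastCases_last]
  · rw [Fin.lastCases_castSucc]
    rfl

theorem nr_Ez_s (φ : Spl dh dm d) (ψ : Spz r ds dh) (η : Cfg r) (i : Fin 9) (b : Fin ds) :
    Ez φ ψ η (i, φ (Sum.inl (ψ (Sum.inr b)))) = 0 := by
  rw [nr_Ez_h]
  show Sum.elim _ (fun b => (0 : Cfg ds) (i, b)) (ψ.symm (ψ (Sum.inr b))) = _
  rw [Equiv.symm_apply_apply]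
  rfl

/-- `z` commutes with `h` -/
theorem nr_fz (S : Setup d F) {φ : Spl dh dm d} {ψ : Spz r ds dh} (hsub : S.IsSub φ) (hZ : IsZ S φ ψ)
    (D : Fin d) (a : Fin r) (B : Fin dh) :
    S.f D (φ (Sum.inl (ψ (Sum.inl a)))) (φ (Sum.inl B)) = 0 := by
  rw [S.f_cyc]
  obtain ⟨q, rfl⟩ := φ.surjective D
  rcases q with D' | c
  · exact hZ a B D'
  · exact hsub _ B c

/-- bracket of `Ez η` with an element of `h` -/
theorem nr_fe (S : Setup d F) {φ : Spl dh dm d} {ψ : Spz r ds dh} (hsub : S.IsSub φ) (hZ : IsZ S φ ψ)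
    (η : Cfg r) (i : Fin 9) (D E : Fin d) (B : Fin dh) :
    S.f D E (φ (Sum.inl B)) * Ez φ ψ η (i, E) = 0 := by
  rcases nr_cases φ ψ E with ⟨a, rfl⟩ | ⟨b, rfl⟩ | ⟨c, rfl⟩
  · rw [nr_fz S hsub hZ, zero_mul]
  · rw [nr_Ez_s, mul_zero]
  · rw [nr_Ez_m, mul_zero]

/-- an element of the colour group moving `Ez η` to `Ez η'`, `η'` regular, maps `h` into `h` -/
theorem nr_mh (S : Setup d F) {φ : Spl dh dm d} {ψ : Spz r ds dh} (hsub : S.IsSub φ) (hZ : IsZ S φ ψ)
    {O : Matrix (Fin d) (Fin d) ℝ} (hO : O ∈ S.grp) {η η' : Cfg r} (he : ro O (Ez φ ψ η) = Ez φ ψ η')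
    (hη : RegP S φ ψ η') (C : Fin dm) (B : Fin dh) : O (φ (Sum.inr C)) (φ (Sum.inl B)) = 0 := by
  have hv : (fun C : Fin dm => O (φ (Sum.inr C)) (φ (Sum.inl B))) = 0 := by
    refine hη _ fun i => ?_
    funext B'
    have h1 : (Dz S φ ψ η' i).mulVec (fun C : Fin dm => O (φ (Sum.inr C)) (φ (Sum.inl B))) B' =
        ∑ C' : Fin d, ∑ A' : Fin d, S.f (φ (Sum.inr B')) A' C' * Ez φ ψ η' (i, A') *
          O C' (φ (Sum.inl B)) := by
      rw [nr_sum φ]
      have h2 : ∀ C' : Fin dh, ∑ A' : Fin d, S.f (φ (Sum.inr B')) A' (φ (Sum.inl C')) *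
          Ez φ ψ η' (i, A') * O (φ (Sum.inl C')) (φ (Sum.inl B)) = 0 := by
        intro C'
        refine Finset.sum_eq_zero fun A' _ => ?_
        rw [nr_fe S hsub hZ, zero_mul]
      rw [Finset.sum_eq_zero fun C' _ => h2 C', zero_add]
      show ∑ C, (Dz S φ ψ η' i) B' C * O (φ (Sum.inr C)) (φ (Sum.inl B)) = _
      refine Finset.sum_congr rfl fun C' _ => ?_
      rw [nr_sum φ]
      have h3 : ∀ A' : Fin dm, S.f (φ (Sum.inr B')) (φ (Sum.inr A')) (φ (Sum.inr C')) *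
          Ez φ ψ η' (i, φ (Sum.inr A')) * O (φ (Sum.inr C')) (φ (Sum.inl B)) = 0 := by
        intro A'
        rw [nr_Ez_m, mul_zero, zero_mul]
      rw [Finset.sum_eq_zero fun A' _ => h3 A', add_zero]
      show (∑ A, S.f (φ (Sum.inr B')) (φ (Sum.inl A)) (φ (Sum.inr C')) * Vale.Agent.P353.Z.AN.cmb ψ η' 0 (i, A)) *
        O (φ (Sum.inr C')) (φ (Sum.inl B)) = _
      rw [Finset.sum_mul]
      refine Finset.sum_congr rfl fun A _ => ?_
      rw [nr_Ez_h]
    have h4 : ∀ A', Ez φ ψ η' (i, A') = ∑ E, O A' E * Ez φ ψ η (i, E) := by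
      intro A'
      rw [← he, grp_ro_apply]
    have h5 : ∑ C' : Fin d, ∑ A' : Fin d, S.f (φ (Sum.inr B')) A' C' * Ez φ ψ η' (i, A') *
          O C' (φ (Sum.inl B)) =
        ∑ E, Ez φ ψ η (i, E) * ∑ A', ∑ C', O A' E * O C' (φ (Sum.inl B)) *
          S.f (φ (Sum.inr B')) A' C' := by
      simp only [h4, Finset.mul_sum, Finset.sum_mul]
      rw [Finset.sum_comm]
      conv_lhs =>
        enter [2, A']
        rw [Finset.sum_comm]
      rw [Finset.sum_comm]
      refine Finset.sum_congr rfl fun E _ => Finset.sum_congr rfl fun A' _ =>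
        Finset.sum_congr rfl fun C' _ => ?_
      ring
    rw [h1, h5]
    show _ = (0 : ℝ)
    simp only [grp_f S hO.1 hO.2.1, Finset.mul_sum]
    refine Finset.sum_eq_zero fun E _ => Finset.sum_eq_zero fun D _ => ?_
    have h6 := nr_fe S hsub hZ η i D E B
    linear_combination O (φ (Sum.inr B')) D * h6
  exact congrFun hv C

/-- an element of the colour group preserving `h` maps `z` into `z` -/
theorem nr_sz (S : Setup d F) {φ : Spl dh dm d} {ψ : Spz r ds dh} (hsub : S.IsSub φ) (hZ : IsZ S φ ψ)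
    (hL : Less S φ ψ) {O : Matrix (Fin d) (Fin d) ℝ} (hO : O ∈ S.grp)
    (hhm : ∀ (B : Fin dh) (C : Fin dm), O (φ (Sum.inl B)) (φ (Sum.inr C)) = 0) (b : Fin ds) (a : Fin r) :
    O (φ (Sum.inl (ψ (Sum.inr b)))) (φ (Sum.inl (ψ (Sum.inl a)))) = 0 := by
  have hv : (fun b : Fin ds => O (φ (Sum.inl (ψ (Sum.inr b)))) (φ (Sum.inl (ψ (Sum.inl a))))) = 0 := by
    refine hL _ fun B' C' => ?_
    have hT := grp_transpose S hO
    have h1 := grp_f S hT.1 hT.2.1 (φ (Sum.inl (ψ (Sum.inl a)))) (φ (Sum.inl (ψ (Sum.inr B'))))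
      (φ (Sum.inl (ψ (Sum.inr C'))))
    simp only [Matrix.transpose_apply] at h1
    have h2 : ∑ B, ∑ C, O (φ (Sum.inl (ψ (Sum.inr B')))) B * O (φ (Sum.inl (ψ (Sum.inr C')))) C *
        S.f (φ (Sum.inl (ψ (Sum.inl a)))) B C = 0 := by
      refine Finset.sum_eq_zero fun B _ => Finset.sum_eq_zero fun C _ => ?_
      obtain ⟨q, rfl⟩ := φ.surjective B
      rcases q with B | B
      · obtain ⟨p, rfl⟩ := φ.surjective C
        rcases p with C | C
        · rw [hZ, mul_zero]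
        · rw [hsub, mul_zero]
      · rw [hhm, zero_mul, zero_mul]
    rw [h2, nr_sum φ, ← ψ.sum_comp, Fintype.sum_sum_type] at h1
    have h3 : ∀ A' : Fin r, O (φ (Sum.inl (ψ (Sum.inl A')))) (φ (Sum.inl (ψ (Sum.inl a)))) *
        S.f (φ (Sum.inl (ψ (Sum.inl A')))) (φ (Sum.inl (ψ (Sum.inr B'))))
          (φ (Sum.inl (ψ (Sum.inr C')))) = 0 := by
      intro A'
      rw [hZ, mul_zero]
    have h4 : ∀ A' : Fin dm, O (φ (Sum.inr A')) (φ (Sum.inl (ψ (Sum.inl a)))) *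
        S.f (φ (Sum.inr A')) (φ (Sum.inl (ψ (Sum.inr B')))) (φ (Sum.inl (ψ (Sum.inr C')))) = 0 := by
      intro A'
      rw [S.f_cyc, hsub, mul_zero]
    rw [Finset.sum_eq_zero fun A' _ => h3 A', Finset.sum_eq_zero fun A' _ => h4 A', zero_add,
      add_zero] at h1
    rw [h1]
    refine Finset.sum_congr rfl fun A _ => mul_comm _ _
  exact congrFun hv b

/-- exact version: an element moving a regular point of `z` to a regular point of `z` is in the normaliser -/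
theorem nr_exact (M : BFSS.Model N d F) (S : Setup d F) (hS : Rep M S) {φ : Spl dh dm d}
    {ψ : Spz r ds dh} (hsub : S.IsSub φ) (hZ : IsZ S φ ψ) (hL : Less S φ ψ) {η η' : Cfg r}
    (hη : RegP S φ ψ η) (hη' : RegP S φ ψ η') (U : BFSS.SU N)
    (he : M.act U (Ez φ ψ η) = Ez φ ψ η') : Nrm M φ ψ U := by
  have hO : actO M U ∈ S.grp := actO_mem M S hS U
  have hT := grp_transpose S hO
  rw [act_eq_ro] at he
  have he' : ro (actO M U).transpose (Ez φ ψ η') = Ez φ ψ η := by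
    rw [← he, ← grp_ro_mul, hO.1, grp_ro_one]
  have m1 : ∀ C B, actO M U (φ (Sum.inr C)) (φ (Sum.inl B)) = 0 := nr_mh S hsub hZ hO he hη'
  have m2 : ∀ B C, actO M U (φ (Sum.inl B)) (φ (Sum.inr C)) = 0 := fun B C =>
    nr_mh S hsub hZ hT he' hη C B
  have m3 : ∀ b a, actO M U (φ (Sum.inl (ψ (Sum.inr b)))) (φ (Sum.inl (ψ (Sum.inl a)))) = 0 :=
    nr_sz S hsub hZ hL hO m2
  have m4 : ∀ a b, actO M U (φ (Sum.inl (ψ (Sum.inl a)))) (φ (Sum.inl (ψ (Sum.inr b)))) = 0 :=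
    fun a b => nr_sz S hsub hZ hL hT (fun B C => m1 C B) b a
  intro A B hAB
  show actO M U A B = 0
  rcases nr_cases φ ψ A with ⟨a, rfl⟩ | ⟨b, rfl⟩ | ⟨c, rfl⟩ <;>
    rcases nr_cases φ ψ B with ⟨a', rfl⟩ | ⟨b', rfl⟩ | ⟨c', rfl⟩
  · exact absurd (by simp [bl]) hAB
  · exact m4 _ _
  · exact m2 _ _
  · exact m3 _ _
  · exact absurd (by simp [bl]) hAB
  · exact m2 _ _
  · exact m1 _ _
  · exact m1 _ _
  · exact absurd (by simp [bl]) hAB

theorem nr_Ez_cont (φ : Spl dh dm d) (ψ : Spz r ds dh) : Continuous fun η : Cfg r => Ez φ ψ η := by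
  refine (PiLp.continuous_toLp 2 _).comp (continuous_pi fun p => ?_)
  obtain ⟨i, A⟩ := p
  show Continuous fun η : Cfg r => Ez φ ψ η (i, A)
  rcases nr_cases φ ψ A with ⟨a, rfl⟩ | ⟨b, rfl⟩ | ⟨c, rfl⟩
  · have h1 : ∀ η : Cfg r, Ez φ ψ η (i, φ (Sum.inl (ψ (Sum.inl a)))) = η (i, a) := by
      intro η
      rw [nr_Ez_h]
      show Sum.elim (fun a => η (i, a)) _ (ψ.symm (ψ (Sum.inl a))) = _
      rw [Equiv.symm_apply_apply]
      rfl
    simp only [h1]
    exact (EuclideanSpace.proj (𝕜 := ℝ) (i, a)).continuous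
  · simp only [nr_Ez_s]
    exact continuous_const
  · simp only [nr_Ez_m]
    exact continuous_const

theorem nr_fn_cont : Continuous (fn : Matrix (Fin N) (Fin N) ℂ → ℝ) := by
  unfold fn
  refine Real.continuous_sqrt.comp ?_
  refine continuous_finsetSum _ fun j _ => continuous_finsetSum _ fun k _ => ?_
  exact ((continuous_id.matrix_elem j k).norm).pow 2

theorem nr_fn_zero : fn (0 : Matrix (Fin N) (Fin N) ℂ) = 0 := by
  simp [fn]

/-- **LH7 Near** -/
theorem near_stmt (M : BFSS.Model N d F) : NearStmt M := by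
  intro S hS dh dm r ds φ ψ hsub hZ hL K hK hreg ε hε
  obtain ⟨-, -, -, -, -, hact, -⟩ := act_stmt M
  -- the bad set
  have hc1 : ∀ U₀ : BFSS.SU N, Continuous fun p : BFSS.SU N × Cfg r × Cfg r =>
      fn (p.1.val - U₀.val) := fun U₀ =>
    nr_fn_cont.comp ((continuous_subtype_val.comp continuous_fst).sub continuous_const)
  have hBc : IsClosed {p : BFSS.SU N × Cfg r × Cfg r |
      ∀ U₀ : BFSS.SU N, Nrm M φ ψ U₀ → ε ≤ fn (p.1.val - U₀.val)} := by
    simp only [Set.ofPred_forall]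
    exact isClosed_iInter fun U₀ => isClosed_iInter fun _ =>
      isClosed_le continuous_const (hc1 U₀)
  have hAc : IsCompact (((Set.univ : Set (BFSS.SU N)) ×ˢ (K ×ˢ K)) ∩
      {p : BFSS.SU N × Cfg r × Cfg r |
        ∀ U₀ : BFSS.SU N, Nrm M φ ψ U₀ → ε ≤ fn (p.1.val - U₀.val)}) :=
    (isCompact_univ.prod (hK.prod hK)).inter_right hBc
  have hg : Continuous fun p : BFSS.SU N × Cfg r × Cfg r =>
      ‖M.act p.1 (Ez φ ψ p.2.1) - Ez φ ψ p.2.2‖ := by
    have h1 : Continuous fun p : BFSS.SU N × Cfg r × Cfg r => (p.1, Ez φ ψ p.2.1) :=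
      continuous_fst.prodMk ((nr_Ez_cont φ ψ).comp (continuous_fst.comp continuous_snd))
    exact ((hact.comp h1).sub
      ((nr_Ez_cont φ ψ).comp (continuous_snd.comp continuous_snd))).norm
  rcases Set.eq_empty_or_nonempty (((Set.univ : Set (BFSS.SU N)) ×ˢ (K ×ˢ K)) ∩
      {p : BFSS.SU N × Cfg r × Cfg r |
        ∀ U₀ : BFSS.SU N, Nrm M φ ψ U₀ → ε ≤ fn (p.1.val - U₀.val)}) with hemp | hne
  · refine ⟨1, one_pos, fun U η η' hη hη' _ => ?_⟩
    by_contra hcon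
    push Not at hcon
    have : (U, η, η') ∈ (((Set.univ : Set (BFSS.SU N)) ×ˢ (K ×ˢ K)) ∩
      {p : BFSS.SU N × Cfg r × Cfg r |
        ∀ U₀ : BFSS.SU N, Nrm M φ ψ U₀ → ε ≤ fn (p.1.val - U₀.val)}) :=
      ⟨⟨Set.mem_univ _, hη, hη'⟩, fun U₀ h0 => (hcon U₀ h0).le⟩
    rw [hemp] at this
    exact this
  · obtain ⟨p₀, hp₀, hmin⟩ := hAc.exists_isMinOn hne hg.continuousOn
    have hpos : 0 < ‖M.act p₀.1 (Ez φ ψ p₀.2.1) - Ez φ ψ p₀.2.2‖ := by
      rcases (norm_nonneg (M.act p₀.1 (Ez φ ψ p₀.2.1) - Ez φ ψ p₀.2.2)).lt_or_eq with h | h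
      · exact h
      · exfalso
        have h0 : M.act p₀.1 (Ez φ ψ p₀.2.1) = Ez φ ψ p₀.2.2 :=
          sub_eq_zero.1 (norm_eq_zero.1 h.symm)
        have hN := nr_exact M S hS hsub hZ hL (hreg _ hp₀.1.2.1) (hreg _ hp₀.1.2.2) p₀.1 h0
        have h2 := hp₀.2 p₀.1 hN
        rw [sub_self, nr_fn_zero] at h2
        exact absurd h2 (not_le.2 hε)
    refine ⟨‖M.act p₀.1 (Ez φ ψ p₀.2.1) - Ez φ ψ p₀.2.2‖ / 2, by positivity,
      fun U η η' hη hη' hle => ?_⟩
    by_contra hcon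
    push Not at hcon
    have hmem : (U, η, η') ∈ (((Set.univ : Set (BFSS.SU N)) ×ˢ (K ×ˢ K)) ∩
      {p : BFSS.SU N × Cfg r × Cfg r |
        ∀ U₀ : BFSS.SU N, Nrm M φ ψ U₀ → ε ≤ fn (p.1.val - U₀.val)}) :=
      ⟨⟨Set.mem_univ _, hη, hη'⟩, fun U₀ h0 => (hcon U₀ h0).le⟩
    have h3 := isMinOn_iff.1 hmin (U, η, η') hmem
    dsimp only at h3
    linarith

end Vale.Agent.P353.AN.LW.Near

namespace Vale.Agent.P353.AN.LW

open Vale.Agent.P353.Z Vale.Agent.P353.Z.U Vale.Agent.P353.Z.AN Vale.Agent.P353.AN.G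

variable {N d : ℕ} {F : Type*} [NormedAddCommGroup F] [InnerProductSpace ℂ F]

/-- **LH7 Near** -/
theorem near_stmt (M : BFSS.Model N d F) : NearStmt M := Near.near_stmt M

end Vale.Agent.P353.AN.LW
end
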