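import Mathlib
import Vale.Agent.P353.BdA.B1

set_option linter.all false

section

/-! # P353, all `N`, block C: test function calculus on the slice (`CalcA`) -/

open MeasureTheory Filter Topology
open scoped ContDiff

namespace Vale.Agent.P353.Z.AN

namespace CA232

section gen

variable {V W F : Type*} [NormedAddCommGroup V] [NormedSpace ℝ V] [NormedAddCommGroup W] [NormedSpace ℝ W]
  [NormedAddCommGroup F] [InnerProductSpace ℂ F]

/-- the function on the product -/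
private def un (v : V → W → F) (p : V × W) : F := v p.1 p.2

private lemma hasy {v : V → W → F} (h : ContDiff ℝ ∞ (un v)) (y : V) (w : W) :
    HasFDerivAt (fun y' => v y' w) ((fderiv ℝ (un v) (y, w)).comp (ContinuousLinearMap.inl ℝ V W)) y := by
  have h1 : HasFDerivAt (un v) (fderiv ℝ (un v) (y, w)) (y, w) :=
    (h.differentiable (by simp) (y, w)).hasFDerivAt
  exact HasFDerivAt.comp (g := un v) (f := fun e : V => (e, w)) y h1 (hasFDerivAt_prodMk_left y w)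

private lemma hasw {v : V → W → F} (h : ContDiff ℝ ∞ (un v)) (y : V) (w : W) :
    HasFDerivAt (v y) ((fderiv ℝ (un v) (y, w)).comp (ContinuousLinearMap.inr ℝ V W)) w := by
  have h1 : HasFDerivAt (un v) (fderiv ℝ (un v) (y, w)) (y, w) :=
    (h.differentiable (by simp) (y, w)).hasFDerivAt
  exact HasFDerivAt.comp (g := un v) (f := fun e : W => (y, e)) w h1 (hasFDerivAt_prodMk_right y w)

private lemma dfy {v : V → W → F} (h : ContDiff ℝ ∞ (un v)) (y : V) (w : W) (e : V) :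
    fderiv ℝ (fun y' => v y' w) y e = fderiv ℝ (un v) (y, w) (e, 0) := by
  rw [(hasy h y w).fderiv]
  rfl

private lemma dfw {v : V → W → F} (h : ContDiff ℝ ∞ (un v)) (y : V) (w : W) (e : W) :
    fderiv ℝ (v y) w e = fderiv ℝ (un v) (y, w) (0, e) := by
  rw [(hasw h y w).fderiv]
  rfl

private lemma smd {u : V × W → F} (h : ContDiff ℝ ∞ u) (e : V × W) :
    ContDiff ℝ ∞ (fun p => fderiv ℝ u p e) :=
  (h.fderiv_right (m := ∞) (by simp)).clm_apply contDiff_const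

private lemma ddf {u : V × W → F} (h : ContDiff ℝ ∞ u) (e e' p : V × W) :
    fderiv ℝ (fun q => fderiv ℝ u q e) p e' = fderiv ℝ (fderiv ℝ u) p e' e := by
  have h1 : DifferentiableAt ℝ (fderiv ℝ u) p :=
    (h.fderiv_right (m := ∞) (by simp)).differentiable (by simp) p
  have h2 := h1.hasFDerivAt.clm_apply (hasFDerivAt_const e p)
  rw [h2.fderiv]
  simp

private lemma symm2 {u : V × W → F} (h : ContDiff ℝ ∞ u) (e e' p : V × W) :
    fderiv ℝ (fun q => fderiv ℝ u q e) p e' = fderiv ℝ (fun q => fderiv ℝ u q e') p e := by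
  rw [ddf h, ddf h]
  have h1 : IsSymmSndFDerivAt ℝ u p := (h.contDiffAt (x := p)).isSymmSndFDerivAt (by
    simp only [minSmoothness_of_isRCLikeNormedField]
    exact WithTop.coe_le_coe.2 le_top)
  exact h1 e' e

omit [NormedSpace ℝ V] [NormedSpace ℝ W] [InnerProductSpace ℂ F] in
private lemma slyc {v : V → W → F} (h : HasCompactSupport (un v)) (w : W) : HasCompactSupport fun y => v y w := by
  refine HasCompactSupport.intro (h.isCompact.image continuous_fst) ?_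
  intro y hy
  by_contra h0
  exact hy ⟨(y, w), subset_tsupport _ h0, rfl⟩

omit [NormedSpace ℝ V] [NormedSpace ℝ W] [InnerProductSpace ℂ F] in
private lemma slwc {v : V → W → F} (h : HasCompactSupport (un v)) (y : V) : HasCompactSupport (v y) := by
  refine HasCompactSupport.intro (h.isCompact.image continuous_snd) ?_
  intro w hw
  by_contra h0
  exact hw ⟨(y, w), subset_tsupport _ h0, rfl⟩

omit [NormedSpace ℝ V] [NormedSpace ℝ W] in
private lemma cmono {G H : Type*} [Zero G] [Zero H] {u : V × W → G} {v : V × W → H} (h : HasCompactSupport u)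
    (h0 : ∀ p, u p = 0 → v p = 0) : HasCompactSupport v := by
  refine h.mono ?_
  intro p hp
  simp only [Function.mem_support] at hp ⊢
  exact fun h1 => hp (h0 p h1)

end gen

variable {dh dm : ℕ} {F : Type*} [NormedAddCommGroup F] [InnerProductSpace ℂ F]

private lemma eqy {v : Cfg dh → Wsp dm → F} (h : Tst2 v) (i : Fin 9) (A : Fin dh) (y : Cfg dh) (w : Wsp dm) :
    py i A v y w = fderiv ℝ (un v) (y, w) (EuclideanSpace.single (i, A) 1, 0) := dfy h.1 y w _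

private lemma eqw {v : Cfg dh → Wsp dm → F} (h : Tst2 v) (j : Fin 8) (B : Fin dm) (y : Cfg dh) (w : Wsp dm) :
    pw j B v y w = fderiv ℝ (un v) (y, w) (0, EuclideanSpace.single (j, B) 1) := dfw h.1 y w _

private lemma tpy {v : Cfg dh → Wsp dm → F} (h : Tst2 v) (i : Fin 9) (A : Fin dh) : Tst2 (py i A v) := by
  have h1 : (fun p : Cfg dh × Wsp dm => py i A v p.1 p.2) =
      fun p => fderiv ℝ (un v) p (EuclideanSpace.single (i, A) 1, 0) := funext fun p => eqy h i A p.1 p.2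
  refine ⟨?_, ?_⟩
  · rw [h1]; exact smd h.1 _
  · rw [h1]; exact HasCompactSupport.fderiv_apply (𝕜 := ℝ) h.2 _

private lemma tpw {v : Cfg dh → Wsp dm → F} (h : Tst2 v) (j : Fin 8) (B : Fin dm) : Tst2 (pw j B v) := by
  have h1 : (fun p : Cfg dh × Wsp dm => pw j B v p.1 p.2) =
      fun p => fderiv ℝ (un v) p (0, EuclideanSpace.single (j, B) 1) := funext fun p => eqw h j B p.1 p.2
  refine ⟨?_, ?_⟩
  · rw [h1]; exact smd h.1 _
  · rw [h1]; exact HasCompactSupport.fderiv_apply (𝕜 := ℝ) h.2 _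

omit [InnerProductSpace ℂ F] in
private lemma clos {v : Cfg dh → Wsp dm → F} {Y : Cfg dh} {ε R : ℝ} (hs : Sup2 Y ε R v) (p : Cfg dh × Wsp dm)
    (hp : p ∈ tsupport (un v)) : ‖p.1 - R • Y‖ ≤ ε * R ∧ ‖p.2‖ ≤ ε * R := by
  have hc : IsClosed {p : Cfg dh × Wsp dm | ‖p.1 - R • Y‖ ≤ ε * R ∧ ‖p.2‖ ≤ ε * R} := by
    refine IsClosed.inter ?_ ?_
    · exact isClosed_le (continuous_fst.sub continuous_const).norm continuous_const
    · exact isClosed_le continuous_snd.norm continuous_const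
  have h1 : Function.support (un v) ⊆ {p : Cfg dh × Wsp dm | ‖p.1 - R • Y‖ ≤ ε * R ∧ ‖p.2‖ ≤ ε * R} :=
    fun q hq => hs q.1 q.2 hq
  exact closure_minimal h1 hc hp

private lemma sup_of {v : Cfg dh → Wsp dm → F} {Y : Cfg dh} {ε R : ℝ} (hs : Sup2 Y ε R v) (e : Cfg dh × Wsp dm)
    (p : Cfg dh × Wsp dm) (hp : fderiv ℝ (un v) p e ≠ 0) : ‖p.1 - R • Y‖ ≤ ε * R ∧ ‖p.2‖ ≤ ε * R := by
  apply clos hs p
  apply support_fderiv_subset ℝ
  intro h0
  exact hp (by rw [h0]; rfl)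

private lemma dify {v : Cfg dh → Wsp dm → F} (h : Tst2 v) (y : Cfg dh) (w : Wsp dm) :
    DifferentiableAt ℝ (fun y' => v y' w) y := (hasy h.1 y w).differentiableAt

private lemma difw {v : Cfg dh → Wsp dm → F} (h : Tst2 v) (y : Cfg dh) (w : Wsp dm) :
    DifferentiableAt ℝ (v y) w := (hasw h.1 y w).differentiableAt

/-- coordinate functional -/
private noncomputable def prk (dm : ℕ) (k : Fin 8 × Fin dm) : Wsp dm →L[ℝ] ℝ :=
  EuclideanSpace.proj k

private lemma prk_apply (k : Fin 8 × Fin dm) (w : Wsp dm) : prk dm k w = w k := rfl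

private lemma csm {V : Type*} [NormedAddCommGroup V] [NormedSpace ℝ V] (f : V → F) (x e : V) (c : ℂ)
    (h : DifferentiableAt ℝ f x) : fderiv ℝ (fun x => c • f x) x e = c • fderiv ℝ f x e := by
  have h1 : HasFDerivAt (fun x => c • f x) (c • fderiv ℝ f x) x := h.hasFDerivAt.const_smul c
  rw [h1.fderiv]
  rfl

private lemma ccl {V : Type*} [NormedAddCommGroup V] [NormedSpace ℝ V] (f : V → F) (x e : V) (T : F →L[ℂ] F)
    (h : DifferentiableAt ℝ f x) : fderiv ℝ (fun x => T (f x)) x e = T (fderiv ℝ f x e) := by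
  have h1 : HasFDerivAt (fun x => (T.restrictScalars ℝ) (f x)) ((T.restrictScalars ℝ).comp (fderiv ℝ f x)) x :=
    (T.restrictScalars ℝ).hasFDerivAt.comp x h.hasFDerivAt
  rw [show (fun x => T (f x)) = (fun x => (T.restrictScalars ℝ) (f x)) from rfl, h1.fderiv]
  rfl

private lemma cmu {V : Type*} [NormedAddCommGroup V] [NormedSpace ℝ V] (f : V → F) (c : V → ℝ) (x e : V)
    (hc : DifferentiableAt ℝ c x) (h : DifferentiableAt ℝ f x) :
    fderiv ℝ (fun x => ((c x : ℝ) : ℂ) • f x) x e =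
      ((c x : ℝ) : ℂ) • fderiv ℝ f x e + ((fderiv ℝ c x e : ℝ) : ℂ) • f x := by
  have h1 := hc.hasFDerivAt.smul h.hasFDerivAt
  have h2 : (fun x => ((c x : ℝ) : ℂ) • f x) = fun x => c x • f x := by
    funext x
    rw [Complex.coe_smul]
  rw [h2]
  have h3 := h1.fderiv
  have h4 : fderiv ℝ (fun x => c x • f x) x = c x • fderiv ℝ f x + (fderiv ℝ c x).smulRight (f x) := h3
  rw [h4]
  simp [Complex.coe_smul]

end CA232

open CA232

/-- **C-CalcA** -/
theorem calcA (dh dm : ℕ) (F : Type*) [NormedAddCommGroup F] [InnerProductSpace ℂ F] : CalcA dh dm F where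
  sly := fun v h w => ⟨h.1.comp (contDiff_id.prodMk contDiff_const), slyc h.2 w⟩
  slw := fun v h y => ⟨h.1.comp (contDiff_const.prodMk contDiff_id), slwc h.2 y⟩
  zero := ⟨contDiff_const, HasCompactSupport.zero⟩
  add := fun u v hu hv => ⟨hu.1.add hv.1, hu.2.add hv.2⟩
  sub := fun u v hu hv => ⟨hu.1.sub hv.1, by
    have h := hu.2.add hv.2.neg
    refine cmono h fun p hp => ?_
    have h1 : u p.1 p.2 + -v p.1 p.2 = 0 := hp
    show u p.1 p.2 - v p.1 p.2 = 0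
    rw [sub_eq_add_neg, h1]⟩
  smul := fun c v h => ⟨h.1.const_smul c, cmono h.2 fun p hp => by
    show c • v p.1 p.2 = 0
    have : v p.1 p.2 = 0 := hp
    rw [this, smul_zero]⟩
  clm := fun T v h => ⟨(T.restrictScalars ℝ).contDiff.comp h.1, cmono h.2 fun p hp => by
    show T (v p.1 p.2) = 0
    have : v p.1 p.2 = 0 := hp
    rw [this, map_zero]⟩
  mul := fun c v hc h => ⟨by
    have h2 : (fun p : Cfg dh × Wsp dm => mul2 c v p.1 p.2) = fun p => c p.1 p.2 • v p.1 p.2 := by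
      funext p
      rw [mul2, Complex.coe_smul]
    rw [h2]
    exact hc.smul h.1, cmono h.2 fun p hp => by
    show ((c p.1 p.2 : ℝ) : ℂ) • v p.1 p.2 = 0
    have : v p.1 p.2 = 0 := hp
    rw [this, smul_zero]⟩
  mulOn := fun c v K U hK hU hKU hc hv h => ⟨by
    have h2 : (fun p : Cfg dh × Wsp dm => mul2 (fun y _ => c y) v p.1 p.2) = fun p => c p.1 • v p.1 p.2 := by
      funext p
      rw [mul2, Complex.coe_smul]
    rw [h2, contDiff_iff_contDiffAt]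
    intro p
    by_cases hp : p.1 ∈ K
    · have h3 : ContDiffAt ℝ ∞ c p.1 := hc.contDiffAt (hU.mem_nhds (hKU hp))
      exact (h3.comp p contDiffAt_fst).smul h.1.contDiffAt
    · have h3 : (fun q : Cfg dh × Wsp dm => c q.1 • v q.1 q.2) =ᶠ[𝓝 p] fun _ => 0 := by
        have h4 : ∀ᶠ q : Cfg dh × Wsp dm in 𝓝 p, q.1 ∈ Kᶜ :=
          (continuous_fst.continuousAt (x := p)).eventually (hK.isOpen_compl.mem_nhds hp)
        filter_upwards [h4] with q hq
        have : v q.1 q.2 = 0 := by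
          by_contra h0
          exact hq (hv _ _ h0)
        rw [this, smul_zero]
      exact contDiffAt_const.congr_of_eventuallyEq h3, cmono h.2 fun p hp => by
    show ((c p.1 : ℝ) : ℂ) • v p.1 p.2 = 0
    have : v p.1 p.2 = 0 := hp
    rw [this, smul_zero]⟩
  py := fun i A v h => tpy h i A
  pw := fun j B v h => tpw h j B
  neg := fun v h => by
    refine ⟨h.1.comp (contDiff_fst.prodMk contDiff_snd.neg), ?_⟩
    refine HasCompactSupport.intro (h.2.isCompact.image (f := fun p : Cfg dh × Wsp dm => (p.1, -p.2)) (by fun_prop)) ?_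
    intro p hp
    by_contra h0
    exact hp ⟨(p.1, -p.2), subset_tsupport _ h0, by simp⟩
  supy := fun Y ε R i A v h hs y w h0 => by
    rw [eqy h] at h0
    exact sup_of hs _ (y, w) h0
  supw := fun Y ε R j B v h hs y w h0 => by
    rw [eqw h] at h0
    exact sup_of hs _ (y, w) h0
  py_add := fun i A u v hu hv y w => by
    show fderiv ℝ (fun y' => u y' w + v y' w) y _ = _
    rw [show (fun y' => u y' w + v y' w) = (fun y' => u y' w) + (fun y' => v y' w) from rfl,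
      fderiv_add (dify hu y w) (dify hv y w)]
    rfl
  pw_add := fun j B u v hu hv y w => by
    show fderiv ℝ (fun w' => u y w' + v y w') w _ = _
    rw [show (fun w' => u y w' + v y w') = (u y) + (v y) from rfl,
      fderiv_add (difw hu y w) (difw hv y w)]
    rfl
  py_smul := fun i A c v h y w => csm _ y _ c (dify h y w)
  pw_smul := fun j B c v h y w => csm _ w _ c (difw h y w)
  py_clm := fun i A T v h y w => ccl _ y _ T (dify h y w)
  pw_clm := fun j B T v h y w => ccl _ w _ T (difw h y w)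
  py_mw := fun i A k v h y w => csm _ y _ _ (dify h y w)
  pw_mw := fun j B k v h y w => by
    have h1 : DifferentiableAt ℝ (fun w : Wsp dm => w k) w :=
      (prk dm k).differentiableAt
    have h2 : fderiv ℝ (fun w : Wsp dm => w k) w = prk dm k :=
      (prk dm k).fderiv
    have h3 := cmu (v y) (fun w : Wsp dm => w k) w (EuclideanSpace.single (j, B) 1) h1 (difw h y w)
    refine Eq.trans h3 ?_
    rw [h2, prk_apply]
    congr 1
    by_cases hk : k = (j, B)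
    · simp [hk]
    · simp [hk]
  py_mul := fun i A c v h y w hc => cmu _ c y _ hc (dify h y w)
  pw_mul := fun j B c v h y w => csm _ w _ _ (difw h y w)
  comm := fun i A j B v h y w => by
    rw [eqy (tpw h j B), eqw (tpy h i A)]
    have h1 : un (Z.pw j B v) = fun p => fderiv ℝ (un v) p (0, EuclideanSpace.single (j, B) 1) :=
      funext fun p => eqw h j B p.1 p.2
    have h2 : un (Z.py i A v) = fun p => fderiv ℝ (un v) p (EuclideanSpace.single (i, A) 1, 0) :=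
      funext fun p => eqy h i A p.1 p.2
    rw [h1, h2]
    exact symm2 h.1 _ _ _
  py_neg := fun i A v y w => rfl
  pw_neg := fun j B v h y w => by
    have h1 : HasFDerivAt (fun w' : Wsp dm => v y (-w')) ((fderiv ℝ (v y) (-w)).comp (-ContinuousLinearMap.id ℝ (Wsp dm))) w :=
      HasFDerivAt.comp w (difw h y (-w)).hasFDerivAt (hasFDerivAt_id w).neg
    show fderiv ℝ (fun w' : Wsp dm => v y (-w')) w _ = _
    rw [h1.fderiv]
    simp [Z.pw]

end Vale.Agent.P353.Z.AN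
end

section

/-! # P353, all `N`, block C: integration on the slice (`CalcB`) -/

open MeasureTheory Filter Topology
open scoped ContDiff

namespace Vale.Agent.P353.Z.AN

variable {dh dm : ℕ}

namespace CB925

/-- the measure on the slice -/
private noncomputable abbrev mu (dh dm : ℕ) : Measure (Cfg dh × Wsp dm) :=
  (volume : Measure (Cfg dh)).prod (volume : Measure (Wsp dm))

section gen

variable {E : Type*} [NormedAddCommGroup E]

private lemma intSq {v : Cfg dh → Wsp dm → E} (h1 : Continuous fun p : Cfg dh × Wsp dm => v p.1 p.2)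
    (h2 : HasCompactSupport fun p : Cfg dh × Wsp dm => v p.1 p.2) :
    Integrable (fun p : Cfg dh × Wsp dm => ‖v p.1 p.2‖ ^ 2) (mu dh dm) := by
  refine (h1.norm.pow 2).integrable_of_hasCompactSupport ?_
  refine h2.mono ?_
  intro p hp
  simp only [Function.mem_support] at hp ⊢
  intro h0
  exact hp (by simp [h0])

private lemma yw {v : Cfg dh → Wsp dm → E} (h1 : Continuous fun p : Cfg dh × Wsp dm => v p.1 p.2)
    (h2 : HasCompactSupport fun p : Cfg dh × Wsp dm => v p.1 p.2) :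
    Integrable (fun y => nsf (v y)) ∧ ns2 v = ∫ y, nsf (v y) := by
  have h := intSq h1 h2
  refine ⟨h.integral_prod_left, ?_⟩
  rw [ns2, integral_prod _ h]
  rfl

private lemma wy {v : Cfg dh → Wsp dm → E} (h1 : Continuous fun p : Cfg dh × Wsp dm => v p.1 p.2)
    (h2 : HasCompactSupport fun p : Cfg dh × Wsp dm => v p.1 p.2) :
    Integrable (fun w => nsq (fun y => v y w)) ∧ ns2 v = ∫ w, nsq (fun y => v y w) := by
  have h := intSq h1 h2
  refine ⟨h.integral_prod_right, ?_⟩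
  rw [ns2, integral_prod_symm _ h]
  rfl

/-- reflection in `w` -/
private noncomputable def rfe (dh dm : ℕ) : Cfg dh × Wsp dm ≃ᵐ Cfg dh × Wsp dm :=
  (MeasurableEquiv.refl _).prodCongr (MeasurableEquiv.neg _)

private lemma rfe_apply (p : Cfg dh × Wsp dm) : rfe dh dm p = (p.1, -p.2) := rfl

private lemma rfe_mp : MeasurePreserving (rfe dh dm) (mu dh dm) (mu dh dm) := by
  have h1 : MeasurePreserving (fun w : Wsp dm => -w) volume volume :=
    Measure.measurePreserving_neg volume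
  exact (MeasurePreserving.id (volume : Measure (Cfg dh))).prod h1

private lemma int_rfe {G : Type*} [NormedAddCommGroup G] [NormedSpace ℝ G] (f : Cfg dh × Wsp dm → G) :
    ∫ p, f (p.1, -p.2) ∂(mu dh dm) = ∫ p, f p ∂(mu dh dm) := by
  have := rfe_mp (dh := dh) (dm := dm) |>.integral_comp' (g := f)
  exact this

end gen

section ibp

variable {V G : Type*} [NormedAddCommGroup V] [NormedSpace ℝ V] [FiniteDimensional ℝ V] [MeasurableSpace V]
  [BorelSpace V] (μ : Measure V) [μ.IsAddHaarMeasure] [NormedAddCommGroup G] [NormedSpace ℝ G]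

private lemma integral_fderiv_zero (w : V → G) (hw : ContDiff ℝ 1 w) (hc : HasCompactSupport w) (e : V) :
    ∫ x, fderiv ℝ w x e ∂μ = 0 := by
  have h := integral_smul_fderiv_eq_neg_fderiv_smul_of_integrable (μ := μ)
    (f := fun _ : V => (1 : ℝ)) (g := w) (v := e) (𝕜 := ℝ) ?_ ?_ ?_ ?_ ?_
  · simpa using h
  · simp
  · simp only [one_smul]
    exact ((hw.continuous_fderiv (by simp)).clm_apply continuous_const).integrable_of_hasCompactSupport
      (hc.fderiv_apply (𝕜 := ℝ) e)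
  · simp only [one_smul]
    exact hw.continuous.integrable_of_hasCompactSupport hc
  · intro x _; exact differentiableAt_const _
  · intro x _; exact (hw.differentiable (by simp)) x

private lemma integral_inner_fderiv {F : Type*} [NormedAddCommGroup F] [InnerProductSpace ℂ F] (u v : V → F)
    (hu : ContDiff ℝ 1 u) (hv : ContDiff ℝ 1 v) (hc : HasCompactSupport u) (e : V) :
    ∫ x, inner ℂ (fderiv ℝ u x e) (v x) ∂μ = - ∫ x, inner ℂ (u x) (fderiv ℝ v x e) ∂μ := by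
  have hw : ContDiff ℝ 1 (fun x => inner ℂ (u x) (v x)) := hu.inner ℂ hv
  have hcw : HasCompactSupport (fun x => inner ℂ (u x) (v x)) := by
    refine hc.mono ?_
    intro x hx
    simp only [Function.mem_support] at hx ⊢
    intro h0
    exact hx (by simp [h0])
  have h0 := integral_fderiv_zero μ _ hw hcw e
  have hd : ∀ x, fderiv ℝ (fun x => inner ℂ (u x) (v x)) x e =
      inner ℂ (u x) (fderiv ℝ v x e) + inner ℂ (fderiv ℝ u x e) (v x) := fun x =>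
    fderiv_inner_apply ℂ ((hu.differentiable (by simp)) x) ((hv.differentiable (by simp)) x) e
  simp only [hd] at h0
  have hi1 : Integrable (fun x => inner ℂ (u x) (fderiv ℝ v x e)) μ := by
    refine (hu.continuous.inner ((hv.continuous_fderiv (by simp)).clm_apply
      continuous_const)).integrable_of_hasCompactSupport ?_
    refine hc.mono ?_
    intro x hx
    simp only [Function.mem_support] at hx ⊢
    intro h0
    exact hx (by simp [h0])
  have hi2 : Integrable (fun x => inner ℂ (fderiv ℝ u x e) (v x)) μ := by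
    refine ((((hu.continuous_fderiv (by simp)).clm_apply
      continuous_const)).inner hv.continuous).integrable_of_hasCompactSupport ?_
    refine (hc.fderiv_apply (𝕜 := ℝ) e).mono ?_
    intro x hx
    simp only [Function.mem_support] at hx ⊢
    intro h0
    exact hx (by simp [h0])
  rw [integral_add hi1 hi2] at h0
  exact eq_neg_of_add_eq_zero_right h0

end ibp

variable {F : Type*} [NormedAddCommGroup F] [InnerProductSpace ℂ F]

private lemma intIp {u v : Cfg dh → Wsp dm → F} (hu : Tst2 u) (hv : Tst2 v) :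
    Integrable (fun p : Cfg dh × Wsp dm => inner ℂ (u p.1 p.2) (v p.1 p.2)) (mu dh dm) := by
  refine (hu.1.continuous.inner hv.1.continuous).integrable_of_hasCompactSupport ?_
  refine hu.2.mono ?_
  intro p hp
  simp only [Function.mem_support] at hp ⊢
  intro h0
  exact hp (by simp [h0])

private lemma isq {v : Cfg dh → Wsp dm → F} (hv : Tst2 v) :
    Integrable (fun p : Cfg dh × Wsp dm => ‖v p.1 p.2‖ ^ 2) (mu dh dm) := intSq hv.1.continuous hv.2

private lemma leSum {ι : Type} [Fintype ι] (c : ι → ℝ) (u : Cfg dh → Wsp dm → F) (v : ι → Cfg dh → Wsp dm → F)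
    (hu : Tst2 u) (hv : ∀ l, Tst2 (v l)) (h : ∀ y w, ‖u y w‖ ^ 2 ≤ ∑ l, c l * ‖v l y w‖ ^ 2) :
    ns2 u ≤ ∑ l, c l * ns2 (v l) := by
  have h1 : ∑ l, c l * ns2 (v l) = ∫ p, ∑ l, c l * ‖v l p.1 p.2‖ ^ 2 ∂(mu dh dm) := by
    rw [integral_finsetSum]
    · refine Finset.sum_congr rfl fun l _ => ?_
      rw [integral_const_mul]
      rfl
    · intro l _
      exact (isq (hv l)).const_mul _
  rw [h1]
  exact integral_mono (isq hu) (integrable_finsetSum _ fun l _ => (isq (hv l)).const_mul _) fun p => h p.1 p.2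

private lemma ip_wy {u v : Cfg dh → Wsp dm → F} (hu : Tst2 u) (hv : Tst2 v) :
    ip2 u v = ∫ w, ∫ y, inner ℂ (u y w) (v y w) := by
  rw [ip2, integral_prod_symm _ (intIp hu hv)]

private lemma ip_yw {u v : Cfg dh → Wsp dm → F} (hu : Tst2 u) (hv : Tst2 v) :
    ip2 u v = ∫ y, ∫ w, inner ℂ (u y w) (v y w) := by
  rw [ip2, integral_prod _ (intIp hu hv)]

private lemma ip_re {u v : Cfg dh → Wsp dm → F} (hu : Tst2 u) (hv : Tst2 v) :
    (ip2 u v).re = ∫ p, (inner ℂ (u p.1 p.2) (v p.1 p.2)).re ∂(mu dh dm) :=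
  (integral_re (intIp hu hv)).symm

private lemma intRe {u v : Cfg dh → Wsp dm → F} (hu : Tst2 u) (hv : Tst2 v) :
    Integrable (fun p : Cfg dh × Wsp dm => (inner ℂ (u p.1 p.2) (v p.1 p.2)).re) (mu dh dm) :=
  (intIp hu hv).re

private lemma cs {s : ℝ} (hs : 0 < s) {u v : Cfg dh → Wsp dm → F} (hu : Tst2 u) (hv : Tst2 v) :
    2 * |(ip2 u v).re| ≤ s * ns2 u + s⁻¹ * ns2 v := by
  rw [ip_re hu hv]
  have h1 : |∫ p, (inner ℂ (u p.1 p.2) (v p.1 p.2)).re ∂(mu dh dm)| ≤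
      ∫ p, |(inner ℂ (u p.1 p.2) (v p.1 p.2)).re| ∂(mu dh dm) := abs_integral_le_integral_abs
  have h2 : ∫ p, 2 * |(inner ℂ (u p.1 p.2) (v p.1 p.2)).re| ∂(mu dh dm) ≤
      ∫ p, (s * ‖u p.1 p.2‖ ^ 2 + s⁻¹ * ‖v p.1 p.2‖ ^ 2) ∂(mu dh dm) := by
    refine integral_mono ((intRe hu hv).abs.const_mul _)
      (((isq hu).const_mul _).add ((isq hv).const_mul _)) fun p => ?_
    have h3 : |(inner ℂ (u p.1 p.2) (v p.1 p.2)).re| ≤ ‖u p.1 p.2‖ * ‖v p.1 p.2‖ :=
      (Complex.abs_re_le_norm _).trans (norm_inner_le_norm _ _)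
    have h4 : 2 * (‖u p.1 p.2‖ * ‖v p.1 p.2‖) ≤ s * ‖u p.1 p.2‖ ^ 2 + s⁻¹ * ‖v p.1 p.2‖ ^ 2 := by
      have h5 : 0 ≤ s⁻¹ * (s * ‖u p.1 p.2‖ - ‖v p.1 p.2‖) ^ 2 := by positivity
      have h6 : s⁻¹ * (s * ‖u p.1 p.2‖ - ‖v p.1 p.2‖) ^ 2 =
          s * ‖u p.1 p.2‖ ^ 2 + s⁻¹ * ‖v p.1 p.2‖ ^ 2 - 2 * (‖u p.1 p.2‖ * ‖v p.1 p.2‖) := by
        field_simp
        ring
      linarith
    exact (mul_le_mul_of_nonneg_left h3 zero_le_two).trans h4
  rw [integral_const_mul, integral_add ((isq hu).const_mul _) ((isq hv).const_mul _), integral_const_mul,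
    integral_const_mul] at h2
  exact (mul_le_mul_of_nonneg_left h1 zero_le_two).trans h2

private lemma nsAdd {u v : Cfg dh → Wsp dm → F} (hu : Tst2 u) (hv : Tst2 v) :
    ns2 (fun y w => u y w + v y w) = ns2 u + ns2 v + 2 * (ip2 u v).re := by
  rw [ip_re hu hv]
  have h1 : ns2 (fun y w => u y w + v y w) =
      ∫ p, ((‖u p.1 p.2‖ ^ 2 + ‖v p.1 p.2‖ ^ 2) + 2 * (inner ℂ (u p.1 p.2) (v p.1 p.2)).re) ∂(mu dh dm) := by
    rw [ns2]
    refine integral_congr_ae (Eventually.of_forall fun p => ?_)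
    have := norm_add_sq (𝕜 := ℂ) (u p.1 p.2) (v p.1 p.2)
    simp only [RCLike.re_eq_complex_re] at this
    simp only [this]
    ring
  have hi : Integrable (fun p : Cfg dh × Wsp dm => ‖u p.1 p.2‖ ^ 2 + ‖v p.1 p.2‖ ^ 2) (mu dh dm) :=
    (isq hu).add (isq hv)
  rw [h1, integral_add hi ((intRe hu hv).const_mul _), integral_add (isq hu) (isq hv), integral_const_mul]
  rfl

private lemma cont_w2 {v : Cfg dh → Wsp dm → F} (hv : Tst2 v) :
    Continuous (fun p : Cfg dh × Wsp dm => mul2 (fun _ w => ‖w‖) v p.1 p.2) := by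
  unfold mul2
  exact (Complex.continuous_ofReal.comp (continuous_norm.comp continuous_snd)).smul hv.1.continuous

private lemma cs_w2 {v : Cfg dh → Wsp dm → F} (hv : Tst2 v) :
    HasCompactSupport (fun p : Cfg dh × Wsp dm => mul2 (fun _ w => ‖w‖) v p.1 p.2) := by
  refine hv.2.mono ?_
  intro p hp
  simp only [Function.mem_support] at hp ⊢
  intro h0
  exact hp (by simp [mul2, h0])

end CB925

open CB925 in
/-- **C-CalcB** integration on the slice -/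
theorem calcB (dh dm : ℕ) (F : Type*) [NormedAddCommGroup F] [InnerProductSpace ℂ F] :
    CalcA dh dm F → CalcB dh dm F := fun hA =>
  { int_sq := fun v hv => isq hv
    int_ip := fun u v hu hv => intIp hu hv
    yw := fun v hv => CB925.yw hv.1.continuous hv.2
    wy := fun v hv => CB925.wy hv.1.continuous hv.2
    ip_wy := fun u v hu hv => CB925.ip_wy hu hv
    nonneg := fun v => integral_nonneg fun p => by positivity
    ns_add := fun u v hu hv => nsAdd hu hv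
    ns_add_le := fun u v hu hv => by
      have h := leSum (ι := Fin 2) (fun _ => 2) (fun y w => u y w + v y w) ![u, v] (hA.add u v hu hv)
        (by intro l; fin_cases l <;> simpa using by assumption) (by
          intro y w
          rw [Fin.sum_univ_two]
          simp only [Matrix.cons_val_zero, Matrix.cons_val_one]
          have h1 : ‖u y w + v y w‖ ≤ ‖u y w‖ + ‖v y w‖ := norm_add_le _ _
          nlinarith [norm_nonneg (u y w + v y w), norm_nonneg (u y w), norm_nonneg (v y w),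
            sq_nonneg (‖u y w‖ - ‖v y w‖)])
      rw [Fin.sum_univ_two] at h
      simpa using h
    ns_add_ge := fun u v hu hv => by
      have h := leSum (ι := Fin 2) (fun _ => 2) u ![fun y w => u y w + v y w, v] hu
        (by
          intro l
          fin_cases l
          · exact hA.add u v hu hv
          · exact hv) (by
          intro y w
          rw [Fin.sum_univ_two]
          simp only [Matrix.cons_val_zero, Matrix.cons_val_one]
          have h1 : ‖u y w‖ ≤ ‖u y w + v y w‖ + ‖v y w‖ := by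
            have := norm_sub_le (u y w + v y w) (v y w)
            rwa [add_sub_cancel_right] at this
          nlinarith [norm_nonneg (u y w + v y w), norm_nonneg (u y w), norm_nonneg (v y w),
            sq_nonneg (‖u y w + v y w‖ - ‖v y w‖)])
      rw [Fin.sum_univ_two] at h
      simp only [Matrix.cons_val_zero, Matrix.cons_val_one] at h
      linarith
    ns_smul := fun c v => by
      simp only [ns2, norm_smul, mul_pow]
      rw [integral_const_mul]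
    ns_neg := fun v => by
      have := int_rfe (dh := dh) (dm := dm) (fun p => ‖v p.1 p.2‖ ^ 2)
      exact this
    le_sum := fun ι _ c u v hu hv h => leSum c u v hu hv h
    mono := fun c u v hu hv h => by
      have := leSum (ι := Unit) (fun _ => c) u (fun _ => v) hu (fun _ => hv) (by simpa using h)
      simpa using this
    cs := fun s u v hs hu hv => CB925.cs hs hu hv
    conj := fun u v => by
      rw [ip2, ip2, ← integral_conj]
      refine integral_congr_ae (Eventually.of_forall fun p => ?_)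
      exact (inner_conj_symm _ _).symm
    ip_add := fun u v z hu hv hz => by
      have h : ip2 u (fun y w => v y w + z y w) =
          ∫ p, (inner ℂ (u p.1 p.2) (v p.1 p.2) + inner ℂ (u p.1 p.2) (z p.1 p.2)) ∂(mu dh dm) := by
        rw [ip2]
        refine integral_congr_ae (Eventually.of_forall fun p => ?_)
        exact inner_add_right _ _ _
      rw [h, integral_add (intIp hu hv) (intIp hu hz)]
      rfl
    ip_smul := fun c u v => by
      simp only [ip2, inner_smul_right]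
      rw [integral_const_mul]
    ip_mul := fun c u v => by
      simp only [ip2, mul2, inner_smul_right, inner_smul_left, Complex.conj_ofReal]
    ibp_y := fun i A u v hu hv => by
      rw [CB925.ip_wy (hA.py i A u hu) hv, CB925.ip_wy hu (hA.py i A v hv), ← integral_neg]
      refine integral_congr_ae (Eventually.of_forall fun w => ?_)
      exact integral_inner_pd (fun y => u y w) (fun y => v y w) ((hA.sly u hu w).1.of_le (by simp))
        ((hA.sly v hv w).1.of_le (by simp)) (hA.sly u hu w).2 i A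
    ibp_w := fun j B u v hu hv => by
      rw [ip_yw (hA.pw j B u hu) hv, ip_yw hu (hA.pw j B v hv), ← integral_neg]
      refine integral_congr_ae (Eventually.of_forall fun y => ?_)
      exact integral_inner_fderiv volume (u y) (v y) ((hA.slw u hu y).1.of_le (by simp))
        ((hA.slw v hv y).1.of_le (by simp)) (hA.slw u hu y).2 (EuclideanSpace.single (j, B) 1)
    refl := fun u v => by
      have := int_rfe (dh := dh) (dm := dm) (fun p => inner ℂ (u p.1 p.2) (v p.1 p.2))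
      exact this
    W2_eq := fun v hv => by
      have hk : ∀ k, Tst2 (mw k v) := fun k => by
        refine hA.mul (fun _ w => w k) v ?_ hv
        exact ((EuclideanSpace.proj k : Wsp dm →L[ℝ] ℝ).contDiff).comp contDiff_snd
      have h1 : ∑ k, ns2 (mw k v) = ∫ p, ∑ k, ‖mw k v p.1 p.2‖ ^ 2 ∂(mu dh dm) := by
        rw [integral_finsetSum]
        · rfl
        · intro k _; exact isq (hk k)
      rw [h1, W2, ns2]
      refine integral_congr_ae (Eventually.of_forall fun p => ?_)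
      simp only [mw, mul2, norm_smul, mul_pow, Complex.norm_real, Real.norm_eq_abs, sq_abs]
      rw [← Finset.sum_mul, EuclideanSpace.real_norm_sq_eq]
    W2_yw := fun v hv => by
      have := CB925.yw (cont_w2 hv) (cs_w2 hv)
      exact this }

end Vale.Agent.P353.Z.AN
end

section

/-! # P353, all `N`, block C: fibre facts near `R Y` from the fibre facts at a frozen point -/

open MeasureTheory Filter Topology
open scoped ContDiff

namespace Vale.Agent.P353.Z.AN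

variable {d dh dm : ℕ} {F : Type*} [NormedAddCommGroup F] [InnerProductSpace ℂ F]

lemma fo_anti (S : Setup d F) (φ : Spl dh dm d) (i : Fin 9) (y : Cfg dh) :
    (S.Dy φ i y).transpose = -S.Dy φ i y := by
  ext B C
  simp only [Setup.Dy, Setup.Dm, Matrix.transpose_apply, Matrix.of_apply, Matrix.neg_apply]
  rw [← Finset.sum_neg_distrib]
  refine Finset.sum_congr rfl fun A _ => ?_
  rw [S.f_cyc (φ (Sum.inr C)) (φ (Sum.inl A)) (φ (Sum.inr B)),
    S.f_swap (φ (Sum.inl A)) (φ (Sum.inr B)) (φ (Sum.inr C))]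
  ring

/-- the product of two matrices `D` -/
lemma fo_mul (S : Setup d F) (φ : Spl dh dm d) (h : S.IsSub φ) (i j : Fin 9) (y : Cfg dh)
    (B C : Fin dm) :
    (S.Dy φ i y * S.Dy φ j y) B C = ∑ A, ∑ A', (∑ E, S.f (φ (Sum.inr B)) (φ (Sum.inl A)) E *
      S.f E (φ (Sum.inl A')) (φ (Sum.inr C))) * (y (i, A) * y (j, A')) := by
  have h0 : ∀ (A : Fin dh) (E : Fin dh), S.f (φ (Sum.inr B)) (φ (Sum.inl A)) (φ (Sum.inl E)) = 0 := by
    intro A E
    rw [S.f_cyc]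
    exact h A E B
  rw [Matrix.mul_apply]
  simp only [Setup.Dy, Setup.Dm, Matrix.of_apply, Finset.sum_mul_sum]
  rw [Finset.sum_comm]
  refine Finset.sum_congr rfl fun A _ => ?_
  rw [Finset.sum_comm]
  refine Finset.sum_congr rfl fun A' _ => ?_
  rw [← φ.sum_comp, Fintype.sum_sum_type]
  simp only [h0, zero_mul, Finset.sum_const_zero, zero_add, Finset.sum_mul]
  exact Finset.sum_congr rfl fun E _ => by ring

lemma fo_comm (S : Setup d F) (φ : Spl dh dm d) (Y : Cfg dh) (hY : Std S φ Y) (i j : Fin 9) :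
    S.Dy φ i Y * S.Dy φ j Y = S.Dy φ j Y * S.Dy φ i Y := by
  ext B C
  rw [fo_mul S φ hY.sub, fo_mul S φ hY.sub]
  rw [Finset.sum_comm (f := fun A A' => (∑ E, S.f (φ (Sum.inr B)) (φ (Sum.inl A)) E *
      S.f E (φ (Sum.inl A')) (φ (Sum.inr C))) * (Y (j, A) * Y (i, A')))]
  rw [← sub_eq_zero, ← Finset.sum_sub_distrib]
  -- Jacobi
  have hj : ∀ A A' : Fin dh, (∑ E, S.f (φ (Sum.inr B)) (φ (Sum.inl A)) E *
      S.f E (φ (Sum.inl A')) (φ (Sum.inr C))) - (∑ E, S.f (φ (Sum.inr B)) (φ (Sum.inl A')) E *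
      S.f E (φ (Sum.inl A)) (φ (Sum.inr C))) =
      -∑ E, S.f (φ (Sum.inl A)) (φ (Sum.inl A')) (φ (Sum.inl E)) *
        S.f (φ (Sum.inl E)) (φ (Sum.inr B)) (φ (Sum.inr C)) := by
    intro A A'
    have h1 := S.f_jac (φ (Sum.inr B)) (φ (Sum.inl A)) (φ (Sum.inl A')) (φ (Sum.inr C))
    rw [Finset.sum_add_distrib, Finset.sum_add_distrib] at h1
    have h2 : ∑ E, S.f (φ (Sum.inl A')) (φ (Sum.inr B)) E * S.f E (φ (Sum.inl A)) (φ (Sum.inr C)) =
        -∑ E, S.f (φ (Sum.inr B)) (φ (Sum.inl A')) E * S.f E (φ (Sum.inl A)) (φ (Sum.inr C)) := by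
      rw [← Finset.sum_neg_distrib]
      refine Finset.sum_congr rfl fun E _ => ?_
      rw [S.f_swap (φ (Sum.inl A')) (φ (Sum.inr B)) E]
      ring
    have h3 : ∑ E, S.f (φ (Sum.inl A)) (φ (Sum.inl A')) E * S.f E (φ (Sum.inr B)) (φ (Sum.inr C)) =
        ∑ E, S.f (φ (Sum.inl A)) (φ (Sum.inl A')) (φ (Sum.inl E)) *
          S.f (φ (Sum.inl E)) (φ (Sum.inr B)) (φ (Sum.inr C)) := by
      rw [← φ.sum_comp, Fintype.sum_sum_type]
      have h4 : ∀ E : Fin dm, S.f (φ (Sum.inl A)) (φ (Sum.inl A')) (φ (Sum.inr E)) = 0 :=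
        fun E => hY.sub A A' E
      simp only [h4, zero_mul, Finset.sum_const_zero, add_zero]
    rw [h2, h3] at h1
    linarith
  have h5 : ∑ A, ((∑ A', (∑ E, S.f (φ (Sum.inr B)) (φ (Sum.inl A)) E *
        S.f E (φ (Sum.inl A')) (φ (Sum.inr C))) * (Y (i, A) * Y (j, A'))) -
      ∑ A', (∑ E, S.f (φ (Sum.inr B)) (φ (Sum.inl A')) E *
        S.f E (φ (Sum.inl A)) (φ (Sum.inr C))) * (Y (j, A') * Y (i, A))) =
      ∑ A', ∑ E, ∑ A, -(S.f (φ (Sum.inl A)) (φ (Sum.inl A')) (φ (Sum.inl E)) * Y (i, A) *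
        (S.f (φ (Sum.inl E)) (φ (Sum.inr B)) (φ (Sum.inr C)) * Y (j, A'))) := by
    have h6 : ∀ A, ((∑ A', (∑ E, S.f (φ (Sum.inr B)) (φ (Sum.inl A)) E *
        S.f E (φ (Sum.inl A')) (φ (Sum.inr C))) * (Y (i, A) * Y (j, A'))) -
      ∑ A', (∑ E, S.f (φ (Sum.inr B)) (φ (Sum.inl A')) E *
        S.f E (φ (Sum.inl A)) (φ (Sum.inr C))) * (Y (j, A') * Y (i, A))) =
        ∑ A', ∑ E, -(S.f (φ (Sum.inl A)) (φ (Sum.inl A')) (φ (Sum.inl E)) * Y (i, A) *
        (S.f (φ (Sum.inl E)) (φ (Sum.inr B)) (φ (Sum.inr C)) * Y (j, A'))) := by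
      intro A
      rw [← Finset.sum_sub_distrib]
      refine Finset.sum_congr rfl fun A' _ => ?_
      rw [mul_comm (Y (j, A')) (Y (i, A)), ← sub_mul, hj, neg_mul, Finset.sum_mul,
        ← Finset.sum_neg_distrib]
      exact Finset.sum_congr rfl fun E _ => by ring
    rw [Finset.sum_congr rfl fun A _ => h6 A, Finset.sum_comm]
    exact Finset.sum_congr rfl fun A' _ => Finset.sum_comm
  rw [h5]
  refine Finset.sum_eq_zero fun A' _ => Finset.sum_eq_zero fun E _ => ?_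
  rw [Finset.sum_neg_distrib, ← Finset.sum_mul, hY.cen i A' E, zero_mul, neg_zero]

lemma fo_frz (S : Setup d F) (φ : Spl dh dm d) (Y : Cfg dh) (hY : Std S φ Y) : Frz (S.DY φ Y) :=
  ⟨fun i => fo_anti S φ i Y, fun i j => fo_comm S φ Y hY i j, hY.inv⟩

/-- the constant of the linear bound -/
noncomputable def foK (S : Setup d F) (φ : Spl dh dm d) : ℝ :=
  1 + ∑ B, ∑ E, ∑ A, |S.f (φ (Sum.inr B)) (φ (Sum.inl A)) (φ (Sum.inr E))|

lemma foK_pos (S : Setup d F) (φ : Spl dh dm d) : 0 < foK S φ := by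
  unfold foK
  have : 0 ≤ ∑ B, ∑ E, ∑ A, |S.f (φ (Sum.inr B)) (φ (Sum.inl A)) (φ (Sum.inr E))| :=
    Finset.sum_nonneg fun B _ => Finset.sum_nonneg fun E _ => Finset.sum_nonneg fun A _ => abs_nonneg _
  linarith

lemma fo_lin (S : Setup d F) (φ : Spl dh dm d) (i : Fin 9) (y : Cfg dh) (B E : Fin dm) :
    |S.Dy φ i y B E| ≤ foK S φ * ‖y‖ := by
  simp only [Setup.Dy, Setup.Dm, Matrix.of_apply]
  have h1 : ∀ A, |y (i, A)| ≤ ‖y‖ := fun A => by
    have := PiLp.norm_apply_le y (i, A)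
    rwa [Real.norm_eq_abs] at this
  calc |∑ A, S.f (φ (Sum.inr B)) (φ (Sum.inl A)) (φ (Sum.inr E)) * y (i, A)|
      ≤ ∑ A, |S.f (φ (Sum.inr B)) (φ (Sum.inl A)) (φ (Sum.inr E)) * y (i, A)| :=
        Finset.abs_sum_le_sum_abs _ _
    _ ≤ ∑ A, |S.f (φ (Sum.inr B)) (φ (Sum.inl A)) (φ (Sum.inr E))| * ‖y‖ := by
        refine Finset.sum_le_sum fun A _ => ?_
        rw [abs_mul]
        exact mul_le_mul_of_nonneg_left (h1 A) (abs_nonneg _)
    _ = (∑ A, |S.f (φ (Sum.inr B)) (φ (Sum.inl A)) (φ (Sum.inr E))|) * ‖y‖ := by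
        rw [Finset.sum_mul]
    _ ≤ foK S φ * ‖y‖ := by
        refine mul_le_mul_of_nonneg_right ?_ (norm_nonneg _)
        have h2 : ∑ A, |S.f (φ (Sum.inr B)) (φ (Sum.inl A)) (φ (Sum.inr E))| ≤
            ∑ E', ∑ A, |S.f (φ (Sum.inr B)) (φ (Sum.inl A)) (φ (Sum.inr E'))| :=
          Finset.single_le_sum (f := fun E' => ∑ A, |S.f (φ (Sum.inr B)) (φ (Sum.inl A))
            (φ (Sum.inr E'))|) (fun E' _ => Finset.sum_nonneg fun A _ => abs_nonneg _)
            (Finset.mem_univ E)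
        have h3 : ∑ E', ∑ A, |S.f (φ (Sum.inr B)) (φ (Sum.inl A)) (φ (Sum.inr E'))| ≤
            ∑ B', ∑ E', ∑ A, |S.f (φ (Sum.inr B')) (φ (Sum.inl A)) (φ (Sum.inr E'))| :=
          Finset.single_le_sum (f := fun B' => ∑ E', ∑ A, |S.f (φ (Sum.inr B')) (φ (Sum.inl A))
            (φ (Sum.inr E'))|) (fun B' _ => Finset.sum_nonneg fun E' _ =>
              Finset.sum_nonneg fun A _ => abs_nonneg _) (Finset.mem_univ B)
        unfold foK
        linarith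

lemma fo_sub (S : Setup d F) (φ : Spl dh dm d) (i : Fin 9) (y Y : Cfg dh) (R : ℝ) (B E : Fin dm) :
    S.Dy φ i y B E - R * S.Dy φ i Y B E = S.Dy φ i (y - R • Y) B E := by
  simp only [Setup.Dy, Setup.Dm, Matrix.of_apply, PiLp.sub_apply, PiLp.smul_apply, smul_eq_mul]
  rw [Finset.mul_sum, ← Finset.sum_sub_distrib]
  exact Finset.sum_congr rfl fun A _ => by ring

lemma fo_near (S : Setup d F) (φ : Spl dh dm d) (y Y : Cfg dh) {R ε : ℝ}
    (h : ‖y - R • Y‖ ≤ ε * R) (i : Fin 9) (B E : Fin dm) :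
    |S.DY φ y i B E - R * S.DY φ Y i B E| ≤ foK S φ * ε * R := by
  show |S.Dy φ i y B E - R * S.Dy φ i Y B E| ≤ foK S φ * ε * R
  rw [fo_sub]
  refine (fo_lin S φ i _ B E).trans ?_
  rw [mul_assoc]
  exact mul_le_mul_of_nonneg_left h (foK_pos S φ).le

lemma fo_nsf {E : Type*} [NormedAddCommGroup E] (f : Wsp dm → E) : 0 ≤ nsf f :=
  integral_nonneg fun _ => by positivity

lemma fo_e1 (S : Setup d F) (φ : Spl dh dm d) (D : Fin 9 → Matrix (Fin dm) (Fin dm) ℝ)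
    (f : Wsp dm → F) : 0 ≤ S.e1 φ D f := by
  unfold Setup.e1
  exact mul_nonneg (by norm_num) (Finset.sum_nonneg fun β _ => fo_nsf _)

/-- **C-Fib** -/
theorem fibOut_stmt (S : Setup d F) (φ : Spl dh dm d) :
    OmStmt → FibStmt S φ → FibOutStmt S φ := by
  intro hOm hFib hF Y hY
  have hz := fo_frz S φ Y hY
  obtain ⟨Om, hO⟩ := hOm dm S.κ (S.DY φ Y) S.κ_pos hz
  obtain ⟨c0, C, ε1, hc0, hC, hε1, H⟩ := hFib hF (S.DY φ Y) Om hz hO
  have hK := foK_pos S φ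
  set K := foK S φ with hKd
  have hCout : 0 ≤ C + 1 / c0 + C * K ^ 2 / c0 + C * K ^ 2 := by positivity
  have b1 : 0 ≤ 1 / c0 := by positivity
  have b2 : 0 ≤ C * K ^ 2 / c0 := by positivity
  have b3 : 0 ≤ C * K ^ 2 := by positivity
  have hKε : K * (ε1 / K) = ε1 := by field_simp
  refine ⟨Om, ε1 / K, C + 1 / c0 + C * K ^ 2 / c0 + C * K ^ 2, hO, hz, by positivity, hCout,
    ⟨fun R hR y hy f hf => ?_, fun R hR y hy f hf hodd => ?_⟩, fun R hR ε hε hεε y hy f hf => ?_⟩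
  · have h1 := (H R hR ε1 hε1.le le_rfl (S.DY φ y) (fun i B E => by
      have := fo_near S φ y Y hy i B E
      rwa [← hKd, hKε] at this)).2 f hf
    refine h1.1.trans (mul_le_mul_of_nonneg_right (by linarith) ?_)
    exact add_nonneg (fo_e1 S φ _ f) (mul_nonneg hR.le (fo_nsf f))
  · have h1 := (H R hR ε1 hε1.le le_rfl (S.DY φ y) (fun i B E => by
      have := fo_near S φ y Y hy i B E
      rwa [← hKd, hKε] at this)).2 f hf
    have h2 := h1.2.2.1 hodd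
    have h3 : R * nsf f ≤ 1 / c0 * S.e1 φ (S.DY φ y) f := by
      rw [one_div, inv_mul_eq_div, le_div_iff₀ hc0]
      linarith
    exact h3.trans (mul_le_mul_of_nonneg_right (by linarith) (fo_e1 S φ _ f))
  · have hKe : K * ε ≤ ε1 := by
      calc K * ε ≤ K * (ε1 / K) := mul_le_mul_of_nonneg_left hεε hK.le
        _ = ε1 := hKε
    have h1 := (H R hR (K * ε) (by positivity) hKe (S.DY φ y) (fun i B E => by
      have := fo_near S φ y Y hy i B E
      rwa [← hKd] at this)).2 f hf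
    have he := fo_e1 S φ (S.DY φ y) f
    have hn := fo_nsf f
    have hRn : 0 ≤ R * nsf f := mul_nonneg hR.le hn
    have hRn2 : 0 ≤ ε ^ 2 * R * nsf f := by positivity
    refine ⟨?_, fun β => ?_⟩
    · have h2 := h1.2.1
      have h3 : R * nsf (fun w => f w - S.PR φ (S.DY φ Y) Om R f w) ≤
          1 / c0 * S.e1 φ (S.DY φ y) f + C * K ^ 2 / c0 * (ε ^ 2 * R * nsf f) := by
        have : 1 / c0 * S.e1 φ (S.DY φ y) f + C * K ^ 2 / c0 * (ε ^ 2 * R * nsf f) =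
            (S.e1 φ (S.DY φ y) f + C * (K * ε) ^ 2 * R * nsf f) / c0 := by
          field_simp
        rw [this, le_div_iff₀ hc0]
        linarith
      refine h3.trans ?_
      have h4 : 1 / c0 * S.e1 φ (S.DY φ y) f ≤
          (C + 1 / c0 + C * K ^ 2 / c0 + C * K ^ 2) * S.e1 φ (S.DY φ y) f :=
        mul_le_mul_of_nonneg_right (by linarith) he
      have h5 : C * K ^ 2 / c0 * (ε ^ 2 * R * nsf f) ≤
          (C + 1 / c0 + C * K ^ 2 / c0 + C * K ^ 2) * (ε ^ 2 * R * nsf f) :=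
        mul_le_mul_of_nonneg_right (by linarith) hRn2
      rw [mul_add]
      exact add_le_add h4 h5
    · refine (h1.2.2.2 β).trans ?_
      have h4 : C * (K * ε) ^ 2 = C * K ^ 2 * ε ^ 2 := by ring
      rw [h4]
      refine mul_le_mul_of_nonneg_right ?_ (add_nonneg he hRn)
      exact mul_le_mul_of_nonneg_right (by linarith) (by positivity)

end Vale.Agent.P353.Z.AN
end

section

/-! # P353, all `N`, block E, E-Dec1: the off-diagonal supercharge applied to the trial function -/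

open MeasureTheory Filter Topology Matrix
open scoped ContDiff

namespace Vale.Agent.P353.Z.AE.D1p

open Vale.Agent.P353.Z.AN Vale.Agent.P353.Z.AN.Sy Vale.Agent.P353.Z.AN.Op687

variable {d dh dm r ds : ℕ} {F : Type*} [NormedAddCommGroup F] [InnerProductSpace ℂ F]

/-! ### coordinates -/

lemma zpt_sub_smul (ψ : Spl r ds dh) (x : Cfg dh) (R : ℝ) (y₀ : Cfg r) :
    zpt ψ (x - R • cmb ψ y₀ 0) = zpt ψ x - R • y₀ := by
  ext p
  simp [zpt, cmb]

lemma norm_zpt_le (ψ : Spl r ds dh) (x : Cfg dh) : ‖zpt ψ x‖ ≤ ‖x‖ := by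
  rw [EuclideanSpace.norm_eq, EuclideanSpace.norm_eq]
  apply Real.sqrt_le_sqrt
  simp only [Fintype.sum_prod_type]
  refine Finset.sum_le_sum fun i _ => ?_
  rw [← ψ.sum_comp (fun A => ‖x (i, A)‖ ^ 2), Fintype.sum_sum_type]
  simp only [zpt]
  exact le_add_of_nonneg_right (Finset.sum_nonneg fun b _ => by positivity)

lemma norm_cmb0 (ψ : Spl r ds dh) (y : Cfg r) : ‖cmb ψ y (0 : Cfg ds)‖ = ‖y‖ := by
  rw [EuclideanSpace.norm_eq, EuclideanSpace.norm_eq]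
  congr 1
  simp only [Fintype.sum_prod_type]
  refine Finset.sum_congr rfl fun i _ => ?_
  rw [← ψ.sum_comp (fun A => ‖cmb ψ y (0 : Cfg ds) (i, A)‖ ^ 2), Fintype.sum_sum_type]
  simp [cmb]

lemma cmb0_sub (ψ : Spl r ds dh) (y y₀ : Cfg r) (R : ℝ) :
    cmb ψ y (0 : Cfg ds) - R • cmb ψ y₀ 0 = cmb ψ (y - R • y₀) 0 := by
  ext p
  rcases h : ψ.symm p.2 with a | b <;> simp [cmb, h]

lemma contDiff_P (ψ : Spl r ds dh) : ContDiff ℝ ∞ (fun x : Cfg dh => cmb ψ (zpt ψ x) (0 : Cfg ds)) := by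
  refine contDiff_euclidean.2 fun p => ?_
  rcases h : ψ.symm p.2 with a | b
  · have : (fun x : Cfg dh => cmb ψ (zpt ψ x) (0 : Cfg ds) p) = fun x => x (p.1, ψ (Sum.inl a)) := by
      funext x
      simp [cmb, zpt, h]
    rw [this]
    exact Setup.contDiff_coord _
  · have : (fun x : Cfg dh => cmb ψ (zpt ψ x) (0 : Cfg ds) p) = fun _ => 0 := by
      funext x
      simp [cmb, h]
    rw [this]
    exact contDiff_const

/-- index equivalence -/
def zsEquiv (ψ : Spl r ds dh) : (Fin 9 × Fin r) ⊕ (Fin 9 × Fin ds) ≃ Fin 9 × Fin dh :=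
  (Equiv.prodSumDistrib (Fin 9) (Fin r) (Fin ds)).symm.trans (Equiv.prodCongr (Equiv.refl _) ψ)

theorem zs_mp (ψ : Spl r ds dh) :
    MeasurePreserving (fun x : Cfg dh => (zpt ψ x, spt ψ x)) volume (volume.prod volume) := by
  have m1 := PiLp.volume_preserving_ofLp (Fin 9 × Fin dh)
  have m2 := (volume_measurePreserving_piCongrLeft (fun _ : Fin 9 × Fin dh => ℝ)
    (zsEquiv ψ)).symm
  have m3 := volume_measurePreserving_sumPiEquivProdPi
    (fun _ : (Fin 9 × Fin r) ⊕ (Fin 9 × Fin ds) => ℝ)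
  have n1 := PiLp.volume_preserving_toLp (Fin 9 × Fin r)
  have n2 := PiLp.volume_preserving_toLp (Fin 9 × Fin ds)
  exact (n1.prod n2).comp (m3.comp (m2.comp m1))

lemma int_zs (ψ : Spl r ds dh) {G : Cfg r → ℝ} {H : Cfg ds → ℝ} (hG : Integrable G) (hH : Integrable H) :
    Integrable (fun x : Cfg dh => G (zpt ψ x) * H (spt ψ x)) ∧
      ∫ x : Cfg dh, G (zpt ψ x) * H (spt ψ x) = (∫ y, G y) * ∫ s, H s := by
  have h1 : Integrable (fun p : Cfg r × Cfg ds => G p.1 * H p.2) (volume.prod volume) := hG.mul_prod hH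
  have h2 := zs_mp (dh := dh) ψ
  refine ⟨(h2.integrable_comp h1.aestronglyMeasurable).2 h1, ?_⟩
  have h3 : ∫ p, G p.1 * H p.2 ∂((volume : Measure (Cfg r)).prod (volume : Measure (Cfg ds))) =
      (∫ y, G y) * ∫ s, H s := integral_prod_mul G H
  rw [← h3, ← h2.map_eq, integral_map h2.measurable.aemeasurable]
  rw [h2.map_eq]
  exact h1.aestronglyMeasurable

/-! ### the frozen matrices -/

lemma std_cmb (S : Setup d F) (φ : Spl dh dm d) (ψ : Spl r ds dh) (hs : S.IsSub φ) (hc : S.IsCen φ ψ)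
    (y : Cfg r) (hy : (S.Dz φ ψ y 8).det ≠ 0) : Std S φ (cmb ψ y 0) := by
  refine ⟨hs, ?_, hy⟩
  intro i B C
  rw [← ψ.sum_comp, Fintype.sum_sum_type]
  have h1 : ∀ a, S.f (φ (Sum.inl (ψ (Sum.inl a)))) (φ (Sum.inl B)) (φ (Sum.inl C)) = 0 := fun a => hc a B C
  simp [h1, cmb]

lemma frz_Dz (S : Setup d F) (φ : Spl dh dm d) (ψ : Spl r ds dh) (hs : S.IsSub φ) (hc : S.IsCen φ ψ)
    (y : Cfg r) (hy : (S.Dz φ ψ y 8).det ≠ 0) : Frz (S.Dz φ ψ y) :=
  fo_frz S φ (cmb ψ y 0) (std_cmb S φ ψ hs hc y hy)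

/-! ### the fibre operator on real multiples of a vector -/

/-- the derivative part of `q1` with prescribed derivatives -/
noncomputable def XX (S : Setup d F) (φ : Spl dh dm d) (D : Fin 9 → Matrix (Fin dm) (Fin dm) ℝ) (β : Fin 16)
    (κ : Fin 8 → Fin dm → ℝ) (v : F) : F :=
  (-Complex.I) • (∑ j : Fin 8, ∑ B, S.vec (S.g j.castSucc) (φ (Sum.inr B)) β (((κ j B : ℝ) : ℂ) • v)) +
    Complex.I • (∑ B, S.vec (S.g 8) (φ (Sum.inr B)) β
      (∑ C, (((D 8)⁻¹ B C : ℝ) : ℂ) • ∑ j : Fin 8, ∑ E, ((D j.castSucc C E : ℝ) : ℂ) • (((κ j E : ℝ) : ℂ) • v)))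

/-- the potential part of `q1` -/
noncomputable def PT (S : Setup d F) (φ : Spl dh dm d) (D : Fin 9 → Matrix (Fin dm) (Fin dm) ℝ) (β : Fin 16)
    (w : Wsp dm) (v : F) : F :=
  (1 / 2 : ℂ) • ∑ B, ∑ i, ∑ j, ((S.κ * ((∑ C, D i B C * wt w j C) - ∑ C, D j B C * wt w i C) : ℝ) : ℂ) •
      S.vec (S.g2 i j) (φ (Sum.inr B)) β v

lemma XX_add (S : Setup d F) (φ : Spl dh dm d) (D : Fin 9 → Matrix (Fin dm) (Fin dm) ℝ) (β : Fin 16)
    (κ κ' : Fin 8 → Fin dm → ℝ) (v : F) :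
    XX S φ D β (fun j B => κ j B + κ' j B) v = XX S φ D β κ v + XX S φ D β κ' v := by
  unfold XX
  simp only [Complex.ofReal_add, add_smul, map_add, smul_add, Finset.sum_add_distrib]
  abel

lemma XX_smul (S : Setup d F) (φ : Spl dh dm d) (D : Fin 9 → Matrix (Fin dm) (Fin dm) ℝ) (β : Fin 16)
    (κ : Fin 8 → Fin dm → ℝ) (t : ℝ) (v : F) :
    XX S φ D β (fun j B => t * κ j B) v = (t : ℂ) • XX S φ D β κ v := by
  unfold XX
  have h1 : ∀ j B, ((t * κ j B : ℝ) : ℂ) • v = (t : ℂ) • (((κ j B : ℝ) : ℂ) • v) := by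
    intro j B
    rw [Complex.ofReal_mul, mul_smul]
  have h2 : ∀ (C : Fin dm) (j : Fin 8) (E : Fin dm), ((D j.castSucc C E : ℝ) : ℂ) • ((t : ℂ) • (((κ j E : ℝ) : ℂ) • v)) =
      (t : ℂ) • (((D j.castSucc C E : ℝ) : ℂ) • (((κ j E : ℝ) : ℂ) • v)) := fun C j E => smul_comm _ _ _
  have h3 : ∀ (B C : Fin dm) (u : F), (((D 8)⁻¹ B C : ℝ) : ℂ) • ((t : ℂ) • u) = (t : ℂ) • ((((D 8)⁻¹ B C : ℝ) : ℂ) • u) :=
    fun B C u => smul_comm _ _ _
  simp only [h1, h2, ← Finset.smul_sum, h3, map_smul]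
  rw [smul_comm (-Complex.I) (t : ℂ), smul_comm Complex.I (t : ℂ), ← smul_add]

lemma XX_vsmul (S : Setup d F) (φ : Spl dh dm d) (D : Fin 9 → Matrix (Fin dm) (Fin dm) ℝ) (β : Fin 16)
    (κ : Fin 8 → Fin dm → ℝ) : XX S φ D β κ 0 = 0 := by
  unfold XX
  simp

lemma PT_smul (S : Setup d F) (φ : Spl dh dm d) (D : Fin 9 → Matrix (Fin dm) (Fin dm) ℝ) (β : Fin 16)
    (w : Wsp dm) (t : ℂ) (v : F) : PT S φ D β w (t • v) = t • PT S φ D β w v := by
  unfold PT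
  have h1 : ∀ (B : Fin dm) (i j : Fin 9) (z : ℂ), z • S.vec (S.g2 i j) (φ (Sum.inr B)) β (t • v) =
      t • (z • S.vec (S.g2 i j) (φ (Sum.inr B)) β v) := by
    intro B i j z
    rw [map_smul, smul_comm]
  simp only [h1, ← Finset.smul_sum]
  rw [smul_comm]

lemma pf_real (h : Wsp dm → ℝ) (a : F) (w : Wsp dm) (hh : DifferentiableAt ℝ h w) (j : Fin 8) (B : Fin dm) :
    pf j B (fun w => ((h w : ℝ) : ℂ) • a) w =
      ((fderiv ℝ h w (EuclideanSpace.single (j, B) 1) : ℝ) : ℂ) • a := by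
  unfold pf
  have h2 : (fun w => ((h w : ℝ) : ℂ) • a) = fun w => h w • a := by
    funext w
    rw [Complex.coe_smul]
  rw [h2]
  have h4 : fderiv ℝ (fun x => h x • a) w = (fderiv ℝ h w).smulRight a := (hh.hasFDerivAt.smul_const a).fderiv
  rw [h4]
  simp [Complex.coe_smul]

lemma q1_real (S : Setup d F) (φ : Spl dh dm d) (D : Fin 9 → Matrix (Fin dm) (Fin dm) ℝ) (β : Fin 16)
    (h : Wsp dm → ℝ) (a : F) (w : Wsp dm) (hh : DifferentiableAt ℝ h w) :
    S.q1 φ D β (fun w => ((h w : ℝ) : ℂ) • a) w =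
      XX S φ D β (fun j B => fderiv ℝ h w (EuclideanSpace.single (j, B) 1)) a +
        PT S φ D β w (((h w : ℝ) : ℂ) • a) := by
  unfold Setup.q1 XX PT
  simp only [pf_real h a w hh]

/-- product rule at a zero of `q1` -/
lemma q1_cut (S : Setup d F) (φ : Spl dh dm d) (D : Fin 9 → Matrix (Fin dm) (Fin dm) ℝ) (β : Fin 16)
    (c b : Wsp dm → ℝ) (a : F) (w : Wsp dm) (hc : DifferentiableAt ℝ c w) (hb : DifferentiableAt ℝ b w)
    (h0 : S.q1 φ D β (fun w => ((b w : ℝ) : ℂ) • a) w = 0) :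
    S.q1 φ D β (fun w => ((c w * b w : ℝ) : ℂ) • a) w =
      XX S φ D β (fun j B => b w * fderiv ℝ c w (EuclideanSpace.single (j, B) 1)) a := by
  rw [q1_real S φ D β b a w hb] at h0
  rw [q1_real S φ D β (fun w => c w * b w) a w (hc.mul hb)]
  have h1 : ∀ j B, fderiv ℝ (fun w => c w * b w) w (EuclideanSpace.single (j, B) 1) =
      b w * fderiv ℝ c w (EuclideanSpace.single (j, B) 1) + c w * fderiv ℝ b w (EuclideanSpace.single (j, B) 1) := by
    intro j B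
    have h2 : fderiv ℝ (fun w => c w * b w) w = c w • fderiv ℝ b w + b w • fderiv ℝ c w :=
      (hc.hasFDerivAt.mul hb.hasFDerivAt).fderiv
    rw [h2]
    simp [add_comm]
  simp only [h1]
  rw [XX_add, XX_smul (t := c w), Complex.ofReal_mul, mul_smul, PT_smul, add_assoc, ← smul_add, h0, smul_zero,
    add_zero]

/-- bound for the coefficients -/
noncomputable def MV (S : Setup d F) (φ : Spl dh dm d) : ℝ :=
  ∑ i : Fin 9, ∑ B : Fin dm, ∑ β : Fin 16, ‖S.vec (S.g i) (φ (Sum.inr B)) β‖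

lemma MV_nonneg (S : Setup d F) (φ : Spl dh dm d) : 0 ≤ MV S φ :=
  Finset.sum_nonneg fun _ _ => Finset.sum_nonneg fun _ _ => Finset.sum_nonneg fun _ _ => norm_nonneg _

lemma vec_le (S : Setup d F) (φ : Spl dh dm d) (i : Fin 9) (B : Fin dm) (β : Fin 16) (u : F) :
    ‖S.vec (S.g i) (φ (Sum.inr B)) β u‖ ≤ MV S φ * ‖u‖ := by
  refine (ContinuousLinearMap.le_opNorm _ _).trans (mul_le_mul_of_nonneg_right ?_ (norm_nonneg _))
  have h1 : ‖S.vec (S.g i) (φ (Sum.inr B)) β‖ ≤ ∑ β : Fin 16, ‖S.vec (S.g i) (φ (Sum.inr B)) β‖ :=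
    Finset.single_le_sum (f := fun β => ‖S.vec (S.g i) (φ (Sum.inr B)) β‖) (fun β _ => norm_nonneg _) (Finset.mem_univ β)
  have h2 : ∑ β : Fin 16, ‖S.vec (S.g i) (φ (Sum.inr B)) β‖ ≤ ∑ B : Fin dm, ∑ β : Fin 16, ‖S.vec (S.g i) (φ (Sum.inr B)) β‖ :=
    Finset.single_le_sum (f := fun B => ∑ β : Fin 16, ‖S.vec (S.g i) (φ (Sum.inr B)) β‖)
      (fun B _ => Finset.sum_nonneg fun β _ => norm_nonneg _) (Finset.mem_univ B)
  have h3 : ∑ B : Fin dm, ∑ β : Fin 16, ‖S.vec (S.g i) (φ (Sum.inr B)) β‖ ≤ MV S φ :=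
    Finset.single_le_sum (f := fun i => ∑ B : Fin dm, ∑ β : Fin 16, ‖S.vec (S.g i) (φ (Sum.inr B)) β‖)
      (fun i _ => Finset.sum_nonneg fun B _ => Finset.sum_nonneg fun β _ => norm_nonneg _) (Finset.mem_univ i)
  linarith

lemma XX_le (S : Setup d F) (φ : Spl dh dm d) (D : Fin 9 → Matrix (Fin dm) (Fin dm) ℝ) (β : Fin 16)
    (κ : Fin 8 → Fin dm → ℝ) (v : F) {C R : ℝ} (hC : 0 ≤ C) (hR : 0 < R) (hD : ∀ i B E, |D i B E| ≤ C * R)
    (hI : ∀ B E, |(D 8)⁻¹ B E| ≤ C / R) :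
    ‖XX S φ D β κ v‖ ≤ MV S φ * (1 + (dm : ℝ) ^ 2 * C ^ 2) * (∑ j, ∑ B, |κ j B|) * ‖v‖ := by
  have hM := MV_nonneg S φ
  set s := ∑ j, ∑ B, |κ j B| with hs
  have hs0 : 0 ≤ s := Finset.sum_nonneg fun j _ => Finset.sum_nonneg fun B _ => abs_nonneg _
  have e1 : ‖∑ j : Fin 8, ∑ B, S.vec (S.g j.castSucc) (φ (Sum.inr B)) β (((κ j B : ℝ) : ℂ) • v)‖ ≤ MV S φ * s * ‖v‖ := by
    calc ‖∑ j : Fin 8, ∑ B, S.vec (S.g j.castSucc) (φ (Sum.inr B)) β (((κ j B : ℝ) : ℂ) • v)‖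
        ≤ ∑ j : Fin 8, ∑ B, MV S φ * (|κ j B| * ‖v‖) := by
          refine (norm_sum_le _ _).trans (Finset.sum_le_sum fun j _ => (norm_sum_le _ _).trans
            (Finset.sum_le_sum fun B _ => (vec_le S φ _ B β _).trans ?_))
          rw [norm_smul, Complex.norm_real, Real.norm_eq_abs]
      _ = MV S φ * s * ‖v‖ := by
          rw [hs]
          simp only [← Finset.mul_sum, ← Finset.sum_mul]
          ring
  have e2 : ∀ C' : Fin dm, ‖∑ j : Fin 8, ∑ E, ((D j.castSucc C' E : ℝ) : ℂ) • (((κ j E : ℝ) : ℂ) • v)‖ ≤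
      C * R * (s * ‖v‖) := by
    intro C'
    calc ‖∑ j : Fin 8, ∑ E, ((D j.castSucc C' E : ℝ) : ℂ) • (((κ j E : ℝ) : ℂ) • v)‖
        ≤ ∑ j : Fin 8, ∑ E, (C * R) * (|κ j E| * ‖v‖) := by
          refine (norm_sum_le _ _).trans (Finset.sum_le_sum fun j _ => (norm_sum_le _ _).trans
            (Finset.sum_le_sum fun E _ => ?_))
          rw [norm_smul, norm_smul, Complex.norm_real, Real.norm_eq_abs, Complex.norm_real, Real.norm_eq_abs]
          exact mul_le_mul_of_nonneg_right (hD _ _ _) (by positivity)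
      _ = C * R * (s * ‖v‖) := by
          rw [hs]
          simp only [← Finset.mul_sum, ← Finset.sum_mul]
  have e3 : ‖∑ B, S.vec (S.g 8) (φ (Sum.inr B)) β (∑ C', (((D 8)⁻¹ B C' : ℝ) : ℂ) •
      ∑ j : Fin 8, ∑ E, ((D j.castSucc C' E : ℝ) : ℂ) • (((κ j E : ℝ) : ℂ) • v))‖ ≤
      MV S φ * ((dm : ℝ) ^ 2 * C ^ 2) * s * ‖v‖ := by
    calc _ ≤ ∑ _B : Fin dm, MV S φ * (∑ _C' : Fin dm, (C / R) * (C * R * (s * ‖v‖))) := by
          refine (norm_sum_le _ _).trans (Finset.sum_le_sum fun B _ => (vec_le S φ _ B β _).trans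
            (mul_le_mul_of_nonneg_left ((norm_sum_le _ _).trans (Finset.sum_le_sum fun C' _ => ?_)) hM))
          rw [norm_smul, Complex.norm_real, Real.norm_eq_abs]
          exact mul_le_mul (hI _ _) (e2 C') (norm_nonneg _) (by positivity)
      _ = MV S φ * ((dm : ℝ) ^ 2 * C ^ 2) * s * ‖v‖ := by
          simp only [Finset.sum_const, Finset.card_univ, Fintype.card_fin, nsmul_eq_mul]
          field_simp
  unfold XX
  refine (norm_add_le _ _).trans ?_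
  rw [norm_smul, norm_smul, norm_neg, Complex.norm_I, one_mul, one_mul]
  calc _ ≤ MV S φ * s * ‖v‖ + MV S φ * ((dm : ℝ) ^ 2 * C ^ 2) * s * ‖v‖ := add_le_add e1 e3
    _ = _ := by ring

/-! ### the cutoff -/

/-- the derivative of a cutoff is bounded -/
lemma ct_bd {c : ℝ → ℝ} (hc : IsCt c) : ∃ M : ℝ, 0 ≤ M ∧ ∀ t, |deriv c t| ≤ M := by
  have hcont : Continuous (deriv c) := hc.sm.continuous_deriv (by simp)
  obtain ⟨M, hM⟩ := (isCompact_Icc (a := (1 / 4 : ℝ)) (b := 1)).exists_bound_of_continuousOn hcont.continuousOn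
  refine ⟨max M 0, le_max_right _ _, fun t => ?_⟩
  by_cases h1 : t < 1 / 4
  · have : c =ᶠ[𝓝 t] fun _ => 1 := by
      filter_upwards [Iio_mem_nhds h1] with s hs using hc.one s (le_of_lt hs)
    rw [this.deriv_eq]
    simp
  · by_cases h2 : 1 < t
    · have : c =ᶠ[𝓝 t] fun _ => 0 := by
        filter_upwards [Ioi_mem_nhds h2] with s hs using hc.zero s (le_of_lt hs)
      rw [this.deriv_eq]
      simp
    · exact (hM t ⟨not_lt.1 h1, not_lt.1 h2⟩).trans (le_max_left _ _)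

lemma ct_zero {c : ℝ → ℝ} (hc : IsCt c) {t : ℝ} (h : t < 1 / 4 ∨ 1 < t) : deriv c t = 0 := by
  rcases h with h1 | h2
  · have : c =ᶠ[𝓝 t] fun _ => 1 := by
      filter_upwards [Iio_mem_nhds h1] with s hs using hc.one s (le_of_lt hs)
    rw [this.deriv_eq]
    simp
  · have : c =ᶠ[𝓝 t] fun _ => 0 := by
      filter_upwards [Ioi_mem_nhds h2] with s hs using hc.zero s (le_of_lt hs)
    rw [this.deriv_eq]
    simp

lemma ct_diff {c : ℝ → ℝ} (hc : IsCt c) (ρ : ℝ) (w : Wsp dm) :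
    DifferentiableAt ℝ (fun w : Wsp dm => c (‖w‖ ^ 2 / ρ ^ 2)) w ∧
    ∀ j B, fderiv ℝ (fun w : Wsp dm => c (‖w‖ ^ 2 / ρ ^ 2)) w (EuclideanSpace.single (j, B) 1) =
      deriv c (‖w‖ ^ 2 / ρ ^ 2) * (2 * w (j, B) / ρ ^ 2) := by
  have h1 : HasFDerivAt (fun w : Wsp dm => ‖w‖ ^ 2) (2 • innerSL ℝ w) w := (hasStrictFDerivAt_norm_sq w).hasFDerivAt
  have h2 : HasFDerivAt (fun w : Wsp dm => ‖w‖ ^ 2 / ρ ^ 2) ((ρ ^ 2)⁻¹ • (2 • innerSL ℝ w)) w := by
    simpa [div_eq_mul_inv] using h1.mul_const ((ρ ^ 2)⁻¹)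
  have h3 : HasDerivAt c (deriv c (‖w‖ ^ 2 / ρ ^ 2)) (‖w‖ ^ 2 / ρ ^ 2) :=
    ((hc.sm.differentiable (by simp)) _).hasDerivAt
  have h4 := h3.comp_hasFDerivAt w h2
  refine ⟨h4.differentiableAt, fun j B => ?_⟩
  have h5 : fderiv ℝ (fun w : Wsp dm => c (‖w‖ ^ 2 / ρ ^ 2)) w =
      deriv c (‖w‖ ^ 2 / ρ ^ 2) • ((ρ ^ 2)⁻¹ • (2 • innerSL ℝ w)) := h4.fderiv
  rw [h5]
  simp only [ContinuousLinearMap.smul_apply, innerSL_apply_apply, smul_eq_mul, nsmul_eq_mul, Nat.cast_ofNat]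
  have h6 : inner ℝ w (EuclideanSpace.single (j, B) (1 : ℝ)) = w (j, B) := by
    rw [EuclideanSpace.inner_single_right]
    simp
  rw [h6]
  ring

lemma coord_le (w : Wsp dm) (k : Fin 8 × Fin dm) : |w k| ≤ ‖w‖ := by
  rw [← Real.norm_eq_abs]
  exact PiLp.norm_apply_le w k

lemma ct_le {c : ℝ → ℝ} (hc : IsCt c) {M : ℝ} (hM : ∀ t, |deriv c t| ≤ M) {ρ : ℝ} (hρ : 0 < ρ) (w : Wsp dm)
    (j : Fin 8) (B : Fin dm) :
    |fderiv ℝ (fun w : Wsp dm => c (‖w‖ ^ 2 / ρ ^ 2)) w (EuclideanSpace.single (j, B) 1)| ≤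
      if ρ / 2 ≤ ‖w‖ then 2 * M / ρ else 0 := by
  have hM0 : 0 ≤ M := (abs_nonneg _).trans (hM 0)
  rw [(ct_diff hc ρ w).2 j B]
  by_cases h : ‖w‖ ^ 2 / ρ ^ 2 < 1 / 4 ∨ 1 < ‖w‖ ^ 2 / ρ ^ 2
  · rw [ct_zero hc h, zero_mul, abs_zero]
    split_ifs <;> positivity
  · push Not at h
    obtain ⟨h1, h2⟩ := h
    have hρ2 : 0 < ρ ^ 2 := by positivity
    have h3 : ρ / 2 ≤ ‖w‖ := by
      rw [le_div_iff₀ hρ2] at h1
      nlinarith [norm_nonneg w]
    have h4 : ‖w‖ ≤ ρ := by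
      rw [div_le_one hρ2] at h2
      exact abs_le_of_sq_le_sq' h2 hρ.le |>.2
    rw [if_pos h3, abs_mul]
    have h5 : |2 * w (j, B) / ρ ^ 2| ≤ 2 / ρ := by
      rw [abs_div, abs_mul, abs_of_pos hρ2, abs_two, div_le_div_iff₀ hρ2 hρ]
      have := coord_le w (j, B)
      nlinarith [abs_nonneg (w (j, B))]
    calc |deriv c (‖w‖ ^ 2 / ρ ^ 2)| * |2 * w (j, B) / ρ ^ 2| ≤ M * (2 / ρ) :=
          mul_le_mul (hM _) h5 (abs_nonneg _) hM0
      _ = 2 * M / ρ := by ring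

/-! ### oddness -/

lemma wt_neg (w : Wsp dm) (i : Fin 9) (B : Fin dm) : wt (-w) i B = -wt w i B := by
  induction i using Fin.lastCases with
  | last => simp only [wt, Fin.lastCases_last, neg_zero]
  | cast j => simp only [wt, Fin.lastCases_castSucc, PiLp.neg_apply]

lemma q1_odd (S : Setup d F) (φ : Spl dh dm d) (D : Fin 9 → Matrix (Fin dm) (Fin dm) ℝ) (β : Fin 16)
    (f : Wsp dm → F) (w : Wsp dm) (h1 : f (-w) = f w) (h2 : ∀ j B, pf j B f (-w) = -pf j B f w) :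
    S.q1 φ D β f (-w) = -S.q1 φ D β f w := by
  unfold Setup.q1
  have h3 : ∀ (B : Fin dm) (i j : Fin 9), (S.κ * ((∑ C, D i B C * wt (-w) j C) - ∑ C, D j B C * wt (-w) i C) : ℝ) =
      -(S.κ * ((∑ C, D i B C * wt w j C) - ∑ C, D j B C * wt w i C)) := by
    intro B i j
    simp only [wt_neg, mul_neg, Finset.sum_neg_distrib]
    ring
  simp only [h1, h2, h3, map_neg, smul_neg, Finset.sum_neg_distrib, Complex.ofReal_neg, neg_smul, neg_add_rev, neg_neg]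
  abel

/-! ### the off-diagonal supercharge with coefficients at the central part -/

/-- `q1` with the matrices at `zpt x` -/
noncomputable def QZ (S : Setup d F) (φ : Spl dh dm d) (ψ : Spl r ds dh) (β : Fin 16) (v : Cfg dh → Wsp dm → F)
    (x : Cfg dh) (w : Wsp dm) : F := S.q1 φ (S.Dz φ ψ (zpt ψ x)) β (v x) w

lemma cz_Dy (S : Setup d F) (φ : Spl dh dm d) (ψ : Spl r ds dh) (i : Fin 9) (B C : Fin dm) :
    ContDiff ℝ ∞ (fun x : Cfg dh => S.Dz φ ψ (zpt ψ x) i B C) :=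
  (contDiff_Dy S φ i B C).comp (contDiff_P ψ)

lemma cz_inv (S : Setup d F) (φ : Spl dh dm d) (ψ : Spl r ds dh) (B C : Fin dm) :
    ContDiffOn ℝ ∞ (fun x : Cfg dh => (S.Dz φ ψ (zpt ψ x) 8)⁻¹ B C) {x | (S.Dz φ ψ (zpt ψ x) 8).det ≠ 0} :=
  contDiffOn_inv (M := fun x : Cfg dh => S.Dz φ ψ (zpt ψ x) 8) (fun i j => cz_Dy S φ ψ 8 i j) B C

lemma cz_open (S : Setup d F) (φ : Spl dh dm d) (ψ : Spl r ds dh) :
    IsOpen {x : Cfg dh | (S.Dz φ ψ (zpt ψ x) 8).det ≠ 0} := by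
  have h : Continuous fun x : Cfg dh => (S.Dz φ ψ (zpt ψ x) 8).det :=
    (contDiff_det (M := fun x : Cfg dh => S.Dz φ ψ (zpt ψ x) 8) (fun i j => cz_Dy S φ ψ 8 i j)).continuous
  exact isOpen_ne_fun h continuous_const

lemma near_P (ψ : Spl r ds dh) {y₀ : Cfg r} {ρ R : ℝ} {x : Cfg dh} (h : ‖x - R • cmb ψ y₀ 0‖ ≤ ρ) :
    ‖cmb ψ (zpt ψ x) (0 : Cfg ds) - R • cmb ψ y₀ 0‖ ≤ ρ := by
  rw [cmb0_sub, norm_cmb0, ← zpt_sub_smul]
  exact (norm_zpt_le ψ _).trans h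

lemma tz_loc (S : Setup d F) (φ : Spl dh dm d) (ψ : Spl r ds dh) {y₀ : Cfg r} {ε0 C0 R : ℝ}
    (hbd : S.CoefBd φ (cmb ψ y₀ 0) ε0 C0) (hR : 0 < R)
    {c : Cfg dh → ℝ} (hc : ContDiffOn ℝ ∞ c {x | (S.Dz φ ψ (zpt ψ x) 8).det ≠ 0}) {v : Cfg dh → Wsp dm → F}
    (hv : Tst2 v) (hs : ∀ y w, v y w ≠ 0 → ‖y - R • cmb ψ y₀ 0‖ ≤ ε0 * R) :
    Tst2 (fun y w => ((c y : ℝ) : ℂ) • v y w) := by
  refine (calcA dh dm F).mulOn c v {y | ‖y - R • cmb ψ y₀ 0‖ ≤ ε0 * R} _ ?_ (cz_open S φ ψ) ?_ hc hs hv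
  · exact isClosed_le (by fun_prop) continuous_const
  · intro x hx
    exact hbd.det R hR _ (near_P ψ hx)

lemma t_QZ (S : Setup d F) (φ : Spl dh dm d) (ψ : Spl r ds dh) {y₀ : Cfg r} {ε0 C0 R : ℝ}
    (hbd : S.CoefBd φ (cmb ψ y₀ 0) ε0 C0) (hR : 0 < R) (v : Cfg dh → Wsp dm → F) (hv : Tst2 v)
    (hs : Sup2 (cmb ψ y₀ 0) ε0 R v) (β : Fin 16) : Tst2 (QZ S φ ψ β v) := by
  have hA := calcA dh dm F
  have h1 : Tst2 (fun y w => (-Complex.I) • (∑ j : Fin 8, ∑ B,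
      S.vec (S.g j.castSucc) (φ (Sum.inr B)) β (pw j B v y w))) :=
    hA.smul _ _ (t_sum hA _ _ fun j _ => t_sum hA _ _ fun B _ => hA.clm _ _ (hA.pw j B v hv))
  have h2 : ∀ C : Fin dm, Tst2 (fun y w => ∑ j : Fin 8, ∑ E,
      ((S.Dz φ ψ (zpt ψ y) j.castSucc C E : ℝ) : ℂ) • pw j E v y w) := fun C =>
    t_sum hA _ _ fun j _ => t_sum hA _ _ fun E _ =>
      t_mulc hA (fun y _ => S.Dz φ ψ (zpt ψ y) j.castSucc C E) ((cz_Dy S φ ψ _ C E).comp contDiff_fst) _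
        (hA.pw j E v hv)
  have h3 : ∀ (C : Fin dm) (y : Cfg dh) (w : Wsp dm), (∑ j : Fin 8, ∑ E,
      ((S.Dz φ ψ (zpt ψ y) j.castSucc C E : ℝ) : ℂ) • pw j E v y w) ≠ 0 → ‖y - R • cmb ψ y₀ 0‖ ≤ ε0 * R := by
    intro C y w h
    by_contra hn
    obtain ⟨_, _, h0⟩ := van hA hv hs (y := y) (w := w) fun h' => hn h'.1
    apply h
    simp [h0]
  have h4 : Tst2 (fun y w => Complex.I • (∑ B, S.vec (S.g 8) (φ (Sum.inr B)) β
      (∑ C, (((S.Dz φ ψ (zpt ψ y) 8)⁻¹ B C : ℝ) : ℂ) • ∑ j : Fin 8, ∑ E,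
        ((S.Dz φ ψ (zpt ψ y) j.castSucc C E : ℝ) : ℂ) • pw j E v y w))) :=
    hA.smul _ _ (t_sum hA _ _ fun B _ => hA.clm _ _ (t_sum hA _ _ fun C _ =>
      tz_loc S φ ψ hbd hR (cz_inv S φ ψ B C) (h2 C) (h3 C)))
  have h6 : ∀ (B : Fin dm) (i j : Fin 9), ContDiff ℝ ∞ (fun p : Cfg dh × Wsp dm =>
      S.κ * ((∑ C, S.Dz φ ψ (zpt ψ p.1) i B C * wt p.2 j C) - ∑ C, S.Dz φ ψ (zpt ψ p.1) j B C * wt p.2 i C)) := by
    intro B i j
    refine contDiff_const.mul (ContDiff.sub (ContDiff.sum fun C _ => ?_) (ContDiff.sum fun C _ => ?_))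
    · exact ((cz_Dy S φ ψ i B C).comp contDiff_fst).mul (contDiff_wt j C)
    · exact ((cz_Dy S φ ψ j B C).comp contDiff_fst).mul (contDiff_wt i C)
  have h5 : Tst2 (fun y w => (1 / 2 : ℂ) • ∑ B, ∑ i, ∑ j, ((S.κ * ((∑ C, S.Dz φ ψ (zpt ψ y) i B C * wt w j C) -
      ∑ C, S.Dz φ ψ (zpt ψ y) j B C * wt w i C) : ℝ) : ℂ) • S.vec (S.g2 i j) (φ (Sum.inr B)) β (v y w)) :=
    hA.smul _ _ (t_sum hA _ _ fun B _ => t_sum hA _ _ fun i _ => t_sum hA _ _ fun j _ =>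
      t_mulT hA (fun y w => S.κ * ((∑ C, S.Dz φ ψ (zpt ψ y) i B C * wt w j C) -
        ∑ C, S.Dz φ ψ (zpt ψ y) j B C * wt w i C)) (h6 B i j) _ v hv)
  exact hA.add _ _ (hA.add _ _ h1 h4) h5

lemma sup_QZ (S : Setup d F) (φ : Spl dh dm d) (ψ : Spl r ds dh) {Y : Cfg dh} {ε R : ℝ} (v : Cfg dh → Wsp dm → F)
    (hv : Tst2 v) (hs : Sup2 Y ε R v) (β : Fin 16) : Sup2 Y ε R (QZ S φ ψ β v) := by
  intro y w h
  by_contra hn
  obtain ⟨h0, _, h2⟩ := van (calcA dh dm F) hv hs hn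
  apply h
  have h3 : ∀ j B, pf j B (v y) w = 0 := h2
  unfold QZ Setup.q1
  simp [h0, h3]

/-! ### the profile integral -/

lemma int_prof (ψ : Spl r ds dh) {ζ : Cfg r → ℂ} (hζ : ContDiff ℝ ∞ ζ) (hζc : HasCompactSupport ζ)
    {Φ : Cfg ds → F} (hΦ : Setup.Tst Φ) {R : ℝ} (hR : 0 < R) :
    Integrable (fun x : Cfg dh => ((Real.sqrt R ^ (9 * r))⁻¹) ^ 2 *
      (‖ζ (R⁻¹ • zpt ψ x)‖ ^ 2 * ‖Φ (spt ψ x)‖ ^ 2)) ∧
    ∫ x : Cfg dh, ((Real.sqrt R ^ (9 * r))⁻¹) ^ 2 * (‖ζ (R⁻¹ • zpt ψ x)‖ ^ 2 * ‖Φ (spt ψ x)‖ ^ 2) =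
      (∫ y, ‖ζ y‖ ^ 2) * nsq Φ := by
  have i1 : Integrable (fun y : Cfg r => ‖ζ y‖ ^ 2) := by
    refine Continuous.integrable_of_hasCompactSupport (by have := hζ.continuous; fun_prop) ?_
    refine hζc.mono fun y hy => ?_
    simp only [Function.mem_support] at hy ⊢
    intro h0
    exact hy (by simp [h0])
  have i2 : Integrable (fun y : Cfg r => ‖ζ (R⁻¹ • y)‖ ^ 2) := i1.comp_smul (inv_ne_zero hR.ne')
  have i3 : Integrable (fun s : Cfg ds => ‖Φ s‖ ^ 2) := by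
    refine Continuous.integrable_of_hasCompactSupport (by have := hΦ.1.continuous; fun_prop) ?_
    refine hΦ.2.mono fun y hy => ?_
    simp only [Function.mem_support] at hy ⊢
    intro h0
    exact hy (by simp [h0])
  obtain ⟨h1, h2⟩ := int_zs (dh := dh) ψ i2 i3
  refine ⟨h1.const_mul _, ?_⟩
  rw [integral_const_mul, h2]
  have h3 : ∫ y : Cfg r, ‖ζ (R⁻¹ • y)‖ ^ 2 = R ^ (9 * r) * ∫ y, ‖ζ y‖ ^ 2 := by
    have := MeasureTheory.Measure.integral_comp_inv_smul_of_nonneg (μ := (volume : Measure (Cfg r)))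
      (fun y : Cfg r => ‖ζ y‖ ^ 2) hR.le
    rw [this, smul_eq_mul]
    congr 2
    simp
  rw [h3]
  have h4 : (Real.sqrt R ^ (9 * r)) ^ 2 = R ^ (9 * r) := by
    rw [← pow_mul, mul_comm, pow_mul, Real.sq_sqrt hR.le]
  have h5 : R ^ (9 * r) ≠ 0 := pow_ne_zero _ hR.ne'
  rw [inv_pow, h4]
  unfold nsq
  field_simp

/-! ### pointwise bounds -/

lemma x1_pt (S : Setup d F) (φ : Spl dh dm d) (D : Fin 9 → Matrix (Fin dm) (Fin dm) ℝ) (β : Fin 16)
    {C R : ℝ} (hC : 0 ≤ C) (hR : 0 < R) (hD : ∀ i B E, |D i B E| ≤ C * R) (hI : ∀ B E, |(D 8)⁻¹ B E| ≤ C / R)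
    {c : ℝ → ℝ} (hc : IsCt c) {M : ℝ} (hM : ∀ t, |deriv c t| ≤ M) {ε : ℝ} (hε : 0 < ε) {N : ℝ} (hN : 0 ≤ N)
    (b : Wsp dm → ℝ) (a : F) (w : Wsp dm) (hb : DifferentiableAt ℝ b w) (hb0 : 0 ≤ b w)
    (h0 : S.q1 φ D β (fun w => ((N * b w : ℝ) : ℂ) • a) w = 0) :
    ‖S.q1 φ D β (fun w => ((N * c (‖w‖ ^ 2 / (ε * R) ^ 2) * b w : ℝ) : ℂ) • a) w‖ ^ 2 ≤
      (MV S φ * (1 + (dm : ℝ) ^ 2 * C ^ 2) * (8 * dm * (2 * M / ε))) ^ 2 * (1 / R) ^ 2 * (N ^ 2 * ‖a‖ ^ 2) *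
        (if ε / 2 * R ≤ ‖w‖ then (‖w‖ ^ 0 * b w) ^ 2 else 0) := by
  have hM0 : 0 ≤ M := (abs_nonneg _).trans (hM 0)
  have hMV := MV_nonneg S φ
  have hρ : 0 < ε * R := by positivity
  have e1 : (fun w : Wsp dm => ((N * c (‖w‖ ^ 2 / (ε * R) ^ 2) * b w : ℝ) : ℂ) • a) =
      fun w => ((c (‖w‖ ^ 2 / (ε * R) ^ 2) * (N * b w) : ℝ) : ℂ) • a := by
    funext w
    congr 2
    ring
  rw [e1, q1_cut S φ D β (fun w => c (‖w‖ ^ 2 / (ε * R) ^ 2)) (fun w => N * b w) a w (ct_diff hc _ w).1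
    (hb.const_mul N) h0]
  have e2 := XX_le S φ D β (fun j B => N * b w * fderiv ℝ (fun w : Wsp dm => c (‖w‖ ^ 2 / (ε * R) ^ 2)) w
    (EuclideanSpace.single (j, B) 1)) a hC hR hD hI
  have e3 : (∑ j : Fin 8, ∑ B : Fin dm, |N * b w * fderiv ℝ (fun w : Wsp dm => c (‖w‖ ^ 2 / (ε * R) ^ 2)) w
      (EuclideanSpace.single (j, B) 1)|) ≤ 8 * dm * (N * b w * if ε * R / 2 ≤ ‖w‖ then 2 * M / (ε * R) else 0) := by
    calc _ ≤ ∑ _j : Fin 8, ∑ _B : Fin dm, (N * b w * if ε * R / 2 ≤ ‖w‖ then 2 * M / (ε * R) else 0) := by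
          refine Finset.sum_le_sum fun j _ => Finset.sum_le_sum fun B _ => ?_
          rw [abs_mul, abs_of_nonneg (mul_nonneg hN hb0)]
          exact mul_le_mul_of_nonneg_left (ct_le hc hM hρ w j B) (mul_nonneg hN hb0)
      _ = _ := by
          simp only [Finset.sum_const, Finset.card_univ, Fintype.card_fin, nsmul_eq_mul]
          push_cast
          ring
  have e4 : ‖XX S φ D β (fun j B => N * b w * fderiv ℝ (fun w : Wsp dm => c (‖w‖ ^ 2 / (ε * R) ^ 2)) w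
    (EuclideanSpace.single (j, B) 1)) a‖ ≤ MV S φ * (1 + (dm : ℝ) ^ 2 * C ^ 2) *
      (8 * dm * (N * b w * if ε * R / 2 ≤ ‖w‖ then 2 * M / (ε * R) else 0)) * ‖a‖ :=
    e2.trans (mul_le_mul_of_nonneg_right (mul_le_mul_of_nonneg_left e3 (by positivity)) (norm_nonneg _))
  have e5 : ε * R / 2 = ε / 2 * R := by ring
  rw [e5] at e4
  refine (pow_le_pow_left₀ (norm_nonneg _) e4 2).trans (le_of_eq ?_)
  split_ifs with h
  · field_simp
  · simp

lemma x3_pt {c : ℝ → ℝ} (hc : IsCt c) {M : ℝ} (hM : ∀ t, |deriv c t| ≤ M) {ε : ℝ} (hε : 0 < ε) {N C R : ℝ}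
    (hC : 0 ≤ C) (hR : 0 < R) (hN : 0 ≤ N) (b : Wsp dm → ℝ) (a : F) (w : Wsp dm) (hb : DifferentiableAt ℝ b w)
    (hb0 : 0 ≤ b w) (hdb : ∀ j B, |fderiv ℝ b w (EuclideanSpace.single (j, B) 1)| ≤ C * R * ‖w‖ * b w) :
    (∑ j, ∑ B, ‖pf j B (fun w => ((N * c (‖w‖ ^ 2 / (ε * R) ^ 2) * b w : ℝ) : ℂ) • a) w‖) +
      R * ‖w‖ * ‖((N * c (‖w‖ ^ 2 / (ε * R) ^ 2) * b w : ℝ) : ℂ) • a‖ ≤
    (8 * dm * (2 * M / ε) + 8 * dm * C + 1) * (N * ‖a‖) * ((1 / R) * (‖w‖ ^ 0 * b w) + R * (‖w‖ ^ 1 * b w)) := by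
  have hM0 : 0 ≤ M := (abs_nonneg _).trans (hM 0)
  have hρ : 0 < ε * R := by positivity
  obtain ⟨d1, _⟩ := ct_diff hc (ε * R) w
  have d2 : DifferentiableAt ℝ (fun w : Wsp dm => N * c (‖w‖ ^ 2 / (ε * R) ^ 2) * b w) w :=
    (d1.const_mul N).mul hb
  have hcb := hc.bd (‖w‖ ^ 2 / (ε * R) ^ 2)
  have e1 : ∀ j B, ‖pf j B (fun w => ((N * c (‖w‖ ^ 2 / (ε * R) ^ 2) * b w : ℝ) : ℂ) • a) w‖ ≤
      (N * ‖a‖) * ((2 * M / ε) * ((1 / R) * b w) + C * (R * (‖w‖ * b w))) := by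
    intro j B
    rw [pf_real _ a w d2, norm_smul, Complex.norm_real, Real.norm_eq_abs]
    have h1 : fderiv ℝ (fun w : Wsp dm => N * c (‖w‖ ^ 2 / (ε * R) ^ 2) * b w) w =
        (N * c (‖w‖ ^ 2 / (ε * R) ^ 2)) • fderiv ℝ b w +
          b w • (N • fderiv ℝ (fun w : Wsp dm => c (‖w‖ ^ 2 / (ε * R) ^ 2)) w) :=
      ((d1.hasFDerivAt.const_mul N).mul hb.hasFDerivAt).fderiv
    rw [h1]
    simp only [ContinuousLinearMap.add_apply, ContinuousLinearMap.smul_apply, smul_eq_mul]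
    have h2 := ct_le hc hM hρ w j B
    have h3 : |fderiv ℝ (fun w : Wsp dm => c (‖w‖ ^ 2 / (ε * R) ^ 2)) w (EuclideanSpace.single (j, B) 1)| ≤
        2 * M / (ε * R) := by
      refine h2.trans ?_
      split_ifs
      · exact le_rfl
      · positivity
    have h4 := hdb j B
    calc |N * c (‖w‖ ^ 2 / (ε * R) ^ 2) * fderiv ℝ b w (EuclideanSpace.single (j, B) 1) +
          b w * (N * fderiv ℝ (fun w : Wsp dm => c (‖w‖ ^ 2 / (ε * R) ^ 2)) w (EuclideanSpace.single (j, B) 1))| * ‖a‖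
        ≤ (N * 1 * (C * R * ‖w‖ * b w) + b w * (N * (2 * M / (ε * R)))) * ‖a‖ := by
          refine mul_le_mul_of_nonneg_right ((abs_add_le _ _).trans (add_le_add ?_ ?_)) (norm_nonneg _)
          · rw [abs_mul, abs_mul, abs_of_nonneg hN, abs_of_nonneg hcb.1]
            exact mul_le_mul (mul_le_mul_of_nonneg_left hcb.2 hN) h4 (abs_nonneg _) (by positivity)
          · rw [abs_mul, abs_mul, abs_of_nonneg hN, abs_of_nonneg hb0]
            exact mul_le_mul_of_nonneg_left (mul_le_mul_of_nonneg_left h3 hN) hb0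
      _ = _ := by
          field_simp
          ring
  have e2 : ‖((N * c (‖w‖ ^ 2 / (ε * R) ^ 2) * b w : ℝ) : ℂ) • a‖ ≤ (N * ‖a‖) * b w := by
    rw [norm_smul, Complex.norm_real, Real.norm_eq_abs, abs_of_nonneg (mul_nonneg (mul_nonneg hN hcb.1) hb0)]
    have : N * c (‖w‖ ^ 2 / (ε * R) ^ 2) * b w ≤ N * 1 * b w :=
      mul_le_mul_of_nonneg_right (mul_le_mul_of_nonneg_left hcb.2 hN) hb0
    calc N * c (‖w‖ ^ 2 / (ε * R) ^ 2) * b w * ‖a‖ ≤ N * 1 * b w * ‖a‖ :=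
          mul_le_mul_of_nonneg_right this (norm_nonneg _)
      _ = _ := by ring
  have e3 : (∑ j : Fin 8, ∑ B : Fin dm, ‖pf j B (fun w => ((N * c (‖w‖ ^ 2 / (ε * R) ^ 2) * b w : ℝ) : ℂ) • a) w‖) ≤
      8 * dm * ((N * ‖a‖) * ((2 * M / ε) * ((1 / R) * b w) + C * (R * (‖w‖ * b w)))) := by
    calc _ ≤ ∑ _j : Fin 8, ∑ _B : Fin dm, ((N * ‖a‖) * ((2 * M / ε) * ((1 / R) * b w) + C * (R * (‖w‖ * b w)))) :=
          Finset.sum_le_sum fun j _ => Finset.sum_le_sum fun B _ => e1 j B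
      _ = _ := by
          simp only [Finset.sum_const, Finset.card_univ, Fintype.card_fin, nsmul_eq_mul]
          push_cast
          ring
  have e4 : R * ‖w‖ * ‖((N * c (‖w‖ ^ 2 / (ε * R) ^ 2) * b w : ℝ) : ℂ) • a‖ ≤ R * ‖w‖ * ((N * ‖a‖) * b w) :=
    mul_le_mul_of_nonneg_left e2 (by positivity)
  refine (add_le_add e3 e4).trans ?_
  have q1 : 0 ≤ (1 / R) * b w := by positivity
  have q2 : 0 ≤ R * (‖w‖ * b w) := by positivity
  have q3 : 0 ≤ N * ‖a‖ := by positivity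
  have q4 : 0 ≤ 8 * (dm : ℝ) * (2 * M / ε) := by positivity
  have q5 : 0 ≤ 8 * (dm : ℝ) * C := by positivity
  rw [pow_zero, one_mul, pow_one]
  have key : 8 * (dm : ℝ) * ((2 * M / ε) * ((1 / R) * b w) + C * (R * (‖w‖ * b w))) + R * (‖w‖ * b w) ≤
      (8 * dm * (2 * M / ε) + 8 * dm * C + 1) * ((1 / R) * b w + R * (‖w‖ * b w)) := by
    nlinarith [mul_nonneg q4 q2, mul_nonneg q5 q1, mul_nonneg q4 q1, mul_nonneg q5 q2]
  calc 8 * dm * ((N * ‖a‖) * ((2 * M / ε) * ((1 / R) * b w) + C * (R * (‖w‖ * b w)))) + R * ‖w‖ * ((N * ‖a‖) * b w)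
      = (N * ‖a‖) * (8 * (dm : ℝ) * ((2 * M / ε) * ((1 / R) * b w) + C * (R * (‖w‖ * b w))) + R * (‖w‖ * b w)) := by ring
    _ ≤ (N * ‖a‖) * ((8 * dm * (2 * M / ε) + 8 * dm * C + 1) * ((1 / R) * b w + R * (‖w‖ * b w))) :=
        mul_le_mul_of_nonneg_left key q3
    _ = _ := by ring

omit [InnerProductSpace ℂ F] in
lemma nsf3_le (X : Wsp dm → F) (b : Wsp dm → ℝ) {P C R : ℝ} (hR : 1 ≤ R) (hC : 0 ≤ C)
    (hX : ∀ w, ‖X w‖ ≤ P * ((1 / R) * (‖w‖ ^ 0 * b w) + R * (‖w‖ ^ 1 * b w)))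
    (i0 : Integrable fun w : Wsp dm => (‖w‖ ^ 0 * b w) ^ 2) (i1 : Integrable fun w : Wsp dm => (‖w‖ ^ 1 * b w) ^ 2)
    (m0 : ∫ w, (‖w‖ ^ 0 * b w) ^ 2 ≤ C * (1 / R) ^ 0) (m1 : ∫ w, (‖w‖ ^ 1 * b w) ^ 2 ≤ C * (1 / R) ^ 1) :
    nsf X ≤ 4 * P ^ 2 * C * R := by
  have hR0 : 0 < R := by linarith
  have hpt : ∀ w, ‖X w‖ ^ 2 ≤ 2 * P ^ 2 * ((1 / R) ^ 2 * (‖w‖ ^ 0 * b w) ^ 2 + R ^ 2 * (‖w‖ ^ 1 * b w) ^ 2) := by
    intro w
    have h13 := pow_le_pow_left₀ (norm_nonneg _) (hX w) 2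
    refine h13.trans ?_
    generalize ‖w‖ ^ 0 * b w = u
    generalize ‖w‖ ^ 1 * b w = u'
    have h15 : ((1 / R) * u + R * u') ^ 2 ≤ 2 * (((1 / R) * u) ^ 2 + (R * u') ^ 2) := by
      nlinarith [sq_nonneg ((1 / R) * u - R * u')]
    calc (P * ((1 / R) * u + R * u')) ^ 2 = P ^ 2 * ((1 / R) * u + R * u') ^ 2 := by ring
      _ ≤ P ^ 2 * (2 * (((1 / R) * u) ^ 2 + (R * u') ^ 2)) := mul_le_mul_of_nonneg_left h15 (by positivity)
      _ = _ := by ring
  calc nsf X ≤ ∫ w, 2 * P ^ 2 * ((1 / R) ^ 2 * (‖w‖ ^ 0 * b w) ^ 2 + R ^ 2 * (‖w‖ ^ 1 * b w) ^ 2) := by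
        refine integral_mono_of_nonneg (Filter.Eventually.of_forall fun w => by positivity)
          (((i0.const_mul _).add (i1.const_mul _)).const_mul _) (Filter.Eventually.of_forall fun w => hpt w)
    _ = 2 * P ^ 2 * ((1 / R) ^ 2 * (∫ w, (‖w‖ ^ 0 * b w) ^ 2) + R ^ 2 * ∫ w, (‖w‖ ^ 1 * b w) ^ 2) := by
        rw [integral_const_mul, integral_add (i0.const_mul _) (i1.const_mul _), integral_const_mul, integral_const_mul]
    _ ≤ 2 * P ^ 2 * (C * (2 * R)) := by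
        refine mul_le_mul_of_nonneg_left ?_ (by positivity)
        have e1 : (1 / R) ^ 2 * (∫ w, (‖w‖ ^ 0 * b w) ^ 2) ≤ (1 / R) ^ 2 * (C * (1 / R) ^ 0) :=
          mul_le_mul_of_nonneg_left m0 (by positivity)
        have e2 : R ^ 2 * (∫ w, (‖w‖ ^ 1 * b w) ^ 2) ≤ R ^ 2 * (C * (1 / R) ^ 1) :=
          mul_le_mul_of_nonneg_left m1 (by positivity)
        have e3 : R ^ 2 * (C * (1 / R) ^ 1) = C * R := by field_simp
        have e4 : (1 / R) ^ 2 ≤ R := by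
          have : 1 / R ≤ 1 := by rw [div_le_one hR0]; exact hR
          have h0 : 0 ≤ 1 / R := by positivity
          nlinarith
        have e5 : (1 / R) ^ 2 * (C * (1 / R) ^ 0) ≤ C * R := by
          rw [pow_zero, mul_one, mul_comm]
          exact mul_le_mul_of_nonneg_left e4 hC
        rw [e3] at e2
        linarith
    _ = _ := by ring

omit [InnerProductSpace ℂ F] in
lemma nsf1_le (X : Wsp dm → F) (b : Wsp dm → ℝ) {P δ R C : ℝ} (hP : 0 ≤ P)
    (hX : ∀ w, ‖X w‖ ^ 2 ≤ P * (if δ * R ≤ ‖w‖ then (‖w‖ ^ 0 * b w) ^ 2 else 0))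
    (i0 : Integrable fun w : Wsp dm => (‖w‖ ^ 0 * b w) ^ 2)
    (ht : ∫ w, (if δ * R ≤ ‖w‖ then (‖w‖ ^ 0 * b w) ^ 2 else 0) ≤ C) : nsf X ≤ P * C := by
  have hint : Integrable (fun w : Wsp dm => if δ * R ≤ ‖w‖ then (‖w‖ ^ 0 * b w) ^ 2 else 0) := by
    have h9 := i0.indicator (s := {w : Wsp dm | δ * R ≤ ‖w‖}) (measurableSet_le measurable_const measurable_norm)
    refine h9.congr (Filter.Eventually.of_forall fun w => ?_)
    by_cases h : δ * R ≤ ‖w‖ <;> simp [Set.indicator, h]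
  calc nsf X ≤ ∫ w, P * (if δ * R ≤ ‖w‖ then (‖w‖ ^ 0 * b w) ^ 2 else 0) :=
        integral_mono_of_nonneg (Filter.Eventually.of_forall fun w => by positivity) (hint.const_mul _)
          (Filter.Eventually.of_forall fun w => hX w)
    _ = P * ∫ w, (if δ * R ≤ ‖w‖ then (‖w‖ ^ 0 * b w) ^ 2 else 0) := integral_const_mul _ _
    _ ≤ P * C := mul_le_mul_of_nonneg_left ht hP

lemma q1_const0 (S : Setup d F) (φ : Spl dh dm d) (D : Fin 9 → Matrix (Fin dm) (Fin dm) ℝ) (β : Fin 16)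
    (w : Wsp dm) : S.q1 φ D β (fun _ => (0 : F)) w = 0 := by
  unfold Setup.q1 pf
  simp

lemma odd_QZ (S : Setup d F) (φ : Spl dh dm d) (ψ : Spl r ds dh) (β : Fin 16) (T : Cfg dh → Wsp dm → F)
    (tT : Tst2 T) (hev : ∀ x w, T x (-w) = T x w) (x : Cfg dh) (w : Wsp dm) :
    S.Q1 φ β T x (-w) - QZ S φ ψ β T x (-w) = -(S.Q1 φ β T x w - QZ S φ ψ β T x w) := by
  have h1 : ∀ (j : Fin 8) (B : Fin dm), pf j B (T x) (-w) = -pf j B (T x) w := by
    intro j B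
    have h2 := (calcA dh dm F).pw_neg j B T tT x (-w)
    have h3 : (fun y w => T y (-w)) = T := by
      funext y w
      exact hev y w
    rw [h3, neg_neg] at h2
    exact h2
  change S.q1 φ (S.DY φ x) β (T x) (-w) - S.q1 φ (S.Dz φ ψ (zpt ψ x)) β (T x) (-w) =
    -(S.q1 φ (S.DY φ x) β (T x) w - S.q1 φ (S.Dz φ ψ (zpt ψ x)) β (T x) w)
  rw [q1_odd S φ _ β (T x) w (hev x w) h1, q1_odd S φ _ β (T x) w (hev x w) h1]
  abel

lemma pack [FiniteDimensional ℂ F] (S : Setup d F) (φ : Spl dh dm d) (ψ : Spl r ds dh)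
    (Om : Cfg r → Matrix (Fin dm) (Fin dm) ℝ) (y₀ : Cfg r) {ε η R C1 C3 : ℝ} (Φ : Cfg ds → F)
    (Q X : Cfg dh → Wsp dm → F) (hR1 : 1 ≤ R) (hC1 : 0 ≤ C1) (hC3 : 0 ≤ C3) (tX : Tst2 X)
    (tX3 : Tst2 (fun x w => Q x w - X x w)) (sQ : Sup2 (cmb ψ y₀ 0) ε R Q) (sX : Sup2 (cmb ψ y₀ 0) ε R X)
    (n1 : ns2 X ≤ C1 * (1 / R) ^ 10 * nsq Φ) (n3 : ns2 (fun x w => Q x w - X x w) ≤ C3 * η ^ 2 * R * nsq Φ)
    (ho : ∀ x w, Q x (-w) - X x (-w) = -(Q x w - X x w)) :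
    DecE S φ ψ Om y₀ ε Q (fun _ _ => 0) (C1 + C3) η R Φ := by
  have hR : 0 < R := lt_of_lt_of_le one_pos hR1
  have hq0 : 0 ≤ nsq Φ := nsq_nonneg _
  have hq1 : 0 ≤ ∑ i, ∑ A, nsq (pd i A Φ) := Finset.sum_nonneg fun i _ => Finset.sum_nonneg fun A _ => nsq_nonneg _
  refine ⟨X, fun _ _ => 0, fun x w => Q x w - X x w, tX, (calcA dh dm F).zero, tX3,
    sX, fun y w h => absurd rfl h, ?_, ?_, ?_, ?_, fun x w h => absurd rfl h, ?_, ho, ?_⟩
  · intro y w h
    by_contra hn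
    have h1 : Q y w = 0 := by
      by_contra h'
      exact hn (sQ y w h')
    have h2 : X y w = 0 := by
      by_contra h'
      exact hn (sX y w h')
    refine h ?_
    show Q y w - X y w = 0
    rw [h1, h2, sub_zero]
  · intro x w
    simp
  · have e1 : (1 / R) ^ 8 ≤ 1 / R := by
      have h0 : 0 ≤ 1 / R := by positivity
      have h1 : 1 / R ≤ 1 := by rw [div_le_one hR]; exact hR1
      calc (1 / R) ^ 8 ≤ (1 / R) ^ 1 := pow_le_pow_of_le_one h0 h1 (by norm_num)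
        _ = 1 / R := pow_one _
    calc R ^ 2 * ns2 X ≤ R ^ 2 * (C1 * (1 / R) ^ 10 * nsq Φ) :=
          mul_le_mul_of_nonneg_left n1 (by positivity)
      _ = C1 * (1 / R) ^ 8 * nsq Φ := by field_simp
      _ ≤ C1 * (1 / R) * nsq Φ :=
          mul_le_mul_of_nonneg_right (mul_le_mul_of_nonneg_left e1 hC1) hq0
      _ ≤ (C1 + C3) * ((η ^ 2 + 1 / R) * nsq Φ + 1 / R * ∑ i, ∑ A, nsq (pd i A Φ)) := by
          have g1 : C1 * (1 / R) * nsq Φ ≤ (C1 + C3) * ((η ^ 2 + 1 / R) * nsq Φ) := by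
            rw [← mul_assoc]
            refine mul_le_mul_of_nonneg_right (mul_le_mul ?_ ?_ (by positivity) (by positivity)) hq0
            · linarith
            · have : 0 ≤ η ^ 2 := by positivity
              linarith
          have g2 : 0 ≤ (C1 + C3) * (1 / R * ∑ i, ∑ A, nsq (pd i A Φ)) := by positivity
          rw [mul_add]
          linarith
  · have : ns2 (fun (_ : Cfg dh) (_ : Wsp dm) => (0 : F)) = 0 := by simp [ns2]
    rw [this, mul_zero]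
    positivity
  · have : ∀ x : Cfg dh, vc S φ ψ Om (fun (_ : Cfg dh) (_ : Wsp dm) => (0 : F)) x = 0 := by
      intro x
      simp [vc]
    simp only [this]
    simp
    positivity
  · refine n3.trans ?_
    have h1 : 0 ≤ C1 * (η ^ 2 * R * nsq Φ) := by positivity
    nlinarith

end Vale.Agent.P353.Z.AE.D1p

namespace Vale.Agent.P353.Z.AE

open D1p Vale.Agent.P353.Z.AN Vale.Agent.P353.Z.AN.Sy Vale.Agent.P353.Z.AN.Op687

variable {d dh dm r ds : ℕ} {F : Type*} [NormedAddCommGroup F] [InnerProductSpace ℂ F]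

/-- **E-Dec1** -/
theorem dec1 (S : Setup d F) (φ : Spl dh dm d) (ψ : Spl r ds dh) : TRStmt S φ ψ → VacQ1Stmt S φ →
    Pert2Stmt S φ ψ → Dec1Stmt S φ ψ := by
  intro hTR hVac hPert hF hφ hc U Om V K hV y₀ ε0 C0 hy₀ hε0 hC0 hbz hbd c hct ε hε hεε ζ hζ hζs
  obtain ⟨M, hM0, hM⟩ := ct_bd hct
  obtain ⟨C2, hC2, hP⟩ := hPert hφ hc y₀ ε0 C0 hε0 hC0.le hbd
  obtain ⟨C', hC'⟩ := hbz.tail (ε / 2) (by positivity)
  have hζc : HasCompactSupport ζ := IsCompact.of_isClosed_subset (isCompact_closedBall y₀ (ε / 2))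
    (isClosed_tsupport ζ) (hζs.trans Metric.ball_subset_closedBall)
  have hMV := MV_nonneg S φ
  set K1 := MV S φ * (1 + (dm : ℝ) ^ 2 * C0 ^ 2) * (8 * dm * (2 * M / ε)) with hK1
  set A := 8 * (dm : ℝ) * (2 * M / ε) + 8 * dm * C0 + 1 with hA
  set Z := ∫ y, ‖ζ y‖ ^ 2 with hZ
  have hZ0 : 0 ≤ Z := integral_nonneg fun _ => by positivity
  have hK10 : 0 ≤ K1 := by positivity
  have hA0 : 0 ≤ A := by positivity
  refine ⟨K1 ^ 2 * |C'| * Z + 4 * (C2 * A) ^ 2 * C0 * Z, by positivity, ?_⟩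
  intro R η hR1 hη0 hη Φ hΦ β
  have hR : 0 < R := lt_of_lt_of_le one_pos hR1
  obtain ⟨tT, sT, _, _⟩ := hTR hφ hc U Om V K hV y₀ ε0 C0 hε0 hbz c hct ε hε hεε ζ hζ hζs R η hR1 hη0 hη Φ hΦ
  set T := S.TR φ ψ Om V c ε R (pp ζ Φ) with hT
  set N := (Real.sqrt R ^ (9 * r))⁻¹ with hN
  have hN0 : 0 < N := by positivity
  let a : Cfg dh → F := fun x => V (zpt ψ x) (pp ζ Φ (R⁻¹ • zpt ψ x) (spt ψ x))
  have eT : ∀ x, T x = fun w => ((N * c (‖w‖ ^ 2 / (ε * R) ^ 2) * S.bz φ ψ Om (zpt ψ x) w : ℝ) : ℂ) • a x :=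
    fun x => rfl
  have sT0 : Sup2 (cmb ψ y₀ 0) ε0 R T := by
    intro x w h
    obtain ⟨h1, h2⟩ := sT x w h
    have : ε * R ≤ ε0 * R := mul_le_mul_of_nonneg_right hεε hR.le
    exact ⟨h1.trans this, h2.trans this⟩
  -- the support
  have hsup : ∀ x, a x ≠ 0 → ‖zpt ψ x - R • y₀‖ ≤ ε0 * R ∧ zpt ψ x ∈ U ∧ ‖spt ψ x‖ ≤ η * R ∧
      ‖x - R • cmb ψ y₀ 0‖ ≤ ε0 * R := by
    intro x hx
    have h1 : ζ (R⁻¹ • zpt ψ x) ≠ 0 := by
      intro h0
      apply hx
      change V (zpt ψ x) (ζ (R⁻¹ • zpt ψ x) • Φ (spt ψ x)) = 0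
      rw [h0, zero_smul, map_zero]
    have h2 : Φ (spt ψ x) ≠ 0 := by
      intro h0
      apply hx
      change V (zpt ψ x) (ζ (R⁻¹ • zpt ψ x) • Φ (spt ψ x)) = 0
      rw [h0, smul_zero, map_zero]
    have h3 : R⁻¹ • zpt ψ x ∈ Metric.ball y₀ (ε / 2) := hζs (subset_tsupport _ h1)
    rw [mem_ball_iff_norm] at h3
    have h4 : zpt ψ x - R • y₀ = R • (R⁻¹ • zpt ψ x - y₀) := by
      rw [smul_sub, smul_smul, mul_inv_cancel₀ hR.ne', one_smul]
    have h5 : ‖zpt ψ x - R • y₀‖ ≤ ε0 * R := by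
      rw [h4, norm_smul, Real.norm_eq_abs, abs_of_pos hR]
      nlinarith
    have h6 : zpt ψ x ∈ U := hbz.inU R hR _ h5
    refine ⟨h5, h6, hΦ.sup _ h2, (sT0 x 0 ?_).1⟩
    rw [eT]
    have h7 : c (‖(0 : Wsp dm)‖ ^ 2 / (ε * R) ^ 2) = 1 := hct.one _ (by simp)
    have h8 := hbz.pos _ h6 (0 : Wsp dm)
    show ((N * c (‖(0 : Wsp dm)‖ ^ 2 / (ε * R) ^ 2) * S.bz φ ψ Om (zpt ψ x) 0 : ℝ) : ℂ) • a x ≠ 0
    rw [h7]
    refine smul_ne_zero ?_ hx
    have : N * 1 * S.bz φ ψ Om (zpt ψ x) 0 ≠ 0 := by positivity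
    exact_mod_cast this
  have hna : ∀ x, zpt ψ x ∈ U → ‖a x‖ ^ 2 = ‖ζ (R⁻¹ • zpt ψ x)‖ ^ 2 * ‖Φ (spt ψ x)‖ ^ 2 := by
    intro x hx
    change ‖V (zpt ψ x) (ζ (R⁻¹ • zpt ψ x) • Φ (spt ψ x))‖ ^ 2 = _
    rw [hV.v_n _ hx, norm_smul, mul_pow]
  have hDb : ∀ y : Cfg r, ‖y - R • y₀‖ ≤ ε0 * R → ∀ i B E, |S.Dz φ ψ y i B E| ≤ C0 * R := by
    intro y hy i B E
    refine hbd.dy R hR (cmb ψ y 0) ?_ i B E
    rw [cmb0_sub, norm_cmb0]
    exact hy
  have hIb : ∀ y : Cfg r, ‖y - R • y₀‖ ≤ ε0 * R → ∀ B E, |(S.Dz φ ψ y 8)⁻¹ B E| ≤ C0 / R := by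
    intro y hy B E
    refine hbd.inv R hR (cmb ψ y 0) ?_ B E
    rw [cmb0_sub, norm_cmb0]
    exact hy
  have hbd' : ∀ y ∈ U, ∀ w, DifferentiableAt ℝ (fun w => S.bz φ ψ Om y w) w := by
    intro y hy w
    have h1 : ContDiffOn ℝ ∞ (fun w : Wsp dm => S.bz φ ψ Om y w) Set.univ := by
      have := hbz.sm.comp (s := (Set.univ : Set (Wsp dm))) (f := fun w : Wsp dm => (y, w))
        (contDiff_const.prodMk contDiff_id).contDiffOn (fun w _ => ⟨hy, trivial⟩)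
      exact this
    exact (contDiffOn_univ.1 h1).differentiable (by simp) w
  -- the vacuum equation
  have hv0 : ∀ x, zpt ψ x ∈ U → ∀ w, S.q1 φ (S.Dz φ ψ (zpt ψ x)) β
      (fun w => ((N * S.bz φ ψ Om (zpt ψ x) w : ℝ) : ℂ) • a x) w = 0 := by
    intro x hx w
    have h1 := hVac (S.Dz φ ψ (zpt ψ x)) (Om (zpt ψ x)) (frz_Dz S φ ψ hφ hc _ (hV.det _ hx)) (hV.om _ hx) (a x)
      ((hV.v_m _ hx _).1 (K.smul_mem _ (hΦ.val _)))
      (N / Real.sqrt (∫ w', gR (S.Dz φ ψ (zpt ψ x)) (Om (zpt ψ x)) 1 w' ^ 2)) β w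
    have h2 : (fun w => ((N * S.bz φ ψ Om (zpt ψ x) w : ℝ) : ℂ) • a x) = fun w =>
        ((N / Real.sqrt (∫ w', gR (S.Dz φ ψ (zpt ψ x)) (Om (zpt ψ x)) 1 w' ^ 2) *
          gR (S.Dz φ ψ (zpt ψ x)) (Om (zpt ψ x)) 1 w : ℝ) : ℂ) • a x := by
      funext w
      unfold Setup.bz
      congr 2
      ring
    rw [h2]
    exact h1
  have hz : ∀ x, a x = 0 → T x = fun _ => 0 := by
    intro x hx
    rw [eT]
    funext w
    rw [hx, smul_zero]
  have tQ := t_Q1 S φ (calcA dh dm F) hbd hR T tT sT0 β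
  have tX := t_QZ S φ ψ hbd hR T tT sT0 β
  have sQ := sup_Q1 S φ (calcA dh dm F) (cmb ψ y₀ 0) ε R T tT sT β
  have sX := sup_QZ S φ ψ T tT sT β
  have tX3 : Tst2 (fun x w => S.Q1 φ β T x w - QZ S φ ψ β T x w) := (calcA dh dm F).sub _ _ tQ tX
  have hB := calcB dh dm F (calcA dh dm F)
  obtain ⟨iP, eP⟩ := int_prof (F := F) ψ hζ hζc hΦ.tst hR
  -- first error term
  have b1 : ∀ x, nsf (QZ S φ ψ β T x) ≤ K1 ^ 2 * (1 / R) ^ 2 * (|C'| * (1 / R) ^ 8) *
      (N ^ 2 * (‖ζ (R⁻¹ • zpt ψ x)‖ ^ 2 * ‖Φ (spt ψ x)‖ ^ 2)) := by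
    intro x
    by_cases hx : a x = 0
    · have h1 : nsf (QZ S φ ψ β T x) = 0 := by
        unfold nsf QZ
        rw [hz x hx]
        simp [q1_const0]
      rw [h1]
      positivity
    · obtain ⟨h5, h6, h7, h8⟩ := hsup x hx
      have h9 : nsf (QZ S φ ψ β T x) ≤ (K1 ^ 2 * (1 / R) ^ 2 * (N ^ 2 * ‖a x‖ ^ 2)) * (|C'| * (1 / R) ^ 8) :=
        nsf1_le (QZ S φ ψ β T x) (fun w => S.bz φ ψ Om (zpt ψ x) w) (by positivity)
          (fun w => x1_pt S φ (S.Dz φ ψ (zpt ψ x)) β hC0.le hR (hDb _ h5) (hIb _ h5) hct hM hε hN0.le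
              (fun w => S.bz φ ψ Om (zpt ψ x) w) (a x) w (hbd' _ h6 w) (hbz.pos _ h6 w).le (hv0 x h6 w))
          (hbz.int _ h6 0) ((hC' R hR1 _ h5 0 (by norm_num)).trans
            (mul_le_mul_of_nonneg_right (le_abs_self _) (by positivity)))
      refine h9.trans (le_of_eq ?_)
      rw [hna x h6]
      ring
  -- third error term
  have b3 : ∀ x, nsf (fun w => S.Q1 φ β T x w - QZ S φ ψ β T x w) ≤ 4 * (C2 * A) ^ 2 * C0 * η ^ 2 * R *
      (N ^ 2 * (‖ζ (R⁻¹ • zpt ψ x)‖ ^ 2 * ‖Φ (spt ψ x)‖ ^ 2)) := by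
    intro x
    by_cases hx : a x = 0
    · have h1 : nsf (fun w => S.Q1 φ β T x w - QZ S φ ψ β T x w) = 0 := by
        unfold nsf QZ
        simp only [Setup.Q1_eq]
        rw [hz x hx]
        simp [q1_const0]
      rw [h1]
      positivity
    · obtain ⟨h5, h6, h7, h8⟩ := hsup x hx
      have h9 : nsf (fun w => S.Q1 φ β T x w - QZ S φ ψ β T x w) ≤ 4 * (C2 * η * (A * (N * ‖a x‖))) ^ 2 * C0 * R := by
        refine nsf3_le _ (fun w => S.bz φ ψ Om (zpt ψ x) w) hR1 hC0.le (fun w => ?_) (hbz.int _ h6 0) (hbz.int _ h6 1)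
          (hbz.mom R hR _ h5 0 (by norm_num)) (hbz.mom R hR _ h5 1 (by norm_num))
        have h10 := x3_pt hct hM hε hC0.le hR hN0.le (fun w => S.bz φ ψ Om (zpt ψ x) w) (a x) w (hbd' _ h6 w)
          (hbz.pos _ h6 w).le (fun j B => hbz.dw R hR _ h5 w j B)
        have h12 : C2 * (‖spt ψ x‖ / R) ≤ C2 * η :=
          mul_le_mul_of_nonneg_left ((div_le_iff₀ hR).2 h7) hC2
        rw [mul_assoc (C2 * η)]
        exact (hP R hR x h8 (T x) β w).trans (mul_le_mul h12 h10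
          (add_nonneg (Finset.sum_nonneg fun j _ => Finset.sum_nonneg fun B _ => norm_nonneg _)
            (mul_nonneg (mul_nonneg hR.le (norm_nonneg _)) (norm_nonneg _))) (mul_nonneg hC2 hη0))
      refine h9.trans (le_of_eq ?_)
      rw [← hna x h6]
      ring
  -- integration
  have n1 : ns2 (QZ S φ ψ β T) ≤ K1 ^ 2 * |C'| * Z * (1 / R) ^ 10 * nsq Φ := by
    obtain ⟨j1, j2⟩ := hB.yw _ tX
    have h1 : ns2 (QZ S φ ψ β T) ≤ K1 ^ 2 * (1 / R) ^ 2 * (|C'| * (1 / R) ^ 8) * (Z * nsq Φ) := by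
      rw [j2, ← eP, ← integral_const_mul]
      exact integral_mono j1 (iP.const_mul _) b1
    refine h1.trans (le_of_eq ?_)
    ring
  have n3 : ns2 (fun x w => S.Q1 φ β T x w - QZ S φ ψ β T x w) ≤ 4 * (C2 * A) ^ 2 * C0 * Z * η ^ 2 * R * nsq Φ := by
    obtain ⟨j1, j2⟩ := hB.yw _ tX3
    have h1 : ns2 (fun x w => S.Q1 φ β T x w - QZ S φ ψ β T x w) ≤
        4 * (C2 * A) ^ 2 * C0 * η ^ 2 * R * (Z * nsq Φ) := by
      rw [j2, ← eP, ← integral_const_mul]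
      exact integral_mono j1 (iP.const_mul _) b3
    refine h1.trans (le_of_eq ?_)
    ring
  have hev : ∀ x w, T x (-w) = T x w := by
    intro x w
    rw [eT]
    simp only [norm_neg, hbz.ev]
  exact pack S φ ψ Om y₀ Φ (S.Q1 φ β T) (QZ S φ ψ β T) hR1 (by positivity) (by positivity) tX tX3 sQ sX n1 n3
    (odd_QZ S φ ψ β T tT hev)

end Vale.Agent.P353.Z.AE
end
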