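import Mathlib
import Vale.Agent.P353.BdZ.B2
import Vale.Agent.P353.BdA.B1

set_option linter.all false

section

/-! # P353, all `N`: the finite dimensional Clifford module of the zero modes of the internal part

`K ≤ F` is a subspace invariant under the block diagonal fermions (the reference vacuum space of the bundle), `o j` an orthonormal basis of
the `K`-valued zero modes of the semisimple part `s`. The centre fermions `θ^z` act on their span: `kset : Setup dz (ℂ^n)`. -/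

open MeasureTheory Filter Topology Matrix
open scoped ContDiff

namespace Vale.Agent.P353.Z.AJK

variable {d dh dm ds dz n : ℕ} {F : Type*} [NormedAddCommGroup F] [InnerProductSpace ℂ F]

/-- orthonormal family of `L²` functions whose span is invariant under the operators `θ_α^{ζ a}` -/
structure ZFam (S : Setup d F) (ζ : Fin dz → Fin d) (o : Fin n → Cfg ds → F) : Prop where
  inj : Function.Injective ζ
  mem : ∀ j, MemLp (o j) 2 (volume : Measure (Cfg ds))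
  orth : ∀ j k, ∫ s, inner ℂ (o j s) (o k s) = if j = k then 1 else 0
  clo : ∀ α a k, ∃ c : Fin n → ℂ, ∀ᵐ s ∂(volume : Measure (Cfg ds)), S.th α (ζ a) (o k s) = ∑ j, c j • o j s

/-- matrix elements -/
noncomputable def thM (S : Setup d F) (ζ : Fin dz → Fin d) (o : Fin n → Cfg ds → F) (α : Fin 16) (a : Fin dz) :
    Matrix (Fin n) (Fin n) ℂ := Matrix.of fun j k => ∫ s, inner ℂ (o j s) (S.th α (ζ a) (o k s))

lemma ip_int {u v : Cfg ds → F} (hu : MemLp u 2 (volume : Measure (Cfg ds))) (hv : MemLp v 2 (volume : Measure (Cfg ds))) :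
    Integrable (fun s => inner ℂ (u s) (v s)) (volume : Measure (Cfg ds)) := by
  have h := L2.integrable_inner (𝕜 := ℂ) (hu.toLp u) (hv.toLp v)
  refine h.congr ?_
  filter_upwards [hu.coeFn_toLp, hv.coeFn_toLp] with s h1 h2
  rw [h1, h2]

lemma clm_mem (T : F →L[ℂ] F) {u : Cfg ds → F} (hu : MemLp u 2 (volume : Measure (Cfg ds))) :
    MemLp (fun s => T (u s)) 2 (volume : Measure (Cfg ds)) := T.comp_memLp' hu

variable {S : Setup d F} {ζ : Fin dz → Fin d} {o : Fin n → Cfg ds → F}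

/-- coefficients are matrix elements -/
lemma ZFam.clo' (h : ZFam S ζ o) (α : Fin 16) (a : Fin dz) (k : Fin n) :
    ∀ᵐ s ∂(volume : Measure (Cfg ds)), S.th α (ζ a) (o k s) = ∑ j, thM S ζ o α a j k • o j s := by
  obtain ⟨c, hc⟩ := h.clo α a k
  have e : ∀ j, thM S ζ o α a j k = c j := by
    intro j
    simp only [thM, Matrix.of_apply]
    rw [integral_congr_ae (g := fun s => ∑ l, c l * inner ℂ (o j s) (o l s))]
    · rw [integral_finsetSum _ fun l _ => (ip_int (h.mem j) (h.mem l)).const_mul _]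
      simp only [integral_const_mul, h.orth]
      simp
    · filter_upwards [hc] with s hs
      rw [hs, inner_sum]
      exact Finset.sum_congr rfl fun l _ => by rw [inner_smul_right]
  filter_upwards [hc] with s hs
  rw [hs]
  exact Finset.sum_congr rfl fun j _ => by rw [e]

/-- products -/
lemma ZFam.mul (h : ZFam S ζ o) (α β : Fin 16) (a b : Fin dz) (j k : Fin n) :
    (thM S ζ o α a * thM S ζ o β b) j k = ∫ s, inner ℂ (o j s) (S.th α (ζ a) (S.th β (ζ b) (o k s))) := by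
  rw [Matrix.mul_apply, integral_congr_ae (g := fun s => ∑ l, thM S ζ o β b l k * inner ℂ (o j s) (S.th α (ζ a) (o l s)))]
  · rw [integral_finsetSum _ fun l _ => (ip_int (h.mem j) (clm_mem _ (h.mem l))).const_mul _]
    refine Finset.sum_congr rfl fun l _ => ?_
    rw [integral_const_mul, mul_comm]
    rfl
  · filter_upwards [h.clo' β b k] with s hs
    rw [hs, map_sum, inner_sum]
    exact Finset.sum_congr rfl fun l _ => by rw [map_smul, inner_smul_right]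

lemma ZFam.herm (_h : ZFam S ζ o) (α : Fin 16) (a : Fin dz) : (thM S ζ o α a)ᴴ = thM S ζ o α a := by
  ext j k
  rw [Matrix.conjTranspose_apply]
  simp only [thM, Matrix.of_apply]
  change (starRingEnd ℂ) _ = _
  rw [← integral_conj]
  refine integral_congr_ae (Eventually.of_forall fun s => ?_)
  change (starRingEnd ℂ) (inner ℂ (o k s) (S.th α (ζ a) (o j s))) = inner ℂ (o j s) (S.th α (ζ a) (o k s))
  rw [inner_conj_symm, S.th_sa]

/-- the Clifford system of the centre fermions on the zero modes of the internal part -/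
noncomputable def kset (S : Setup d F) (ζ : Fin dz → Fin d) (o : Fin n → Cfg ds → F) (h : ZFam S ζ o) :
    Setup dz (EuclideanSpace ℂ (Fin n)) where
  g := S.g
  g_symm := S.g_symm
  g_anti := S.g_anti
  th := fun α a => Matrix.toEuclideanCLM (𝕜 := ℂ) (thM S ζ o α a)
  th_anti := by
    intro α A β B
    have key : thM S ζ o α A * thM S ζ o β B + thM S ζ o β B * thM S ζ o α A = if α = β ∧ A = B then 1 else 0 := by
      ext j k
      rw [Matrix.add_apply, h.mul, h.mul, ← integral_add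
        (ip_int (h.mem j) (clm_mem (S.th α (ζ A)) (clm_mem (S.th β (ζ B)) (h.mem k))))
        (ip_int (h.mem j) (clm_mem (S.th β (ζ B)) (clm_mem (S.th α (ζ A)) (h.mem k))))]
      have e : ∀ s, inner ℂ (o j s) (S.th α (ζ A) (S.th β (ζ B) (o k s))) +
          inner ℂ (o j s) (S.th β (ζ B) (S.th α (ζ A) (o k s))) =
          (if α = β ∧ A = B then 1 else 0) * inner ℂ (o j s) (o k s) := by
        intro s
        rw [← inner_add_right]
        have h1 := DFunLike.congr_fun (S.th_anti α (ζ A) β (ζ B)) (o k s)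
        simp only [_root_.add_apply, mul_apply_eq_comp] at h1
        rw [h1]
        by_cases hc : α = β ∧ A = B
        · rw [if_pos hc, if_pos ⟨hc.1, congrArg ζ hc.2⟩]
          simp
        · rw [if_neg hc, if_neg (fun h2 => hc ⟨h2.1, h.inj h2.2⟩)]
          simp
      simp only [e, integral_const_mul, h.orth]
      by_cases hc : α = β ∧ A = B
      · rw [if_pos hc, if_pos hc, one_mul, Matrix.one_apply]
      · rw [if_neg hc, if_neg hc, zero_mul, Matrix.zero_apply]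
    rw [← map_mul, ← map_mul, ← map_add, key]
    by_cases hc : α = β ∧ A = B
    · rw [if_pos hc, if_pos hc, map_one]
    · rw [if_neg hc, if_neg hc, map_zero]
  κ := 1
  κ_pos := one_pos
  f := fun _ _ _ => 0
  f_swap := by intros; simp
  f_cyc := by intros; rfl
  f_jac := by intros; simp
  g_real := S.g_real
  th_sa := by
    intro α A v w
    have h1 : star (Matrix.toEuclideanCLM (𝕜 := ℂ) (thM S ζ o α A)) = Matrix.toEuclideanCLM (𝕜 := ℂ) (thM S ζ o α A) := by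
      rw [← map_star, Matrix.star_eq_conjTranspose, h.herm]
    rw [ContinuousLinearMap.star_eq_adjoint] at h1
    conv_lhs => rw [← h1]
    rw [ContinuousLinearMap.adjoint_inner_left]

lemma kset_th (h : ZFam S ζ o) (α : Fin 16) (a : Fin dz) (v : EuclideanSpace ℂ (Fin n)) (j : Fin n) :
    (kset S ζ o h).th α a v j = ∑ k, thM S ζ o α a j k * v k := by
  change (Matrix.toEuclideanCLM (𝕜 := ℂ) (thM S ζ o α a) v).ofLp j = _
  rw [Matrix.ofLp_toEuclideanCLM]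
  rfl

/-- the module structure: `θ^z` acts on `∑ v_k o_k` by `kset` -/
lemma kset_act (h : ZFam S ζ o) (α : Fin 16) (a : Fin dz) (v : EuclideanSpace ℂ (Fin n)) :
    ∀ᵐ s ∂(volume : Measure (Cfg ds)), S.th α (ζ a) (∑ k, v k • o k s) = ∑ j, (kset S ζ o h).th α a v j • o j s := by
  have h1 : ∀ᵐ s ∂(volume : Measure (Cfg ds)), ∀ k, S.th α (ζ a) (o k s) = ∑ j, thM S ζ o α a j k • o j s :=
    eventually_countable_forall.2 fun k => h.clo' α a k
  filter_upwards [h1] with s hs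
  rw [map_sum]
  simp only [map_smul, hs, kset_th, Finset.smul_sum, Finset.sum_smul, smul_smul]
  rw [Finset.sum_comm]
  exact Finset.sum_congr rfl fun j _ => Finset.sum_congr rfl fun k _ => by rw [mul_comm]

end Vale.Agent.P353.Z.AJK
end

section

/-! # P353, all `N`, block E: E-TR, basic facts on the trial functions (helper922) -/

open MeasureTheory Filter Topology
open scoped ContDiff

namespace Vale.Agent.P353.Z.AE

variable {d dh dm r ds : ℕ} {F : Type*} [NormedAddCommGroup F] [InnerProductSpace ℂ F]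

/-- index map of the splitting `h = z + s` -/
def trfIdx (ψ : Spl r ds dh) : (Fin 9 × Fin r) ⊕ (Fin 9 × Fin ds) → Fin 9 × Fin dh :=
  Sum.elim (fun p => (p.1, ψ (Sum.inl p.2))) fun p => (p.1, ψ (Sum.inr p.2))

theorem trfIdx_bijective (ψ : Spl r ds dh) : Function.Bijective (trfIdx ψ) := by
  constructor
  · rintro (⟨i, A⟩ | ⟨i, A⟩) (⟨i', A'⟩ | ⟨i', A'⟩) h
    all_goals simp only [trfIdx, Sum.elim_inl, Sum.elim_inr, Prod.mk.injEq,
      EmbeddingLike.apply_eq_iff_eq, Sum.inr.injEq, Sum.inl.injEq, reduceCtorEq, and_false] at h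
    · rw [h.1, h.2]
    · rw [h.1, h.2]
  · rintro ⟨i, A⟩
    obtain ⟨s, rfl⟩ := ψ.surjective A
    rcases s with A | B
    · exact ⟨Sum.inl (i, A), rfl⟩
    · exact ⟨Sum.inr (i, B), rfl⟩

/-- the index equivalence -/
noncomputable def trfEquiv (ψ : Spl r ds dh) : (Fin 9 × Fin r) ⊕ (Fin 9 × Fin ds) ≃ Fin 9 × Fin dh :=
  Equiv.ofBijective _ (trfIdx_bijective ψ)

theorem trf_mp (ψ : Spl r ds dh) :
    MeasurePreserving (fun x : Cfg dh => (zpt ψ x, spt ψ x)) volume (volume.prod volume) := by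
  have m1 := PiLp.volume_preserving_ofLp (Fin 9 × Fin dh)
  have m2 := (volume_measurePreserving_piCongrLeft (fun _ : Fin 9 × Fin dh => ℝ)
    (trfEquiv ψ)).symm
  have m3 := volume_measurePreserving_sumPiEquivProdPi
    (fun _ : (Fin 9 × Fin r) ⊕ (Fin 9 × Fin ds) => ℝ)
  have n1 := PiLp.volume_preserving_toLp (Fin 9 × Fin r)
  have n2 := PiLp.volume_preserving_toLp (Fin 9 × Fin ds)
  exact (n1.prod n2).comp (m3.comp (m2.comp m1))

theorem trf_norm (ψ : Spl r ds dh) (x : Cfg dh) : ‖x‖ ^ 2 = ‖zpt ψ x‖ ^ 2 + ‖spt ψ x‖ ^ 2 := by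
  rw [EuclideanSpace.real_norm_sq_eq, EuclideanSpace.real_norm_sq_eq, EuclideanSpace.real_norm_sq_eq,
    ← Equiv.sum_comp (trfEquiv ψ) (fun p => x p ^ 2), Fintype.sum_sum_type]
  rfl

theorem trf_zpt_sub (ψ : Spl r ds dh) (x : Cfg dh) (R : ℝ) (y₀ : Cfg r) :
    zpt ψ (x - R • cmb ψ y₀ 0) = zpt ψ x - R • y₀ := by
  ext p
  simp [zpt, cmb]

theorem trf_spt_sub (ψ : Spl r ds dh) (x : Cfg dh) (R : ℝ) (y₀ : Cfg r) :
    spt ψ (x - R • cmb ψ y₀ 0) = spt ψ x := by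
  ext p
  simp [spt, cmb]

theorem trf_zpt_c (ψ : Spl r ds dh) : ContDiff ℝ ∞ (fun x : Cfg dh => zpt ψ x) := by
  rw [contDiff_euclidean]
  intro p
  change ContDiff ℝ ∞ (fun x : Cfg dh => x (p.1, ψ (Sum.inl p.2)))
  fun_prop

theorem trf_spt_c (ψ : Spl r ds dh) : ContDiff ℝ ∞ (fun x : Cfg dh => spt ψ x) := by
  rw [contDiff_euclidean]
  intro p
  change ContDiff ℝ ∞ (fun x : Cfg dh => x (p.1, ψ (Sum.inr p.2)))
  fun_prop


/-- the three supports of a trial function -/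
theorem trf_supp (S : Setup d F) (φ : Spl dh dm d) (ψ : Spl r ds dh)
    (Om : Cfg r → Matrix (Fin dm) (Fin dm) ℝ) (V : Cfg r → F →L[ℂ] F) (K : Submodule ℂ F) (y₀ : Cfg r)
    (c : ℝ → ℝ) (hc : IsCt c) (ε : ℝ) (hε : 0 < ε) (ζ : Cfg r → ℂ)
    (hζs : tsupport ζ ⊆ Metric.ball y₀ (ε / 2)) (R η : ℝ) (hR : 1 ≤ R)
    (Φ : Cfg ds → F) (hΦ : IntF K η R Φ) (x : Cfg dh) (w : Wsp dm)
    (h : S.TR φ ψ Om V c ε R (pp ζ Φ) x w ≠ 0) :
    ‖zpt ψ x - R • y₀‖ ≤ ε / 2 * R ∧ ‖spt ψ x‖ ≤ η * R ∧ ‖w‖ ≤ ε * R := by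
  have hR0 : 0 < R := lt_of_lt_of_le one_pos hR
  have h1 : V (zpt ψ x) (pp ζ Φ (R⁻¹ • zpt ψ x) (spt ψ x)) ≠ 0 := right_ne_zero_of_smul h
  have h2 : pp ζ Φ (R⁻¹ • zpt ψ x) (spt ψ x) ≠ 0 := fun h0 => h1 (by rw [h0, map_zero])
  have h3 : ζ (R⁻¹ • zpt ψ x) ≠ 0 := left_ne_zero_of_smul h2
  have h4 : Φ (spt ψ x) ≠ 0 := right_ne_zero_of_smul h2
  have h5 : (Real.sqrt R ^ (9 * r))⁻¹ * c (‖w‖ ^ 2 / (ε * R) ^ 2) * S.bz φ ψ Om (zpt ψ x) w ≠ 0 := by
    intro h0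
    apply h
    show (((Real.sqrt R ^ (9 * r))⁻¹ * c (‖w‖ ^ 2 / (ε * R) ^ 2) * S.bz φ ψ Om (zpt ψ x) w : ℝ) : ℂ) • _ = _
    rw [h0, Complex.ofReal_zero, zero_smul]
  have h6 : c (‖w‖ ^ 2 / (ε * R) ^ 2) ≠ 0 := right_ne_zero_of_mul (left_ne_zero_of_mul h5)
  refine ⟨?_, hΦ.sup _ h4, ?_⟩
  · have h7 : R⁻¹ • zpt ψ x ∈ Metric.ball y₀ (ε / 2) := hζs (subset_tsupport _ h3)
    rw [Metric.mem_ball, dist_eq_norm] at h7
    have h8 : zpt ψ x - R • y₀ = R • (R⁻¹ • zpt ψ x - y₀) := by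
      rw [smul_sub, smul_smul, mul_inv_cancel₀ hR0.ne', one_smul]
    rw [h8, norm_smul, Real.norm_of_nonneg hR0.le, mul_comm]
    exact mul_le_mul_of_nonneg_right h7.le hR0.le
  · by_contra h9
    push Not at h9
    apply h6
    apply hc.zero
    have h10 : 0 < ε * R := mul_pos hε hR0
    rw [le_div_iff₀ (by positivity), one_mul]
    exact pow_le_pow_left₀ h10.le h9.le 2

/-- the support lies in the tube -/
theorem trf_sup2 (S : Setup d F) (φ : Spl dh dm d) (ψ : Spl r ds dh)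
    (Om : Cfg r → Matrix (Fin dm) (Fin dm) ℝ) (V : Cfg r → F →L[ℂ] F) (K : Submodule ℂ F) (y₀ : Cfg r)
    (c : ℝ → ℝ) (hc : IsCt c) (ε : ℝ) (hε : 0 < ε) (ζ : Cfg r → ℂ)
    (hζs : tsupport ζ ⊆ Metric.ball y₀ (ε / 2)) (R η : ℝ) (hR : 1 ≤ R) (hηε : η ≤ ε / 2)
    (Φ : Cfg ds → F) (hΦ : IntF K η R Φ) :
    Sup2 (cmb ψ y₀ 0) ε R (S.TR φ ψ Om V c ε R (pp ζ Φ)) := by
  intro x w h
  obtain ⟨h1, h2, h3⟩ := trf_supp S φ ψ Om V K y₀ c hc ε hε ζ hζs R η hR Φ hΦ x w h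
  refine ⟨?_, h3⟩
  have hR0 : 0 < R := lt_of_lt_of_le one_pos hR
  have h10 : 0 < ε * R := mul_pos hε hR0
  have h4 : ‖spt ψ x‖ ≤ ε / 2 * R := h2.trans (mul_le_mul_of_nonneg_right hηε hR0.le)
  have h5 := trf_norm ψ (x - R • cmb ψ y₀ 0)
  rw [trf_zpt_sub, trf_spt_sub] at h5
  have h6 : ‖zpt ψ x - R • y₀‖ ^ 2 ≤ (ε / 2 * R) ^ 2 := pow_le_pow_left₀ (norm_nonneg _) h1 2
  have h7 : ‖spt ψ x‖ ^ 2 ≤ (ε / 2 * R) ^ 2 := pow_le_pow_left₀ (norm_nonneg _) h4 2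
  apply le_of_sq_le_sq _ h10.le
  nlinarith [sq_nonneg (ε * R)]

/-- the support of the centre part lies over `U` -/
theorem trf_inU (S : Setup d F) (φ : Spl dh dm d) (ψ : Spl r ds dh) (U : Set (Cfg r))
    (Om : Cfg r → Matrix (Fin dm) (Fin dm) ℝ) (y₀ : Cfg r) (ε0 C0 : ℝ) (hB : BzFacts S φ ψ U Om y₀ ε0 C0)
    (ε : ℝ) (hε : 0 < ε) (hε0 : ε ≤ ε0) (R : ℝ) (hR : 1 ≤ R) (y : Cfg r)
    (h : R⁻¹ • y ∈ Metric.ball y₀ (ε / 2)) : y ∈ U := by
  have hR0 : 0 < R := lt_of_lt_of_le one_pos hR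
  apply hB.inU R hR0
  rw [Metric.mem_ball, dist_eq_norm] at h
  have h8 : y - R • y₀ = R • (R⁻¹ • y - y₀) := by
    rw [smul_sub, smul_smul, mul_inv_cancel₀ hR0.ne', one_smul]
  rw [h8, norm_smul, Real.norm_of_nonneg hR0.le, mul_comm]
  apply mul_le_mul_of_nonneg_right _ hR0.le
  linarith


/-- evaluation of the frame on a vector is smooth -/
theorem trf_V {E : Type*} [NormedAddCommGroup E] [NormedSpace ℝ E] (V : Cfg r → F →L[ℂ] F)
    (U : Set (Cfg r)) (hU : IsOpen U) (hV : ContDiffOn ℝ ∞ V U) (g : E → Cfg r) (u : E → F) (p : E)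
    (hg : ContDiffAt ℝ ∞ g p) (hu : ContDiffAt ℝ ∞ u p) (hp : g p ∈ U) :
    ContDiffAt ℝ ∞ (fun q => V (g q) (u q)) p := by
  have h1 : ContDiffAt ℝ ∞ V (g p) := hV.contDiffAt (hU.mem_nhds hp)
  have h2 : ContDiffAt ℝ ∞ (fun q => V (g q)) p := h1.comp p hg
  have h3 : ContDiffAt ℝ ∞ (fun q => ContinuousLinearMap.restrictScalarsL ℂ F F ℝ ℝ (V (g q))) p :=
    (ContinuousLinearMap.restrictScalarsL ℂ F F ℝ ℝ).contDiff.contDiffAt.comp p h2
  exact h3.clm_apply hu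

theorem trf_sm (S : Setup d F) (φ : Spl dh dm d) (ψ : Spl r ds dh) (U : Set (Cfg r))
    (Om : Cfg r → Matrix (Fin dm) (Fin dm) ℝ) (V : Cfg r → F →L[ℂ] F) (hU : IsOpen U)
    (hV : ContDiffOn ℝ ∞ V U) (y₀ : Cfg r) (ε0 C0 : ℝ) (hB : BzFacts S φ ψ U Om y₀ ε0 C0)
    (c : ℝ → ℝ) (hc : IsCt c) (ε : ℝ) (hε : 0 < ε) (hε0 : ε ≤ ε0) (ζ : Cfg r → ℂ) (hζ : ContDiff ℝ ∞ ζ)
    (hζs : tsupport ζ ⊆ Metric.ball y₀ (ε / 2)) (R : ℝ) (hR : 1 ≤ R)
    (Φ : Cfg ds → F) (hΦ : ContDiff ℝ ∞ Φ) :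
    ContDiff ℝ ∞ (fun p : Cfg dh × Wsp dm => S.TR φ ψ Om V c ε R (pp ζ Φ) p.1 p.2) := by
  rw [contDiff_iff_contDiffAt]
  intro p
  have hz : ContDiff ℝ ∞ (fun q : Cfg dh × Wsp dm => zpt ψ q.1) := (trf_zpt_c ψ).comp contDiff_fst
  have hs : ContDiff ℝ ∞ (fun q : Cfg dh × Wsp dm => spt ψ q.1) := (trf_spt_c ψ).comp contDiff_fst
  have hRz : ContDiff ℝ ∞ (fun q : Cfg dh × Wsp dm => R⁻¹ • zpt ψ q.1) := hz.const_smul R⁻¹
  by_cases hp : R⁻¹ • zpt ψ p.1 ∈ tsupport ζ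
  · have hpU : zpt ψ p.1 ∈ U := trf_inU S φ ψ U Om y₀ ε0 C0 hB ε hε hε0 R hR _ (hζs hp)
    have h1 : ContDiff ℝ ∞ (fun q : Cfg dh × Wsp dm => c (‖q.2‖ ^ 2 / (ε * R) ^ 2)) :=
      hc.sm.comp (((contDiff_norm_sq ℝ).comp contDiff_snd).div_const _)
    have h2 : ContDiffAt ℝ ∞ (fun q : Cfg r × Wsp dm => S.bz φ ψ Om q.1 q.2) (zpt ψ p.1, p.2) :=
      hB.sm.contDiffAt ((hU.prod isOpen_univ).mem_nhds ⟨hpU, Set.mem_univ _⟩)
    have h3 : ContDiffAt ℝ ∞ (fun q : Cfg dh × Wsp dm => S.bz φ ψ Om (zpt ψ q.1) q.2) p :=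
      ContDiffAt.comp (g := fun q : Cfg r × Wsp dm => S.bz φ ψ Om q.1 q.2)
        (f := fun q : Cfg dh × Wsp dm => (zpt ψ q.1, q.2)) p h2 ((hz.prodMk contDiff_snd).contDiffAt)
    have h4 : ContDiffAt ℝ ∞ (fun q : Cfg dh × Wsp dm =>
        (Real.sqrt R ^ (9 * r))⁻¹ * c (‖q.2‖ ^ 2 / (ε * R) ^ 2) * S.bz φ ψ Om (zpt ψ q.1) q.2) p :=
      (contDiffAt_const.mul h1.contDiffAt).mul h3
    have h5 : ContDiffAt ℝ ∞ (fun q : Cfg dh × Wsp dm =>
        (((Real.sqrt R ^ (9 * r))⁻¹ * c (‖q.2‖ ^ 2 / (ε * R) ^ 2) * S.bz φ ψ Om (zpt ψ q.1) q.2 : ℝ) : ℂ)) p :=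
      Complex.ofRealCLM.contDiff.contDiffAt.comp p h4
    have h6 : ContDiff ℝ ∞ (fun q : Cfg dh × Wsp dm => ζ (R⁻¹ • zpt ψ q.1)) := hζ.comp hRz
    have h7 : ContDiff ℝ ∞ (fun q : Cfg dh × Wsp dm => Φ (spt ψ q.1)) := hΦ.comp hs
    have h8 : ContDiffAt ℝ ∞ (fun q : Cfg dh × Wsp dm => ζ (R⁻¹ • zpt ψ q.1) • Φ (spt ψ q.1)) p :=
      (h6.smul h7).contDiffAt
    have h9 : ContDiffAt ℝ ∞ (fun q : Cfg dh × Wsp dm =>
        V (zpt ψ q.1) (ζ (R⁻¹ • zpt ψ q.1) • Φ (spt ψ q.1))) p :=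
      trf_V V U hU hV (fun q : Cfg dh × Wsp dm => zpt ψ q.1) _ p hz.contDiffAt h8 hpU
    exact h5.smul h9
  · have h1 : IsOpen {q : Cfg dh × Wsp dm | R⁻¹ • zpt ψ q.1 ∈ (tsupport ζ)ᶜ} :=
      (isClosed_tsupport ζ).isOpen_compl.preimage hRz.continuous
    have h2 : (fun q : Cfg dh × Wsp dm => S.TR φ ψ Om V c ε R (pp ζ Φ) q.1 q.2) =ᶠ[𝓝 p] fun _ => 0 := by
      filter_upwards [h1.mem_nhds hp] with q hq
      have h3 : ζ (R⁻¹ • zpt ψ q.1) = 0 := image_eq_zero_of_notMem_tsupport hq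
      show _ • V (zpt ψ q.1) (ζ (R⁻¹ • zpt ψ q.1) • Φ (spt ψ q.1)) = 0
      rw [h3, zero_smul, map_zero, smul_zero]
    exact contDiffAt_const.congr_of_eventuallyEq h2


theorem trf_int {X E : Type*} [TopologicalSpace X] [T2Space X] [MeasurableSpace X]
    [OpensMeasurableSpace X]
    [NormedAddCommGroup E] (μ : Measure X) [IsFiniteMeasureOnCompacts μ] (f : X → E)
    (hf : Continuous f) (hc : HasCompactSupport f) : Integrable (fun x => ‖f x‖ ^ 2) μ := by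
  have h1 : Continuous (fun x => ‖f x‖ ^ 2) := hf.norm.pow 2
  have h2 : HasCompactSupport (fun x => ‖f x‖ ^ 2) :=
    HasCompactSupport.intro hc fun x hx => by
      rw [image_eq_zero_of_notMem_tsupport hx, norm_zero, zero_pow two_ne_zero]
  exact h1.integrable_of_hasCompactSupport h2

omit [InnerProductSpace ℂ F] in
/-- compact support -/
theorem trf_cs {T : Cfg dh → Wsp dm → F} {Y : Cfg dh} {ε R : ℝ} (h : Sup2 Y ε R T) :
    HasCompactSupport (fun p : Cfg dh × Wsp dm => T p.1 p.2) := by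
  have hK : IsCompact (Metric.closedBall (R • Y) (ε * R) ×ˢ Metric.closedBall (0 : Wsp dm) (ε * R)) :=
    (isCompact_closedBall _ _).prod (isCompact_closedBall _ _)
  refine HasCompactSupport.intro hK fun p hp => ?_
  by_contra h0
  obtain ⟨h1, h2⟩ := h p.1 p.2 h0
  apply hp
  refine ⟨?_, ?_⟩
  · rw [Metric.mem_closedBall, dist_eq_norm]
    exact h1
  · rw [Metric.mem_closedBall, dist_zero_right]
    exact h2

/-- fibre norm -/
theorem trf_fib (S : Setup d F) (φ : Spl dh dm d) (ψ : Spl r ds dh) (U : Set (Cfg r))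
    (Om : Cfg r → Matrix (Fin dm) (Fin dm) ℝ) (V : Cfg r → F →L[ℂ] F)
    (hV : ∀ y ∈ U, ∀ v, ‖V y v‖ = ‖v‖) (y₀ : Cfg r) (ε0 C0 : ℝ) (hB : BzFacts S φ ψ U Om y₀ ε0 C0)
    (c : ℝ → ℝ) (hc : IsCt c) (ε : ℝ) (hε : 0 < ε) (hε0 : ε ≤ ε0) (ζ : Cfg r → ℂ)
    (hζs : tsupport ζ ⊆ Metric.ball y₀ (ε / 2)) (R : ℝ) (hR : 1 ≤ R) (Φ : Cfg ds → F) (x : Cfg dh) :
    ∫ w, ‖S.TR φ ψ Om V c ε R (pp ζ Φ) x w‖ ^ 2 ≤
      (R ^ (9 * r))⁻¹ * (‖ζ (R⁻¹ • zpt ψ x)‖ ^ 2 * ‖Φ (spt ψ x)‖ ^ 2) := by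
  have hR0 : 0 < R := lt_of_lt_of_le one_pos hR
  by_cases hz : ζ (R⁻¹ • zpt ψ x) = 0
  · have h1 : ∀ w, S.TR φ ψ Om V c ε R (pp ζ Φ) x w = 0 := by
      intro w
      show _ • V (zpt ψ x) (ζ (R⁻¹ • zpt ψ x) • Φ (spt ψ x)) = 0
      rw [hz, zero_smul, map_zero, smul_zero]
    simp only [h1, norm_zero, hz]
    simp
  · have hU : zpt ψ x ∈ U :=
      trf_inU S φ ψ U Om y₀ ε0 C0 hB ε hε hε0 R hR _ (hζs (subset_tsupport _ hz))
    have h1 : ∀ w, ‖S.TR φ ψ Om V c ε R (pp ζ Φ) x w‖ ^ 2 ≤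
        (R ^ (9 * r))⁻¹ * (‖ζ (R⁻¹ • zpt ψ x)‖ ^ 2 * ‖Φ (spt ψ x)‖ ^ 2) * S.bz φ ψ Om (zpt ψ x) w ^ 2 := by
      intro w
      have h2 : ‖S.TR φ ψ Om V c ε R (pp ζ Φ) x w‖ =
          (Real.sqrt R ^ (9 * r))⁻¹ * c (‖w‖ ^ 2 / (ε * R) ^ 2) * S.bz φ ψ Om (zpt ψ x) w *
            (‖ζ (R⁻¹ • zpt ψ x)‖ * ‖Φ (spt ψ x)‖) := by
        have h3 : S.TR φ ψ Om V c ε R (pp ζ Φ) x w =
          (((Real.sqrt R ^ (9 * r))⁻¹ * c (‖w‖ ^ 2 / (ε * R) ^ 2) * S.bz φ ψ Om (zpt ψ x) w : ℝ) : ℂ) •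
            V (zpt ψ x) (ζ (R⁻¹ • zpt ψ x) • Φ (spt ψ x)) := rfl
        have h4 : 0 ≤ (Real.sqrt R ^ (9 * r))⁻¹ * c (‖w‖ ^ 2 / (ε * R) ^ 2) * S.bz φ ψ Om (zpt ψ x) w :=
          mul_nonneg (mul_nonneg (inv_nonneg.2 (pow_nonneg (Real.sqrt_nonneg _) _)) (hc.bd _).1)
            (hB.pos _ hU w).le
        rw [h3, norm_smul, hV _ hU, norm_smul, Complex.norm_real, Real.norm_of_nonneg h4]
      have h5 : (Real.sqrt R ^ (9 * r)) ^ 2 = R ^ (9 * r) := by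
        rw [← pow_mul, mul_comm, pow_mul, Real.sq_sqrt hR0.le]
      have h6 : c (‖w‖ ^ 2 / (ε * R) ^ 2) ^ 2 ≤ 1 :=
        pow_le_one₀ (hc.bd _).1 (hc.bd _).2
      have h7 : ‖S.TR φ ψ Om V c ε R (pp ζ Φ) x w‖ ^ 2 =
          (R ^ (9 * r))⁻¹ * (‖ζ (R⁻¹ • zpt ψ x)‖ ^ 2 * ‖Φ (spt ψ x)‖ ^ 2) * S.bz φ ψ Om (zpt ψ x) w ^ 2 *
            c (‖w‖ ^ 2 / (ε * R) ^ 2) ^ 2 := by
        rw [h2, ← h5]
        ring
      rw [h7]
      have h8 : 0 ≤ (R ^ (9 * r))⁻¹ * (‖ζ (R⁻¹ • zpt ψ x)‖ ^ 2 * ‖Φ (spt ψ x)‖ ^ 2) *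
          S.bz φ ψ Om (zpt ψ x) w ^ 2 := by positivity
      exact mul_le_of_le_one_right h8 h6
    have h2 : Integrable fun w : Wsp dm => S.bz φ ψ Om (zpt ψ x) w ^ 2 := by
      have h3 := hB.int _ hU 0
      simpa only [pow_zero, one_mul] using h3
    calc ∫ w, ‖S.TR φ ψ Om V c ε R (pp ζ Φ) x w‖ ^ 2
        ≤ ∫ w, (R ^ (9 * r))⁻¹ * (‖ζ (R⁻¹ • zpt ψ x)‖ ^ 2 * ‖Φ (spt ψ x)‖ ^ 2) *
            S.bz φ ψ Om (zpt ψ x) w ^ 2 :=
          integral_mono_of_nonneg (Eventually.of_forall fun w => by positivity) (h2.const_mul _)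
            (Eventually.of_forall h1)
      _ = (R ^ (9 * r))⁻¹ * (‖ζ (R⁻¹ • zpt ψ x)‖ ^ 2 * ‖Φ (spt ψ x)‖ ^ 2) := by
          rw [integral_const_mul, hB.norm _ hU, mul_one]

/-- substitution -/
theorem trf_sub (ζ : Cfg r → ℂ) (R : ℝ) (hR : 0 < R) :
    (R ^ (9 * r))⁻¹ * (∫ y : Cfg r, ‖ζ (R⁻¹ • y)‖ ^ 2) = ∫ y : Cfg r, ‖ζ y‖ ^ 2 := by
  have h1 := Measure.integral_comp_inv_smul_of_nonneg (volume : Measure (Cfg r)) (fun y => ‖ζ y‖ ^ 2) hR.le
  have h2 : Module.finrank ℝ (Cfg r) = 9 * r := by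
    rw [finrank_euclideanSpace]
    simp
  rw [h1, h2, smul_eq_mul, ← mul_assoc, inv_mul_cancel₀ (pow_ne_zero _ hR.ne'), one_mul]

theorem trf_nrm (S : Setup d F) (φ : Spl dh dm d) (ψ : Spl r ds dh) (U : Set (Cfg r))
    (Om : Cfg r → Matrix (Fin dm) (Fin dm) ℝ) (V : Cfg r → F →L[ℂ] F)
    (hV : ∀ y ∈ U, ∀ v, ‖V y v‖ = ‖v‖) (y₀ : Cfg r) (ε0 C0 : ℝ) (hB : BzFacts S φ ψ U Om y₀ ε0 C0)
    (c : ℝ → ℝ) (hc : IsCt c) (ε : ℝ) (hε : 0 < ε) (hε0 : ε ≤ ε0) (ζ : Cfg r → ℂ) (hζ : ContDiff ℝ ∞ ζ)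
    (hζs : tsupport ζ ⊆ Metric.ball y₀ (ε / 2)) (R : ℝ) (hR : 1 ≤ R) (Φ : Cfg ds → F)
    (hΦ : Setup.Tst Φ) (hT : Tst2 (S.TR φ ψ Om V c ε R (pp ζ Φ))) :
    ns2 (S.TR φ ψ Om V c ε R (pp ζ Φ)) ≤ (∫ y, ‖ζ y‖ ^ 2) * nsq Φ := by
  have hR0 : 0 < R := lt_of_lt_of_le one_pos hR
  -- integrability of the trial function
  have hTi : Integrable (fun p : Cfg dh × Wsp dm => ‖S.TR φ ψ Om V c ε R (pp ζ Φ) p.1 p.2‖ ^ 2)
      ((volume : Measure (Cfg dh)).prod (volume : Measure (Wsp dm))) :=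
    trf_int _ _ hT.1.continuous hT.2
  -- the product function on `Cfg r × Cfg ds`
  have hζc : HasCompactSupport ζ :=
    HasCompactSupport.intro (isCompact_closedBall y₀ (ε / 2)) fun y hy => by
      by_contra h0
      exact hy (Metric.ball_subset_closedBall (hζs (subset_tsupport _ h0)))
  have hi1 : Integrable (fun y : Cfg r => ‖ζ y‖ ^ 2) := trf_int _ _ hζ.continuous hζc
  have hi2 : Integrable (fun y : Cfg r => ‖ζ (R⁻¹ • y)‖ ^ 2) := by
    exact hi1.comp_smul (inv_ne_zero hR0.ne')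
  have hi3 : Integrable (fun s : Cfg ds => ‖Φ s‖ ^ 2) := trf_int _ _ hΦ.1.continuous hΦ.2
  have hi4 : Integrable (fun q : Cfg r × Cfg ds => (R ^ (9 * r))⁻¹ * (‖ζ (R⁻¹ • q.1)‖ ^ 2 * ‖Φ q.2‖ ^ 2))
      ((volume : Measure (Cfg r)).prod (volume : Measure (Cfg ds))) :=
    (hi2.mul_prod hi3).const_mul _
  have hi5 : Integrable (fun x : Cfg dh =>
      (R ^ (9 * r))⁻¹ * (‖ζ (R⁻¹ • zpt ψ x)‖ ^ 2 * ‖Φ (spt ψ x)‖ ^ 2)) :=
    (trf_mp ψ).integrable_comp_of_integrable hi4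
  have h1 : ∫ x : Cfg dh, (R ^ (9 * r))⁻¹ * (‖ζ (R⁻¹ • zpt ψ x)‖ ^ 2 * ‖Φ (spt ψ x)‖ ^ 2) =
      ∫ q : Cfg r × Cfg ds, (R ^ (9 * r))⁻¹ * (‖ζ (R⁻¹ • q.1)‖ ^ 2 * ‖Φ q.2‖ ^ 2)
        ∂((volume : Measure (Cfg r)).prod (volume : Measure (Cfg ds))) := by
    have h2 := (trf_mp ψ).map_eq
    rw [← h2]
    rw [integral_map (trf_mp ψ).measurable.aemeasurable]
    rw [h2]
    exact hi4.aestronglyMeasurable
  have h2 : ∫ q : Cfg r × Cfg ds, (R ^ (9 * r))⁻¹ * (‖ζ (R⁻¹ • q.1)‖ ^ 2 * ‖Φ q.2‖ ^ 2)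
        ∂((volume : Measure (Cfg r)).prod (volume : Measure (Cfg ds))) =
      (R ^ (9 * r))⁻¹ * ((∫ y : Cfg r, ‖ζ (R⁻¹ • y)‖ ^ 2) * ∫ s : Cfg ds, ‖Φ s‖ ^ 2) := by
    rw [integral_const_mul, integral_prod_mul (fun y : Cfg r => ‖ζ (R⁻¹ • y)‖ ^ 2) (fun s : Cfg ds => ‖Φ s‖ ^ 2)]
  calc ns2 (S.TR φ ψ Om V c ε R (pp ζ Φ))
      = ∫ x, ∫ w, ‖S.TR φ ψ Om V c ε R (pp ζ Φ) x w‖ ^ 2 := integral_prod _ hTi
    _ ≤ ∫ x : Cfg dh, (R ^ (9 * r))⁻¹ * (‖ζ (R⁻¹ • zpt ψ x)‖ ^ 2 * ‖Φ (spt ψ x)‖ ^ 2) :=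
        integral_mono hTi.integral_prod_left hi5
          (trf_fib S φ ψ U Om V hV y₀ ε0 C0 hB c hc ε hε hε0 ζ hζs R hR Φ)
    _ = (R ^ (9 * r))⁻¹ * ((∫ y : Cfg r, ‖ζ (R⁻¹ • y)‖ ^ 2) * ∫ s : Cfg ds, ‖Φ s‖ ^ 2) := h1.trans h2
    _ = (∫ y, ‖ζ y‖ ^ 2) * nsq Φ := by
        rw [← mul_assoc, trf_sub ζ R hR0]
        rfl

/-- **E-TR** basic facts on the trial functions -/
theorem trf (S : Setup d F) (φ : Spl dh dm d) (ψ : Spl r ds dh) : TRStmt S φ ψ := by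
  intro _ _ U Om V K hF y₀ ε0 C0 _ hB c hc ε hε hε0 ζ hζ hζs R η hR _ hηε Φ hΦ
  have h1 := trf_sup2 S φ ψ Om V K y₀ c hc ε hε ζ hζs R η hR hηε Φ hΦ
  have h2 : Tst2 (S.TR φ ψ Om V c ε R (pp ζ Φ)) :=
    ⟨trf_sm S φ ψ U Om V hF.opn hF.v_c y₀ ε0 C0 hB c hc ε hε hε0 ζ hζ hζs R hR Φ hΦ.tst.1, trf_cs h1⟩
  exact ⟨h2, h1, fun x w h => (trf_supp S φ ψ Om V K y₀ c hc ε hε ζ hζs R η hR Φ hΦ x w h).2.1,
    trf_nrm S φ ψ U Om V hF.v_n y₀ ε0 C0 hB c hc ε hε hε0 ζ hζ hζs R hR Φ hΦ.tst h2⟩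

end Vale.Agent.P353.Z.AE
end

section

/-! # P353, all `N`, block X2: X2-Fub, existence of the zero mode of a direct sum (helper314) -/

open MeasureTheory Filter Topology Matrix
open scoped ContDiff

namespace Vale.Agent.P353.Z.AX2

universe u

/-- **X2-FubE** existence part of X2-Fub. -/
def FubEStmt : Prop := ∀ (d d1 d2 : ℕ) (F : Type u) [NormedAddCommGroup F] [InnerProductSpace ℂ F] (_ : FiniteDimensional ℂ F)
  (S : Setup d F) (S1 : Setup d1 F) (S2 : Setup d2 F) (ψ : Spl d1 d2 d), S.Irr → (∃ v : F, v ≠ 0) →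
  DSum ψ S.f S1.f S2.f → S1.κ = S.κ → S2.κ = S.κ → S1.g = S.g → S2.g = S.g →
  (∀ α A, S1.th α A = S.th α (ψ (Sum.inl A))) → (∀ α A, S2.th α A = S.th α (ψ (Sum.inr A))) →
  ∀ hZ : ∀ α A, ∀ Ψ ∈ S1.zms ⊤, Setup.pwa d1 (S2.th α A) Ψ ∈ S1.zms ⊤, ZOut S1 S2 ⊤ hZ →
    (∃ Φ : Lp (S1.zms ⊤) 2 (volume : Measure (Cfg d2)), (S2.lft (S1.zms ⊤) hZ).IsZM Φ ∧ Φ ≠ 0) →
    ∃ Ψ : Lp F 2 (volume : Measure (Cfg d)), S.IsZM Ψ ∧ Ψ ≠ 0

section Alg

variable {d d1 d2 : ℕ} {E F : Type*} [NormedAddCommGroup E] [InnerProductSpace ℂ E]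
  [NormedAddCommGroup F] [InnerProductSpace ℂ F]

/-- intertwining of `vec` -/
theorem fube_vec (S' : Setup d E) (S : Setup d F) (L L' : E →L[ℂ] F)
    (h : ∀ α A v, S.th α A (L v) = L' (S'.th α A v)) (N : Matrix (Fin 16) (Fin 16) ℂ) (A : Fin d) (β : Fin 16)
    (v : E) : S.vec N A β (L v) = L' (S'.vec N A β v) := by
  simp only [CS.vec, _root_.sum_apply, _root_.smul_apply, h, map_sum, map_smul]

/-- intertwining of `bil` -/
theorem fube_bil (S' : Setup d E) (S : Setup d F) (L L' : E →L[ℂ] F)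
    (h : ∀ α A v, S.th α A (L v) = L' (S'.th α A v)) (h' : ∀ α A v, S.th α A (L' v) = L (S'.th α A v))
    (N : Matrix (Fin 16) (Fin 16) ℂ) (A B : Fin d) (v : E) : S.bil N A B (L v) = L (S'.bil N A B v) := by
  simp only [CS.bil, _root_.sum_apply, mul_apply_eq_comp, map_sum]
  refine Finset.sum_congr rfl fun α _ => ?_
  rw [fube_vec S' S L L' h, h']

/-- intertwining of the potential -/
theorem fube_W (S' : Setup d E) (S : Setup d F) (hg : S.g = S'.g) (hf : S.f = S'.f) (hκ : S.κ = S'.κ) (L L' : E →L[ℂ] F)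
    (h : ∀ α A v, S.th α A (L v) = L' (S'.th α A v)) (β : Fin 16) (x : Cfg d) (v : E) :
    S.W β x (L v) = L' (S'.W β x v) := by
  have hF : ∀ A i j, S.FF A i j x = S'.FF A i j x := by
    intro A i j
    unfold Setup.FF
    rw [hf, hκ]
  have hg2 : ∀ i j, S.g2 i j = S'.g2 i j := by
    intro i j
    unfold CS.g2
    rw [hg]
  simp only [Setup.W, _root_.sum_apply, _root_.smul_apply, hF, hg2, map_sum, map_smul]
  refine congrArg _ (Finset.sum_congr rfl fun A _ => Finset.sum_congr rfl fun i _ => Finset.sum_congr rfl fun j _ => ?_)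
  rw [fube_vec S' S L L' h]

/-- derivatives commute with linear maps -/
theorem fube_pd (L : E →L[ℂ] F) (u : Cfg d → E) (x : Cfg d) (hu : DifferentiableAt ℝ u x) (i : Fin 9) (A : Fin d) :
    pd i A (fun y => L (u y)) x = L (pd i A u x) := by
  unfold pd
  have h1 : HasFDerivAt (fun y => (L.restrictScalars ℝ) (u y)) ((L.restrictScalars ℝ).comp (fderiv ℝ u x)) x :=
    (L.restrictScalars ℝ).hasFDerivAt.comp x hu.hasFDerivAt
  have h2 : fderiv ℝ (fun y => L (u y)) x = (L.restrictScalars ℝ).comp (fderiv ℝ u x) := h1.fderiv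
  rw [h2]
  rfl

/-- intertwining of the supercharge -/
theorem fube_Q (S' : Setup d E) (S : Setup d F) (hg : S.g = S'.g) (hf : S.f = S'.f) (hκ : S.κ = S'.κ) (L L' : E →L[ℂ] F)
    (h : ∀ α A v, S.th α A (L v) = L' (S'.th α A v)) (β : Fin 16) (u : Cfg d → E) (x : Cfg d)
    (hu : DifferentiableAt ℝ u x) :
    S.Q β (fun y => L (u y)) x = L' (S'.Q β u x) := by
  simp only [Setup.Q, map_add, map_smul, map_sum, fube_pd L u x hu]
  rw [fube_W S' S hg hf hκ L L' h]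
  congr 2
  refine Finset.sum_congr rfl fun i _ => Finset.sum_congr rfl fun A _ => ?_
  rw [fube_vec S' S L L' h, hg]

/-- intertwining of the gauge generators -/
theorem fube_cS (S' : Setup d E) (S : Setup d F) (hf : S.f = S'.f) (L L' : E →L[ℂ] F)
    (h : ∀ α A v, S.th α A (L v) = L' (S'.th α A v)) (h' : ∀ α A v, S.th α A (L' v) = L (S'.th α A v))
    (C : Fin d) (v : E) : S.cS C (L v) = L (S'.cS C v) := by
  simp only [Setup.cS, _root_.sum_apply, _root_.smul_apply, map_sum, map_smul, hf]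
  refine congrArg _ (Finset.sum_congr rfl fun A _ => Finset.sum_congr rfl fun i _ => ?_)
  rw [fube_bil S' S L L' h h']

theorem fube_G (S' : Setup d E) (S : Setup d F) (hf : S.f = S'.f) (L L' : E →L[ℂ] F)
    (h : ∀ α A v, S.th α A (L v) = L' (S'.th α A v)) (h' : ∀ α A v, S.th α A (L' v) = L (S'.th α A v))
    (C : Fin d) (u : Cfg d → E) (x : Cfg d) (hu : DifferentiableAt ℝ u x) :
    S.G C (fun y => L (u y)) x = L (S'.G C u x) := by
  simp only [Setup.G, map_add, map_smul, map_sum, fube_pd L u x hu, hf]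
  rw [fube_cS S' S hf L L' h h']

end Alg

section Par

variable {d1 d2 : ℕ} {F : Type*} [NormedAddCommGroup F] [InnerProductSpace ℂ F]

/-- words of the second system commute with the first one up to parity -/
theorem fube_par (S1 : Setup d1 F) (S2 : Setup d2 F)
    (ha : ∀ α A β B v, S1.th α A (S2.th β B v) = -S2.th β B (S1.th α A v)) (X : FreeAlgebra ℂ (Fin 16 × Fin d2)) :
    ∃ X' : F →L[ℂ] F, (∀ α A v, S1.th α A (S2.rep X v) = X' (S1.th α A v)) ∧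
      (∀ α A v, S1.th α A (X' v) = S2.rep X (S1.th α A v)) := by
  induction X using FreeAlgebra.induction with
  | grade0 r =>
    refine ⟨S2.rep (algebraMap ℂ _ r), fun α A v => ?_, fun α A v => ?_⟩
    · rw [AlgHom.commutes, Algebra.algebraMap_eq_smul_one]
      simp
    · rw [AlgHom.commutes, Algebra.algebraMap_eq_smul_one]
      simp
  | grade1 p =>
    refine ⟨-S2.rep (FreeAlgebra.ι ℂ p), fun α A v => ?_, fun α A v => ?_⟩
    · have h1 : S2.rep (FreeAlgebra.ι ℂ p) = S2.th p.1 p.2 := by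
        simp [Setup.rep]
      rw [h1, ha]
      rfl
    · have h1 : S2.rep (FreeAlgebra.ι ℂ p) = S2.th p.1 p.2 := by
        simp [Setup.rep]
      rw [h1]
      change S1.th α A (-(S2.th p.1 p.2 v)) = S2.th p.1 p.2 (S1.th α A v)
      rw [map_neg, ha, neg_neg]
  | mul X Y hX hY =>
    obtain ⟨X', h1, h2⟩ := hX
    obtain ⟨Y', h3, h4⟩ := hY
    refine ⟨X' * Y', fun α A v => ?_, fun α A v => ?_⟩
    · rw [map_mul, mul_apply_eq_comp, mul_apply_eq_comp, h1, h3]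
    · rw [map_mul, mul_apply_eq_comp, mul_apply_eq_comp, h2, h4]
  | add X Y hX hY =>
    obtain ⟨X', h1, h2⟩ := hX
    obtain ⟨Y', h3, h4⟩ := hY
    refine ⟨X' + Y', fun α A v => ?_, fun α A v => ?_⟩
    · rw [map_add, _root_.add_apply, _root_.add_apply, map_add, h1, h3]
    · rw [map_add, _root_.add_apply, _root_.add_apply, map_add, h2, h4]

end Par

section Split

variable {d d1 d2 : ℕ} {F : Type*} [NormedAddCommGroup F] [InnerProductSpace ℂ F]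

/-- first projection as a linear map -/
noncomputable def fubeZ (ψ : Spl d1 d2 d) : Cfg d →L[ℝ] Cfg d1 :=
  LinearMap.toContinuousLinearMap
    { toFun := zpt ψ
      map_add' := fun _ _ => rfl
      map_smul' := fun _ _ => rfl }

/-- second projection as a linear map -/
noncomputable def fubeS (ψ : Spl d1 d2 d) : Cfg d →L[ℝ] Cfg d2 :=
  LinearMap.toContinuousLinearMap
    { toFun := spt ψ
      map_add' := fun _ _ => rfl
      map_smul' := fun _ _ => rfl }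

theorem fubeZ_inl (ψ : Spl d1 d2 d) (i : Fin 9) (A : Fin d1) :
    fubeZ ψ (EuclideanSpace.single (i, ψ (Sum.inl A)) 1) = EuclideanSpace.single (i, A) 1 := by
  ext p
  change (EuclideanSpace.single (i, ψ (Sum.inl A)) (1 : ℝ) : Cfg d) (p.1, ψ (Sum.inl p.2)) = _
  simp [Prod.ext_iff]

theorem fubeZ_inr (ψ : Spl d1 d2 d) (i : Fin 9) (A : Fin d2) :
    fubeZ ψ (EuclideanSpace.single (i, ψ (Sum.inr A)) 1) = 0 := by
  ext p
  change (EuclideanSpace.single (i, ψ (Sum.inr A)) (1 : ℝ) : Cfg d) (p.1, ψ (Sum.inl p.2)) = _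
  simp [Prod.ext_iff]

theorem fubeS_inr (ψ : Spl d1 d2 d) (i : Fin 9) (A : Fin d2) :
    fubeS ψ (EuclideanSpace.single (i, ψ (Sum.inr A)) 1) = EuclideanSpace.single (i, A) 1 := by
  ext p
  change (EuclideanSpace.single (i, ψ (Sum.inr A)) (1 : ℝ) : Cfg d) (p.1, ψ (Sum.inr p.2)) = _
  simp [Prod.ext_iff]

theorem fubeS_inl (ψ : Spl d1 d2 d) (i : Fin 9) (A : Fin d1) :
    fubeS ψ (EuclideanSpace.single (i, ψ (Sum.inl A)) 1) = 0 := by
  ext p
  change (EuclideanSpace.single (i, ψ (Sum.inl A)) (1 : ℝ) : Cfg d) (p.1, ψ (Sum.inr p.2)) = _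
  simp [Prod.ext_iff]

/-- derivative of the product profile -/
theorem fube_pdB {Z : Type*} [NormedAddCommGroup Z] [InnerProductSpace ℂ Z] (ψ : Spl d1 d2 d) (T : Z →L[ℂ] F →L[ℂ] F) (u : Cfg d1 → F) (c : Cfg d2 → Z)
    (hu : Differentiable ℝ u) (hc : Differentiable ℝ c) (x : Cfg d) (i : Fin 9) :
    (∀ A, pd i (ψ (Sum.inl A)) (fun x => T (c (spt ψ x)) (u (zpt ψ x))) x = T (c (spt ψ x)) (pd i A u (zpt ψ x))) ∧
    (∀ A, pd i (ψ (Sum.inr A)) (fun x => T (c (spt ψ x)) (u (zpt ψ x))) x = T (pd i A c (spt ψ x)) (u (zpt ψ x))) := by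
  have h1 : HasFDerivAt (fun x => c (spt ψ x)) ((fderiv ℝ c (spt ψ x)).comp (fubeS ψ)) x :=
    HasFDerivAt.comp (f := fun x => fubeS ψ x) x (hc (spt ψ x)).hasFDerivAt (fubeS ψ).hasFDerivAt
  have h2 : HasFDerivAt (fun x => u (zpt ψ x)) ((fderiv ℝ u (zpt ψ x)).comp (fubeZ ψ)) x :=
    HasFDerivAt.comp (f := fun x => fubeZ ψ x) x (hu (zpt ψ x)).hasFDerivAt (fubeZ ψ).hasFDerivAt
  have h3 := (T.bilinearRestrictScalars ℝ).hasFDerivAt_of_bilinear h1 h2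
  have h4 : ∀ A, pd i A (fun x => T (c (spt ψ x)) (u (zpt ψ x))) x =
      T (c (spt ψ x)) (fderiv ℝ u (zpt ψ x) (fubeZ ψ (EuclideanSpace.single (i, A) 1))) +
      T (fderiv ℝ c (spt ψ x) (fubeS ψ (EuclideanSpace.single (i, A) 1))) (u (zpt ψ x)) := by
    intro A
    have h5 : fderiv ℝ (fun x => T (c (spt ψ x)) (u (zpt ψ x))) x = _ := h3.fderiv
    unfold pd
    rw [h5]
    rfl
  constructor
  · intro A
    rw [h4, fubeZ_inl, fubeS_inl, map_zero, map_zero, _root_.zero_apply, add_zero]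
    rfl
  · intro A
    rw [h4, fubeZ_inr, fubeS_inr, map_zero, map_zero, zero_add]
    rfl

/-- the splitting data -/
structure FubeD (ψ : Spl d1 d2 d) (S : Setup d F) (S1 : Setup d1 F) (S2 : Setup d2 F) : Prop where
  ds : DSum ψ S.f S1.f S2.f
  k1 : S1.κ = S.κ
  k2 : S2.κ = S.κ
  g1 : S1.g = S.g
  g2 : S2.g = S.g
  t1 : ∀ α A, S1.th α A = S.th α (ψ (Sum.inl A))
  t2 : ∀ α A, S2.th α A = S.th α (ψ (Sum.inr A))

variable {ψ : Spl d1 d2 d} {S : Setup d F} {S1 : Setup d1 F} {S2 : Setup d2 F}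

theorem FubeD.lrl (h : FubeD ψ S S1 S2) (A B C) : S.f (ψ (Sum.inl A)) (ψ (Sum.inr B)) (ψ (Sum.inl C)) = 0 := by
  rw [S.f_cyc, S.f_cyc]
  exact h.ds.m1 _ _ _

theorem FubeD.lrr (h : FubeD ψ S S1 S2) (A B C) : S.f (ψ (Sum.inl A)) (ψ (Sum.inr B)) (ψ (Sum.inr C)) = 0 := by
  rw [S.f_cyc]
  exact h.ds.m2 _ _ _

theorem FubeD.rlr (h : FubeD ψ S S1 S2) (A B C) : S.f (ψ (Sum.inr A)) (ψ (Sum.inl B)) (ψ (Sum.inr C)) = 0 := by
  rw [S.f_cyc, S.f_cyc]
  exact h.ds.m2 _ _ _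

theorem FubeD.rll (h : FubeD ψ S S1 S2) (A B C) : S.f (ψ (Sum.inr A)) (ψ (Sum.inl B)) (ψ (Sum.inl C)) = 0 := by
  rw [S.f_cyc]
  exact h.ds.m1 _ _ _

theorem FubeD.vec1 (h : FubeD ψ S S1 S2) (N : Matrix (Fin 16) (Fin 16) ℂ) (A β) :
    S.vec N (ψ (Sum.inl A)) β = S1.vec N A β := by
  simp only [CS.vec, h.t1]

theorem FubeD.vec2 (h : FubeD ψ S S1 S2) (N : Matrix (Fin 16) (Fin 16) ℂ) (A β) :
    S.vec N (ψ (Sum.inr A)) β = S2.vec N A β := by
  simp only [CS.vec, h.t2]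

theorem FubeD.bil1 (h : FubeD ψ S S1 S2) (N : Matrix (Fin 16) (Fin 16) ℂ) (A B) :
    S.bil N (ψ (Sum.inl A)) (ψ (Sum.inl B)) = S1.bil N A B := by
  simp only [CS.bil, h.t1, h.vec1]

theorem FubeD.bil2 (h : FubeD ψ S S1 S2) (N : Matrix (Fin 16) (Fin 16) ℂ) (A B) :
    S.bil N (ψ (Sum.inr A)) (ψ (Sum.inr B)) = S2.bil N A B := by
  simp only [CS.bil, h.t2, h.vec2]

theorem fube_sum {M : Type*} [AddCommMonoid M] (ψ : Spl d1 d2 d) (a : Fin d → M) :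
    ∑ A, a A = (∑ A, a (ψ (Sum.inl A))) + ∑ A, a (ψ (Sum.inr A)) := by
  rw [← ψ.sum_comp, Fintype.sum_sum_type]

theorem FubeD.FF1 (h : FubeD ψ S S1 S2) (A i j) (x : Cfg d) :
    S.FF (ψ (Sum.inl A)) i j x = S1.FF A i j (zpt ψ x) := by
  unfold Setup.FF
  rw [fube_sum ψ, h.k1]
  simp only [fube_sum ψ (fun C => S.f (ψ (Sum.inl A)) _ C * _ * x (j, C)), h.ds.m1, h.lrl, h.lrr, h.ds.e1, zero_mul,
    Finset.sum_const_zero, add_zero]
  rfl

theorem FubeD.FF2 (h : FubeD ψ S S1 S2) (A i j) (x : Cfg d) :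
    S.FF (ψ (Sum.inr A)) i j x = S2.FF A i j (spt ψ x) := by
  unfold Setup.FF
  rw [fube_sum ψ, h.k2]
  simp only [fube_sum ψ (fun C => S.f (ψ (Sum.inr A)) _ C * _ * x (j, C)), h.ds.m2, h.rlr, h.rll, h.ds.e2, zero_mul,
    Finset.sum_const_zero, zero_add]
  rfl

theorem FubeD.W (h : FubeD ψ S S1 S2) (β) (x : Cfg d) :
    S.W β x = S1.W β (zpt ψ x) + S2.W β (spt ψ x) := by
  have hg1 : ∀ i j, S1.g2 i j = S.g2 i j := by
    intro i j
    unfold CS.g2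
    rw [h.g1]
  have hg2 : ∀ i j, S2.g2 i j = S.g2 i j := by
    intro i j
    unfold CS.g2
    rw [h.g2]
  unfold Setup.W
  rw [fube_sum ψ, smul_add]
  simp only [h.FF1, h.FF2, h.vec1, h.vec2, hg1, hg2]

theorem FubeD.Q (h : FubeD ψ S S1 S2) (β) (U : Cfg d → F) (x : Cfg d) :
    S.Q β U x = ((-Complex.I) • ∑ i, ∑ A, S1.vec (S1.g i) A β (pd i (ψ (Sum.inl A)) U x) + S1.W β (zpt ψ x) (U x)) +
      ((-Complex.I) • ∑ i, ∑ A, S2.vec (S2.g i) A β (pd i (ψ (Sum.inr A)) U x) + S2.W β (spt ψ x) (U x)) := by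
  unfold Setup.Q
  rw [h.W]
  simp only [fube_sum ψ (fun A => S.vec (S.g _) A β (pd _ A U x)), Finset.sum_add_distrib, smul_add, h.vec1, h.vec2,
    h.g1, h.g2, _root_.add_apply]
  abel

theorem FubeD.cS1 (h : FubeD ψ S S1 S2) (C) : S.cS (ψ (Sum.inl C)) = S1.cS C := by
  unfold Setup.cS
  rw [fube_sum ψ]
  simp only [fube_sum ψ (fun E => (S.f (ψ (Sum.inl C)) _ E : ℂ) • S.bil 1 _ E), h.ds.m1, h.lrl, h.lrr, h.ds.e1,
    Complex.ofReal_zero, zero_smul, Finset.sum_const_zero, add_zero, h.bil1]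

theorem FubeD.cS2 (h : FubeD ψ S S1 S2) (C) : S.cS (ψ (Sum.inr C)) = S2.cS C := by
  unfold Setup.cS
  rw [fube_sum ψ]
  simp only [fube_sum ψ (fun E => (S.f (ψ (Sum.inr C)) _ E : ℂ) • S.bil 1 _ E), h.ds.m2, h.rlr, h.rll, h.ds.e2,
    Complex.ofReal_zero, zero_smul, Finset.sum_const_zero, zero_add, h.bil2]

theorem FubeD.G1 (h : FubeD ψ S S1 S2) (C) (U : Cfg d → F) (x : Cfg d) :
    S.G (ψ (Sum.inl C)) U x = (-Complex.I) • ∑ i, ∑ A, ∑ B, ((S1.f C A B : ℂ) * (zpt ψ x (i, A) : ℂ)) •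
      pd i (ψ (Sum.inl B)) U x + S1.cS C (U x) := by
  unfold Setup.G
  rw [h.cS1]
  congr 2
  refine Finset.sum_congr rfl fun i _ => ?_
  rw [fube_sum ψ]
  have e1 : ∀ A : Fin d2, ∑ B, ((S.f (ψ (Sum.inl C)) (ψ (Sum.inr A)) B : ℂ) * (x (i, ψ (Sum.inr A)) : ℂ)) • pd i B U x = 0 := by
    intro A
    rw [fube_sum ψ]
    simp only [h.lrl, h.lrr, Complex.ofReal_zero, zero_mul, zero_smul, Finset.sum_const_zero, add_zero]
  simp only [e1, Finset.sum_const_zero, add_zero]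
  refine Finset.sum_congr rfl fun A _ => ?_
  rw [fube_sum ψ]
  simp only [h.ds.m1, h.ds.e1, Complex.ofReal_zero, zero_mul, zero_smul, Finset.sum_const_zero, add_zero]
  rfl

theorem FubeD.G2 (h : FubeD ψ S S1 S2) (C) (U : Cfg d → F) (x : Cfg d) :
    S.G (ψ (Sum.inr C)) U x = (-Complex.I) • ∑ i, ∑ A, ∑ B, ((S2.f C A B : ℂ) * (spt ψ x (i, A) : ℂ)) •
      pd i (ψ (Sum.inr B)) U x + S2.cS C (U x) := by
  unfold Setup.G
  rw [h.cS2]
  congr 2
  refine Finset.sum_congr rfl fun i _ => ?_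
  rw [fube_sum ψ]
  have e1 : ∀ A : Fin d1, ∑ B, ((S.f (ψ (Sum.inr C)) (ψ (Sum.inl A)) B : ℂ) * (x (i, ψ (Sum.inl A)) : ℂ)) • pd i B U x = 0 := by
    intro A
    rw [fube_sum ψ]
    simp only [h.rll, h.rlr, Complex.ofReal_zero, zero_mul, zero_smul, Finset.sum_const_zero, add_zero]
  simp only [e1, Finset.sum_const_zero, zero_add]
  refine Finset.sum_congr rfl fun A _ => ?_
  rw [fube_sum ψ]
  simp only [h.ds.m2, h.ds.e2, Complex.ofReal_zero, zero_mul, zero_smul, Finset.sum_const_zero, zero_add]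
  rfl

theorem FubeD.anti (h : FubeD ψ S S1 S2) (α A β B) (v : F) : S1.th α A (S2.th β B v) = -S2.th β B (S1.th α A v) := by
  have h1 := S.th_anti α (ψ (Sum.inl A)) β (ψ (Sum.inr B))
  rw [if_neg (by simp), ← h.t1, ← h.t2] at h1
  have h2 : (S1.th α A * S2.th β B + S2.th β B * S1.th α A) v = 0 := by
    rw [h1]
    rfl
  exact eq_neg_of_add_eq_zero_left h2

end Split

section Core

variable {d d1 d2 : ℕ} {F : Type*} [NormedAddCommGroup F] [InnerProductSpace ℂ F]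

theorem fube_inj (ψ : Spl d1 d2 d) : Function.Injective (fun x : Cfg d => (zpt ψ x, spt ψ x)) := by
  intro x y hxy
  have h1 : zpt ψ x = zpt ψ y := (Prod.ext_iff.1 hxy).1
  have h2 : spt ψ x = spt ψ y := (Prod.ext_iff.1 hxy).2
  ext ⟨i, A⟩
  obtain ⟨s, rfl⟩ := ψ.surjective A
  rcases s with A | A
  · exact congrArg (fun w : Cfg d1 => w (i, A)) h1
  · exact congrArg (fun w : Cfg d2 => w (i, A)) h2

theorem fube_emb (ψ : Spl d1 d2 d) : MeasurableEmbedding (fun x : Cfg d => (zpt ψ x, spt ψ x)) :=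
  (((AE.trf_zpt_c ψ).continuous.prodMk (AE.trf_spt_c ψ).continuous).measurable).measurableEmbedding (fube_inj ψ)

theorem fube_int (ψ : Spl d1 d2 d) (a : Cfg d1 → ℝ) (b : Cfg d2 → ℝ) :
    ∫ x : Cfg d, a (zpt ψ x) * b (spt ψ x) = (∫ y, a y) * ∫ z, b z := by
  have h1 := (AE.trf_mp ψ).integral_comp (fube_emb ψ) (fun p : Cfg d1 × Cfg d2 => a p.1 * b p.2)
  rw [← integral_prod_mul]
  exact h1

theorem fube_itg (ψ : Spl d1 d2 d) (a : Cfg d1 → ℝ) (b : Cfg d2 → ℝ) (ha : Integrable a) (hb : Integrable b) :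
    Integrable (fun x : Cfg d => a (zpt ψ x) * b (spt ψ x)) := by
  have h1 := (AE.trf_mp ψ).integrable_comp_emb (fube_emb ψ) (g := fun p : Cfg d1 × Cfg d2 => a p.1 * b p.2)
  exact h1.2 (ha.mul_prod hb)

theorem fube_ae1 (ψ : Spl d1 d2 d) {p : Cfg d1 → Prop} (h : ∀ᵐ y ∂(volume : Measure (Cfg d1)), p y) :
    ∀ᵐ x ∂(volume : Measure (Cfg d)), p (zpt ψ x) := by
  have h1 := (Measure.quasiMeasurePreserving_fst (μ := (volume : Measure (Cfg d1)))
    (ν := (volume : Measure (Cfg d2)))).comp (AE.trf_mp ψ).quasiMeasurePreserving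
  exact h1.ae h

theorem fube_lpi {m : ℕ} {E : Type*} [NormedAddCommGroup E] (k : Lp E 2 (volume : Measure (Cfg m))) :
    Integrable (fun x => ‖k x‖ ^ 2) :=
  (memLp_two_iff_integrable_sq_norm (Lp.memLp k).1).1 (Lp.memLp k)

theorem fube_lpz {m : ℕ} {E : Type*} [NormedAddCommGroup E] (k : Lp E 2 (volume : Measure (Cfg m)))
    (h : ∫ x, ‖k x‖ ^ 2 = 0) : k = 0 := by
  rw [integral_eq_zero_iff_of_nonneg (fun x => by positivity) (fube_lpi k)] at h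
  rw [Lp.eq_zero_iff_ae_eq_zero]
  filter_upwards [h] with x hx
  have h1 : ‖k x‖ ^ 2 = 0 := hx
  simpa using h1

/-- products of test functions -/
theorem fube_tst {Z : Type*} [NormedAddCommGroup Z] [InnerProductSpace ℂ Z] (ψ : Spl d1 d2 d) (T : Z →L[ℂ] F →L[ℂ] F)
    (u : Cfg d1 → F) (c : Cfg d2 → Z) (hu : Setup.Tst u) (hc : Setup.Tst c) :
    Setup.Tst (fun x : Cfg d => T (c (spt ψ x)) (u (zpt ψ x))) := by
  constructor
  · exact ((T.bilinearRestrictScalars ℝ).isBoundedBilinearMap.contDiff).comp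
      ((hc.1.comp (AE.trf_spt_c ψ)).prodMk (hu.1.comp (AE.trf_zpt_c ψ)))
  · obtain ⟨R1, hR1, h1⟩ := hu.2.exists_pos_le_norm
    obtain ⟨R2, hR2, h2⟩ := hc.2.exists_pos_le_norm
    refine HasCompactSupport.intro (isCompact_closedBall (0 : Cfg d) (R1 + R2)) fun x hx => ?_
    rw [mem_closedBall_zero_iff, not_le] at hx
    by_cases hz : R1 ≤ ‖zpt ψ x‖
    · rw [h1 _ hz, map_zero]
    · by_cases hs : R2 ≤ ‖spt ψ x‖
      · rw [h2 _ hs, map_zero]
        rfl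
      · exfalso
        push Not at hz hs
        have h3 := AE.trf_norm ψ x
        have h4 : ‖x‖ ^ 2 ≤ (R1 + R2) ^ 2 := by
          nlinarith [norm_nonneg (zpt ψ x), norm_nonneg (spt ψ x)]
        have h5 : ‖x‖ ≤ R1 + R2 := abs_le_of_sq_le_sq' h4 (by positivity) |>.2
        linarith

/-- data of the product -/
structure FubeT {Z : Type*} [NormedAddCommGroup Z] [InnerProductSpace ℂ Z] (S1 : Setup d1 F) (S2 : Setup d2 F)
    (SZ : Setup d2 Z) (V : Submodule ℂ F) (T T' : Z →L[ℂ] F →L[ℂ] F) : Prop where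
  g : S2.g = SZ.g
  f : S2.f = SZ.f
  κ : S2.κ = SZ.κ
  p1 : ∀ z α A v, S1.th α A (T z v) = T' z (S1.th α A v)
  p2 : ∀ z α A v, S1.th α A (T' z v) = T z (S1.th α A v)
  t : ∀ v ∈ V, ∀ α A z, S2.th α A (T z v) = T (SZ.th α A z) v
  n : ∀ v ∈ V, ∀ z, ‖T z v‖ = ‖z‖ * ‖v‖

variable {Z : Type*} [NormedAddCommGroup Z] [InnerProductSpace ℂ Z]
  {ψ : Spl d1 d2 d} {S : Setup d F} {S1 : Setup d1 F} {S2 : Setup d2 F} {SZ : Setup d2 Z} {V : Submodule ℂ F}
  {T T' : Z →L[ℂ] F →L[ℂ] F}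

/-- supercharge of a product -/
theorem fube_QT (hD : FubeD ψ S S1 S2) (hT : FubeT S1 S2 SZ V T T') (β : Fin 16) (u : Cfg d1 → F) (c : Cfg d2 → Z)
    (hu : Differentiable ℝ u) (hc : Differentiable ℝ c) (x : Cfg d) (hV : u (zpt ψ x) ∈ V) :
    S.Q β (fun x => T (c (spt ψ x)) (u (zpt ψ x))) x =
      T' (c (spt ψ x)) (S1.Q β u (zpt ψ x)) + T (SZ.Q β c (spt ψ x)) (u (zpt ψ x)) := by
  rw [hD.Q]
  have e1 : S1.Q β (fun y => T (c (spt ψ x)) (u y)) (zpt ψ x) = T' (c (spt ψ x)) (S1.Q β u (zpt ψ x)) :=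
    fube_Q S1 S1 rfl rfl rfl (T (c (spt ψ x))) (T' (c (spt ψ x))) (fun α A v => hT.p1 _ α A v) β u _ (hu _)
  have e2 : S2.Q β (fun y => T.flip (u (zpt ψ x)) (c y)) (spt ψ x) = T.flip (u (zpt ψ x)) (SZ.Q β c (spt ψ x)) :=
    fube_Q SZ S2 hT.g hT.f hT.κ (T.flip (u (zpt ψ x))) (T.flip (u (zpt ψ x))) (fun α A v => hT.t _ hV α A v) β c _ (hc _)
  have e3 : T.flip (u (zpt ψ x)) (SZ.Q β c (spt ψ x)) = T (SZ.Q β c (spt ψ x)) (u (zpt ψ x)) := rfl
  rw [← e1, ← e3, ← e2]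
  have hp1 := fun i => (fube_pdB ψ T u c hu hc x i).1
  have hp2 := fun i => (fube_pdB ψ T u c hu hc x i).2
  simp only [hp1, hp2]
  congr 1
  · unfold Setup.Q
    simp only [fube_pd (T (c (spt ψ x))) u (zpt ψ x) (hu _)]
  · unfold Setup.Q
    simp only [fube_pd (T.flip (u (zpt ψ x))) c (spt ψ x) (hc _)]
    simp only [ContinuousLinearMap.flip_apply]

/-- gauge invariance of a product -/
theorem fube_GT (hD : FubeD ψ S S1 S2) (hT : FubeT S1 S2 SZ V T T') (u : Cfg d1 → F) (c : Cfg d2 → Z)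
    (hu : Differentiable ℝ u) (hc : Differentiable ℝ c) (x : Cfg d) (hV : u (zpt ψ x) ∈ V)
    (gu : ∀ C y, S1.G C u y = 0) (gc : ∀ C y, SZ.G C c y = 0) (C : Fin d) :
    S.G C (fun x => T (c (spt ψ x)) (u (zpt ψ x))) x = 0 := by
  obtain ⟨s, rfl⟩ := ψ.surjective C
  have hp1 := fun i => (fube_pdB ψ T u c hu hc x i).1
  have hp2 := fun i => (fube_pdB ψ T u c hu hc x i).2
  rcases s with C | C
  · rw [hD.G1]
    have e1 : S1.G C (fun y => T (c (spt ψ x)) (u y)) (zpt ψ x) = T (c (spt ψ x)) (S1.G C u (zpt ψ x)) :=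
      fube_G S1 S1 rfl (T (c (spt ψ x))) (T' (c (spt ψ x))) (fun α A v => hT.p1 _ α A v)
        (fun α A v => hT.p2 _ α A v) C u _ (hu _)
    rw [gu, map_zero] at e1
    rw [← e1]
    simp only [hp1]
    unfold Setup.G
    simp only [fube_pd (T (c (spt ψ x))) u (zpt ψ x) (hu _)]
  · rw [hD.G2]
    have e2 : S2.G C (fun y => T.flip (u (zpt ψ x)) (c y)) (spt ψ x) = T.flip (u (zpt ψ x)) (SZ.G C c (spt ψ x)) :=
      fube_G SZ S2 hT.f (T.flip (u (zpt ψ x))) (T.flip (u (zpt ψ x))) (fun α A v => hT.t _ hV α A v)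
        (fun α A v => hT.t _ hV α A v) C c _ (hc _)
    rw [gc, map_zero] at e2
    rw [← e2]
    simp only [hp2]
    unfold Setup.G
    simp only [fube_pd (T.flip (u (zpt ψ x))) c (spt ψ x) (hc _)]
    simp only [ContinuousLinearMap.flip_apply]

theorem fube_sq (a b c : ℝ) (h0 : 0 ≤ a) (h : a ≤ b + c) : a ^ 2 ≤ 2 * b ^ 2 + 2 * c ^ 2 := by
  nlinarith [sq_nonneg (b - c)]

/-- the product of zero modes is a zero mode -/
theorem fube_core (hD : FubeD ψ S S1 S2) (hT : FubeT S1 S2 SZ V T T')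
    (k : Lp F 2 (volume : Measure (Cfg d1))) (hk : ∀ᵐ y ∂(volume : Measure (Cfg d1)), k y ∈ V) (hk0 : k ≠ 0)
    (u : ℕ → Cfg d1 → F) (hu : S1.Apx k u) (huV : ∀ n y, u n y ∈ V)
    (Φ : Lp Z 2 (volume : Measure (Cfg d2))) (hΦ0 : Φ ≠ 0) (c : ℕ → Cfg d2 → Z) (hc : SZ.Apx Φ c) :
    ∃ Ψ : Lp F 2 (volume : Measure (Cfg d)), S.IsZM Ψ ∧ Ψ ≠ 0 := by
  obtain ⟨hu1, hu2, hu3, hu4⟩ := hu
  obtain ⟨hc1, hc2, hc3, hc4⟩ := hc
  have hud : ∀ n, Differentiable ℝ (u n) := fun n => (hu1 n).1.differentiable (by simp)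
  have hcd : ∀ n, Differentiable ℝ (c n) := fun n => (hc1 n).1.differentiable (by simp)
  -- integrability of the squares
  have iu : ∀ n, Integrable (fun y => ‖u n y‖ ^ 2) := fun n =>
    AE.trf_int volume (u n) (hu1 n).1.continuous (hu1 n).2
  have ic : ∀ n, Integrable (fun y => ‖c n y‖ ^ 2) := fun n =>
    AE.trf_int volume (c n) (hc1 n).1.continuous (hc1 n).2
  have ik := fube_lpi k
  have iΦ := fube_lpi Φ
  have mu : ∀ n, MemLp (u n) 2 (volume : Measure (Cfg d1)) := fun n =>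
    (memLp_two_iff_integrable_sq_norm (hu1 n).1.continuous.aestronglyMeasurable).2 (iu n)
  have mc : ∀ n, MemLp (c n) 2 (volume : Measure (Cfg d2)) := fun n =>
    (memLp_two_iff_integrable_sq_norm (hc1 n).1.continuous.aestronglyMeasurable).2 (ic n)
  have iuk : ∀ n, Integrable (fun y => ‖u n y - k y‖ ^ 2) := fun n =>
    (memLp_two_iff_integrable_sq_norm ((mu n).sub (Lp.memLp k)).1).1 ((mu n).sub (Lp.memLp k))
  have icΦ : ∀ n, Integrable (fun y => ‖c n y - Φ y‖ ^ 2) := fun n =>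
    (memLp_two_iff_integrable_sq_norm ((mc n).sub (Lp.memLp Φ)).1).1 ((mc n).sub (Lp.memLp Φ))
  have iQu : ∀ β n, Integrable (fun y => ‖S1.Q β (u n) y‖ ^ 2) := fun β n =>
    AE.trf_int volume _ (Setup.Tst.Q S1 (hu1 n) β).1.continuous (Setup.Tst.Q S1 (hu1 n) β).2
  have iQc : ∀ β n, Integrable (fun y => ‖SZ.Q β (c n) y‖ ^ 2) := fun β n =>
    AE.trf_int volume _ (Setup.Tst.Q SZ (hc1 n) β).1.continuous (Setup.Tst.Q SZ (hc1 n) β).2
  -- bounds of the squares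
  have bu : ∀ n, ∫ y, ‖u n y‖ ^ 2 ≤ 2 * (∫ y, ‖u n y - k y‖ ^ 2) + 2 * ∫ y, ‖k y‖ ^ 2 := by
    intro n
    rw [← integral_const_mul, ← integral_const_mul, ← integral_add ((iuk n).const_mul 2) (ik.const_mul 2)]
    refine integral_mono (iu n) (((iuk n).const_mul 2).add (ik.const_mul 2)) fun y => ?_
    change ‖u n y‖ ^ 2 ≤ 2 * ‖u n y - k y‖ ^ 2 + 2 * ‖k y‖ ^ 2
    have h1 : ‖u n y‖ ≤ ‖u n y - k y‖ + ‖k y‖ := by
      simpa using norm_add_le (u n y - k y) (k y)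
    nlinarith [norm_nonneg (u n y), norm_nonneg (u n y - k y), norm_nonneg (k y),
      sq_nonneg (‖u n y - k y‖ - ‖k y‖)]
  have bc : ∀ n, ∫ y, ‖c n y‖ ^ 2 ≤ 2 * (∫ y, ‖c n y - Φ y‖ ^ 2) + 2 * ∫ y, ‖Φ y‖ ^ 2 := by
    intro n
    rw [← integral_const_mul, ← integral_const_mul, ← integral_add ((icΦ n).const_mul 2) (iΦ.const_mul 2)]
    refine integral_mono (ic n) (((icΦ n).const_mul 2).add (iΦ.const_mul 2)) fun y => ?_
    change ‖c n y‖ ^ 2 ≤ 2 * ‖c n y - Φ y‖ ^ 2 + 2 * ‖Φ y‖ ^ 2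
    have h1 : ‖c n y‖ ≤ ‖c n y - Φ y‖ + ‖Φ y‖ := by
      simpa using norm_add_le (c n y - Φ y) (Φ y)
    nlinarith [norm_nonneg (c n y), norm_nonneg (c n y - Φ y), norm_nonneg (Φ y),
      sq_nonneg (‖c n y - Φ y‖ - ‖Φ y‖)]
  -- the limit
  have q1 : Measure.QuasiMeasurePreserving (fun x : Cfg d => zpt ψ x) volume (volume : Measure (Cfg d1)) :=
    (Measure.quasiMeasurePreserving_fst (μ := (volume : Measure (Cfg d1)))
      (ν := (volume : Measure (Cfg d2)))).comp (AE.trf_mp ψ).quasiMeasurePreserving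
  have q2 : Measure.QuasiMeasurePreserving (fun x : Cfg d => spt ψ x) volume (volume : Measure (Cfg d2)) :=
    (Measure.quasiMeasurePreserving_snd (μ := (volume : Measure (Cfg d1)))
      (ν := (volume : Measure (Cfg d2)))).comp (AE.trf_mp ψ).quasiMeasurePreserving
  have m1 : AEStronglyMeasurable (fun x : Cfg d => k (zpt ψ x)) volume :=
    (Lp.aestronglyMeasurable k).comp_quasiMeasurePreserving q1
  have m2 : AEStronglyMeasurable (fun x : Cfg d => Φ (spt ψ x)) volume :=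
    (Lp.aestronglyMeasurable Φ).comp_quasiMeasurePreserving q2
  have m3 : AEStronglyMeasurable (fun x : Cfg d => T (Φ (spt ψ x)) (k (zpt ψ x))) volume :=
    T.aestronglyMeasurable_comp₂ m2 m1
  have hkV : ∀ᵐ x ∂(volume : Measure (Cfg d)), k (zpt ψ x) ∈ V := q1.ae hk
  have hP2 : ∀ᵐ x ∂(volume : Measure (Cfg d)), ‖T (Φ (spt ψ x)) (k (zpt ψ x))‖ ^ 2 =
      ‖k (zpt ψ x)‖ ^ 2 * ‖Φ (spt ψ x)‖ ^ 2 := by
    filter_upwards [hkV] with x hx
    rw [hT.n _ hx, mul_pow, mul_comm]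
  have hPm : MemLp (fun x : Cfg d => T (Φ (spt ψ x)) (k (zpt ψ x))) 2 volume := by
    rw [memLp_two_iff_integrable_sq_norm m3]
    exact (fube_itg ψ _ _ ik iΦ).congr (hP2.mono fun x hx => hx.symm)
  refine ⟨hPm.toLp _, ⟨fun n x => T (c n (spt ψ x)) (u n (zpt ψ x)), fun n => fube_tst ψ T (u n) (c n) (hu1 n) (hc1 n),
    fun n C x => fube_GT hD hT (u n) (c n) (hud n) (hcd n) x (huV n _) (hu2 n) (hc2 n) C, ?_, ?_⟩, ?_⟩
  · -- L² limit
    have hb : ∀ n, ∫ x, ‖T (c n (spt ψ x)) (u n (zpt ψ x)) - (hPm.toLp _ : Lp F 2 (volume : Measure (Cfg d))) x‖ ^ 2 ≤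
        2 * ‖T‖ ^ 2 * ((∫ y, ‖u n y - k y‖ ^ 2) * (2 * (∫ y, ‖c n y - Φ y‖ ^ 2) + 2 * ∫ y, ‖Φ y‖ ^ 2) +
          (∫ y, ‖k y‖ ^ 2) * ∫ y, ‖c n y - Φ y‖ ^ 2) := by
      intro n
      have j1 := fube_itg ψ _ _ (iuk n) (ic n)
      have j2 := fube_itg ψ _ _ ik (icΦ n)
      have h1 : ∫ x, ‖T (c n (spt ψ x)) (u n (zpt ψ x)) - (hPm.toLp _ : Lp F 2 (volume : Measure (Cfg d))) x‖ ^ 2 ≤
          ∫ x : Cfg d, 2 * ‖T‖ ^ 2 * (‖u n (zpt ψ x) - k (zpt ψ x)‖ ^ 2 * ‖c n (spt ψ x)‖ ^ 2 +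
            ‖k (zpt ψ x)‖ ^ 2 * ‖c n (spt ψ x) - Φ (spt ψ x)‖ ^ 2) := by
        refine integral_mono_of_nonneg (Eventually.of_forall fun x => by positivity) ((j1.add j2).const_mul _) ?_
        filter_upwards [hPm.coeFn_toLp] with x hx
        rw [hx]
        have e1 : T (c n (spt ψ x)) (u n (zpt ψ x)) - T (Φ (spt ψ x)) (k (zpt ψ x)) =
            T (c n (spt ψ x)) (u n (zpt ψ x) - k (zpt ψ x)) + T (c n (spt ψ x) - Φ (spt ψ x)) (k (zpt ψ x)) := by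
          rw [map_sub, map_sub, _root_.sub_apply]
          abel
        rw [e1]
        have e2 := T.le_opNorm₂ (c n (spt ψ x)) (u n (zpt ψ x) - k (zpt ψ x))
        have e3 := T.le_opNorm₂ (c n (spt ψ x) - Φ (spt ψ x)) (k (zpt ψ x))
        have e4 := norm_add_le (T (c n (spt ψ x)) (u n (zpt ψ x) - k (zpt ψ x)))
          (T (c n (spt ψ x) - Φ (spt ψ x)) (k (zpt ψ x)))
        have e5 : ‖T (c n (spt ψ x)) (u n (zpt ψ x) - k (zpt ψ x)) +
            T (c n (spt ψ x) - Φ (spt ψ x)) (k (zpt ψ x))‖ ^ 2 ≤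
            2 * (‖T‖ * ‖c n (spt ψ x)‖ * ‖u n (zpt ψ x) - k (zpt ψ x)‖) ^ 2 +
              2 * (‖T‖ * ‖c n (spt ψ x) - Φ (spt ψ x)‖ * ‖k (zpt ψ x)‖) ^ 2 :=
          fube_sq _ _ _ (norm_nonneg _) (by linarith)
        refine e5.trans (le_of_eq ?_)
        ring
      refine h1.trans ?_
      rw [integral_const_mul, integral_add j1 j2, fube_int ψ (fun y => ‖u n y - k y‖ ^ 2) (fun y => ‖c n y‖ ^ 2),
        fube_int ψ (fun y => ‖k y‖ ^ 2) (fun y => ‖c n y - Φ y‖ ^ 2)]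
      refine mul_le_mul_of_nonneg_left (add_le_add (mul_le_mul_of_nonneg_left (bc n) ?_) le_rfl) (by positivity)
      exact integral_nonneg fun y => by positivity
    refine squeeze_zero (fun n => integral_nonneg fun x => by positivity) hb ?_
    have h2 := ((hu3.mul ((hc3.const_mul 2).add_const (2 * ∫ y, ‖Φ y‖ ^ 2))).add (hc3.const_mul (∫ y, ‖k y‖ ^ 2))).const_mul
      (2 * ‖T‖ ^ 2)
    simpa using h2
  · intro β
    have hb : ∀ n, ∫ x, ‖S.Q β (fun x => T (c n (spt ψ x)) (u n (zpt ψ x))) x‖ ^ 2 ≤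
        2 * ‖T'‖ ^ 2 * ((∫ y, ‖S1.Q β (u n) y‖ ^ 2) * (2 * (∫ y, ‖c n y - Φ y‖ ^ 2) + 2 * ∫ y, ‖Φ y‖ ^ 2)) +
          2 * ‖T‖ ^ 2 * ((2 * (∫ y, ‖u n y - k y‖ ^ 2) + 2 * ∫ y, ‖k y‖ ^ 2) * ∫ y, ‖SZ.Q β (c n) y‖ ^ 2) := by
      intro n
      have j1 := fube_itg ψ _ _ (iQu β n) (ic n)
      have j2 := fube_itg ψ _ _ (iu n) (iQc β n)
      have h1 : ∫ x, ‖S.Q β (fun x => T (c n (spt ψ x)) (u n (zpt ψ x))) x‖ ^ 2 ≤
          ∫ x : Cfg d, (2 * ‖T'‖ ^ 2 * (‖S1.Q β (u n) (zpt ψ x)‖ ^ 2 * ‖c n (spt ψ x)‖ ^ 2) +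
            2 * ‖T‖ ^ 2 * (‖u n (zpt ψ x)‖ ^ 2 * ‖SZ.Q β (c n) (spt ψ x)‖ ^ 2)) := by
        refine integral_mono_of_nonneg (Eventually.of_forall fun x => by positivity)
          ((j1.const_mul _).add (j2.const_mul _)) (Eventually.of_forall fun x => ?_)
        change ‖S.Q β (fun x => T (c n (spt ψ x)) (u n (zpt ψ x))) x‖ ^ 2 ≤
          2 * ‖T'‖ ^ 2 * (‖S1.Q β (u n) (zpt ψ x)‖ ^ 2 * ‖c n (spt ψ x)‖ ^ 2) +
            2 * ‖T‖ ^ 2 * (‖u n (zpt ψ x)‖ ^ 2 * ‖SZ.Q β (c n) (spt ψ x)‖ ^ 2)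
        rw [fube_QT hD hT β (u n) (c n) (hud n) (hcd n) x (huV n _)]
        have e2 := T'.le_opNorm₂ (c n (spt ψ x)) (S1.Q β (u n) (zpt ψ x))
        have e3 := T.le_opNorm₂ (SZ.Q β (c n) (spt ψ x)) (u n (zpt ψ x))
        have e4 := norm_add_le (T' (c n (spt ψ x)) (S1.Q β (u n) (zpt ψ x)))
          (T (SZ.Q β (c n) (spt ψ x)) (u n (zpt ψ x)))
        refine (fube_sq _ _ _ (norm_nonneg _) (e4.trans (add_le_add e2 e3))).trans (le_of_eq ?_)
        ring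
      refine h1.trans ?_
      rw [integral_add (j1.const_mul _) (j2.const_mul _), integral_const_mul, integral_const_mul,
        fube_int ψ (fun y => ‖S1.Q β (u n) y‖ ^ 2) (fun y => ‖c n y‖ ^ 2),
        fube_int ψ (fun y => ‖u n y‖ ^ 2) (fun y => ‖SZ.Q β (c n) y‖ ^ 2)]
      refine add_le_add (mul_le_mul_of_nonneg_left (mul_le_mul_of_nonneg_left (bc n) ?_) (by positivity))
        (mul_le_mul_of_nonneg_left (mul_le_mul_of_nonneg_right (bu n) ?_) (by positivity))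
      · exact integral_nonneg fun y => by positivity
      · exact integral_nonneg fun y => by positivity
    refine squeeze_zero (fun n => integral_nonneg fun x => by positivity) hb ?_
    have h2 := (((hu4 β).mul ((hc3.const_mul 2).add_const (2 * ∫ y, ‖Φ y‖ ^ 2))).const_mul (2 * ‖T'‖ ^ 2)).add
      ((((hu3.const_mul 2).add_const (2 * ∫ y, ‖k y‖ ^ 2)).mul (hc4 β)).const_mul (2 * ‖T‖ ^ 2))
    simpa using h2
  · intro h0
    have h1 : ∀ᵐ x ∂(volume : Measure (Cfg d)), ‖k (zpt ψ x)‖ ^ 2 * ‖Φ (spt ψ x)‖ ^ 2 = 0 := by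
      have h2 : (hPm.toLp _ : Lp F 2 (volume : Measure (Cfg d))) =ᵐ[volume] 0 := by
        rw [h0]
        exact Lp.coeFn_zero F 2 volume
      filter_upwards [hP2, hPm.coeFn_toLp, h2] with x e1 e2 e3
      rw [← e1, ← e2, e3]
      simp
    have h3 : ∫ x : Cfg d, ‖k (zpt ψ x)‖ ^ 2 * ‖Φ (spt ψ x)‖ ^ 2 = 0 := integral_eq_zero_of_ae h1
    rw [fube_int ψ (fun y => ‖k y‖ ^ 2) (fun y => ‖Φ y‖ ^ 2)] at h3
    rcases mul_eq_zero.1 h3 with h4 | h4
    · exact hk0 (fube_lpz k h4)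
    · exact hΦ0 (fube_lpz Φ h4)

end Core

section Fin

variable {d1 d2 : ℕ} {F : Type*} [NormedAddCommGroup F] [InnerProductSpace ℂ F]

/-- the words generate -/
theorem fube_sur {Z : Type*} [NormedAddCommGroup Z] [InnerProductSpace ℂ Z] (SZ : Setup d2 Z) (hI : SZ.Irr) (k : Z)
    (hk : k ≠ 0) (z : Z) : ∃ X : FreeAlgebra ℂ (Fin 16 × Fin d2), SZ.rep X k = z := by
  let W : Submodule ℂ Z :=
    { carrier := {z | ∃ X : FreeAlgebra ℂ (Fin 16 × Fin d2), SZ.rep X k = z}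
      add_mem' := by
        rintro a b ⟨X, hX⟩ ⟨Y, hY⟩
        exact ⟨X + Y, by rw [map_add, _root_.add_apply, hX, hY]⟩
      zero_mem' := ⟨0, by rw [map_zero]; rfl⟩
      smul_mem' := by
        rintro r a ⟨X, hX⟩
        exact ⟨r • X, by rw [map_smul, _root_.smul_apply, hX]⟩ }
  have hW : ∀ α A, ∀ v ∈ W, SZ.th α A v ∈ W := by
    rintro α A v ⟨X, hX⟩
    refine ⟨FreeAlgebra.ι ℂ (α, A) * X, ?_⟩
    rw [map_mul, mul_apply_eq_comp, hX]
    simp [Setup.rep]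
  have hkW : k ∈ W := ⟨1, by rw [map_one]; rfl⟩
  rcases hI W hW with h | h
  · rw [h, Submodule.mem_bot] at hkW
    exact absurd hkW hk
  · have hz : z ∈ W := by
      rw [h]
      exact Submodule.mem_top
    exact hz

/-- the vacuum space of the second system is invariant under the first one -/
theorem fube_inv (S1 : Setup d1 F) (S2 : Setup d2 F)
    (ha : ∀ α A β B v, S1.th α A (S2.th β B v) = -S2.th β B (S1.th α A v)) (α : Fin 16) (A : Fin d1) :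
    ∀ v ∈ vca S2 ⊤, S1.th α A v ∈ vca S2 ⊤ := by
  intro v hv
  refine ⟨Submodule.mem_top, fun B β => ?_⟩
  have h1 : ∀ β B v, S2.th β B (S1.th α A v) = (-S1.th α A) (S2.th β B v) := by
    intro β B v
    change _ = -(S1.th α A (S2.th β B v))
    rw [ha, neg_neg]
  have h2 := fube_vec S2 S2 (S1.th α A) (-S1.th α A) h1 S2.Gam B β v
  have h3 := hv.2 B β
  unfold Setup.amF at h3 ⊢
  rw [_root_.sub_apply, _root_.smul_apply, h1, h2, ← map_smul, ← map_sub]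
  rw [_root_.sub_apply, _root_.smul_apply] at h3
  rw [h3, map_zero]

/-- approximants with values in an invariant subspace -/
theorem fube_apx (S1 : Setup d1 F) (V : Submodule ℂ F) (hV : ∀ α A, ∀ v ∈ V, S1.th α A v ∈ V)
    (k' : Lp V 2 (volume : Measure (Cfg d1))) (k : Lp F 2 (volume : Measure (Cfg d1)))
    (hk : k = V.subtypeL.compLpL 2 volume k') (u : ℕ → Cfg d1 → V) (hu : (S1.rst V hV).Apx k' u) :
    S1.Apx k (fun n y => (u n y : F)) := by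
  obtain ⟨hu1, hu2, hu3, hu4⟩ := hu
  have hud : ∀ n, Differentiable ℝ (u n) := fun n => (hu1 n).1.differentiable (by simp)
  have h0 : ∀ α A (v : V), S1.th α A (V.subtypeL v) = V.subtypeL ((S1.rst V hV).th α A v) := fun _ _ _ => rfl
  refine ⟨fun n => ⟨?_, ?_⟩, fun n C x => ?_, ?_, fun β => ?_⟩
  · exact (V.subtypeL.restrictScalars ℝ).contDiff.comp (hu1 n).1
  · exact (hu1 n).2.comp_left (g := fun v : V => (v : F)) rfl
  · have h1 : S1.G C (fun y => V.subtypeL (u n y)) x = V.subtypeL ((S1.rst V hV).G C (u n) x) :=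
      fube_G (S1.rst V hV) S1 rfl V.subtypeL V.subtypeL h0 h0 C (u n) x (hud n x)
    rw [hu2, map_zero] at h1
    exact h1
  · refine hu3.congr fun n => ?_
    refine integral_congr_ae ?_
    have h2 : k =ᵐ[volume] fun x => V.subtypeL (k' x) := by
      rw [hk]
      exact V.subtypeL.coeFn_compLpL k'
    filter_upwards [h2] with x hx
    rw [hx]
    rfl
  · refine (hu4 β).congr fun n => ?_
    refine integral_congr_ae (Eventually.of_forall fun x => ?_)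
    have h1 : S1.Q β (fun y => V.subtypeL (u n y)) x = V.subtypeL ((S1.rst V hV).Q β (u n) x) :=
      fube_Q (S1.rst V hV) S1 rfl rfl rfl V.subtypeL V.subtypeL h0 β (u n) x (hud n x)
    change ‖(S1.rst V hV).Q β (u n) x‖ ^ 2 = ‖S1.Q β (fun y => V.subtypeL (u n y)) x‖ ^ 2
    rw [h1]
    rfl

end Fin

/-- construction of the product map -/
theorem fube_mk {d1 d2 : ℕ} {F Z : Type*} [NormedAddCommGroup F] [InnerProductSpace ℂ F] [NormedAddCommGroup Z]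
    [InnerProductSpace ℂ Z] [FiniteDimensional ℂ Z] (S1 : Setup d1 F) (S2 : Setup d2 F) (SZ : Setup d2 Z)
    (hg : S2.g = SZ.g) (hf : S2.f = SZ.f) (hκ : S2.κ = SZ.κ)
    (ha : ∀ α A β B v, S1.th α A (S2.th β B v) = -S2.th β B (S1.th α A v)) (hI : SZ.Irr) (k : Z) (hk : ‖k‖ = 1)
    (V : Submodule ℂ F) (hW : ∀ v ∈ V, ∀ X, ‖S2.rep X v‖ * ‖k‖ = ‖SZ.rep X k‖ * ‖v‖) :
    ∃ T T' : Z →L[ℂ] F →L[ℂ] F, FubeT S1 S2 SZ V T T' := by
  have hk0 : k ≠ 0 := by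
    rintro rfl
    simp at hk
  choose w hw using fube_sur SZ hI k hk0
  choose X' hX1 hX2 using fun z => fube_par S1 S2 ha (w z)
  let b := Module.finBasis ℂ Z
  let T : Z →L[ℂ] F →L[ℂ] F := LinearMap.toContinuousLinearMap (b.constr ℂ fun j => S2.rep (w (b j)))
  let T' : Z →L[ℂ] F →L[ℂ] F := LinearMap.toContinuousLinearMap (b.constr ℂ fun j => X' (b j))
  have eT : ∀ z v, T z v = ∑ j, b.equivFun z j • S2.rep (w (b j)) v := by
    intro z v
    change (b.constr ℂ (fun j => S2.rep (w (b j))) z) v = _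
    rw [Module.Basis.constr_apply_fintype, _root_.sum_apply]
    rfl
  have eT' : ∀ z v, T' z v = ∑ j, b.equivFun z j • X' (b j) v := by
    intro z v
    change (b.constr ℂ (fun j => X' (b j)) z) v = _
    rw [Module.Basis.constr_apply_fintype, _root_.sum_apply]
    rfl
  have key : ∀ v ∈ V, ∀ (X : FreeAlgebra ℂ (Fin 16 × Fin d2)) (z : Z), SZ.rep X k = z → T z v = S2.rep X v := by
    intro v hv X z hz
    have hw2 := hW v hv ((∑ j, b.equivFun z j • w (b j)) - X)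
    have h1 : SZ.rep ((∑ j, b.equivFun z j • w (b j)) - X) k = 0 := by
      rw [map_sub, map_sum, _root_.sub_apply, _root_.sum_apply, hz]
      simp only [map_smul, _root_.smul_apply, hw]
      rw [b.sum_equivFun, sub_self]
    rw [h1, norm_zero, zero_mul, hk, mul_one, norm_eq_zero, map_sub, map_sum, _root_.sub_apply, _root_.sum_apply,
      sub_eq_zero] at hw2
    rw [← hw2, eT]
    simp only [map_smul, _root_.smul_apply]
  refine ⟨T, T', hg, hf, hκ, fun z α A v => ?_, fun z α A v => ?_, fun v hv α A z => ?_, fun v hv z => ?_⟩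
  · rw [eT, eT', map_sum]
    simp only [map_smul, hX1]
  · rw [eT, eT', map_sum]
    simp only [map_smul, hX2]
  · rw [key v hv (w z) z (hw z), key v hv (FreeAlgebra.ι ℂ (α, A) * w z) (SZ.th α A z)]
    · rw [map_mul, mul_apply_eq_comp]
      simp [Setup.rep]
    · rw [map_mul, mul_apply_eq_comp, hw]
      simp [Setup.rep]
  · rw [key v hv (w z) z (hw z)]
    have hw2 := hW v hv (w z)
    rw [hk, mul_one, hw] at hw2
    exact hw2

/-- **X2-FubE** -/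
theorem fube (hW : WickStmt.{u})
    (hZms : ∀ (d : ℕ) (F : Type u) [NormedAddCommGroup F] [InnerProductSpace ℂ F] (S : Setup d F), ZmsStmt S)
    (hRst : ∀ (d : ℕ) (F : Type u) [NormedAddCommGroup F] [InnerProductSpace ℂ F] (S : Setup d F), RstStmt S)
    (hZvc : ∀ (d1 d2 : ℕ) (F : Type u) [NormedAddCommGroup F] [InnerProductSpace ℂ F] (S1 : Setup d1 F)
      (S2 : Setup d2 F), ZvcStmt S1 S2) : FubEStmt.{u} := by
  intro d d1 d2 F _ _ hfin S S1 S2 ψ hI hne ds k1 k2 g1 g2 t1 t2 hZ hO hex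
  obtain ⟨Φ, ⟨c, hc⟩, hΦ0⟩ := hex
  have hD : FubeD ψ S S1 S2 := ⟨ds, k1, k2, g1, g2, t1, t2⟩
  obtain ⟨k, hk1, hkv, -⟩ := hO.vac
  have hk0 : k ≠ 0 := by
    rintro rfl
    simp at hk1
  have := hO.fin
  obtain ⟨T, T', hT⟩ := fube_mk S1 S2 (S2.lft (S1.zms ⊤) hZ) rfl rfl rfl hD.anti hO.irr k hk1 (vca S2 ⊤)
    fun v hv => (hW d2 F (S1.zms ⊤) S2 (S2.lft (S1.zms ⊤) hZ) rfl v k hv.2 hkv).2
  have hkz := (hZvc d1 d2 F S1 S2 (hZms d1 F S1) ⊤ hZ k).1 hkv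
  obtain ⟨hkm, hkV⟩ := (hZms d1 F S1 (vca S2 ⊤) k).1 hkz
  have hV : ∀ α A, ∀ v ∈ vca S2 ⊤, S1.th α A v ∈ vca S2 ⊤ := fube_inv S1 S2 hD.anti
  obtain ⟨R1, R2⟩ := hRst d1 F S1 hfin (vca S2 ⊤) hV
  obtain ⟨k', hk'⟩ := R2 k hkV
  rw [hk'] at hkm
  obtain ⟨u', hu'⟩ := (R1 k').2 hkm
  refine fube_core hD hT (k : Lp F 2 (volume : Measure (Cfg d1))) hkV ?_ (fun n y => (u' n y : F))
    (fube_apx S1 (vca S2 ⊤) hV k' k hk' u' hu') (fun n y => (u' n y).2) Φ hΦ0 c hc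
  intro h
  exact hk0 (Subtype.ext h)

end Vale.Agent.P353.Z.AX2
end

section

/-! # P353, all `N`, block D: parametric integrals of compactly supported smooth functions (helper221) -/

open MeasureTheory Filter Topology
open scoped ContDiff

namespace Vale.Agent.P353.Z.AD

set_option linter.unusedSectionVars false

section par

variable {P W : Type} [NormedAddCommGroup P] [NormedSpace ℝ P]
  [NormedAddCommGroup W] [NormedSpace ℝ W] [FiniteDimensional ℝ W] [MeasurableSpace W] [BorelSpace W]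
  (μ : Measure W) [IsFiniteMeasureOnCompacts μ]

/-- the partial derivative in the parameter -/
lemma par_smooth {E : Type*} [NormedAddCommGroup E] [NormedSpace ℝ E] {Φ : P × W → E}
    (hΦ : ContDiff ℝ ∞ Φ) :
    ContDiff ℝ ∞ (fun q => (fderiv ℝ Φ q).comp (ContinuousLinearMap.inl ℝ P W)) :=
  (hΦ.fderiv_right (m := ∞) (by simp)).clm_comp contDiff_const

lemma par_supp {E : Type*} [NormedAddCommGroup E] [NormedSpace ℝ E] {Φ : P × W → E}
    (hc : HasCompactSupport Φ) :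
    HasCompactSupport (fun q => (fderiv ℝ Φ q).comp (ContinuousLinearMap.inl ℝ P W)) := by
  refine (hc.fderiv ℝ).comp_left (g := fun L : P × W →L[ℝ] E => L.comp (ContinuousLinearMap.inl ℝ P W)) ?_
  exact ContinuousLinearMap.zero_comp _

lemma par_int {E : Type*} [NormedAddCommGroup E] [NormedSpace ℝ E] {Φ : P × W → E}
    (hΦ : Continuous Φ) (hc : HasCompactSupport Φ) (p : P) : Integrable (fun w => Φ (p, w)) μ := by
  have h1 : Continuous fun w => Φ (p, w) := hΦ.comp (continuous_const.prodMk continuous_id)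
  refine h1.integrable_of_hasCompactSupport ?_
  refine HasCompactSupport.intro (K := Prod.snd '' tsupport Φ) (hc.isCompact.image continuous_snd)
    fun w hw => ?_
  exact image_eq_zero_of_notMem_tsupport fun h => hw ⟨(p, w), h, rfl⟩

lemma par_hasFDerivAt {E : Type*} [NormedAddCommGroup E] [NormedSpace ℝ E] {Φ : P × W → E}
    (hΦ : ContDiff ℝ ∞ Φ) (hc : HasCompactSupport Φ) (p₀ : P) :
    HasFDerivAt (fun p => ∫ w, Φ (p, w) ∂μ)
      (∫ w, (fderiv ℝ Φ (p₀, w)).comp (ContinuousLinearMap.inl ℝ P W) ∂μ) p₀ := by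
  set Φ' : P × W → P →L[ℝ] E := fun q => (fderiv ℝ Φ q).comp (ContinuousLinearMap.inl ℝ P W) with hΦ'
  have hs : ContDiff ℝ ∞ Φ' := par_smooth hΦ
  have hc' : HasCompactSupport Φ' := par_supp hc
  obtain ⟨M, hM⟩ := hc'.exists_bound_of_continuous hs.continuous
  set K₂ : Set W := Prod.snd '' tsupport Φ' with hK₂
  have hK : IsCompact K₂ := hc'.isCompact.image continuous_snd
  refine hasFDerivAt_integral_of_dominated_of_fderiv_le (F := fun p w => Φ (p, w))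
    (F' := fun p w => Φ' (p, w)) (s := Set.univ) (bound := K₂.indicator fun _ => M) univ_mem
    (Eventually.of_forall fun p => ?_) (par_int μ hΦ.continuous hc p₀)
    (par_int μ hs.continuous hc' p₀).aestronglyMeasurable (Eventually.of_forall fun w p _ => ?_) ?_
    (Eventually.of_forall fun w p _ => ?_)
  · exact (par_int μ hΦ.continuous hc p).aestronglyMeasurable
  · by_cases hw : w ∈ K₂
    · rw [Set.indicator_of_mem hw]
      exact hM _
    · rw [Set.indicator_of_notMem hw]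
      have : Φ' (p, w) = 0 := image_eq_zero_of_notMem_tsupport fun h => hw ⟨(p, w), h, rfl⟩
      rw [this, norm_zero]
  · rw [integrable_indicator_iff hK.measurableSet]
    exact integrableOn_const (hK.measure_lt_top.ne)
  · have h1 : HasFDerivAt Φ (fderiv ℝ Φ (p, w)) (p, w) :=
      (hΦ.differentiable (by simp) _).hasFDerivAt
    have h2 : HasFDerivAt (fun p : P => (p, w)) (ContinuousLinearMap.inl ℝ P W) p :=
      (hasFDerivAt_id p).prodMk (hasFDerivAt_const w p)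
    exact h1.comp p h2

universe u

lemma par_contDiff_aux (n : ℕ) : ∀ (E : Type u) [NormedAddCommGroup E] [NormedSpace ℝ E] (Φ : P × W → E),
    ContDiff ℝ ∞ Φ → HasCompactSupport Φ → ContDiff ℝ n (fun p => ∫ w, Φ (p, w) ∂μ) := by
  induction n with
  | zero =>
    intro E _ _ Φ hΦ hc
    rw [Nat.cast_zero, contDiff_zero, continuous_iff_continuousAt]
    exact fun p => (par_hasFDerivAt μ hΦ hc p).continuousAt
  | succ n ih =>
    intro E _ _ Φ hΦ hc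
    rw [show ((n + 1 : ℕ) : WithTop ℕ∞) = (n : WithTop ℕ∞) + 1 by push_cast; rfl,
      contDiff_succ_iff_fderiv]
    refine ⟨fun p => (par_hasFDerivAt μ hΦ hc p).differentiableAt, by simp, ?_⟩
    have h : (fderiv ℝ fun p => ∫ w, Φ (p, w) ∂μ) = fun p =>
        ∫ w, (fun q => (fderiv ℝ Φ q).comp (ContinuousLinearMap.inl ℝ P W)) (p, w) ∂μ := by
      funext p
      exact (par_hasFDerivAt μ hΦ hc p).fderiv
    rw [h]
    exact ih (P →L[ℝ] E) _ (par_smooth hΦ) (par_supp hc)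

/-- smoothness of the parametric integral -/
theorem par_contDiff {E : Type u} [NormedAddCommGroup E] [NormedSpace ℝ E] {Φ : P × W → E}
    (hΦ : ContDiff ℝ ∞ Φ) (hc : HasCompactSupport Φ) : ContDiff ℝ ∞ (fun p => ∫ w, Φ (p, w) ∂μ) := by
  rw [contDiff_infty]
  exact fun n => par_contDiff_aux μ n E Φ hΦ hc

theorem par_hcs {E : Type*} [NormedAddCommGroup E] [NormedSpace ℝ E] {Φ : P × W → E}
    (hc : HasCompactSupport Φ) : HasCompactSupport (fun p => ∫ w, Φ (p, w) ∂μ) := by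
  refine HasCompactSupport.intro (K := Prod.fst '' tsupport Φ) (hc.isCompact.image continuous_fst)
    fun p hp => ?_
  have : ∀ w, Φ (p, w) = 0 := fun w =>
    image_eq_zero_of_notMem_tsupport fun h => hp ⟨(p, w), h, rfl⟩
  simp only [this, integral_zero]

/-- directional derivative of the parametric integral -/
theorem par_deriv {E : Type*} [NormedAddCommGroup E] [NormedSpace ℝ E] {Φ : P × W → E}
    (hΦ : ContDiff ℝ ∞ Φ) (hc : HasCompactSupport Φ) (p e : P) :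
    fderiv ℝ (fun p => ∫ w, Φ (p, w) ∂μ) p e = ∫ w, fderiv ℝ (fun p => Φ (p, w)) p e ∂μ := by
  rw [(par_hasFDerivAt μ hΦ hc p).fderiv, ContinuousLinearMap.integral_apply
    (par_int μ (par_smooth hΦ).continuous (par_supp hc) p)]
  refine integral_congr_ae (Eventually.of_forall fun w => ?_)
  have h1 : HasFDerivAt Φ (fderiv ℝ Φ (p, w)) (p, w) :=
    (hΦ.differentiable (by simp) _).hasFDerivAt
  have h2 : HasFDerivAt (fun p : P => (p, w)) (ContinuousLinearMap.inl ℝ P W) p :=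
    (hasFDerivAt_id p).prodMk (hasFDerivAt_const w p)
  have h3 : HasFDerivAt (fun p : P => Φ (p, w))
      ((fderiv ℝ Φ (p, w)).comp (ContinuousLinearMap.inl ℝ P W)) p := h1.comp p h2
  simp only
  rw [h3.fderiv]

end par

section cs

variable {W : Type*} [MeasurableSpace W] {μ : Measure W}

/-- Cauchy–Schwarz for real functions -/
lemma cs_sq {f g : W → ℝ} (hf : Integrable (fun w => f w ^ 2) μ) (hg : Integrable (fun w => g w ^ 2) μ)
    (hfg : Integrable (fun w => f w * g w) μ) :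
    (∫ w, f w * g w ∂μ) ^ 2 ≤ (∫ w, f w ^ 2 ∂μ) * ∫ w, g w ^ 2 ∂μ := by
  have h : ∀ t : ℝ, 0 ≤ (∫ w, g w ^ 2 ∂μ) * (t * t) + (-2 * ∫ w, f w * g w ∂μ) * t + ∫ w, f w ^ 2 ∂μ := by
    intro t
    have h1 : (∫ w, g w ^ 2 ∂μ) * (t * t) + (-2 * ∫ w, f w * g w ∂μ) * t + ∫ w, f w ^ 2 ∂μ =
        ∫ w, (f w - t * g w) ^ 2 ∂μ := by
      have h2 : ∀ w, (f w - t * g w) ^ 2 = (t * t) * g w ^ 2 + (-2 * t) * (f w * g w) + f w ^ 2 := fun w => by ring
      simp only [h2]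
      have i12 : Integrable (fun w => (t * t) * g w ^ 2 + (-2 * t) * (f w * g w)) μ :=
        (hg.const_mul _).add (hfg.const_mul _)
      rw [integral_add i12 hf, integral_add (hg.const_mul _) (hfg.const_mul _),
        integral_const_mul, integral_const_mul]
      ring
    rw [h1]
    exact integral_nonneg fun w => sq_nonneg _
  have := discrim_le_zero h
  unfold discrim at this
  nlinarith

end cs

end Vale.Agent.P353.Z.AD
end

section

/-! # P353, all `N`, block D: the dyadic inequality (D4) -/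

open MeasureTheory Filter Topology
open scoped ContDiff

namespace Vale.Agent.P353.Z.AD

variable {d : ℕ} {F : Type*} [NormedAddCommGroup F] [InnerProductSpace ℂ F]

/-! ### Scaling -/

private lemma dy_pd (c : ℝ) {u : Cfg d → F} (hu : Differentiable ℝ u) (i : Fin 9) (A : Fin d)
    (x : Cfg d) : pd i A (fun y => (c : ℂ) • u y) x = (c : ℂ) • pd i A u x := by
  have := pd_rsmul (i := i) (A := A) (φ := fun _ => c) (u := u) (x := x)
    (differentiableAt_const c) (hu x)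
  simpa using this

private lemma dy_Q (S : Setup d F) (c : ℝ) {u : Cfg d → F} (hu : Differentiable ℝ u) (β : Fin 16)
    (x : Cfg d) : S.Q β (fun y => (c : ℂ) • u y) x = (c : ℂ) • S.Q β u x := by
  simp only [Setup.Q, dy_pd c hu, map_smul, ← Finset.smul_sum]
  rw [smul_add, smul_comm]

private lemma dy_G (S : Setup d F) (c : ℝ) {u : Cfg d → F} (hu : Differentiable ℝ u) (C : Fin d)
    (x : Cfg d) : S.G C (fun y => (c : ℂ) • u y) x = (c : ℂ) • S.G C u x := by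
  simp only [Setup.G, dy_pd c hu, map_smul]
  simp only [smul_comm _ (c : ℂ), ← Finset.smul_sum]
  rw [smul_add]

private lemma dy_GInv {S : Setup d F} {u : Cfg d → F} (h : GInv S u) (c : ℝ) :
    GInv S (fun y => (c : ℂ) • u y) := by
  refine ⟨Setup.Tst.rsmul (φ := fun _ => c) contDiff_const h.1, fun C x => ?_⟩
  rw [dy_G S c (fun x => h.1.diff x) C x, h.2, smul_zero]

private lemma dy_mas (c : ℝ) (u : Cfg d → F) (A : Set (Cfg d)) :
    mas (fun y => (c : ℂ) • u y) A = c ^ 2 * mas u A := by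
  unfold mas
  rw [← integral_const_mul]
  congr 1
  funext x
  rw [norm_smul, Complex.norm_real, mul_pow, Real.norm_eq_abs, sq_abs]

private lemma dy_ena (S : Setup d F) (c : ℝ) {u : Cfg d → F} (hu : Differentiable ℝ u)
    (A : Set (Cfg d)) : ena S (fun y => (c : ℂ) • u y) A = c ^ 2 * ena S u A := by
  unfold ena
  rw [Finset.mul_sum]
  refine Finset.sum_congr rfl fun β _ => ?_
  rw [← integral_const_mul]
  congr 1
  funext x
  rw [dy_Q S c hu, norm_smul, Complex.norm_real, mul_pow, Real.norm_eq_abs, sq_abs]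

omit [InnerProductSpace ℂ F] in
private lemma dy_mas_nonneg (u : Cfg d → F) (A : Set (Cfg d)) : 0 ≤ mas u A :=
  integral_nonneg fun _ => by positivity

private lemma dy_ena_nonneg (S : Setup d F) (u : Cfg d → F) (A : Set (Cfg d)) : 0 ≤ ena S u A :=
  Finset.sum_nonneg fun _ _ => integral_nonneg fun _ => by positivity

private lemma dy_mas_le {u : Cfg d → F} (hu : Setup.Tst u) (A : Set (Cfg d)) :
    mas u A ≤ ∫ x, ‖u x‖ ^ 2 :=
  setIntegral_le_integral hu.norm_sq_int (ae_of_all _ fun _ => by positivity)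

private lemma dy_ena_le (S : Setup d F) {u : Cfg d → F} (hu : Setup.Tst u) (A : Set (Cfg d)) :
    ena S u A ≤ ∑ β, ∫ x, ‖S.Q β u x‖ ^ 2 :=
  Finset.sum_le_sum fun β _ =>
    setIntegral_le_integral (hu.Q S β).norm_sq_int (ae_of_all _ fun _ => by positivity)

/-! ### Weights -/

private lemma dy_sum0 : Summable fun k : ℤ => (2 : ℝ) ^ (-|k|) := by
  have h : Summable fun n : ℕ => ((1 : ℝ) / 2) ^ n := summable_geometric_two
  have e : ∀ n : ℕ, (2 : ℝ) ^ (-(n : ℤ)) = (1 / 2) ^ n := fun n => by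
    rw [zpow_neg, zpow_natCast, one_div, inv_pow]
  refine Summable.of_nat_of_neg ?_ ?_
  · refine h.congr fun n => ?_
    rw [Nat.abs_cast, e]
  · refine h.congr fun n => ?_
    rw [abs_neg, Nat.abs_cast, e]

private lemma dy_w1 (k : ℤ) : (2 : ℝ) ^ (-(3 * |k|)) ≤ (2 : ℝ) ^ (-|k|) :=
  zpow_le_zpow_right₀ (by norm_num) (by have := abs_nonneg k; linarith)

private lemma dy_four (k : ℤ) : (4 : ℝ) ^ k = (2 : ℝ) ^ (2 * k) := by
  rw [zpow_mul]; norm_num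

private lemma dy_w2 (k : ℤ) : (2 : ℝ) ^ (-(3 * |k|)) * (4 : ℝ) ^ k ≤ (2 : ℝ) ^ (-|k|) := by
  rw [dy_four, ← zpow_add₀ (by norm_num)]
  refine zpow_le_zpow_right₀ (by norm_num) ?_
  have := le_abs_self k
  linarith

private lemma dy_summ1 {m : ℤ → ℝ} {T : ℝ} (h0 : ∀ k, 0 ≤ m k) (hT : ∀ k, m k ≤ T) (j : ℤ) :
    Summable fun k : ℤ => if k = 0 then 0 else (2 : ℝ) ^ (-(3 * |k|)) * m (j + k) := by
  refine Summable.of_nonneg_of_le (fun k => ?_) (fun k => ?_) (dy_sum0.mul_right T)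
  · split_ifs
    · exact le_rfl
    · exact mul_nonneg (by positivity) (h0 _)
  · have h1 : 0 ≤ (2 : ℝ) ^ (-|k|) * T := mul_nonneg (by positivity) ((h0 0).trans (hT 0))
    split_ifs
    · exact h1
    · exact mul_le_mul (dy_w1 k) (hT _) (h0 _) (by positivity)

private lemma dy_summ2 {e : ℤ → ℝ} {T : ℝ} (h0 : ∀ k, 0 ≤ e k) (hT : ∀ k, e k ≤ T) (j : ℤ) :
    Summable fun k : ℤ => (2 : ℝ) ^ (-(3 * |k|)) * ((4 : ℝ) ^ (j + k) * e (j + k)) := by
  refine Summable.of_nonneg_of_le (fun k => ?_) (fun k => ?_)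
    (dy_sum0.mul_right ((4 : ℝ) ^ j * T))
  · exact mul_nonneg (by positivity) (mul_nonneg (by positivity) (h0 _))
  · have e1 : (2 : ℝ) ^ (-(3 * |k|)) * ((4 : ℝ) ^ (j + k) * e (j + k)) =
        ((2 : ℝ) ^ (-(3 * |k|)) * (4 : ℝ) ^ k) * ((4 : ℝ) ^ j * e (j + k)) := by
      rw [zpow_add₀ (by norm_num : (4 : ℝ) ≠ 0)]; ring
    rw [e1]
    exact mul_le_mul (dy_w2 k) (mul_le_mul_of_nonneg_left (hT _) (by positivity))
      (mul_nonneg (by positivity) (h0 _)) (by positivity)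

/-! ### Covering of shells by dyadic shells -/

private lemma dy_meas (s t : ℝ) : MeasurableSet (shl d s t) :=
  ((isOpen_lt continuous_const continuous_norm).inter
    (isOpen_lt continuous_norm continuous_const)).measurableSet

private lemma dy_cover {g : Cfg d → ℝ} (hg : Integrable g) (h0 : ∀ x, 0 ≤ g x) (j a b : ℤ)
    {s t : ℝ} (hs : (2 : ℝ) ^ a ≤ s) (ht : t ≤ (2 : ℝ) ^ (b + 1)) :
    ∫ x in shl d (s * (2 : ℝ) ^ j) (t * (2 : ℝ) ^ j), g x ≤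
      ∑ k ∈ Finset.Icc a b, ∫ x in dsh d (j + k), g x := by
  have hae : ∀ᵐ x ∂(volume : Measure (Cfg d)), ∀ m : ℤ, ‖x‖ ≠ (2 : ℝ) ^ m := by
    rw [ae_all_iff]
    intro m
    have h := Measure.addHaar_sphere_of_ne_zero (volume : Measure (Cfg d)) (0 : Cfg d)
      (r := (2 : ℝ) ^ m) (by positivity)
    rw [ae_iff]
    refine measure_mono_null ?_ h
    intro x hx
    simpa using hx
  rw [← integral_indicator (dy_meas _ _)]
  have hm : ∀ k : ℤ, MeasurableSet (dsh d (j + k)) := fun k => dy_meas _ _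
  have e : ∑ k ∈ Finset.Icc a b, ∫ x in dsh d (j + k), g x =
      ∫ x, ∑ k ∈ Finset.Icc a b, (dsh d (j + k)).indicator g x := by
    rw [integral_finsetSum _ fun k _ => hg.indicator (hm k)]
    exact Finset.sum_congr rfl fun k _ => (integral_indicator (hm k)).symm
  rw [e]
  refine integral_mono_ae (hg.indicator (dy_meas _ _))
    (integrable_finsetSum _ fun k _ => hg.indicator (hm k)) ?_
  filter_upwards [hae] with x hx
  have hnn : ∀ k ∈ Finset.Icc a b, 0 ≤ (dsh d (j + k)).indicator g x := fun k _ =>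
    Set.indicator_nonneg (fun _ _ => h0 _) _
  by_cases hxA : x ∈ shl d (s * (2 : ℝ) ^ j) (t * (2 : ℝ) ^ j)
  · rw [Set.indicator_of_mem hxA]
    obtain ⟨h1, h2⟩ := hxA
    have h1' : (2 : ℝ) ^ (a + j) < ‖x‖ := by
      rw [zpow_add₀ (by norm_num)]
      exact (mul_le_mul_of_nonneg_right hs (by positivity)).trans_lt h1
    have h2' : ‖x‖ < (2 : ℝ) ^ (b + 1 + j) := by
      rw [zpow_add₀ (by norm_num)]
      exact h2.trans_le (mul_le_mul_of_nonneg_right ht (by positivity))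
    have hpos : 0 < ‖x‖ := lt_trans (by positivity) h1'
    obtain ⟨m, hm1, hm2⟩ := exists_mem_Ico_zpow hpos (by norm_num : (1 : ℝ) < 2)
    have hma : a + j < m + 1 := by
      by_contra hcon
      push Not at hcon
      have := zpow_le_zpow_right₀ (by norm_num : (1 : ℝ) ≤ 2) hcon
      linarith
    have hmb : m < b + 1 + j := by
      by_contra hcon
      push Not at hcon
      have := zpow_le_zpow_right₀ (by norm_num : (1 : ℝ) ≤ 2) hcon
      linarith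
    have hmem : m - j ∈ Finset.Icc a b := Finset.mem_Icc.2 ⟨by omega, by omega⟩
    have hxk : x ∈ dsh d (j + (m - j)) := by
      have e1 : j + (m - j) = m := by ring
      rw [e1]
      exact ⟨lt_of_le_of_ne hm1 (hx m).symm, hm2⟩
    have h3 := Finset.single_le_sum hnn hmem
    rwa [Set.indicator_of_mem hxk] at h3
  · rw [Set.indicator_of_notMem hxA]
    exact Finset.sum_nonneg hnn

private lemma dy_mas_cover {u : Cfg d → F} (hu : Setup.Tst u) (j a b : ℤ)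
    {s t : ℝ} (hs : (2 : ℝ) ^ a ≤ s) (ht : t ≤ (2 : ℝ) ^ (b + 1)) :
    mas u (shl d (s * (2 : ℝ) ^ j) (t * (2 : ℝ) ^ j)) ≤
      ∑ k ∈ Finset.Icc a b, mas u (dsh d (j + k)) :=
  dy_cover hu.norm_sq_int (fun _ => by positivity) j a b hs ht

private lemma dy_ena_cover (S : Setup d F) {u : Cfg d → F} (hu : Setup.Tst u) (j a b : ℤ)
    {s t : ℝ} (hs : (2 : ℝ) ^ a ≤ s) (ht : t ≤ (2 : ℝ) ^ (b + 1)) :
    ena S u (shl d (s * (2 : ℝ) ^ j) (t * (2 : ℝ) ^ j)) ≤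
      ∑ k ∈ Finset.Icc a b, ena S u (dsh d (j + k)) := by
  unfold ena
  rw [Finset.sum_comm]
  exact Finset.sum_le_sum fun β _ =>
    dy_cover (hu.Q S β).norm_sq_int (fun _ => by positivity) j a b hs ht

private lemma dy_bounds (s t : ℝ) (hs : 0 < s) (ht : 0 < t) : ∃ a b : ℤ, (2 : ℝ) ^ a ≤ s ∧
    t ≤ (2 : ℝ) ^ (b + 1) := by
  obtain ⟨a, ha, _⟩ := exists_mem_Ico_zpow hs (by norm_num : (1 : ℝ) < 2)
  obtain ⟨b, _, hb⟩ := exists_mem_Ico_zpow ht (by norm_num : (1 : ℝ) < 2)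
  exact ⟨a, b, ha, hb.le⟩

/-! ### The engine -/

/-- What the normalised counterexamples satisfy, and the contradiction. -/
private lemma dy_core (S : Setup d F) (hNC : NonCommStmt S) (hNA : NulAllStmt S) (hSh : ShellStmt S)
    [FiniteDimensional ℂ F] (PZ : Cfg d → (ℕ → ℝ) → (ℕ → Cfg d → F) → Prop) (hLoc : LocHyp S PZ)
    (hLio : LioHyp S PZ) (v : ℕ → Cfg d → F) (hv : ∀ n, GInv S (v n)) (j : ℕ → ℤ)
    (hj : ∀ n : ℕ, (n : ℤ) ≤ j n) (B : ℝ)
    (hm : ∀ n k, mas (v n) (dsh d (j n + k)) ≤ B * (2 : ℝ) ^ (3 * |k|))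
    (he : ∀ n k, (4 : ℝ) ^ (j n + k) * ena S (v n) (dsh d (j n + k)) ≤
      (2 : ℝ) ^ (3 * |k|) / ((n : ℝ) + 1))
    (h1 : ∀ n, mas (v n) (dsh d (j n)) = 1) : False := by
  set R : ℕ → ℝ := fun n => (2 : ℝ) ^ (j n) with hR
  have hRpos : ∀ n, 0 < R n := fun n => by simp only [hR]; positivity
  have hR2 : ∀ n, R n ^ 2 = (4 : ℝ) ^ (j n) := fun n => by
    simp only [hR]
    rw [dy_four, ← zpow_natCast, ← zpow_mul]
    congr 1
    push_cast
    ring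
  -- energy of a shell
  have hen : ∀ s t : ℝ, 0 < s → s < t → ∃ C : ℝ, 0 ≤ C ∧ ∀ n,
      R n ^ 2 * ena S (v n) (shl d (s * R n) (t * R n)) ≤ C * (1 / ((n : ℝ) + 1)) := by
    intro s t hs hst
    obtain ⟨a, b, ha, hb⟩ := dy_bounds s t hs (hs.trans hst)
    refine ⟨∑ k ∈ Finset.Icc a b, (4 : ℝ) ^ (-k) * (2 : ℝ) ^ (3 * |k|),
      Finset.sum_nonneg fun _ _ => by positivity, fun n => ?_⟩
    have h2 := dy_ena_cover S (hv n).1 (j n) a b ha hb
    have h3 := mul_le_mul_of_nonneg_left h2 (sq_nonneg (R n))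
    refine h3.trans ?_
    rw [Finset.mul_sum, Finset.sum_mul]
    refine Finset.sum_le_sum fun k _ => ?_
    have h4 := mul_le_mul_of_nonneg_left (he n k) (by positivity : (0 : ℝ) ≤ (4 : ℝ) ^ (-k))
    have e1 : (4 : ℝ) ^ (-k) * ((4 : ℝ) ^ (j n + k) * ena S (v n) (dsh d (j n + k))) =
        R n ^ 2 * ena S (v n) (dsh d (j n + k)) := by
      rw [hR2, ← mul_assoc, ← zpow_add₀ (by norm_num : (4 : ℝ) ≠ 0)]
      congr 2
      ring
    rw [e1] at h4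
    refine h4.trans (le_of_eq ?_)
    ring
  have hma : ∀ s t : ℝ, 0 < s → s < t → ∃ C : ℝ, ∀ n,
      mas (v n) (shl d (s * R n) (t * R n)) ≤ C := by
    intro s t hs hst
    obtain ⟨a, b, ha, hb⟩ := dy_bounds s t hs (hs.trans hst)
    refine ⟨∑ k ∈ Finset.Icc a b, B * (2 : ℝ) ^ (3 * |k|), fun n => ?_⟩
    exact (dy_mas_cover (hv n).1 (j n) a b ha hb).trans (Finset.sum_le_sum fun k _ => hm n k)
  have hSq : Sq S R v := by
    refine ⟨hv, hRpos, ?_, ?_⟩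
    · have h2 : Tendsto (fun n : ℕ => (2 : ℝ) ^ n) atTop atTop :=
        tendsto_pow_atTop_atTop_of_one_lt (by norm_num)
      refine tendsto_atTop_mono (fun n => ?_) h2
      simp only [hR]
      rw [← zpow_natCast]
      exact zpow_le_zpow_right₀ (by norm_num) (hj n)
    · intro s t hs hst
      obtain ⟨C1, hC1, h2⟩ := hen s t hs hst
      obtain ⟨C2, h3⟩ := hma s t hs hst
      refine ⟨C2 + C1, fun n => add_le_add (h3 n) ((h2 n).trans ?_)⟩
      have h4 : 1 / ((n : ℝ) + 1) ≤ 1 := by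
        rw [div_le_one (by positivity)]
        have : (0 : ℝ) ≤ n := Nat.cast_nonneg n
        linarith
      calc C1 * (1 / ((n : ℝ) + 1)) ≤ C1 * 1 := mul_le_mul_of_nonneg_left h4 hC1
        _ = C1 := mul_one _
  have hgr : ∀ k : ℤ, ∀ n,
      mas (v n) (shl d ((2 : ℝ) ^ k * R n) ((2 : ℝ) ^ (k + 1) * R n)) ≤ B * (2 : ℝ) ^ (3 * |k|) := by
    intro k n
    have e1 : shl d ((2 : ℝ) ^ k * R n) ((2 : ℝ) ^ (k + 1) * R n) = dsh d (j n + k) := by
      unfold dsh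
      simp only [hR]
      rw [← zpow_add₀ (by norm_num : (2 : ℝ) ≠ 0), ← zpow_add₀ (by norm_num : (2 : ℝ) ≠ 0)]
      congr 2 <;> ring
    rw [e1]
    exact hm n k
  have hvan : ∀ s t : ℝ, 0 < s → s < t →
      Tendsto (fun n => R n ^ 2 * ena S (v n) (shl d (s * R n) (t * R n))) atTop (𝓝 0) := by
    intro s t hs hst
    obtain ⟨C, _, h2⟩ := hen s t hs hst
    refine squeeze_zero (fun n => mul_nonneg (sq_nonneg _) (dy_ena_nonneg S _ _)) h2 ?_
    have h3 := (tendsto_one_div_add_atTop_nhds_zero_nat (𝕜 := ℝ)).const_mul C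
    simpa using h3
  have hnul : ∀ Y, Y ≠ 0 → Nul R v Y := by
    refine hNA hNC inferInstance PZ hLoc R v hSq fun Y hY hVY k hk => ?_
    refine hLio (fun n => R (k n)) (fun n => v (k n)) ?_ ⟨B, fun m => ?_⟩ ?_ Y hY hVY
    · exact ⟨fun n => hSq.inv (k n), fun n => hSq.pos (k n), hSq.lim.comp hk.tendsto_atTop,
        fun s t hs hst => by
          obtain ⟨C, hC⟩ := hSq.bd s t hs hst
          exact ⟨C, fun n => hC (k n)⟩⟩
    · exact Eventually.of_forall fun n => hgr m (k n)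
    · intro s t hs hst
      exact (hvan s t hs hst).comp hk.tendsto_atTop
  have hfin := hSh R v hSq hnul 1 2 one_pos (by norm_num)
  have e2 : (fun n => mas (v n) (shl d (1 * R n) (2 * R n))) = fun _ => (1 : ℝ) := by
    funext n
    have e3 : shl d (1 * R n) (2 * R n) = dsh d (j n) := by
      unfold dsh
      simp only [hR]
      rw [zpow_add₀ (by norm_num : (2 : ℝ) ≠ 0), zpow_one, one_mul, mul_comm]
    rw [e3]
    exact h1 n
  rw [e2] at hfin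
  exact one_ne_zero (tendsto_nhds_unique tendsto_const_nhds hfin)

/-- **D4** -/
theorem dyOf (S : Setup d F) : DyOfStmt S := by
  intro hNC hNA hSh hF PZ hLoc hLio θ hθ
  by_contra hcon
  push Not at hcon
  choose u hu j hj hlt using fun n : ℕ => hcon n ((n : ℝ) + 1) (by positivity)
  have ht1 : ∀ n, Summable fun k : ℤ => if k = 0 then 0 else
      (2 : ℝ) ^ (-(3 * |k|)) * mas (u n) (dsh d (j n + k)) := fun n =>
    dy_summ1 (m := fun k => mas (u n) (dsh d k)) (fun _ => dy_mas_nonneg _ _)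
      (fun _ => dy_mas_le (hu n).1 _) (j n)
  have ht2 : ∀ n, Summable fun k : ℤ =>
      (2 : ℝ) ^ (-(3 * |k|)) * ((4 : ℝ) ^ (j n + k) * ena S (u n) (dsh d (j n + k))) := fun n =>
    dy_summ2 (e := fun k => ena S (u n) (dsh d k)) (fun _ => dy_ena_nonneg _ _ _)
      (fun _ => dy_ena_le S (hu n).1 _) (j n)
  have hn1 : ∀ n, 0 ≤ ∑' k : ℤ, (if k = 0 then 0 else
      (2 : ℝ) ^ (-(3 * |k|)) * mas (u n) (dsh d (j n + k))) := fun n => by
    refine tsum_nonneg fun k => ?_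
    split_ifs
    · exact le_rfl
    · exact mul_nonneg (by positivity) (dy_mas_nonneg _ _)
  have hn2 : ∀ n, 0 ≤ ∑' k : ℤ,
      (2 : ℝ) ^ (-(3 * |k|)) * ((4 : ℝ) ^ (j n + k) * ena S (u n) (dsh d (j n + k))) := fun n =>
    tsum_nonneg fun k => mul_nonneg (by positivity) (mul_nonneg (by positivity)
      (dy_ena_nonneg _ _ _))
  have hM : ∀ n, 0 < mas (u n) (dsh d (j n)) := fun n => by
    have h1 := mul_nonneg hθ.le (hn1 n)
    have h2 := mul_nonneg (by positivity : (0 : ℝ) ≤ (n : ℝ) + 1) (hn2 n)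
    have := hlt n
    linarith
  set c : ℕ → ℝ := fun n => (√(mas (u n) (dsh d (j n))))⁻¹ with hc
  have hc2 : ∀ n, c n ^ 2 = (mas (u n) (dsh d (j n)))⁻¹ := fun n => by
    simp only [hc]
    rw [inv_pow, Real.sq_sqrt (hM n).le]
  refine dy_core S hNC hNA hSh PZ hLoc hLio (fun n y => ((c n : ℝ) : ℂ) • u n y)
    (fun n => dy_GInv (hu n) (c n)) j hj (1 + θ⁻¹) ?_ ?_ ?_
  · intro n k
    rw [dy_mas, hc2]
    by_cases hk : k = 0
    · subst hk
      rw [add_zero, inv_mul_cancel₀ (hM n).ne']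
      simp only [abs_zero, mul_zero, zpow_zero, mul_one]
      have := inv_pos.2 hθ
      linarith
    · have h1 := (ht1 n).le_tsum k (fun i _ => by
        split_ifs
        · exact le_rfl
        · exact mul_nonneg (by positivity) (dy_mas_nonneg _ _))
      rw [if_neg hk] at h1
      have h2 := mul_le_mul_of_nonneg_left h1 hθ.le
      have h3 := mul_nonneg (by positivity : (0 : ℝ) ≤ (n : ℝ) + 1) (hn2 n)
      have h4 : θ * ((2 : ℝ) ^ (-(3 * |k|)) * mas (u n) (dsh d (j n + k))) ≤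
          mas (u n) (dsh d (j n)) := by
        have := hlt n
        linarith
      have h5 : mas (u n) (dsh d (j n + k)) ≤
          θ⁻¹ * (2 : ℝ) ^ (3 * |k|) * mas (u n) (dsh d (j n)) := by
        have h6 := mul_le_mul_of_nonneg_left h4
          (by positivity : (0 : ℝ) ≤ θ⁻¹ * (2 : ℝ) ^ (3 * |k|))
        have e1 : θ⁻¹ * (2 : ℝ) ^ (3 * |k|) *
            (θ * ((2 : ℝ) ^ (-(3 * |k|)) * mas (u n) (dsh d (j n + k)))) =
            mas (u n) (dsh d (j n + k)) := by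
          rw [zpow_neg]
          have : (2 : ℝ) ^ (3 * |k|) ≠ 0 := by positivity
          field_simp
        rwa [e1] at h6
      rw [inv_mul_le_iff₀ (hM n)]
      refine h5.trans ?_
      have h7 : 0 ≤ (2 : ℝ) ^ (3 * |k|) * mas (u n) (dsh d (j n)) :=
        mul_nonneg (by positivity) (hM n).le
      nlinarith
  · intro n k
    rw [dy_ena S (c n) (fun x => (hu n).1.diff x), hc2]
    have h1 := (ht2 n).le_tsum k (fun i _ => mul_nonneg (by positivity)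
      (mul_nonneg (by positivity) (dy_ena_nonneg _ _ _)))
    have h2 := mul_le_mul_of_nonneg_left h1 (by positivity : (0 : ℝ) ≤ (n : ℝ) + 1)
    have h3 := mul_nonneg hθ.le (hn1 n)
    have h4 : ((n : ℝ) + 1) * ((2 : ℝ) ^ (-(3 * |k|)) *
        ((4 : ℝ) ^ (j n + k) * ena S (u n) (dsh d (j n + k)))) ≤ mas (u n) (dsh d (j n)) := by
      have := hlt n
      linarith
    have h6 := mul_le_mul_of_nonneg_left h4
      (by positivity : (0 : ℝ) ≤ (2 : ℝ) ^ (3 * |k|) / ((n : ℝ) + 1))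
    have e1 : (2 : ℝ) ^ (3 * |k|) / ((n : ℝ) + 1) * (((n : ℝ) + 1) * ((2 : ℝ) ^ (-(3 * |k|)) *
        ((4 : ℝ) ^ (j n + k) * ena S (u n) (dsh d (j n + k))))) =
        (4 : ℝ) ^ (j n + k) * ena S (u n) (dsh d (j n + k)) := by
      rw [zpow_neg]
      have : (2 : ℝ) ^ (3 * |k|) ≠ 0 := by positivity
      have h' : (n : ℝ) + 1 ≠ 0 := by positivity
      field_simp
    rw [e1] at h6
    calc (4 : ℝ) ^ (j n + k) * ((mas (u n) (dsh d (j n)))⁻¹ * ena S (u n) (dsh d (j n + k)))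
        = (mas (u n) (dsh d (j n)))⁻¹ * ((4 : ℝ) ^ (j n + k) * ena S (u n) (dsh d (j n + k))) := by
          ring
      _ ≤ (mas (u n) (dsh d (j n)))⁻¹ *
          ((2 : ℝ) ^ (3 * |k|) / ((n : ℝ) + 1) * mas (u n) (dsh d (j n))) :=
          mul_le_mul_of_nonneg_left h6 (inv_nonneg.2 (hM n).le)
      _ = (2 : ℝ) ^ (3 * |k|) / ((n : ℝ) + 1) := by
          have := (hM n).ne'
          field_simp
  · intro n
    rw [dy_mas, hc2, inv_mul_cancel₀ (hM n).ne']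

end Vale.Agent.P353.Z.AD
end

section

/-! # P353, all `N`, block E: shared tools (helper213)

T1: `zpt`, `spt`, `cmb`; T2: product bounds for `ns2` and for integrals over `Cfg dh`. -/

open MeasureTheory Filter Topology Matrix
open scoped ContDiff

namespace Vale.Agent.P353.Z.AE

variable {d dh dm r ds : ℕ} {F : Type*} [NormedAddCommGroup F] [InnerProductSpace ℂ F]

section T1

variable (ψ : Spl r ds dh)

/-- `zpt` as a continuous linear map -/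
noncomputable def zptL : Cfg dh →L[ℝ] Cfg r :=
  LinearMap.toContinuousLinearMap
    { toFun := zpt ψ
      map_add' := fun _ _ => rfl
      map_smul' := fun _ _ => rfl }

/-- `spt` as a continuous linear map -/
noncomputable def sptL : Cfg dh →L[ℝ] Cfg ds :=
  LinearMap.toContinuousLinearMap
    { toFun := spt ψ
      map_add' := fun _ _ => rfl
      map_smul' := fun _ _ => rfl }

lemma zptL_apply (x : Cfg dh) : zptL ψ x = zpt ψ x := rfl

lemma sptL_apply (x : Cfg dh) : sptL ψ x = spt ψ x := rfl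

lemma zpt_add (x x' : Cfg dh) : zpt ψ (x + x') = zpt ψ x + zpt ψ x' := rfl

lemma spt_add (x x' : Cfg dh) : spt ψ (x + x') = spt ψ x + spt ψ x' := rfl

lemma zpt_sub (x x' : Cfg dh) : zpt ψ (x - x') = zpt ψ x - zpt ψ x' := rfl

lemma spt_sub (x x' : Cfg dh) : spt ψ (x - x') = spt ψ x - spt ψ x' := rfl

lemma zpt_smul (t : ℝ) (x : Cfg dh) : zpt ψ (t • x) = t • zpt ψ x := rfl

lemma spt_smul (t : ℝ) (x : Cfg dh) : spt ψ (t • x) = t • spt ψ x := rfl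

lemma zpt_cont : Continuous (zpt ψ) := (zptL ψ).continuous

lemma spt_cont : Continuous (spt ψ) := (sptL ψ).continuous

lemma zpt_smooth : ContDiff ℝ ∞ (zpt ψ) := (zptL ψ).contDiff

lemma spt_smooth : ContDiff ℝ ∞ (spt ψ) := (sptL ψ).contDiff

lemma zpt_cmb (y : Cfg r) (s : Cfg ds) : zpt ψ (cmb ψ y s) = y := by
  ext p
  simp [zpt, cmb]

lemma spt_cmb (y : Cfg r) (s : Cfg ds) : spt ψ (cmb ψ y s) = s := by
  ext p
  simp [spt, cmb]

lemma cmb_eta (x : Cfg dh) : cmb ψ (zpt ψ x) (spt ψ x) = x := by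
  ext ⟨i, A⟩
  obtain ⟨q, rfl⟩ := ψ.surjective A
  rcases q with a | b <;> simp [zpt, spt, cmb]

lemma zpt_single_inl (i : Fin 9) (a : Fin r) :
    zpt ψ (EuclideanSpace.single (i, ψ (Sum.inl a)) 1) = EuclideanSpace.single (i, a) 1 := by
  ext ⟨j, b⟩
  simp [zpt, PiLp.single_apply]

lemma spt_single_inl (i : Fin 9) (a : Fin r) :
    spt ψ (EuclideanSpace.single (i, ψ (Sum.inl a)) 1) = 0 := by
  ext ⟨j, b⟩
  simp [spt]

lemma zpt_single_inr (i : Fin 9) (b : Fin ds) :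
    zpt ψ (EuclideanSpace.single (i, ψ (Sum.inr b)) 1) = 0 := by
  ext ⟨j, a⟩
  simp [zpt]

lemma spt_single_inr (i : Fin 9) (b : Fin ds) :
    spt ψ (EuclideanSpace.single (i, ψ (Sum.inr b)) 1) = EuclideanSpace.single (i, b) 1 := by
  ext ⟨j, a⟩
  simp [spt, PiLp.single_apply]

lemma norm_sq_zs (x : Cfg dh) : ‖x‖ ^ 2 = ‖zpt ψ x‖ ^ 2 + ‖spt ψ x‖ ^ 2 := by
  rw [EuclideanSpace.real_norm_sq_eq, EuclideanSpace.real_norm_sq_eq, EuclideanSpace.real_norm_sq_eq,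
    Fintype.sum_prod_type, Fintype.sum_prod_type, Fintype.sum_prod_type, ← Finset.sum_add_distrib]
  refine Finset.sum_congr rfl fun i _ => ?_
  rw [← ψ.sum_comp, Fintype.sum_sum_type]
  rfl

lemma norm_zpt_le (x : Cfg dh) : ‖zpt ψ x‖ ≤ ‖x‖ := by
  have := norm_sq_zs ψ x
  exact abs_le_of_sq_le_sq' (by nlinarith [sq_nonneg ‖spt ψ x‖]) (norm_nonneg _) |>.2

lemma norm_spt_le (x : Cfg dh) : ‖spt ψ x‖ ≤ ‖x‖ := by
  have := norm_sq_zs ψ x
  exact abs_le_of_sq_le_sq' (by nlinarith [sq_nonneg ‖zpt ψ x‖]) (norm_nonneg _) |>.2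

lemma norm_le_zs (x : Cfg dh) : ‖x‖ ≤ ‖zpt ψ x‖ + ‖spt ψ x‖ := by
  have := norm_sq_zs ψ x
  refine abs_le_of_sq_le_sq' ?_ (by positivity) |>.2
  nlinarith [norm_nonneg (zpt ψ x), norm_nonneg (spt ψ x)]

lemma norm_cmb_le (y : Cfg r) (s : Cfg ds) : ‖cmb ψ y s‖ ≤ ‖y‖ + ‖s‖ := by
  have := norm_le_zs ψ (cmb ψ y s)
  rwa [zpt_cmb, spt_cmb] at this

/-- distance to the ray in terms of the two components -/
lemma norm_sub_ray (x : Cfg dh) (y₀ : Cfg r) (R : ℝ) :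
    ‖x - R • cmb ψ y₀ 0‖ ^ 2 = ‖zpt ψ x - R • y₀‖ ^ 2 + ‖spt ψ x‖ ^ 2 := by
  rw [norm_sq_zs ψ, zpt_sub, zpt_smul, zpt_cmb, spt_sub, spt_smul, spt_cmb, smul_zero, sub_zero]

lemma zpt_ray_le {x : Cfg dh} {y₀ : Cfg r} {R ρ : ℝ} (h : ‖x - R • cmb ψ y₀ 0‖ ≤ ρ) :
    ‖zpt ψ x - R • y₀‖ ≤ ρ := by
  have := norm_zpt_le ψ (x - R • cmb ψ y₀ 0)
  rw [zpt_sub, zpt_smul, zpt_cmb] at this
  exact this.trans h

/-- `cmb` as a linear isometry -/
noncomputable def cmbE : WithLp 2 (Cfg r × Cfg ds) ≃ₗᵢ[ℝ] Cfg dh where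
  toFun p := cmb ψ p.ofLp.1 p.ofLp.2
  invFun x := WithLp.toLp 2 (zpt ψ x, spt ψ x)
  map_add' p q := by
    ext ⟨i, A⟩
    obtain ⟨t, rfl⟩ := ψ.surjective A
    rcases t with a | b <;> simp [cmb]
  map_smul' c p := by
    ext ⟨i, A⟩
    obtain ⟨t, rfl⟩ := ψ.surjective A
    rcases t with a | b <;> simp [cmb]
  left_inv p := by
    change WithLp.toLp 2 (zpt ψ (cmb ψ p.ofLp.1 p.ofLp.2), spt ψ (cmb ψ p.ofLp.1 p.ofLp.2)) = p
    rw [zpt_cmb, spt_cmb]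
  right_inv x := cmb_eta ψ x
  norm_map' p := by
    have h : ‖cmb ψ p.ofLp.1 p.ofLp.2‖ ^ 2 = ‖p‖ ^ 2 := by
      rw [norm_sq_zs ψ, zpt_cmb, spt_cmb, WithLp.prod_norm_sq_eq_of_L2]
      rfl
    exact (sq_eq_sq₀ (norm_nonneg _) (norm_nonneg _)).1 h

/-- `cmb` preserves Lebesgue measure -/
lemma cmb_mp : MeasurePreserving (fun p : Cfg r × Cfg ds => cmb ψ p.1 p.2)
    ((volume : Measure (Cfg r)).prod (volume : Measure (Cfg ds))) volume :=
  (cmbE ψ).measurePreserving.comp (WithLp.volume_preserving_toLp (Cfg r) (Cfg ds))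

/-- `cmb` as a measurable equivalence -/
noncomputable def cmbM : (Cfg r × Cfg ds) ≃ᵐ Cfg dh :=
  (MeasurableEquiv.toLp 2 (Cfg r × Cfg ds)).trans (cmbE ψ).toHomeomorph.toMeasurableEquiv

lemma cmbM_apply (p : Cfg r × Cfg ds) : cmbM ψ p = cmb ψ p.1 p.2 := rfl

/-- integration over `Cfg dh` in the coordinates `y, s` -/
lemma integral_cmb {E : Type*} [NormedAddCommGroup E] [NormedSpace ℝ E] (f : Cfg dh → E) :
    ∫ x, f x = ∫ p : Cfg r × Cfg ds, f (cmb ψ p.1 p.2) ∂((volume : Measure (Cfg r)).prod (volume : Measure (Cfg ds))) := by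
  have h : MeasurePreserving (cmbM ψ) ((volume : Measure (Cfg r)).prod (volume : Measure (Cfg ds))) volume := cmb_mp ψ
  exact (h.integral_comp' f).symm

lemma integrable_cmb {E : Type*} [NormedAddCommGroup E] (f : Cfg dh → E) :
    Integrable f ↔ Integrable (fun p : Cfg r × Cfg ds => f (cmb ψ p.1 p.2))
      ((volume : Measure (Cfg r)).prod (volume : Measure (Cfg ds))) := by
  have h : MeasurePreserving (cmbM ψ) ((volume : Measure (Cfg r)).prod (volume : Measure (Cfg ds))) volume := cmb_mp ψ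
  exact (h.integrable_comp_emb (cmbM ψ).measurableEmbedding (g := f)).symm

end T1

section T2

lemma kap_sq {R : ℝ} (hR : 0 < R) : ((Real.sqrt R ^ (9 * r))⁻¹) ^ 2 = (R ^ (9 * r))⁻¹ := by
  rw [inv_pow, ← pow_mul, mul_comm (9 * r) 2, pow_mul, Real.sq_sqrt hR.le]

lemma finrank_Cfg (r : ℕ) : Module.finrank ℝ (Cfg r) = 9 * r := by
  rw [finrank_euclideanSpace, Fintype.card_prod, Fintype.card_fin, Fintype.card_fin]

lemma integral_scale {E : Type*} [NormedAddCommGroup E] [NormedSpace ℝ E] {R : ℝ} (hR : 0 < R) (a : Cfg r → E) :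
    ∫ y, a (R⁻¹ • y) = R ^ (9 * r) • ∫ y, a y := by
  rw [Measure.integral_comp_inv_smul_of_nonneg _ _ hR.le, finrank_Cfg]

lemma integrable_scale {E : Type*} [NormedAddCommGroup E] {R : ℝ} (hR : 0 < R) {a : Cfg r → E}
    (ha : Integrable a) : Integrable fun y => a (R⁻¹ • y) :=
  ha.comp_smul (inv_ne_zero hR.ne')

/-- value of the product integral -/
lemma int_prod_eq (ψ : Spl r ds dh) {R : ℝ} (hR : 0 < R) {a : Cfg r → ℝ} {b : Cfg ds → ℝ}
    (ha : Integrable a) (hb : Integrable b) :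
    Integrable (fun x : Cfg dh => ((Real.sqrt R ^ (9 * r))⁻¹) ^ 2 * (a (R⁻¹ • zpt ψ x) * b (spt ψ x))) ∧
    ∫ x : Cfg dh, ((Real.sqrt R ^ (9 * r))⁻¹) ^ 2 * (a (R⁻¹ • zpt ψ x) * b (spt ψ x)) = (∫ y, a y) * ∫ s, b s := by
  constructor
  · refine Integrable.const_mul ?_ _
    rw [integrable_cmb ψ]
    simp only [zpt_cmb, spt_cmb]
    exact (integrable_scale hR ha).mul_prod hb
  · rw [integral_const_mul, integral_cmb ψ]
    simp only [zpt_cmb, spt_cmb]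
    rw [integral_prod_mul (fun y => a (R⁻¹ • y)) b, integral_scale hR, kap_sq hR, smul_eq_mul]
    have : R ^ (9 * r) ≠ 0 := pow_ne_zero _ hR.ne'
    field_simp

/-- **T2a** product bound for an integral over `Cfg dh` -/
theorem int_le_prod (ψ : Spl r ds dh) {R M : ℝ} (hR : 0 < R) {a : Cfg r → ℝ} {b : Cfg ds → ℝ}
    (ha : Integrable a) (hb : Integrable b) {g : Cfg dh → ℝ} (hg : ∀ x, 0 ≤ g x)
    (h : ∀ x, g x ≤ M * (((Real.sqrt R ^ (9 * r))⁻¹) ^ 2 * (a (R⁻¹ • zpt ψ x) * b (spt ψ x)))) :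
    ∫ x, g x ≤ M * ((∫ y, a y) * ∫ s, b s) := by
  obtain ⟨hi, he⟩ := int_prod_eq ψ hR ha hb
  rw [← he, ← integral_const_mul]
  exact integral_mono_of_nonneg (Eventually.of_forall hg) (hi.const_mul M) (Eventually.of_forall h)

omit [InnerProductSpace ℂ F] in
lemma ns2_eq_nsf {v : Cfg dh → Wsp dm → F} (h1 : Continuous fun p : Cfg dh × Wsp dm => v p.1 p.2)
    (h2 : HasCompactSupport fun p : Cfg dh × Wsp dm => v p.1 p.2) : ns2 v = ∫ y, nsf (v y) := by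
  have h : Integrable (fun p : Cfg dh × Wsp dm => ‖v p.1 p.2‖ ^ 2)
      ((volume : Measure (Cfg dh)).prod (volume : Measure (Wsp dm))) := by
    refine (h1.norm.pow 2).integrable_of_hasCompactSupport ?_
    refine h2.mono ?_
    intro p hp
    simp only [Function.mem_support] at hp ⊢
    intro h0
    exact hp (by simp [h0])
  rw [ns2, integral_prod _ h]
  rfl

/-- **T2b** product bound for `ns2`, fibre norms given -/
theorem ns2_le_prod (ψ : Spl r ds dh) {v : Cfg dh → Wsp dm → F} (hv : Tst2 v) {R M : ℝ} (hR : 0 < R)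
    {a : Cfg r → ℝ} {b : Cfg ds → ℝ} (ha : Integrable a) (hb : Integrable b)
    (h : ∀ x, nsf (v x) ≤ M * (((Real.sqrt R ^ (9 * r))⁻¹) ^ 2 * (a (R⁻¹ • zpt ψ x) * b (spt ψ x)))) :
    ns2 v ≤ M * ((∫ y, a y) * ∫ s, b s) := by
  rw [ns2_eq_nsf hv.1.continuous hv.2]
  exact int_le_prod ψ hR ha hb (fun x => integral_nonneg fun w => by positivity) h

/-- **T2c** product bound for `ns2`, pointwise bound with a fibre weight `G` -/
theorem ns2_le_prodG (ψ : Spl r ds dh) {v : Cfg dh → Wsp dm → F} (hv : Tst2 v) {R M : ℝ} (hR : 0 < R)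
    {a : Cfg r → ℝ} {b : Cfg ds → ℝ} {G : Cfg r → Wsp dm → ℝ} (ha0 : ∀ y, 0 ≤ a y) (hb0 : ∀ s, 0 ≤ b s)
    (ha : Integrable a) (hb : Integrable b) (hGi : ∀ y, a (R⁻¹ • y) ≠ 0 → Integrable (G y))
    (hG : ∀ y, a (R⁻¹ • y) ≠ 0 → ∫ w, G y w ≤ M)
    (h : ∀ x w, ‖v x w‖ ^ 2 ≤
      ((Real.sqrt R ^ (9 * r))⁻¹) ^ 2 * (a (R⁻¹ • zpt ψ x) * b (spt ψ x)) * G (zpt ψ x) w) :
    ns2 v ≤ M * ((∫ y, a y) * ∫ s, b s) := by
  refine ns2_le_prod ψ hv hR ha hb fun x => ?_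
  have hk : 0 ≤ ((Real.sqrt R ^ (9 * r))⁻¹) ^ 2 := sq_nonneg _
  by_cases h0 : a (R⁻¹ • zpt ψ x) = 0
  · have h1 : ∀ w, ‖v x w‖ ^ 2 = 0 := fun w => by
      have := h x w
      rw [h0] at this
      simp only [zero_mul, mul_zero] at this
      exact le_antisymm this (by positivity)
    unfold nsf
    simp only [h1, integral_zero, h0, zero_mul, mul_zero, le_refl]
  · have hc : 0 ≤ ((Real.sqrt R ^ (9 * r))⁻¹) ^ 2 * (a (R⁻¹ • zpt ψ x) * b (spt ψ x)) :=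
      mul_nonneg hk (mul_nonneg (ha0 _) (hb0 _))
    calc nsf (v x) ≤ ∫ w, ((Real.sqrt R ^ (9 * r))⁻¹) ^ 2 * (a (R⁻¹ • zpt ψ x) * b (spt ψ x)) * G (zpt ψ x) w :=
          integral_mono_of_nonneg (Eventually.of_forall fun w => by positivity)
            ((hGi _ h0).const_mul _) (Eventually.of_forall fun w => h x w)
      _ = ((Real.sqrt R ^ (9 * r))⁻¹) ^ 2 * (a (R⁻¹ • zpt ψ x) * b (spt ψ x)) * ∫ w, G (zpt ψ x) w :=
          integral_const_mul _ _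
      _ ≤ ((Real.sqrt R ^ (9 * r))⁻¹) ^ 2 * (a (R⁻¹ • zpt ψ x) * b (spt ψ x)) * M :=
          mul_le_mul_of_nonneg_left (hG _ h0) hc
      _ = _ := mul_comm _ _

end T2

end Vale.Agent.P353.Z.AE
end

section

/-! # P353, all `N`, block E: shared tools, part 2 (helper213)

T3: derivatives of the trial functions; T4: bounds for the derivative of the frame; T5: functions supported over `ζ`, `Φ` and the
cutoff are test functions. -/

open MeasureTheory Filter Topology Matrix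
open scoped ContDiff

namespace Vale.Agent.P353.Z.AE

variable {d dh dm r ds : ℕ} {F : Type*} [NormedAddCommGroup F] [InnerProductSpace ℂ F]

section T4

/-- derivative of a map which is homogeneous of degree zero -/
lemma fderiv_hom0 {E : Type*} [NormedAddCommGroup E] [NormedSpace ℝ E] {U : Set (Cfg r)} (hU : IsOpen U)
    {V : Cfg r → E} (hV : ∀ y ∈ U, ∀ t : ℝ, 0 < t → V (t • y) = V y) {y : Cfg r} (hy : y ∈ U) {t : ℝ} (ht : 0 < t) :
    fderiv ℝ V (t • y) = t⁻¹ • fderiv ℝ V y := by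
  have h1 : (fun z => V (t • z)) =ᶠ[𝓝 y] V := by
    filter_upwards [hU.mem_nhds hy] with z hz
    exact hV z hz t ht
  have h2 := h1.fderiv_eq (𝕜 := ℝ)
  have h3 : fderiv ℝ (fun z => V (t • z)) y = t • fderiv ℝ V (t • y) := fderiv_comp_smul (f := V) t
  rw [← h2, h3, smul_smul, inv_mul_cancel₀ ht.ne', one_smul]

/-- **T4** bound for the derivative of the frame over a compact set of directions -/
theorem V_bd {S : Setup d F} {φ : Spl dh dm d} {ψ : Spl r ds dh} {U : Set (Cfg r)}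
    {Om : Cfg r → Matrix (Fin dm) (Fin dm) ℝ} {V : Cfg r → F →L[ℂ] F} {K : Submodule ℂ F}
    (hV : S.VFr φ ψ U Om V K) {Kc : Set (Cfg r)} (hK : IsCompact Kc) (hKU : Kc ⊆ U) :
    ∃ C : ℝ, 0 ≤ C ∧ ∀ R : ℝ, 0 < R → ∀ y : Cfg r, R⁻¹ • y ∈ Kc → ∀ (e : Cfg r) (v : F),
      ‖(fderiv ℝ V y e) v‖ ≤ C / R * ‖e‖ * ‖v‖ := by
  have hc : ContinuousOn (fun y => ‖fderiv ℝ V y‖) Kc :=
    ((hV.v_c.continuousOn_fderiv_of_isOpen hV.opn (by simp)).mono hKU).norm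
  obtain ⟨C, hC⟩ := hK.exists_bound_of_continuousOn hc
  refine ⟨max C 0, le_max_right _ _, fun R hR y hy e v => ?_⟩
  have h1 := fderiv_hom0 hV.opn hV.v_h (hKU hy) hR
  rw [smul_smul, mul_inv_cancel₀ hR.ne', one_smul] at h1
  have h2 : (fderiv ℝ V y e) v = R⁻¹ • ((fderiv ℝ V (R⁻¹ • y) e) v) := by
    rw [h1]
    rfl
  have h3 : ‖fderiv ℝ V (R⁻¹ • y)‖ ≤ max C 0 := by
    have := hC _ hy
    rw [Real.norm_eq_abs] at this
    exact ((le_abs_self _).trans this).trans (le_max_left _ _)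
  rw [h2, norm_smul, norm_inv, Real.norm_of_nonneg hR.le, div_eq_inv_mul, mul_assoc, mul_assoc]
  refine mul_le_mul_of_nonneg_left ?_ (inv_nonneg.2 hR.le)
  calc ‖(fderiv ℝ V (R⁻¹ • y) e) v‖ ≤ ‖fderiv ℝ V (R⁻¹ • y) e‖ * ‖v‖ := ContinuousLinearMap.le_opNorm _ _
    _ ≤ ‖fderiv ℝ V (R⁻¹ • y)‖ * ‖e‖ * ‖v‖ :=
        mul_le_mul_of_nonneg_right (ContinuousLinearMap.le_opNorm _ _) (norm_nonneg _)
    _ ≤ max C 0 * (‖e‖ * ‖v‖) := by
        rw [mul_assoc]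
        exact mul_le_mul_of_nonneg_right h3 (by positivity)

lemma tsupp_compact {ζ : Cfg r → ℂ} {y₀ : Cfg r} {ρ : ℝ} (h : tsupport ζ ⊆ Metric.ball y₀ ρ) :
    IsCompact (tsupport ζ) :=
  Metric.isCompact_of_isClosed_isBounded (isClosed_tsupport ζ) (Metric.isBounded_ball.subset h)

end T4

section T3

variable {S : Setup d F} {φ : Spl dh dm d} {ψ : Spl r ds dh} {U : Set (Cfg r)}
  {Om : Cfg r → Matrix (Fin dm) (Fin dm) ℝ} {V : Cfg r → F →L[ℂ] F} {K : Submodule ℂ F}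

/-- derivative of `V(y) u` in a direction -/
lemma hasFDerivAt_V {E : Type*} [NormedAddCommGroup E] [NormedSpace ℝ E] {V : Cfg r → F →L[ℂ] F} {g : E → Cfg r}
    {g' : E →L[ℝ] Cfg r} {u : E → F} {u' : E →L[ℝ] F} {p : E} (hV : DifferentiableAt ℝ V (g p))
    (hg : HasFDerivAt g g' p) (hu : HasFDerivAt u u' p) (e : E) :
    DifferentiableAt ℝ (fun q => V (g q) (u q)) p ∧
    fderiv ℝ (fun q => V (g q) (u q)) p e = (fderiv ℝ V (g p) (g' e)) (u p) + V (g p) (u' e) := by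
  have h1 : HasFDerivAt (fun q => V (g q)) ((fderiv ℝ V (g p)).comp g') p := hV.hasFDerivAt.comp p hg
  have h2 : HasFDerivAt (fun q => ContinuousLinearMap.restrictScalarsL ℂ F F ℝ ℝ (V (g q)))
      ((ContinuousLinearMap.restrictScalarsL ℂ F F ℝ ℝ).comp ((fderiv ℝ V (g p)).comp g')) p :=
    (ContinuousLinearMap.restrictScalarsL ℂ F F ℝ ℝ).hasFDerivAt.comp p h1
  have h3 := h2.clm_apply hu
  refine ⟨h3.differentiableAt, ?_⟩
  have h4 : fderiv ℝ (fun q => V (g q) (u q)) p = _ := h3.fderiv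
  rw [h4]
  simp only [_root_.add_apply, ContinuousLinearMap.comp_apply, ContinuousLinearMap.flip_apply]
  rw [add_comm]
  rfl

/-- **T3** derivative of the trial function in the slice direction `e` -/
theorem TR_fderiv (hV : S.VFr φ ψ U Om V K) {y₀ : Cfg r} {ε0 C0 : ℝ} (bf : BzFacts S φ ψ U Om y₀ ε0 C0) {ε : ℝ}
    (hε : 0 < ε) (hε0 : ε ≤ ε0) {ζ : Cfg r → ℂ} (hζ : ContDiff ℝ ∞ ζ) (hζs : tsupport ζ ⊆ Metric.ball y₀ (ε / 2))
    {Φ : Cfg ds → F} (hΦ : ContDiff ℝ ∞ Φ) {R : ℝ} (hR : 1 ≤ R) (c : ℝ → ℝ) (x : Cfg dh) (w : Wsp dm) (e : Cfg dh) :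
    fderiv ℝ (fun x' => S.TR φ ψ Om V c ε R (pp ζ Φ) x' w) x e =
      (((Real.sqrt R ^ (9 * r))⁻¹ * c (‖w‖ ^ 2 / (ε * R) ^ 2) *
        fderiv ℝ (fun y' => S.bz φ ψ Om y' w) (zpt ψ x) (zpt ψ e) : ℝ) : ℂ) •
          V (zpt ψ x) (ζ (R⁻¹ • zpt ψ x) • Φ (spt ψ x)) +
      (((Real.sqrt R ^ (9 * r))⁻¹ * c (‖w‖ ^ 2 / (ε * R) ^ 2) * S.bz φ ψ Om (zpt ψ x) w : ℝ) : ℂ) •
        ((fderiv ℝ V (zpt ψ x) (zpt ψ e)) (ζ (R⁻¹ • zpt ψ x) • Φ (spt ψ x)) +
          V (zpt ψ x) (((R⁻¹ : ℝ) : ℂ) • fderiv ℝ ζ (R⁻¹ • zpt ψ x) (zpt ψ e) • Φ (spt ψ x)) +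
          V (zpt ψ x) (ζ (R⁻¹ • zpt ψ x) • fderiv ℝ Φ (spt ψ x) (spt ψ e))) := by
  have hR0 : 0 < R := lt_of_lt_of_le one_pos hR
  by_cases hp : R⁻¹ • zpt ψ x ∈ tsupport ζ
  · have hyU : zpt ψ x ∈ U := trf_inU S φ ψ U Om y₀ ε0 C0 bf ε hε hε0 R hR _ (hζs hp)
    have hVd : DifferentiableAt ℝ V (zpt ψ x) :=
      (hV.v_c.contDiffAt (hV.opn.mem_nhds hyU)).differentiableAt (by simp)
    have hbd : DifferentiableAt ℝ (fun y' => S.bz φ ψ Om y' w) (zpt ψ x) := by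
      have h2 : ContDiffAt ℝ ∞ (fun q : Cfg r × Wsp dm => S.bz φ ψ Om q.1 q.2) (zpt ψ x, w) :=
        bf.sm.contDiffAt ((hV.opn.prod isOpen_univ).mem_nhds ⟨hyU, Set.mem_univ _⟩)
      have h3 : ContDiffAt ℝ ∞ (fun y' : Cfg r => S.bz φ ψ Om y' w) (zpt ψ x) :=
        ContDiffAt.comp (g := fun q : Cfg r × Wsp dm => S.bz φ ψ Om q.1 q.2)
          (f := fun y' : Cfg r => (y', w)) (zpt ψ x) h2 (contDiffAt_id.prodMk contDiffAt_const)
      exact h3.differentiableAt (by simp)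
    have hz : HasFDerivAt (fun x' : Cfg dh => zpt ψ x') (zptL ψ) x := (zptL ψ).hasFDerivAt
    have hs : HasFDerivAt (fun x' : Cfg dh => spt ψ x') (sptL ψ) x := (sptL ψ).hasFDerivAt
    have hb : HasFDerivAt (fun x' : Cfg dh => S.bz φ ψ Om (zpt ψ x') w)
        ((fderiv ℝ (fun y' => S.bz φ ψ Om y' w) (zpt ψ x)).comp (zptL ψ)) x :=
      HasFDerivAt.comp (g := fun y' => S.bz φ ψ Om y' w) x hbd.hasFDerivAt hz
    have hk : HasFDerivAt (fun x' : Cfg dh => (Real.sqrt R ^ (9 * r))⁻¹ * c (‖w‖ ^ 2 / (ε * R) ^ 2) *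
        S.bz φ ψ Om (zpt ψ x') w) (((Real.sqrt R ^ (9 * r))⁻¹ * c (‖w‖ ^ 2 / (ε * R) ^ 2)) •
          ((fderiv ℝ (fun y' => S.bz φ ψ Om y' w) (zpt ψ x)).comp (zptL ψ))) x := hb.const_mul _
    have hkc : HasFDerivAt (fun x' : Cfg dh => (((Real.sqrt R ^ (9 * r))⁻¹ * c (‖w‖ ^ 2 / (ε * R) ^ 2) *
        S.bz φ ψ Om (zpt ψ x') w : ℝ) : ℂ)) (Complex.ofRealCLM.comp
          (((Real.sqrt R ^ (9 * r))⁻¹ * c (‖w‖ ^ 2 / (ε * R) ^ 2)) •
          ((fderiv ℝ (fun y' => S.bz φ ψ Om y' w) (zpt ψ x)).comp (zptL ψ)))) x :=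
      Complex.ofRealCLM.hasFDerivAt.comp x hk
    have hζd : HasFDerivAt (fun x' : Cfg dh => ζ (R⁻¹ • zpt ψ x'))
        ((fderiv ℝ ζ (R⁻¹ • zpt ψ x)).comp (R⁻¹ • zptL ψ)) x :=
      HasFDerivAt.comp (g := ζ) x ((hζ.differentiable (by simp)) _).hasFDerivAt (hz.const_smul R⁻¹)
    have hΦd : HasFDerivAt (fun x' : Cfg dh => Φ (spt ψ x')) ((fderiv ℝ Φ (spt ψ x)).comp (sptL ψ)) x :=
      HasFDerivAt.comp (g := Φ) x ((hΦ.differentiable (by simp)) _).hasFDerivAt hs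
    have hu : HasFDerivAt (fun x' : Cfg dh => ζ (R⁻¹ • zpt ψ x') • Φ (spt ψ x')) _ x := hζd.smul hΦd
    obtain ⟨hv1, hv2⟩ := hasFDerivAt_V hVd hz hu e
    have hT : HasFDerivAt (fun x' : Cfg dh => (((Real.sqrt R ^ (9 * r))⁻¹ * c (‖w‖ ^ 2 / (ε * R) ^ 2) *
        S.bz φ ψ Om (zpt ψ x') w : ℝ) : ℂ) • V (zpt ψ x') (ζ (R⁻¹ • zpt ψ x') • Φ (spt ψ x'))) _ x :=
      hkc.smul hv1.hasFDerivAt
    have h4 : fderiv ℝ (fun x' => S.TR φ ψ Om V c ε R (pp ζ Φ) x' w) x = _ := hT.fderiv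
    rw [h4]
    simp only [_root_.add_apply, _root_.smul_apply, ContinuousLinearMap.smulRight_apply,
      ContinuousLinearMap.comp_apply, zptL_apply, Complex.ofRealCLM_apply, smul_eq_mul]
    rw [hv2]
    simp only [_root_.add_apply, _root_.smul_apply, ContinuousLinearMap.smulRight_apply,
      ContinuousLinearMap.comp_apply, zptL_apply, sptL_apply, map_add, smul_add, map_smul]
    rw [add_comm]
    congr 1
    rw [add_assoc]
    congr 1
    rw [add_comm]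
    congr 2
    rw [Complex.real_smul, mul_smul]
  · have h0 : ζ (R⁻¹ • zpt ψ x) = 0 := image_eq_zero_of_notMem_tsupport hp
    have h1 : fderiv ℝ ζ (R⁻¹ • zpt ψ x) = 0 := fderiv_of_notMem_tsupport (𝕜 := ℝ) hp
    have hRz : Continuous fun q : Cfg dh => R⁻¹ • zpt ψ q := (R⁻¹ • zptL ψ).continuous
    have h2 : IsOpen {q : Cfg dh | R⁻¹ • zpt ψ q ∈ (tsupport ζ)ᶜ} :=
      (isClosed_tsupport ζ).isOpen_compl.preimage hRz
    have h3 : (fun x' => S.TR φ ψ Om V c ε R (pp ζ Φ) x' w) =ᶠ[𝓝 x] fun _ => 0 := by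
      filter_upwards [h2.mem_nhds hp] with q hq
      have h3 : ζ (R⁻¹ • zpt ψ q) = 0 := image_eq_zero_of_notMem_tsupport hq
      show _ • V (zpt ψ q) (ζ (R⁻¹ • zpt ψ q) • Φ (spt ψ q)) = 0
      rw [h3, zero_smul, map_zero, smul_zero]
    rw [h3.fderiv_eq, h0, h1]
    simp

/-- **T3b** derivative of the trial function in the fibre direction `e` -/
theorem TR_fderiv_w (hV : S.VFr φ ψ U Om V K) {y₀ : Cfg r} {ε0 C0 : ℝ} (bf : BzFacts S φ ψ U Om y₀ ε0 C0) {ε : ℝ}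
    (hε : 0 < ε) (hε0 : ε ≤ ε0) {ζ : Cfg r → ℂ} (hζs : tsupport ζ ⊆ Metric.ball y₀ (ε / 2))
    {Φ : Cfg ds → F} {R : ℝ} (hR : 1 ≤ R) {c : ℝ → ℝ} (hct : IsCt c) (x : Cfg dh) (w e : Wsp dm) :
    fderiv ℝ (fun w' => S.TR φ ψ Om V c ε R (pp ζ Φ) x w') w e =
      (((Real.sqrt R ^ (9 * r))⁻¹ *
        fderiv ℝ (fun w' => c (‖w'‖ ^ 2 / (ε * R) ^ 2) * S.bz φ ψ Om (zpt ψ x) w') w e : ℝ) : ℂ) •
          V (zpt ψ x) (ζ (R⁻¹ • zpt ψ x) • Φ (spt ψ x)) := by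
  by_cases hp : R⁻¹ • zpt ψ x ∈ tsupport ζ
  · have hyU : zpt ψ x ∈ U := trf_inU S φ ψ U Om y₀ ε0 C0 bf ε hε hε0 R hR _ (hζs hp)
    have hbd : DifferentiableAt ℝ (fun w' => S.bz φ ψ Om (zpt ψ x) w') w := by
      have h2 : ContDiffAt ℝ ∞ (fun q : Cfg r × Wsp dm => S.bz φ ψ Om q.1 q.2) (zpt ψ x, w) :=
        bf.sm.contDiffAt ((hV.opn.prod isOpen_univ).mem_nhds ⟨hyU, Set.mem_univ _⟩)
      have h3 : ContDiffAt ℝ ∞ (fun w' : Wsp dm => S.bz φ ψ Om (zpt ψ x) w') w :=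
        ContDiffAt.comp (g := fun q : Cfg r × Wsp dm => S.bz φ ψ Om q.1 q.2)
          (f := fun w' : Wsp dm => (zpt ψ x, w')) w h2 (contDiffAt_const.prodMk contDiffAt_id)
      exact h3.differentiableAt (by simp)
    have hcd : DifferentiableAt ℝ (fun w' : Wsp dm => c (‖w'‖ ^ 2 / (ε * R) ^ 2)) w := by
      have : ContDiff ℝ ∞ (fun w' : Wsp dm => c (‖w'‖ ^ 2 / (ε * R) ^ 2)) :=
        hct.sm.comp ((contDiff_norm_sq ℝ).div_const _)
      exact this.differentiable (by simp) w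
    have hm : DifferentiableAt ℝ (fun w' : Wsp dm => c (‖w'‖ ^ 2 / (ε * R) ^ 2) * S.bz φ ψ Om (zpt ψ x) w') w :=
      hcd.mul hbd
    have hk : HasFDerivAt (fun w' : Wsp dm => (Real.sqrt R ^ (9 * r))⁻¹ *
        (c (‖w'‖ ^ 2 / (ε * R) ^ 2) * S.bz φ ψ Om (zpt ψ x) w')) _ w :=
      hm.hasFDerivAt.const_mul _
    have hkc := (Complex.ofRealCLM.hasFDerivAt.comp w hk).smul_const
      (V (zpt ψ x) (ζ (R⁻¹ • zpt ψ x) • Φ (spt ψ x)))
    have h4 : (fun w' => S.TR φ ψ Om V c ε R (pp ζ Φ) x w') = fun w' => (Complex.ofRealCLM ∘ fun w' : Wsp dm =>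
        (Real.sqrt R ^ (9 * r))⁻¹ * (c (‖w'‖ ^ 2 / (ε * R) ^ 2) * S.bz φ ψ Om (zpt ψ x) w')) w' •
          V (zpt ψ x) (ζ (R⁻¹ • zpt ψ x) • Φ (spt ψ x)) := by
      funext w'
      unfold Setup.TR pp
      simp only [Function.comp_apply, Complex.ofRealCLM_apply, mul_assoc]
    rw [h4, hkc.fderiv]
    simp
  · have h0 : ζ (R⁻¹ • zpt ψ x) = 0 := image_eq_zero_of_notMem_tsupport hp
    have h4 : (fun w' => S.TR φ ψ Om V c ε R (pp ζ Φ) x w') = fun _ => 0 := by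
      funext w'
      show _ • V (zpt ψ x) (ζ (R⁻¹ • zpt ψ x) • Φ (spt ψ x)) = 0
      rw [h0, zero_smul, map_zero, smul_zero]
    rw [h4, h0]
    simp

end T3

section T5

variable {ψ : Spl r ds dh}

/-- **T5** functions which are smooth over `U` and supported over `ζ`, `Φ` and the cutoff are test functions -/
theorem tst2_of {U : Set (Cfg r)} {ζ : Cfg r → ℂ} {y₀ : Cfg r} {ρ : ℝ}
    (hζs : tsupport ζ ⊆ Metric.ball y₀ ρ) {R ε : ℝ} (hR : 0 < R) (hUR : ∀ y, R⁻¹ • y ∈ tsupport ζ → y ∈ U)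
    {Φ : Cfg ds → F} (hΦ : HasCompactSupport Φ) {X : Cfg dh → Wsp dm → F}
    (hX : ∀ p : Cfg dh × Wsp dm, zpt ψ p.1 ∈ U → ContDiffAt ℝ ∞ (fun p : Cfg dh × Wsp dm => X p.1 p.2) p)
    (h0 : ∀ x w, X x w ≠ 0 → R⁻¹ • zpt ψ x ∈ tsupport ζ ∧ spt ψ x ∈ tsupport Φ ∧ ‖w‖ ≤ ε * R) : Tst2 X := by
  set Kc : Set (Cfg dh × Wsp dm) := {p | R⁻¹ • zpt ψ p.1 ∈ tsupport ζ ∧ spt ψ p.1 ∈ tsupport Φ ∧ ‖p.2‖ ≤ ε * R}
    with hKc
  have hcl : IsClosed Kc := by
    refine IsClosed.inter ?_ (IsClosed.inter ?_ ?_)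
    · exact (isClosed_tsupport ζ).preimage ((R⁻¹ • zptL ψ).continuous.comp continuous_fst)
    · exact (isClosed_tsupport Φ).preimage ((spt_cont ψ).comp continuous_fst)
    · exact isClosed_le (continuous_snd.norm) continuous_const
  have hsub : Function.support (fun p : Cfg dh × Wsp dm => X p.1 p.2) ⊆ Kc := fun p hp => h0 p.1 p.2 hp
  have hts : tsupport (fun p : Cfg dh × Wsp dm => X p.1 p.2) ⊆ Kc := closure_minimal hsub hcl
  obtain ⟨M, hM⟩ := hΦ.isCompact.isBounded.subset_closedBall (0 : Cfg ds)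
  have hbd : Kc ⊆ Metric.closedBall (0 : Cfg dh) (R * (‖y₀‖ + |ρ|) + M) ×ˢ Metric.closedBall (0 : Wsp dm) (ε * R) := by
    rintro ⟨x, w⟩ ⟨h1, h2, h3⟩
    refine ⟨?_, by simpa using h3⟩
    have h4 := hζs h1
    rw [Metric.mem_ball, dist_eq_norm] at h4
    have h5 := hM h2
    rw [mem_closedBall_zero_iff] at h5 ⊢
    have h6 : ‖R⁻¹ • zpt ψ x‖ ≤ ‖y₀‖ + |ρ| := by
      calc ‖R⁻¹ • zpt ψ x‖ = ‖(R⁻¹ • zpt ψ x - y₀) + y₀‖ := by rw [sub_add_cancel]
        _ ≤ ‖R⁻¹ • zpt ψ x - y₀‖ + ‖y₀‖ := norm_add_le _ _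
        _ ≤ ‖y₀‖ + |ρ| := by
            rw [add_comm]
            exact add_le_add_right (h4.le.trans (le_abs_self ρ)) _
    rw [norm_smul, norm_inv, Real.norm_of_nonneg hR.le, inv_mul_le_iff₀ hR] at h6
    exact (norm_le_zs ψ x).trans (add_le_add h6 h5)
  have hcomp : IsCompact Kc :=
    ((isCompact_closedBall _ _).prod (isCompact_closedBall _ _)).of_isClosed_subset hcl hbd
  have hcs : HasCompactSupport (fun p : Cfg dh × Wsp dm => X p.1 p.2) :=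
    hcomp.of_isClosed_subset (isClosed_tsupport _) hts
  refine ⟨?_, hcs⟩
  rw [contDiff_iff_contDiffAt]
  intro p
  by_cases hp : p ∈ tsupport (fun p : Cfg dh × Wsp dm => X p.1 p.2)
  · exact hX p (hUR _ (hts hp).1)
  · exact contDiffAt_const.congr_of_eventuallyEq (notMem_tsupport_iff_eventuallyEq.1 hp)

omit [InnerProductSpace ℂ F] in
/-- support in the tube -/
theorem sup2_of {ζ : Cfg r → ℂ} {y₀ : Cfg r} {ε : ℝ} (hζs : tsupport ζ ⊆ Metric.ball y₀ (ε / 2)) {R η : ℝ}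
    (hR : 0 < R) (hη : η ≤ ε / 2) {X : Cfg dh → Wsp dm → F}
    (h0 : ∀ x w, X x w ≠ 0 → R⁻¹ • zpt ψ x ∈ tsupport ζ ∧ ‖spt ψ x‖ ≤ η * R ∧ ‖w‖ ≤ ε * R) :
    Sup2 (cmb ψ y₀ 0) ε R X := by
  intro x w h
  obtain ⟨h1, h2, h3⟩ := h0 x w h
  refine ⟨?_, h3⟩
  have h4 := hζs h1
  rw [Metric.mem_ball, dist_eq_norm] at h4
  have h8 : zpt ψ x - R • y₀ = R • (R⁻¹ • zpt ψ x - y₀) := by
    rw [smul_sub, smul_smul, mul_inv_cancel₀ hR.ne', one_smul]
  have h5 : ‖zpt ψ x - R • y₀‖ ≤ ε / 2 * R := by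
    rw [h8, norm_smul, Real.norm_of_nonneg hR.le, mul_comm]
    exact mul_le_mul_of_nonneg_right h4.le hR.le
  have h6 : ‖spt ψ x‖ ≤ ε / 2 * R := h2.trans (mul_le_mul_of_nonneg_right hη hR.le)
  have h7 := norm_sub_ray ψ x y₀ R
  have h9 : 0 ≤ ε * R := by
    have := norm_nonneg (zpt ψ x - R • y₀)
    nlinarith
  have h10 : ‖zpt ψ x - R • y₀‖ ^ 2 ≤ (ε / 2 * R) ^ 2 := pow_le_pow_left₀ (norm_nonneg _) h5 2
  have h11 : ‖spt ψ x‖ ^ 2 ≤ (ε / 2 * R) ^ 2 := pow_le_pow_left₀ (norm_nonneg _) h6 2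
  refine le_of_sq_le_sq ?_ h9
  nlinarith [sq_nonneg (ε * R)]

end T5

end Vale.Agent.P353.Z.AE
end
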