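import Mathlib
import Vale.Agent.P353.BdA.B10
import Vale.Agent.P353.BdA.B7
import Vale.Agent.P353.BdA.B16
import Vale.Agent.P353.BdA.B3

set_option linter.all false

section

/-! # P353, all `N`, block D, L9: analytic part of `SecStmt` (smoothness, support, norm and derivative bounds) (helper221) -/

open MeasureTheory Filter Topology Matrix
open scoped ContDiff

set_option linter.unusedSectionVars false

namespace Vale.Agent.P353.Z.AD

variable {d dh dm ds dz r : ℕ} {F : Type*} [NormedAddCommGroup F] [InnerProductSpace ℂ F]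

/-! ## coordinates -/

/-- `cmb` as a linear map -/
noncomputable def cmL (ψ : Spl ds dz dh) : (Cfg ds × Cfg dz) →ₗ[ℝ] Cfg dh where
  toFun p := cmb ψ p.1 p.2
  map_add' p q := by
    refine cmb_ext ψ (fun i A => ?_) (fun i B => ?_)
    · rw [PiLp.add_apply, cmb_inl, cmb_inl, cmb_inl]; rfl
    · rw [PiLp.add_apply, cmb_inr, cmb_inr, cmb_inr]; rfl
  map_smul' c p := by
    refine cmb_ext ψ (fun i A => ?_) (fun i B => ?_)
    · rw [RingHom.id_apply, PiLp.smul_apply, cmb_inl, cmb_inl]; rfl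
    · rw [RingHom.id_apply, PiLp.smul_apply, cmb_inr, cmb_inr]; rfl

lemma contDiff_cmb (ψ : Spl ds dz dh) : ContDiff ℝ ∞ (fun p : Cfg ds × Cfg dz => cmb ψ p.1 p.2) :=
  (cmL ψ).toContinuousLinearMap.contDiff

lemma norm_cmb (ψ : Spl ds dz dh) (ys : Cfg ds) (yz : Cfg dz) :
    ‖cmb ψ ys yz‖ ^ 2 = ‖ys‖ ^ 2 + ‖yz‖ ^ 2 := (cmbS ds dz dh ψ).2.2.2.1 ys yz

lemma norm_le_cmb (ψ : Spl ds dz dh) (ys : Cfg ds) (yz : Cfg dz) :
    ‖ys‖ ≤ ‖cmb ψ ys yz‖ ∧ ‖yz‖ ≤ ‖cmb ψ ys yz‖ := by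
  have h := norm_cmb ψ ys yz
  constructor
  · exact abs_le_of_sq_le_sq' (by nlinarith [sq_nonneg ‖yz‖]) (norm_nonneg _) |>.2
  · exact abs_le_of_sq_le_sq' (by nlinarith [sq_nonneg ‖ys‖]) (norm_nonneg _) |>.2

lemma norm_cmb_zero (ψ : Spl ds dz dh) (yz : Cfg dz) : ‖cmb ψ 0 yz‖ = ‖yz‖ := by
  have h := norm_cmb ψ 0 yz
  rw [norm_zero] at h
  have h2 : ‖cmb ψ 0 yz‖ ^ 2 = ‖yz‖ ^ 2 := by rw [h]; ring
  exact (sq_eq_sq₀ (norm_nonneg _) (norm_nonneg _)).1 h2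

lemma cmb_sub (ψ : Spl ds dz dh) (ys : Cfg ds) (yz : Cfg dz) (ys' : Cfg ds) (yz' : Cfg dz) :
    cmb ψ ys yz - cmb ψ ys' yz' = cmb ψ (ys - ys') (yz - yz') := (cmbS ds dz dh ψ).2.2.2.2.1 ys yz ys' yz'

lemma cmb_smul (ψ : Spl ds dz dh) (c : ℝ) (ys : Cfg ds) (yz : Cfg dz) :
    c • cmb ψ ys yz = cmb ψ (c • ys) (c • yz) := (cmbS ds dz dh ψ).2.2.2.2.2.1 c ys yz

lemma sd_Dy_smul (S : Setup d F) (φ : Spl dh dm d) (i : Fin 9) (c : ℝ) (y : Cfg dh) :
    S.Dy φ i (c • y) = c • S.Dy φ i y := by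
  ext B C
  simp only [Setup.Dy, Setup.Dm, Matrix.of_apply, Matrix.smul_apply, PiLp.smul_apply, smul_eq_mul,
    Finset.mul_sum]
  refine Finset.sum_congr rfl fun A _ => ?_
  ring

/-- scalar points with invertible `D_8` -/
def UZ (S : Setup d F) (φ : Spl dh dm d) (ψ : Spl ds dz dh) : Set (Cfg dz) :=
  {yz | (S.Dy φ 8 (cmb ψ 0 yz)).det ≠ 0}

lemma isOpen_UZ (S : Setup d F) (φ : Spl dh dm d) (ψ : Spl ds dz dh) : IsOpen (UZ S φ ψ) := by
  have h : Continuous fun yz : Cfg dz => (S.Dy φ 8 (cmb ψ 0 yz)).det :=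
    ((AN.dec_det_smooth S φ 8).comp ((contDiff_cmb ψ).comp (contDiff_const.prodMk contDiff_id))).continuous
  exact isOpen_ne_fun h continuous_const

lemma UZ_smul (S : Setup d F) (φ : Spl dh dm d) (ψ : Spl ds dz dh) {R : ℝ} (hR : 0 < R) {yz : Cfg dz} :
    R • yz ∈ UZ S φ ψ ↔ yz ∈ UZ S φ ψ := by
  have h : (S.Dy φ 8 (cmb ψ 0 (R • yz))).det = R ^ dm * (S.Dy φ 8 (cmb ψ 0 yz)).det := by
    have h1 : cmb ψ 0 (R • yz) = R • cmb ψ 0 yz := by rw [cmb_smul, smul_zero]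
    rw [h1, sd_Dy_smul, Matrix.det_smul, Fintype.card_fin]
  unfold UZ
  rw [Set.mem_ofPred_eq, Set.mem_ofPred_eq, h]
  constructor
  · intro h1 h2
    exact h1 (by rw [h2, mul_zero])
  · intro h1
    exact mul_ne_zero (pow_ne_zero _ hR.ne') h1

lemma UZ_near (S : Setup d F) (φ : Spl dh dm d) (ψ : Spl ds dz dh) {z₀ : Cfg dz} {ε₀ : ℝ}
    (hdet : ∀ y : Cfg dh, ‖y - cmb ψ 0 z₀‖ ≤ 4 * ε₀ → (S.Dy φ 8 y).det ≠ 0) {R : ℝ} (hR : 0 < R)
    {yz : Cfg dz} (h : ‖yz - R • z₀‖ ≤ 4 * ε₀ * R) : yz ∈ UZ S φ ψ := by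
  have h1 : R⁻¹ • yz ∈ UZ S φ ψ := by
    refine hdet _ ?_
    rw [cmb_sub, sub_zero, norm_cmb_zero]
    have h2 : R⁻¹ • yz - z₀ = R⁻¹ • (yz - R • z₀) := by
      rw [smul_sub, smul_smul, inv_mul_cancel₀ hR.ne', one_smul]
    rw [h2, norm_smul, norm_inv, Real.norm_of_nonneg hR.le, inv_mul_le_iff₀ hR]
    linarith
  rw [← UZ_smul S φ ψ (inv_pos.2 hR)]
  exact h1

/-- support in the three variables -/
lemma sup_cmb {ψ : Spl ds dz dh} {z₀ : Cfg dz} {ε R : ℝ} {v : Cfg dh → Wsp dm → F}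
    (hs : Sup2 (cmb ψ 0 z₀) ε R v) {ys : Cfg ds} {yz : Cfg dz} {w : Wsp dm} (h : v (cmb ψ ys yz) w ≠ 0) :
    ‖ys‖ ≤ ε * R ∧ ‖yz - R • z₀‖ ≤ ε * R ∧ ‖w‖ ≤ ε * R := by
  obtain ⟨h1, h2⟩ := hs _ _ h
  rw [cmb_smul, smul_zero, cmb_sub, sub_zero] at h1
  obtain ⟨h3, h4⟩ := norm_le_cmb ψ ys (yz - R • z₀)
  exact ⟨h3.trans h1, h4.trans h1, h2⟩

lemma tst2_bd {v : Cfg dh → Wsp dm → F} (hv : Tst2 v) :
    ∃ M : ℝ, 0 ≤ M ∧ ∀ y w, v y w ≠ 0 → ‖y‖ ≤ M ∧ ‖w‖ ≤ M := by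
  obtain ⟨M, hM⟩ := hv.2.isCompact.isBounded.subset_closedBall (0 : Cfg dh × Wsp dm)
  refine ⟨max M 0, le_max_right _ _, fun y w h => ?_⟩
  have h1 : (y, w) ∈ tsupport (fun p : Cfg dh × Wsp dm => v p.1 p.2) := subset_tsupport _ h
  have h2 := hM h1
  rw [mem_closedBall_zero_iff, Prod.norm_def] at h2
  exact ⟨(le_max_left _ _).trans (h2.trans (le_max_left _ _)), (le_max_right _ _).trans (h2.trans (le_max_left _ _))⟩

/-! ## the kernel -/

/-- the integrand of `sec` -/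
noncomputable def secK [FiniteDimensional ℂ F] (S : Setup d F) (φ : Spl dh dm d) (ψ : Spl ds dz dh)
    (v : Cfg dh → Wsp dm → F) (q : (Cfg dz × Cfg ds) × Wsp dm) : F :=
  ((gn S φ ψ q.1.1 q.2 : ℝ) : ℂ) • Pz S φ ψ q.1.1 (v (cmb ψ q.1.2 q.1.1) q.2)

lemma bil_clm : IsBoundedBilinearMap ℝ (fun p : (F →L[ℂ] F) × F => p.1 p.2) := by
  have h := (isBoundedBilinearMap_apply (𝕜 := ℂ) (E := F) (F := F))
  refine ⟨fun a b c => by simp, fun c a b => ?_, fun a b c => by simp, fun c a b => ?_, ?_⟩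
  · simp
  · simp
  · obtain ⟨C, hC, hb⟩ := h.bound
    exact ⟨C, hC, hb⟩

section

variable [FiniteDimensional ℂ F] (S : Setup d F) (φ : Spl dh dm d) (ψ : Spl ds dz dh)

lemma secK_smooth (hg : ContDiffOn ℝ ∞ (fun p : Cfg dz × Wsp dm => gn S φ ψ p.1 p.2) {p | p.1 ∈ UZ S φ ψ})
    (hp : ContDiffOn ℝ ∞ (fun yz => Pz S φ ψ yz) (UZ S φ ψ)) {v : Cfg dh → Wsp dm → F} (hv : Tst2 v)
    {K : Set (Cfg dz)} (hK : IsClosed K) (hKU : K ⊆ UZ S φ ψ)
    (hs : ∀ ys yz w, v (cmb ψ ys yz) w ≠ 0 → yz ∈ K) : ContDiff ℝ ∞ (secK S φ ψ v) := by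
  refine contDiff_iff_contDiffAt.2 fun q => ?_
  by_cases hq : q.1.1 ∈ UZ S φ ψ
  · have hU := isOpen_UZ S φ ψ
    have hU2 : IsOpen {p : Cfg dz × Wsp dm | p.1 ∈ UZ S φ ψ} := hU.preimage continuous_fst
    have a1 : ContDiffAt ℝ ∞ (fun q : (Cfg dz × Cfg ds) × Wsp dm => gn S φ ψ q.1.1 q.2) q := by
      have h1 : ContDiffAt ℝ ∞ (fun p : Cfg dz × Wsp dm => gn S φ ψ p.1 p.2) (q.1.1, q.2) :=
        hg.contDiffAt (hU2.mem_nhds hq)
      exact h1.comp q (contDiff_fst.fst.prodMk contDiff_snd).contDiffAt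
    have a2 : ContDiffAt ℝ ∞ (fun q : (Cfg dz × Cfg ds) × Wsp dm => Pz S φ ψ q.1.1) q := by
      have h1 : ContDiffAt ℝ ∞ (fun yz => Pz S φ ψ yz) q.1.1 := hp.contDiffAt (hU.mem_nhds hq)
      exact h1.comp q (contDiff_fst.fst).contDiffAt
    have a3 : ContDiffAt ℝ ∞ (fun q : (Cfg dz × Cfg ds) × Wsp dm => v (cmb ψ q.1.2 q.1.1) q.2) q := by
      have h1 : ContDiff ℝ ∞ (fun q : (Cfg dz × Cfg ds) × Wsp dm => (cmb ψ q.1.2 q.1.1, q.2)) :=
        ((contDiff_cmb ψ).comp (contDiff_fst.snd.prodMk contDiff_fst.fst)).prodMk contDiff_snd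
      exact (hv.1.comp h1).contDiffAt
    have a4 : ContDiffAt ℝ ∞ (fun q : (Cfg dz × Cfg ds) × Wsp dm => Pz S φ ψ q.1.1 (v (cmb ψ q.1.2 q.1.1) q.2)) q :=
      (bil_clm (F := F)).contDiff.contDiffAt.comp q (a2.prodMk a3)
    have a5 : ContDiffAt ℝ ∞ (fun q : (Cfg dz × Cfg ds) × Wsp dm => ((gn S φ ψ q.1.1 q.2 : ℝ) : ℂ)) q :=
      Complex.ofRealCLM.contDiff.contDiffAt.comp q a1
    exact a5.smul a4
  · have h1 : q.1.1 ∉ K := fun h => hq (hKU h)
    have h2 : ∀ᶠ q' in 𝓝 q, secK S φ ψ v q' = 0 := by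
      have h3 : {q' : (Cfg dz × Cfg ds) × Wsp dm | q'.1.1 ∉ K} ∈ 𝓝 q :=
        ((hK.preimage continuous_fst.fst).isOpen_compl).mem_nhds h1
      filter_upwards [h3] with q' hq'
      have h4 : v (cmb ψ q'.1.2 q'.1.1) q'.2 = 0 := by
        by_contra h5
        exact hq' (hs _ _ _ h5)
      unfold secK
      rw [h4, map_zero, smul_zero]
    exact contDiffAt_const.congr_of_eventuallyEq h2

lemma secK_hcs {v : Cfg dh → Wsp dm → F} (hv : Tst2 v) : HasCompactSupport (secK S φ ψ v) := by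
  obtain ⟨M, hM0, hM⟩ := tst2_bd hv
  refine HasCompactSupport.intro (isCompact_closedBall (0 : (Cfg dz × Cfg ds) × Wsp dm) M) fun q hq => ?_
  have h4 : v (cmb ψ q.1.2 q.1.1) q.2 = 0 := by
    by_contra h5
    obtain ⟨h6, h7⟩ := hM _ _ h5
    obtain ⟨h8, h9⟩ := norm_le_cmb ψ q.1.2 q.1.1
    apply hq
    rw [mem_closedBall_zero_iff, Prod.norm_def, Prod.norm_def]
    exact max_le (max_le (h9.trans h6) (h8.trans h6)) h7
  unfold secK
  rw [h4, map_zero, smul_zero]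

end

/-! ## fibre masses -/

section mass

/-- fibre mass -/
lemma nsf_smooth {v : Cfg dh → Wsp dm → F} (hv : Tst2 v) :
    ContDiff ℝ ∞ (fun y => nsf (v y)) ∧ HasCompactSupport (fun y => nsf (v y)) := by
  have h1 : ContDiff ℝ ∞ (fun p : Cfg dh × Wsp dm => ‖v p.1 p.2‖ ^ 2) := hv.1.norm_sq ℂ
  have h2 : HasCompactSupport (fun p : Cfg dh × Wsp dm => ‖v p.1 p.2‖ ^ 2) :=
    hv.2.comp_left (g := fun x : F => ‖x‖ ^ 2) (by simp)
  exact ⟨par_contDiff volume h1 h2, par_hcs volume h2⟩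

lemma nsf_nonneg' (f : Wsp dm → F) : 0 ≤ nsf f := integral_nonneg fun w => by positivity

lemma mass_int {v : Cfg dh → Wsp dm → F} (hv : Tst2 v) (ψ : Spl ds dz dh) :
    (∀ yz : Cfg dz, Integrable (fun ys : Cfg ds => nsf (v (cmb ψ ys yz)))) ∧
    Integrable (fun yz : Cfg dz => ∫ ys : Cfg ds, nsf (v (cmb ψ ys yz))) ∧
    ∫ yz : Cfg dz, ∫ ys : Cfg ds, nsf (v (cmb ψ ys yz)) = ns2 v := by
  obtain ⟨hs, hc⟩ := nsf_smooth hv
  obtain ⟨M, hM0, hM⟩ := tst2_bd hv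
  have hz : ∀ y, M < ‖y‖ → nsf (v y) = 0 := by
    intro y hy
    have h1 : ∀ w, v y w = 0 := by
      intro w
      by_contra h
      exact absurd (hM y w h).1 (not_le.2 hy)
    simp [nsf, h1]
  have hcont : Continuous fun p : Cfg ds × Cfg dz => nsf (v (cmb ψ p.1 p.2)) :=
    hs.continuous.comp (contDiff_cmb ψ).continuous
  have hcs : HasCompactSupport fun p : Cfg ds × Cfg dz => nsf (v (cmb ψ p.1 p.2)) := by
    refine HasCompactSupport.intro (isCompact_closedBall (0 : Cfg ds × Cfg dz) M) fun p hp => ?_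
    refine hz _ ?_
    rw [mem_closedBall_zero_iff, Prod.norm_def, not_le] at hp
    obtain ⟨h8, h9⟩ := norm_le_cmb ψ p.1 p.2
    exact hp.trans_le (max_le h8 h9)
  have hI : Integrable (fun p : Cfg ds × Cfg dz => nsf (v (cmb ψ p.1 p.2)))
      ((volume : Measure (Cfg ds)).prod (volume : Measure (Cfg dz))) :=
    hcont.integrable_of_hasCompactSupport hcs
  refine ⟨fun yz => ?_, hI.integral_prod_right, ?_⟩
  · refine Continuous.integrable_of_hasCompactSupport (hcont.comp (continuous_id.prodMk continuous_const)) ?_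
    refine HasCompactSupport.intro (isCompact_closedBall (0 : Cfg ds) M) fun ys hys => ?_
    refine hz _ ?_
    rw [mem_closedBall_zero_iff, not_le] at hys
    exact hys.trans_le (norm_le_cmb ψ ys yz).1
  · rw [← integral_prod_symm _ hI]
    have hmp := cmb_mp ψ (ds := ds) (dz := dz) (dh := dh)
    have h1 : ∫ y, nsf (v y) ∂(volume : Measure (Cfg dh)) =
        ∫ p : Cfg ds × Cfg dz, nsf (v (cmb ψ p.1 p.2)) ∂((volume : Measure (Cfg ds)).prod (volume : Measure (Cfg dz))) := by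
      conv_lhs => rw [← hmp.map_eq]
      exact integral_map hmp.measurable.aemeasurable hs.continuous.aestronglyMeasurable
    rw [← h1]
    unfold ns2 nsf
    have h2 : Integrable (fun p : Cfg dh × Wsp dm => ‖v p.1 p.2‖ ^ 2)
        ((volume : Measure (Cfg dh)).prod (volume : Measure (Wsp dm))) :=
      (hv.1.norm_sq ℂ).continuous.integrable_of_hasCompactSupport
        (hv.2.comp_left (g := fun x : F => ‖x‖ ^ 2) (by simp))
    rw [integral_prod _ h2]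

end mass

end Vale.Agent.P353.Z.AD
end

section

/-! # P353, all `N`, block D, L9: items (1), (2), (4), (6) of `SecStmt` (helper221) -/

open MeasureTheory Filter Topology Matrix
open scoped ContDiff

set_option linter.unusedSectionVars false

namespace Vale.Agent.P353.Z.AD

variable {d dh dm ds dz r : ℕ} {F : Type*} [NormedAddCommGroup F] [InnerProductSpace ℂ F]

/-! ## Gaussian -/

lemma gauss_val {b : ℝ} (hb : 0 < b) :
    ∫ w : Wsp dm, Real.exp (-(b * ‖w‖ ^ 2)) = (Real.pi / b) ^ (4 * dm) := by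
  have h := GaussianFourier.integral_rexp_neg_mul_sq_norm (V := Wsp dm) hb
  have h1 : ∀ w : Wsp dm, Real.exp (-(b * ‖w‖ ^ 2)) = Real.exp (-b * ‖w‖ ^ 2) := fun w => by
    rw [neg_mul]
  simp only [h1]
  rw [h]
  have h2 : (Module.finrank ℝ (Wsp dm) / 2 : ℝ) = ((4 * dm : ℕ) : ℝ) := by
    rw [finrank_euclideanSpace, Fintype.card_prod, Fintype.card_fin, Fintype.card_fin]
    push_cast
    ring
  rw [h2, Real.rpow_natCast]

lemma gauss_int {b : ℝ} (hb : 0 < b) : Integrable fun w : Wsp dm => Real.exp (-(b * ‖w‖ ^ 2)) := by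
  by_contra h
  have h1 := gauss_val (dm := dm) hb
  rw [integral_undef h] at h1
  have : 0 < (Real.pi / b) ^ (4 * dm) := pow_pos (div_pos Real.pi_pos hb) _
  linarith

/-- the Gaussian bound -/
noncomputable def gam (Cg c R : ℝ) (w : Wsp dm) : ℝ := Cg * (R ^ (2 * dm) * Real.exp (-(c * R * ‖w‖ ^ 2)))

lemma gam_sq {Cg c R : ℝ} (hc : 0 < c) (hR : 0 < R) :
    Integrable (fun w : Wsp dm => gam Cg c R w ^ 2) ∧
    ∫ w : Wsp dm, gam Cg c R w ^ 2 = Cg ^ 2 * (Real.pi / (2 * c)) ^ (4 * dm) := by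
  have h1 : ∀ w : Wsp dm, gam Cg c R w ^ 2 = (Cg * R ^ (2 * dm)) ^ 2 * Real.exp (-((2 * c * R) * ‖w‖ ^ 2)) := by
    intro w
    unfold gam
    rw [← mul_assoc, mul_pow, ← Real.exp_nat_mul]
    congr 2
    push_cast
    ring
  simp only [h1]
  have hb : 0 < 2 * c * R := by positivity
  refine ⟨(gauss_int hb).const_mul _, ?_⟩
  rw [integral_const_mul, gauss_val hb, mul_pow, ← pow_mul, mul_assoc]
  congr 1
  have h2 : R ^ (2 * dm * 2) = R ^ (4 * dm) := by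
    congr 1
    ring
  rw [h2, ← mul_pow]
  congr 1
  field_simp

lemma gam_cont (Cg c R : ℝ) : Continuous (gam (dm := dm) Cg c R) := by
  unfold gam
  fun_prop

section main

variable [FiniteDimensional ℂ F] (S : Setup d F) (φ : Spl dh dm d) (ψ : Spl ds dz dh)

lemma Pz_le (yz : Cfg dz) (u : F) : ‖Pz S φ ψ yz u‖ ≤ ‖u‖ := by
  unfold Pz
  refine (ContinuousLinearMap.le_opNorm _ u).trans ?_
  exact mul_le_of_le_one_left (norm_nonneg _) (Submodule.starProjection_norm_le _)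

/-- the derivative of `Pz` is `O(1/R)` -/
lemma Pz_der {z₀ : Cfg dz} {ε₀ : ℝ} (hball : Metric.closedBall z₀ ε₀ ⊆ UZ S φ ψ)
    (hp : ContDiffOn ℝ ∞ (fun yz => Pz S φ ψ yz) (UZ S φ ψ))
    (hh : ∀ yz ∈ UZ S φ ψ, ∀ R : ℝ, 0 < R → Pz S φ ψ (R • yz) = Pz S φ ψ yz) :
    ∃ B : ℝ, 0 ≤ B ∧ ∀ R : ℝ, 0 < R → ∀ yz : Cfg dz, ‖yz - R • z₀‖ ≤ ε₀ * R → ∀ (i : Fin 9) (A : Fin dz),
      ‖fderiv ℝ (fun z => Pz S φ ψ z) yz (EuclideanSpace.single (i, A) 1)‖ ≤ B / R := by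
  have hU := isOpen_UZ S φ ψ
  have hc : ContinuousOn (fderiv ℝ (fun z => Pz S φ ψ z)) (UZ S φ ψ) :=
    hp.continuousOn_fderiv_of_isOpen hU (by simp)
  obtain ⟨B, hB⟩ := (isCompact_closedBall z₀ ε₀).exists_bound_of_continuousOn
    (f := fderiv ℝ (fun z => Pz S φ ψ z)) (hc.mono hball)
  refine ⟨max B 0, le_max_right _ _, fun R hR yz hyz i A => ?_⟩
  set z₁ : Cfg dz := R⁻¹ • yz with hz₁
  have hz1 : z₁ ∈ Metric.closedBall z₀ ε₀ := by
    rw [Metric.mem_closedBall, dist_eq_norm]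
    have h2 : z₁ - z₀ = R⁻¹ • (yz - R • z₀) := by
      rw [smul_sub, smul_smul, inv_mul_cancel₀ hR.ne', one_smul]
    rw [h2, norm_smul, norm_inv, Real.norm_of_nonneg hR.le, inv_mul_le_iff₀ hR]
    linarith
  have hzU : z₁ ∈ UZ S φ ψ := hball hz1
  have hyU : yz ∈ UZ S φ ψ := by
    rw [← UZ_smul S φ ψ (inv_pos.2 hR)]
    exact hzU
  have he : (fun z => Pz S φ ψ z) =ᶠ[𝓝 yz] fun z => Pz S φ ψ (R⁻¹ • z) := by
    filter_upwards [hU.mem_nhds hyU] with z hz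
    exact (hh z hz R⁻¹ (inv_pos.2 hR)).symm
  have hd : DifferentiableAt ℝ (fun z => Pz S φ ψ z) z₁ :=
    (hp.contDiffAt (hU.mem_nhds hzU)).differentiableAt (by simp)
  have h1 : HasFDerivAt (fun z => Pz S φ ψ (R⁻¹ • z))
      ((fderiv ℝ (fun z => Pz S φ ψ z) z₁).comp (R⁻¹ • ContinuousLinearMap.id ℝ (Cfg dz))) yz := by
    have h2 : HasFDerivAt (fun z : Cfg dz => R⁻¹ • z) (R⁻¹ • ContinuousLinearMap.id ℝ (Cfg dz)) yz :=
      (hasFDerivAt_id yz).const_smul R⁻¹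
    exact hd.hasFDerivAt.comp yz h2
  rw [he.fderiv_eq, h1.fderiv]
  have h3 : ((fderiv ℝ (fun z => Pz S φ ψ z) z₁).comp (R⁻¹ • ContinuousLinearMap.id ℝ (Cfg dz)))
      (EuclideanSpace.single (i, A) 1) = R⁻¹ • (fderiv ℝ (fun z => Pz S φ ψ z) z₁) (EuclideanSpace.single (i, A) 1) := by
    rw [ContinuousLinearMap.comp_apply]
    have : (R⁻¹ • ContinuousLinearMap.id ℝ (Cfg dz)) (EuclideanSpace.single (i, A) 1) =
        R⁻¹ • (EuclideanSpace.single (i, A) (1 : ℝ) : Cfg dz) := rfl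
    rw [this, ContinuousLinearMap.map_smul]
  rw [h3, norm_smul, norm_inv, Real.norm_of_nonneg hR.le, div_eq_inv_mul]
  refine mul_le_mul_of_nonneg_left ?_ (inv_nonneg.2 hR.le)
  refine (ContinuousLinearMap.le_opNorm _ _).trans ?_
  have h4 : ‖(EuclideanSpace.single (i, A) (1 : ℝ) : Cfg dz)‖ = 1 := by
    rw [PiLp.norm_single, norm_one]
  rw [h4, mul_one]
  exact (hB z₁ hz1).trans (le_max_left _ _)

omit [FiniteDimensional ℂ F] in
lemma cmb_single (i : Fin 9) (A : Fin dz) :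
    cmb ψ (0 : Cfg ds) (EuclideanSpace.single (i, A) 1) = EuclideanSpace.single (i, ψ (Sum.inr A)) 1 := by
  refine cmb_ext ψ (fun j B => ?_) (fun j B => ?_)
  · rw [cmb_inl, PiLp.single_apply, if_neg]
    · rfl
    · intro h
      have := ψ.injective (Prod.ext_iff.1 h).2
      simp at this
  · rw [cmb_inr, PiLp.single_apply, PiLp.single_apply]
    by_cases h : (j, B) = (i, A)
    · have e1 : j = i := congrArg Prod.fst h
      have e2 : B = A := congrArg Prod.snd h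
      rw [if_pos h, if_pos (by rw [e1, e2])]
    · rw [if_neg h, if_neg]
      intro h2
      apply h
      have h3 := ψ.injective (Prod.ext_iff.1 h2).2
      exact Prod.ext (Prod.ext_iff.1 h2).1 (Sum.inr_injective h3)

omit [FiniteDimensional ℂ F] in
lemma pd_cmb {v : Cfg dh → Wsp dm → F} (hv : Tst2 v) (i : Fin 9) (A : Fin dz) (ys : Cfg ds) (yz : Cfg dz) (w : Wsp dm) :
    DifferentiableAt ℝ (fun z => v (cmb ψ ys z) w) yz ∧
    pd i A (fun z => v (cmb ψ ys z) w) yz = py i (ψ (Sum.inr A)) v (cmb ψ ys yz) w := by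
  have h1 : HasFDerivAt (fun z : Cfg dz => cmb ψ ys z)
      ((cmL ψ).toContinuousLinearMap.comp (ContinuousLinearMap.inr ℝ (Cfg ds) (Cfg dz))) yz := by
    have h2 : HasFDerivAt (fun z : Cfg dz => (ys, z)) (ContinuousLinearMap.inr ℝ (Cfg ds) (Cfg dz)) yz :=
      (hasFDerivAt_const ys yz).prodMk (hasFDerivAt_id yz)
    exact ((cmL ψ).toContinuousLinearMap.hasFDerivAt (x := (ys, yz))).comp yz h2
  have h3 : HasFDerivAt (fun y' => v y' w) (fderiv ℝ (fun y' => v y' w) (cmb ψ ys yz)) (cmb ψ ys yz) := by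
    have : ContDiff ℝ ∞ (fun y' => v y' w) := hv.1.comp (contDiff_id.prodMk contDiff_const)
    exact (this.differentiable (by simp) _).hasFDerivAt
  have h4 := h3.comp yz h1
  refine ⟨h4.differentiableAt, ?_⟩
  unfold pd py
  have h5 : fderiv ℝ (fun z => v (cmb ψ ys z) w) yz = _ := h4.fderiv
  rw [h5]
  simp only [ContinuousLinearMap.comp_apply]
  unfold pd
  congr 1
  exact cmb_single ψ i A

/-- product rule for the kernel -/
lemma secK_pd (hg : ContDiffOn ℝ ∞ (fun p : Cfg dz × Wsp dm => gn S φ ψ p.1 p.2) {p | p.1 ∈ UZ S φ ψ})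
    (hp : ContDiffOn ℝ ∞ (fun yz => Pz S φ ψ yz) (UZ S φ ψ)) {v : Cfg dh → Wsp dm → F} (hv : Tst2 v)
    (i : Fin 9) (A : Fin dz) (ys : Cfg ds) {yz : Cfg dz} (hyz : yz ∈ UZ S φ ψ) (w : Wsp dm) :
    fderiv ℝ (fun z => secK S φ ψ v ((z, ys), w)) yz (EuclideanSpace.single (i, A) 1) =
      ((fderiv ℝ (fun z => gn S φ ψ z w) yz (EuclideanSpace.single (i, A) 1) : ℝ) : ℂ) •
        Pz S φ ψ yz (v (cmb ψ ys yz) w) +
      ((gn S φ ψ yz w : ℝ) : ℂ) • ((fderiv ℝ (fun z => Pz S φ ψ z) yz (EuclideanSpace.single (i, A) 1))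
        (v (cmb ψ ys yz) w) + Pz S φ ψ yz (py i (ψ (Sum.inr A)) v (cmb ψ ys yz) w)) := by
  have hU := isOpen_UZ S φ ψ
  have hU2 : IsOpen {p : Cfg dz × Wsp dm | p.1 ∈ UZ S φ ψ} := hU.preimage continuous_fst
  have g1 : DifferentiableAt ℝ (fun z => gn S φ ψ z w) yz := by
    have h1 : ContDiffAt ℝ ∞ (fun p : Cfg dz × Wsp dm => gn S φ ψ p.1 p.2) (yz, w) :=
      hg.contDiffAt (hU2.mem_nhds hyz)
    exact (h1.comp yz (contDiff_id.prodMk contDiff_const).contDiffAt).differentiableAt (by simp)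
  have g2 : DifferentiableAt ℝ (fun z => Pz S φ ψ z) yz :=
    (hp.contDiffAt (hU.mem_nhds hyz)).differentiableAt (by simp)
  obtain ⟨g3, g4⟩ := pd_cmb (ψ := ψ) hv i A ys yz w
  have g5 : HasFDerivAt (fun z => ((gn S φ ψ z w : ℝ) : ℂ))
      (Complex.ofRealCLM.comp (fderiv ℝ (fun z => gn S φ ψ z w) yz)) yz :=
    Complex.ofRealCLM.hasFDerivAt.comp yz g1.hasFDerivAt
  have g6 : DifferentiableAt ℝ (fun z => Pz S φ ψ z (v (cmb ψ ys z) w)) yz := by
    have h1 := (bil_clm (F := F)).hasFDerivAt (Pz S φ ψ yz, v (cmb ψ ys yz) w)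
    exact (h1.comp yz (g2.hasFDerivAt.prodMk g3.hasFDerivAt)).differentiableAt
  have h1 := pd_csmul (i := i) (A := A) g5.differentiableAt g6
  have h2 := pd_clm_apply (i := i) (A := A) g2 g3
  rw [h2, g4, g5.fderiv] at h1
  exact h1

/-- bound for the derivative of the kernel -/
lemma secK_pd_le {z₀ : Cfg dz} {ε₀ Cg c B : ℝ} (hCg : 0 < Cg)
    (hg : ContDiffOn ℝ ∞ (fun p : Cfg dz × Wsp dm => gn S φ ψ p.1 p.2) {p | p.1 ∈ UZ S φ ψ})
    (hp : ContDiffOn ℝ ∞ (fun yz => Pz S φ ψ yz) (UZ S φ ψ))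
    {R : ℝ} (hR : 0 < R)
    (hU : ∀ yz : Cfg dz, ‖yz - R • z₀‖ ≤ ε₀ * R → yz ∈ UZ S φ ψ)
    (hB : ∀ yz : Cfg dz, ‖yz - R • z₀‖ ≤ ε₀ * R → ∀ (i : Fin 9) (A : Fin dz),
      ‖fderiv ℝ (fun z => Pz S φ ψ z) yz (EuclideanSpace.single (i, A) 1)‖ ≤ B / R)
    (hgn : ∀ yz : Cfg dz, ‖yz - R • z₀‖ ≤ ε₀ * R → ∀ w, |gn S φ ψ yz w| ≤ gam Cg c R w)
    (hgd : ∀ yz : Cfg dz, ‖yz - R • z₀‖ ≤ ε₀ * R → ∀ i A w,
      |fderiv ℝ (fun z => gn S φ ψ z w) yz (EuclideanSpace.single (i, A) 1)| ≤ gam Cg c R w / R)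
    {v : Cfg dh → Wsp dm → F} (hv : Tst2 v) (hs : Sup2 (cmb ψ 0 z₀) ε₀ R v)
    (i : Fin 9) (A : Fin dz) (ys : Cfg ds) (yz : Cfg dz) (w : Wsp dm) :
    ‖fderiv ℝ (fun z => secK S φ ψ v ((z, ys), w)) yz (EuclideanSpace.single (i, A) 1)‖ ≤
      gam Cg c R w * ((1 + B) / R * ‖v (cmb ψ ys yz) w‖ + ‖py i (ψ (Sum.inr A)) v (cmb ψ ys yz) w‖) := by
  have hγ : 0 ≤ gam Cg c R w := by
    unfold gam
    positivity
  by_cases hyz : ‖yz - R • z₀‖ ≤ ε₀ * R
  · rw [secK_pd S φ ψ hg hp hv i A ys (hU yz hyz) w]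
    refine (norm_add_le _ _).trans ?_
    rw [norm_smul, norm_smul, Complex.norm_real, Complex.norm_real, Real.norm_eq_abs, Real.norm_eq_abs]
    have h1 := hgd yz hyz i A w
    have h2 := hgn yz hyz w
    have h3 := Pz_le S φ ψ yz (v (cmb ψ ys yz) w)
    have h4 := Pz_le S φ ψ yz (py i (ψ (Sum.inr A)) v (cmb ψ ys yz) w)
    have h5 : ‖(fderiv ℝ (fun z => Pz S φ ψ z) yz (EuclideanSpace.single (i, A) 1)) (v (cmb ψ ys yz) w)‖ ≤
        B / R * ‖v (cmb ψ ys yz) w‖ :=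
      (ContinuousLinearMap.le_opNorm _ _).trans (mul_le_mul_of_nonneg_right (hB yz hyz i A) (norm_nonneg _))
    have hB0 : 0 ≤ B / R := (norm_nonneg _).trans (hB yz hyz i A)
    calc |fderiv ℝ (fun z => gn S φ ψ z w) yz (EuclideanSpace.single (i, A) 1)| * ‖Pz S φ ψ yz (v (cmb ψ ys yz) w)‖ +
          |gn S φ ψ yz w| * ‖(fderiv ℝ (fun z => Pz S φ ψ z) yz (EuclideanSpace.single (i, A) 1))
            (v (cmb ψ ys yz) w) + Pz S φ ψ yz (py i (ψ (Sum.inr A)) v (cmb ψ ys yz) w)‖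
        ≤ gam Cg c R w / R * ‖v (cmb ψ ys yz) w‖ +
          gam Cg c R w * (B / R * ‖v (cmb ψ ys yz) w‖ + ‖py i (ψ (Sum.inr A)) v (cmb ψ ys yz) w‖) := by
          refine add_le_add (mul_le_mul h1 h3 (norm_nonneg _) (by positivity))
            (mul_le_mul h2 ((norm_add_le _ _).trans (add_le_add h5 h4)) (norm_nonneg _) hγ)
      _ = _ := by
          field_simp
          ring
  · have h1 : (fun z => secK S φ ψ v ((z, ys), w)) =ᶠ[𝓝 yz] fun _ => 0 := by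
      have h2 : {z : Cfg dz | ε₀ * R < ‖z - R • z₀‖} ∈ 𝓝 yz :=
        (isOpen_lt continuous_const (by fun_prop)).mem_nhds (not_le.1 hyz)
      filter_upwards [h2] with z hz
      have h4 : v (cmb ψ ys z) w = 0 := by
        by_contra h5
        exact absurd (sup_cmb hs h5).2.1 (not_le.2 hz)
      unfold secK
      simp only
      rw [h4, map_zero, smul_zero]
    rw [h1.fderiv_eq]
    have h2 : fderiv ℝ (fun _ : Cfg dz => (0 : F)) yz (EuclideanSpace.single (i, A) 1) = 0 := by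
      rw [fderiv_fun_const]
      rfl
    rw [h2, norm_zero]
    have hv0 : v (cmb ψ ys yz) w = 0 := by
      by_contra h5
      exact hyz (sup_cmb hs h5).2.1
    rw [hv0, norm_zero, mul_zero, zero_add]
    positivity

end main

end Vale.Agent.P353.Z.AD
end

section

/-! # P353, all `N`, block D, L9: items (1), (2), (4), (6) of `SecStmt`, integrated form (helper221) -/

open MeasureTheory Filter Topology Matrix
open scoped ContDiff

set_option linter.unusedSectionVars false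

namespace Vale.Agent.P353.Z.AD

variable {d dh dm ds dz r : ℕ} {F : Type*} [NormedAddCommGroup F] [InnerProductSpace ℂ F]

section main

variable [FiniteDimensional ℂ F] (S : Setup d F) (φ : Spl dh dm d) (ψ : Spl ds dz dh)

lemma sec_deriv {v : Cfg dh → Wsp dm → F} (hsm : ContDiff ℝ ∞ (secK S φ ψ v))
    (hcs : HasCompactSupport (secK S φ ψ v)) (i : Fin 9) (A : Fin dz) (ys : Cfg ds) (yz : Cfg dz) :
    pd i A (fun z => sec S φ ψ v z ys) yz =
      ∫ w, fderiv ℝ (fun z => secK S φ ψ v ((z, ys), w)) yz (EuclideanSpace.single (i, A) 1) := by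
  have h1 : ContDiff ℝ ∞ (fun p : Cfg dz × Wsp dm => secK S φ ψ v ((p.1, ys), p.2)) :=
    hsm.comp ((contDiff_fst.prodMk contDiff_const).prodMk contDiff_snd)
  have h2 : HasCompactSupport (fun p : Cfg dz × Wsp dm => secK S φ ψ v ((p.1, ys), p.2)) := by
    refine HasCompactSupport.intro
      (K := (fun q : (Cfg dz × Cfg ds) × Wsp dm => (q.1.1, q.2)) '' tsupport (secK S φ ψ v))
      (hcs.isCompact.image (continuous_fst.fst.prodMk continuous_snd)) fun p hp => ?_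
    exact image_eq_zero_of_notMem_tsupport fun h => hp ⟨((p.1, ys), p.2), h, rfl⟩
  exact par_deriv volume h1 h2 yz _

omit [FiniteDimensional ℂ F] in
lemma ft_hcs {f : Wsp dm → F} (h : FT f) : HasCompactSupport (fun w => ‖f w‖ ^ 2) := by
  refine h.2.comp_left (g := fun x : F => ‖x‖ ^ 2) ?_
  simp

omit [FiniteDimensional ℂ F] in
lemma ft_cont {f : Wsp dm → F} (h : FT f) : Continuous (fun w => ‖f w‖ ^ 2) :=
  h.1.continuous.norm.pow 2

omit [FiniteDimensional ℂ F] in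
lemma ft_int {f : Wsp dm → F} (h : FT f) : Integrable (fun w => ‖f w‖ ^ 2) :=
  (ft_cont h).integrable_of_hasCompactSupport (ft_hcs h)

omit [FiniteDimensional ℂ F] in
lemma slice_facts {v : Cfg dh → Wsp dm → F} (hv : Tst2 v) (y : Cfg dh) :
    Continuous (v y) ∧ HasCompactSupport (v y) ∧ Integrable (fun w => ‖v y w‖ ^ 2) := by
  have h : FT (v y) := (AN.calcA dh dm F).slw v hv y
  exact ⟨h.1.continuous, h.2, ft_int h⟩

omit [FiniteDimensional ℂ F] in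
lemma lin_hcs {f g : Wsp dm → F} (a : ℝ) (hf : HasCompactSupport f) (hg : HasCompactSupport g) :
    HasCompactSupport (fun w => a * ‖f w‖ + ‖g w‖) := by
  have h1 : HasCompactSupport (fun w => a * ‖f w‖) := by
    refine hf.comp_left (g := fun x : F => a * ‖x‖) ?_
    simp
  have h2 : HasCompactSupport (fun w => ‖g w‖) := hg.norm
  exact h1.add h2

/-- pointwise bound of the derivative -/
lemma sec_pd_sq {Cg c B R : ℝ} (hc : 0 < c) (hR : 0 < R) {v v' : Cfg dh → Wsp dm → F} (hv : Tst2 v)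
    (hv' : Tst2 v') (y : Cfg dh) {D : Wsp dm → F}
    (hD : ∀ w, ‖D w‖ ≤ gam Cg c R w * ((1 + B) / R * ‖v y w‖ + ‖v' y w‖)) :
    ‖∫ w, D w‖ ^ 2 ≤ (Cg ^ 2 * (Real.pi / (2 * c)) ^ (4 * dm)) *
      (2 * ((1 + B) / R) ^ 2 * nsf (v y) + 2 * nsf (v' y)) := by
  obtain ⟨a1, a2, a3⟩ := slice_facts hv y
  obtain ⟨b1, b2, b3⟩ := slice_facts hv' y
  obtain ⟨g1, g2⟩ := gam_sq (dm := dm) (Cg := Cg) hc hR
  set f : Wsp dm → ℝ := fun w => (1 + B) / R * ‖v y w‖ + ‖v' y w‖ with hf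
  have fc : Continuous f := (continuous_const.mul a1.norm).add b1.norm
  have fs : HasCompactSupport f := lin_hcs _ a2 b2
  have fs1 : HasCompactSupport (fun w => gam Cg c R w * f w) := fs.mul_left
  have fc1 : Continuous (fun w => gam Cg c R w * f w) := (gam_cont Cg c R).mul fc
  have i1 : Integrable (fun w => gam Cg c R w * f w) := fc1.integrable_of_hasCompactSupport fs1
  have fs2 : HasCompactSupport (fun w => f w ^ 2) := by
    refine fs.comp_left (g := fun x : ℝ => x ^ 2) ?_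
    simp
  have fc2 : Continuous (fun w => f w ^ 2) := fc.pow 2
  have i2 : Integrable (fun w => f w ^ 2) := fc2.integrable_of_hasCompactSupport fs2
  have h1 : ‖∫ w, D w‖ ≤ ∫ w, gam Cg c R w * f w :=
    norm_integral_le_of_norm_le i1 (Eventually.of_forall hD)
  have h2 := cs_sq g1 i2 i1
  have h3 : ∫ w, f w ^ 2 ≤ 2 * ((1 + B) / R) ^ 2 * nsf (v y) + 2 * nsf (v' y) := by
    have e : 2 * ((1 + B) / R) ^ 2 * nsf (v y) + 2 * nsf (v' y) =
        ∫ w, (2 * ((1 + B) / R) ^ 2 * ‖v y w‖ ^ 2 + 2 * ‖v' y w‖ ^ 2) := by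
      rw [integral_add (a3.const_mul _) (b3.const_mul _), integral_const_mul, integral_const_mul]
      rfl
    rw [e]
    refine integral_mono i2 ((a3.const_mul _).add (b3.const_mul _)) fun w => ?_
    simp only [hf]
    nlinarith [sq_nonneg ((1 + B) / R * ‖v y w‖ - ‖v' y w‖)]
  have h4 : 0 ≤ ∫ w : Wsp dm, gam Cg c R w ^ 2 := integral_nonneg fun w => sq_nonneg _
  calc ‖∫ w, D w‖ ^ 2 ≤ (∫ w, gam Cg c R w * f w) ^ 2 := by gcongr
    _ ≤ (∫ w : Wsp dm, gam Cg c R w ^ 2) * ∫ w, f w ^ 2 := h2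
    _ ≤ (∫ w : Wsp dm, gam Cg c R w ^ 2) * (2 * ((1 + B) / R) ^ 2 * nsf (v y) + 2 * nsf (v' y)) :=
        mul_le_mul_of_nonneg_left h3 h4
    _ = _ := by rw [g2]

lemma gn_cont (hg : ContDiffOn ℝ ∞ (fun p : Cfg dz × Wsp dm => gn S φ ψ p.1 p.2) {p | p.1 ∈ UZ S φ ψ})
    {yz : Cfg dz} (hyz : yz ∈ UZ S φ ψ) : Continuous (fun w => gn S φ ψ yz w) := by
  have hU2 : IsOpen {p : Cfg dz × Wsp dm | p.1 ∈ UZ S φ ψ} := (isOpen_UZ S φ ψ).preimage continuous_fst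
  refine continuous_iff_continuousAt.2 fun w => ?_
  have h1 : ContDiffAt ℝ ∞ (fun p : Cfg dz × Wsp dm => gn S φ ψ p.1 p.2) (yz, w) :=
    hg.contDiffAt (hU2.mem_nhds hyz)
  exact h1.continuousAt.comp (continuous_const.prodMk continuous_id).continuousAt

/-- pointwise bound of `sec` -/
lemma sec_sq (hg : ContDiffOn ℝ ∞ (fun p : Cfg dz × Wsp dm => gn S φ ψ p.1 p.2) {p | p.1 ∈ UZ S φ ψ})
    {yz : Cfg dz} (hyz : yz ∈ UZ S φ ψ) (h1 : ∫ w, gn S φ ψ yz w ^ 2 = 1)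
    {v : Cfg dh → Wsp dm → F} (hv : Tst2 v) (ys : Cfg ds) :
    ‖sec S φ ψ v yz ys‖ ^ 2 ≤ nsf (v (cmb ψ ys yz)) := by
  obtain ⟨a1, a2, a3⟩ := slice_facts hv (cmb ψ ys yz)
  have gc := gn_cont S φ ψ hg hyz
  have g1 : Integrable (fun w => |gn S φ ψ yz w| ^ 2) := by
    simp only [sq_abs]
    by_contra h
    rw [integral_undef h] at h1
    norm_num at h1
  have s1 : HasCompactSupport (fun w => |gn S φ ψ yz w| * ‖v (cmb ψ ys yz) w‖) := a2.norm.mul_left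
  have c1 : Continuous (fun w => |gn S φ ψ yz w| * ‖v (cmb ψ ys yz) w‖) := gc.abs.mul a1.norm
  have i1 : Integrable (fun w => |gn S φ ψ yz w| * ‖v (cmb ψ ys yz) w‖) :=
    c1.integrable_of_hasCompactSupport s1
  have h2 : ‖sec S φ ψ v yz ys‖ ≤ ∫ w, |gn S φ ψ yz w| * ‖v (cmb ψ ys yz) w‖ := by
    refine norm_integral_le_of_norm_le i1 (Eventually.of_forall fun w => ?_)
    rw [norm_smul, Complex.norm_real, Real.norm_eq_abs]
    exact mul_le_mul_of_nonneg_left (Pz_le S φ ψ yz _) (abs_nonneg _)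
  have h3 := cs_sq g1 a3 i1
  simp only [sq_abs] at h3
  rw [h1, one_mul] at h3
  calc ‖sec S φ ψ v yz ys‖ ^ 2 ≤ (∫ w, |gn S φ ψ yz w| * ‖v (cmb ψ ys yz) w‖) ^ 2 := by gcongr
    _ ≤ _ := h3

end main

/-- integration of a pointwise bound -/
lemma int_bd {Γ Q : ℝ} {G : Cfg dz → Cfg ds → F} {a b : Cfg dz → Cfg ds → ℝ}
    (hbd : ∀ yz ys, ‖G yz ys‖ ^ 2 ≤ Γ * (Q * a yz ys + 2 * b yz ys))
    (m1 : ∀ yz, Integrable (a yz)) (n1 : ∀ yz, Integrable (b yz))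
    (m2 : Integrable fun yz => ∫ ys, a yz ys) (n2 : Integrable fun yz => ∫ ys, b yz ys) :
    (∫ yz, nsq (G yz)) ≤ Γ * (Q * (∫ yz, ∫ ys, a yz ys) + 2 * ∫ yz, ∫ ys, b yz ys) := by
  have hint : ∀ yz, Integrable (fun ys => Γ * (Q * a yz ys + 2 * b yz ys)) := fun yz =>
    (((m1 yz).const_mul _).add ((n1 yz).const_mul _)).const_mul _
  have h1 : ∀ yz, nsq (G yz) ≤ Γ * (Q * (∫ ys, a yz ys) + 2 * ∫ ys, b yz ys) := by
    intro yz
    have e : Γ * (Q * (∫ ys, a yz ys) + 2 * ∫ ys, b yz ys) = ∫ ys, Γ * (Q * a yz ys + 2 * b yz ys) := by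
      rw [integral_const_mul, integral_add ((m1 yz).const_mul _) ((n1 yz).const_mul _), integral_const_mul,
        integral_const_mul]
    rw [e]
    exact integral_mono_of_nonneg (Eventually.of_forall fun ys => by positivity) (hint yz)
      (Eventually.of_forall fun ys => hbd yz ys)
  have e : Γ * (Q * (∫ yz, ∫ ys, a yz ys) + 2 * ∫ yz, ∫ ys, b yz ys) =
      ∫ yz, Γ * (Q * (∫ ys, a yz ys) + 2 * ∫ ys, b yz ys) := by
    rw [integral_const_mul, integral_add (m2.const_mul _) (n2.const_mul _), integral_const_mul,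
      integral_const_mul]
  rw [e]
  exact integral_mono_of_nonneg (Eventually.of_forall fun yz => nsq_nonneg _)
    (((m2.const_mul _).add (n2.const_mul _)).const_mul _) (Eventually.of_forall fun yz => h1 yz)

/-- facts about the vacuum near `z₀` -/
structure VacD [FiniteDimensional ℂ F] (S : Setup d F) (φ : Spl dh dm d) (ψ : Spl ds dz dh) (z₀ : Cfg dz)
    (ε₀ c Cg B : ℝ) : Prop where
  ε₀_pos : 0 < ε₀
  c_pos : 0 < c
  Cg_pos : 0 < Cg
  B_nonneg : 0 ≤ B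
  hg : ContDiffOn ℝ ∞ (fun p : Cfg dz × Wsp dm => gn S φ ψ p.1 p.2) {p | p.1 ∈ UZ S φ ψ}
  hp : ContDiffOn ℝ ∞ (fun yz => Pz S φ ψ yz) (UZ S φ ψ)
  hU : ∀ R : ℝ, 0 < R → ∀ yz : Cfg dz, ‖yz - R • z₀‖ ≤ ε₀ * R → yz ∈ UZ S φ ψ
  hB : ∀ R : ℝ, 0 < R → ∀ yz : Cfg dz, ‖yz - R • z₀‖ ≤ ε₀ * R → ∀ (i : Fin 9) (A : Fin dz),
      ‖fderiv ℝ (fun z => Pz S φ ψ z) yz (EuclideanSpace.single (i, A) 1)‖ ≤ B / R
  h1 : ∀ R : ℝ, 0 < R → ∀ yz : Cfg dz, ‖yz - R • z₀‖ ≤ ε₀ * R → ∫ w, gn S φ ψ yz w ^ 2 = 1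
  hgn : ∀ R : ℝ, 0 < R → ∀ yz : Cfg dz, ‖yz - R • z₀‖ ≤ ε₀ * R → ∀ w, |gn S φ ψ yz w| ≤ gam Cg c R w
  hgd : ∀ R : ℝ, 0 < R → ∀ yz : Cfg dz, ‖yz - R • z₀‖ ≤ ε₀ * R → ∀ i A w,
      |fderiv ℝ (fun z => gn S φ ψ z w) yz (EuclideanSpace.single (i, A) 1)| ≤ gam Cg c R w / R

lemma exists_vacD (S : Setup d F) (hS : ScalStmt S) (hG : GnStmt S) [hF : FiniteDimensional ℂ F]
    (φ : Spl dh dm d) (ψ : Spl ds dz dh) (z₀ : Cfg dz) (h : Std2 S φ ψ z₀) :
    ∃ ε₀ c Cg B : ℝ, VacD S φ ψ z₀ ε₀ c Cg B := by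
  obtain ⟨hS1, hS2, hS3, hS4⟩ := hS hF dh dm ds dz φ ψ z₀ h
  obtain ⟨ε₀, c, Cg, hε₀, hc, hCg, hdet, hgsm, hgn⟩ := hG dh dm ds dz φ ψ z₀ h
  have hg : ContDiffOn ℝ ∞ (fun p : Cfg dz × Wsp dm => gn S φ ψ p.1 p.2) {p | p.1 ∈ UZ S φ ψ} := hgsm
  have hp : ContDiffOn ℝ ∞ (fun yz => Pz S φ ψ yz) (UZ S φ ψ) := hS4
  have hU1 : ∀ R : ℝ, 0 < R → ∀ yz : Cfg dz, ‖yz - R • z₀‖ ≤ ε₀ * R → yz ∈ UZ S φ ψ := fun R hR yz hyz =>
    UZ_near S φ ψ hdet hR (hyz.trans (by nlinarith [mul_pos hε₀ hR]))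
  have hball : Metric.closedBall z₀ ε₀ ⊆ UZ S φ ψ := by
    intro z hz
    refine hU1 1 one_pos z ?_
    rw [one_smul, mul_one, ← dist_eq_norm]
    exact hz
  obtain ⟨B, hB0, hB⟩ := Pz_der S φ ψ hball hp fun yz hyz R hR => (hS2 yz hyz R hR).2
  refine ⟨ε₀, c, Cg, B, hε₀, hc, hCg, hB0, hg, hp, hU1, hB, fun R hR yz hyz => (hgn R yz hR hyz).1,
    fun R hR yz hyz w => ?_, fun R hR yz hyz i A w => ?_⟩
  · have h1 := (hgn R yz hR hyz).2.2.1 w
    rw [abs_of_nonneg h1.1]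
    unfold gam
    refine h1.2.trans (le_of_eq ?_)
    ring
  · have h1 := (hgn R yz hR hyz).2.2.2 i A w
    unfold gam
    refine h1.trans (le_of_eq ?_)
    ring

lemma sec_eq [FiniteDimensional ℂ F] (S : Setup d F) (φ : Spl dh dm d) (ψ : Spl ds dz dh)
    (v : Cfg dh → Wsp dm → F) : (fun p : Cfg dz × Cfg ds => sec S φ ψ v p.1 p.2) =
      fun p => ∫ w, secK S φ ψ v (p, w) := rfl

section

variable [FiniteDimensional ℂ F] {S : Setup d F} {φ : Spl dh dm d} {ψ : Spl ds dz dh} {z₀ : Cfg dz}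
  {ε₀ c Cg B : ℝ} (V : VacD S φ ψ z₀ ε₀ c Cg B) {R : ℝ} (hR : 0 < R) {v : Cfg dh → Wsp dm → F} (hv : Tst2 v)
  (hs : Sup2 (cmb ψ 0 z₀) ε₀ R v)

include V hR hv hs

lemma VacD.smooth : ContDiff ℝ ∞ (secK S φ ψ v) := by
  have hK : IsClosed {yz : Cfg dz | ‖yz - R • z₀‖ ≤ ε₀ * R} := isClosed_le (by fun_prop) continuous_const
  exact secK_smooth S φ ψ V.hg V.hp hv hK (fun yz hyz => V.hU R hR yz hyz) fun ys yz w hne => (sup_cmb hs hne).2.1

/-- item (1) -/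
lemma VacD.sec_smooth : ContDiff ℝ ∞ (fun p : Cfg dz × Cfg ds => sec S φ ψ v p.1 p.2) := by
  rw [sec_eq]
  exact par_contDiff volume (V.smooth hR hv hs) (secK_hcs S φ ψ hv)

omit V hR hs in
/-- item (2) -/
lemma VacD.sec_hcs (S : Setup d F) (φ : Spl dh dm d) :
    HasCompactSupport (fun p : Cfg dz × Cfg ds => sec S φ ψ v p.1 p.2) := by
  rw [sec_eq]
  have h : HasCompactSupport (secK S φ ψ v) := secK_hcs S φ ψ hv
  exact par_hcs (P := Cfg dz × Cfg ds) (W := Wsp dm) volume h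

/-- item (4), pointwise -/
lemma VacD.sec_pt (yz : Cfg dz) (ys : Cfg ds) : ‖sec S φ ψ v yz ys‖ ^ 2 ≤ nsf (v (cmb ψ ys yz)) := by
  by_cases hyz : ‖yz - R • z₀‖ ≤ ε₀ * R
  · exact sec_sq S φ ψ V.hg (V.hU R hR yz hyz) (V.h1 R hR yz hyz) hv ys
  · have h0 : ∀ w, v (cmb ψ ys yz) w = 0 := by
      intro w
      by_contra h5
      exact hyz (sup_cmb hs h5).2.1
    have h1 : sec S φ ψ v yz ys = 0 := by
      unfold sec
      simp [h0]
    rw [h1, norm_zero]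
    simpa using nsf_nonneg' (v (cmb ψ ys yz))

/-- item (4) -/
lemma VacD.sec_nsq (yz : Cfg dz) : nsq (sec S φ ψ v yz) ≤ ∫ ys, nsf (v (cmb ψ ys yz)) :=
  integral_mono_of_nonneg (Eventually.of_forall fun ys => by positivity) ((mass_int hv ψ).1 yz)
    (Eventually.of_forall fun ys => V.sec_pt hR hv hs yz ys)

lemma VacD.sec_der_pt (i : Fin 9) (A : Fin dz) (yz : Cfg dz) (ys : Cfg ds) :
    ‖pd i A (fun z => sec S φ ψ v z ys) yz‖ ^ 2 ≤ (Cg ^ 2 * (Real.pi / (2 * c)) ^ (4 * dm)) *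
      (2 * ((1 + B) / R) ^ 2 * nsf (v (cmb ψ ys yz)) + 2 * nsf (py i (ψ (Sum.inr A)) v (cmb ψ ys yz))) := by
  rw [sec_deriv S φ ψ (V.smooth hR hv hs) (secK_hcs S φ ψ hv) i A ys yz]
  refine sec_pd_sq V.c_pos hR hv ((AN.calcA dh dm F).py _ _ v hv) (cmb ψ ys yz) fun w => ?_
  exact secK_pd_le S φ ψ V.Cg_pos V.hg V.hp hR (V.hU R hR) (V.hB R hR) (V.hgn R hR) (V.hgd R hR) hv hs i A ys yz w

/-- item (6) -/
lemma VacD.sec_der (i : Fin 9) (A : Fin dz) :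
    (∫ yz, nsq (fun ys => pd i A (fun z => sec S φ ψ v z ys) yz)) ≤
      (Cg ^ 2 * (Real.pi / (2 * c)) ^ (4 * dm) * (2 * (1 + B) ^ 2 + 2)) *
        (ns2 (py i (ψ (Sum.inr A)) v) + 1 / R ^ 2 * ns2 v) := by
  have hv' : Tst2 (py i (ψ (Sum.inr A)) v) := (AN.calcA dh dm F).py _ _ v hv
  obtain ⟨m1, m2, m3⟩ := mass_int hv ψ
  obtain ⟨n1, n2, n3⟩ := mass_int hv' ψ
  have h2 := int_bd (V.sec_der_pt hR hv hs i A) m1 n1 m2 n2
  rw [m3, n3] at h2
  have hn1 : 0 ≤ ns2 v := integral_nonneg fun p => by positivity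
  have hn2 : 0 ≤ ns2 (py i (ψ (Sum.inr A)) v) := integral_nonneg fun p => by positivity
  have hΓ0 : 0 ≤ Cg ^ 2 * (Real.pi / (2 * c)) ^ (4 * dm) := by
    have := Real.pi_pos
    have := V.c_pos
    positivity
  refine h2.trans ?_
  rw [mul_assoc (Cg ^ 2 * (Real.pi / (2 * c)) ^ (4 * dm))]
  refine mul_le_mul_of_nonneg_left ?_ hΓ0
  have e1 : 2 * ((1 + B) / R) ^ 2 = 2 * (1 + B) ^ 2 * (1 / R ^ 2) := by
    rw [div_pow]
    ring
  rw [e1]
  have h3 : 0 ≤ 1 / R ^ 2 * ns2 v := by positivity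
  have h4 : 0 ≤ 2 * (1 + B) ^ 2 := by positivity
  nlinarith [mul_nonneg h4 hn2]

end

end Vale.Agent.P353.Z.AD
end

section

/-! # P353, all `N`, block D, L9: item (5) of `SecStmt` (helper221) -/

open MeasureTheory Filter Topology Matrix
open scoped ContDiff

set_option linter.unusedSectionVars false

namespace Vale.Agent.P353.Z.AD

variable {d dh dm ds dz r : ℕ} {F : Type*} [NormedAddCommGroup F] [InnerProductSpace ℂ F]

/-! ## support -/

lemma sup2_py {Y : Cfg dh} {ε R : ℝ} {v : Cfg dh → Wsp dm → F} (hs : Sup2 Y ε R v) (i : Fin 9) (A : Fin dh) :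
    Sup2 Y ε R (py i A v) := by
  intro y w hne
  by_contra hcon
  apply hne
  rw [not_and_or, not_le, not_le] at hcon
  rcases hcon with h1 | h1
  · have h2 : (fun y' => v y' w) =ᶠ[𝓝 y] fun _ => 0 := by
      have h3 : {y' : Cfg dh | ε * R < ‖y' - R • Y‖} ∈ 𝓝 y :=
        (isOpen_lt continuous_const (by fun_prop)).mem_nhds h1
      filter_upwards [h3] with y' hy'
      by_contra h5
      exact absurd (hs _ _ h5).1 (not_le.2 hy')
    unfold py pd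
    rw [h2.fderiv_eq, fderiv_fun_const]
    rfl
  · have h2 : (fun y' => v y' w) = fun _ => 0 := by
      funext y'
      by_contra h5
      exact absurd (hs _ _ h5).2 (not_le.2 h1)
    unfold py pd
    rw [h2, fderiv_fun_const]
    rfl

lemma sup2_Qss {S : Setup d F} {φ : Spl dh dm d} {ψ : Spl ds dz dh} {z₀ : Cfg dz} (h : Std2 S φ ψ z₀)
    {Y : Cfg dh} {ε R : ℝ} {v : Cfg dh → Wsp dm → F} (hv : Tst2 v) (hs : Sup2 Y ε R v) (β : Fin 16) :
    Sup2 Y ε R (Qss h β v) := by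
  intro y w hne
  by_contra hcon
  apply hne
  have h0 : v y w = 0 := by
    by_contra h5
    exact hcon (hs _ _ h5)
  have h1 : ∀ i A, py i A v y w = 0 := by
    intro i A
    by_contra h5
    exact hcon (sup2_py hs i A _ _ h5)
  rw [sq873_Qss_eq h β hv]
  unfold sq873_L
  simp [h0, h1]

lemma Q_zero (S' : Setup ds F) (β : Fin 16) (u : Cfg ds → F) (hu : ∀ x, u x = 0) (x : Cfg ds) : S'.Q β u x = 0 := by
  have h1 : u = fun _ => 0 := funext hu
  unfold Setup.Q pd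
  rw [h1]
  simp

/-! ## the vacuum projection commutes with the fermions of `h` -/

section

variable [FiniteDimensional ℂ F] (S : Setup d F) (φ : Spl dh dm d) (ψ : Spl ds dz dh)

lemma sp_comm {K : Submodule ℂ F} {T : F →L[ℂ] F} (hT : ∀ v w : F, inner ℂ (T v) w = inner ℂ v (T w))
    (hK : ∀ v ∈ K, T v ∈ K) (u : F) : K.starProjection (T u) = T (K.starProjection u) := by
  refine Submodule.eq_starProjection_of_mem_of_inner_eq_zero (hK _ (K.starProjection_apply_mem u)) fun w hw => ?_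
  rw [← map_sub, hT]
  exact K.starProjection_inner_eq_zero u _ (hK w hw)

lemma Pz_th (h0 : F0Stmt S φ) (yz : Cfg dz) (α : Fin 16) (A : Fin dh) (u : F) :
    Pz S φ ψ yz (S.th α (φ (Sum.inl A)) u) = S.th α (φ (Sum.inl A)) (Pz S φ ψ yz u) :=
  sp_comm (S.th_sa α _) ((h0 _ _).1 α A) u

lemma Pz_vec (h0 : F0Stmt S φ) (yz : Cfg dz) (N : Matrix (Fin 16) (Fin 16) ℂ) (β : Fin 16) (A : Fin dh) (u : F) :
    Pz S φ ψ yz (S.vec N (φ (Sum.inl A)) β u) = S.vec N (φ (Sum.inl A)) β (Pz S φ ψ yz u) := by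
  unfold CS.vec
  simp only [_root_.sum_apply, _root_.smul_apply, map_sum, map_smul, Pz_th S φ ψ h0]

/-! ## the functional `∫ gn Pz f` -/

/-- the slice functional -/
noncomputable def lf (yz : Cfg dz) (f : Wsp dm → F) : F :=
  ∫ w, ((gn S φ ψ yz w : ℝ) : ℂ) • Pz S φ ψ yz (f w)

lemma sec_lf (v : Cfg dh → Wsp dm → F) (yz : Cfg dz) (ys : Cfg ds) :
    sec S φ ψ v yz ys = lf S φ ψ yz (v (cmb ψ ys yz)) := rfl

lemma lf_int {yz : Cfg dz} (hg : Continuous fun w => gn S φ ψ yz w) {f : Wsp dm → F} (hf : Continuous f)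
    (hc : HasCompactSupport f) : Integrable (fun w => ((gn S φ ψ yz w : ℝ) : ℂ) • Pz S φ ψ yz (f w)) := by
  have c : Continuous (fun w => ((gn S φ ψ yz w : ℝ) : ℂ) • Pz S φ ψ yz (f w)) :=
    (Complex.continuous_ofReal.comp hg).smul ((Pz S φ ψ yz).continuous.comp hf)
  have s1 : HasCompactSupport (fun w => Pz S φ ψ yz (f w)) := hc.comp_left (map_zero _)
  have s : HasCompactSupport (fun w => ((gn S φ ψ yz w : ℝ) : ℂ) • Pz S φ ψ yz (f w)) := s1.smul_left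
  exact c.integrable_of_hasCompactSupport s

lemma lf_add {yz : Cfg dz} (hg : Continuous fun w => gn S φ ψ yz w) {f g : Wsp dm → F}
    (hf : Continuous f ∧ HasCompactSupport f) (hf' : Continuous g ∧ HasCompactSupport g) :
    lf S φ ψ yz (fun w => f w + g w) = lf S φ ψ yz f + lf S φ ψ yz g := by
  unfold lf
  rw [← integral_add (lf_int S φ ψ hg hf.1 hf.2) (lf_int S φ ψ hg hf'.1 hf'.2)]
  simp only [map_add, smul_add]

/-- continuous with compact support -/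
def CC (f : Wsp dm → F) : Prop := Continuous f ∧ HasCompactSupport f

omit [FiniteDimensional ℂ F] in
lemma CC.smul {f : Wsp dm → F} (h : CC f) (c : ℂ) : CC (fun w => c • f w) :=
  ⟨h.1.const_smul c, h.2.comp_left (g := fun x : F => c • x) (smul_zero c)⟩

omit [FiniteDimensional ℂ F] in
lemma CC.clm {f : Wsp dm → F} (h : CC f) (T : F →L[ℂ] F) : CC (fun w => T (f w)) :=
  ⟨T.continuous.comp h.1, h.2.comp_left (map_zero T)⟩

omit [FiniteDimensional ℂ F] in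
lemma CC.add {f g : Wsp dm → F} (h : CC f) (h' : CC g) : CC (fun w => f w + g w) :=
  ⟨h.1.add h'.1, h.2.add h'.2⟩

omit [FiniteDimensional ℂ F] in
lemma CC.sum {ι : Type*} (t : Finset ι) {f : ι → Wsp dm → F} (h : ∀ i, CC (f i)) : CC (fun w => ∑ i ∈ t, f i w) := by
  classical
  induction t using Finset.induction_on with
  | empty =>
    simp only [Finset.sum_empty]
    exact ⟨continuous_const, HasCompactSupport.zero⟩
  | insert k t hk ih =>
    simp only [Finset.sum_insert hk]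
    exact (h k).add ih

omit [FiniteDimensional ℂ F] in
lemma cc_slice {v : Cfg dh → Wsp dm → F} (hv : Tst2 v) (y : Cfg dh) : CC (v y) :=
  ⟨(slice_facts hv y).1, (slice_facts hv y).2.1⟩

lemma lf_sum {ι : Type*} (t : Finset ι) {yz : Cfg dz} (hg : Continuous fun w => gn S φ ψ yz w)
    {f : ι → Wsp dm → F} (hf : ∀ i, CC (f i)) :
    lf S φ ψ yz (fun w => ∑ i ∈ t, f i w) = ∑ i ∈ t, lf S φ ψ yz (f i) := by
  unfold lf
  rw [← integral_finsetSum _ fun i _ => lf_int S φ ψ hg (hf i).1 (hf i).2]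
  simp only [map_sum, Finset.smul_sum]

lemma lf_smul (yz : Cfg dz) (c : ℂ) (f : Wsp dm → F) :
    lf S φ ψ yz (fun w => c • f w) = c • lf S φ ψ yz f := by
  unfold lf
  rw [← integral_smul]
  refine integral_congr_ae (Eventually.of_forall fun w => ?_)
  simp only [map_smul]
  rw [smul_comm]

lemma lf_clm {yz : Cfg dz} (hg : Continuous fun w => gn S φ ψ yz w) {f : Wsp dm → F} (hf : CC f)
    (T : F →L[ℂ] F) (hT : ∀ u, Pz S φ ψ yz (T u) = T (Pz S φ ψ yz u)) :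
    lf S φ ψ yz (fun w => T (f w)) = T (lf S φ ψ yz f) := by
  unfold lf
  rw [← ContinuousLinearMap.integral_comp_comm T (lf_int S φ ψ hg hf.1 hf.2)]
  refine integral_congr_ae (Eventually.of_forall fun w => ?_)
  simp only [hT, map_smul]

/-- the kernel in the variables `(ys, w)` -/
lemma secK_ys {v : Cfg dh → Wsp dm → F} (hsm : ContDiff ℝ ∞ (secK S φ ψ v))
    (hcs : HasCompactSupport (secK S φ ψ v)) (yz : Cfg dz) :
    ContDiff ℝ ∞ (fun p : Cfg ds × Wsp dm => secK S φ ψ v ((yz, p.1), p.2)) ∧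
    HasCompactSupport (fun p : Cfg ds × Wsp dm => secK S φ ψ v ((yz, p.1), p.2)) := by
  refine ⟨hsm.comp ((contDiff_const.prodMk contDiff_fst).prodMk contDiff_snd), ?_⟩
  refine HasCompactSupport.intro
    (K := (fun q : (Cfg dz × Cfg ds) × Wsp dm => (q.1.2, q.2)) '' tsupport (secK S φ ψ v))
    (hcs.isCompact.image (continuous_fst.snd.prodMk continuous_snd)) fun p hp => ?_
  exact image_eq_zero_of_notMem_tsupport fun h => hp ⟨((yz, p.1), p.2), h, rfl⟩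

lemma secK_pdys {v : Cfg dh → Wsp dm → F} (hv : Tst2 v) (yz : Cfg dz) (ys : Cfg ds) (w : Wsp dm) (i : Fin 9)
    (A : Fin ds) : fderiv ℝ (fun ys => secK S φ ψ v ((yz, ys), w)) ys (EuclideanSpace.single (i, A) 1) =
      secK S φ ψ (py i (ψ (Sum.inl A)) v) ((yz, ys), w) := by
  set T : F →L[ℝ] F := (((gn S φ ψ yz w : ℝ) : ℂ) • Pz S φ ψ yz).restrictScalars ℝ with hT
  have h1 : (fun ys => secK S φ ψ v ((yz, ys), w)) = fun ys => T (v (cmb ψ ys yz) w) := by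
    funext ys
    rfl
  have h2 : ContDiff ℝ ∞ (fun y => v y w) := sq873_sl hv w
  have h3 : DifferentiableAt ℝ (fun ys => v (cmb ψ ys yz) w) ys :=
    ((h2.comp (sq873_contDiff ψ yz)).differentiable (by simp)) ys
  have h5 : HasFDerivAt (fun ys => T (v (cmb ψ ys yz) w)) (T.comp (fderiv ℝ (fun ys => v (cmb ψ ys yz) w) ys)) ys :=
    T.hasFDerivAt.comp ys h3.hasFDerivAt
  rw [h1, h5.fderiv, ContinuousLinearMap.comp_apply]
  have h4 := sq873_pd ψ (u := fun y => v y w) h2 i A yz ys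
  unfold pd at h4
  rw [h4]
  rfl

end

section

variable [FiniteDimensional ℂ F] {S : Setup d F} {φ : Spl dh dm d} {ψ : Spl ds dz dh} {z₀ : Cfg dz}
  {ε₀ c Cg B : ℝ} (V : VacD S φ ψ z₀ ε₀ c Cg B) {R : ℝ} (hR : 0 < R) {v : Cfg dh → Wsp dm → F} (hv : Tst2 v)
  (hs : Sup2 (cmb ψ 0 z₀) ε₀ R v) {yz : Cfg dz}

include V hR hv hs

lemma VacD.sec_pds (i : Fin 9) (A : Fin ds) (yz : Cfg dz) (ys : Cfg ds) :
    pd i A (sec S φ ψ v yz) ys = sec S φ ψ (py i (ψ (Sum.inl A)) v) yz ys := by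
  obtain ⟨h1, h2⟩ := secK_ys S φ ψ (V.smooth hR hv hs) (secK_hcs S φ ψ hv) yz
  have h3 := par_deriv (P := Cfg ds) (W := Wsp dm) volume h1 h2 ys (EuclideanSpace.single (i, A) 1)
  refine h3.trans ?_
  refine integral_congr_ae (Eventually.of_forall fun w => ?_)
  exact secK_pdys S φ ψ hv yz ys w i A

omit V hR hv hs in
lemma sec_out (hs : Sup2 (cmb ψ 0 z₀) ε₀ R v) (hyz : ¬ ‖yz - R • z₀‖ ≤ ε₀ * R) (ys : Cfg ds) (w : Wsp dm) :
    v (cmb ψ ys yz) w = 0 := by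
  by_contra h5
  exact hyz (sup_cmb hs h5).2.1

omit V hR hs in
lemma lf_L (hg : Continuous fun w => gn S φ ψ yz w) (h0 : F0Stmt S φ) (h : Std2 S φ ψ z₀) (β : Fin 16) (y : Cfg dh) :
    lf S φ ψ yz (fun w => sq873_L h β v y w) =
      (∑ i, ∑ A, (-Complex.I) • S.vec (S.g i) (φ (Sum.inl (ψ (Sum.inl A)))) β
        (lf S φ ψ yz (py i (ψ (Sum.inl A)) v y))) +
      ∑ A, ∑ i, ∑ j, (((1 / 2) * h.ss.FF A i j (sp ψ y) : ℝ) : ℂ) •
      S.vec (S.g2 i j) (φ (Sum.inl (ψ (Sum.inl A)))) β (lf S φ ψ yz (v y)) := by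
  have c1 : CC (v y) := cc_slice hv y
  have c2 : ∀ i A, CC (py i (ψ (Sum.inl A)) v y) := fun i A => cc_slice ((AN.calcA dh dm F).py _ _ v hv) y
  unfold sq873_L
  rw [lf_add S φ ψ hg (CC.sum _ fun i => CC.sum _ fun A => ((c2 i A).clm _).smul _)
    (CC.sum _ fun A => CC.sum _ fun i => CC.sum _ fun j => (c1.clm _).smul _)]
  congr 1
  · rw [lf_sum S φ ψ _ hg fun i => CC.sum _ fun A => ((c2 i A).clm _).smul _]
    refine Finset.sum_congr rfl fun i _ => ?_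
    rw [lf_sum S φ ψ _ hg fun A => ((c2 i A).clm _).smul _]
    refine Finset.sum_congr rfl fun A _ => ?_
    rw [lf_smul, lf_clm S φ ψ hg (c2 i A) _ (Pz_vec S φ ψ h0 yz _ _ _)]
  · rw [lf_sum S φ ψ _ hg fun A => CC.sum _ fun i => CC.sum _ fun j => (c1.clm _).smul _]
    refine Finset.sum_congr rfl fun A _ => ?_
    rw [lf_sum S φ ψ _ hg fun i => CC.sum _ fun j => (c1.clm _).smul _]
    refine Finset.sum_congr rfl fun i _ => ?_
    rw [lf_sum S φ ψ _ hg fun j => (c1.clm _).smul _]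
    refine Finset.sum_congr rfl fun j _ => ?_
    rw [lf_smul, lf_clm S φ ψ hg c1 _ (Pz_vec S φ ψ h0 yz _ _ _)]

/-- `Q^s_β (sec v yz) = sec (Qss β v) yz` -/
lemma VacD.sec_Q (h0 : F0Stmt S φ) (h : Std2 S φ ψ z₀) (β : Fin 16) (yz : Cfg dz) (ys : Cfg ds) :
    h.ss.Q β (sec S φ ψ v yz) ys = sec S φ ψ (Qss h β v) yz ys := by
  by_cases hyz : ‖yz - R • z₀‖ ≤ ε₀ * R
  · have hg := gn_cont S φ ψ V.hg (V.hU R hR yz hyz)
    have e1 : sec S φ ψ (Qss h β v) yz ys = lf S φ ψ yz (fun w => sq873_L h β v (cmb ψ ys yz) w) := by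
      rw [sec_lf, sq873_Qss_eq h β hv]
    rw [e1, lf_L hv hg h0 h β]
    unfold Setup.Q Setup.W
    simp only [V.sec_pds hR hv hs, sq873_sp, Finset.smul_sum, _root_.sum_apply, _root_.smul_apply, smul_smul]
    congr 1
    refine Finset.sum_congr rfl fun A _ => Finset.sum_congr rfl fun i _ => Finset.sum_congr rfl fun j _ => ?_
    push_cast
    rfl
  · have h1 : ∀ ys w, v (cmb ψ ys yz) w = 0 := sec_out hs hyz
    have h2 : ∀ ys, sec S φ ψ v yz ys = 0 := by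
      intro ys
      unfold sec
      simp [h1]
    have h3 : ∀ w, Qss h β v (cmb ψ ys yz) w = 0 := by
      intro w
      unfold Qss
      refine Q_zero h.ss β _ (fun ys => ?_) _
      rw [sq873_zp]
      exact h1 ys w
    have h4 : sec S φ ψ (Qss h β v) yz ys = 0 := by
      unfold sec
      simp [h3]
    rw [h4]
    exact Q_zero h.ss β _ h2 ys

omit V hR hs in
lemma tst2_Qss (h : Std2 S φ ψ z₀) (β : Fin 16) : Tst2 (Qss h β v) :=
  (sq873_Sm_Qss (AN.calcA dh dm F) (AN.calcB dh dm F (AN.calcA dh dm F)) h β).1 v hv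

/-- item (5) -/
lemma VacD.sec_en (h0 : F0Stmt S φ) (h : Std2 S φ ψ z₀) (yz : Cfg dz) :
    En h.ss (sec S φ ψ v yz) ≤ ∑ β, ∫ ys, nsf (Qss h β v (cmb ψ ys yz)) := by
  unfold En
  refine Finset.sum_le_sum fun β _ => ?_
  have e : h.ss.Q β (sec S φ ψ v yz) = sec S φ ψ (Qss h β v) yz := funext fun ys => V.sec_Q hR hv hs h0 h β yz ys
  rw [e]
  exact V.sec_nsq hR (tst2_Qss hv h β) (sup2_Qss h hv hs β) yz

end

end Vale.Agent.P353.Z.AD
end

section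

/-! # P353, all `N`, block D, L9: item (3) of `SecStmt`, algebraic part (helper221) -/

open MeasureTheory Filter Topology Matrix
open scoped ContDiff

set_option linter.unusedSectionVars false

namespace Vale.Agent.P353.Z.AD

variable {d dh dm ds dz r : ℕ} {F : Type*} [NormedAddCommGroup F] [InnerProductSpace ℂ F]

/-! ## structure constants at a standard position -/

/-- the matrix `(f_{CBE})` on `m` -/
def adC (S : Setup d F) (φ : Spl dh dm d) (C : Fin dh) : Matrix (Fin dm) (Fin dm) ℝ :=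
  Matrix.of fun B E => S.f (φ (Sum.inl C)) (φ (Sum.inr B)) (φ (Sum.inr E))

lemma adC_anti (S : Setup d F) (φ : Spl dh dm d) (C : Fin dh) : (adC S φ C)ᵀ = -adC S φ C := by
  ext B E
  exact S.f_swap' _ _ _

lemma sum_phi (φ : Spl dh dm d) {M : Type*} [AddCommMonoid M] (g : Fin d → M) :
    ∑ A, g A = (∑ a, g (φ (Sum.inl a))) + ∑ b, g (φ (Sum.inr b)) := by
  rw [← φ.sum_comp, Fintype.sum_sum_type]

section alg

variable {S : Setup d F} {φ : Spl dh dm d} {ψ : Spl ds dz dh} {z₀ : Cfg dz}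

/-- Jacobi identity with a central element -/
lemma jac_cen (h : Std2 S φ ψ z₀) (C : Fin dh) (b : Fin dz) (P Q : Fin dm) :
    ∑ E : Fin dm, S.f (φ (Sum.inl C)) (φ (Sum.inr P)) (φ (Sum.inr E)) *
        S.f (φ (Sum.inr E)) (φ (Sum.inl (ψ (Sum.inr b)))) (φ (Sum.inr Q)) =
      ∑ E : Fin dm, S.f (φ (Sum.inr P)) (φ (Sum.inl (ψ (Sum.inr b)))) (φ (Sum.inr E)) *
        S.f (φ (Sum.inl C)) (φ (Sum.inr E)) (φ (Sum.inr Q)) := by
  have hS := h.std.sub
  have hj := S.f_jac (φ (Sum.inl C)) (φ (Sum.inr P)) (φ (Sum.inl (ψ (Sum.inr b)))) (φ (Sum.inr Q))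
  rw [sum_phi φ] at hj
  have h1 : ∀ E : Fin dh, S.f (φ (Sum.inl C)) (φ (Sum.inr P)) (φ (Sum.inl E)) = 0 := by
    intro E
    rw [← S.f_cyc (φ (Sum.inl E)) (φ (Sum.inl C)) (φ (Sum.inr P))]
    exact hS _ _ _
  have h2 : ∀ E : Fin dh, S.f (φ (Sum.inr P)) (φ (Sum.inl (ψ (Sum.inr b)))) (φ (Sum.inl E)) = 0 := by
    intro E
    rw [S.f_cyc]
    exact hS _ _ _
  have h3 : ∀ E : Fin dh, S.f (φ (Sum.inl (ψ (Sum.inr b)))) (φ (Sum.inl C)) (φ (Sum.inl E)) = 0 := fun E => h.cen _ _ _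
  have h4 : ∀ E : Fin dm, S.f (φ (Sum.inl (ψ (Sum.inr b)))) (φ (Sum.inl C)) (φ (Sum.inr E)) = 0 := fun E => hS _ _ _
  have h5 : ∀ E : Fin dm, S.f (φ (Sum.inr E)) (φ (Sum.inl C)) (φ (Sum.inr Q)) =
      -S.f (φ (Sum.inl C)) (φ (Sum.inr E)) (φ (Sum.inr Q)) := fun E => S.f_swap _ _ _
  simp only [h1, h2, h3, h4, h5, zero_mul, add_zero, Finset.sum_const_zero, zero_add, Finset.sum_add_distrib,
    mul_neg, Finset.sum_neg_distrib] at hj
  linarith

lemma Dz_apply (S : Setup d F) (φ : Spl dh dm d) (ψ : Spl ds dz dh) (yz : Cfg dz) (i : Fin 9) (P Q : Fin dm) :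
    Dz S φ ψ yz i P Q = ∑ b, S.f (φ (Sum.inr P)) (φ (Sum.inl (ψ (Sum.inr b)))) (φ (Sum.inr Q)) * yz (i, b) := by
  change ∑ A, S.f (φ (Sum.inr P)) (φ (Sum.inl A)) (φ (Sum.inr Q)) * (cmb ψ 0 yz) (i, A) = _
  rw [sq873_split ψ]
  simp only [cmb_inl, cmb_inr, PiLp.zero_apply, mul_zero, Finset.sum_const_zero, zero_add]

lemma adC_comm (h : Std2 S φ ψ z₀) (C : Fin dh) (yz : Cfg dz) (i : Fin 9) :
    adC S φ C * Dz S φ ψ yz i = Dz S φ ψ yz i * adC S φ C := by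
  ext P Q
  rw [Matrix.mul_apply, Matrix.mul_apply]
  simp only [Dz_apply, adC, Matrix.of_apply]
  have e1 : ∑ E, S.f (φ (Sum.inl C)) (φ (Sum.inr P)) (φ (Sum.inr E)) *
      ∑ b, S.f (φ (Sum.inr E)) (φ (Sum.inl (ψ (Sum.inr b)))) (φ (Sum.inr Q)) * yz (i, b) =
      ∑ b, (∑ E : Fin dm, S.f (φ (Sum.inl C)) (φ (Sum.inr P)) (φ (Sum.inr E)) *
        S.f (φ (Sum.inr E)) (φ (Sum.inl (ψ (Sum.inr b)))) (φ (Sum.inr Q))) * yz (i, b) := by
    simp only [Finset.mul_sum, Finset.sum_mul]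
    rw [Finset.sum_comm]
    refine Finset.sum_congr rfl fun b _ => Finset.sum_congr rfl fun E _ => ?_
    ring
  have e2 : ∑ E, (∑ b, S.f (φ (Sum.inr P)) (φ (Sum.inl (ψ (Sum.inr b)))) (φ (Sum.inr E)) * yz (i, b)) *
      S.f (φ (Sum.inl C)) (φ (Sum.inr E)) (φ (Sum.inr Q)) =
      ∑ b, (∑ E : Fin dm, S.f (φ (Sum.inr P)) (φ (Sum.inl (ψ (Sum.inr b)))) (φ (Sum.inr E)) *
        S.f (φ (Sum.inl C)) (φ (Sum.inr E)) (φ (Sum.inr Q))) * yz (i, b) := by
    simp only [Finset.sum_mul]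
    rw [Finset.sum_comm]
    refine Finset.sum_congr rfl fun b _ => Finset.sum_congr rfl fun E _ => ?_
    ring
  rw [e1, e2]
  refine Finset.sum_congr rfl fun b _ => ?_
  rw [jac_cen h]

/-! ## spin part -/

/-- `m` part of the spin generator (without the factor) -/
noncomputable def cM (S : Setup d F) (φ : Spl dh dm d) (C : Fin dh) : F →L[ℂ] F :=
  ∑ α, ∑ B, ∑ E, ((adC S φ C B E : ℝ) : ℂ) • (S.th α (φ (Sum.inr B)) * S.th α (φ (Sum.inr E)))

lemma cM_apply (S : Setup d F) (φ : Spl dh dm d) (C : Fin dh) (u : F) : cM S φ C u =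
    ∑ α, ∑ B, ∑ E, ((adC S φ C B E : ℝ) : ℂ) • S.th α (φ (Sum.inr B)) (S.th α (φ (Sum.inr E)) u) := by
  unfold cM
  simp only [_root_.sum_apply, _root_.smul_apply]
  rfl

lemma cM_anti (S : Setup d F) (φ : Spl dh dm d) (C : Fin dh) (u x : F) :
    inner ℂ (cM S φ C u) x = -inner ℂ u (cM S φ C x) := by
  rw [cM_apply, cM_apply]
  simp only [sum_inner, inner_sum, inner_smul_left, inner_smul_right, Complex.conj_ofReal, S.th_sa]
  rw [← Finset.sum_neg_distrib]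
  refine Finset.sum_congr rfl fun α _ => ?_
  rw [Finset.sum_comm, ← Finset.sum_neg_distrib]
  refine Finset.sum_congr rfl fun B _ => ?_
  rw [← Finset.sum_neg_distrib]
  refine Finset.sum_congr rfl fun E _ => ?_
  have h1 : adC S φ C E B = -adC S φ C B E := congrFun (congrFun (adC_anti S φ C) B) E
  rw [h1]
  push_cast
  ring

variable [FiniteDimensional ℂ F]

lemma Pz_cM (h : Std2 S φ ψ z₀) (hv : VacSpinStmt S φ) {yz : Cfg dz} (hD : Frz (Dz S φ ψ yz))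
    (hO : IsOm S.κ (Dz S φ ψ yz) (omc S.κ (Dz S φ ψ yz))) (C : Fin dh) (u : F) :
    Pz S φ ψ yz (cM S φ C u) = 0 := by
  unfold Pz
  rw [Submodule.starProjection_apply_eq_zero_iff, Submodule.mem_orthogonal']
  intro x hx
  have h1 : cM S φ C x = 0 := by
    rw [cM_apply]
    exact hv _ _ hD hO _ (adC_anti S φ C) (adC_comm h C yz) x hx
  rw [cM_anti, h1, inner_zero_right, neg_zero]

omit [FiniteDimensional ℂ F] in
lemma bil_one (S : Setup d F) (A B : Fin d) : S.bil 1 A B = ∑ α, S.th α A * S.th α B := by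
  unfold CS.bil
  simp only [CS.vec_one]

omit [FiniteDimensional ℂ F] in
/-- splitting of the spin generator -/
lemma cS_split (h : Std2 S φ ψ z₀) (c : Fin ds) : S.cS (φ (Sum.inl (ψ (Sum.inl c)))) =
    h.ss.cS c + (-Complex.I / 2) • cM S φ (ψ (Sum.inl c)) := by
  have hS := h.std.sub
  have g1 : ∀ (D : Fin dh) (E : Fin dm), S.f (φ (Sum.inl (ψ (Sum.inl c)))) (φ (Sum.inl D)) (φ (Sum.inr E)) = 0 :=
    fun D E => hS _ _ _
  have g2 : ∀ (D : Fin dm) (E : Fin dh), S.f (φ (Sum.inl (ψ (Sum.inl c)))) (φ (Sum.inr D)) (φ (Sum.inl E)) = 0 := by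
    intro D E
    rw [S.f_swap', hS, neg_zero]
  have g3 : ∀ (D : Fin dz) (E : Fin dh), S.f (φ (Sum.inl (ψ (Sum.inl c)))) (φ (Sum.inl (ψ (Sum.inr D)))) (φ (Sum.inl E)) = 0 := by
    intro D E
    rw [S.f_swap, h.cen, neg_zero]
  have g4 : ∀ (D : Fin dh) (E : Fin dz), S.f (φ (Sum.inl (ψ (Sum.inl c)))) (φ (Sum.inl D)) (φ (Sum.inl (ψ (Sum.inr E)))) = 0 := by
    intro D E
    rw [S.f_swap', g3, neg_zero]
  have e1 : ∑ D, ∑ E, (S.f (φ (Sum.inl (ψ (Sum.inl c)))) D E : ℂ) • S.bil 1 D E =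
      (∑ D, ∑ E, (h.ss.f c D E : ℂ) • h.ss.bil 1 D E) + cM S φ (ψ (Sum.inl c)) := by
    rw [sum_phi φ]
    simp only [sum_phi φ (M := F →L[ℂ] F), g1, g2, Complex.ofReal_zero, zero_smul, Finset.sum_const_zero, add_zero,
      zero_add]
    congr 1
    · rw [sq873_sum ψ]
      · refine Finset.sum_congr rfl fun D _ => ?_
        rw [sq873_sum ψ]
        · rfl
        · intro E
          rw [g4, Complex.ofReal_zero, zero_smul]
      · intro D
        simp only [g3, Complex.ofReal_zero, zero_smul, Finset.sum_const_zero]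
    · unfold cM
      simp only [bil_one, Finset.smul_sum]
      refine Finset.sum_comm_cycle.trans ?_
      rfl
  unfold Setup.cS
  rw [e1, smul_add]

lemma Pz_ss (h : Std2 S φ ψ z₀) (h0 : F0Stmt S φ) (yz : Cfg dz) (c : Fin ds) (u : F) :
    Pz S φ ψ yz (h.ss.cS c u) = h.ss.cS c (Pz S φ ψ yz u) := by
  have e1 : ∀ (D E : Fin ds) (u : F), h.ss.bil 1 D E u =
      ∑ α, S.th α (φ (Sum.inl (ψ (Sum.inl D)))) (S.th α (φ (Sum.inl (ψ (Sum.inl E)))) u) := by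
    intro D E u
    rw [bil_one, _root_.sum_apply]
    rfl
  unfold Setup.cS
  simp only [_root_.sum_apply, _root_.smul_apply, map_sum, map_smul, e1, Pz_th S φ ψ h0]

omit [FiniteDimensional ℂ F] in
/-- splitting of the gauge generator of `s` -/
lemma Gh_split (h : Std2 S φ ψ z₀) (c : Fin ds) (v : Cfg dh → Wsp dm → F) (y : Cfg dh) (w : Wsp dm) :
    AN.Gh S φ (ψ (Sum.inl c)) v y w =
      (∑ i, ∑ a, ∑ b, (-Complex.I * (h.ss.f c a b * (sp ψ y (i, a)) : ℝ)) • py i (ψ (Sum.inl b)) v y w) +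
      (-Complex.I) • (∑ j, ∑ A, ∑ B, ((adC S φ (ψ (Sum.inl c)) A B * w (j, A) : ℝ) : ℂ) • pf j B (v y) w) +
      (h.ss.cS c (v y w) + (-Complex.I / 2) • cM S φ (ψ (Sum.inl c)) (v y w)) := by
  have g3 : ∀ (D : Fin dz) (E : Fin dh), S.f (φ (Sum.inl (ψ (Sum.inl c)))) (φ (Sum.inl (ψ (Sum.inr D)))) (φ (Sum.inl E)) = 0 := by
    intro D E
    rw [S.f_swap, h.cen, neg_zero]
  have g4 : ∀ (D : Fin dh) (E : Fin dz), S.f (φ (Sum.inl (ψ (Sum.inl c)))) (φ (Sum.inl D)) (φ (Sum.inl (ψ (Sum.inr E)))) = 0 := by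
    intro D E
    rw [S.f_swap', g3, neg_zero]
  have e1 : ∀ i : Fin 9, ∑ A, ∑ B, ((S.f (φ (Sum.inl (ψ (Sum.inl c)))) (φ (Sum.inl A)) (φ (Sum.inl B)) * y (i, A) : ℝ) : ℂ) •
      py i B v y w = ∑ a, ∑ b, ((h.ss.f c a b * (sp ψ y (i, a)) : ℝ) : ℂ) • py i (ψ (Sum.inl b)) v y w := by
    intro i
    rw [sq873_sum ψ]
    · refine Finset.sum_congr rfl fun a _ => ?_
      rw [sq873_sum ψ]
      · rfl
      · intro E
        rw [g4, zero_mul, Complex.ofReal_zero, zero_smul]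
    · intro D
      simp only [g3, zero_mul, Complex.ofReal_zero, zero_smul, Finset.sum_const_zero]
  unfold AN.Gh
  rw [cS_split h, _root_.add_apply, _root_.smul_apply]
  congr 2
  simp only [e1, Finset.smul_sum, smul_smul]

end alg

end Vale.Agent.P353.Z.AD
end

section

/-! # P353, all `N`, block D, L9: item (3) of `SecStmt` (Gauss law) (helper221) -/

open MeasureTheory Filter Topology Matrix
open scoped ContDiff

set_option linter.unusedSectionVars false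

namespace Vale.Agent.P353.Z.AD

variable {d dh dm ds dz r : ℕ} {F : Type*} [NormedAddCommGroup F] [InnerProductSpace ℂ F]

lemma CC.mulr {f : Wsp dm → F} (h : CC f) {g : Wsp dm → ℝ} (hg : Continuous g) :
    CC (fun w => ((g w : ℝ) : ℂ) • f w) :=
  ⟨(Complex.continuous_ofReal.comp hg).smul h.1, h.2.smul_left⟩

/-- the rotation in `w` -/
noncomputable def rotP (S : Setup d F) (φ : Spl dh dm d) (C : Fin dh) (f : Wsp dm → F) (w : Wsp dm) : F :=
  ∑ j, ∑ A, ∑ B, ((adC S φ C A B * w (j, A) : ℝ) : ℂ) • pf j B f w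

lemma cc_rot (S : Setup d F) (φ : Spl dh dm d) {v : Cfg dh → Wsp dm → F} (hv : Tst2 v) (C : Fin dh) (y : Cfg dh) :
    CC (rotP S φ C (v y)) := by
  unfold rotP
  refine CC.sum _ fun j => CC.sum _ fun A => CC.sum _ fun B => ?_
  have h1 : CC (pw j B v y) := cc_slice ((AN.calcA dh dm F).pw j B v hv) y
  have h2 : Continuous fun w : Wsp dm => adC S φ C A B * w (j, A) := by fun_prop
  exact h1.mulr h2

section

variable [FiniteDimensional ℂ F] {S : Setup d F} {φ : Spl dh dm d} {ψ : Spl ds dz dh} {z₀ : Cfg dz}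
  {v : Cfg dh → Wsp dm → F} (hv : Tst2 v) {yz : Cfg dz}

lemma lf_eq (hg : Continuous fun w => gn S φ ψ yz w) {f : Wsp dm → F} (hf : CC f) :
    lf S φ ψ yz f = Pz S φ ψ yz (∫ w, ((gn S φ ψ yz w : ℝ) : ℂ) • f w) := by
  have c1 : CC (fun w => ((gn S φ ψ yz w : ℝ) : ℂ) • f w) := hf.mulr hg
  have i1 : Integrable (fun w => ((gn S φ ψ yz w : ℝ) : ℂ) • f w) := c1.1.integrable_of_hasCompactSupport c1.2
  rw [← ContinuousLinearMap.integral_comp_comm _ i1]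
  unfold lf
  simp only [map_smul]

include hv

lemma lf_Gh (hg : Continuous fun w => gn S φ ψ yz w) (h0 : F0Stmt S φ) (hV : VacSpinStmt S φ) (h : Std2 S φ ψ z₀)
    (hD : Frz (Dz S φ ψ yz)) (hO : IsOm S.κ (Dz S φ ψ yz) (omc S.κ (Dz S φ ψ yz)))
    (hrot : ∀ (C : Fin dh) (f : Wsp dm → F), FT f → ∫ w, ((gn S φ ψ yz w : ℝ) : ℂ) • rotP S φ C f w = 0)
    (c : Fin ds) (y : Cfg dh) :
    lf S φ ψ yz (fun w => AN.Gh S φ (ψ (Sum.inl c)) v y w) =
      (∑ i, ∑ a, ∑ b, (-Complex.I * (h.ss.f c a b * (sp ψ y (i, a)) : ℝ)) • lf S φ ψ yz (py i (ψ (Sum.inl b)) v y)) +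
      h.ss.cS c (lf S φ ψ yz (v y)) := by
  have c1 : CC (v y) := cc_slice hv y
  have c2 : ∀ i A, CC (py i (ψ (Sum.inl A)) v y) := fun i A => cc_slice ((AN.calcA dh dm F).py _ _ v hv) y
  have c3 : CC (rotP S φ (ψ (Sum.inl c)) (v y)) := cc_rot S φ hv _ y
  have e0 : (fun w => AN.Gh S φ (ψ (Sum.inl c)) v y w) = fun w =>
      ((∑ i, ∑ a, ∑ b, (-Complex.I * (h.ss.f c a b * (sp ψ y (i, a)) : ℝ)) • py i (ψ (Sum.inl b)) v y w) +
      (-Complex.I) • rotP S φ (ψ (Sum.inl c)) (v y) w) +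
      (h.ss.cS c (v y w) + (-Complex.I / 2) • cM S φ (ψ (Sum.inl c)) (v y w)) := by
    funext w
    exact Gh_split h c v y w
  have d1 : CC (fun w => ∑ i, ∑ a, ∑ b, (-Complex.I * (h.ss.f c a b * (sp ψ y (i, a)) : ℝ)) • py i (ψ (Sum.inl b)) v y w) :=
    CC.sum _ fun i => CC.sum _ fun a => CC.sum _ fun b => (c2 i b).smul _
  have d2 : CC (fun w => (-Complex.I) • rotP S φ (ψ (Sum.inl c)) (v y) w) := c3.smul _
  have d3 : CC (fun w => h.ss.cS c (v y w)) := c1.clm _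
  have d4 : CC (fun w => (-Complex.I / 2) • cM S φ (ψ (Sum.inl c)) (v y w)) := (c1.clm _).smul _
  have k1 : lf S φ ψ yz (fun w => ∑ i, ∑ a, ∑ b, (-Complex.I * (h.ss.f c a b * (sp ψ y (i, a)) : ℝ)) •
      py i (ψ (Sum.inl b)) v y w) =
      ∑ i, ∑ a, ∑ b, (-Complex.I * (h.ss.f c a b * (sp ψ y (i, a)) : ℝ)) • lf S φ ψ yz (py i (ψ (Sum.inl b)) v y) := by
    rw [lf_sum S φ ψ _ hg fun i => CC.sum _ fun a => CC.sum _ fun b => (c2 i b).smul _]
    refine Finset.sum_congr rfl fun i _ => ?_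
    rw [lf_sum S φ ψ _ hg fun a => CC.sum _ fun b => (c2 i b).smul _]
    refine Finset.sum_congr rfl fun a _ => ?_
    rw [lf_sum S φ ψ _ hg fun b => (c2 i b).smul _]
    refine Finset.sum_congr rfl fun b _ => ?_
    rw [lf_smul]
  have k2 : lf S φ ψ yz (rotP S φ (ψ (Sum.inl c)) (v y)) = 0 := by
    rw [lf_eq hg c3, hrot _ _ ((AN.calcA dh dm F).slw v hv y), map_zero]
  have k4 : lf S φ ψ yz (fun w => cM S φ (ψ (Sum.inl c)) (v y w)) = 0 := by
    unfold lf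
    simp only [Pz_cM h hV hD hO, smul_zero, integral_zero]
  rw [e0, lf_add S φ ψ hg (d1.add d2) (d3.add d4), lf_add S φ ψ hg d1 d2, lf_add S φ ψ hg d3 d4, k1, lf_smul, k2,
    lf_smul, k4, smul_zero, smul_zero, add_zero, add_zero, lf_clm S φ ψ hg c1 _ (Pz_ss h h0 yz c)]

end

lemma pr_smooth (yz : Cfg dz) : ContDiff ℝ ∞ (fun ys : Cfg ds => ((yz, ys) : Cfg dz × Cfg ds)) :=
  contDiff_const.prodMk contDiff_id

lemma sl_smooth {G : Cfg dz → Cfg ds → F} (h : ContDiff ℝ ∞ (fun p : Cfg dz × Cfg ds => G p.1 p.2)) (yz : Cfg dz) :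
    ContDiff ℝ ∞ (fun ys => G yz ys) := by
  have h1 := pr_smooth (ds := ds) yz
  exact h.comp h1

lemma G_zero (S' : Setup ds F) (c : Fin ds) (u : Cfg ds → F) (hu : ∀ x, u x = 0) (x : Cfg ds) : S'.G c u x = 0 := by
  have h1 : u = fun _ => 0 := funext hu
  unfold Setup.G pd
  rw [h1]
  simp

section

variable [FiniteDimensional ℂ F] {S : Setup d F} {φ : Spl dh dm d} {ψ : Spl ds dz dh} {z₀ : Cfg dz}
  {ε₀ c Cg B : ℝ} (V : VacD S φ ψ z₀ ε₀ c Cg B) {R : ℝ} (hR : 0 < R) {v : Cfg dh → Wsp dm → F} (hv : Tst2 v)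
  (hs : Sup2 (cmb ψ 0 z₀) ε₀ R v) {yz : Cfg dz}

include V hR hv hs

omit V hR hs in
lemma sec_sl_hcs (yz : Cfg dz) : HasCompactSupport (fun ys => sec S φ ψ v yz ys) := by
  have h : HasCompactSupport (fun p : Cfg dz × Cfg ds => sec S φ ψ v p.1 p.2) := VacD.sec_hcs (ψ := ψ) hv S φ
  have hc : IsCompact (Prod.snd '' tsupport (fun p : Cfg dz × Cfg ds => sec S φ ψ v p.1 p.2)) :=
    h.isCompact.image continuous_snd
  refine HasCompactSupport.intro hc fun ys hys => ?_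
  by_contra hne
  apply hys
  have h3 : ((yz, ys) : Cfg dz × Cfg ds) ∈ Function.support (fun p : Cfg dz × Cfg ds => sec S φ ψ v p.1 p.2) := hne
  exact ⟨(yz, ys), subset_tsupport _ h3, rfl⟩

lemma VacD.sec_sl_smooth (yz : Cfg dz) : ContDiff ℝ ∞ (fun ys => sec S φ ψ v yz ys) := by
  exact sl_smooth (G := sec S φ ψ v) (V.sec_smooth hR hv hs) yz

lemma VacD.sec_tst (yz : Cfg dz) : Setup.Tst (sec S φ ψ v yz) :=
  ⟨V.sec_sl_smooth hR hv hs yz, sec_sl_hcs hv yz⟩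

/-- item (3) -/
lemma VacD.sec_gauss (h0 : F0Stmt S φ) (hV : VacSpinStmt S φ) (h : Std2 S φ ψ z₀)
    (hF : ∀ yz ∈ UZ S φ ψ, Frz (Dz S φ ψ yz) ∧ IsOm S.κ (Dz S φ ψ yz) (omc S.κ (Dz S φ ψ yz)))
    (hrot : ∀ yz ∈ UZ S φ ψ, ∀ (C : Fin dh) (f : Wsp dm → F), FT f →
      ∫ w, ((gn S φ ψ yz w : ℝ) : ℂ) • rotP S φ C f w = 0)
    (hG : ∀ C y w, AN.Gh S φ C v y w = 0) (yz : Cfg dz) : GInv h.ss (sec S φ ψ v yz) := by
  refine ⟨V.sec_tst hR hv hs yz, fun c ys => ?_⟩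
  by_cases hyz : ‖yz - R • z₀‖ ≤ ε₀ * R
  · have hU := V.hU R hR yz hyz
    have hg := gn_cont S φ ψ V.hg hU
    have h1 := lf_Gh hv hg h0 hV h (hF yz hU).1 (hF yz hU).2 (hrot yz hU) c (cmb ψ ys yz)
    have h2 : lf S φ ψ yz (fun w => AN.Gh S φ (ψ (Sum.inl c)) v (cmb ψ ys yz) w) = 0 := by
      unfold lf
      simp only [hG, map_zero, smul_zero, integral_zero]
    rw [h2] at h1
    rw [h1]
    unfold Setup.G
    simp only [V.sec_pds hR hv hs, sq873_sp, Finset.smul_sum, smul_smul]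
    congr 1
    refine Finset.sum_congr rfl fun i _ => Finset.sum_congr rfl fun a _ => Finset.sum_congr rfl fun b _ => ?_
    push_cast
    rfl
  · have h1 : ∀ ys w, v (cmb ψ ys yz) w = 0 := sec_out hs hyz
    have h2 : ∀ ys, sec S φ ψ v yz ys = 0 := by
      intro ys
      unfold sec
      simp [h1]
    exact G_zero h.ss c _ h2 ys

end

end Vale.Agent.P353.Z.AD
end
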