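import Mathlib
import Vale.Agent.P353.BdA.B2
import Vale.Agent.P353.BdA.B1
import Vale.Agent.P353.BdA.B7
import Vale.Agent.P353.BdA.B10
import Vale.Agent.P353.BdA.B3

set_option linter.all false

section

set_option linter.all false

open MeasureTheory Filter Topology
open scoped ContDiff

namespace Vale.Agent.P353.AN.G

open Vale.Agent.P353.Z Vale.Agent.P353.Z.U
open Vale.Agent.P353.Z.Setup (c3)

variable {d : ℕ} {F : Type*} [NormedAddCommGroup F] [InnerProductSpace ℂ F]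

/-! ### G15: rotations in a block are compensated by gauge transformations at a zero of the potential -/

theorem vfEx_aux (S : Setup d F) (ξ : Cfg d) (k l n : Fin 9) (s : ℝ) (hs : s * s = 1) (hkl : k ≠ l)
    (h1 : ∀ B, S.FF B n k ξ = -2 * s * ξ (l, B)) (h2 : ∀ B, S.FF B n l ξ = 2 * s * ξ (k, B))
    (h3 : ∀ i, i ≠ k → i ≠ l → ∀ B, S.FF B n i ξ = 0) :
    ∃ a : Fin d → ℝ, vf S k l a ξ = 0 := by
  refine ⟨fun C => -s * (S.κ / 2) * ξ (n, C), ?_⟩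
  ext p
  obtain ⟨i, B⟩ := p
  have key : ∑ C, ∑ A, (-s * (S.κ / 2) * ξ (n, C)) * S.f C A B * ξ (i, A) = -s / 2 * S.FF B n i ξ := by
    unfold Setup.FF
    rw [← mul_assoc, Finset.mul_sum]
    refine Finset.sum_congr rfl fun C _ => ?_
    rw [Finset.mul_sum]
    refine Finset.sum_congr rfl fun A _ => ?_
    have : S.f C A B = S.f B C A := by rw [S.f_cyc C A B, S.f_cyc A B C]
    rw [this]
    ring
  have e0 : (vf S k l (fun C => -s * (S.κ / 2) * ξ (n, C)) ξ) (i, B) =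
      (if i = l then ξ (k, B) else 0) - (if i = k then ξ (l, B) else 0) + -s / 2 * S.FF B n i ξ := by
    rw [← key]
    rfl
  rw [e0]
  by_cases hik : i = k
  · subst hik
    rw [if_neg hkl, if_pos rfl, h1]
    have : -s / 2 * (-2 * s * ξ (l, B)) = (s * s) * ξ (l, B) := by ring
    rw [this, hs]
    simp
  · by_cases hil : i = l
    · subst hil
      rw [if_pos rfl, if_neg hik, h2]
      have : -s / 2 * (2 * s * ξ (k, B)) = -((s * s) * ξ (k, B)) := by ring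
      rw [this, hs]
      simp
    · rw [if_neg hil, if_neg hik, h3 i hik hil]
      simp

/-- **G15** -/
theorem vfEx (S : Setup d F) : VfStmt S := by
  intro ξ hξ k l hkl
  obtain ⟨z1, z2, z3⟩ := hes_zero S hξ
  obtain ⟨hne, hiff⟩ := hkl
  have hd : ∀ i B, S.FF B i i ξ = 0 := fun i B => by linarith [hes_FF_swap S B i i ξ]
  have c0 : ∀ B, S.FF B 1 2 ξ = -2 * ξ (0, B) := fun B => by
    have := z1 0 B
    unfold Setup.GG at this
    change S.FF B 1 2 ξ + 2 * 1 * ξ (0, B) = 0 at this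
    linarith
  have c1 : ∀ B, S.FF B 2 0 ξ = -2 * ξ (1, B) := fun B => by
    have := z1 1 B
    unfold Setup.GG at this
    change S.FF B 2 0 ξ + 2 * 1 * ξ (1, B) = 0 at this
    linarith
  have c2 : ∀ B, S.FF B 0 1 ξ = -2 * ξ (2, B) := fun B => by
    have := z1 2 B
    unfold Setup.GG at this
    change S.FF B 0 1 ξ + 2 * 1 * ξ (2, B) = 0 at this
    linarith
  have d0 : ∀ B, S.FF B 2 1 ξ = 2 * ξ (0, B) := fun B => by rw [hes_FF_swap, c0]; ring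
  have d1 : ∀ B, S.FF B 0 2 ξ = 2 * ξ (1, B) := fun B => by rw [hes_FF_swap, c1]; ring
  have d2 : ∀ B, S.FF B 1 0 ξ = 2 * ξ (2, B) := fun B => by rw [hes_FF_swap, c2]; ring
  by_cases hk : k.val < 3
  · have hl : l.val < 3 := hiff.1 hk
    have hk' : k = 0 ∨ k = 1 ∨ k = 2 := by
      have : k.val = 0 ∨ k.val = 1 ∨ k.val = 2 := by omega
      rcases this with h | h | h
      · left; ext; exact h
      · right; left; ext; exact h
      · right; right; ext; exact h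
    have hl' : l = 0 ∨ l = 1 ∨ l = 2 := by
      have : l.val = 0 ∨ l.val = 1 ∨ l.val = 2 := by omega
      rcases this with h | h | h
      · left; ext; exact h
      · right; left; ext; exact h
      · right; right; ext; exact h
    have h3 : ∀ n : Fin 9, n.val < 3 → k ≠ n → l ≠ n → ∀ i, i ≠ k → i ≠ l → ∀ B, S.FF B n i ξ = 0 := by
      intro n hn hkn hln i hik hil B
      by_cases hi : i.val < 3
      · have : i = n := by
          have a1 : i.val ≠ k.val := fun h => hik (Fin.ext h)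
          have a2 : i.val ≠ l.val := fun h => hil (Fin.ext h)
          have a3 : k.val ≠ n.val := fun h => hkn (Fin.ext h)
          have a4 : l.val ≠ n.val := fun h => hln (Fin.ext h)
          have a5 : k.val ≠ l.val := fun h => hne (Fin.ext h)
          ext
          omega
        rw [this]
        exact hd n B
      · exact z3 n i B (fun h => hi h.2)
    have p1 : (1 : ℝ) * 1 = 1 := by norm_num
    have p2 : (-1 : ℝ) * (-1) = 1 := by norm_num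
    rcases hk' with rfl | rfl | rfl <;> rcases hl' with rfl | rfl | rfl
    · exact absurd rfl hne
    · exact vfEx_aux S ξ 0 1 2 1 p1 hne (fun B => by rw [c1]; ring) (fun B => by rw [d0]; ring)
        (h3 2 (by decide) (by decide) (by decide))
    · exact vfEx_aux S ξ 0 2 1 (-1) p2 hne (fun B => by rw [d2]; ring) (fun B => by rw [c0]; ring)
        (h3 1 (by decide) (by decide) (by decide))
    · exact vfEx_aux S ξ 1 0 2 (-1) p2 hne (fun B => by rw [d0]; ring) (fun B => by rw [c1]; ring)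
        (h3 2 (by decide) (by decide) (by decide))
    · exact absurd rfl hne
    · exact vfEx_aux S ξ 1 2 0 1 p1 hne (fun B => by rw [c2]; ring) (fun B => by rw [d1]; ring)
        (h3 0 (by decide) (by decide) (by decide))
    · exact vfEx_aux S ξ 2 0 1 1 p1 hne (fun B => by rw [c0]; ring) (fun B => by rw [d2]; ring)
        (h3 1 (by decide) (by decide) (by decide))
    · exact vfEx_aux S ξ 2 1 0 (-1) p2 hne (fun B => by rw [d1]; ring) (fun B => by rw [c2]; ring)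
        (h3 0 (by decide) (by decide) (by decide))
    · exact absurd rfl hne
  · have hl : ¬ l.val < 3 := fun h => hk (hiff.2 h)
    refine ⟨0, ?_⟩
    ext p
    obtain ⟨i, B⟩ := p
    have e0 : (vf S k l 0 ξ) (i, B) =
        (if i = l then ξ (k, B) else 0) - (if i = k then ξ (l, B) else 0) +
          ∑ C, ∑ A, (0 : Fin d → ℝ) C * S.f C A B * ξ (i, A) := rfl
    rw [e0, z2 k B hk, z2 l B hl]
    simp

end Vale.Agent.P353.AN.G
end

section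

/-! # P353, all `N`, block D2, D3: all points are null, the shells carry no mass -/

open MeasureTheory Filter Topology
open scoped ContDiff

namespace Vale.Agent.P353.Z.AD

variable {d : ℕ} {F : Type*} [NormedAddCommGroup F] [InnerProductSpace ℂ F]

/-- subsequences of admissible sequences are admissible -/
lemma nul_Sq_comp {S : Setup d F} {R : ℕ → ℝ} {u : ℕ → Cfg d → F} (h : Sq S R u) {k : ℕ → ℕ}
    (hk : StrictMono k) : Sq S (fun n => R (k n)) (fun n => u (k n)) where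
  inv := fun n => h.inv (k n)
  pos := fun n => h.pos (k n)
  lim := h.lim.comp hk.tendsto_atTop
  bd := by
    intro s t hs hst
    obtain ⟨C, hC⟩ := h.bd s t hs hst
    exact ⟨C, fun n => hC (k n)⟩

lemma nul_Nul_comp {R : ℕ → ℝ} {u : ℕ → Cfg d → F} {Y : Cfg d} (h : Nul R u Y) {k : ℕ → ℕ}
    (hk : StrictMono k) : Nul (fun n => R (k n)) (fun n => u (k n)) Y := by
  obtain ⟨ε, hε, h1⟩ := h
  exact ⟨ε, hε, h1.comp hk.tendsto_atTop⟩

lemma nul_mas_nonneg (u : Cfg d → F) (A : Set (Cfg d)) : 0 ≤ mas u A :=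
  integral_nonneg fun _ => sq_nonneg _

lemma nul_int {u : Cfg d → F} (hu : Setup.Tst u) :
    Integrable (fun x => ‖u x‖ ^ 2) (volume : Measure (Cfg d)) := by
  have hc : Continuous fun x => ‖u x‖ ^ 2 := (hu.1.continuous.norm).pow 2
  refine hc.integrable_of_hasCompactSupport ?_
  refine hu.2.mono fun x hx => ?_
  rw [Function.mem_support] at hx ⊢
  intro h0
  exact hx (by rw [h0]; simp)

lemma nul_mas_mono {u : Cfg d → F} (hu : Setup.Tst u) {A B : Set (Cfg d)} (h : A ⊆ B) :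
    mas u A ≤ mas u B :=
  setIntegral_mono_set (nul_int hu).integrableOn (Eventually.of_forall fun _ => sq_nonneg _)
    (Eventually.of_forall h)

lemma nul_mas_union {u : Cfg d → F} (hu : Setup.Tst u) {ι : Type*} (T : Finset ι)
    (A : ι → Set (Cfg d)) (hA : ∀ i, MeasurableSet (A i)) :
    mas u (⋃ i ∈ T, A i) ≤ ∑ i ∈ T, mas u (A i) := by
  classical
  induction T using Finset.induction_on with
  | empty => simp [mas]
  | insert a T ha ih =>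
    rw [Finset.set_biUnion_insert, Finset.sum_insert ha]
    have h1 : mas u (A a ∪ ⋃ i ∈ T, A i) ≤ mas u (A a) + mas u (⋃ i ∈ T, A i) := by
      have h2 : A a ∪ (⋃ i ∈ T, A i) = A a ∪ ((⋃ i ∈ T, A i) \ A a) := by
        rw [Set.union_diff_self]
      have h3 : MeasurableSet ((⋃ i ∈ T, A i) \ A a) :=
        (Finset.measurableSet_biUnion T fun i _ => hA i).diff (hA a)
      rw [h2]
      unfold mas
      rw [setIntegral_union Set.disjoint_sdiff_right h3 (nul_int hu).integrableOn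
        (nul_int hu).integrableOn]
      have h4 := nul_mas_mono hu (A := (⋃ i ∈ T, A i) \ A a) (B := ⋃ i ∈ T, A i) Set.diff_subset
      unfold mas at h4
      linarith
    linarith

/-- **D2** -/
theorem nulAll (S : Setup d F) : NulAllStmt S := by
  intro hD1 hF PZ hloc R u hsq hPZ
  have key : ∀ m : ℕ, ∀ Y : Cfg d, cd S Y = m → Y ≠ 0 → S.V Y = 0 → Nul R u Y := by
    intro m
    induction m using Nat.strong_induction_on with
    | _ m ih =>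
      intro Y hY hY0 hV
      obtain ⟨ε, hε, hl⟩ := hloc Y hY0 hV
      refine ⟨ε, hε, ?_⟩
      -- every subsequence has a further subsequence with limit `0`
      refine tendsto_of_subseq_tendsto fun ns hns => ?_
      obtain ⟨k, hk, hkm⟩ := strictMono_subseq_of_tendsto_atTop hns
      obtain ⟨l, hl1, hl2⟩ := hPZ Y hY0 hV (fun n => ns (k n)) hkm
      have hkl : StrictMono fun n => ns (k (l n)) := hkm.comp hl1
      have h1 := hl (fun n => R (ns (k (l n)))) (fun n => u (ns (k (l n)))) (nul_Sq_comp hsq hkl)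
        (fun Y' hY' hV' hc => nul_Nul_comp (ih (cd S Y') (hY ▸ hc) Y' rfl hY' hV') hkl) hl2
      exact ⟨fun n => k (l n), h1⟩
  intro Y hY
  by_cases hV : S.V Y = 0
  · exact key _ Y rfl hY hV
  · exact hD1 hF R u hsq Y hV

/-- **D3** -/
theorem shell (S : Setup d F) : ShellStmt S := by
  intro R u hsq hnul s t hs hst
  have hT : ∀ n, Setup.Tst (u n) := fun n => (hsq.inv n).1
  set K : Set (Cfg d) := Metric.closedBall 0 t ∩ {x | s ≤ ‖x‖} with hK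
  have hKc : IsCompact K :=
    (isCompact_closedBall 0 t).inter_right (isClosed_le continuous_const continuous_norm)
  have hne : ∀ Y ∈ K, Y ≠ 0 := by
    intro Y hY h0
    have h1 : s ≤ ‖Y‖ := hY.2
    rw [h0, norm_zero] at h1
    linarith
  choose! ε hε hnE using fun (Y : Cfg d) (hY : Y ≠ 0) => hnul Y hY
  obtain ⟨T, hTK, hcov⟩ := hKc.elim_nhds_subcover (fun Y => Metric.ball Y (ε Y))
    fun Y hY => Metric.ball_mem_nhds Y (hε Y (hne Y hY))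
  have hlim : Tendsto (fun n => ∑ Y ∈ T, mas (u n) (Metric.ball (R n • Y) (ε Y * R n))) atTop (𝓝 0) := by
    have h := tendsto_finset_sum T (f := fun Y n => mas (u n) (Metric.ball (R n • Y) (ε Y * R n)))
      (a := fun _ => (0 : ℝ)) (x := atTop) fun Y hY => hnE Y (hne Y (hTK Y hY))
    simpa using h
  refine squeeze_zero (fun n => nul_mas_nonneg _ _) (fun n => ?_) hlim
  refine le_trans (nul_mas_mono (hT n) ?_) (nul_mas_union (hT n) T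
    (fun Y => Metric.ball (R n • Y) (ε Y * R n)) fun Y => Metric.isOpen_ball.measurableSet)
  intro x hx
  have hR := hsq.pos n
  have hR0 : R n ≠ 0 := hR.ne'
  have hxs : s * R n < ‖x‖ := hx.1
  have hxt : ‖x‖ < t * R n := hx.2
  have hmem : (R n)⁻¹ • x ∈ K := by
    have hn : ‖(R n)⁻¹ • x‖ = ‖x‖ / R n := by
      rw [norm_smul, norm_inv, Real.norm_eq_abs, abs_of_pos hR]
      field_simp
    refine ⟨?_, ?_⟩
    · rw [mem_closedBall_zero_iff, hn, div_le_iff₀ hR]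
      exact hxt.le
    · change s ≤ ‖(R n)⁻¹ • x‖
      rw [hn, le_div_iff₀ hR]
      exact hxs.le
  have h1 := hcov hmem
  simp only [Set.mem_iUnion, exists_prop] at h1 ⊢
  obtain ⟨Y, hY, h2⟩ := h1
  refine ⟨Y, hY, ?_⟩
  rw [Metric.mem_ball, dist_eq_norm] at h2 ⊢
  have h3 : x - R n • Y = R n • ((R n)⁻¹ • x - Y) := by
    rw [smul_sub, smul_smul, mul_inv_cancel₀ hR0, one_smul]
  rw [h3, norm_smul, Real.norm_eq_abs, abs_of_pos hR, mul_comm]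
  exact mul_lt_mul_of_pos_right h2 hR

end Vale.Agent.P353.Z.AD
end

section

/-! # P353, all `N`, block E: inverse of `D_8` near the centre, test functions, weights (for E-DecR) -/

open MeasureTheory Filter Topology Matrix
open scoped ContDiff

namespace Vale.Agent.P353.Z.AE

variable {d dh dm r ds : ℕ} {F : Type*} [NormedAddCommGroup F] [InnerProductSpace ℂ F]

/-- Lipschitz bound for the entries of the inverse -/
lemma dr7_inv_lip (M M' : Matrix (Fin dm) (Fin dm) ℝ) (hM : M.det ≠ 0) (hM' : M'.det ≠ 0)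
    {K ε : ℝ} (hK : 0 ≤ K) (hε : 0 ≤ ε) (h1 : ∀ A B, |M⁻¹ A B| ≤ K) (h2 : ∀ A B, |M'⁻¹ A B| ≤ K)
    (h3 : ∀ A B, |M' A B - M A B| ≤ ε) (A B : Fin dm) :
    |M'⁻¹ A B - M⁻¹ A B| ≤ dm * (dm * (K * K)) * ε := by
  have key : M'⁻¹ - M⁻¹ = M'⁻¹ * (M - M') * M⁻¹ := by
    rw [Matrix.mul_sub, Matrix.sub_mul, Matrix.nonsing_inv_mul _ (isUnit_iff_ne_zero.2 hM'),
      Matrix.one_mul, Matrix.mul_assoc, Matrix.mul_nonsing_inv _ (isUnit_iff_ne_zero.2 hM),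
      Matrix.mul_one]
  have h4 : M'⁻¹ A B - M⁻¹ A B = ∑ Q, (∑ P, M'⁻¹ A P * (M - M') P Q) * M⁻¹ Q B := by
    rw [← Matrix.sub_apply, key, Matrix.mul_apply]
    simp only [Matrix.mul_apply]
  rw [h4]
  refine (Finset.abs_sum_le_sum_abs _ _).trans ?_
  have h5 : ∀ Q, |(∑ P, M'⁻¹ A P * (M - M') P Q) * M⁻¹ Q B| ≤ (dm * (K * ε)) * K := by
    intro Q
    rw [abs_mul]
    refine mul_le_mul ?_ (h1 Q B) (abs_nonneg _) (by positivity)
    refine (Finset.abs_sum_le_sum_abs _ _).trans ?_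
    have h6 : ∀ P, |M'⁻¹ A P * (M - M') P Q| ≤ K * ε := by
      intro P
      rw [abs_mul, Matrix.sub_apply, abs_sub_comm]
      exact mul_le_mul (h2 A P) (h3 P Q) (abs_nonneg _) hK
    refine (Finset.sum_le_sum fun P _ => h6 P).trans ?_
    rw [Finset.sum_const, Finset.card_univ, Fintype.card_fin, nsmul_eq_mul]
  refine (Finset.sum_le_sum fun Q _ => h5 Q).trans ?_
  rw [Finset.sum_const, Finset.card_univ, Fintype.card_fin, nsmul_eq_mul]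
  apply le_of_eq
  ring

/-- coordinates of `x` minus its centre part -/
lemma dr7_coord (ψ : Spl r ds dh) (x : Cfg dh) (p : Fin 9 × Fin dh) :
    |x p - cmb ψ (zpt ψ x) 0 p| ≤ ‖spt ψ x‖ := by
  obtain ⟨i, A⟩ := p
  obtain ⟨t, rfl⟩ := ψ.surjective A
  rcases t with a | b
  · have h1 : cmb ψ (zpt ψ x) 0 (i, ψ (Sum.inl a)) = x (i, ψ (Sum.inl a)) := by
      simp [cmb, zpt]
    rw [h1, sub_self, abs_zero]
    exact norm_nonneg _
  · have h1 : cmb ψ (zpt ψ x) 0 (i, ψ (Sum.inr b)) = 0 := by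
      simp [cmb]
    have h2 : spt ψ x (i, b) = x (i, ψ (Sum.inr b)) := rfl
    rw [h1, sub_zero, ← h2, ← Real.norm_eq_abs]
    exact PiLp.norm_apply_le (spt ψ x) (i, b)

/-- difference of the inverses of `D_8` -/
lemma dr7_G (S : Setup d F) (φ : Spl dh dm d) (ψ : Spl r ds dh) : ∃ k : ℝ, 0 ≤ k ∧
    ∀ (y₀ : Cfg r) (ε0 C0 : ℝ), 0 ≤ C0 → S.CoefBd φ (cmb ψ y₀ 0) ε0 C0 → ∀ R : ℝ, 0 < R → ∀ x : Cfg dh,
      ‖x - R • cmb ψ y₀ 0‖ ≤ ε0 * R → ∀ B C,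
      |((S.Dy φ 8 x)⁻¹ - (S.Dz φ ψ (zpt ψ x) 8)⁻¹) B C| ≤ k * C0 ^ 2 * (‖spt ψ x‖ / R ^ 2) := by
  obtain ⟨c, hc, hc'⟩ := dr7_bd fun p : Fin dm × Fin dm =>
    ∑ A, |S.f (φ (Sum.inr p.1)) (φ (Sum.inl A)) (φ (Sum.inr p.2))|
  refine ⟨dm * dm * c, by positivity, fun y₀ ε0 C0 hC0 hB R hR x hx B C => ?_⟩
  have hx' : ‖cmb ψ (zpt ψ x) 0 - R • cmb ψ y₀ 0‖ ≤ ε0 * R := by
    rw [dr7_cmb0]
    exact zpt_ray_le ψ hx
  have hdy : ∀ B E, |S.Dy φ 8 x B E - S.Dz φ ψ (zpt ψ x) 8 B E| ≤ c * ‖spt ψ x‖ := by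
    intro B E
    have h1 : S.Dy φ 8 x B E - S.Dz φ ψ (zpt ψ x) 8 B E =
        ∑ A, S.f (φ (Sum.inr B)) (φ (Sum.inl A)) (φ (Sum.inr E)) *
          (x (8, A) - cmb ψ (zpt ψ x) 0 (8, A)) := by
      simp only [Setup.Dz, Setup.Dy, Setup.Dm, Matrix.of_apply, mul_sub, Finset.sum_sub_distrib]
    rw [h1]
    refine (Finset.abs_sum_le_sum_abs _ _).trans ?_
    refine (Finset.sum_le_sum fun A _ => ?_ :
      _ ≤ ∑ A, |S.f (φ (Sum.inr B)) (φ (Sum.inl A)) (φ (Sum.inr E))| * ‖spt ψ x‖).trans ?_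
    · rw [abs_mul]
      exact mul_le_mul_of_nonneg_left (dr7_coord ψ x (8, A)) (abs_nonneg _)
    · rw [← Finset.sum_mul]
      exact mul_le_mul_of_nonneg_right (hc' (B, E)) (norm_nonneg _)
  have h := dr7_inv_lip (S.Dz φ ψ (zpt ψ x) 8) (S.Dy φ 8 x) (hB.det R hR _ hx') (hB.det R hR x hx)
    (by positivity : 0 ≤ C0 / R) (by positivity : 0 ≤ c * ‖spt ψ x‖) (hB.inv R hR _ hx') (hB.inv R hR x hx) hdy B C
  rw [Matrix.sub_apply]
  refine h.trans (le_of_eq ?_)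
  field_simp

section Tst

open AN.Op687

variable (S : Setup d F) (φ : Spl dh dm d)

/-- `drL` of test functions is a test function -/
lemma t_drL (hA : AN.CalcA dh dm F) (β : Fin 16) {g : Cfg dh → Matrix (Fin dm) (Fin dm) ℝ} {K U : Set (Cfg dh)}
    (hK : IsClosed K) (hU : IsOpen U) (hKU : K ⊆ U) (hg : ∀ B C, ContDiffOn ℝ ∞ (fun x => g x B C) U)
    {p : Fin 8 → Fin dh → Cfg dh → Wsp dm → F} {q : Fin 8 → Fin dm → Cfg dh → Wsp dm → F} {u : Cfg dh → Wsp dm → F}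
    (hp : ∀ j A, Tst2 (p j A)) (hq : ∀ j B, Tst2 (q j B)) (hu : Tst2 u)
    (h0 : ∀ x w, x ∉ K → (∀ j A, p j A x w = 0) ∧ (∀ j B, q j B x w = 0) ∧ u x w = 0) :
    Tst2 (fun x w => drL S φ β (g x) (fun j A => p j A x w) (fun j B => q j B x w) (u x w) w) := by
  have h2 : ∀ C : Fin dm, Tst2 (fun x w => drI S φ C (fun j A => p j A x w) (fun j B => q j B x w) (u x w) w) := by
    intro C
    unfold drI
    exact hA.add _ _ (hA.add _ _
      (t_sum hA _ _ fun j _ => t_sum hA _ _ fun E _ => t_sum hA _ _ fun A _ =>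
        t_mulc hA (fun _ w => S.f (φ (Sum.inr C)) (φ (Sum.inr E)) (φ (Sum.inl A)) * w (j, E))
          (contDiff_const.mul (AN.Sy.contDiff_w _)) _ (hp j A))
      (t_sum hA _ _ fun j _ => t_sum hA _ _ fun E _ => t_sum hA _ _ fun G _ =>
        t_mulc hA (fun _ w => S.f (φ (Sum.inr C)) (φ (Sum.inr E)) (φ (Sum.inr G)) * w (j, E))
          (contDiff_const.mul (AN.Sy.contDiff_w _)) _ (hq j G)))
      (hA.smul _ _ (hA.clm _ _ hu))
  have h3 : ∀ (C : Fin dm) (x : Cfg dh) (w : Wsp dm),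
      drI S φ C (fun j A => p j A x w) (fun j B => q j B x w) (u x w) w ≠ 0 → x ∈ K := by
    intro C x w h
    by_contra hn
    obtain ⟨e1, e2, e3⟩ := h0 x w hn
    apply h
    unfold drI
    simp [e1, e2, e3]
  have h4 : Tst2 (fun x w => Complex.I • (∑ B, S.vec (S.g 8) (φ (Sum.inr B)) β
      (∑ C, ((g x B C : ℝ) : ℂ) • drI S φ C (fun j A => p j A x w) (fun j B => q j B x w) (u x w) w))) :=
    hA.smul _ _ (t_sum hA _ _ fun B _ => hA.clm _ _ (t_sum hA _ _ fun C _ =>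
      hA.mulOn (fun x => g x B C) _ K U hK hU hKU (hg B C) (h3 C) (h2 C)))
  have h8 : ∀ (A : Fin dh) (x : Cfg dh) (w : Wsp dm), S.vec (S.g 8) (φ (Sum.inl A)) β (u x w) ≠ 0 → x ∈ K := by
    intro A x w h
    by_contra hn
    apply h
    simp [(h0 x w hn).2.2]
  have h7 : Tst2 (fun x w => (Complex.I / 2) • ∑ A,
      ((∑ B, ∑ C, g x B C * S.f (φ (Sum.inr C)) (φ (Sum.inl A)) (φ (Sum.inr B)) : ℝ) : ℂ) •
      S.vec (S.g 8) (φ (Sum.inl A)) β (u x w)) :=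
    hA.smul _ _ (t_sum hA _ _ fun A _ =>
      hA.mulOn (fun x => ∑ B, ∑ C, g x B C * S.f (φ (Sum.inr C)) (φ (Sum.inl A)) (φ (Sum.inr B))) _ K U hK hU hKU
        (ContDiffOn.sum fun B _ => ContDiffOn.sum fun C _ => (hg B C).mul contDiffOn_const) (h8 A) (hA.clm _ _ hu))
  exact hA.add _ _ h4 h7

lemma t_drW (hA : AN.CalcA dh dm F) (β : Fin 16) {u : Cfg dh → Wsp dm → F} (hu : Tst2 u) :
    Tst2 (fun x w => drW S φ β w (u x w)) := by
  have h5 : Tst2 (fun y w => (1 / 2 : ℂ) • (∑ A, ∑ i, ∑ j,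
      ((S.κ * ∑ B, ∑ C, S.f (φ (Sum.inl A)) (φ (Sum.inr B)) (φ (Sum.inr C)) * wt w i B * wt w j C : ℝ) : ℂ) •
        S.vec (S.g2 i j) (φ (Sum.inl A)) β (u y w))) :=
    hA.smul _ _ (t_sum hA _ _ fun A _ => t_sum hA _ _ fun i _ => t_sum hA _ _ fun j _ =>
      t_mulT hA (fun _ w => S.κ * ∑ B, ∑ C, S.f (φ (Sum.inl A)) (φ (Sum.inr B)) (φ (Sum.inr C)) *
        wt w i B * wt w j C) (cd_ww S _ i j) _ u hu)
  have h6 : Tst2 (fun y w => (1 / 2 : ℂ) • (∑ A, ∑ i, ∑ j,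
      ((S.κ * ∑ B, ∑ C, S.f (φ (Sum.inr A)) (φ (Sum.inr B)) (φ (Sum.inr C)) * wt w i B * wt w j C : ℝ) : ℂ) •
        S.vec (S.g2 i j) (φ (Sum.inr A)) β (u y w))) :=
    hA.smul _ _ (t_sum hA _ _ fun A _ => t_sum hA _ _ fun i _ => t_sum hA _ _ fun j _ =>
      t_mulT hA (fun _ w => S.κ * ∑ B, ∑ C, S.f (φ (Sum.inr A)) (φ (Sum.inr B)) (φ (Sum.inr C)) *
        wt w i B * wt w j C) (cd_ww S _ i j) _ u hu)
  exact hA.add _ _ h5 h6

end Tst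

section Weight

variable (S : Setup d F) (φ : Spl dh dm d) (ψ : Spl r ds dh)

/-- weight in the fibre -/
noncomputable def gw (Om : Cfg r → Matrix (Fin dm) (Fin dm) ℝ) (R : ℝ) (y : Cfg r) (w : Wsp dm) : ℝ :=
  ∑ k ∈ Finset.range 4, R ^ k * (‖w‖ ^ k * S.bz φ ψ Om y w) ^ 2

lemma gw_eq (Om : Cfg r → Matrix (Fin dm) (Fin dm) ℝ) (R : ℝ) (y : Cfg r) (w : Wsp dm) :
    gw S φ ψ Om R y w = (1 + R * ‖w‖ ^ 2 + (R * ‖w‖ ^ 2) ^ 2 + (R * ‖w‖ ^ 2) ^ 3) * S.bz φ ψ Om y w ^ 2 := by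
  unfold gw
  simp only [Finset.sum_range_succ, Finset.sum_range_zero]
  ring

lemma gw_int {U : Set (Cfg r)} {Om : Cfg r → Matrix (Fin dm) (Fin dm) ℝ} {y₀ : Cfg r} {ε0 C0 : ℝ}
    (hB : BzFacts S φ ψ U Om y₀ ε0 C0) {y : Cfg r} (hy : y ∈ U) (R : ℝ) : Integrable (gw S φ ψ Om R y) := by
  unfold gw
  exact integrable_finsetSum _ fun k _ => (hB.int y hy k).const_mul _

lemma gw_le {U : Set (Cfg r)} {Om : Cfg r → Matrix (Fin dm) (Fin dm) ℝ} {y₀ : Cfg r} {ε0 C0 : ℝ}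
    (hB : BzFacts S φ ψ U Om y₀ ε0 C0) {R : ℝ} (hR : 0 < R) {y : Cfg r} (hy : ‖y - R • y₀‖ ≤ ε0 * R) :
    ∫ w, gw S φ ψ Om R y w ≤ 4 * C0 := by
  have hyU := hB.inU R hR y hy
  unfold gw
  rw [integral_finset_sum _ fun k _ => (hB.int y hyU k).const_mul _]
  have : ∀ k ∈ Finset.range 4, ∫ w, R ^ k * (‖w‖ ^ k * S.bz φ ψ Om y w) ^ 2 ≤ C0 := by
    intro k hk
    rw [integral_const_mul]
    have h1 := hB.mom R hR y hy k (by have := Finset.mem_range.1 hk; omega)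
    calc R ^ k * ∫ w, (‖w‖ ^ k * S.bz φ ψ Om y w) ^ 2 ≤ R ^ k * (C0 * (1 / R) ^ k) :=
          mul_le_mul_of_nonneg_left h1 (by positivity)
      _ = C0 := by
          rw [one_div, inv_pow]
          field_simp
  refine (Finset.sum_le_sum this).trans (le_of_eq ?_)
  simp

end Weight

end Vale.Agent.P353.Z.AE
end

section

/-! # P353, all `N`, block E: E-DecR, the remainder applied to the trial function -/

open MeasureTheory Filter Topology Matrix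
open scoped ContDiff

namespace Vale.Agent.P353.Z.AE

variable {d dh dm r ds : ℕ} {F : Type*} [NormedAddCommGroup F] [InnerProductSpace ℂ F]

section Pt

variable {S : Setup d F} {φ : Spl dh dm d} {ψ : Spl r ds dh} {U : Set (Cfg r)}
  {Om : Cfg r → Matrix (Fin dm) (Fin dm) ℝ} {V : Cfg r → F →L[ℂ] F} {K : Submodule ℂ F}

/-- the part with the coefficients at the centre point, in the form `α Q^r(χ b u)` -/
lemma dr7_X2 (hV : S.VFr φ ψ U Om V K) {y₀ : Cfg r} {ε0 C0 : ℝ} (hB : BzFacts S φ ψ U Om y₀ ε0 C0) {ε : ℝ}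
    (hε : 0 < ε) (hε0 : ε ≤ ε0) {ζ : Cfg r → ℂ} (hζs : tsupport ζ ⊆ Metric.ball y₀ (ε / 2))
    {Φ : Cfg ds → F} {R : ℝ} (hR : 1 ≤ R) {c : ℝ → ℝ} (hc : IsCt c) (β : Fin 16) (G : Matrix (Fin dm) (Fin dm) ℝ)
    (x : Cfg dh) (w : Wsp dm) :
    drL S φ β G (fun _ _ => 0) (fun j B => pw j B (S.TR φ ψ Om V c ε R (pp ζ Φ)) x w)
      (S.TR φ ψ Om V c ε R (pp ζ Φ) x w) w + drW S φ β w (S.TR φ ψ Om V c ε R (pp ζ Φ) x w) =
    (((Real.sqrt R ^ (9 * r))⁻¹ : ℝ) : ℂ) • drX S φ β G (fun w => c (‖w‖ ^ 2 / (ε * R) ^ 2) * S.bz φ ψ Om (zpt ψ x) w)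
      (V (zpt ψ x) (ζ (R⁻¹ • zpt ψ x) • Φ (spt ψ x))) w := by
  unfold drX
  rw [smul_add, ← drL_smul, ← drW_smul]
  have h1 : S.TR φ ψ Om V c ε R (pp ζ Φ) x w = (((Real.sqrt R ^ (9 * r))⁻¹ : ℝ) : ℂ) •
      (((c (‖w‖ ^ 2 / (ε * R) ^ 2) * S.bz φ ψ Om (zpt ψ x) w : ℝ) : ℂ) •
        V (zpt ψ x) (ζ (R⁻¹ • zpt ψ x) • Φ (spt ψ x))) := by
    unfold Setup.TR pp
    rw [smul_smul]
    congr 1
    push_cast
    ring
  have h2 : ∀ j B, pw j B (S.TR φ ψ Om V c ε R (pp ζ Φ)) x w = (((Real.sqrt R ^ (9 * r))⁻¹ : ℝ) : ℂ) •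
      (((fderiv ℝ (fun w' => c (‖w'‖ ^ 2 / (ε * R) ^ 2) * S.bz φ ψ Om (zpt ψ x) w') w
        (EuclideanSpace.single (j, B) 1) : ℝ) : ℂ) • V (zpt ψ x) (ζ (R⁻¹ • zpt ψ x) • Φ (spt ψ x))) := by
    intro j B
    unfold pw
    have := TR_fderiv_w hV hB hε hε0 hζs hR hc x w (EuclideanSpace.single (j, B) 1) (Φ := Φ)
    rw [smul_smul, ← Complex.ofReal_mul]
    exact this
  congr 1
  · congr 1
    · funext j A
      rw [smul_zero]
    · funext j B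
      exact h2 j B
  · rw [h1]

/-- derivative of the cutoff Gaussian -/
lemma dr7_chib {y₀ : Cfg r} {ε0 C0 : ℝ} (hB : BzFacts S φ ψ U Om y₀ ε0 C0) {ε : ℝ} (hε : 0 < ε) {c : ℝ → ℝ} (hc : IsCt c)
    {M : ℝ} (hM0 : 0 ≤ M) (hM : ∀ t, |deriv c t| ≤ M) {R : ℝ} (hR : 1 ≤ R) {y : Cfg r} (hy : ‖y - R • y₀‖ ≤ ε0 * R)
    (w : Wsp dm) (j : Fin 8) (B : Fin dm) :
    |fderiv ℝ (fun w' => c (‖w'‖ ^ 2 / (ε * R) ^ 2) * S.bz φ ψ Om y w') w (EuclideanSpace.single (j, B) 1)| ≤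
      (2 * M / ε ^ 2 + C0) * R * ‖w‖ * S.bz φ ψ Om y w := by
  have hR0 : 0 < R := by linarith
  have hyU := hB.inU R hR0 y hy
  have hbp := hB.pos y hyU w
  have hsm := dr7_bsm S φ hB hyU
  have hρ : 0 < ε * R := by positivity
  have h1 : DifferentiableAt ℝ (fun w' : Wsp dm => c (‖w'‖ ^ 2 / (ε * R) ^ 2)) w :=
    (dr7_chi_sm hc (ε * R)).differentiable (by norm_num) w
  have h2 : DifferentiableAt ℝ (fun w' => S.bz φ ψ Om y w') w := hsm.differentiable (by norm_num) w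
  rw [fderiv_fun_mul h1 h2]
  simp only [_root_.add_apply, _root_.smul_apply, smul_eq_mul]
  have e1 := dr7_chi_fd hc hρ hM w (j, B)
  have e2 := hB.dw R hR0 y hy w j B
  have e3 : |c (‖w‖ ^ 2 / (ε * R) ^ 2)| ≤ 1 := by
    rw [abs_le]
    constructor <;> linarith [(hc.bd (‖w‖ ^ 2 / (ε * R) ^ 2)).1, (hc.bd (‖w‖ ^ 2 / (ε * R) ^ 2)).2]
  have e4 : |fderiv ℝ (fun w : Wsp dm => c (‖w‖ ^ 2 / (ε * R) ^ 2)) w (EuclideanSpace.single (j, B) 1)| ≤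
      2 * M / ε ^ 2 * R * ‖w‖ := by
    refine e1.trans ?_
    have hle : 2 * M / (ε * R) ^ 2 ≤ 2 * M / ε ^ 2 * R := by
      have h3 : 2 * M / (ε * R) ^ 2 ≤ 2 * M / ε ^ 2 := by
        apply div_le_div_of_nonneg_left (by positivity) (by positivity)
        rw [mul_pow]
        have : 1 ≤ R ^ 2 := by nlinarith
        nlinarith [sq_nonneg ε]
      have h4 : 0 ≤ 2 * M / ε ^ 2 := by positivity
      nlinarith
    split_ifs
    · exact mul_le_mul_of_nonneg_right hle (norm_nonneg _)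
    · positivity
  refine (abs_add_le _ _).trans ?_
  rw [abs_mul, abs_mul, abs_of_pos hbp]
  have e5 : 0 ≤ C0 * R * ‖w‖ * S.bz φ ψ Om y w := (abs_nonneg _).trans e2
  calc |c (‖w‖ ^ 2 / (ε * R) ^ 2)| * |fderiv ℝ (fun w' => S.bz φ ψ Om y w') w (EuclideanSpace.single (j, B) 1)| +
        S.bz φ ψ Om y w * |fderiv ℝ (fun w : Wsp dm => c (‖w‖ ^ 2 / (ε * R) ^ 2)) w (EuclideanSpace.single (j, B) 1)|
      ≤ 1 * (C0 * R * ‖w‖ * S.bz φ ψ Om y w) + S.bz φ ψ Om y w * (2 * M / ε ^ 2 * R * ‖w‖) :=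
        add_le_add (mul_le_mul e3 e2 (abs_nonneg _) (by norm_num)) (mul_le_mul_of_nonneg_left e4 hbp.le)
    _ = _ := by ring

/-- sum over the colour indices of `h` -/
lemma dr7_sumA (ψ : Spl r ds dh) (g : Fin dh → ℝ) : ∑ A, g A = (∑ a, g (ψ (Sum.inl a))) + ∑ b, g (ψ (Sum.inr b)) := by
  rw [← ψ.sum_comp, Fintype.sum_sum_type]

/-- bound for the derivatives of the trial function along `h` -/
lemma dr7_py (hV : S.VFr φ ψ U Om V K) {y₀ : Cfg r} {ε0 C0 : ℝ} (hC0 : 0 < C0) (hB : BzFacts S φ ψ U Om y₀ ε0 C0) {ε : ℝ}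
    (hε : 0 < ε) (hε0 : ε ≤ ε0) {ζ : Cfg r → ℂ} (hζ : ContDiff ℝ ∞ ζ) (hζs : tsupport ζ ⊆ Metric.ball y₀ (ε / 2))
    {c : ℝ → ℝ} (hc : IsCt c) : ∃ k : ℝ, 0 ≤ k ∧ ∀ R : ℝ, 1 ≤ R → ∀ Φ : Cfg ds → F, ContDiff ℝ ∞ Φ → ∀ (x : Cfg dh),
      R⁻¹ • zpt ψ x ∈ tsupport ζ → ∀ w : Wsp dm,
      ∑ j : Fin 8, ∑ A, ‖py j.castSucc A (S.TR φ ψ Om V c ε R (pp ζ Φ)) x w‖ ≤
        (Real.sqrt R ^ (9 * r))⁻¹ * S.bz φ ψ Om (zpt ψ x) w *
          (k * (1 / R + ‖w‖ ^ 2) * (‖ζ (R⁻¹ • zpt ψ x)‖ + ‖fderiv ℝ ζ (R⁻¹ • zpt ψ x)‖) * ‖Φ (spt ψ x)‖ +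
            (‖ζ (R⁻¹ • zpt ψ x)‖ + ‖fderiv ℝ ζ (R⁻¹ • zpt ψ x)‖) * ∑ i, ∑ b, ‖pd i b Φ (spt ψ x)‖) := by
  have hζU : tsupport ζ ⊆ U := by
    intro y hy
    have := trf_inU S φ ψ U Om y₀ ε0 C0 hB ε hε hε0 1 le_rfl y (by simpa using hζs hy)
    exact this
  obtain ⟨k0, hk0, hk⟩ := V_bd hV (tsupp_compact hζs) hζU
  refine ⟨8 * r * (C0 + k0 + 1), by positivity, fun R hR Φ hΦ x hx w => ?_⟩
  have hR0 : 0 < R := by linarith
  have hyU : zpt ψ x ∈ U := trf_inU S φ ψ U Om y₀ ε0 C0 hB ε hε hε0 R hR _ (hζs hx)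
  have hy : ‖zpt ψ x - R • y₀‖ ≤ ε0 * R := by
    have h4 := hζs hx
    rw [Metric.mem_ball, dist_eq_norm] at h4
    have h8 : zpt ψ x - R • y₀ = R • (R⁻¹ • zpt ψ x - y₀) := by
      rw [smul_sub, smul_smul, mul_inv_cancel₀ hR0.ne', one_smul]
    rw [h8, norm_smul, Real.norm_of_nonneg hR0.le, mul_comm]
    exact mul_le_mul_of_nonneg_right (by linarith) hR0.le
  have hbp := hB.pos _ hyU w
  obtain ⟨y, hyd⟩ : ∃ y, y = zpt ψ x := ⟨_, rfl⟩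
  obtain ⟨s, hsd⟩ : ∃ s, s = spt ψ x := ⟨_, rfl⟩
  obtain ⟨α, hα⟩ : ∃ α, α = (Real.sqrt R ^ (9 * r))⁻¹ := ⟨_, rfl⟩
  have hα0 : 0 ≤ α := by rw [hα]; positivity
  obtain ⟨χ, hχ⟩ : ∃ χ, χ = c (‖w‖ ^ 2 / (ε * R) ^ 2) := ⟨_, rfl⟩
  have hχ0 : 0 ≤ χ := by rw [hχ]; exact (hc.bd _).1
  have hχ1 : χ ≤ 1 := by rw [hχ]; exact (hc.bd _).2
  obtain ⟨b, hb⟩ : ∃ b, b = S.bz φ ψ Om y w := ⟨_, rfl⟩
  have hfd := fun e => TR_fderiv hV hB hε hε0 hζ hζs hΦ hR c x w e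
  rw [← hyd] at hyU hy hbp hfd hx
  rw [← hyd, ← hsd, ← hα]
  simp only [← hα, ← hχ, ← hsd] at hfd
  have hn : ∀ v, ‖V y v‖ = ‖v‖ := hV.v_n y hyU
  obtain ⟨z, hz⟩ : ∃ z, z = ‖ζ (R⁻¹ • y)‖ := ⟨_, rfl⟩
  obtain ⟨z', hz'⟩ : ∃ z', z' = ‖fderiv ℝ ζ (R⁻¹ • y)‖ := ⟨_, rfl⟩
  obtain ⟨f, hf⟩ : ∃ f, f = ‖Φ s‖ := ⟨_, rfl⟩
  have hz0 : 0 ≤ z := by rw [hz]; exact norm_nonneg _
  have hz0' : 0 ≤ z' := by rw [hz']; exact norm_nonneg _
  have hf0 : 0 ≤ f := by rw [hf]; exact norm_nonneg _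
  have hnz : ‖ζ (R⁻¹ • y) • Φ s‖ = z * f := by rw [norm_smul, hz, hf]
  rw [← hb, ← hz, ← hz', ← hf]
  rw [← hb] at hbp
  have hRi : 0 < 1 / R := by positivity
  -- centre directions
  have hl : ∀ (i : Fin 9) (a : Fin r), ‖py i (ψ (Sum.inl a)) (S.TR φ ψ Om V c ε R (pp ζ Φ)) x w‖ ≤
      α * b * ((C0 + k0 + 1) * (1 / R + ‖w‖ ^ 2) * (z + z') * f) := by
    intro i a
    have h1 : py i (ψ (Sum.inl a)) (S.TR φ ψ Om V c ε R (pp ζ Φ)) x w = _ :=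
      hfd (EuclideanSpace.single (i, ψ (Sum.inl a)) 1)
    rw [h1, zpt_single_inl, spt_single_inl, map_zero, smul_zero, map_zero, add_zero]
    have g1 : ‖((α * χ * fderiv ℝ (fun y' => S.bz φ ψ Om y' w) y (EuclideanSpace.single (i, a) 1) : ℝ) : ℂ) •
        V y (ζ (R⁻¹ • y) • Φ s)‖ ≤ α * 1 * (C0 * (1 / R + ‖w‖ ^ 2) * b) * (z * f) := by
      rw [norm_smul, Complex.norm_real, Real.norm_eq_abs, abs_mul, abs_mul, abs_of_nonneg hα0, abs_of_nonneg hχ0, hn, hnz]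
      have := hB.dy R hR0 y hy w i a
      rw [← hb] at this
      gcongr
    have g2 : ‖(fderiv ℝ V y (EuclideanSpace.single (i, a) 1)) (ζ (R⁻¹ • y) • Φ s)‖ ≤ k0 / R * 1 * (z * f) := by
      have := hk R hR0 y hx (EuclideanSpace.single (i, a) 1) (ζ (R⁻¹ • y) • Φ s)
      rwa [hnz, PiLp.norm_single, norm_one] at this
    have g3 : ‖V y (((R⁻¹ : ℝ) : ℂ) • fderiv ℝ ζ (R⁻¹ • y) (EuclideanSpace.single (i, a) 1) • Φ s)‖ ≤
        1 / R * (z' * f) := by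
      rw [hn, norm_smul, norm_smul, Complex.norm_real, Real.norm_eq_abs, abs_of_pos (by positivity : 0 < R⁻¹), ← hf,
        one_div]
      refine mul_le_mul_of_nonneg_left (mul_le_mul_of_nonneg_right ?_ hf0) (by positivity)
      have := ContinuousLinearMap.le_opNorm (fderiv ℝ ζ (R⁻¹ • y)) (EuclideanSpace.single (i, a) 1)
      rwa [PiLp.norm_single, norm_one, mul_one, ← hz'] at this
    have g4 : ‖((α * χ * S.bz φ ψ Om y w : ℝ) : ℂ) • ((fderiv ℝ V y (EuclideanSpace.single (i, a) 1)) (ζ (R⁻¹ • y) • Φ s) +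
        V y (((R⁻¹ : ℝ) : ℂ) • fderiv ℝ ζ (R⁻¹ • y) (EuclideanSpace.single (i, a) 1) • Φ s))‖ ≤
        α * 1 * b * (k0 / R * 1 * (z * f) + 1 / R * (z' * f)) := by
      rw [norm_smul, Complex.norm_real, Real.norm_eq_abs, abs_mul, abs_mul, abs_of_nonneg hα0, abs_of_nonneg hχ0, ← hb,
        abs_of_pos hbp]
      have := (norm_add_le _ _).trans (add_le_add g2 g3)
      gcongr
    refine (norm_add_le _ _).trans ((add_le_add g1 g4).trans ?_)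
    have e1 : k0 / R = k0 * (1 / R) := by ring
    rw [e1]
    have e2 : 0 ≤ ‖w‖ ^ 2 := by positivity
    have e3 : C0 * (1 / R + ‖w‖ ^ 2) * (z * f) + (k0 * (1 / R) * 1 * (z * f) + 1 / R * (z' * f)) ≤
        (C0 + k0 + 1) * (1 / R + ‖w‖ ^ 2) * (z + z') * f := by
      have p1 : 0 ≤ k0 * ‖w‖ ^ 2 * (z * f) := by positivity
      have p2 : 0 ≤ (C0 + k0) * (1 / R + ‖w‖ ^ 2) * (z' * f) := by positivity
      have p3 : 0 ≤ ‖w‖ ^ 2 * (z' * f) := by positivity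
      have p4 : 0 ≤ (1 / R + ‖w‖ ^ 2) * (z * f) := by positivity
      have : (C0 + k0 + 1) * (1 / R + ‖w‖ ^ 2) * (z + z') * f =
          C0 * (1 / R + ‖w‖ ^ 2) * (z * f) + (k0 * (1 / R) * 1 * (z * f) + 1 / R * (z' * f)) +
          k0 * ‖w‖ ^ 2 * (z * f) + (C0 + k0) * (1 / R + ‖w‖ ^ 2) * (z' * f) + ‖w‖ ^ 2 * (z' * f) +
          (1 / R + ‖w‖ ^ 2) * (z * f) := by ring
      rw [this]
      linarith
    calc α * 1 * (C0 * (1 / R + ‖w‖ ^ 2) * b) * (z * f) + α * 1 * b * (k0 * (1 / R) * 1 * (z * f) + 1 / R * (z' * f))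
        = α * b * (C0 * (1 / R + ‖w‖ ^ 2) * (z * f) + (k0 * (1 / R) * 1 * (z * f) + 1 / R * (z' * f))) := by ring
      _ ≤ _ := mul_le_mul_of_nonneg_left e3 (by positivity)
  -- internal directions
  have hr : ∀ (i : Fin 9) (a : Fin ds), ‖py i (ψ (Sum.inr a)) (S.TR φ ψ Om V c ε R (pp ζ Φ)) x w‖ ≤
      α * b * ((z + z') * ‖pd i a Φ s‖) := by
    intro i a
    have h1 : py i (ψ (Sum.inr a)) (S.TR φ ψ Om V c ε R (pp ζ Φ)) x w = _ :=
      hfd (EuclideanSpace.single (i, ψ (Sum.inr a)) 1)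
    rw [h1, zpt_single_inr, spt_single_inr, map_zero, map_zero, map_zero]
    simp only [mul_zero, Complex.ofReal_zero, zero_smul, smul_zero, zero_add, map_zero, _root_.zero_apply]
    rw [norm_smul, Complex.norm_real, Real.norm_eq_abs, abs_mul, abs_mul, abs_of_nonneg hα0, abs_of_nonneg hχ0, ← hb,
      abs_of_pos hbp, hn, norm_smul, ← hz]
    have : ‖(fderiv ℝ Φ s) (EuclideanSpace.single (i, a) 1)‖ = ‖pd i a Φ s‖ := rfl
    rw [this]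
    have e1 := norm_nonneg (pd i a Φ s)
    calc α * χ * b * (z * ‖pd i a Φ s‖) ≤ α * 1 * b * ((z + z') * ‖pd i a Φ s‖) := by
          gcongr
          linarith
      _ = _ := by ring
  have hs1 : ∑ j : Fin 8, ∑ A, ‖py j.castSucc A (S.TR φ ψ Om V c ε R (pp ζ Φ)) x w‖ =
      (∑ j : Fin 8, ∑ a : Fin r, ‖py j.castSucc (ψ (Sum.inl a)) (S.TR φ ψ Om V c ε R (pp ζ Φ)) x w‖) +
      ∑ j : Fin 8, ∑ a : Fin ds, ‖py j.castSucc (ψ (Sum.inr a)) (S.TR φ ψ Om V c ε R (pp ζ Φ)) x w‖ := by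
    rw [← Finset.sum_add_distrib]
    exact Finset.sum_congr rfl fun j _ => dr7_sumA ψ _
  rw [hs1, mul_add]
  refine add_le_add ?_ ?_
  · refine (Finset.sum_le_sum fun j _ => Finset.sum_le_sum fun a _ => hl j.castSucc a).trans (le_of_eq ?_)
    simp only [Finset.sum_const, Finset.card_univ, Fintype.card_fin, nsmul_eq_mul]
    push_cast
    ring
  · refine (Finset.sum_le_sum fun j _ => Finset.sum_le_sum fun a _ => hr j.castSucc a).trans ?_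
    rw [Finset.mul_sum, Finset.mul_sum, Fin.sum_univ_castSucc (n := 8)
      (f := fun i => α * b * ((z + z') * ∑ b, ‖pd i b Φ s‖))]
    have e1 : ∀ j : Fin 8, ∑ a : Fin ds, α * b * ((z + z') * ‖pd j.castSucc a Φ s‖) =
        α * b * ((z + z') * ∑ b, ‖pd j.castSucc b Φ s‖) := by
      intro j
      rw [← Finset.mul_sum, ← Finset.mul_sum]
    simp only [e1]
    have e2 : 0 ≤ α * b * ((z + z') * ∑ b, ‖pd (Fin.last 8) b Φ s‖) := by positivity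
    linarith

end Pt

lemma dr7_w1 {t : ℝ} (ht : 0 ≤ t) : (1 + t) ^ 2 ≤ 2 * (1 + t + t ^ 2 + t ^ 3) := by
  have h2 : 0 ≤ t ^ 2 := by positivity
  have h3 : 0 ≤ t ^ 3 := by positivity
  nlinarith

lemma dr7_w2 {t : ℝ} (ht : 0 ≤ t) : t * (1 + t) ^ 2 ≤ 2 * (1 + t + t ^ 2 + t ^ 3) := by
  have h2 : 0 ≤ t ^ 2 := by positivity
  have h3 : 0 ≤ t ^ 3 := by positivity
  nlinarith

/-- part with the coefficients at the centre point -/
noncomputable def dX2 (S : Setup d F) (φ : Spl dh dm d) (ψ : Spl r ds dh) (β : Fin 16) (T : Cfg dh → Wsp dm → F)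
    (x : Cfg dh) (w : Wsp dm) : F :=
  drL S φ β (S.Dz φ ψ (zpt ψ x) 8)⁻¹ (fun _ _ => 0) (fun j B => pw j B T x w) (T x w) w + drW S φ β w (T x w)

section Tst

variable (S : Setup d F) (φ : Spl dh dm d) (ψ : Spl r ds dh)

lemma dr7_pi : ContDiff ℝ ∞ (fun x : Cfg dh => cmb ψ (zpt ψ x) (0 : Cfg ds)) := by
  rw [contDiff_euclidean]
  rintro ⟨i, A⟩
  obtain ⟨q, rfl⟩ := ψ.surjective A
  rcases q with a | b
  · have h : (fun x : Cfg dh => cmb ψ (zpt ψ x) (0 : Cfg ds) (i, ψ (Sum.inl a))) = fun x => x (i, ψ (Sum.inl a)) := by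
      funext x
      simp [cmb, zpt]
    rw [h]
    exact Setup.contDiff_coord _
  · have h : (fun x : Cfg dh => cmb ψ (zpt ψ x) (0 : Cfg ds) (i, ψ (Sum.inr b))) = fun x => 0 := by
      funext x
      simp [cmb]
    rw [h]
    exact contDiff_const

/-- test function property of the two parts and supports -/
lemma dr7_tst (hA : AN.CalcA dh dm F) {y₀ : Cfg r} {ε0 C0 ε R : ℝ} (hC : S.CoefBd φ (cmb ψ y₀ 0) ε0 C0) (hR : 0 < R)
    (hε0 : ε ≤ ε0) {T : Cfg dh → Wsp dm → F} (hT : Tst2 T) (hs : Sup2 (cmb ψ y₀ 0) ε R T) (β : Fin 16) :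
    Tst2 (S.Qr φ β T) ∧ Tst2 (dX2 S φ ψ β T) ∧ Sup2 (cmb ψ y₀ 0) ε R (S.Qr φ β T) ∧
      Sup2 (cmb ψ y₀ 0) ε R (dX2 S φ ψ β T) := by
  have hs' : Sup2 (cmb ψ y₀ 0) ε0 R T := fun x w h => by
    obtain ⟨h1, h2⟩ := hs x w h
    have : ε * R ≤ ε0 * R := mul_le_mul_of_nonneg_right hε0 hR.le
    exact ⟨h1.trans this, h2.trans this⟩
  refine ⟨AN.Op687.t_Qr S φ hA hC hR T hT hs' β, ?_, ?_, ?_⟩
  · refine hA.add _ _ ?_ (t_drW S φ hA β hT)
    refine t_drL S φ hA β (g := fun x => (S.Dz φ ψ (zpt ψ x) 8)⁻¹) (K := {x : Cfg dh | ‖zpt ψ x - R • y₀‖ ≤ ε0 * R})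
      (U := {x : Cfg dh | (S.Dy φ 8 (cmb ψ (zpt ψ x) 0)).det ≠ 0}) (p := fun _ _ _ _ => 0)
      (q := fun j B => pw j B T) (u := T) ?_ ?_ ?_ ?_ (fun _ _ => hA.zero) (fun j B => hA.pw j B T hT) hT ?_
    · exact isClosed_le (((zpt_cont ψ).sub continuous_const).norm) continuous_const
    · have h : Continuous fun x : Cfg dh => (S.Dy φ 8 (cmb ψ (zpt ψ x) 0)).det :=
        (AN.Sy.contDiff_det (M := fun x : Cfg dh => S.Dy φ 8 (cmb ψ (zpt ψ x) 0))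
          (fun i j => (AN.Sy.contDiff_Dy S φ 8 i j).comp (dr7_pi ψ))).continuous
      exact isOpen_ne_fun h continuous_const
    · intro x hx
      exact hC.det R hR _ (by rw [dr7_cmb0]; exact hx)
    · intro B C
      exact AN.Sy.contDiffOn_inv (M := fun x : Cfg dh => S.Dy φ 8 (cmb ψ (zpt ψ x) 0))
        (fun i j => (AN.Sy.contDiff_Dy S φ 8 i j).comp (dr7_pi ψ)) B C
    · intro x w hx
      have hn : ¬ (‖x - R • cmb ψ y₀ 0‖ ≤ ε0 * R ∧ ‖w‖ ≤ ε0 * R) := by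
        rintro ⟨h, _⟩
        exact hx (zpt_ray_le ψ h)
      obtain ⟨h0, _, h2⟩ := AN.Op687.van hA hT hs' hn
      exact ⟨fun _ _ => rfl, h2, h0⟩
  · intro x w h
    by_contra hn
    obtain ⟨h0, h1, h2⟩ := AN.Op687.van hA hT hs hn
    apply h
    unfold Setup.Qr
    simp [h0, h1, h2]
  · intro x w h
    by_contra hn
    obtain ⟨h0, h1, h2⟩ := AN.Op687.van hA hT hs hn
    apply h
    unfold dX2 drL drI drW
    simp [h0, h2]

end Tst

section Bd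

variable {S : Setup d F} {φ : Spl dh dm d} {ψ : Spl r ds dh} {U : Set (Cfg r)}
  {Om : Cfg r → Matrix (Fin dm) (Fin dm) ℝ} {V : Cfg r → F →L[ℂ] F} {K : Submodule ℂ F}

lemma dr7_near {y₀ : Cfg r} {ε ε0 : ℝ} (hε : 0 < ε) (hε0 : ε ≤ ε0) {ζ : Cfg r → ℂ}
    (hζs : tsupport ζ ⊆ Metric.ball y₀ (ε / 2)) {R : ℝ} (hR : 0 < R) {y : Cfg r} (hy : R⁻¹ • y ∈ tsupport ζ) :
    ‖y - R • y₀‖ ≤ ε0 * R := by
  have h4 := hζs hy
  rw [Metric.mem_ball, dist_eq_norm] at h4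
  have h8 : y - R • y₀ = R • (R⁻¹ • y - y₀) := by
    rw [smul_sub, smul_smul, mul_inv_cancel₀ hR.ne', one_smul]
  rw [h8, norm_smul, Real.norm_of_nonneg hR.le, mul_comm]
  exact mul_le_mul_of_nonneg_right (by linarith) hR.le

/-- the weight factors -/
lemma dr7_wt {R n b : ℝ} (hR : 1 ≤ R) (hn : 0 ≤ n) :
    (1 / R + n ^ 2) ^ 2 * b ^ 2 ≤ 2 / R ^ 2 * ((1 + R * n ^ 2 + (R * n ^ 2) ^ 2 + (R * n ^ 2) ^ 3) * b ^ 2) ∧
    n ^ 2 * (1 / R + n ^ 2) ^ 2 * b ^ 2 ≤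
      1 / R * (2 * ((1 + R * n ^ 2 + (R * n ^ 2) ^ 2 + (R * n ^ 2) ^ 3) * b ^ 2)) ∧
    n ^ 2 * b ^ 2 ≤ 1 / R * ((1 + R * n ^ 2 + (R * n ^ 2) ^ 2 + (R * n ^ 2) ^ 3) * b ^ 2) ∧
    (1 + R * n ^ 2) ^ 2 * b ^ 2 ≤ 2 * ((1 + R * n ^ 2 + (R * n ^ 2) ^ 2 + (R * n ^ 2) ^ 3) * b ^ 2) := by
  have hR0 : 0 < R := by linarith
  obtain ⟨t, ht⟩ : ∃ t, t = R * n ^ 2 := ⟨_, rfl⟩
  have ht0 : 0 ≤ t := by rw [ht]; positivity
  have hn2 : n ^ 2 = 1 / R * t := by rw [ht]; field_simp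
  have w1 := dr7_w1 ht0
  have w2 := dr7_w2 ht0
  have hb : 0 ≤ b ^ 2 := sq_nonneg b
  rw [← ht, hn2]
  refine ⟨?_, ?_, ?_, ?_⟩
  · have e : (1 / R + 1 / R * t) ^ 2 * b ^ 2 = 1 / R ^ 2 * ((1 + t) ^ 2 * b ^ 2) := by
      field_simp
    rw [e]
    calc 1 / R ^ 2 * ((1 + t) ^ 2 * b ^ 2) ≤ 1 / R ^ 2 * ((2 * (1 + t + t ^ 2 + t ^ 3)) * b ^ 2) := by gcongr
      _ = _ := by ring
  · have e : 1 / R * t * (1 / R + 1 / R * t) ^ 2 * b ^ 2 = 1 / R * (1 / R ^ 2 * (t * (1 + t) ^ 2 * b ^ 2)) := by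
      field_simp
    rw [e]
    have h1 : 1 / R ^ 2 ≤ 1 := by
      rw [div_le_one (by positivity)]
      nlinarith
    calc 1 / R * (1 / R ^ 2 * (t * (1 + t) ^ 2 * b ^ 2)) ≤ 1 / R * (1 * ((2 * (1 + t + t ^ 2 + t ^ 3)) * b ^ 2)) := by
          gcongr
      _ = _ := by ring
  · have e : 1 / R * t * b ^ 2 = 1 / R * (t * b ^ 2) := by ring
    rw [e]
    have h2 : 0 ≤ t ^ 2 := by positivity
    have h3 : 0 ≤ t ^ 3 := by positivity
    gcongr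
    linarith
  · calc (1 + t) ^ 2 * b ^ 2 ≤ (2 * (1 + t + t ^ 2 + t ^ 3)) * b ^ 2 := by gcongr
      _ = _ := by ring

/-- pointwise bound of the excited part -/
lemma dr7_b2 (hV : S.VFr φ ψ U Om V K) {y₀ : Cfg r} {ε0 C0 : ℝ} (hC0 : 0 < C0) (hB : BzFacts S φ ψ U Om y₀ ε0 C0)
    (hC : S.CoefBd φ (cmb ψ y₀ 0) ε0 C0) {ε : ℝ} (hε : 0 < ε) (hε0 : ε ≤ ε0) {ζ : Cfg r → ℂ}
    (hζs : tsupport ζ ⊆ Metric.ball y₀ (ε / 2)) {c : ℝ → ℝ} (hc : IsCt c) :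
    ∃ D : ℝ, 0 ≤ D ∧ ∀ R : ℝ, 1 ≤ R → ∀ (Φ : Cfg ds → F) (β : Fin 16) (x : Cfg dh) (w : Wsp dm),
      ‖dX2 S φ ψ β (S.TR φ ψ Om V c ε R (pp ζ Φ)) x w‖ ^ 2 ≤
        ((Real.sqrt R ^ (9 * r))⁻¹) ^ 2 * (‖ζ (R⁻¹ • zpt ψ x)‖ ^ 2 * ‖Φ (spt ψ x)‖ ^ 2) *
          (D / R ^ 2 * gw S φ ψ Om R (zpt ψ x) w) := by
  obtain ⟨k, hk0, hk⟩ := drX_norm S φ
  obtain ⟨M, hM0, hM⟩ := dr7_ct hc
  obtain ⟨C2, hC2⟩ : ∃ C2, C2 = 2 * M / ε ^ 2 + C0 := ⟨_, rfl⟩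
  have hC20 : 0 ≤ C2 := by rw [hC2]; positivity
  have hC02 : C0 ≤ C2 := by rw [hC2]; have : 0 ≤ 2 * M / ε ^ 2 := by positivity
                            linarith
  refine ⟨2 * (k * (1 + C2) ^ 2) ^ 2, by positivity, fun R hR Φ β x w => ?_⟩
  have hR0 : 0 < R := by linarith
  have hα0 : 0 ≤ (Real.sqrt R ^ (9 * r))⁻¹ := by positivity
  unfold dX2
  rw [dr7_X2 hV hB hε hε0 hζs hR hc]
  by_cases hx : R⁻¹ • zpt ψ x ∈ tsupport ζ
  · have hy := dr7_near hε hε0 hζs hR0 hx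
    have hyU := hB.inU R hR0 _ hy
    have hbp := hB.pos _ hyU w
    have hG : ∀ B C, |(S.Dz φ ψ (zpt ψ x) 8)⁻¹ B C| ≤ C2 / R := fun B C =>
      (hC.inv R hR0 (cmb ψ (zpt ψ x) 0) (by rw [dr7_cmb0]; exact hy) B C).trans (by gcongr)
    have h1 := hk β (S.Dz φ ψ (zpt ψ x) 8)⁻¹ C2 R
      (fun w => c (‖w‖ ^ 2 / (ε * R) ^ 2) * S.bz φ ψ Om (zpt ψ x) w)
      (V (zpt ψ x) (ζ (R⁻¹ • zpt ψ x) • Φ (spt ψ x))) (S.bz φ ψ Om (zpt ψ x) w) w hC20 hR0 hG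
      (fun j B => by rw [hC2]; exact dr7_chib hB hε hc hM0 hM hR hy w j B)
      (by
        rw [abs_mul, abs_of_pos hbp, abs_of_nonneg (hc.bd _).1]
        exact mul_le_of_le_one_left hbp.le (hc.bd _).2)
    rw [hV.v_n _ hyU, norm_smul] at h1
    rw [norm_smul, Complex.norm_real, Real.norm_of_nonneg hα0, mul_pow]
    have h2 := pow_le_pow_left₀ (norm_nonneg _) h1 2
    have h3 := (dr7_wt (b := S.bz φ ψ Om (zpt ψ x) w) hR (norm_nonneg w)).1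
    rw [gw_eq]
    calc ((Real.sqrt R ^ (9 * r))⁻¹) ^ 2 * ‖drX S φ β (S.Dz φ ψ (zpt ψ x) 8)⁻¹
          (fun w => c (‖w‖ ^ 2 / (ε * R) ^ 2) * S.bz φ ψ Om (zpt ψ x) w)
          (V (zpt ψ x) (ζ (R⁻¹ • zpt ψ x) • Φ (spt ψ x))) w‖ ^ 2
        ≤ ((Real.sqrt R ^ (9 * r))⁻¹) ^ 2 * (k * (1 + C2) ^ 2 * (1 / R + ‖w‖ ^ 2) * S.bz φ ψ Om (zpt ψ x) w *
            (‖ζ (R⁻¹ • zpt ψ x)‖ * ‖Φ (spt ψ x)‖)) ^ 2 := mul_le_mul_of_nonneg_left h2 (by positivity)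
      _ = ((Real.sqrt R ^ (9 * r))⁻¹) ^ 2 * (‖ζ (R⁻¹ • zpt ψ x)‖ ^ 2 * ‖Φ (spt ψ x)‖ ^ 2) *
            ((k * (1 + C2) ^ 2) ^ 2 * ((1 / R + ‖w‖ ^ 2) ^ 2 * S.bz φ ψ Om (zpt ψ x) w ^ 2)) := by ring
      _ ≤ ((Real.sqrt R ^ (9 * r))⁻¹) ^ 2 * (‖ζ (R⁻¹ • zpt ψ x)‖ ^ 2 * ‖Φ (spt ψ x)‖ ^ 2) *
            ((k * (1 + C2) ^ 2) ^ 2 * (2 / R ^ 2 * ((1 + R * ‖w‖ ^ 2 + (R * ‖w‖ ^ 2) ^ 2 + (R * ‖w‖ ^ 2) ^ 3) *
              S.bz φ ψ Om (zpt ψ x) w ^ 2))) := by gcongr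
      _ = _ := by ring
  · have h0 : ζ (R⁻¹ • zpt ψ x) = 0 := image_eq_zero_of_notMem_tsupport hx
    have h1 := drX_smul S φ β (S.Dz φ ψ (zpt ψ x) 8)⁻¹
      (fun w => c (‖w‖ ^ 2 / (ε * R) ^ 2) * S.bz φ ψ Om (zpt ψ x) w) 0 (0 : F) w
    rw [smul_zero, zero_smul] at h1
    rw [h0, zero_smul, map_zero, h1]
    simp

/-- the trial function and its derivatives vanish off the support of `ζ`, `Φ` -/
lemma dr7_T0 (hV : S.VFr φ ψ U Om V K) {y₀ : Cfg r} {ε0 C0 : ℝ} (hB : BzFacts S φ ψ U Om y₀ ε0 C0) {ε : ℝ}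
    (hε : 0 < ε) (hε0 : ε ≤ ε0) {ζ : Cfg r → ℂ} (hζ : ContDiff ℝ ∞ ζ) (hζs : tsupport ζ ⊆ Metric.ball y₀ (ε / 2))
    {Φ : Cfg ds → F} (hΦ : ContDiff ℝ ∞ Φ) {R : ℝ} (hR : 1 ≤ R) {c : ℝ → ℝ} (hc : IsCt c) (x : Cfg dh) (w : Wsp dm)
    (h : (ζ (R⁻¹ • zpt ψ x) = 0 ∧ fderiv ℝ ζ (R⁻¹ • zpt ψ x) = 0) ∨ (Φ (spt ψ x) = 0 ∧ fderiv ℝ Φ (spt ψ x) = 0)) :
    S.TR φ ψ Om V c ε R (pp ζ Φ) x w = 0 ∧ (∀ i A, py i A (S.TR φ ψ Om V c ε R (pp ζ Φ)) x w = 0) ∧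
      ∀ j B, pw j B (S.TR φ ψ Om V c ε R (pp ζ Φ)) x w = 0 := by
  have h1 : ζ (R⁻¹ • zpt ψ x) • Φ (spt ψ x) = 0 := by
    rcases h with h | h
    · rw [h.1, zero_smul]
    · rw [h.1, smul_zero]
  refine ⟨?_, fun i A => ?_, fun j B => ?_⟩
  · unfold Setup.TR pp
    rw [h1, map_zero, smul_zero]
  · have h2 : py i A (S.TR φ ψ Om V c ε R (pp ζ Φ)) x w = _ :=
      TR_fderiv hV hB hε hε0 hζ hζs hΦ hR c x w (EuclideanSpace.single (i, A) 1)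
    rw [h2, h1]
    rcases h with h | h
    · rw [h.1, h.2]
      simp
    · rw [h.1, h.2]
      simp
  · have h2 : pw j B (S.TR φ ψ Om V c ε R (pp ζ Φ)) x w = _ :=
      TR_fderiv_w hV hB hε hε0 hζs hR hc x w (EuclideanSpace.single (j, B) 1) (Φ := Φ)
    rw [h2, h1, map_zero, smul_zero]

lemma dr7_near2 {y₀ : Cfg r} {ε ε0 : ℝ} (hε : 0 < ε) (hε0 : ε ≤ ε0) {ζ : Cfg r → ℂ}
    (hζs : tsupport ζ ⊆ Metric.ball y₀ (ε / 2)) {R η : ℝ} (hR : 0 < R) (hη : η ≤ ε / 2) {x : Cfg dh}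
    (hy : R⁻¹ • zpt ψ x ∈ tsupport ζ) (hs : ‖spt ψ x‖ ≤ η * R) : ‖x - R • cmb ψ y₀ 0‖ ≤ ε0 * R := by
  have h1 : ‖zpt ψ x - R • y₀‖ ≤ ε / 2 * R := by
    have h4 := hζs hy
    rw [Metric.mem_ball, dist_eq_norm] at h4
    have h8 : zpt ψ x - R • y₀ = R • (R⁻¹ • zpt ψ x - y₀) := by
      rw [smul_sub, smul_smul, mul_inv_cancel₀ hR.ne', one_smul]
    rw [h8, norm_smul, Real.norm_of_nonneg hR.le, mul_comm]
    exact mul_le_mul_of_nonneg_right h4.le hR.le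
  have h2 : ‖spt ψ x‖ ≤ ε / 2 * R := hs.trans (mul_le_mul_of_nonneg_right hη hR.le)
  have h3 := norm_sub_ray ψ x y₀ R
  have h5 : ‖zpt ψ x - R • y₀‖ ^ 2 ≤ (ε / 2 * R) ^ 2 := pow_le_pow_left₀ (norm_nonneg _) h1 2
  have h6 : ‖spt ψ x‖ ^ 2 ≤ (ε / 2 * R) ^ 2 := pow_le_pow_left₀ (norm_nonneg _) h2 2
  have h7 : ε * R ≤ ε0 * R := mul_le_mul_of_nonneg_right hε0 hR.le
  refine le_trans (le_of_sq_le_sq ?_ (by positivity : 0 ≤ ε * R)) h7
  nlinarith [sq_nonneg (ε * R)]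

lemma dr7_sq3 (a b c : ℝ) : (a + b + c) ^ 2 ≤ 3 * (a ^ 2 + b ^ 2 + c ^ 2) := by
  nlinarith [sq_nonneg (a - b), sq_nonneg (b - c), sq_nonneg (a - c)]

lemma dr7_cs (g : Fin 9 → Fin ds → ℝ) : (∑ i, ∑ b, g i b) ^ 2 ≤ 9 * ds * ∑ i, ∑ b, g i b ^ 2 := by
  have h1 := sq_sum_le_card_mul_sum_sq (s := (Finset.univ : Finset (Fin 9))) (f := fun i => ∑ b, g i b)
  have h2 : ∀ i ∈ (Finset.univ : Finset (Fin 9)), (∑ b, g i b) ^ 2 ≤ ds * ∑ b, g i b ^ 2 := by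
    intro i _
    have := sq_sum_le_card_mul_sum_sq (s := (Finset.univ : Finset (Fin ds))) (f := fun b => g i b)
    simpa using this
  refine h1.trans ?_
  have h3 := Finset.sum_le_sum h2
  rw [← Finset.mul_sum] at h3
  simp only [Finset.card_univ, Fintype.card_fin]
  push_cast
  nlinarith

/-- the algebra at the end of `dr7_b1` -/
lemma dr7_alg {α A R η f n b P1 P2 E1 E2 E3 e : ℝ} (hR : 1 ≤ R) (hn : 0 ≤ n) (he : 0 ≤ e) (hP2 : 0 ≤ P2)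
    (hPP : P1 ^ 2 ≤ 9 * e * P2) :
    (α * A / R * (E1 * f * (n * (1 / R + n ^ 2) * b) + E2 * P1 * (n * b) + E3 * η * f * ((1 + R * n ^ 2) * b))) ^ 2 ≤
      α ^ 2 * (A ^ 2 * ((η ^ 2 + 1 / R) * f ^ 2 + 1 / R * P2)) *
        (3 * (2 * E1 ^ 2 + 9 * e * E2 ^ 2 + 2 * E3 ^ 2) / R ^ 2 *
          ((1 + R * n ^ 2 + (R * n ^ 2) ^ 2 + (R * n ^ 2) ^ 3) * b ^ 2)) := by
  have hR0 : 0 < R := by linarith
  obtain ⟨w1, w2, w3, w4⟩ := dr7_wt (b := b) hR hn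
  obtain ⟨g, hg⟩ : ∃ g, g = (1 + R * n ^ 2 + (R * n ^ 2) ^ 2 + (R * n ^ 2) ^ 3) * b ^ 2 := ⟨_, rfl⟩
  rw [← hg] at w1 w2 w3 w4 ⊢
  have hg0 : 0 ≤ g := by rw [hg]; positivity
  have h3 := dr7_sq3 (E1 * f * (n * (1 / R + n ^ 2) * b)) (E2 * P1 * (n * b)) (E3 * η * f * ((1 + R * n ^ 2) * b))
  have h4 : (E1 * f * (n * (1 / R + n ^ 2) * b)) ^ 2 ≤ E1 ^ 2 * f ^ 2 * (1 / R * (2 * g)) := by
    calc (E1 * f * (n * (1 / R + n ^ 2) * b)) ^ 2 = E1 ^ 2 * f ^ 2 * (n ^ 2 * (1 / R + n ^ 2) ^ 2 * b ^ 2) := by ring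
      _ ≤ _ := mul_le_mul_of_nonneg_left w2 (by positivity)
  have h5 : (E2 * P1 * (n * b)) ^ 2 ≤ E2 ^ 2 * (9 * e * P2) * (1 / R * g) := by
    calc (E2 * P1 * (n * b)) ^ 2 = E2 ^ 2 * P1 ^ 2 * (n ^ 2 * b ^ 2) := by ring
      _ ≤ _ := mul_le_mul (mul_le_mul_of_nonneg_left hPP (by positivity)) w3 (by positivity) (by positivity)
  have h6 : (E3 * η * f * ((1 + R * n ^ 2) * b)) ^ 2 ≤ E3 ^ 2 * η ^ 2 * f ^ 2 * (2 * g) := by
    calc (E3 * η * f * ((1 + R * n ^ 2) * b)) ^ 2 = E3 ^ 2 * η ^ 2 * f ^ 2 * ((1 + R * n ^ 2) ^ 2 * b ^ 2) := by ring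
      _ ≤ _ := mul_le_mul_of_nonneg_left w4 (by positivity)
  have h7 : 3 * ((E1 * f * (n * (1 / R + n ^ 2) * b)) ^ 2 + (E2 * P1 * (n * b)) ^ 2 +
      (E3 * η * f * ((1 + R * n ^ 2) * b)) ^ 2) ≤
      ((η ^ 2 + 1 / R) * f ^ 2 + 1 / R * P2) * (3 * (2 * E1 ^ 2 + 9 * e * E2 ^ 2 + 2 * E3 ^ 2) * g) := by
    have q1 : 0 ≤ 1 / R := by positivity
    have q2 : 0 ≤ (9 * e * E2 ^ 2 + 2 * E3 ^ 2) * (1 / R * f ^ 2 * g) := by positivity
    have q3 : 0 ≤ (2 * E1 ^ 2 + 9 * e * E2 ^ 2) * (η ^ 2 * f ^ 2 * g) := by positivity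
    have q4 : 0 ≤ (2 * E1 ^ 2 + 2 * E3 ^ 2) * (1 / R * P2 * g) := by positivity
    have e : ((η ^ 2 + 1 / R) * f ^ 2 + 1 / R * P2) * (3 * (2 * E1 ^ 2 + 9 * e * E2 ^ 2 + 2 * E3 ^ 2) * g) =
        3 * (E1 ^ 2 * f ^ 2 * (1 / R * (2 * g)) + E2 ^ 2 * (9 * e * P2) * (1 / R * g) +
          E3 ^ 2 * η ^ 2 * f ^ 2 * (2 * g)) +
        3 * ((9 * e * E2 ^ 2 + 2 * E3 ^ 2) * (1 / R * f ^ 2 * g)) +
        3 * ((2 * E1 ^ 2 + 9 * e * E2 ^ 2) * (η ^ 2 * f ^ 2 * g)) +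
        3 * ((2 * E1 ^ 2 + 2 * E3 ^ 2) * (1 / R * P2 * g)) := by ring
    rw [e]
    linarith
  have h8 := h3.trans h7
  calc (α * A / R * (E1 * f * (n * (1 / R + n ^ 2) * b) + E2 * P1 * (n * b) +
        E3 * η * f * ((1 + R * n ^ 2) * b))) ^ 2
      = (α * A / R) ^ 2 * (E1 * f * (n * (1 / R + n ^ 2) * b) + E2 * P1 * (n * b) +
        E3 * η * f * ((1 + R * n ^ 2) * b)) ^ 2 := mul_pow _ _ _
    _ ≤ (α * A / R) ^ 2 *
        (((η ^ 2 + 1 / R) * f ^ 2 + 1 / R * P2) * (3 * (2 * E1 ^ 2 + 9 * e * E2 ^ 2 + 2 * E3 ^ 2) * g)) :=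
        mul_le_mul_of_nonneg_left h8 (sq_nonneg _)
    _ = _ := by
        field_simp

/-- the algebra of the second term in `dr7_b1` -/
lemma dr7_alg2 {α z z' R η f n b kL kG C0 C2 e E3 : ℝ} (hR : 0 < R) (hα : 0 ≤ α) (hz : 0 ≤ z) (hz' : 0 ≤ z')
    (hη : 0 ≤ η) (hf : 0 ≤ f) (hb : 0 ≤ b) (hkL : 0 ≤ kL) (hkG : 0 ≤ kG) (hC2 : 0 ≤ C2) (he : 0 ≤ e)
    (hE3 : E3 = kL * (kG * C0 ^ 2) * (8 * e * C2 + 1)) :
    kL * (kG * C0 ^ 2 * (η / R)) * (n * (8 * e * (α * (C2 * R * n * b) * (z * f))) + α * b * (z * f)) ≤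
      α * (z + z') / R * (E3 * η * f * ((1 + R * n ^ 2) * b)) := by
  have e1 : kL * (kG * C0 ^ 2 * (η / R)) * (n * (8 * e * (α * (C2 * R * n * b) * (z * f))) + α * b * (z * f)) =
      α * z / R * (kL * (kG * C0 ^ 2) * (8 * e * C2 * (R * n ^ 2) + 1) * η * f * b) := by
    field_simp
  have e2 : 8 * e * C2 * (R * n ^ 2) + 1 ≤ (8 * e * C2 + 1) * (1 + R * n ^ 2) := by
    have : 0 ≤ 8 * e * C2 := by positivity
    have : 0 ≤ R * n ^ 2 := by positivity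
    nlinarith
  rw [e1, hE3]
  calc α * z / R * (kL * (kG * C0 ^ 2) * (8 * e * C2 * (R * n ^ 2) + 1) * η * f * b)
      ≤ α * (z + z') / R * (kL * (kG * C0 ^ 2) * ((8 * e * C2 + 1) * (1 + R * n ^ 2)) * η * f * b) := by
        gcongr
        linarith
    _ = _ := by ring

/-- pointwise bound of the small part -/
lemma dr7_b1 (hV : S.VFr φ ψ U Om V K) {y₀ : Cfg r} {ε0 C0 : ℝ} (hC0 : 0 < C0) (hB : BzFacts S φ ψ U Om y₀ ε0 C0)
    (hC : S.CoefBd φ (cmb ψ y₀ 0) ε0 C0) {ε : ℝ} (hε : 0 < ε) (hε0 : ε ≤ ε0) {ζ : Cfg r → ℂ} (hζ : ContDiff ℝ ∞ ζ)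
    (hζs : tsupport ζ ⊆ Metric.ball y₀ (ε / 2)) {c : ℝ → ℝ} (hc : IsCt c) :
    ∃ D : ℝ, 0 ≤ D ∧ ∀ R : ℝ, 1 ≤ R → ∀ η : ℝ, 0 ≤ η → η ≤ ε / 2 → ∀ (Φ : Cfg ds → F), IntF K η R Φ →
      ∀ (β : Fin 16) (x : Cfg dh) (w : Wsp dm),
      ‖S.Qr φ β (S.TR φ ψ Om V c ε R (pp ζ Φ)) x w - dX2 S φ ψ β (S.TR φ ψ Om V c ε R (pp ζ Φ)) x w‖ ^ 2 ≤
        ((Real.sqrt R ^ (9 * r))⁻¹) ^ 2 * ((‖ζ (R⁻¹ • zpt ψ x)‖ + ‖fderiv ℝ ζ (R⁻¹ • zpt ψ x)‖) ^ 2 *
          ((η ^ 2 + 1 / R) * ‖Φ (spt ψ x)‖ ^ 2 + 1 / R * ∑ i, ∑ a, ‖pd i a Φ (spt ψ x)‖ ^ 2)) *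
          (D / R ^ 2 * gw S φ ψ Om R (zpt ψ x) w) := by
  obtain ⟨kL, hkL0, hkL⟩ := drL_norm S φ
  obtain ⟨kG, hkG0, hkG⟩ := dr7_G S φ ψ
  obtain ⟨kp, hkp0, hkp⟩ := dr7_py hV hC0 hB hε hε0 hζ hζs hc (ds := ds)
  obtain ⟨M, hM0, hM⟩ := dr7_ct hc
  obtain ⟨C2, hC2⟩ : ∃ C2, C2 = 2 * M / ε ^ 2 + C0 := ⟨_, rfl⟩
  have hC20 : 0 ≤ C2 := by rw [hC2]; positivity
  obtain ⟨E1, hE1⟩ : ∃ E1, E1 = kL * C0 * kp := ⟨_, rfl⟩
  obtain ⟨E2, hE2⟩ : ∃ E2, E2 = kL * C0 := ⟨_, rfl⟩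
  obtain ⟨E3, hE3⟩ : ∃ E3, E3 = kL * (kG * C0 ^ 2) * (8 * dm * C2 + 1) := ⟨_, rfl⟩
  have hE10 : 0 ≤ E1 := by rw [hE1]; positivity
  have hE20 : 0 ≤ E2 := by rw [hE2]; positivity
  have hE30 : 0 ≤ E3 := by rw [hE3]; positivity
  refine ⟨3 * (2 * E1 ^ 2 + 9 * ds * E2 ^ 2 + 2 * E3 ^ 2), by positivity, fun R hR η hη hηε Φ hΦ β x w => ?_⟩
  have hR0 : 0 < R := by linarith
  have hΦs := hΦ.tst.1
  by_cases hx : R⁻¹ • zpt ψ x ∈ tsupport ζ
  swap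
  · have h0 : ζ (R⁻¹ • zpt ψ x) = 0 := image_eq_zero_of_notMem_tsupport hx
    have h1 : fderiv ℝ ζ (R⁻¹ • zpt ψ x) = 0 := fderiv_of_notMem_tsupport (𝕜 := ℝ) hx
    obtain ⟨t0, t1, t2⟩ := dr7_T0 hV hB hε hε0 hζ hζs hΦs hR hc x w (Or.inl ⟨h0, h1⟩)
    have e : S.Qr φ β (S.TR φ ψ Om V c ε R (pp ζ Φ)) x w - dX2 S φ ψ β (S.TR φ ψ Om V c ε R (pp ζ Φ)) x w = 0 := by
      unfold dX2 drL drI drW Setup.Qr
      simp [t0, t1, t2]
    rw [e, h0, h1]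
    simp
  by_cases hs : ‖spt ψ x‖ ≤ η * R
  swap
  · have h2 : Φ =ᶠ[𝓝 (spt ψ x)] fun _ => 0 := by
      have ho : IsOpen {s : Cfg ds | η * R < ‖s‖} := isOpen_lt continuous_const continuous_norm
      filter_upwards [ho.mem_nhds (not_le.1 hs)] with s hs'
      by_contra h3
      exact absurd (hΦ.sup s h3) (not_le.2 hs')
    have h0 : Φ (spt ψ x) = 0 := h2.self_of_nhds
    have h1 : fderiv ℝ Φ (spt ψ x) = 0 := by
      rw [h2.fderiv_eq]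
      simp
    obtain ⟨t0, t1, t2⟩ := dr7_T0 hV hB hε hε0 hζ hζs hΦs hR hc x w (Or.inr ⟨h0, h1⟩)
    have e : S.Qr φ β (S.TR φ ψ Om V c ε R (pp ζ Φ)) x w - dX2 S φ ψ β (S.TR φ ψ Om V c ε R (pp ζ Φ)) x w = 0 := by
      unfold dX2 drL drI drW Setup.Qr
      simp [t0, t1, t2]
    have e2 : ∀ i a, pd i a Φ (spt ψ x) = 0 := by
      intro i a
      unfold pd
      rw [h1]
      rfl
    rw [e, h0]
    simp [e2]
  -- main case
  have hy := dr7_near hε hε0 hζs hR0 hx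
  have hyU := hB.inU R hR0 _ hy
  have hxn := dr7_near2 (ψ := ψ) hε hε0 hζs hR0 hηε hx hs
  have hbp := hB.pos _ hyU w
  have hdet := hC.det R hR0 x hxn
  have hpy := hkp R hR Φ hΦs x hx w
  have hpw : ∀ j B, ‖pw j B (S.TR φ ψ Om V c ε R (pp ζ Φ)) x w‖ ≤ (Real.sqrt R ^ (9 * r))⁻¹ *
      (C2 * R * ‖w‖ * S.bz φ ψ Om (zpt ψ x) w) * (‖ζ (R⁻¹ • zpt ψ x)‖ * ‖Φ (spt ψ x)‖) := by
    intro j B
    have h2 : pw j B (S.TR φ ψ Om V c ε R (pp ζ Φ)) x w = _ :=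
      TR_fderiv_w hV hB hε hε0 hζs hR hc x w (EuclideanSpace.single (j, B) 1) (Φ := Φ)
    rw [h2, norm_smul, Complex.norm_real, Real.norm_eq_abs, abs_mul, hV.v_n _ hyU, norm_smul,
      abs_of_nonneg (by positivity : 0 ≤ (Real.sqrt R ^ (9 * r))⁻¹)]
    have := dr7_chib hB hε hc hM0 hM hR hy w j B
    rw [← hC2] at this
    gcongr
  have hTn : ‖S.TR φ ψ Om V c ε R (pp ζ Φ) x w‖ ≤ (Real.sqrt R ^ (9 * r))⁻¹ * S.bz φ ψ Om (zpt ψ x) w *
      (‖ζ (R⁻¹ • zpt ψ x)‖ * ‖Φ (spt ψ x)‖) := by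
    unfold Setup.TR pp
    rw [norm_smul, Complex.norm_real, Real.norm_eq_abs, abs_mul, abs_mul, hV.v_n _ hyU, norm_smul,
      abs_of_nonneg (by positivity : 0 ≤ (Real.sqrt R ^ (9 * r))⁻¹), abs_of_pos hbp, abs_of_nonneg (hc.bd _).1]
    have h1 := (hc.bd (‖w‖ ^ 2 / (ε * R) ^ 2)).2
    have h0 := (hc.bd (‖w‖ ^ 2 / (ε * R) ^ 2)).1
    calc (Real.sqrt R ^ (9 * r))⁻¹ * c (‖w‖ ^ 2 / (ε * R) ^ 2) * S.bz φ ψ Om (zpt ψ x) w *
          (‖ζ (R⁻¹ • zpt ψ x)‖ * ‖Φ (spt ψ x)‖)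
        ≤ (Real.sqrt R ^ (9 * r))⁻¹ * 1 * S.bz φ ψ Om (zpt ψ x) w * (‖ζ (R⁻¹ • zpt ψ x)‖ * ‖Φ (spt ψ x)‖) := by
          gcongr
      _ = _ := by ring
  have hsplit : S.Qr φ β (S.TR φ ψ Om V c ε R (pp ζ Φ)) x w - dX2 S φ ψ β (S.TR φ ψ Om V c ε R (pp ζ Φ)) x w =
      drL S φ β (S.Dy φ 8 x)⁻¹ (fun j A => py j.castSucc A (S.TR φ ψ Om V c ε R (pp ζ Φ)) x w) (fun _ _ => 0) 0 w +
      drL S φ β ((S.Dy φ 8 x)⁻¹ - (S.Dz φ ψ (zpt ψ x) 8)⁻¹) (fun _ _ => 0)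
        (fun j B => pw j B (S.TR φ ψ Om V c ε R (pp ζ Φ)) x w) (S.TR φ ψ Om V c ε R (pp ζ Φ) x w) w := by
    have e1 := drL_add S φ β (S.Dy φ 8 x)⁻¹ (fun j A => py j.castSucc A (S.TR φ ψ Om V c ε R (pp ζ Φ)) x w)
      (fun _ _ => 0) (fun _ _ => 0) (fun j B => pw j B (S.TR φ ψ Om V c ε R (pp ζ Φ)) x w) 0
      (S.TR φ ψ Om V c ε R (pp ζ Φ) x w) w
    simp only [add_zero, zero_add] at e1
    rw [dr7_Qr S φ β _ hdet, drL_sub, e1]
    unfold dX2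
    abel
  rw [hsplit]
  have hG1 : ∀ B C, |(S.Dy φ 8 x)⁻¹ B C| ≤ C0 / R := hC.inv R hR0 x hxn
  have hG2 : ∀ B C, |((S.Dy φ 8 x)⁻¹ - (S.Dz φ ψ (zpt ψ x) 8)⁻¹) B C| ≤ kG * C0 ^ 2 * (η / R) := by
    intro B C
    refine (hkG y₀ ε0 C0 hC0.le hC R hR0 x hxn B C).trans ?_
    refine mul_le_mul_of_nonneg_left ?_ (by positivity)
    rw [div_le_div_iff₀ (by positivity) hR0]
    nlinarith [mul_le_mul_of_nonneg_right hs hR0.le]
  have hA1 := hkL β (S.Dy φ 8 x)⁻¹ (C0 / R) (fun j A => py j.castSucc A (S.TR φ ψ Om V c ε R (pp ζ Φ)) x w)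
    (fun _ _ => 0) 0 w (by positivity) hG1
  have hA2 := hkL β ((S.Dy φ 8 x)⁻¹ - (S.Dz φ ψ (zpt ψ x) 8)⁻¹) (kG * C0 ^ 2 * (η / R)) (fun _ _ => 0)
    (fun j B => pw j B (S.TR φ ψ Om V c ε R (pp ζ Φ)) x w) (S.TR φ ψ Om V c ε R (pp ζ Φ) x w) w (by positivity) hG2
  simp only [norm_zero, Finset.sum_const_zero, add_zero, zero_add] at hA1 hA2
  obtain ⟨α, hα⟩ : ∃ α, α = (Real.sqrt R ^ (9 * r))⁻¹ := ⟨_, rfl⟩
  obtain ⟨b, hb⟩ : ∃ b, b = S.bz φ ψ Om (zpt ψ x) w := ⟨_, rfl⟩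
  obtain ⟨z, hz⟩ : ∃ z, z = ‖ζ (R⁻¹ • zpt ψ x)‖ := ⟨_, rfl⟩
  obtain ⟨z', hz'⟩ : ∃ z', z' = ‖fderiv ℝ ζ (R⁻¹ • zpt ψ x)‖ := ⟨_, rfl⟩
  obtain ⟨f, hf⟩ : ∃ f, f = ‖Φ (spt ψ x)‖ := ⟨_, rfl⟩
  obtain ⟨n, hn⟩ : ∃ n, n = ‖w‖ := ⟨_, rfl⟩
  obtain ⟨P1, hP1⟩ : ∃ P1, P1 = ∑ i, ∑ a, ‖pd i a Φ (spt ψ x)‖ := ⟨_, rfl⟩
  obtain ⟨P2, hP2⟩ : ∃ P2, P2 = ∑ i, ∑ a, ‖pd i a Φ (spt ψ x)‖ ^ 2 := ⟨_, rfl⟩
  have hα0 : 0 ≤ α := by rw [hα]; positivity
  have hz0 : 0 ≤ z := by rw [hz]; exact norm_nonneg _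
  have hz0' : 0 ≤ z' := by rw [hz']; exact norm_nonneg _
  have hf0 : 0 ≤ f := by rw [hf]; exact norm_nonneg _
  have hn0 : 0 ≤ n := by rw [hn]; exact norm_nonneg _
  have hP10 : 0 ≤ P1 := by rw [hP1]; positivity
  have hP20 : 0 ≤ P2 := by rw [hP2]; positivity
  have hPP : P1 ^ 2 ≤ 9 * ds * P2 := by rw [hP1, hP2]; exact dr7_cs _
  rw [gw_eq]
  rw [← hα, ← hb, ← hz, ← hz', ← hf, ← hn, ← hP1] at hpy
  simp only [← hα, ← hb, ← hz, ← hf, ← hn] at hpw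
  rw [← hα, ← hb, ← hz, ← hf] at hTn
  rw [← hn] at hA1 hA2
  rw [← hα, ← hb, ← hz, ← hz', ← hf, ← hn, ← hP2]
  rw [← hb] at hbp
  have hb0 := hbp.le
  -- the two terms
  have hpws : ∑ j, ∑ B, ‖pw j B (S.TR φ ψ Om V c ε R (pp ζ Φ)) x w‖ ≤ 8 * dm * (α * (C2 * R * n * b) * (z * f)) := by
    refine (Finset.sum_le_sum fun j _ => Finset.sum_le_sum fun B _ => hpw j B).trans (le_of_eq ?_)
    simp only [Finset.sum_const, Finset.card_univ, Fintype.card_fin, nsmul_eq_mul]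
    push_cast
    ring
  have hB1 := hA1.trans (mul_le_mul_of_nonneg_left (mul_le_mul_of_nonneg_left hpy hn0) (by positivity :
    0 ≤ kL * (C0 / R)))
  have hB2 := hA2.trans (mul_le_mul_of_nonneg_left (add_le_add (mul_le_mul_of_nonneg_left hpws hn0) hTn)
    (by positivity : 0 ≤ kL * (kG * C0 ^ 2 * (η / R))))
  have hB2' : kL * (kG * C0 ^ 2 * (η / R)) * (n * (8 * dm * (α * (C2 * R * n * b) * (z * f))) + α * b * (z * f)) ≤
      α * (z + z') / R * (E3 * η * f * ((1 + R * n ^ 2) * b)) :=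
    dr7_alg2 hR0 hα0 hz0 hz0' hη hf0 hb0 hkL0 hkG0 hC20 (Nat.cast_nonneg _) hE3
  have hB1' : kL * (C0 / R) * (n * (α * b * (kp * (1 / R + n ^ 2) * (z + z') * f + (z + z') * P1))) =
      α * (z + z') / R * (E1 * f * (n * (1 / R + n ^ 2) * b) + E2 * P1 * (n * b)) := by
    rw [hE1, hE2]
    ring
  rw [hB1'] at hB1
  have hsum := (norm_add_le _ _).trans (add_le_add hB1 (hB2.trans hB2'))
  rw [← mul_add] at hsum
  have hsq := pow_le_pow_left₀ (norm_nonneg _) hsum 2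
  exact hsq.trans (dr7_alg hR hn0 (Nat.cast_nonneg _) hP20 hPP)

end Bd

/-- vacuum part of the excited part -/
lemma dr7_vc [FiniteDimensional ℂ F] {S : Setup d F} {φ : Spl dh dm d} {ψ : Spl r ds dh} {U : Set (Cfg r)}
    {Om : Cfg r → Matrix (Fin dm) (Fin dm) ℝ} {V : Cfg r → F →L[ℂ] F} {K : Submodule ℂ F}
    (hV : S.VFr φ ψ U Om V K) {y₀ : Cfg r} {ε0 C0 : ℝ} (hB : BzFacts S φ ψ U Om y₀ ε0 C0)
    {c : ℝ → ℝ} (hc : IsCt c) {ε : ℝ} (hε : 0 < ε) (hε0 : ε ≤ ε0) {ζ : Cfg r → ℂ}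
    (hζs : tsupport ζ ⊆ Metric.ball y₀ (ε / 2)) {L R : ℝ} (hR : 1 ≤ R) (β : Fin 16)
    (hL : ∀ y : Cfg r, ‖y - R • y₀‖ ≤ ε0 * R → ∀ v ∈ S.F0 φ (S.Dz φ ψ y) (Om y),
      ‖(S.F0 φ (S.Dz φ ψ y) (Om y)).starProjection (∫ w, ((S.bz φ ψ Om y w : ℝ) : ℂ) •
        drX S φ β (S.Dz φ ψ y 8)⁻¹ (fun w => c (‖w‖ ^ 2 / (ε * R) ^ 2) * S.bz φ ψ Om y w) v w)‖ ≤
          L * (1 / R) ^ 8 * ‖v‖) {η : ℝ} {Φ : Cfg ds → F} (hΦ : IntF K η R Φ) (x : Cfg dh) :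
    ‖vc S φ ψ Om (dX2 S φ ψ β (S.TR φ ψ Om V c ε R (pp ζ Φ))) x‖ ^ 2 ≤
      L ^ 2 * (1 / R) ^ 16 * (((Real.sqrt R ^ (9 * r))⁻¹) ^ 2 * (‖ζ (R⁻¹ • zpt ψ x)‖ ^ 2 * ‖Φ (spt ψ x)‖ ^ 2)) := by
  have hR0 : 0 < R := by linarith
  have h1 : vc S φ ψ Om (dX2 S φ ψ β (S.TR φ ψ Om V c ε R (pp ζ Φ))) x = (((Real.sqrt R ^ (9 * r))⁻¹ : ℝ) : ℂ) •
      (S.F0 φ (S.Dz φ ψ (zpt ψ x)) (Om (zpt ψ x))).starProjection (∫ w, ((S.bz φ ψ Om (zpt ψ x) w : ℝ) : ℂ) •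
        drX S φ β (S.Dz φ ψ (zpt ψ x) 8)⁻¹ (fun w => c (‖w‖ ^ 2 / (ε * R) ^ 2) * S.bz φ ψ Om (zpt ψ x) w)
          (V (zpt ψ x) (ζ (R⁻¹ • zpt ψ x) • Φ (spt ψ x))) w) := by
    unfold vc dX2
    rw [← map_smul, ← integral_smul]
    congr 1
    refine integral_congr_ae (Eventually.of_forall fun w => ?_)
    simp only
    rw [dr7_X2 hV hB hε hε0 hζs hR hc, smul_comm]
  rw [h1, norm_smul, Complex.norm_real, Real.norm_of_nonneg (by positivity : 0 ≤ (Real.sqrt R ^ (9 * r))⁻¹), mul_pow]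
  by_cases hx : R⁻¹ • zpt ψ x ∈ tsupport ζ
  · have hy := dr7_near hε hε0 hζs hR0 hx
    have hyU := hB.inU R hR0 _ hy
    have hm : V (zpt ψ x) (ζ (R⁻¹ • zpt ψ x) • Φ (spt ψ x)) ∈ S.F0 φ (S.Dz φ ψ (zpt ψ x)) (Om (zpt ψ x)) :=
      (hV.v_m _ hyU _).1 (K.smul_mem _ (hΦ.val _))
    have h2 := pow_le_pow_left₀ (norm_nonneg _) (hL _ hy _ hm) 2
    rw [hV.v_n _ hyU, norm_smul] at h2
    refine (mul_le_mul_of_nonneg_left h2 (sq_nonneg _)).trans (le_of_eq ?_)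
    ring
  · have h0 : ζ (R⁻¹ • zpt ψ x) = 0 := image_eq_zero_of_notMem_tsupport hx
    have h2 : ∀ w, drX S φ β (S.Dz φ ψ (zpt ψ x) 8)⁻¹
        (fun w => c (‖w‖ ^ 2 / (ε * R) ^ 2) * S.bz φ ψ Om (zpt ψ x) w) (0 : F) w = 0 := by
      intro w
      have := drX_smul S φ β (S.Dz φ ψ (zpt ψ x) 8)⁻¹
        (fun w => c (‖w‖ ^ 2 / (ε * R) ^ 2) * S.bz φ ψ Om (zpt ψ x) w) 0 (0 : F) w
      rwa [smul_zero, zero_smul] at this
    rw [h0, zero_smul, map_zero]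
    simp [h2]

/-- **E-DecR** the remainder applied to the trial function -/
theorem decR (S : Setup d F) (φ : Spl dh dm d) (ψ : Spl r ds dh) (hQ : QrVacStmt S φ ψ) : DecRStmt S φ ψ := by
  intro hF hφ hcen U Om V K hV y₀ ε0 C0 hy₀ hε0p hC0 hB hC c hc ε hε hε0 ζ hζ hζs
  have hA := AN.calcA dh dm F
  obtain ⟨D1, hD1, hb1⟩ := dr7_b1 hV hC0 hB hC hε hε0 hζ hζs hc
  obtain ⟨D2, hD2, hb2⟩ := dr7_b2 hV hC0 hB hC hε hε0 hζs hc
  obtain ⟨L, hL0, hL⟩ := dr_vac S φ hQ hφ hcen hV hB hC hC0 hc hε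
  have hζc : HasCompactSupport ζ := tsupp_compact hζs
  have hi2 : Integrable (fun y : Cfg r => ‖ζ y‖ ^ 2) := trf_int _ _ hζ.continuous hζc
  have hi1 : Integrable (fun y : Cfg r => (‖ζ y‖ + ‖fderiv ℝ ζ y‖) ^ 2) := by
    refine Continuous.integrable_of_hasCompactSupport ?_ ?_
    · exact (hζ.continuous.norm.add (hζ.continuous_fderiv (by simp)).norm).pow 2
    · refine HasCompactSupport.intro hζc fun y hy => ?_
      rw [image_eq_zero_of_notMem_tsupport hy, fderiv_of_notMem_tsupport (𝕜 := ℝ) hy]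
      simp
  obtain ⟨I1, hI1⟩ : ∃ I1, I1 = ∫ y : Cfg r, (‖ζ y‖ + ‖fderiv ℝ ζ y‖) ^ 2 := ⟨_, rfl⟩
  obtain ⟨I2, hI2⟩ : ∃ I2, I2 = ∫ y : Cfg r, ‖ζ y‖ ^ 2 := ⟨_, rfl⟩
  have hI10 : 0 ≤ I1 := by rw [hI1]; exact integral_nonneg fun _ => by positivity
  have hI20 : 0 ≤ I2 := by rw [hI2]; exact integral_nonneg fun _ => by positivity
  refine ⟨4 * D1 * C0 * I1 + 4 * D2 * C0 * I2 + L ^ 2 * I2, by positivity, fun R η hR hη hηε Φ hΦ β => ?_⟩
  have hR0 : 0 < R := by linarith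
  obtain ⟨hT, hTs, hTη, _⟩ := trf S φ ψ hφ hcen U Om V K hV y₀ ε0 C0 hε0p hB c hc ε hε hε0 ζ hζ hζs R η hR hη hηε Φ hΦ
  obtain ⟨t1, t2, s1, s2⟩ := dr7_tst S φ ψ hA hC hR0 hε0 hT hTs β
  have hiΦ : Integrable (fun s : Cfg ds => ‖Φ s‖ ^ 2) := trf_int _ _ hΦ.tst.1.continuous hΦ.tst.2
  have hiP : ∀ i a, Integrable (fun s : Cfg ds => ‖pd i a Φ s‖ ^ 2) := fun i a =>
    trf_int _ _ (hΦ.tst.pd i a).1.continuous (hΦ.tst.pd i a).2
  have hnΦ : 0 ≤ nsq Φ := nsq_nonneg _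
  have hnP : 0 ≤ ∑ i, ∑ a, nsq (pd i a Φ) := Finset.sum_nonneg fun _ _ => Finset.sum_nonneg fun _ _ => nsq_nonneg _
  have hzt : ∀ y : Cfg r, R⁻¹ • y ∈ tsupport ζ → ‖y - R • y₀‖ ≤ ε0 * R := fun y hy => dr7_near hε hε0 hζs hR0 hy
  refine ⟨fun x w => S.Qr φ β (S.TR φ ψ Om V c ε R (pp ζ Φ)) x w - dX2 S φ ψ β (S.TR φ ψ Om V c ε R (pp ζ Φ)) x w,
    dX2 S φ ψ β (S.TR φ ψ Om V c ε R (pp ζ Φ)), fun _ _ => 0, hA.sub _ _ t1 t2, t2, hA.zero, ?_, s2, ?_, ?_, ?_, ?_, ?_,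
    ?_, ?_, ?_⟩
  · intro x w h
    by_contra hn
    apply h
    have e1 : S.Qr φ β (S.TR φ ψ Om V c ε R (pp ζ Φ)) x w = 0 := by
      by_contra h'
      exact hn (s1 x w h')
    have e2 : dX2 S φ ψ β (S.TR φ ψ Om V c ε R (pp ζ Φ)) x w = 0 := by
      by_contra h'
      exact hn (s2 x w h')
    simp only [e1, e2, sub_zero]
  · intro x w h
    exact absurd rfl h
  · intro x w
    simp
  · -- the small part
    have h1 := ns2_le_prodG ψ (hA.sub _ _ t1 t2) hR0 (M := D1 / R ^ 2 * (4 * C0))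
      (a := fun y : Cfg r => (‖ζ y‖ + ‖fderiv ℝ ζ y‖) ^ 2)
      (b := fun s : Cfg ds => (η ^ 2 + 1 / R) * ‖Φ s‖ ^ 2 + 1 / R * ∑ i, ∑ a, ‖pd i a Φ s‖ ^ 2)
      (G := fun y w => D1 / R ^ 2 * gw S φ ψ Om R y w) (fun y => by positivity) (fun s => by positivity) hi1
      ((hiΦ.const_mul _).add ((integrable_finsetSum _ fun i _ => integrable_finsetSum _ fun a _ => hiP i a).const_mul _))
      (fun y hy => by
        have hy' : R⁻¹ • y ∈ tsupport ζ := by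
          by_contra hn
          apply hy
          rw [image_eq_zero_of_notMem_tsupport hn, fderiv_of_notMem_tsupport (𝕜 := ℝ) hn]
          simp
        exact (gw_int S φ ψ hB (hB.inU R hR0 y (hzt y hy')) R).const_mul _)
      (fun y hy => by
        have hy' : R⁻¹ • y ∈ tsupport ζ := by
          by_contra hn
          apply hy
          rw [image_eq_zero_of_notMem_tsupport hn, fderiv_of_notMem_tsupport (𝕜 := ℝ) hn]
          simp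
        rw [integral_const_mul]
        exact mul_le_mul_of_nonneg_left (gw_le S φ ψ hB hR0 (hzt y hy')) (by positivity))
      (fun x w => hb1 R hR η hη hηε Φ hΦ β x w)
    have h2 : ∫ s : Cfg ds, ((η ^ 2 + 1 / R) * ‖Φ s‖ ^ 2 + 1 / R * ∑ i, ∑ a, ‖pd i a Φ s‖ ^ 2) =
        (η ^ 2 + 1 / R) * nsq Φ + 1 / R * ∑ i, ∑ a, nsq (pd i a Φ) := by
      rw [integral_add (hiΦ.const_mul _)
        ((integrable_finsetSum _ fun i _ => integrable_finsetSum _ fun a _ => hiP i a).const_mul _),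
        integral_const_mul, integral_const_mul,
        integral_finset_sum _ fun i _ => integrable_finsetSum _ fun a _ => hiP i a]
      congr 2
      refine Finset.sum_congr rfl fun i _ => ?_
      rw [integral_finset_sum _ fun a _ => hiP i a]
      rfl
    rw [h2, ← hI1] at h1
    have hX : 0 ≤ (η ^ 2 + 1 / R) * nsq Φ + 1 / R * ∑ i, ∑ a, nsq (pd i a Φ) := by positivity
    calc R ^ 2 * ns2 _ ≤ R ^ 2 * (D1 / R ^ 2 * (4 * C0) * (I1 * ((η ^ 2 + 1 / R) * nsq Φ +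
          1 / R * ∑ i, ∑ a, nsq (pd i a Φ)))) := mul_le_mul_of_nonneg_left h1 (by positivity)
      _ = (4 * D1 * C0 * I1) * ((η ^ 2 + 1 / R) * nsq Φ + 1 / R * ∑ i, ∑ a, nsq (pd i a Φ)) := by
          field_simp
      _ ≤ _ := by
          refine mul_le_mul_of_nonneg_right ?_ hX
          have : 0 ≤ 4 * D2 * C0 * I2 := by positivity
          have : 0 ≤ L ^ 2 * I2 := by positivity
          linarith
  · -- the excited part
    have h1 := ns2_le_prodG ψ t2 hR0 (M := D2 / R ^ 2 * (4 * C0))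
      (a := fun y : Cfg r => ‖ζ y‖ ^ 2) (b := fun s : Cfg ds => ‖Φ s‖ ^ 2)
      (G := fun y w => D2 / R ^ 2 * gw S φ ψ Om R y w) (fun y => by positivity) (fun s => by positivity) hi2 hiΦ
      (fun y hy => by
        have hy' : R⁻¹ • y ∈ tsupport ζ := by
          by_contra hn
          apply hy
          rw [image_eq_zero_of_notMem_tsupport hn]
          simp
        exact (gw_int S φ ψ hB (hB.inU R hR0 y (hzt y hy')) R).const_mul _)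
      (fun y hy => by
        have hy' : R⁻¹ • y ∈ tsupport ζ := by
          by_contra hn
          apply hy
          rw [image_eq_zero_of_notMem_tsupport hn]
          simp
        rw [integral_const_mul]
        exact mul_le_mul_of_nonneg_left (gw_le S φ ψ hB hR0 (hzt y hy')) (by positivity))
      (fun x w => hb2 R hR Φ β x w)
    rw [← hI2] at h1
    calc R ^ 2 * ns2 _ ≤ R ^ 2 * (D2 / R ^ 2 * (4 * C0) * (I2 * nsq Φ)) := mul_le_mul_of_nonneg_left h1 (by positivity)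
      _ = (4 * D2 * C0 * I2) * nsq Φ := by
          field_simp
      _ ≤ _ := by
          refine mul_le_mul_of_nonneg_right ?_ hnΦ
          have : 0 ≤ 4 * D1 * C0 * I1 := by positivity
          have : 0 ≤ L ^ 2 * I2 := by positivity
          linarith
  · intro x w h
    by_contra hn
    apply h
    have h0 : Φ (spt ψ x) = 0 := by
      by_contra h'
      exact hn (hΦ.sup _ h')
    have := drX_smul S φ β (S.Dz φ ψ (zpt ψ x) 8)⁻¹
      (fun w => c (‖w‖ ^ 2 / (ε * R) ^ 2) * S.bz φ ψ Om (zpt ψ x) w) 0 (0 : F) w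
    rw [smul_zero, zero_smul] at this
    unfold dX2
    rw [dr7_X2 hV hB hε hε0 hζs hR hc, h0, smul_zero, map_zero, this, smul_zero]
  · -- the vacuum part
    have h1 := int_le_prod ψ hR0 (M := L ^ 2 * (1 / R) ^ 16) hi2 hiΦ
      (g := fun x => ‖vc S φ ψ Om (dX2 S φ ψ β (S.TR φ ψ Om V c ε R (pp ζ Φ))) x‖ ^ 2) (fun x => by positivity)
      (fun x => dr7_vc hV hB hc hε hε0 hζs hR β (fun y hy v hv => hL R hR y hy v hv β) hΦ x)
    rw [← hI2] at h1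
    have h2 : R ^ 2 * (1 / R) ^ 16 ≤ 1 / R := by
      have e : R ^ 2 * (1 / R) ^ 16 = 1 / R * (1 / R ^ 13) := by
        field_simp
      rw [e]
      have : 1 / R ^ 13 ≤ 1 := by
        rw [div_le_one (by positivity)]
        exact one_le_pow₀ hR
      exact mul_le_of_le_one_right (by positivity) this
    calc R ^ 2 * (∫ x, ‖vc S φ ψ Om (dX2 S φ ψ β (S.TR φ ψ Om V c ε R (pp ζ Φ))) x‖ ^ 2)
        ≤ R ^ 2 * (L ^ 2 * (1 / R) ^ 16 * (I2 * nsq Φ)) := mul_le_mul_of_nonneg_left h1 (by positivity)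
      _ = (R ^ 2 * (1 / R) ^ 16) * (L ^ 2 * I2 * nsq Φ) := by ring
      _ ≤ 1 / R * (L ^ 2 * I2 * nsq Φ) := mul_le_mul_of_nonneg_right h2 (by positivity)
      _ ≤ 1 / R * ((4 * D1 * C0 * I1 + 4 * D2 * C0 * I2 + L ^ 2 * I2) * nsq Φ) := by
          refine mul_le_mul_of_nonneg_left (mul_le_mul_of_nonneg_right ?_ hnΦ) (by positivity)
          have : 0 ≤ 4 * D1 * C0 * I1 := by positivity
          have : 0 ≤ 4 * D2 * C0 * I2 := by positivity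
          linarith
      _ = _ := by ring
  · intro x w
    simp
  · have : ns2 (fun (_ : Cfg dh) (_ : Wsp dm) => (0 : F)) = 0 := by
      unfold ns2
      simp
    rw [this]
    positivity

end Vale.Agent.P353.Z.AE
end

section

/-! # P353, all `N`, block E: `q1` kills Gaussian times fermionic vacuum -/

open MeasureTheory Filter Topology Matrix
open scoped ContDiff

namespace Vale.Agent.P353.Z.AE

section vq

variable {dm : ℕ} {F : Type*} [NormedAddCommGroup F] [InnerProductSpace ℂ F]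

/-- `(N θ^B)_β` applied to the vacuum vector -/
private noncomputable def vqE (θ : Fin 16 → Fin dm → F) (N : Matrix (Fin 16) (Fin 16) ℂ) (B : Fin dm)
    (β : Fin 16) : F := ∑ γ, N β γ • θ γ B

private theorem vqE_add (θ : Fin 16 → Fin dm → F) (N M : Matrix (Fin 16) (Fin 16) ℂ) (B : Fin dm)
    (β : Fin 16) : vqE θ (N + M) B β = vqE θ N B β + vqE θ M B β := by
  simp [vqE, add_smul, Finset.sum_add_distrib]

private theorem vqE_sub (θ : Fin 16 → Fin dm → F) (N M : Matrix (Fin 16) (Fin 16) ℂ) (B : Fin dm)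
    (β : Fin 16) : vqE θ (N - M) B β = vqE θ N B β - vqE θ M B β := by
  simp [vqE, sub_smul, Finset.sum_sub_distrib]

private theorem vqE_smul (θ : Fin 16 → Fin dm → F) (c : ℂ) (N : Matrix (Fin 16) (Fin 16) ℂ)
    (B : Fin dm) (β : Fin 16) : vqE θ (c • N) B β = c • vqE θ N B β := by
  simp [vqE, Finset.smul_sum, mul_smul]

private theorem vqE_zero (θ : Fin 16 → Fin dm → F) (B : Fin dm) (β : Fin 16) :
    vqE θ 0 B β = 0 := by
  simp [vqE]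

private theorem vqE_one (θ : Fin 16 → Fin dm → F) (B : Fin dm) (β : Fin 16) :
    vqE θ 1 B β = θ β B := by
  simp [vqE, Matrix.one_apply]

private theorem vqE_mul (θ : Fin 16 → Fin dm → F) (N M : Matrix (Fin 16) (Fin 16) ℂ) (B : Fin dm)
    (β : Fin 16) : vqE θ (N * M) B β = ∑ γ, N β γ • vqE θ M B γ := by
  simp only [vqE, Matrix.mul_apply, Finset.sum_smul, Finset.smul_sum, mul_smul]
  rw [Finset.sum_comm]

/-- the first two terms of `q1` -/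
private theorem vq_one {g : Fin 9 → Matrix (Fin 16) (Fin 16) ℂ} {θ : Fin 16 → Fin dm → F} {κ : ℝ}
    {D : Fin 9 → Matrix (Fin dm) (Fin dm) ℝ} {Om : Matrix (Fin dm) (Fin dm) ℝ}
    (hD : ∀ i, (D i)ᵀ = -D i) (hOm : Omᵀ = Om)
    (hv : ∀ α A, ∑ B, ((Om A B : ℝ) : ℂ) • θ α B =
      (Complex.I * (κ : ℂ)) • ∑ B, ∑ k, ((D k A B : ℝ) : ℂ) • vqE θ (g k) B α)
    (V : Fin dm → ℝ) (i : Fin 9) (β : Fin 16) :
    ∑ B, (((Om *ᵥ V) B : ℝ) : ℂ) • vqE θ (g i) B β =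
      -((Complex.I * (κ : ℂ)) • ∑ B, ∑ k, (((D k *ᵥ V) B : ℝ) : ℂ) • vqE θ (g i * g k) B β) := by
  have h1 : ∀ γ, ∑ B, (((Om *ᵥ V) B : ℝ) : ℂ) • θ γ B =
      -((Complex.I * (κ : ℂ)) • ∑ B, ∑ k, (((D k *ᵥ V) B : ℝ) : ℂ) • vqE θ (g k) B γ) := by
    intro γ
    have e1 : ∑ B, (((Om *ᵥ V) B : ℝ) : ℂ) • θ γ B =
        ∑ A, ((V A : ℝ) : ℂ) • ∑ B, ((Om A B : ℝ) : ℂ) • θ γ B := by
      simp only [Matrix.mulVec, dotProduct, Complex.ofReal_sum, Complex.ofReal_mul, Finset.sum_smul,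
        Finset.smul_sum, smul_smul]
      rw [Finset.sum_comm]
      refine Finset.sum_congr rfl fun A _ => Finset.sum_congr rfl fun B _ => ?_
      have : Om B A = Om A B := by
        have := congrFun (congrFun hOm A) B
        simpa [Matrix.transpose_apply] using this
      rw [this, mul_comm]
    rw [e1]
    simp only [hv]
    have e2 : ∀ (k : Fin 9) (B : Fin dm), (D k *ᵥ V) B = -∑ A, V A * D k A B := by
      intro k B
      simp only [Matrix.mulVec, dotProduct]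
      rw [← Finset.sum_neg_distrib]
      refine Finset.sum_congr rfl fun A _ => ?_
      have := congrFun (congrFun (hD k) A) B
      simp only [Matrix.transpose_apply, Matrix.neg_apply] at this
      rw [this]
      ring
    simp only [e2, Complex.ofReal_neg, neg_smul, Finset.sum_neg_distrib, smul_neg, neg_neg]
    simp only [Complex.ofReal_sum, Complex.ofReal_mul, Finset.sum_smul, Finset.smul_sum, smul_smul]
    rw [Finset.sum_comm]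
    refine Finset.sum_congr rfl fun B _ => ?_
    rw [Finset.sum_comm]
    refine Finset.sum_congr rfl fun k _ => Finset.sum_congr rfl fun A _ => ?_
    congr 1
    ring
  calc ∑ B, (((Om *ᵥ V) B : ℝ) : ℂ) • vqE θ (g i) B β
      = ∑ γ, g i β γ • ∑ B, (((Om *ᵥ V) B : ℝ) : ℂ) • θ γ B := by
        simp only [vqE, Finset.smul_sum]
        rw [Finset.sum_comm]
        refine Finset.sum_congr rfl fun γ _ => Finset.sum_congr rfl fun B _ => ?_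
        rw [smul_comm]
    _ = _ := by
        simp only [h1, vqE_mul, smul_neg, Finset.sum_neg_distrib, Finset.smul_sum]
        congr 1
        rw [Finset.sum_comm]
        refine Finset.sum_congr rfl fun B _ => ?_
        rw [Finset.sum_comm]
        refine Finset.sum_congr rfl fun k _ => Finset.sum_congr rfl fun γ _ => ?_
        simp only [smul_smul]
        congr 1
        ring

/-- the potential term of `q1` -/
private theorem vq_two {g : Fin 9 → Matrix (Fin 16) (Fin 16) ℂ} {θ : Fin 16 → Fin dm → F}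
    (hg : ∀ i j, g i * g j + g j * g i = if i = j then 2 else 0)
    {a : Fin 9 → Fin 9 → ℝ} (ha : ∑ i, a i i = 0) (B : Fin dm) (β : Fin 16) :
    ∑ i, ∑ j, (((a i j - a j i : ℝ)) : ℂ) •
        vqE θ ((1 / 2 : ℂ) • (g i * g j - g j * g i)) B β =
      (2 : ℂ) • ∑ i, ∑ j, ((a i j : ℝ) : ℂ) • vqE θ (g i * g j) B β := by
  have e1 : ∀ i j, vqE θ ((1 / 2 : ℂ) • (g i * g j - g j * g i)) B β =
      vqE θ (g i * g j) B β - if i = j then θ β B else 0 := by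
    intro i j
    have e2 : (1 / 2 : ℂ) • (g i * g j - g j * g i) =
        g i * g j - (1 / 2 : ℂ) • (g i * g j + g j * g i) := by
      module
    rw [e2, hg, vqE_sub, vqE_smul]
    congr 1
    by_cases hij : i = j
    · simp only [hij, if_true]
      have : (2 : Matrix (Fin 16) (Fin 16) ℂ) = (2 : ℂ) • 1 := by
        rw [two_smul, one_add_one_eq_two]
      rw [this, vqE_smul, vqE_one, smul_smul]
      norm_num
    · simp only [hij, if_false]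
      rw [vqE_zero, smul_zero]
  have e3 : ∀ i j, vqE θ (g j * g i) B β = -vqE θ (g i * g j) B β +
      (2 : ℂ) • if i = j then θ β B else 0 := by
    intro i j
    have h1 : g j * g i = (if i = j then (2 : Matrix (Fin 16) (Fin 16) ℂ) else 0) - g i * g j := by
      rw [← hg i j]
      abel
    rw [h1, vqE_sub]
    by_cases hij : i = j
    · simp only [hij, if_true]
      have : (2 : Matrix (Fin 16) (Fin 16) ℂ) = (2 : ℂ) • 1 := by
        rw [two_smul, one_add_one_eq_two]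
      rw [this, vqE_smul, vqE_one]
      abel
    · simp only [hij, if_false]
      rw [vqE_zero, smul_zero]
      abel
  have e4 : ∑ i, ∑ j, ((a i j : ℝ) : ℂ) • (if i = j then θ β B else 0) = 0 := by
    simp only [smul_ite, smul_zero, Finset.sum_ite_eq, Finset.mem_univ, if_true]
    rw [← Finset.sum_smul, ← Complex.ofReal_sum, ha]
    simp
  simp only [e1]
  simp only [Complex.ofReal_sub, sub_smul, smul_sub, Finset.sum_sub_distrib]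
  have e5 : ∑ i, ∑ j, ((a j i : ℝ) : ℂ) • vqE θ (g i * g j) B β =
      -∑ i, ∑ j, ((a i j : ℝ) : ℂ) • vqE θ (g i * g j) B β := by
    rw [Finset.sum_comm]
    have e7 : ∀ i j, ((a i j : ℝ) : ℂ) • vqE θ (g j * g i) B β =
        -(((a i j : ℝ) : ℂ) • vqE θ (g i * g j) B β) +
          (2 : ℂ) • (((a i j : ℝ) : ℂ) • if i = j then θ β B else 0) := by
      intro i j
      rw [e3 i j]
      module
    rw [Finset.sum_congr rfl fun i _ => Finset.sum_congr rfl fun j _ => e7 i j]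
    simp only [Finset.sum_add_distrib, Finset.sum_neg_distrib, ← Finset.smul_sum]
    rw [e4, smul_zero, add_zero]
  have e6 : ∑ i, ∑ j, ((a j i : ℝ) : ℂ) • (if i = j then θ β B else 0) = 0 := by
    simp only [smul_ite, smul_zero, Finset.sum_ite_eq, Finset.mem_univ, if_true]
    rw [← Finset.sum_smul, ← Complex.ofReal_sum, ha]
    simp
  rw [e4, e5, e6, two_smul]
  abel

/-- derivative of the Gaussian -/
private theorem vq_pf {D : Fin 9 → Matrix (Fin dm) (Fin dm) ℝ}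
    {Om : Matrix (Fin dm) (Fin dm) ℝ} {M : Wsp dm →L[ℝ] Wsp dm}
    (hMs : ∀ v w, inner ℝ (M v) w = inner ℝ v (M w)) (hqf : ∀ w, qf D Om w = inner ℝ w (M w))
    (hMV : ∀ (w : Wsp dm) (j : Fin 8) (B : Fin dm), M w (j, B) = (Om *ᵥ VV D w j.castSucc) B)
    (c : ℝ) (v : F) (w : Wsp dm) (j : Fin 8) (B : Fin dm) :
    pf j B (fun w => ((c * gR D Om 1 w : ℝ) : ℂ) • v) w =
      ((-(c * gR D Om 1 w) * (Om *ᵥ VV D w j.castSucc) B : ℝ) : ℂ) • v := by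
  have h1 : HasFDerivAt (fun w : Wsp dm => inner ℝ w (M w))
      ((fderivInnerCLM ℝ (w, M w)).comp ((ContinuousLinearMap.id ℝ (Wsp dm)).prod M)) w :=
    (hasFDerivAt_id w).inner ℝ (M.hasFDerivAt)
  have h2 : HasFDerivAt (fun w : Wsp dm => c * gR D Om 1 w)
      (c • (Real.exp (-(1 / 2) * inner ℝ w (M w)) • (-(1 / 2) : ℝ) •
        ((fderivInnerCLM ℝ (w, M w)).comp ((ContinuousLinearMap.id ℝ (Wsp dm)).prod M)))) w := by
    have h3 : (fun w : Wsp dm => c * gR D Om 1 w) =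
        fun w => c * Real.exp (-(1 / 2) * inner ℝ w (M w)) := by
      funext w
      rw [gR, hqf]
    rw [h3]
    exact ((h1.const_mul (-(1 / 2))).exp).const_mul c
  have h4 : (fun w : Wsp dm => ((c * gR D Om 1 w : ℝ) : ℂ) • v) =
      fun w => (c * gR D Om 1 w) • v := by
    funext w
    rw [Complex.coe_smul]
  unfold pf
  rw [h4, (h2.smul_const v).fderiv]
  simp only [ContinuousLinearMap.smulRight_apply, _root_.smul_apply, ContinuousLinearMap.comp_apply,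
    ContinuousLinearMap.prod_apply, ContinuousLinearMap.id_apply, fderivInnerCLM_apply, smul_eq_mul]
  have h5 : inner ℝ (M w) (EuclideanSpace.single (j, B) (1 : ℝ)) = M w (j, B) := by
    rw [EuclideanSpace.inner_single_right]
    simp
  have h6 : inner ℝ w (M (EuclideanSpace.single (j, B) (1 : ℝ))) = M w (j, B) := by
    rw [← hMs, h5]
  have h7 : inner ℝ (EuclideanSpace.single (j, B) (1 : ℝ)) (M w) = M w (j, B) := by
    rw [real_inner_comm, h5]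
  rw [h6, h7, hMV, Complex.coe_smul]
  congr 1
  rw [gR, hqf]
  ring

end vq

/-- **E-VacQ1** -/
theorem vacQ1 {d dh dm : ℕ} {F : Type*} [NormedAddCommGroup F] [InnerProductSpace ℂ F]
    (S : Setup d F) (φ : Spl dh dm d) : AlgStmt → QFStmt → VacQ1Stmt S φ := by
  intro hAlg hQF D Om hD hOm v hv c β w
  obtain ⟨-, -, hT8, hTO, -, -, -, hTV, hDV, hFL, -⟩ := hAlg dm S.κ D Om S.κ_pos hD hOm
  obtain ⟨M, hMs, hqf, hMV, -⟩ := hQF dm S.κ D Om S.κ_pos hD hOm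
  set θ : Fin 16 → Fin dm → F := fun γ B => S.th γ (φ (Sum.inr B)) v with hθ
  set G : ℝ := c * gR D Om 1 w with hG
  have hvec : ∀ (N : Matrix (Fin 16) (Fin 16) ℂ) (B : Fin dm) (γ : Fin 16),
      S.vec N (φ (Sum.inr B)) γ v = vqE θ N B γ := by
    intro N B γ
    simp [CS.vec, vqE, hθ]
  have hpf : ∀ (j : Fin 8) (B : Fin dm), pf j B (fun w => ((c * gR D Om 1 w : ℝ) : ℂ) • v) w =
      ((-G * (Om *ᵥ VV D w j.castSucc) B : ℝ) : ℂ) • v := fun j B =>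
    vq_pf hMs hqf hMV c v w j B
  have hvac : ∀ α A, ∑ B, ((Om A B : ℝ) : ℂ) • θ α B =
      (Complex.I * (S.κ : ℂ)) • ∑ B, ∑ k, ((D k A B : ℝ) : ℂ) • vqE θ (S.g k) B α := by
    intro α A
    have h : S.Lth φ D Om (α, A) v = 0 := hv (α, A)
    have h1 : S.Lth φ D Om (α, A) v = (1 / 2 : ℂ) • (∑ B, ((Om A B : ℝ) : ℂ) • θ α B -
        (Complex.I * (S.κ : ℂ)) • ∑ B, ∑ k, ((D k A B : ℝ) : ℂ) • vqE θ (S.g k) B α) := by
      have e1 : S.Lth φ D Om (α, A) v = ∑ γ, ∑ B, ((1 / 2 : ℂ) *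
          ((if α = γ then ((Om A B : ℝ) : ℂ) else 0) - Complex.I * ((S.κ : ℂ) *
            ∑ i, S.g i α γ * ((D i A B : ℝ) : ℂ)))) • θ γ B := by
        simp only [Setup.Lth, _root_.sum_apply, _root_.smul_apply, Fintype.sum_prod_type]
        rfl
      rw [e1]
      simp only [mul_sub, sub_smul, Finset.sum_sub_distrib, smul_sub]
      congr 1
      · rw [Finset.sum_comm, Finset.smul_sum]
        refine Finset.sum_congr rfl fun B _ => ?_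
        simp only [mul_ite, mul_zero, ite_smul, zero_smul, Finset.sum_ite_eq, Finset.mem_univ, if_true]
        rw [mul_smul]
      · simp only [vqE, Finset.mul_sum, Finset.sum_smul, Finset.smul_sum, smul_smul]
        rw [Finset.sum_comm]
        refine Finset.sum_congr rfl fun B _ => ?_
        rw [Finset.sum_comm]
        refine Finset.sum_congr rfl fun k _ => Finset.sum_congr rfl fun γ _ => ?_
        congr 1
        ring
    rw [h1] at h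
    exact sub_eq_zero.1 ((smul_eq_zero.1 h).resolve_left (by norm_num))
  have h2 : ∀ B, ∑ C, (((D 8)⁻¹ B C : ℝ) : ℂ) • ∑ j : Fin 8, ∑ E, ((D j.castSucc C E : ℝ) : ℂ) •
      ((-G * (Om *ᵥ VV D w j.castSucc) E : ℝ) : ℂ) • v =
      ((G * (Om *ᵥ VV D w 8) B : ℝ) : ℂ) • v := by
    intro B
    have k1 : ∑ j : Fin 8, tI D j.castSucc *ᵥ (Om *ᵥ VV D w j.castSucc) =
        -(Om *ᵥ VV D w 8) := by
      have h3 := hTV w
      rw [Fin.sum_univ_castSucc] at h3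
      have h8 : (Fin.last 8 : Fin 9) = 8 := rfl
      rw [h8, hT8, Matrix.one_mulVec] at h3
      have e : ∀ j : Fin 8, tI D j.castSucc *ᵥ (Om *ᵥ VV D w j.castSucc) =
          Om *ᵥ (tI D j.castSucc *ᵥ VV D w j.castSucc) := by
        intro j
        rw [Matrix.mulVec_mulVec, hTO, ← Matrix.mulVec_mulVec]
      simp only [e]
      rw [← Matrix.mulVec_sum, eq_neg_of_add_eq_zero_left h3, Matrix.mulVec_neg]
    have k2 : ∑ C, (D 8)⁻¹ B C * ∑ j : Fin 8, ∑ E, D j.castSucc C E *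
        (-G * (Om *ᵥ VV D w j.castSucc) E) = G * (Om *ᵥ VV D w 8) B := by
      have h3 := congrFun k1 B
      have e : (∑ j : Fin 8, tI D j.castSucc *ᵥ (Om *ᵥ VV D w j.castSucc)) B =
          ∑ j : Fin 8, ∑ E, ∑ C, (D 8)⁻¹ B C * D j.castSucc C E * (Om *ᵥ VV D w j.castSucc) E := by
        rw [Finset.sum_apply]
        refine Finset.sum_congr rfl fun j _ => ?_
        rw [Matrix.mulVec, dotProduct]
        refine Finset.sum_congr rfl fun E _ => ?_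
        rw [tI, Matrix.mul_apply, Finset.sum_mul]
      rw [e, Pi.neg_apply] at h3
      have e2 : ∑ C, (D 8)⁻¹ B C * ∑ j : Fin 8, ∑ E, D j.castSucc C E *
          (-G * (Om *ᵥ VV D w j.castSucc) E) =
          -G * ∑ j : Fin 8, ∑ E, ∑ C, (D 8)⁻¹ B C * D j.castSucc C E *
            (Om *ᵥ VV D w j.castSucc) E := by
        simp only [Finset.mul_sum]
        rw [Finset.sum_comm]
        refine Finset.sum_congr rfl fun j _ => ?_
        rw [Finset.sum_comm]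
        refine Finset.sum_congr rfl fun E _ => Finset.sum_congr rfl fun C _ => ?_
        ring
      rw [e2, h3]
      ring
    rw [← k2]
    simp only [Complex.ofReal_sum, Complex.ofReal_mul, Finset.sum_smul, Finset.smul_sum, smul_smul,
      Finset.mul_sum]
  have hpot : ∀ B, ∑ i, ∑ j, ((S.κ * ((∑ C, D i B C * wt w j C) - ∑ C, D j B C * wt w i C) : ℝ) : ℂ) •
      S.vec (S.g2 i j) (φ (Sum.inr B)) β (((G : ℝ) : ℂ) • v) =
      (2 * (S.κ : ℂ) * (G : ℂ)) • ∑ i, ∑ j, (((D i *ᵥ VV D w j) B : ℝ) : ℂ) •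
        vqE θ (S.g i * S.g j) B β := by
    intro B
    have ha : ∑ i, (D i *ᵥ VV D w i) B = 0 := by
      have := congrFun (hDV w) B
      rwa [Finset.sum_apply] at this
    have h3 := vq_two (θ := θ) S.g_anti (a := fun i j => (D i *ᵥ VV D w j) B) ha B β
    have e : ∀ i j, ((S.κ * ((∑ C, D i B C * wt w j C) - ∑ C, D j B C * wt w i C) : ℝ) : ℂ) •
        S.vec (S.g2 i j) (φ (Sum.inr B)) β (((G : ℝ) : ℂ) • v) =
        ((S.κ : ℂ) * (G : ℂ)) • (((((D i *ᵥ VV D w j) B - (D j *ᵥ VV D w i) B : ℝ)) : ℂ) •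
          vqE θ ((1 / 2 : ℂ) • (S.g i * S.g j - S.g j * S.g i)) B β) := by
      intro i j
      have h4 := congrFun (hFL w i j) B
      have h5 : (∑ C, D i B C * wt w j C) - ∑ C, D j B C * wt w i C =
          (D i *ᵥ VV D w j) B - (D j *ᵥ VV D w i) B := h4
      rw [h5, map_smul, hvec]
      have h6 : S.g2 i j = (1 / 2 : ℂ) • (S.g i * S.g j - S.g j * S.g i) := rfl
      rw [h6]
      simp only [smul_smul, Complex.ofReal_mul]
      congr 1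
      ring
    simp only [e, ← Finset.smul_sum]
    rw [h3]
    simp only [smul_smul]
    congr 1
    ring
  unfold Setup.q1
  simp only [hpf]
  simp only [h2, ← hG, hpot]
  simp only [map_smul, hvec]
  have hX : ∀ i, ∑ B, (((Om *ᵥ VV D w i) B : ℝ) : ℂ) • vqE θ (S.g i) B β =
      -((Complex.I * (S.κ : ℂ)) • ∑ B, ∑ k, (((D k *ᵥ VV D w i) B : ℝ) : ℂ) •
        vqE θ (S.g i * S.g k) B β) := fun i => vq_one hD.anti hOm.symm hvac _ i β
  have hsum : ∑ i, ∑ B, (((Om *ᵥ VV D w i) B : ℝ) : ℂ) • vqE θ (S.g i) B β =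
      ∑ j : Fin 8, ∑ B, (((Om *ᵥ VV D w j.castSucc) B : ℝ) : ℂ) • vqE θ (S.g j.castSucc) B β +
        ∑ B, (((Om *ᵥ VV D w 8) B : ℝ) : ℂ) • vqE θ (S.g 8) B β := by
    rw [Fin.sum_univ_castSucc]
    rfl
  have t1 : ∑ j : Fin 8, ∑ B, ((-G * (Om *ᵥ VV D w j.castSucc) B : ℝ) : ℂ) •
      vqE θ (S.g j.castSucc) B β = -(G : ℂ) • ∑ j : Fin 8, ∑ B,
        (((Om *ᵥ VV D w j.castSucc) B : ℝ) : ℂ) • vqE θ (S.g j.castSucc) B β := by
    simp only [Finset.smul_sum, smul_smul]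
    refine Finset.sum_congr rfl fun j _ => Finset.sum_congr rfl fun B _ => ?_
    congr 1
    push_cast
    ring
  have t2 : ∑ B, ((G * (Om *ᵥ VV D w 8) B : ℝ) : ℂ) • vqE θ (S.g 8) B β =
      (G : ℂ) • ∑ B, (((Om *ᵥ VV D w 8) B : ℝ) : ℂ) • vqE θ (S.g 8) B β := by
    simp only [Finset.smul_sum, smul_smul]
    refine Finset.sum_congr rfl fun B _ => ?_
    congr 1
    push_cast
    ring
  have hfin : ∑ i, ∑ B, ∑ k, (((D k *ᵥ VV D w i) B : ℝ) : ℂ) • vqE θ (S.g i * S.g k) B β +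
      ∑ B, ∑ i, ∑ j, (((D i *ᵥ VV D w j) B : ℝ) : ℂ) • vqE θ (S.g i * S.g j) B β = 0 := by
    have e1 : ∑ i, ∑ B, ∑ k, (((D k *ᵥ VV D w i) B : ℝ) : ℂ) • vqE θ (S.g i * S.g k) B β =
        ∑ B, ∑ i, ∑ j, (((D i *ᵥ VV D w j) B : ℝ) : ℂ) • vqE θ (S.g j * S.g i) B β := by
      rw [Finset.sum_comm]
      refine Finset.sum_congr rfl fun B _ => ?_
      rw [Finset.sum_comm]
    rw [e1, ← Finset.sum_add_distrib]
    refine Finset.sum_eq_zero fun B _ => ?_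
    rw [← Finset.sum_add_distrib]
    have e2 : ∀ i, (∑ j, (((D i *ᵥ VV D w j) B : ℝ) : ℂ) • vqE θ (S.g j * S.g i) B β) +
        (∑ j, (((D i *ᵥ VV D w j) B : ℝ) : ℂ) • vqE θ (S.g i * S.g j) B β) =
        (((D i *ᵥ VV D w i) B : ℝ) : ℂ) • vqE θ 2 B β := by
      intro i
      rw [← Finset.sum_add_distrib]
      have e3 : ∀ j, (((D i *ᵥ VV D w j) B : ℝ) : ℂ) • vqE θ (S.g j * S.g i) B β +
          (((D i *ᵥ VV D w j) B : ℝ) : ℂ) • vqE θ (S.g i * S.g j) B β =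
          if i = j then (((D i *ᵥ VV D w j) B : ℝ) : ℂ) • vqE θ 2 B β else 0 := by
        intro j
        rw [← smul_add, ← vqE_add, add_comm (S.g j * S.g i), S.g_anti]
        by_cases hij : i = j
        · simp only [hij, if_true]
        · simp only [hij, if_false]
          rw [vqE_zero, smul_zero]
      simp only [e3, Finset.sum_ite_eq, Finset.mem_univ, if_true]
    simp only [e2]
    rw [← Finset.sum_smul, ← Complex.ofReal_sum]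
    have := congrFun (hDV w) B
    rw [Finset.sum_apply] at this
    rw [this]
    simp
  have hW : (∑ j : Fin 8, ∑ B, (((Om *ᵥ VV D w j.castSucc) B : ℝ) : ℂ) • vqE θ (S.g j.castSucc) B β) +
        ∑ B, (((Om *ᵥ VV D w 8) B : ℝ) : ℂ) • vqE θ (S.g 8) B β =
      -((Complex.I * (S.κ : ℂ)) • ∑ i, ∑ B, ∑ k, (((D k *ᵥ VV D w i) B : ℝ) : ℂ) •
        vqE θ (S.g i * S.g k) B β) := by
    rw [← hsum]
    simp only [hX, Finset.sum_neg_distrib, ← Finset.smul_sum]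
  rw [t1, t2, ← Finset.smul_sum]
  generalize (∑ j : Fin 8, ∑ B, (((Om *ᵥ VV D w j.castSucc) B : ℝ) : ℂ) •
    vqE θ (S.g j.castSucc) B β) = X1 at hW ⊢
  generalize (∑ B, (((Om *ᵥ VV D w 8) B : ℝ) : ℂ) • vqE θ (S.g 8) B β) = X2 at hW ⊢
  generalize (∑ i, ∑ B, ∑ k, (((D k *ᵥ VV D w i) B : ℝ) : ℂ) •
    vqE θ (S.g i * S.g k) B β) = W at hW hfin
  generalize (∑ B, ∑ i, ∑ j, (((D i *ᵥ VV D w j) B : ℝ) : ℂ) •
    vqE θ (S.g i * S.g j) B β) = P at hfin ⊢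
  have hP : P = -W := by rw [eq_neg_iff_add_eq_zero, add_comm]; exact hfin
  calc -Complex.I • -(G : ℂ) • X1 + Complex.I • (G : ℂ) • X2 +
        (1 / 2 : ℂ) • (2 * (S.κ : ℂ) * (G : ℂ)) • P
      = (Complex.I * (G : ℂ)) • (X1 + X2) + ((S.κ : ℂ) * (G : ℂ)) • P := by module
    _ = (-(Complex.I * Complex.I) - 1) • ((S.κ : ℂ) * (G : ℂ)) • W := by
        rw [hW, hP]
        module
    _ = 0 := by
        rw [Complex.I_mul_I]
        simp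

end Vale.Agent.P353.Z.AE
end
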