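import Mathlib
import Vale.Agent.P353.BdZ.B3
import Vale.Agent.P353.BdA.B1
import Vale.Agent.P353.BdZ.B16
import Vale.Agent.P353.BdA.B23

set_option linter.all false

section

/-! # P353, all `N`, block D1: non commuting points are null -/

open MeasureTheory Filter Topology
open scoped ContDiff

namespace Vale.Agent.P353.Z.AD

variable {d : ℕ} {F : Type*} [NormedAddCommGroup F] [InnerProductSpace ℂ F]

lemma nc_FF_smul (S : Setup d F) (A : Fin d) (i j : Fin 9) (r : ℝ) (x : Cfg d) :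
    S.FF A i j (r • x) = r ^ 2 * S.FF A i j x := by
  simp only [Setup.FF, PiLp.smul_apply, smul_eq_mul, Finset.mul_sum]
  refine Finset.sum_congr rfl fun B _ => Finset.sum_congr rfl fun C _ => by ring

lemma nc_V_smul (S : Setup d F) (r : ℝ) (x : Cfg d) : S.V (r • x) = r ^ 4 * S.V x := by
  simp only [Setup.V, nc_FF_smul, Finset.mul_sum]
  refine Finset.sum_congr rfl fun B _ => Finset.sum_congr rfl fun C _ =>
    Finset.sum_congr rfl fun D _ => by ring

lemma nc_V_nonneg (S : Setup d F) (x : Cfg d) : 0 ≤ S.V x := by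
  unfold Setup.V
  have : 0 ≤ ∑ A, ∑ i, ∑ j, (S.FF A i j x) ^ 2 :=
    Finset.sum_nonneg fun A _ => Finset.sum_nonneg fun i _ => Finset.sum_nonneg fun j _ => sq_nonneg _
  linarith

lemma nc_Fx_smul (S : Setup d F) (r : ℝ) (x : Cfg d) : S.Fx (r • x) = (r : ℂ) • S.Fx x := by
  simp only [Setup.Fx, PiLp.smul_apply, smul_eq_mul]
  rw [smul_comm ((r : ℂ)) _ _]
  congr 1
  simp only [Finset.smul_sum, smul_smul]
  refine Finset.sum_congr rfl fun q _ => Finset.sum_congr rfl fun A _ =>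
    Finset.sum_congr rfl fun B _ => Finset.sum_congr rfl fun C _ => ?_
  congr 1
  push_cast
  ring

lemma nc_pdr_scale (χ : Cfg d → ℝ) (hχ : ContDiff ℝ ∞ χ) (r : ℝ) (i : Fin 9) (A : Fin d) (x : Cfg d) :
    pdr i A (fun y => χ (r • y)) x = r * pdr i A χ (r • x) := by
  unfold pdr
  have h1 : HasFDerivAt (fun y : Cfg d => r • y) (r • ContinuousLinearMap.id ℝ (Cfg d)) x :=
    (hasFDerivAt_id x).const_smul r
  have h2 : HasFDerivAt χ (fderiv ℝ χ (r • x)) (r • x) :=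
    (hχ.differentiable (by simp) _).hasFDerivAt
  have h3 := (h2.comp x h1).fderiv
  have h4 : (χ ∘ fun y : Cfg d => r • y) = fun y => χ (r • y) := rfl
  rw [h4] at h3
  rw [h3]
  simp

lemma nc_gradOp_scale (S : Setup d F) (χ : Cfg d → ℝ) (hχ : ContDiff ℝ ∞ χ) (r : ℝ) (β : Fin 16)
    (x : Cfg d) : S.gradOp (fun y => χ (r • y)) β x = (r : ℂ) • S.gradOp χ β (r • x) := by
  simp only [Setup.gradOp, nc_pdr_scale χ hχ]
  rw [smul_comm ((r : ℂ)) _ _]
  congr 1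
  simp only [Finset.smul_sum, smul_smul]
  refine Finset.sum_congr rfl fun q _ => Finset.sum_congr rfl fun A _ => ?_
  congr 1
  push_cast
  ring

lemma nc_gradOp_bound (S : Setup d F) (χ : Cfg d → ℝ) (hχ : ContDiff ℝ ∞ χ)
    (hc : HasCompactSupport χ) : ∃ K : ℝ, 0 ≤ K ∧ ∀ β y, ‖S.gradOp χ β y‖ ≤ K := by
  have h1 : ∀ i A, ∃ C : ℝ, ∀ x, ‖pdr i A χ x‖ ≤ C := by
    intro i A
    have hcont : Continuous (pdr i A χ) := by
      unfold pdr
      exact (hχ.continuous_fderiv (by simp)).clm_apply continuous_const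
    have hcs : HasCompactSupport (pdr i A χ) := by
      refine (hc.fderiv (𝕜 := ℝ)).mono ?_
      intro x hx
      simp only [Function.mem_support, pdr] at hx ⊢
      intro h0
      exact hx (by rw [h0]; rfl)
    exact hcs.exists_bound_of_continuous hcont
  choose C hC using h1
  refine ⟨∑ β : Fin 16, ∑ i, ∑ A, |C i A| * ‖S.vec (S.g i) A β‖, by positivity, fun β y => ?_⟩
  have h2 : ‖S.gradOp χ β y‖ ≤ ∑ i, ∑ A, |C i A| * ‖S.vec (S.g i) A β‖ := by
    unfold Setup.gradOp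
    rw [norm_smul, norm_neg, Complex.norm_I, one_mul]
    refine (norm_sum_le _ _).trans (Finset.sum_le_sum fun i _ => ?_)
    refine (norm_sum_le _ _).trans (Finset.sum_le_sum fun A _ => ?_)
    rw [norm_smul, Complex.norm_real]
    exact mul_le_mul_of_nonneg_right ((hC i A y).trans (le_abs_self _)) (norm_nonneg _)
  refine h2.trans ?_
  exact Finset.single_le_sum (f := fun β : Fin 16 => ∑ i, ∑ A, |C i A| * ‖S.vec (S.g i) A β‖)
    (fun β _ => by positivity) (Finset.mem_univ β)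

lemma nc_gradOp_zero (S : Setup d F) (χ : Cfg d → ℝ) (β : Fin 16) {y : Cfg d}
    (hy : y ∉ tsupport χ) : S.gradOp χ β y = 0 := by
  have h1 : fderiv ℝ χ y = 0 := fderiv_of_notMem_tsupport ℝ hy
  simp [Setup.gradOp, pdr, h1]

/-- **D1** non commuting points are null. -/
theorem nonComm (S : Setup d F) : NonCommStmt S := by
  intro _ R u hS Y hY
  have hV0 : 0 < S.V Y := lt_of_le_of_ne (nc_V_nonneg S Y) (Ne.symm hY)
  have hY0 : Y ≠ 0 := by
    rintro rfl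
    have := nc_V_smul S 0 (0 : Cfg d)
    simp at this
    exact hY this
  have hYn : 0 < ‖Y‖ := norm_pos_iff.2 hY0
  set c : ℝ := S.V Y / 2 with hcdef
  have hc : 0 < c := by positivity
  have hVc : Continuous S.V := (contDiff_V S).continuous
  have hev : ∀ᶠ y in 𝓝 Y, c < S.V y := by
    refine hVc.continuousAt.eventually (lt_mem_nhds ?_)
    rw [hcdef]; linarith
  obtain ⟨δ, hδ, hδV⟩ := Metric.eventually_nhds_iff.1 hev
  set ε : ℝ := min (δ / 4) (‖Y‖ / 4) with hεdef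
  have hε : 0 < ε := lt_min (by positivity) (by positivity)
  have hε1 : 2 * ε < δ := by
    have := min_le_left (δ / 4) (‖Y‖ / 4)
    rw [← hεdef] at this
    linarith
  have hε2 : 4 * ε ≤ ‖Y‖ := by
    have := min_le_right (δ / 4) (‖Y‖ / 4)
    rw [← hεdef] at this
    linarith
  refine ⟨ε, hε, ?_⟩
  let f : ContDiffBump Y := ⟨ε, 2 * ε, hε, by linarith⟩
  let χ : Cfg d → ℝ := fun y => f y
  have hχs : ContDiff ℝ ∞ χ := f.contDiff
  have hχc : HasCompactSupport χ := f.hasCompactSupport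
  have hχ0 : ∀ y, 0 ≤ χ y := fun y => f.nonneg
  have hχ1 : ∀ y, χ y ≤ 1 := fun y => f.le_one
  have hχin : ∀ y, dist y Y ≤ ε → χ y = 1 := fun y hy => f.one_of_mem_closedBall hy
  have hχout : ∀ y, 2 * ε ≤ dist y Y → χ y = 0 := fun y hy => f.zero_of_le_dist hy
  have hts : tsupport χ = Metric.closedBall Y (2 * ε) := f.tsupport_eq
  obtain ⟨K, hK, hKb⟩ := nc_gradOp_bound S χ hχs hχc
  obtain ⟨M, hM⟩ := (isCompact_closedBall Y (2 * ε)).exists_bound_of_continuousOn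
    (contDiff_Fx S).continuous.continuousOn
  have hM0 : 0 ≤ M := (norm_nonneg _).trans (hM Y (Metric.mem_closedBall_self (by positivity)))
  obtain ⟨C, hC⟩ := hS.bd (‖Y‖ / 4) (2 * ‖Y‖) (by positivity) (by linarith)
  set C' : ℝ := (1 / 16) * (2 * C + 32 * K ^ 2 * C) with hC'
  have hmain : ∀ n, (c * R n ^ 4 - M * R n) * (∫ x, ‖((χ ((R n)⁻¹ • x) : ℝ) : ℂ) • u n x‖ ^ 2) ≤
      C' / R n ^ 2 := by
    intro n
    have hR := hS.pos n
    have hRi : 0 < (R n)⁻¹ := by positivity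
    set χn : Cfg d → ℝ := fun x => χ ((R n)⁻¹ • x) with hχn
    have hχns : ContDiff ℝ ∞ χn := hχs.comp (contDiff_const_smul _)
    have hu : Setup.Tst (u n) := (hS.inv n).1
    have hw : Setup.Tst (fun x => ((χn x : ℝ) : ℂ) • u n x) := Setup.Tst.rsmul hχns hu
    set w : Cfg d → F := fun x => ((χn x : ℝ) : ℂ) • u n x with hwdef
    set A : Set (Cfg d) := shl d (‖Y‖ / 4 * R n) (2 * ‖Y‖ * R n) with hA
    have hAm : MeasurableSet A :=
      (measurableSet_lt measurable_const measurable_norm).inter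
        (measurableSet_lt measurable_norm measurable_const)
    -- points near `R Y` are in the shell
    have hin : ∀ x : Cfg d, (R n)⁻¹ • x ∈ Metric.closedBall Y (2 * ε) → x ∈ A := by
      intro x hx
      rw [Metric.mem_closedBall, dist_eq_norm] at hx
      have e1 : ‖(R n)⁻¹ • x‖ = (R n)⁻¹ * ‖x‖ := by
        rw [norm_smul, Real.norm_eq_abs, abs_of_pos hRi]
      have e2 : ‖(R n)⁻¹ • x‖ ≤ ‖Y‖ + 2 * ε := by
        have := norm_add_le ((R n)⁻¹ • x - Y) Y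
        rw [sub_add_cancel] at this
        linarith
      have e3 : ‖Y‖ - 2 * ε ≤ ‖(R n)⁻¹ • x‖ := by
        have := norm_sub_norm_le Y ((R n)⁻¹ • x)
        rw [norm_sub_rev] at this
        linarith
      rw [e1] at e2 e3
      have e4 : (R n)⁻¹ * ‖x‖ * R n = ‖x‖ := by field_simp
      constructor
      · have : (‖Y‖ / 4) < (R n)⁻¹ * ‖x‖ := by linarith
        calc ‖Y‖ / 4 * R n < (R n)⁻¹ * ‖x‖ * R n := by gcongr
          _ = ‖x‖ := e4
      · have : (R n)⁻¹ * ‖x‖ < 2 * ‖Y‖ := by linarith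
        calc ‖x‖ = (R n)⁻¹ * ‖x‖ * R n := e4.symm
          _ < 2 * ‖Y‖ * R n := by gcongr
    -- upper bound
    have hup : ∀ β, ∫ x, ‖S.Q β w x‖ ^ 2 ≤ 2 * (∫ x in A, ‖S.Q β (u n) x‖ ^ 2) +
        2 * (K / R n) ^ 2 * mas (u n) A := by
      intro β
      have i1 : Integrable (fun x => ‖S.Q β (u n) x‖ ^ 2) := (hu.Q S β).norm_sq_int
      have i2 : Integrable (fun x => ‖u n x‖ ^ 2) := hu.norm_sq_int
      have e0 : 2 * (∫ x in A, ‖S.Q β (u n) x‖ ^ 2) + 2 * (K / R n) ^ 2 * mas (u n) A =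
          ∫ x, A.indicator (fun x => 2 * ‖S.Q β (u n) x‖ ^ 2 + 2 * (K / R n) ^ 2 * ‖u n x‖ ^ 2) x := by
        rw [integral_indicator hAm, integral_add (i1.integrableOn.const_mul _)
          (i2.integrableOn.const_mul _), integral_const_mul, integral_const_mul]
        rfl
      rw [e0]
      refine integral_mono (hw.Q S β).norm_sq_int
        (((i1.const_mul 2).add (i2.const_mul _)).indicator hAm) fun x => ?_
      have hq : S.Q β w x = ((χn x : ℝ) : ℂ) • S.Q β (u n) x + S.gradOp χn β x (u n x) :=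
        S.Q_cut χn β (u n) x (hχns.differentiable (by simp) x) (hu.diff x)
      have hg : S.gradOp χn β x = (((R n)⁻¹ : ℝ) : ℂ) • S.gradOp χ β ((R n)⁻¹ • x) :=
        nc_gradOp_scale S χ hχs _ β x
      by_cases hxA : x ∈ A
      · rw [Set.indicator_of_mem hxA]
        have h1 : ‖((χn x : ℝ) : ℂ) • S.Q β (u n) x‖ ≤ ‖S.Q β (u n) x‖ := by
          rw [norm_smul, Complex.norm_real, Real.norm_eq_abs, abs_of_nonneg (hχ0 _)]
          exact mul_le_of_le_one_left (norm_nonneg _) (hχ1 _)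
        have h2 : ‖S.gradOp χn β x (u n x)‖ ≤ K / R n * ‖u n x‖ := by
          refine ((S.gradOp χn β x).le_opNorm _).trans ?_
          gcongr
          rw [hg, norm_smul, Complex.norm_real, Real.norm_eq_abs, abs_of_pos hRi, div_eq_inv_mul]
          gcongr
          exact hKb _ _
        have h3 : ‖S.Q β w x‖ ≤ ‖S.Q β (u n) x‖ + K / R n * ‖u n x‖ := by
          rw [hq]
          exact (norm_add_le _ _).trans (add_le_add h1 h2)
        have h4 : ‖S.Q β w x‖ ^ 2 ≤ (‖S.Q β (u n) x‖ + K / R n * ‖u n x‖) ^ 2 :=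
          pow_le_pow_left₀ (norm_nonneg _) h3 2
        nlinarith [sq_nonneg (‖S.Q β (u n) x‖ - K / R n * ‖u n x‖)]
      · rw [Set.indicator_of_notMem hxA]
        have hx1 : (R n)⁻¹ • x ∉ Metric.closedBall Y (2 * ε) := fun h => hxA (hin x h)
        have hx2 : χn x = 0 := by
          refine hχout _ ?_
          rw [Metric.mem_closedBall] at hx1
          exact (not_le.1 hx1).le
        have hx3 : S.gradOp χn β x = 0 := by
          rw [hg, nc_gradOp_zero S χ β (by rw [hts]; exact hx1), smul_zero]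
        have : S.Q β w x = 0 := by rw [hq, hx2, hx3]; simp
        simp [this]
    have hsum : ∑ β, ∫ x, ‖S.Q β w x‖ ^ 2 ≤ (2 * C + 32 * K ^ 2 * C) / R n ^ 2 := by
      have h1 : ∑ β, ∫ x, ‖S.Q β w x‖ ^ 2 ≤ 2 * ena S (u n) A + 32 * (K / R n) ^ 2 * mas (u n) A := by
        refine (Finset.sum_le_sum fun β _ => hup β).trans (le_of_eq ?_)
        rw [Finset.sum_add_distrib, ← Finset.mul_sum, Finset.sum_const, Finset.card_univ, Fintype.card_fin,
          nsmul_eq_mul]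
        unfold ena
        push_cast
        ring
      have h2 := hC n
      rw [← hA] at h2
      have hm0 : 0 ≤ mas (u n) A := integral_nonneg fun x => by positivity
      have he0 : 0 ≤ ena S (u n) A :=
        Finset.sum_nonneg fun β _ => integral_nonneg fun x => by positivity
      have h3 : mas (u n) A ≤ C := by
        have : 0 ≤ R n ^ 2 * ena S (u n) A := by positivity
        linarith
      have h4 : ena S (u n) A ≤ C / R n ^ 2 := by
        rw [le_div_iff₀ (by positivity)]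
        linarith
      calc ∑ β, ∫ x, ‖S.Q β w x‖ ^ 2 ≤ 2 * ena S (u n) A + 32 * (K / R n) ^ 2 * mas (u n) A := h1
        _ ≤ 2 * (C / R n ^ 2) + 32 * (K / R n) ^ 2 * C := by gcongr
        _ = (2 * C + 32 * K ^ 2 * C) / R n ^ 2 := by ring
    have hen := energy_formula S w hw
    have hpd : 0 ≤ ∑ i, ∑ A, ∫ x, ‖pd i A w x‖ ^ 2 :=
      Finset.sum_nonneg fun i _ => Finset.sum_nonneg fun A _ => integral_nonneg fun x => by positivity
    have iV : Integrable (fun x => S.V x * ‖w x‖ ^ 2) := hw.mul_norm_sq_int hVc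
    have hFw : Setup.Tst (fun x => S.Fx x (w x)) := hw.clm (contDiff_Fx S)
    have iF : Integrable (fun x => (inner ℂ (w x) (S.Fx x (w x))).re) :=
      (hw.inner_int hFw.1.continuous).re
    have hlow : (c * R n ^ 4 - M * R n) * (∫ x, ‖w x‖ ^ 2) ≤
        (∫ x, S.V x * ‖w x‖ ^ 2) + (∫ x, (inner ℂ (w x) (S.Fx x (w x))).re) := by
      rw [← integral_add iV iF, ← integral_const_mul]
      refine integral_mono (hw.norm_sq_int.const_mul _) (iV.add iF) fun x => ?_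
      show (c * R n ^ 4 - M * R n) * ‖w x‖ ^ 2 ≤ S.V x * ‖w x‖ ^ 2 + (inner ℂ (w x) (S.Fx x (w x))).re
      by_cases hx : w x = 0
      · rw [hx]; simp
      have hy : dist ((R n)⁻¹ • x) Y < 2 * ε := by
        by_contra hcon
        apply hx
        have := hχout _ (not_lt.1 hcon)
        show ((χn x : ℝ) : ℂ) • u n x = 0
        rw [show χn x = 0 from this]
        simp
      have ex : x = R n • ((R n)⁻¹ • x) := by
        rw [smul_smul, mul_inv_cancel₀ hR.ne', one_smul]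
      have hVx : c * R n ^ 4 ≤ S.V x := by
        rw [ex, nc_V_smul]
        have := (hδV (hy.trans hε1)).le
        rw [mul_comm]
        gcongr
      have hFxx : ‖S.Fx x‖ ≤ M * R n := by
        rw [ex, nc_Fx_smul, norm_smul, Complex.norm_real, Real.norm_eq_abs, abs_of_pos hR, mul_comm]
        gcongr
        exact hM _ hy.le
      have h5 : -(M * R n * ‖w x‖ ^ 2) ≤ (inner ℂ (w x) (S.Fx x (w x))).re := by
        have h6 : |(inner ℂ (w x) (S.Fx x (w x))).re| ≤ ‖w x‖ * (M * R n * ‖w x‖) := by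
          refine (Complex.abs_re_le_norm _).trans ((norm_inner_le_norm _ _).trans ?_)
          gcongr
          refine ((S.Fx x).le_opNorm _).trans ?_
          gcongr
        have h7 := (abs_le.1 h6).1
        nlinarith
      nlinarith [sq_nonneg ‖w x‖]
    calc (c * R n ^ 4 - M * R n) * (∫ x, ‖w x‖ ^ 2) ≤
        (∫ x, S.V x * ‖w x‖ ^ 2) + (∫ x, (inner ℂ (w x) (S.Fx x (w x))).re) := hlow
      _ ≤ (1 / 16) * ∑ β, ∫ x, ‖S.Q β w x‖ ^ 2 := by linarith
      _ ≤ (1 / 16) * ((2 * C + 32 * K ^ 2 * C) / R n ^ 2) := by gcongr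
      _ = C' / R n ^ 2 := by rw [hC']; ring
  -- conclusion
  have hlim : Tendsto (fun n => C' / R n ^ 2) atTop (𝓝 0) :=
    Tendsto.div_atTop tendsto_const_nhds ((tendsto_pow_atTop two_ne_zero).comp hS.lim)
  refine tendsto_of_tendsto_of_tendsto_of_le_of_le' tendsto_const_nhds hlim
    (Eventually.of_forall fun n => integral_nonneg fun x => by positivity) ?_
  have hlarge : ∀ᶠ n in atTop, max 1 ((M + 1) / c) ≤ R n := hS.lim.eventually_ge_atTop _
  filter_upwards [hlarge] with n hn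
  have hR := hS.pos n
  have hRi : 0 < (R n)⁻¹ := by positivity
  have hR1 : 1 ≤ R n := (le_max_left _ _).trans hn
  have hR2 : M + 1 ≤ R n * c := by
    have := (le_max_right _ _).trans hn
    rwa [div_le_iff₀ hc] at this
  have hbig : 1 ≤ c * R n ^ 4 - M * R n := by
    have h1 : R n ^ 2 ≤ R n ^ 4 := pow_le_pow_right₀ hR1 (by norm_num)
    have h2 : c * R n ^ 2 ≤ c * R n ^ 4 := by gcongr
    nlinarith
  have hu : Setup.Tst (u n) := (hS.inv n).1
  have hχns : ContDiff ℝ ∞ (fun x : Cfg d => χ ((R n)⁻¹ • x)) := hχs.comp (contDiff_const_smul _)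
  have hw : Setup.Tst (fun x => ((χ ((R n)⁻¹ • x) : ℝ) : ℂ) • u n x) := Setup.Tst.rsmul hχns hu
  have h0 : 0 ≤ ∫ x, ‖((χ ((R n)⁻¹ • x) : ℝ) : ℂ) • u n x‖ ^ 2 :=
    integral_nonneg fun x => by positivity
  have h1 : mas (u n) (Metric.ball (R n • Y) (ε * R n)) ≤
      ∫ x, ‖((χ ((R n)⁻¹ • x) : ℝ) : ℂ) • u n x‖ ^ 2 := by
    have e1 : mas (u n) (Metric.ball (R n • Y) (ε * R n)) =
        ∫ x in Metric.ball (R n • Y) (ε * R n), ‖((χ ((R n)⁻¹ • x) : ℝ) : ℂ) • u n x‖ ^ 2 := by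
      refine setIntegral_congr_fun measurableSet_ball fun x hx => ?_
      have hx1 : dist ((R n)⁻¹ • x) Y ≤ ε := by
        rw [Metric.mem_ball] at hx
        have : Y = (R n)⁻¹ • (R n • Y) := by
          rw [smul_smul, inv_mul_cancel₀ hR.ne', one_smul]
        rw [this, dist_smul₀, Real.norm_eq_abs, abs_of_pos hRi, inv_mul_le_iff₀ hR]
        linarith
      show ‖u n x‖ ^ 2 = ‖((χ ((R n)⁻¹ • x) : ℝ) : ℂ) • u n x‖ ^ 2
      rw [hχin _ hx1]
      simp
    rw [e1]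
    exact setIntegral_le_integral hw.norm_sq_int (Eventually.of_forall fun x => by positivity)
  calc mas (u n) (Metric.ball (R n • Y) (ε * R n))
      ≤ ∫ x, ‖((χ ((R n)⁻¹ • x) : ℝ) : ℂ) • u n x‖ ^ 2 := h1
    _ ≤ (c * R n ^ 4 - M * R n) * (∫ x, ‖((χ ((R n)⁻¹ • x) : ℝ) : ℂ) • u n x‖ ^ 2) :=
        le_mul_of_one_le_left h0 hbig
    _ ≤ C' / R n ^ 2 := hmain n

end Vale.Agent.P353.Z.AD
end

section

/-! # P353, all `N`, block LOW, LH5: adjoint action of exponentials (helper803) -/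

open MeasureTheory Filter Topology
open scoped ContDiff

namespace Vale.Agent.P353.AN.LW

open Vale.Agent.P353.Z Vale.Agent.P353.Z.U Vale.Agent.P353.Z.AN Vale.Agent.P353.AN.G

variable {N d : ℕ} {F : Type*} [NormedAddCommGroup F] [InnerProductSpace ℂ F]

/-- **LH5 AdE** -/
theorem adE_stmt (M : BFSS.Model N d F) : AdEStmt M := by
  intro S hS U ξ hU
  set h : Fin d → ℝ := fun A => ξ A with hh
  have hadm : S.adm ξ = S.adm h := rfl
  rw [hadm]
  set K : Matrix (Fin N) (Fin N) ℂ := ∑ A, ((h A : ℝ) : ℂ) • M.T A with hK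
  have hKU : NormedSpace.exp (Complex.I • K) = U.val := hU.symm
  have hKh : K.conjTranspose = K := by
    rw [hK, Matrix.conjTranspose_sum]
    refine Finset.sum_congr rfl fun A _ => ?_
    rw [Matrix.conjTranspose_smul, M.T_hermitian, Complex.star_def, Complex.conj_ofReal]
  have hD : ∀ C, (Complex.I • K) * M.T C - M.T C * (Complex.I • K) =
      ∑ B, ((((-1 : ℝ) • S.adm h) B C : ℝ) : ℂ) • M.T B := by
    intro C
    have e1 : (Complex.I • K) * M.T C - M.T C * (Complex.I • K) =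
        Complex.I • ∑ A, ((h A : ℝ) : ℂ) • (M.T A * M.T C - M.T C * M.T A) := by
      rw [Matrix.smul_mul, Matrix.mul_smul, ← smul_sub, hK, Matrix.sum_mul,
        Matrix.mul_sum, ← Finset.sum_sub_distrib]
      congr 1
      refine Finset.sum_congr rfl fun A _ => ?_
      rw [Matrix.smul_mul, Matrix.mul_smul, smul_sub]
    rw [e1, Finset.smul_sum]
    have e2 : ∀ A, Complex.I • ((h A : ℝ) : ℂ) • (M.T A * M.T C - M.T C * M.T A) =
        ∑ B, ((-(h A * M.f A C B) : ℝ) : ℂ) • M.T B := by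
      intro A
      rw [M.T_comm, Finset.smul_sum, Finset.smul_sum]
      refine Finset.sum_congr rfl fun B _ => ?_
      rw [smul_smul, smul_smul]
      congr 1
      push_cast
      linear_combination ((h A : ℂ) * (M.f A C B : ℂ)) * Complex.I_mul_I
    rw [Finset.sum_congr rfl fun A _ => e2 A, Finset.sum_comm]
    refine Finset.sum_congr rfl fun B _ => ?_
    rw [← Finset.sum_smul, ← Complex.ofReal_sum]
    congr 2
    simp only [Setup.adm, Matrix.smul_apply, Matrix.of_apply, smul_eq_mul, Finset.mul_sum]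
    refine Finset.sum_congr rfl fun A _ => ?_
    rw [S.f_cyc B A C, hS.hf]
    ring
  have hconj := mad_conj M.T (Complex.I • K) ((-1 : ℝ) • S.adm h) hD
  have hUstar : U.val.conjTranspose = NormedSpace.exp (-(Complex.I • K)) := by
    rw [← hKU, ← Matrix.exp_conjTranspose, Matrix.conjTranspose_smul, hKh]
    simp
  ext B A
  rw [Matrix.of_apply]
  unfold BFSS.adCoeff
  rw [hUstar]
  conv_lhs => rw [← hKU]
  rw [hconj A, Matrix.mul_sum, Matrix.trace_sum, Finset.sum_eq_single B]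
  · rw [Matrix.mul_smul, Matrix.trace_smul, M.T_orthonormal, if_pos rfl]
    simp
  · intro C _ hC
    rw [Matrix.mul_smul, Matrix.trace_smul, M.T_orthonormal, if_neg (Ne.symm hC), smul_zero]
  · simp

end Vale.Agent.P353.AN.LW
end

section

/-! # P353, all `N`, block LOW, part H: LH6 `SUniStmt` (helper805) -/

open MeasureTheory Filter Topology
open scoped ContDiff

namespace Vale.Agent.P353.AN.LW

open Vale.Agent.P353.Z Vale.Agent.P353.Z.U Vale.Agent.P353.Z.AN Vale.Agent.P353.AN.G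

variable {N d : ℕ} {F : Type*} [NormedAddCommGroup F] [InnerProductSpace ℂ F]

namespace SUni

theorem entry_le (X : Matrix (Fin N) (Fin N) ℂ) (j k : Fin N) : ‖X j k‖ ≤ fn X := by
  unfold fn
  refine Real.le_sqrt_of_sq_le ?_
  have h1 : ‖X j k‖ ^ 2 ≤ ∑ k', ‖X j k'‖ ^ 2 :=
    Finset.single_le_sum (f := fun k' => ‖X j k'‖ ^ 2) (fun _ _ => sq_nonneg _) (Finset.mem_univ k)
  have h2 : ∑ k', ‖X j k'‖ ^ 2 ≤ ∑ j', ∑ k', ‖X j' k'‖ ^ 2 :=
    Finset.single_le_sum (f := fun j' => ∑ k', ‖X j' k'‖ ^ 2)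
      (fun _ _ => Finset.sum_nonneg fun _ _ => sq_nonneg _) (Finset.mem_univ j)
  exact h1.trans h2

theorem fn_nonneg (X : Matrix (Fin N) (Fin N) ℂ) : 0 ≤ fn X := Real.sqrt_nonneg _

theorem eq_of_fn_le {X Y : Matrix (Fin N) (Fin N) ℂ} (h : fn (X - Y) ≤ 0) : X = Y := by
  ext j k
  have := (entry_le (X - Y) j k).trans h
  have h2 : ‖(X - Y) j k‖ = 0 := le_antisymm this (norm_nonneg _)
  rw [Matrix.sub_apply, norm_eq_zero, sub_eq_zero] at h2
  exact h2

theorem fn_cont : Continuous fun p : BFSS.SU N × BFSS.SU N => fn (p.1.val - p.2.val) := by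
  unfold fn
  refine Real.continuous_sqrt.comp ?_
  refine continuous_finsetSum _ fun j _ => continuous_finsetSum _ fun k _ => ?_
  refine (Continuous.norm ?_).pow 2
  have h1 : Continuous fun p : BFSS.SU N × BFSS.SU N => p.1.val - p.2.val :=
    (continuous_subtype_val.comp continuous_fst).sub (continuous_subtype_val.comp continuous_snd)
  exact (continuous_apply k).comp ((continuous_apply j).comp h1)

theorem mul_bd {P Q : Matrix (Fin N) (Fin N) ℂ} {a b : ℝ} (ha : ∀ j k, ‖P j k‖ ≤ a)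
    (hb : ∀ j k, ‖Q j k‖ ≤ b) (ha0 : 0 ≤ a) (j k : Fin N) : ‖(P * Q) j k‖ ≤ N * (a * b) := by
  rw [Matrix.mul_apply]
  refine (norm_sum_le _ _).trans ?_
  calc ∑ i, ‖P j i * Q i k‖ ≤ ∑ _i : Fin N, a * b := by
        refine Finset.sum_le_sum fun i _ => ?_
        rw [norm_mul]
        exact mul_le_mul (ha j i) (hb i k) (norm_nonneg _) ha0
    _ = N * (a * b) := by simp

theorem tr_bd {P : Matrix (Fin N) (Fin N) ℂ} {a : ℝ} (ha : ∀ j k, ‖P j k‖ ≤ a) :
    ‖P.trace‖ ≤ N * a := by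
  unfold Matrix.trace
  refine (norm_sum_le _ _).trans ?_
  calc ∑ i, ‖P.diag i‖ ≤ ∑ _i : Fin N, a := Finset.sum_le_sum fun i _ => ha i i
    _ = N * a := by simp

theorem ent_bd (U : BFSS.SU N) (j k : Fin N) : ‖U.val j k‖ ≤ 1 :=
  entry_norm_bound_of_unitary (Matrix.mem_specialUnitaryGroup_iff.1 U.2).1 j k

theorem ent_bd_star (U : BFSS.SU N) (j k : Fin N) : ‖U.val.conjTranspose j k‖ ≤ 1 := by
  rw [Matrix.conjTranspose_apply, norm_star]
  exact ent_bd U k j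

theorem coeff_lip (M : BFSS.Model N d F) : ∃ C : ℝ, 0 ≤ C ∧ ∀ (U V : BFSS.SU N) (B A : Fin d),
    |BFSS.adCoeff M.T U B A - BFSS.adCoeff M.T V B A| ≤ C * fn (U.val - V.val) := by
  obtain ⟨t, ht0, hT⟩ : ∃ t : ℝ, 0 ≤ t ∧ ∀ A j k, ‖M.T A j k‖ ≤ t :=
    ⟨∑ A, fn (M.T A), Finset.sum_nonneg fun A _ => fn_nonneg _, fun A j k =>
      (entry_le (M.T A) j k).trans
        (Finset.single_le_sum (f := fun A => fn (M.T A)) (fun _ _ => fn_nonneg _)
          (Finset.mem_univ A))⟩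
  refine ⟨N * (N * (t * (2 * (N * (N * t))))), by positivity, fun U V B A => ?_⟩
  obtain ⟨x, hx⟩ : ∃ x : ℝ, x = fn (U.val - V.val) := ⟨_, rfl⟩
  have hx0 : 0 ≤ x := hx ▸ fn_nonneg _
  rw [← hx]
  have e : BFSS.adCoeff M.T U B A - BFSS.adCoeff M.T V B A =
      (M.T B * ((U.val - V.val) * M.T A * U.val.conjTranspose +
        V.val * M.T A * (U.val - V.val).conjTranspose)).trace.re := by
    unfold BFSS.adCoeff
    rw [← Complex.sub_re, ← Matrix.trace_sub, ← Matrix.mul_sub, Matrix.conjTranspose_sub]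
    congr 3
    rw [Matrix.sub_mul, Matrix.sub_mul, Matrix.mul_sub]
    abel_nf
  rw [e]
  refine (Complex.abs_re_le_norm _).trans ?_
  have h1 : ∀ j k, ‖(U.val - V.val) j k‖ ≤ x := fun j k => hx ▸ entry_le _ j k
  have h1s : ∀ j k, ‖(U.val - V.val).conjTranspose j k‖ ≤ x := fun j k => by
    rw [Matrix.conjTranspose_apply, norm_star]
    exact h1 k j
  have h2 : ∀ j k, ‖((U.val - V.val) * M.T A) j k‖ ≤ N * (x * t) := mul_bd h1 (hT A) hx0
  have h3 : ∀ j k, ‖((U.val - V.val) * M.T A * U.val.conjTranspose) j k‖ ≤ N * (N * (x * t) * 1) :=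
    mul_bd h2 (ent_bd_star U) (mul_nonneg N.cast_nonneg (mul_nonneg hx0 ht0))
  have h4 : ∀ j k, ‖(V.val * M.T A) j k‖ ≤ N * (1 * t) := mul_bd (ent_bd V) (hT A) (by norm_num)
  have h5 : ∀ j k, ‖(V.val * M.T A * (U.val - V.val).conjTranspose) j k‖ ≤ N * (N * (1 * t) * x) :=
    mul_bd h4 h1s (mul_nonneg N.cast_nonneg (mul_nonneg (by norm_num) ht0))
  have h6 : ∀ j k, ‖((U.val - V.val) * M.T A * U.val.conjTranspose +
      V.val * M.T A * (U.val - V.val).conjTranspose) j k‖ ≤ 2 * (N * (N * t)) * x := fun j k => by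
    rw [Matrix.add_apply]
    refine (norm_add_le _ _).trans ((add_le_add (h3 j k) (h5 j k)).trans (le_of_eq ?_))
    ring
  refine (tr_bd (mul_bd (hT B) h6 ht0)).trans (le_of_eq ?_)
  ring

theorem norm_le_sum {ι : Type*} [Fintype ι] (v : EuclideanSpace ℝ ι) : ‖v‖ ≤ ∑ i, ‖v i‖ := by
  rw [EuclideanSpace.norm_eq]
  refine Real.sqrt_le_iff.2 ⟨Finset.sum_nonneg fun _ _ => norm_nonneg _, ?_⟩
  exact Finset.sum_sq_le_sq_sum_of_nonneg fun _ _ => norm_nonneg _

end SUni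

open SUni in
/-- **LH6 SUni** -/
theorem sUni_stmt (M : BFSS.Model N d F) : SUniStmt M := by
  intro hF
  constructor
  · intro ε hε
    have hS : Continuous fun p : BFSS.SU N × BFSS.SU N => ‖M.S p.1 - M.S p.2‖ := by
      have h : Continuous M.S := continuous_clm_apply.2 M.S_continuous
      exact ((h.comp continuous_fst).sub (h.comp continuous_snd)).norm
    set K : Set (BFSS.SU N × BFSS.SU N) := {p | ε ≤ ‖M.S p.1 - M.S p.2‖} with hK
    have hKc : IsCompact K := (isClosed_le continuous_const hS).isCompact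
    rcases K.eq_empty_or_nonempty with hE | hne
    · refine ⟨1, one_pos, fun U V _ v => ?_⟩
      have : (U, V) ∉ K := by rw [hE]; exact Set.notMem_empty _
      have h1 : ‖M.S U - M.S V‖ < ε := by
        rw [hK, Set.mem_ofPred_eq, not_le] at this
        exact this
      rw [← sub_apply]
      exact ((M.S U - M.S V).le_opNorm v).trans
        (mul_le_mul_of_nonneg_right h1.le (norm_nonneg v))
    · obtain ⟨p, hp, hmin⟩ := hKc.exists_isMinOn hne fn_cont.continuousOn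
      have hpos : 0 < fn (p.1.val - p.2.val) := by
        by_contra hcon
        have h1 : p.1 = p.2 := Subtype.ext (eq_of_fn_le (not_lt.1 hcon))
        have h2 : ε ≤ ‖M.S p.1 - M.S p.2‖ := hp
        rw [h1, sub_self, norm_zero] at h2
        exact absurd hε (not_lt.2 h2)
      refine ⟨fn (p.1.val - p.2.val) / 2, half_pos hpos, fun U V hUV v => ?_⟩
      have h1 : ‖M.S U - M.S V‖ < ε := by
        by_contra hcon
        have hmem : (U, V) ∈ K := not_lt.1 hcon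
        have h2 : fn (p.1.val - p.2.val) ≤ fn (U.val - V.val) :=
          isMinOn_iff.1 hmin (U, V) hmem
        exact absurd (h2.trans hUV) (not_le.2 (half_lt_self hpos))
      rw [← sub_apply]
      exact ((M.S U - M.S V).le_opNorm v).trans
        (mul_le_mul_of_nonneg_right h1.le (norm_nonneg v))
  · obtain ⟨C, hC0, hC⟩ := coeff_lip M
    refine ⟨(9 * d) * (d * C) + 1, by positivity, fun U V x => ?_⟩
    obtain ⟨y, hy⟩ : ∃ y : ℝ, y = fn (U.val - V.val) := ⟨_, rfl⟩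
    have hy0 : 0 ≤ y := hy ▸ fn_nonneg _
    have hCy : ∀ B A, |BFSS.adCoeff M.T U B A - BFSS.adCoeff M.T V B A| ≤ C * y :=
      fun B A => hy ▸ hC U V B A
    rw [← hy]
    have h1 : ∀ p : Fin 9 × Fin d, ‖(M.act U x - M.act V x) p‖ ≤ d * C * y * ‖x‖ := fun p => by
      have e : (M.act U x - M.act V x) p = ∑ A, (BFSS.adCoeff M.T U p.2 A -
          BFSS.adCoeff M.T V p.2 A) * x (p.1, A) := by
        show ∑ A, BFSS.adCoeff M.T U p.2 A * x (p.1, A) -
          ∑ A, BFSS.adCoeff M.T V p.2 A * x (p.1, A) = _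
        rw [← Finset.sum_sub_distrib]
        exact Finset.sum_congr rfl fun A _ => by ring
      rw [e]
      refine (norm_sum_le _ _).trans ?_
      calc ∑ A, ‖(BFSS.adCoeff M.T U p.2 A - BFSS.adCoeff M.T V p.2 A) * x (p.1, A)‖
          ≤ ∑ _A : Fin d, C * y * ‖x‖ := by
            refine Finset.sum_le_sum fun A _ => ?_
            rw [norm_mul]
            exact mul_le_mul (hCy p.2 A) (PiLp.norm_apply_le x (p.1, A)) (norm_nonneg _)
              (mul_nonneg hC0 hy0)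
        _ = d * C * y * ‖x‖ := by simp; ring
    calc ‖M.act U x - M.act V x‖ ≤ ∑ p, ‖(M.act U x - M.act V x) p‖ := norm_le_sum _
      _ ≤ ∑ _p : Fin 9 × Fin d, d * C * y * ‖x‖ := Finset.sum_le_sum fun p _ => h1 p
      _ = (9 * d) * (d * C) * y * ‖x‖ := by simp; ring
      _ ≤ ((9 * d) * (d * C) + 1) * y * ‖x‖ := by
          have : 0 ≤ y * ‖x‖ := by positivity
          nlinarith

end Vale.Agent.P353.AN.LW
end

section

/-! # P353, all `N`, block LOW, LH8: geometry near the normaliser -/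

open MeasureTheory Filter Topology
open scoped ContDiff

namespace Vale.Agent.P353.AN.LW

open Vale.Agent.P353.Z Vale.Agent.P353.Z.U Vale.Agent.P353.Z.AN Vale.Agent.P353.AN.G

namespace Geo

variable {N d dh dm r ds : ℕ} {F : Type*} [NormedAddCommGroup F] [InnerProductSpace ℂ F]

/-! ### operators on configurations -/

/-- `ro O` as a linear map -/
noncomputable def roL (O : Matrix (Fin d) (Fin d) ℝ) : Cfg d →ₗ[ℝ] Cfg d where
  toFun := ro O
  map_add' x y := by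
    ext p
    rw [grp_ro_apply]
    change _ = ro O x p + ro O y p
    rw [grp_ro_apply, grp_ro_apply, ← Finset.sum_add_distrib]
    refine Finset.sum_congr rfl fun B _ => ?_
    change O p.2 B * (x (p.1, B) + y (p.1, B)) = _
    ring
  map_smul' c x := by
    ext p
    rw [grp_ro_apply]
    change _ = c * ro O x p
    rw [grp_ro_apply, Finset.mul_sum]
    refine Finset.sum_congr rfl fun B _ => ?_
    change O p.2 B * (c * x (p.1, B)) = _
    ring

/-- `ro` as an algebra homomorphism -/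
noncomputable def roA (d : ℕ) : Matrix (Fin d) (Fin d) ℝ →ₐ[ℝ] (Cfg d →L[ℝ] Cfg d) :=
  AlgHom.ofLinearMap
    { toFun := fun O => LinearMap.toContinuousLinearMap (roL O)
      map_add' := by
        intro O O'
        ext x p
        change ro (O + O') x p = ro O x p + ro O' x p
        rw [grp_ro_apply, grp_ro_apply, grp_ro_apply, ← Finset.sum_add_distrib]
        refine Finset.sum_congr rfl fun B _ => ?_
        rw [Matrix.add_apply]
        ring
      map_smul' := by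
        intro c O
        ext x p
        change ro (c • O) x p = c * ro O x p
        rw [grp_ro_apply, grp_ro_apply, Finset.mul_sum]
        refine Finset.sum_congr rfl fun B _ => ?_
        rw [Matrix.smul_apply, smul_eq_mul]
        ring }
    (by
      ext x p
      change ro 1 x p = x p
      rw [grp_ro_one])
    (by
      intro O O'
      ext x p
      change ro (O * O') x p = ro O (ro O' x) p
      rw [grp_ro_mul])

lemma roA_apply (O : Matrix (Fin d) (Fin d) ℝ) (x : Cfg d) : roA d O x = ro O x := rfl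

section

open scoped Matrix.Norms.Operator

lemma roA_exp (O : Matrix (Fin d) (Fin d) ℝ) :
    roA d (NormedSpace.exp O) = NormedSpace.exp (roA d O) := by
  have hc : Continuous (roA d) := (roA d).toLinearMap.continuous_of_finiteDimensional
  exact NormedSpace.map_exp_of_mem_ball (𝕂 := ℝ) (roA d) hc O
    ((NormedSpace.expSeries_radius_eq_top ℝ (Matrix (Fin d) (Fin d) ℝ)).symm ▸ edist_lt_top _ _)

end

/-- `-ad ξ` -/
noncomputable def Lad (S : Setup d F) : EuclideanSpace ℝ (Fin d) →ₗ[ℝ] (Cfg d →L[ℝ] Cfg d) where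
  toFun ξ := roA d ((-1 : ℝ) • S.adm ξ)
  map_add' ξ ζ := by
    rw [← map_add, ← smul_add]
    congr 2
    ext A C
    simp only [Setup.adm, Matrix.of_apply, Matrix.add_apply]
    rw [← Finset.sum_add_distrib]
    refine Finset.sum_congr rfl fun B _ => ?_
    change S.f A B C * (ξ B + ζ B) = _
    ring
  map_smul' c ξ := by
    rw [RingHom.id_apply, ← map_smul, smul_comm]
    congr 2
    ext A C
    simp only [Setup.adm, Matrix.of_apply, Matrix.smul_apply, smul_eq_mul]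
    rw [Finset.mul_sum]
    refine Finset.sum_congr rfl fun B _ => ?_
    change S.f A B C * (c * ξ B) = _
    ring

lemma Lad_apply (S : Setup d F) (ξ : EuclideanSpace ℝ (Fin d)) (x : Cfg d) (p : Fin 9 × Fin d) :
    Lad S ξ x p = -∑ B, ∑ C, S.f p.2 C B * ξ C * x (p.1, B) := by
  change ro ((-1 : ℝ) • S.adm ξ) x p = _
  rw [grp_ro_apply, ← Finset.sum_neg_distrib]
  refine Finset.sum_congr rfl fun B _ => ?_
  simp only [Setup.adm, Matrix.of_apply, Matrix.smul_apply, smul_eq_mul]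
  rw [neg_one_mul, neg_mul, Finset.sum_mul]

lemma Lad_bd (S : Setup d F) : ∃ K : ℝ, 0 < K ∧ ∀ ξ, ‖Lad S ξ‖ ≤ K * ‖ξ‖ := by
  refine ⟨‖LinearMap.toContinuousLinearMap (Lad S)‖ + 1, by positivity, fun ξ => ?_⟩
  have h := (LinearMap.toContinuousLinearMap (Lad S)).le_opNorm ξ
  have h0 := norm_nonneg ξ
  have h1 : ‖Lad S ξ‖ ≤ ‖LinearMap.toContinuousLinearMap (Lad S)‖ * ‖ξ‖ := h
  nlinarith

/-! ### blocks -/

/-- indicator of `m` -/
noncomputable def mI (φ : Spl dh dm d) (A : Fin d) : ℝ := Sum.elim (fun _ => 0) (fun _ => 1) (φ.symm A)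

@[simp] lemma mI_inl (φ : Spl dh dm d) (A : Fin dh) : mI φ (φ (Sum.inl A)) = 0 := by simp [mI]

@[simp] lemma mI_inr (φ : Spl dh dm d) (A : Fin dm) : mI φ (φ (Sum.inr A)) = 1 := by simp [mI]

@[simp] lemma bl_z (φ : Spl dh dm d) (ψ : Spz r ds dh) (a : Fin r) :
    bl φ ψ (φ (Sum.inl (ψ (Sum.inl a)))) = 0 := by simp [bl]

@[simp] lemma bl_s (φ : Spl dh dm d) (ψ : Spz r ds dh) (a : Fin ds) :
    bl φ ψ (φ (Sum.inl (ψ (Sum.inr a)))) = 1 := by simp [bl]

@[simp] lemma bl_m (φ : Spl dh dm d) (ψ : Spz r ds dh) (a : Fin dm) :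
    bl φ ψ (φ (Sum.inr a)) = 2 := by simp [bl]

/-- block diagonal matrices -/
def BD (φ : Spl dh dm d) (ψ : Spz r ds dh) (O : Matrix (Fin d) (Fin d) ℝ) : Prop :=
  ∀ A B, bl φ ψ A ≠ bl φ ψ B → O A B = 0

lemma BD_mul {φ : Spl dh dm d} {ψ : Spz r ds dh} {O O' : Matrix (Fin d) (Fin d) ℝ}
    (h : BD φ ψ O) (h' : BD φ ψ O') : BD φ ψ (O * O') := by
  intro A B hAB
  rw [Matrix.mul_apply]
  refine Finset.sum_eq_zero fun C _ => ?_
  by_cases h1 : bl φ ψ A = bl φ ψ C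
  · rw [h' C B (by rw [← h1]; exact hAB), mul_zero]
  · rw [h A C h1, zero_mul]

lemma BD_comm {φ : Spl dh dm d} {ψ : Spz r ds dh} {O : Matrix (Fin d) (Fin d) ℝ}
    (h : BD φ ψ O) (e : Fin 3 → ℝ) :
    Commute (Matrix.diagonal fun A => e (bl φ ψ A)) O := by
  change _ * _ = _ * _
  ext A B
  rw [Matrix.diagonal_mul, Matrix.mul_diagonal]
  by_cases h1 : bl φ ψ A = bl φ ψ B
  · rw [h1, mul_comm]
  · rw [h A B h1]
    ring

lemma BD_exp {φ : Spl dh dm d} {ψ : Spz r ds dh} {O : Matrix (Fin d) (Fin d) ℝ}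
    (h : BD φ ψ O) : BD φ ψ (NormedSpace.exp O) := by
  intro A B hAB
  have h1 := (BD_comm h fun k => if k = bl φ ψ A then 1 else 0).exp_right
  have h2 := congrFun (congrFun h1.eq A) B
  rw [Matrix.diagonal_mul, Matrix.mul_diagonal] at h2
  rw [if_pos rfl, if_neg (Ne.symm hAB)] at h2
  linarith

lemma mI_bl (φ : Spl dh dm d) (ψ : Spz r ds dh) (A : Fin d) :
    mI φ A = (fun k : Fin 3 => if k = 2 then (1 : ℝ) else 0) (bl φ ψ A) := by
  obtain ⟨A, rfl⟩ := φ.surjective A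
  rcases A with A | A
  · obtain ⟨A, rfl⟩ := ψ.surjective A
    rcases A with A | A <;> simp
  · simp

/-- projector on `m` -/
noncomputable def Em (φ : Spl dh dm d) : Cfg d →L[ℝ] Cfg d := roA d (Matrix.diagonal (mI φ))

lemma Em_apply (φ : Spl dh dm d) (x : Cfg d) (p : Fin 9 × Fin d) : Em φ x p = mI φ p.2 * x p := by
  change ro (Matrix.diagonal (mI φ)) x p = _
  rw [grp_ro_apply, Finset.sum_eq_single p.2]
  · rw [Matrix.diagonal_apply_eq]
  · intro B _ hB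
    rw [Matrix.diagonal_apply_ne _ (Ne.symm hB), zero_mul]
  · intro h; exact absurd (Finset.mem_univ _) h

lemma Em_comm {φ : Spl dh dm d} {ψ : Spz r ds dh} {O : Matrix (Fin d) (Fin d) ℝ}
    (h : BD φ ψ O) : Commute (Em φ) (roA d O) := by
  have h1 := BD_comm h fun k => if k = 2 then 1 else 0
  have h2 : (Matrix.diagonal fun A => (fun k : Fin 3 => if k = 2 then (1 : ℝ) else 0) (bl φ ψ A)) =
      Matrix.diagonal (mI φ) := by
    congr 1
    funext A
    exact (mI_bl φ ψ A).symm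
  rw [h2] at h1
  exact h1.map (roA d)

lemma Em_Em (φ : Spl dh dm d) (x : Cfg d) : Em φ (Em φ x) = Em φ x := by
  ext p
  rw [Em_apply, Em_apply]
  obtain ⟨A, hA⟩ := φ.surjective p.2
  rw [← hA]
  rcases A with A | A <;> simp

lemma norm_split (φ : Spl dh dm d) (ψ : Spz r ds dh) (w : Cfg d) :
    ‖w‖ ^ 2 = ‖hz ψ (zy φ w)‖ ^ 2 + ‖hs ψ (zy φ w)‖ ^ 2 + ‖pm φ w‖ ^ 2 := by
  simp only [EuclideanSpace.real_norm_sq_eq, Fintype.sum_prod_type]
  rw [← Finset.sum_add_distrib, ← Finset.sum_add_distrib]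
  refine Finset.sum_congr rfl fun i _ => ?_
  rw [← φ.sum_comp, Fintype.sum_sum_type, ← ψ.sum_comp, Fintype.sum_sum_type]
  rfl

lemma pm_Em (φ : Spl dh dm d) (x : Cfg d) : pm φ (Em φ x) = pm φ x := by
  ext p
  change Em φ x (p.1, φ (Sum.inr p.2)) = x (p.1, φ (Sum.inr p.2))
  rw [Em_apply]
  simp

lemma zy_Em (φ : Spl dh dm d) (x : Cfg d) : zy φ (Em φ x) = 0 := by
  ext p
  change Em φ x (p.1, φ (Sum.inl p.2)) = 0
  rw [Em_apply]
  simp

lemma hz_zero (ψ : Spz r ds dh) : hz ψ (0 : Cfg dh) = 0 := by ext p; rfl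
lemma hs_zero (ψ : Spz r ds dh) : hs ψ (0 : Cfg dh) = 0 := by ext p; rfl

lemma norm_Em (φ : Spl dh dm d) (ψ : Spz r ds dh) (x : Cfg d) : ‖Em φ x‖ = ‖pm φ x‖ := by
  have h := norm_split φ ψ (Em φ x)
  rw [pm_Em, zy_Em, hz_zero, hs_zero, norm_zero, norm_zero] at h
  have h1 : ‖Em φ x‖ ^ 2 = ‖pm φ x‖ ^ 2 := by rw [h]; ring
  exact (sq_eq_sq₀ (norm_nonneg _) (norm_nonneg _)).1 h1

lemma norm_Em_le (φ : Spl dh dm d) (x : Cfg d) : ‖Em φ x‖ ≤ ‖x‖ := by
  have h : ‖Em φ x‖ ^ 2 ≤ ‖x‖ ^ 2 := by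
    simp only [EuclideanSpace.real_norm_sq_eq]
    refine Finset.sum_le_sum fun p _ => ?_
    rw [Em_apply]
    obtain ⟨A, hA⟩ := φ.surjective p.2
    rw [← hA]
    rcases A with A | A
    · rw [mI_inl, zero_mul, zero_pow two_ne_zero]
      exact sq_nonneg _
    · simp
  exact (sq_le_sq₀ (norm_nonneg _) (norm_nonneg _)).1 h

/-! ### the points `Ez η` -/

lemma Ez_z (φ : Spl dh dm d) (ψ : Spz r ds dh) (η : Cfg r) (i : Fin 9) (a : Fin r) :
    Ez φ ψ η (i, φ (Sum.inl (ψ (Sum.inl a)))) = η (i, a) := by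
  simp [Ez, emb, Vale.Agent.P353.Z.AN.cmb]

lemma Ez_s (φ : Spl dh dm d) (ψ : Spz r ds dh) (η : Cfg r) (i : Fin 9) (a : Fin ds) :
    Ez φ ψ η (i, φ (Sum.inl (ψ (Sum.inr a)))) = 0 := by
  simp [Ez, emb, Vale.Agent.P353.Z.AN.cmb]

lemma Ez_m (φ : Spl dh dm d) (ψ : Spz r ds dh) (η : Cfg r) (i : Fin 9) (a : Fin dm) :
    Ez φ ψ η (i, φ (Sum.inr a)) = 0 := by
  have h : wt (0 : Wsp dm) i a = 0 := by
    unfold wt
    refine Fin.lastCases (motive := fun i => Fin.lastCases (motive := fun _ => ℝ) 0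
      (fun j => (0 : Wsp dm) (j, a)) i = 0) ?_ (fun j => ?_) i
    · rw [Fin.lastCases_last]
    · rw [Fin.lastCases_castSucc]; rfl
  simpa [Ez, emb, wt] using h

lemma hz_Ez (φ : Spl dh dm d) (ψ : Spz r ds dh) (η : Cfg r) : hz ψ (zy φ (Ez φ ψ η)) = η := by
  ext p
  exact Ez_z φ ψ η p.1 p.2

lemma hs_Ez (φ : Spl dh dm d) (ψ : Spz r ds dh) (η : Cfg r) : hs ψ (zy φ (Ez φ ψ η)) = 0 := by
  ext p
  exact Ez_s φ ψ η p.1 p.2

lemma pm_Ez (φ : Spl dh dm d) (ψ : Spz r ds dh) (η : Cfg r) : pm φ (Ez φ ψ η) = 0 := by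
  ext p
  exact Ez_m φ ψ η p.1 p.2

lemma norm_Ez (φ : Spl dh dm d) (ψ : Spz r ds dh) (η : Cfg r) : ‖Ez φ ψ η‖ = ‖η‖ := by
  have h := norm_split φ ψ (Ez φ ψ η)
  rw [hz_Ez, hs_Ez, pm_Ez, norm_zero, norm_zero] at h
  have h1 : ‖Ez φ ψ η‖ ^ 2 = ‖η‖ ^ 2 := by rw [h]; ring
  exact (sq_eq_sq₀ (norm_nonneg _) (norm_nonneg _)).1 h1

/-- `Ez` as a linear map -/
noncomputable def EzL (φ : Spl dh dm d) (ψ : Spz r ds dh) : Cfg r →ₗ[ℝ] Cfg d where
  toFun := Ez φ ψ
  map_add' η ζ := by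
    ext ⟨i, A⟩
    obtain ⟨A, rfl⟩ := φ.surjective A
    change Ez φ ψ (η + ζ) (i, φ A) = Ez φ ψ η (i, φ A) + Ez φ ψ ζ (i, φ A)
    rcases A with A | A
    · obtain ⟨A, rfl⟩ := ψ.surjective A
      rcases A with A | A
      · rw [Ez_z, Ez_z, Ez_z]; rfl
      · rw [Ez_s, Ez_s, Ez_s, add_zero]
    · rw [Ez_m, Ez_m, Ez_m, add_zero]
  map_smul' c η := by
    ext ⟨i, A⟩
    obtain ⟨A, rfl⟩ := φ.surjective A
    change Ez φ ψ (c • η) (i, φ A) = c * Ez φ ψ η (i, φ A)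
    rcases A with A | A
    · obtain ⟨A, rfl⟩ := ψ.surjective A
      rcases A with A | A
      · rw [Ez_z, Ez_z]; rfl
      · rw [Ez_s, Ez_s, mul_zero]
    · rw [Ez_m, Ez_m, mul_zero]

lemma Ez_cont (φ : Spl dh dm d) (ψ : Spz r ds dh) : Continuous (Ez φ ψ) :=
  (EzL φ ψ).continuous_of_finiteDimensional

/-! ### colour vectors -/

/-- the `m`-part of a colour vector -/
noncomputable def em (φ : Spl dh dm d) : EuclideanSpace ℝ (Fin d) →ₗ[ℝ] EuclideanSpace ℝ (Fin d) where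
  toFun ξ := WithLp.toLp 2 fun A => mI φ A * ξ A
  map_add' ξ ζ := by
    ext A
    change mI φ A * (ξ A + ζ A) = mI φ A * ξ A + mI φ A * ζ A
    ring
  map_smul' c ξ := by
    ext A
    change mI φ A * (c * ξ A) = c * (mI φ A * ξ A)
    ring

lemma em_apply (φ : Spl dh dm d) (ξ : EuclideanSpace ℝ (Fin d)) (A : Fin d) :
    em φ ξ A = mI φ A * ξ A := rfl

lemma em_em (φ : Spl dh dm d) (ξ : EuclideanSpace ℝ (Fin d)) : em φ (em φ ξ) = em φ ξ := by
  ext A
  rw [em_apply, em_apply]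
  obtain ⟨A, rfl⟩ := φ.surjective A
  rcases A with A | A <;> simp

lemma em_cont (φ : Spl dh dm d) : Continuous (em φ) := (em φ).continuous_of_finiteDimensional

lemma norm_sub_em (φ : Spl dh dm d) (ξ : EuclideanSpace ℝ (Fin d)) : ‖ξ - em φ ξ‖ ≤ ‖ξ‖ := by
  have h : ‖ξ - em φ ξ‖ ^ 2 ≤ ‖ξ‖ ^ 2 := by
    simp only [EuclideanSpace.real_norm_sq_eq]
    refine Finset.sum_le_sum fun A _ => ?_
    change (ξ A - em φ ξ A) ^ 2 ≤ ξ A ^ 2
    rw [em_apply]
    obtain ⟨A, rfl⟩ := φ.surjective A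
    rcases A with A | A
    · simp
    · rw [mI_inr, one_mul, sub_self, zero_pow two_ne_zero]
      exact sq_nonneg _
  exact (sq_le_sq₀ (norm_nonneg _) (norm_nonneg _)).1 h

section alg

variable (S : Setup d F) {φ : Spl dh dm d} {ψ : Spz r ds dh}

/-- `-ad ξ_h` is block diagonal -/
lemma BD_adm (hsub : S.IsSub φ) (hZ : IsZ S φ ψ) (ξ : EuclideanSpace ℝ (Fin d)) :
    BD φ ψ ((-1 : ℝ) • S.adm (ξ - em φ ξ)) := by
  intro A B hAB
  simp only [Setup.adm, Matrix.of_apply, Matrix.smul_apply, smul_eq_mul]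
  rw [← φ.sum_comp, Fintype.sum_sum_type]
  have h1 : ∀ C : Fin dm, (ξ - em φ ξ) (φ (Sum.inr C)) = 0 := by
    intro C
    change ξ (φ (Sum.inr C)) - em φ ξ (φ (Sum.inr C)) = 0
    rw [em_apply]
    simp
  have h2 : ∀ C : Fin dh, S.f A (φ (Sum.inl C)) B = 0 := by
    intro C
    obtain ⟨A, rfl⟩ := φ.surjective A
    obtain ⟨B, rfl⟩ := φ.surjective B
    rcases A with A | A <;> rcases B with B | B
    · obtain ⟨A, rfl⟩ := ψ.surjective A
      obtain ⟨B, rfl⟩ := ψ.surjective B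
      rcases A with A | A <;> rcases B with B | B
      · exact absurd (by simp) hAB
      · exact hZ _ _ _
      · rw [S.f_cyc, S.f_cyc]
        exact hZ _ _ _
      · exact absurd (by simp) hAB
    · exact hsub _ _ _
    · rw [S.f_cyc]
      exact hsub _ _ _
    · exact absurd (by simp) hAB
  have h4 : ∀ C : Fin dm, S.f A (φ (Sum.inr C)) B *
      (ξ.ofLp - ((em φ) ξ).ofLp) (φ (Sum.inr C)) = 0 := fun C => mul_eq_zero_of_right _ (h1 C)
  rw [Finset.sum_eq_zero fun C _ => by rw [h2, zero_mul],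
    Finset.sum_eq_zero fun C _ => h4 C, add_zero, mul_zero]

/-- `[ξ_h, z] = 0` -/
lemma Lad_h_Ez (hsub : S.IsSub φ) (hZ : IsZ S φ ψ) (ξ : EuclideanSpace ℝ (Fin d)) (η : Cfg r) :
    Lad S (ξ - em φ ξ) (Ez φ ψ η) = 0 := by
  ext p
  rw [Lad_apply]
  change _ = (0 : ℝ)
  rw [neg_eq_zero]
  refine Finset.sum_eq_zero fun B _ => Finset.sum_eq_zero fun C _ => ?_
  obtain ⟨B, rfl⟩ := φ.surjective B
  obtain ⟨C, rfl⟩ := φ.surjective C
  rcases B with B | B
  · obtain ⟨B, rfl⟩ := ψ.surjective B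
    rcases B with B | B
    · rcases C with C | C
      · have h : S.f p.2 (φ (Sum.inl C)) (φ (Sum.inl (ψ (Sum.inl B)))) = 0 := by
          obtain ⟨A, hA⟩ := φ.surjective p.2
          rw [← hA]
          rcases A with A | A
          · rw [S.f_cyc, S.f_cyc]
            exact hZ _ _ _
          · rw [S.f_cyc]
            exact hsub _ _ _
        rw [h]
        ring
      · have h : (ξ - em φ ξ) (φ (Sum.inr C)) = 0 := by
          change ξ (φ (Sum.inr C)) - em φ ξ (φ (Sum.inr C)) = 0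
          rw [em_apply]
          simp
        rw [h]
        ring
    · rw [Ez_s, mul_zero]
  · rw [Ez_m, mul_zero]

/-- `m`-components of `-[ζ, Ez η]` for `ζ ∈ m` -/
lemma Lad_m_Ez {ζ : EuclideanSpace ℝ (Fin d)} (hζ : em φ ζ = ζ) (η : Cfg r) (i : Fin 9) (B : Fin dm) :
    Lad S ζ (Ez φ ψ η) (i, φ (Sum.inr B)) =
      (Dz S φ ψ η i).mulVec (fun C => ζ (φ (Sum.inr C))) B := by
  have h0 : ∀ C : Fin dh, ζ (φ (Sum.inl C)) = 0 := by
    intro C
    rw [← hζ, em_apply]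
    simp
  rw [Lad_apply]
  simp only [Matrix.mulVec, dotProduct, Dz, Setup.Dy, Setup.Dm, Matrix.of_apply]
  rw [← φ.sum_comp, Fintype.sum_sum_type, ← ψ.sum_comp, Fintype.sum_sum_type]
  have h1 : ∀ B', ∑ C, S.f (φ (Sum.inr B)) C B' * ζ C * 0 = 0 := by
    intro B'
    simp
  simp only [Ez_z, Ez_s, Ez_m, mul_zero, Finset.sum_const_zero, add_zero]
  have h2 : ∀ a : Fin r, ∑ C, S.f (φ (Sum.inr B)) C (φ (Sum.inl (ψ (Sum.inl a)))) * ζ C * η (i, a) =
      ∑ C : Fin dm, -(S.f (φ (Sum.inr B)) (φ (Sum.inl (ψ (Sum.inl a)))) (φ (Sum.inr C)) * η (i, a) *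
        ζ (φ (Sum.inr C))) := by
    intro a
    rw [← φ.sum_comp, Fintype.sum_sum_type]
    simp only [h0, mul_zero, zero_mul, Finset.sum_const_zero, zero_add]
    refine Finset.sum_congr rfl fun C _ => ?_
    rw [S.f_swap']
    ring
  have h3 : ∀ C : Fin dm, (∑ A, S.f (φ (Sum.inr B)) (φ (Sum.inl A)) (φ (Sum.inr C)) *
      Vale.Agent.P353.Z.AN.cmb ψ η 0 (i, A)) = ∑ a : Fin r, S.f (φ (Sum.inr B)) (φ (Sum.inl (ψ (Sum.inl a))))
        (φ (Sum.inr C)) * η (i, a) := by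
    intro C
    rw [← ψ.sum_comp, Fintype.sum_sum_type]
    simp [Vale.Agent.P353.Z.AN.cmb]
  simp only [h2, h3]
  rw [← Finset.sum_neg_distrib]
  simp only [← Finset.sum_neg_distrib, neg_neg, Finset.sum_mul]
  rw [Finset.sum_comm]

/-- lower bound for the gauge directions -/
lemma low {K : Set (Cfg r)} (hK : IsCompact K) (hR : ∀ η ∈ K, RegP S φ ψ η) :
    ∃ c₀ : ℝ, 0 < c₀ ∧ ∀ η ∈ K, ∀ ζ, em φ ζ = ζ → c₀ * ‖ζ‖ ≤ ‖Em φ (Lad S ζ (Ez φ ψ η))‖ := by
  set T : Set (Cfg r × EuclideanSpace ℝ (Fin d)) :=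
    K ×ˢ (Metric.sphere (0 : EuclideanSpace ℝ (Fin d)) 1 ∩ {ζ | em φ ζ = ζ}) with hT
  have hTc : IsCompact T :=
    hK.prod ((isCompact_sphere _ _).inter_right (isClosed_eq (em_cont φ) continuous_id))
  have hLc : Continuous (Lad S) := (Lad S).continuous_of_finiteDimensional
  have hfc : Continuous fun p : Cfg r × EuclideanSpace ℝ (Fin d) =>
      ‖Em φ (Lad S p.2 (Ez φ ψ p.1))‖ := by
    refine ((Em φ).continuous.comp ?_).norm
    exact (hLc.comp continuous_snd).clm_apply ((Ez_cont φ ψ).comp continuous_fst)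
  have hpos : ∀ p ∈ T, 0 < ‖Em φ (Lad S p.2 (Ez φ ψ p.1))‖ := by
    rintro ⟨η, ζ⟩ ⟨hη, hs, hζ⟩
    rw [norm_pos_iff]
    intro h0
    have hv := hR η hη (fun C => ζ (φ (Sum.inr C))) (fun i => by
      funext B
      rw [← Lad_m_Ez S hζ]
      have h1 := congrArg (fun x : Cfg d => x (i, φ (Sum.inr B))) h0
      simp only at h1
      rw [Em_apply] at h1
      simpa using h1)
    have hz : ζ = 0 := by
      ext A
      obtain ⟨A, rfl⟩ := φ.surjective A
      rcases A with A | A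
      · change ζ (φ (Sum.inl A)) = 0
        have hζ' : em φ ζ = ζ := hζ
        rw [← hζ', em_apply]
        simp
      · exact congrFun hv A
    rw [mem_sphere_zero_iff_norm, hz, norm_zero] at hs
    exact zero_ne_one hs
  have key : ∃ c₀ : ℝ, 0 < c₀ ∧ ∀ p ∈ T, c₀ ≤ ‖Em φ (Lad S p.2 (Ez φ ψ p.1))‖ := by
    rcases T.eq_empty_or_nonempty with hE | hE
    · exact ⟨1, one_pos, fun p hp => by rw [hE] at hp; exact absurd hp (Set.notMem_empty p)⟩
    · obtain ⟨p₀, hp₀, hmin⟩ := hTc.exists_isMinOn hE hfc.continuousOn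
      exact ⟨_, hpos p₀ hp₀, fun p hp => hmin hp⟩
  obtain ⟨c₀, hc₀, hmain⟩ := key
  refine ⟨c₀, hc₀, fun η hη ζ hζ => ?_⟩
  rcases eq_or_ne ζ 0 with rfl | hne
  · simp
  have hn : 0 < ‖ζ‖ := norm_pos_iff.2 hne
  have h1 := hmain (η, ‖ζ‖⁻¹ • ζ) ⟨hη, by
    rw [mem_sphere_zero_iff_norm, norm_smul, norm_inv, norm_norm, inv_mul_cancel₀ hn.ne'], by
    change em φ (‖ζ‖⁻¹ • ζ) = ‖ζ‖⁻¹ • ζ
    rw [map_smul, hζ]⟩
  simp only [map_smul] at h1
  rw [_root_.smul_apply, map_smul, norm_smul, norm_inv, norm_norm, inv_mul_eq_div, le_div_iff₀ hn] at h1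
  exact h1

end alg

/-! ### matrices -/

lemma fn_unit {W : Matrix (Fin N) (Fin N) ℂ} (hW : W.conjTranspose * W = 1) (X : Matrix (Fin N) (Fin N) ℂ) :
    fn (W * X) = fn X := by
  have h : ∀ Y : Matrix (Fin N) (Fin N) ℂ, ((∑ j, ∑ k, ‖Y j k‖ ^ 2 : ℝ) : ℂ) =
      (Y.conjTranspose * Y).trace := by
    intro Y
    simp only [Matrix.trace, Matrix.diag, Matrix.mul_apply, Matrix.conjTranspose_apply]
    push_cast
    rw [Finset.sum_comm]
    refine Finset.sum_congr rfl fun k _ => Finset.sum_congr rfl fun j _ => ?_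
    rw [← Complex.ofReal_pow, ← Complex.normSq_eq_norm_sq, Complex.normSq_eq_conj_mul_self]
    rfl
  unfold fn
  congr 1
  have h1 := h (W * X)
  rw [Matrix.conjTranspose_mul, Matrix.mul_assoc, ← Matrix.mul_assoc _ W X, hW, Matrix.one_mul,
    ← h] at h1
  exact_mod_cast h1

lemma fn_inv_mul_sub (U V : BFSS.SU N) : fn ((U⁻¹ * V).val - 1) = fn (V.val - U.val) := by
  have hU := act_unit U
  have h1 : (U⁻¹ * V).val - 1 = U.val.conjTranspose * (V.val - U.val) := by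
    rw [Matrix.mul_sub, hU]
    rfl
  rw [h1]
  refine fn_unit ?_ _
  rw [Matrix.conjTranspose_conjTranspose]
  exact mul_eq_one_comm.1 hU

/-! ### the key estimate -/

lemma exp_near : ∀ c : ℝ, 0 < c → ∃ δ : ℝ, 0 < δ ∧ ∀ A B : Cfg d →L[ℝ] Cfg d, ‖A‖ ≤ δ → ‖B‖ ≤ δ →
    ‖NormedSpace.exp A - NormedSpace.exp B - (A - B)‖ ≤ c * ‖A - B‖ := by
  intro c hc
  have h : HasStrictFDerivAt (NormedSpace.exp : (Cfg d →L[ℝ] Cfg d) → (Cfg d →L[ℝ] Cfg d))
      (1 : (Cfg d →L[ℝ] Cfg d) →L[ℝ] (Cfg d →L[ℝ] Cfg d)) 0 :=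
    hasStrictFDerivAt_exp_zero (𝕂 := ℝ)
  have h1 := h.isLittleO.def hc
  rw [Metric.eventually_nhds_iff] at h1
  obtain ⟨δ, hδ, h2⟩ := h1
  refine ⟨δ / 2, half_pos hδ, fun A B hA hB => ?_⟩
  refine h2 (y := (A, B)) ?_
  rw [dist_eq_norm]
  have h3 : ‖((A, B) : (Cfg d →L[ℝ] Cfg d) × (Cfg d →L[ℝ] Cfg d)) - (0, 0)‖ ≤ δ / 2 := by
    rw [Prod.mk_sub_mk, sub_zero, sub_zero, Prod.norm_mk]
    exact max_le hA hB
  linarith

section alg

variable (S : Setup d F) {φ : Spl dh dm d} {ψ : Spz r ds dh}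

lemma key (hsub : S.IsSub φ) (hZ : IsZ S φ ψ) {K : Set (Cfg r)} (hK : IsCompact K)
    (hR : ∀ η ∈ K, RegP S φ ψ η) (L : ℝ) (hL : 0 < L) :
    ∃ ρ R₁ C : ℝ, 0 < ρ ∧ 1 ≤ R₁ ∧ 0 < C ∧ ∀ R, R₁ ≤ R → ∀ η ∈ K, ∀ ξ, ‖ξ‖ ≤ ρ → ∀ y : Cfg d, ‖y‖ ≤ 2 * L →
      ‖Em φ (R • Ez φ ψ η + y)‖ ≤ L / Real.sqrt R →
      ‖Em φ (NormedSpace.exp (Lad S ξ) (R • Ez φ ψ η + y))‖ ≤ L / Real.sqrt R →
      ‖em φ ξ‖ ≤ C / (R * Real.sqrt R) := by
  obtain ⟨Kb, hKb, hLad⟩ := Lad_bd S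
  obtain ⟨c₀, hc₀, hlow⟩ := low S (φ := φ) (ψ := ψ) hK hR
  obtain ⟨Mk, hMk⟩ := hK.isBounded.exists_norm_le
  have hMk' : ∀ η ∈ K, ‖η‖ ≤ |Mk| := fun η hη => (hMk η hη).trans (le_abs_self _)
  set c : ℝ := min 1 (c₀ / (2 * (Kb * (|Mk| + 1)))) with hc
  have hq : 0 < Kb * (|Mk| + 1) := by positivity
  have hc0 : 0 < c := lt_min one_pos (by positivity)
  have hc1 : c ≤ 1 := min_le_left _ _
  have hc2 : c * (Kb * (|Mk| + 1)) ≤ c₀ / 2 := by
    have h1 : c ≤ c₀ / (2 * (Kb * (|Mk| + 1))) := min_le_right _ _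
    rw [le_div_iff₀ (by positivity)] at h1
    linarith
  obtain ⟨δ, hδ, hexp⟩ := exp_near (d := d) c hc0
  set δ' : ℝ := min δ (1 / 2) with hδ'
  have hδ0 : 0 < δ' := lt_min hδ (by norm_num)
  refine ⟨δ' / Kb, max 1 (16 * L * Kb / c₀), 12 * L / c₀, by positivity, le_max_left _ _, by positivity,
    fun R hR1 η hη ξ hξ y hy hx hex => ?_⟩
  have hR0 : 1 ≤ R := (le_max_left _ _).trans hR1
  have hRp : 0 < R := by linarith
  have hsq : 0 < Real.sqrt R := Real.sqrt_pos.2 hRp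
  have hR2 : 16 * L * Kb ≤ R * c₀ := by
    have := (le_max_right _ _).trans hR1
    rwa [div_le_iff₀ hc₀] at this
  set A := Lad S ξ with hA
  set B := Lad S (ξ - em φ ξ) with hB
  have hAB : A - B = Lad S (em φ ξ) := by
    rw [hA, hB, ← map_sub, sub_sub_cancel]
  have hξK : Kb * ‖ξ‖ ≤ δ' := by
    rw [le_div_iff₀ hKb] at hξ
    linarith
  have hAn : ‖A‖ ≤ δ' := (hLad ξ).trans hξK
  have hBn : ‖B‖ ≤ δ' := (hLad _).trans ((mul_le_mul_of_nonneg_left (norm_sub_em φ ξ) hKb.le).trans hξK)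
  have hδδ : δ' ≤ δ := min_le_left _ _
  have hδ2 : δ' ≤ 1 / 2 := min_le_right _ _
  set D := NormedSpace.exp A - NormedSpace.exp B with hD
  have hABn : ‖A - B‖ ≤ Kb * ‖em φ ξ‖ := by rw [hAB]; exact hLad _
  have hem := norm_nonneg (em φ ξ)
  have hD1 : ‖D - (A - B)‖ ≤ c * (Kb * ‖em φ ξ‖) :=
    (hexp A B (hAn.trans hδδ) (hBn.trans hδδ)).trans (mul_le_mul_of_nonneg_left hABn hc0.le)
  have hD2 : ‖D‖ ≤ 2 * (Kb * ‖em φ ξ‖) := by
    have h1 : D = (D - (A - B)) + (A - B) := by abel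
    rw [h1]
    refine (norm_add_le _ _).trans ?_
    have h2 : c * (Kb * ‖em φ ξ‖) ≤ 1 * (Kb * ‖em φ ξ‖) :=
      mul_le_mul_of_nonneg_right hc1 (by positivity)
    linarith
  have hB1 : ‖NormedSpace.exp B‖ ≤ 2 := by
    have h1 := hexp B 0 (hBn.trans hδδ) (by rw [norm_zero]; exact hδ.le)
    rw [sub_zero, NormedSpace.exp_zero] at h1
    have h2 : NormedSpace.exp B = (NormedSpace.exp B - 1 - B) + B + 1 := by abel
    rw [h2]
    have h3 : ‖(1 : Cfg d →L[ℝ] Cfg d)‖ ≤ 1 := ContinuousLinearMap.norm_id_le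
    have h4 : c * ‖B‖ ≤ 1 * ‖B‖ := mul_le_mul_of_nonneg_right hc1 (norm_nonneg _)
    have h5 := norm_add₃_le (a := NormedSpace.exp B - 1 - B) (b := B) (c := 1)
    linarith
  have hcomm : Em φ (NormedSpace.exp B (R • Ez φ ψ η + y)) =
      NormedSpace.exp B (Em φ (R • Ez φ ψ η + y)) := by
    have h1 : Commute (Em φ) (NormedSpace.exp B) := (Em_comm (BD_adm S hsub hZ ξ)).exp_right
    exact congrArg (fun T : Cfg d →L[ℝ] Cfg d => T (R • Ez φ ψ η + y)) h1.eq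
  have e1 : Em φ (NormedSpace.exp A (R • Ez φ ψ η + y)) =
      R • Em φ (Lad S (em φ ξ) (Ez φ ψ η)) + R • Em φ ((D - (A - B)) (Ez φ ψ η)) + Em φ (D y) +
        NormedSpace.exp B (Em φ (R • Ez φ ψ η + y)) := by
    rw [← hcomm, ← hAB]
    have h1 : NormedSpace.exp A = D + NormedSpace.exp B := by rw [hD]; abel
    rw [h1]
    simp only [_root_.add_apply, _root_.sub_apply, map_add, map_sub, map_smul, smul_sub, smul_add]
    abel
  have e2 : R * ‖Em φ (Lad S (em φ ξ) (Ez φ ψ η))‖ ≤ ‖Em φ (NormedSpace.exp A (R • Ez φ ψ η + y))‖ +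
      R * ‖Em φ ((D - (A - B)) (Ez φ ψ η))‖ + ‖Em φ (D y)‖ +
        ‖NormedSpace.exp B (Em φ (R • Ez φ ψ η + y))‖ := by
    have h1 : R • Em φ (Lad S (em φ ξ) (Ez φ ψ η)) = Em φ (NormedSpace.exp A (R • Ez φ ψ η + y)) -
        R • Em φ ((D - (A - B)) (Ez φ ψ η)) - Em φ (D y) -
        NormedSpace.exp B (Em φ (R • Ez φ ψ η + y)) := by
      rw [e1]; abel
    have h2 : ∀ z : Cfg d, R * ‖z‖ = ‖R • z‖ := fun z => by
      rw [norm_smul, Real.norm_eq_abs, abs_of_pos hRp]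
    rw [h2, h2, h1]
    refine (norm_sub_le _ _).trans (add_le_add ?_ le_rfl)
    refine (norm_sub_le _ _).trans (add_le_add ?_ le_rfl)
    exact norm_sub_le _ _
  have e3 : c₀ * ‖em φ ξ‖ ≤ ‖Em φ (Lad S (em φ ξ) (Ez φ ψ η))‖ := hlow η hη _ (em_em φ ξ)
  have e4 : ‖Em φ ((D - (A - B)) (Ez φ ψ η))‖ ≤ c₀ / 2 * ‖em φ ξ‖ := by
    refine (norm_Em_le φ _).trans (((D - (A - B)).le_opNorm _).trans ?_)
    rw [norm_Ez]
    have h1 : ‖D - (A - B)‖ * ‖η‖ ≤ c * (Kb * ‖em φ ξ‖) * (|Mk| + 1) := by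
      refine mul_le_mul hD1 ((hMk' η hη).trans (by linarith)) (norm_nonneg _) (by positivity)
    refine h1.trans ?_
    have h2 := mul_le_mul_of_nonneg_right hc2 hem
    linarith
  have e5 : ‖Em φ (D y)‖ ≤ 4 * L * Kb * ‖em φ ξ‖ := by
    refine (norm_Em_le φ _).trans ((D.le_opNorm _).trans ?_)
    have h1 : ‖D‖ * ‖y‖ ≤ 2 * (Kb * ‖em φ ξ‖) * (2 * L) :=
      mul_le_mul hD2 hy (norm_nonneg _) (by positivity)
    linarith
  have e6 : ‖NormedSpace.exp B (Em φ (R • Ez φ ψ η + y))‖ ≤ 2 * (L / Real.sqrt R) :=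
    ((NormedSpace.exp B).le_opNorm _).trans (mul_le_mul hB1 hx (norm_nonneg _) zero_le_two)
  have e7 : R * (c₀ * ‖em φ ξ‖) ≤ L / Real.sqrt R + R * (c₀ / 2 * ‖em φ ξ‖) + 4 * L * Kb * ‖em φ ξ‖ +
      2 * (L / Real.sqrt R) := by
    have h1 := mul_le_mul_of_nonneg_left e3 hRp.le
    have h2 := mul_le_mul_of_nonneg_left e4 hRp.le
    linarith
  have e8 : 4 * L * Kb * ‖em φ ξ‖ ≤ R * c₀ / 4 * ‖em φ ξ‖ :=
    mul_le_mul_of_nonneg_right (by linarith) hem
  have e9 : R * c₀ / 4 * ‖em φ ξ‖ ≤ 3 * (L / Real.sqrt R) := by linarith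
  have e10 : R * Real.sqrt R * ‖em φ ξ‖ * (c₀ / 4) ≤ 3 * L := by
    have h1 := mul_le_mul_of_nonneg_right e9 hsq.le
    have h2 : 3 * (L / Real.sqrt R) * Real.sqrt R = 3 * L := by
      field_simp
    rw [h2] at h1
    linarith
  rw [le_div_iff₀ (by positivity), le_div_iff₀ hc₀]
  linarith

end alg

lemma norm_Em_act (M : BFSS.Model N d F) {φ : Spl dh dm d} {ψ : Spz r ds dh} {U₀ : BFSS.SU N}
    (h : BD φ ψ (actO M U₀)) (z : Cfg d) : ‖Em φ (M.act U₀ z)‖ = ‖Em φ z‖ := by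
  have e2 : Commute (Em φ) (roA d (actO M U₀)) := Em_comm h
  have e3 : Em φ (M.act U₀ z) = M.act U₀ (Em φ z) :=
    congrArg (fun T : Cfg d →L[ℝ] Cfg d => T z) e2.eq
  rw [e3]
  exact (act_stmt M).2.2.2.2.1 U₀ (Em φ z)

/-- decomposition of a point of `InB` -/
lemma inB_split {φ : Spl dh dm d} {ψ : Spz r ds dh} {K : Set (Cfg r)} {L R : ℝ} (hL : 0 < L)
    (hR : 1 ≤ R) {x : Cfg d} (hx : InB φ ψ K L R x) :
    ‖x - R • Ez φ ψ (R⁻¹ • hz ψ (zy φ x))‖ ≤ 2 * L ∧ ‖Em φ x‖ ≤ L / Real.sqrt R := by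
  have hRp : 0 < R := by linarith
  have hsq : 0 < Real.sqrt R := Real.sqrt_pos.2 hRp
  have hsq1 : 1 ≤ Real.sqrt R := Real.one_le_sqrt.2 hR
  have hpm : ‖pm φ x‖ ≤ L / Real.sqrt R := by
    have h1 := hx.2.2
    rw [norm_smul, Real.norm_eq_abs, abs_of_pos hsq] at h1
    rw [le_div_iff₀ hsq]
    linarith
  have hpm' : ‖pm φ x‖ ≤ L := hpm.trans (div_le_self hL.le hsq1)
  refine ⟨?_, by rw [norm_Em φ ψ]; exact hpm⟩
  set η := R⁻¹ • hz ψ (zy φ x) with hη
  set y := x - R • Ez φ ψ η with hy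
  have h1 : hz ψ (zy φ y) = 0 := by
    have h2 : hz ψ (zy φ y) = hz ψ (zy φ x) - R • hz ψ (zy φ (Ez φ ψ η)) := by ext p; rfl
    rw [h2, hz_Ez, hη, smul_smul, mul_inv_cancel₀ hRp.ne', one_smul, sub_self]
  have h2 : hs ψ (zy φ y) = hs ψ (zy φ x) := by
    have h2 : hs ψ (zy φ y) = hs ψ (zy φ x) - R • hs ψ (zy φ (Ez φ ψ η)) := by ext p; rfl
    rw [h2, hs_Ez, smul_zero, sub_zero]
  have h3 : pm φ y = pm φ x := by
    have h2 : pm φ y = pm φ x - R • pm φ (Ez φ ψ η) := by ext p; rfl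
    rw [h2, pm_Ez, smul_zero, sub_zero]
  have h4 := norm_split φ ψ y
  rw [h1, h2, h3, norm_zero] at h4
  have h5 := hx.2.1
  have h6 : ‖y‖ ^ 2 ≤ (2 * L) ^ 2 := by
    rw [h4]
    have a := norm_nonneg (hs ψ (zy φ x))
    have b := norm_nonneg (pm φ x)
    nlinarith
  exact (sq_le_sq₀ (norm_nonneg _) (by positivity)).1 h6

end Geo

open Geo

variable {N d : ℕ} {F : Type*} [NormedAddCommGroup F] [InnerProductSpace ℂ F]

/-- **LH8 Geo** -/
theorem geo_stmt [FiniteDimensional ℂ F] (M : BFSS.Model N d F) (h1 : LogStmt M) (h2 : ExpLipStmt M)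
    (h5 : AdEStmt M) (h6 : SUniStmt M) (h7 : NearStmt M) : GeoStmt M := by
  intro S hS dh dm r ds φ ψ hsub hZ hLess K hK hR L hL
  obtain ⟨δ₁, C₁, hδ₁, hC₁, hlog⟩ := h1
  obtain ⟨hmem, -, -, ρ, c₂, C₂, hρ, -, hC₂, hlip⟩ := h2
  obtain ⟨-, C₆, hC₆, huni⟩ := h6 inferInstance
  obtain ⟨ρ₁, R₁, Ck, hρ₁, hR₁, hCk, hkey⟩ := key S (φ := φ) (ψ := ψ) hsub hZ hK hR L hL
  obtain ⟨Mk, hMk⟩ := hK.isBounded.exists_norm_le
  obtain ⟨aMul, aOne, aAdd, aSmul, aNorm, -, -⟩ := act_stmt M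
  set ε : ℝ := min δ₁ (min ρ ρ₁ / C₁) with hε
  have hε0 : 0 < ε := lt_min hδ₁ (div_pos (lt_min hρ hρ₁) hC₁)
  obtain ⟨δ, hδ, hnear⟩ := h7 S hS dh dm r ds φ ψ hsub hZ hLess K hK hR ε hε0
  refine ⟨max R₁ (4 * L / δ), C₂ * Ck + C₆ * (C₂ * Ck) * (|Mk| + 2 * L), hR₁.trans (le_max_left _ _),
    by positivity, fun R hRR U x hx hUx => ?_⟩
  have hR1 : 1 ≤ R := hR₁.trans ((le_max_left _ _).trans hRR)
  have hRp : 0 < R := by linarith
  have hsq : 0 < Real.sqrt R := Real.sqrt_pos.2 hRp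
  have hR4 : 4 * L ≤ δ * R := by
    have h := (le_max_right _ _).trans hRR
    rw [div_le_iff₀ hδ] at h
    linarith
  obtain ⟨hy, hex⟩ := inB_split hL hR1 hx
  obtain ⟨hy', hex'⟩ := inB_split hL hR1 hUx
  set η := R⁻¹ • hz ψ (zy φ x) with hη
  set η' := R⁻¹ • hz ψ (zy φ (M.act U x)) with hη'
  set y := x - R • Ez φ ψ η with hyd
  set y' := M.act U x - R • Ez φ ψ η' with hyd'
  have hxy : x = R • Ez φ ψ η + y := by rw [hyd]; abel
  have hηK : η ∈ K := hx.1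
  have hηK' : η' ∈ K := hUx.1
  have hmove : ‖M.act U (Ez φ ψ η) - Ez φ ψ η'‖ ≤ δ := by
    have e1 : R • (M.act U (Ez φ ψ η) - Ez φ ψ η') = y' - M.act U y := by
      have e2 : M.act U x = R • M.act U (Ez φ ψ η) + M.act U y := by
        rw [← aSmul, ← aAdd, ← hxy]
      rw [hyd', e2, smul_sub]
      abel
    have e3 : R * ‖M.act U (Ez φ ψ η) - Ez φ ψ η'‖ ≤ 4 * L := by
      rw [← abs_of_pos hRp, ← Real.norm_eq_abs, ← norm_smul, e1]
      refine (norm_sub_le _ _).trans ?_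
      rw [aNorm]
      linarith
    have e4 : R * ‖M.act U (Ez φ ψ η) - Ez φ ψ η'‖ ≤ R * δ := by linarith
    exact le_of_mul_le_mul_left e4 hRp
  obtain ⟨U₀, hN0, hfn0⟩ := hnear U η η' hηK hηK' hmove
  set V₀ : BFSS.SU N := U₀⁻¹ * U with hV₀
  have hUV : U = U₀ * V₀ := by rw [hV₀, mul_inv_cancel_left]
  have hfnV : fn (V₀.val - 1) ≤ ε := by
    rw [hV₀, fn_inv_mul_sub]
    exact hfn0
  obtain ⟨ξ, hξV, hξn⟩ := hlog V₀ (hfnV.trans (min_le_left _ _))
  have hξb : ‖ξ‖ ≤ min ρ ρ₁ := by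
    refine hξn.trans ?_
    have e1 : fn (V₀.val - 1) ≤ min ρ ρ₁ / C₁ := hfnV.trans (min_le_right _ _)
    rw [le_div_iff₀ hC₁] at e1
    linarith
  have hact : ∀ z, M.act V₀ z = NormedSpace.exp (Lad S ξ) z := by
    intro z
    rw [act_eq_ro, ← roA_apply]
    have e1 : actO M V₀ = NormedSpace.exp ((-1 : ℝ) • S.adm ξ) := h5 S hS V₀ ξ hξV
    rw [e1, roA_exp]
    rfl
  have hEm : ‖Em φ (M.act V₀ x)‖ = ‖Em φ (M.act U x)‖ := by
    have e1 : M.act U x = M.act U₀ (M.act V₀ x) := by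
      rw [hUV]
      exact aMul U₀ V₀ x
    rw [e1]
    exact (norm_Em_act M hN0 (M.act V₀ x)).symm
  have hkk : ‖em φ ξ‖ ≤ Ck / (R * Real.sqrt R) := by
    refine hkey R ((le_max_left _ _).trans hRR) η hηK ξ (hξb.trans (min_le_right _ _)) y hy ?_ ?_
    · rw [← hxy]; exact hex
    · rw [← hxy, ← hact, hEm]; exact hex'
  set W : BFSS.SU N := ⟨eT M (ξ - em φ ξ), hmem _⟩ with hW
  have hWB : BD φ ψ (actO M W) := by
    have e1 : actO M W = NormedSpace.exp ((-1 : ℝ) • S.adm (ξ - em φ ξ)) := h5 S hS W _ rfl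
    rw [e1]
    exact BD_exp (BD_adm S hsub hZ ξ)
  have hV : fn ((W⁻¹ * V₀).val - 1) ≤ C₂ * Ck / (R * Real.sqrt R) := by
    rw [fn_inv_mul_sub, hξV]
    refine (hlip ξ (ξ - em φ ξ) (hξb.trans (min_le_left _ _))
      ((norm_sub_em φ ξ).trans (hξb.trans (min_le_left _ _)))).2.trans ?_
    rw [sub_sub_cancel, mul_div_assoc]
    exact mul_le_mul_of_nonneg_left hkk hC₂.le
  refine ⟨U₀ * W, W⁻¹ * V₀, ?_, ?_, ?_, ?_⟩
  · rw [mul_assoc, mul_inv_cancel_left]
    exact hUV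
  · have e1 : BD φ ψ (actO M (U₀ * W)) := by
      rw [actO_mul]
      exact BD_mul hN0 hWB
    exact e1
  · refine hV.trans ?_
    gcongr
    have : 0 ≤ C₆ * (C₂ * Ck) * (|Mk| + 2 * L) := by positivity
    linarith
  · have e1 := huni (W⁻¹ * V₀) 1 x
    rw [aOne] at e1
    have e2 : (1 : BFSS.SU N).val = 1 := rfl
    rw [e2] at e1
    refine e1.trans ?_
    have hxn : ‖x‖ ≤ R * (|Mk| + 2 * L) := by
      rw [hxy]
      refine (norm_add_le _ _).trans ?_
      rw [norm_smul, norm_Ez, Real.norm_eq_abs, abs_of_pos hRp]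
      have e3 : ‖η‖ ≤ |Mk| := (hMk η hηK).trans (le_abs_self _)
      have e4 := mul_le_mul_of_nonneg_left e3 hRp.le
      have e5 : 1 * (2 * L) ≤ R * (2 * L) := mul_le_mul_of_nonneg_right hR1 (by positivity)
      linarith
    have e3 : C₆ * fn ((W⁻¹ * V₀).val - 1) * ‖x‖ ≤
        C₆ * (C₂ * Ck / (R * Real.sqrt R)) * (R * (|Mk| + 2 * L)) :=
      mul_le_mul (mul_le_mul_of_nonneg_left hV hC₆.le) hxn (norm_nonneg _) (by positivity)
    refine e3.trans ?_
    have e4 : C₆ * (C₂ * Ck / (R * Real.sqrt R)) * (R * (|Mk| + 2 * L)) =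
        C₆ * (C₂ * Ck) * (|Mk| + 2 * L) / Real.sqrt R := by
      field_simp
    rw [e4]
    gcongr
    have : 0 ≤ C₂ * Ck := by positivity
    linarith

end Vale.Agent.P353.AN.LW
end

section

/-! # P353, all `N`, block LOW, LH9: the good elements move points of `InB` only little (helper793) -/

open MeasureTheory Filter Topology
open scoped ContDiff

namespace Vale.Agent.P353.AN.LW.GA

open Vale.Agent.P353.Z Vale.Agent.P353.Z.U Vale.Agent.P353.Z.AN Vale.Agent.P353.AN.G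

variable {N d dh dm r ds : ℕ} {F : Type*} [NormedAddCommGroup F] [InnerProductSpace ℂ F]

lemma ro_add (O : Matrix (Fin d) (Fin d) ℝ) (x y : Cfg d) : ro O (x + y) = ro O x + ro O y := by
  ext p
  simp only [grp_ro_apply, PiLp.add_apply, mul_add, Finset.sum_add_distrib]

lemma ro_sub (O : Matrix (Fin d) (Fin d) ℝ) (x y : Cfg d) : ro O (x - y) = ro O x - ro O y := by
  ext p
  simp only [grp_ro_apply, PiLp.sub_apply, mul_sub, Finset.sum_sub_distrib]

lemma ro_addl (O O' : Matrix (Fin d) (Fin d) ℝ) (x : Cfg d) : ro (O + O') x = ro O x + ro O' x := by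
  ext p
  simp only [grp_ro_apply, PiLp.add_apply, Matrix.add_apply, add_mul, Finset.sum_add_distrib]

lemma ro_subl (O O' : Matrix (Fin d) (Fin d) ℝ) (x : Cfg d) : ro (O - O') x = ro O x - ro O' x := by
  ext p
  simp only [grp_ro_apply, PiLp.sub_apply, Matrix.sub_apply, sub_mul, Finset.sum_sub_distrib]

lemma ro_zerol (x : Cfg d) : ro (0 : Matrix (Fin d) (Fin d) ℝ) x = 0 := by
  ext p
  simp [grp_ro_apply]

/-- norm of a configuration is at most the sum of the absolute values of the entries -/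
lemma norm_le_sum (y : Cfg d) : ‖y‖ ≤ ∑ p, |y p| := by
  rw [EuclideanSpace.norm_eq]
  refine Real.sqrt_le_iff.2 ⟨Finset.sum_nonneg fun p _ => abs_nonneg _, ?_⟩
  simp only [Real.norm_eq_abs]
  exact Finset.sum_sq_le_sq_sum_of_nonneg fun p _ => abs_nonneg _

lemma ro_bd (O : Matrix (Fin d) (Fin d) ℝ) (x : Cfg d) (b : ℝ) (hb : ∀ A C, |O A C| ≤ b) :
    ‖ro O x‖ ≤ (9 * d * d) * b * ‖x‖ := by
  refine (norm_le_sum _).trans ?_
  have h1 : ∀ p : Fin 9 × Fin d, |ro O x p| ≤ d * (b * ‖x‖) := by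
    intro p
    rw [grp_ro_apply]
    refine (Finset.abs_sum_le_sum_abs _ _).trans ?_
    refine (Finset.sum_le_card_nsmul _ _ (b * ‖x‖) fun C _ => ?_).trans ?_
    · rw [abs_mul]
      have h2 : |x (p.1, C)| ≤ ‖x‖ := by
        have := PiLp.norm_apply_le x (p.1, C)
        rwa [Real.norm_eq_abs] at this
      exact mul_le_mul (hb _ _) h2 (abs_nonneg _) ((abs_nonneg _).trans (hb p.2 C))
    · simp
  refine (Finset.sum_le_card_nsmul _ _ _ fun p _ => h1 p).trans ?_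
  simp only [Finset.card_univ, Fintype.card_prod, Fintype.card_fin, nsmul_eq_mul]
  push_cast
  apply le_of_eq
  ring

/-- sum of the absolute values of the structure constants -/
noncomputable def F0 (S : Setup d F) : ℝ := ∑ A, ∑ B, ∑ C, |S.f A B C|

lemma F0_nonneg (S : Setup d F) : 0 ≤ F0 S :=
  Finset.sum_nonneg fun _ _ => Finset.sum_nonneg fun _ _ => Finset.sum_nonneg fun _ _ => abs_nonneg _

lemma adm_le (S : Setup d F) (a : Fin d → ℝ) (s : ℝ) (hs : ∀ B, |a B| ≤ s) (A C : Fin d) :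
    |S.adm a A C| ≤ F0 S * s := by
  have e : S.adm a A C = ∑ B, S.f A B C * a B := rfl
  rw [e]
  refine (Finset.abs_sum_le_sum_abs _ _).trans ?_
  have h1 : ∑ B, |S.f A B C * a B| ≤ ∑ B, |S.f A B C| * s := by
    refine Finset.sum_le_sum fun B _ => ?_
    rw [abs_mul]
    exact mul_le_mul_of_nonneg_left (hs B) (abs_nonneg _)
  refine h1.trans ?_
  rw [← Finset.sum_mul]
  rcases (Finset.univ : Finset (Fin d)).eq_empty_or_nonempty with h0 | ⟨B0, _⟩
  · exact absurd (Finset.mem_univ A) (by rw [h0]; simp)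
  have hs0 : 0 ≤ s := (abs_nonneg _).trans (hs B0)
  refine mul_le_mul_of_nonneg_right ?_ hs0
  have h2 : ∑ B, |S.f A B C| ≤ ∑ B, ∑ C', |S.f A B C'| :=
    Finset.sum_le_sum fun B _ => Finset.single_le_sum (f := fun C' => |S.f A B C'|)
      (fun _ _ => abs_nonneg _) (Finset.mem_univ C)
  refine h2.trans ?_
  exact Finset.single_le_sum (f := fun A' => ∑ B, ∑ C', |S.f A' B C'|)
    (fun _ _ => Finset.sum_nonneg fun _ _ => Finset.sum_nonneg fun _ _ => abs_nonneg _)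
    (Finset.mem_univ A)

/-- `‖[a, x]‖ ≤ C₀ sup|a| ‖x‖` -/
lemma adm_bd (S : Setup d F) (a : Fin d → ℝ) (s : ℝ) (hs : ∀ B, |a B| ≤ s) (x : Cfg d) :
    ‖ro (S.adm a) x‖ ≤ ((9 * d * d) * F0 S) * s * ‖x‖ := by
  refine (ro_bd (S.adm a) x (F0 S * s) (adm_le S a s hs)).trans (le_of_eq ?_)
  ring

lemma adm_add (S : Setup d F) (a b : Fin d → ℝ) : S.adm (a + b) = S.adm a + S.adm b := by
  ext A C
  show ∑ B, S.f A B C * (a B + b B) = ∑ B, S.f A B C * a B + ∑ B, S.f A B C * b B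
  rw [← Finset.sum_add_distrib]
  exact Finset.sum_congr rfl fun B _ => by ring

lemma adm_smul (S : Setup d F) (c : ℝ) (a : Fin d → ℝ) : S.adm (c • a) = c • S.adm a := by
  ext A C
  show ∑ B, S.f A B C * (c * a B) = c * ∑ B, S.f A B C * a B
  rw [Finset.mul_sum]
  exact Finset.sum_congr rfl fun B _ => by ring

lemma norm_exp (S : Setup d F) (a : Fin d → ℝ) (t : ℝ) (x : Cfg d) :
    ‖ro (NormedSpace.exp (t • S.adm a)) x‖ = ‖x‖ := grp_norm (gx983_orth S a t) x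

open scoped Matrix.Norms.Operator in
lemma exp_comm (A : Matrix (Fin d) (Fin d) ℝ) (t : ℝ) :
    A * NormedSpace.exp (t • A) = NormedSpace.exp (t • A) * A :=
  (((Commute.refl A).smul_right t).exp_right).eq

open scoped Matrix.Norms.Operator in
lemma exp_comm' (Q A : Matrix (Fin d) (Fin d) ℝ) (h : Q * A = A * Q) (t : ℝ) :
    Q * NormedSpace.exp (t • A) = NormedSpace.exp (t • A) * Q :=
  ((Commute.smul_right (show Commute Q A from h) t).exp_right).eq

/-- `‖exp(t ad a)x - x‖ ≤ |t| ‖[a,x]‖` -/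
lemma exp_sub (S : Setup d F) (a : Fin d → ℝ) (t : ℝ) (x : Cfg d) :
    ‖ro (NormedSpace.exp (t • S.adm a)) x - x‖ ≤ ‖ro (S.adm a) x‖ * |t| := by
  have h := Convex.norm_image_sub_le_of_norm_hasDerivWithin_le (s := Set.univ) (x := (0 : ℝ))
    (y := t) (f := fun t : ℝ => ro (NormedSpace.exp (t • S.adm a)) x)
    (f' := fun t => ro (S.adm a) (ro (NormedSpace.exp (t • S.adm a)) x))
    (C := ‖ro (S.adm a) x‖)
    (fun s _ => (gx983_hasDerivAt_ro (S.adm a) s x).hasDerivWithinAt)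
    (fun s _ => by
      rw [← grp_ro_mul, exp_comm, grp_ro_mul, norm_exp])
    convex_univ (Set.mem_univ _) (Set.mem_univ _)
  simp only [zero_smul, NormedSpace.exp_zero, grp_ro_one, sub_zero, Real.norm_eq_abs] at h
  exact h

/-- derivative of `exp(-sA)exp(sB)x` -/
lemma hasDeriv_prod (A B : Matrix (Fin d) (Fin d) ℝ) (x : Cfg d) (s : ℝ) :
    HasDerivAt (fun s : ℝ => ro (NormedSpace.exp (s • (-A)) * NormedSpace.exp (s • B)) x)
      (ro (NormedSpace.exp (s • (-A)) * (B - A) * NormedSpace.exp (s • B)) x) s := by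
  have h0 : ∀ i j, HasDerivAt (fun s : ℝ => (NormedSpace.exp (s • (-A)) * NormedSpace.exp (s • B)) i j)
      ((NormedSpace.exp (s • (-A)) * (B - A) * NormedSpace.exp (s • B)) i j) s := by
    intro i j
    have h1 : HasDerivAt (fun s : ℝ => ∑ k, NormedSpace.exp (s • (-A)) i k * NormedSpace.exp (s • B) k j)
        (∑ k, (((-A) * NormedSpace.exp (s • (-A))) i k * NormedSpace.exp (s • B) k j +
          NormedSpace.exp (s • (-A)) i k * (B * NormedSpace.exp (s • B)) k j)) s :=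
      HasDerivAt.fun_sum fun k _ => (gx983_hasDerivAt_exp (-A) s i k).mul
        (gx983_hasDerivAt_exp B s k j)
    have e : (NormedSpace.exp (s • (-A)) * (B - A) * NormedSpace.exp (s • B)) i j =
        ∑ k, (((-A) * NormedSpace.exp (s • (-A))) i k * NormedSpace.exp (s • B) k j +
          NormedSpace.exp (s • (-A)) i k * (B * NormedSpace.exp (s • B)) k j) := by
      rw [Finset.sum_add_distrib, ← Matrix.mul_apply, ← Matrix.mul_apply, exp_comm, ← Matrix.add_apply]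
      simp only [Matrix.mul_sub, Matrix.sub_mul, Matrix.mul_neg, Matrix.neg_mul, Matrix.mul_assoc]
      rw [sub_eq_add_neg, add_comm]
    rw [e]
    exact h1
  have h1 : HasDerivAt (fun s : ℝ => fun p : Fin 9 × Fin d =>
      ∑ C, (NormedSpace.exp (s • (-A)) * NormedSpace.exp (s • B)) p.2 C * x (p.1, C))
      (fun p : Fin 9 × Fin d => ∑ C,
        (NormedSpace.exp (s • (-A)) * (B - A) * NormedSpace.exp (s • B)) p.2 C * x (p.1, C)) s :=
    hasDerivAt_pi.2 fun p => HasDerivAt.fun_sum fun C _ => (h0 p.2 C).mul_const _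
  exact (PiLp.continuousLinearEquiv 2 ℝ (fun _ : Fin 9 × Fin d => ℝ)).symm.hasFDerivAt.comp_hasDerivAt
    s h1

/-- `‖exp(t ad a)x - exp(t ad b)x‖ ≤ C |t| ‖x‖` if `‖[b - a, y]‖ ≤ C ‖y‖` -/
lemma exp_diff (S : Setup d F) (a b : Fin d → ℝ) (C : ℝ)
    (hC : ∀ y : Cfg d, ‖ro (S.adm b - S.adm a) y‖ ≤ C * ‖y‖) (t : ℝ) (x : Cfg d) :
    ‖ro (NormedSpace.exp (t • S.adm a)) x - ro (NormedSpace.exp (t • S.adm b)) x‖ ≤ C * ‖x‖ * |t| := by
  have hneg : ∀ s : ℝ, s • (-S.adm a) = (-s) • S.adm a := fun s => by rw [smul_neg, neg_smul]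
  have h := Convex.norm_image_sub_le_of_norm_hasDerivWithin_le (s := Set.univ) (x := (0 : ℝ))
    (y := t) (f := fun s : ℝ => ro (NormedSpace.exp (s • (-S.adm a)) * NormedSpace.exp (s • S.adm b)) x)
    (f' := fun s => ro (NormedSpace.exp (s • (-S.adm a)) * (S.adm b - S.adm a) *
      NormedSpace.exp (s • S.adm b)) x)
    (C := C * ‖x‖)
    (fun s _ => (hasDeriv_prod (S.adm a) (S.adm b) x s).hasDerivWithinAt)
    (fun s _ => by
      rw [grp_ro_mul, grp_ro_mul, hneg, norm_exp]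
      refine (hC _).trans ?_
      rw [norm_exp])
    convex_univ (Set.mem_univ _) (Set.mem_univ _)
  simp only [zero_smul, NormedSpace.exp_zero, grp_ro_one, sub_zero, Real.norm_eq_abs, mul_one] at h
  have h2 : ro (NormedSpace.exp (t • (-S.adm a)) * NormedSpace.exp (t • S.adm b)) x - x =
      ro (NormedSpace.exp (t • (-S.adm a))) (ro (NormedSpace.exp (t • S.adm b)) x -
        ro (NormedSpace.exp (t • S.adm a)) x) := by
    rw [ro_sub, ← grp_ro_mul, ← grp_ro_mul]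
    congr 1
    have : NormedSpace.exp (t • (-S.adm a)) * NormedSpace.exp (t • S.adm a) = 1 := by
      have h3 := gx983_orth S a t
      rwa [← Matrix.exp_transpose, Matrix.transpose_smul, gx983_adm_transpose] at h3
    rw [this, grp_ro_one]
  rw [h2, hneg, norm_exp] at h
  rw [norm_sub_rev]
  exact h

/-! ## the splitting -/

/-- `m`-part of a colour vector -/
noncomputable def am (φ : Spl dh dm d) (a : Fin d → ℝ) : Fin d → ℝ :=
  fun A => Sum.elim (fun _ => 0) (fun B => a (φ (Sum.inr B))) (φ.symm A)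

/-- `h`-part of a colour vector -/
noncomputable def ah (φ : Spl dh dm d) (a : Fin d → ℝ) : Fin d → ℝ :=
  fun A => Sum.elim (fun B => a (φ (Sum.inl B))) (fun _ => 0) (φ.symm A)

lemma am_ah (φ : Spl dh dm d) (a : Fin d → ℝ) : a = ah φ a + am φ a := by
  funext A
  obtain ⟨B, rfl⟩ := φ.surjective A
  rcases B with B | B <;> simp [am, ah]

/-- `z`-part of a configuration -/
noncomputable def x1 (φ : Spl dh dm d) (ψ : Spz r ds dh) (x : Cfg d) : Cfg d :=
  WithLp.toLp 2 fun p => Sum.elim (fun B => Sum.elim (fun _ => x p) (fun _ => 0) (ψ.symm B))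
    (fun _ => 0) (φ.symm p.2)

/-- `s`-part of a configuration -/
noncomputable def x2 (φ : Spl dh dm d) (ψ : Spz r ds dh) (x : Cfg d) : Cfg d :=
  WithLp.toLp 2 fun p => Sum.elim (fun B => Sum.elim (fun _ => 0) (fun _ => x p) (ψ.symm B))
    (fun _ => 0) (φ.symm p.2)

/-- `m`-part of a configuration -/
noncomputable def x3 (φ : Spl dh dm d) (x : Cfg d) : Cfg d :=
  WithLp.toLp 2 fun p => Sum.elim (fun _ => 0) (fun _ => x p) (φ.symm p.2)

lemma x123 (φ : Spl dh dm d) (ψ : Spz r ds dh) (x : Cfg d) : x = x1 φ ψ x + x2 φ ψ x + x3 φ x := by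
  ext ⟨i, A⟩
  obtain ⟨B, rfl⟩ := φ.surjective A
  rcases B with B | B
  · obtain ⟨C, rfl⟩ := ψ.surjective B
    rcases C with C | C <;> simp [x1, x2, x3]
  · simp [x1, x2, x3]

lemma nsq (φ : Spl dh dm d) (ψ : Spz r ds dh) (y : Cfg d) :
    ‖y‖ ^ 2 = ‖hz ψ (zy φ y)‖ ^ 2 + ‖hs ψ (zy φ y)‖ ^ 2 + ‖pm φ y‖ ^ 2 := by
  simp only [EuclideanSpace.norm_sq_eq, Fintype.sum_prod_type, ← Finset.sum_add_distrib]
  refine Finset.sum_congr rfl fun i _ => ?_
  rw [← φ.sum_comp, Fintype.sum_sum_type, ← ψ.sum_comp, Fintype.sum_sum_type]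
  rfl

lemma hz_le (φ : Spl dh dm d) (ψ : Spz r ds dh) (y : Cfg d) : ‖hz ψ (zy φ y)‖ ≤ ‖y‖ := by
  refine le_of_sq_le_sq ?_ (norm_nonneg _)
  rw [nsq φ ψ y]
  nlinarith [sq_nonneg ‖hs ψ (zy φ y)‖, sq_nonneg ‖pm φ y‖]

lemma hs_le (φ : Spl dh dm d) (ψ : Spz r ds dh) (y : Cfg d) : ‖hs ψ (zy φ y)‖ ≤ ‖y‖ := by
  refine le_of_sq_le_sq ?_ (norm_nonneg _)
  rw [nsq φ ψ y]
  nlinarith [sq_nonneg ‖hz ψ (zy φ y)‖, sq_nonneg ‖pm φ y‖]

lemma pm_le (φ : Spl dh dm d) (ψ : Spz r ds dh) (y : Cfg d) : ‖pm φ y‖ ≤ ‖y‖ := by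
  refine le_of_sq_le_sq ?_ (norm_nonneg _)
  rw [nsq φ ψ y]
  nlinarith [sq_nonneg ‖hz ψ (zy φ y)‖, sq_nonneg ‖hs ψ (zy φ y)‖]

lemma n1 (φ : Spl dh dm d) (ψ : Spz r ds dh) (x : Cfg d) : ‖x1 φ ψ x‖ = ‖hz ψ (zy φ x)‖ := by
  refine (sq_eq_sq₀ (norm_nonneg _) (norm_nonneg _)).1 ?_
  rw [nsq φ ψ (x1 φ ψ x)]
  have h1 : hz ψ (zy φ (x1 φ ψ x)) = hz ψ (zy φ x) := by
    ext p; simp [hz, zy, x1]
  have h2 : hs ψ (zy φ (x1 φ ψ x)) = 0 := by
    ext p; simp [hs, zy, x1]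
  have h3 : pm φ (x1 φ ψ x) = 0 := by
    ext p; simp [pm, x1]
  rw [h1, h2, h3]
  simp

lemma n2 (φ : Spl dh dm d) (ψ : Spz r ds dh) (x : Cfg d) : ‖x2 φ ψ x‖ = ‖hs ψ (zy φ x)‖ := by
  refine (sq_eq_sq₀ (norm_nonneg _) (norm_nonneg _)).1 ?_
  rw [nsq φ ψ (x2 φ ψ x)]
  have h1 : hz ψ (zy φ (x2 φ ψ x)) = 0 := by
    ext p; simp [hz, zy, x2]
  have h2 : hs ψ (zy φ (x2 φ ψ x)) = hs ψ (zy φ x) := by
    ext p; simp [hs, zy, x2]
  have h3 : pm φ (x2 φ ψ x) = 0 := by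
    ext p; simp [pm, x2]
  rw [h1, h2, h3]
  simp

lemma n3 (φ : Spl dh dm d) (ψ : Spz r ds dh) (x : Cfg d) : ‖x3 φ x‖ = ‖pm φ x‖ := by
  refine (sq_eq_sq₀ (norm_nonneg _) (norm_nonneg _)).1 ?_
  rw [nsq φ ψ (x3 φ x)]
  have h1 : hz ψ (zy φ (x3 φ x)) = 0 := by
    ext p; simp [hz, zy, x3]
  have h2 : hs ψ (zy φ (x3 φ x)) = 0 := by
    ext p; simp [hs, zy, x3]
  have h3 : pm φ (x3 φ x) = pm φ x := by
    ext p; simp [pm, x3]
  rw [h1, h2, h3]
  simp

/-! ## structure -/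

lemma fml (S : Setup d F) (φ : Spl dh dm d) (h : S.IsSub φ) (A B C) :
    S.f (φ (Sum.inr A)) (φ (Sum.inl B)) (φ (Sum.inl C)) = 0 := by
  rw [S.f_cyc]; exact h _ _ _

lemma flm (S : Setup d F) (φ : Spl dh dm d) (h : S.IsSub φ) (A B C) :
    S.f (φ (Sum.inl A)) (φ (Sum.inr B)) (φ (Sum.inl C)) = 0 := by
  rw [← S.f_cyc]; exact h _ _ _

/-- `[ξ_h, z] = 0` -/
lemma ad_z (S : Setup d F) (φ : Spl dh dm d) (ψ : Spz r ds dh) (h : S.IsSub φ) (hZ : IsZ S φ ψ)
    (a : Fin d → ℝ) (x : Cfg d) : ro (S.adm (ah φ a)) (x1 φ ψ x) = 0 := by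
  ext ⟨i, A⟩
  rw [grp_ro_apply]
  show ∑ C, (∑ B, S.f A B C * ah φ a B) * x1 φ ψ x (i, C) = 0
  rw [← φ.sum_comp, Fintype.sum_sum_type]
  have e2 : ∀ C : Fin dm, x1 φ ψ x (i, φ (Sum.inr C)) = 0 := fun C => by simp [x1]
  simp only [e2, mul_zero, Finset.sum_const_zero, add_zero]
  rw [← ψ.sum_comp, Fintype.sum_sum_type]
  have e3 : ∀ C : Fin ds, x1 φ ψ x (i, φ (Sum.inl (ψ (Sum.inr C)))) = 0 := fun C => by simp [x1]
  simp only [e3, mul_zero, Finset.sum_const_zero, add_zero]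
  refine Finset.sum_eq_zero fun C _ => ?_
  rw [mul_eq_zero]
  left
  rw [← φ.sum_comp, Fintype.sum_sum_type]
  have e4 : ∀ B : Fin dm, ah φ a (φ (Sum.inr B)) = 0 := fun B => by simp [ah]
  simp only [e4, mul_zero, Finset.sum_const_zero, add_zero]
  refine Finset.sum_eq_zero fun B _ => ?_
  rw [mul_eq_zero]
  left
  obtain ⟨A', rfl⟩ := φ.surjective A
  rcases A' with A' | A'
  · rw [← S.f_cyc]
    exact hZ C A' B
  · exact fml S φ h _ _ _

/-- projection onto `h` -/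
noncomputable def QQ (φ : Spl dh dm d) : Matrix (Fin d) (Fin d) ℝ :=
  Matrix.diagonal fun A => Sum.elim (fun _ => 1) (fun _ => 0) (φ.symm A)

lemma QQ_comm (S : Setup d F) (φ : Spl dh dm d) (h : S.IsSub φ) (a : Fin d → ℝ) :
    QQ φ * S.adm (ah φ a) = S.adm (ah φ a) * QQ φ := by
  ext A C
  rw [QQ, Matrix.diagonal_mul, Matrix.mul_diagonal]
  have hz : ∀ A C, S.adm (ah φ a) A C = ∑ B : Fin dh, S.f A (φ (Sum.inl B)) C * a (φ (Sum.inl B)) := by
    intro A C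
    show ∑ B, S.f A B C * ah φ a B = _
    rw [← φ.sum_comp, Fintype.sum_sum_type]
    simp [ah]
  obtain ⟨A', rfl⟩ := φ.surjective A
  obtain ⟨C', rfl⟩ := φ.surjective C
  rcases A' with A' | A' <;> rcases C' with C' | C'
  · simp
  · rw [hz]
    simp [h A' _ C']
  · rw [hz]
    simp [fml S φ h A' _ C']
  · simp

lemma exp_hm (S : Setup d F) (φ : Spl dh dm d) (h : S.IsSub φ) (a : Fin d → ℝ) (t : ℝ)
    (A : Fin dm) (C : Fin dh) :
    NormedSpace.exp (t • S.adm (ah φ a)) (φ (Sum.inr A)) (φ (Sum.inl C)) = 0 := by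
  have e := exp_comm' (QQ φ) (S.adm (ah φ a)) (QQ_comm S φ h a) t
  have e2 := congrFun (congrFun e (φ (Sum.inr A))) (φ (Sum.inl C))
  rw [QQ, Matrix.diagonal_mul, Matrix.mul_diagonal] at e2
  simpa using e2.symm

/-- `exp(t ad ξ_h)` maps the `s`-part into `h` -/
lemma pm_x2 (S : Setup d F) (φ : Spl dh dm d) (ψ : Spz r ds dh) (h : S.IsSub φ)
    (a : Fin d → ℝ) (t : ℝ) (x : Cfg d) :
    pm φ (ro (NormedSpace.exp (t • S.adm (ah φ a))) (x2 φ ψ x)) = 0 := by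
  ext ⟨i, A⟩
  show ∑ C, NormedSpace.exp (t • S.adm (ah φ a)) (φ (Sum.inr A)) C * x2 φ ψ x (i, C) = 0
  rw [← φ.sum_comp, Fintype.sum_sum_type]
  have e2 : ∀ C : Fin dm, x2 φ ψ x (i, φ (Sum.inr C)) = 0 := fun C => by simp [x2]
  simp [e2, exp_hm S φ h]

lemma pm_add (φ : Spl dh dm d) (x y : Cfg d) : pm φ (x + y) = pm φ x + pm φ y := rfl
lemma pm_sub (φ : Spl dh dm d) (x y : Cfg d) : pm φ (x - y) = pm φ x - pm φ y := rfl
lemma hz_sub (φ : Spl dh dm d) (ψ : Spz r ds dh) (x y : Cfg d) :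
    hz ψ (zy φ (x - y)) = hz ψ (zy φ x) - hz ψ (zy φ y) := rfl
lemma hs_sub (φ : Spl dh dm d) (ψ : Spz r ds dh) (x y : Cfg d) :
    hs ψ (zy φ (x - y)) = hs ψ (zy φ x) - hs ψ (zy φ y) := rfl

end Vale.Agent.P353.AN.LW.GA

namespace Vale.Agent.P353.AN.LW

open Vale.Agent.P353.Z Vale.Agent.P353.Z.U Vale.Agent.P353.Z.AN Vale.Agent.P353.AN.G GA

variable {N d : ℕ} {F : Type*} [NormedAddCommGroup F] [InnerProductSpace ℂ F]

/-- **LH9 GoodA** -/
theorem goodA_stmt (M : BFSS.Model N d F) (h5 : AdEStmt M) : GoodAStmt M := by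
  intro S hS dh dm r ds φ ψ hsub hZ K hK L hL
  obtain ⟨B₀, hB₀⟩ := hK.isBounded.exists_norm_le
  obtain ⟨B, hB, hB0⟩ : ∃ B : ℝ, (∀ x ∈ K, ‖x‖ ≤ B) ∧ 0 ≤ B :=
    ⟨max B₀ 0, fun x hx => (hB₀ x hx).trans (le_max_left _ _), le_max_right _ _⟩
  obtain ⟨c, hc⟩ : ∃ c : ℝ, c = (9 * d * d) * F0 S := ⟨_, rfl⟩
  have hc0 : 0 ≤ c := by
    rw [hc]
    have := F0_nonneg S
    positivity
  refine ⟨1, c * B + c * L + 2 * L + 1, one_pos, by positivity, ?_⟩
  intro R hR U ξ hξ hm hU x hx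
  obtain ⟨hx1, hx2, hx3⟩ := hx
  have hR0 : 0 < R := by linarith
  obtain ⟨q, hq⟩ : ∃ q : ℝ, q = Real.sqrt R := ⟨_, rfl⟩
  have hq1 : 1 ≤ q := by
    rw [hq]
    exact Real.one_le_sqrt.2 hR
  have hq0 : 0 < q := by linarith
  have hqq : q * q = R := by rw [hq]; exact Real.mul_self_sqrt hR0.le
  rw [← hq] at hm hx3 ⊢
  obtain ⟨a, ha⟩ : ∃ a : Fin d → ℝ, a = ξ := ⟨_, rfl⟩
  have hact : M.act U x = ro (NormedSpace.exp ((-1 : ℝ) • S.adm a)) x := by
    rw [ha, ← h5 S hS U ξ hU]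
    rfl
  obtain ⟨μ, hμ⟩ : ∃ μ : ℝ, μ = (R * q)⁻¹ := ⟨_, rfl⟩
  have hμ0 : 0 < μ := by rw [hμ]; positivity
  have hμR : μ * R = q⁻¹ := by
    rw [hμ]
    field_simp
  have hqμ : q * μ ≤ 1 := by
    have : q * μ = R⁻¹ := by
      rw [hμ]
      field_simp
    rw [this]
    exact inv_le_one_of_one_le₀ hR
  have ham : ∀ A, |am φ a A| ≤ μ := by
    intro A
    obtain ⟨A', rfl⟩ := φ.surjective A
    rcases A' with A' | A'
    · simp only [am, Equiv.symm_apply_apply, Sum.elim_inl, abs_zero]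
      exact hμ0.le
    · simp only [am, Equiv.symm_apply_apply, Sum.elim_inr]
      rw [ha, hμ]
      exact hm A'
  have haξ : ∀ A, |a A| ≤ ‖ξ‖ := by
    intro A
    have := PiLp.norm_apply_le ξ A
    rw [Real.norm_eq_abs] at this
    rw [ha]
    exact this
  have hN1 : ‖x1 φ ψ x‖ ≤ R * B := by
    rw [n1]
    have h1 := hB _ hx1
    rw [norm_smul, norm_inv, Real.norm_of_nonneg hR0.le] at h1
    rwa [inv_mul_le_iff₀ hR0] at h1
  have hN2 : ‖x2 φ ψ x‖ ≤ L := by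
    rw [n2]
    exact hx2
  have hN3 : q * ‖x3 φ x‖ ≤ L := by
    rw [n3 φ ψ x]
    rwa [norm_smul, Real.norm_of_nonneg hq0.le] at hx3
  -- the three differences
  have hD1 : ‖ro (NormedSpace.exp ((-1 : ℝ) • S.adm a)) (x1 φ ψ x) - x1 φ ψ x‖ ≤ c * B * q⁻¹ := by
    refine (exp_sub S a (-1) _).trans ?_
    have h1 : ro (S.adm a) (x1 φ ψ x) = ro (S.adm (am φ a)) (x1 φ ψ x) := by
      conv_lhs => rw [am_ah φ a, adm_add, ro_addl, ad_z S φ ψ hsub hZ, zero_add]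
    rw [h1]
    have h2 := adm_bd S (am φ a) μ ham (x1 φ ψ x)
    rw [← hc] at h2
    have h3 : c * μ * ‖x1 φ ψ x‖ ≤ c * μ * (R * B) := by
      have : 0 ≤ c * μ := by positivity
      gcongr
    calc _ ≤ c * μ * (R * B) * |(-1 : ℝ)| := by
            have : (0 : ℝ) ≤ |(-1 : ℝ)| := abs_nonneg _
            gcongr
            exact h2.trans h3
      _ = c * B * (μ * R) := by rw [abs_neg, abs_one]; ring
      _ = _ := by rw [hμR]
  have hD2 : ‖ro (NormedSpace.exp ((-1 : ℝ) • S.adm a)) (x2 φ ψ x) - x2 φ ψ x‖ ≤ c * L * ‖ξ‖ := by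
    refine (exp_sub S a (-1) _).trans ?_
    rw [abs_neg, abs_one, mul_one]
    have h2 := adm_bd S a ‖ξ‖ haξ (x2 φ ψ x)
    rw [← hc] at h2
    refine h2.trans ?_
    have : c * ‖ξ‖ * ‖x2 φ ψ x‖ ≤ c * ‖ξ‖ * L := by
      have : 0 ≤ c * ‖ξ‖ := by positivity
      gcongr
    linarith
  have hD3 : ‖ro (NormedSpace.exp ((-1 : ℝ) • S.adm a)) (x3 φ x) - x3 φ x‖ ≤ 2 * L * q⁻¹ := by
    refine (norm_sub_le _ _).trans ?_
    rw [norm_exp]
    have : ‖x3 φ x‖ ≤ L * q⁻¹ := by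
      rw [← div_eq_mul_inv, le_div_iff₀ hq0]
      linarith
    linarith
  have hdiff : ‖M.act U x - x‖ ≤ (c * B + c * L + 2 * L + 1) * (‖ξ‖ + q⁻¹) := by
    have e : M.act U x - x =
        (ro (NormedSpace.exp ((-1 : ℝ) • S.adm a)) (x1 φ ψ x) - x1 φ ψ x) +
        (ro (NormedSpace.exp ((-1 : ℝ) • S.adm a)) (x2 φ ψ x) - x2 φ ψ x) +
        (ro (NormedSpace.exp ((-1 : ℝ) • S.adm a)) (x3 φ x) - x3 φ x) := by
      rw [hact]
      conv_lhs => rw [x123 φ ψ x, ro_add, ro_add]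
      abel
    rw [e]
    refine (norm_add₃_le).trans ?_
    have h1 : 0 ≤ q⁻¹ := by positivity
    have h2 : 0 ≤ ‖ξ‖ := norm_nonneg _
    have h3 : 0 ≤ c * B := by positivity
    have h4 : 0 ≤ c * L := by positivity
    nlinarith [mul_nonneg h3 h2, mul_nonneg h4 h1, mul_nonneg hL.le h2]
  refine ⟨?_, ?_, ?_⟩
  · rw [← hz_sub]
    exact (hz_le φ ψ _).trans hdiff
  · rw [← hs_sub]
    exact (hs_le φ ψ _).trans hdiff
  · have e : pm φ (M.act U x) =
        pm φ (ro (NormedSpace.exp ((-1 : ℝ) • S.adm a)) (x1 φ ψ x) - x1 φ ψ x) +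
        pm φ (ro (NormedSpace.exp ((-1 : ℝ) • S.adm a)) (x2 φ ψ x) -
          ro (NormedSpace.exp ((-1 : ℝ) • S.adm (ah φ a))) (x2 φ ψ x)) +
        pm φ (ro (NormedSpace.exp ((-1 : ℝ) • S.adm a)) (x3 φ x)) := by
      rw [hact]
      conv_lhs => rw [x123 φ ψ x, ro_add, ro_add]
      rw [pm_add, pm_add, pm_sub, pm_sub, pm_x2 S φ ψ hsub, sub_zero]
      have : pm φ (x1 φ ψ x) = 0 := by
        ext p; simp [pm, x1]
      rw [this, sub_zero]
    have h2 : ‖ro (NormedSpace.exp ((-1 : ℝ) • S.adm a)) (x2 φ ψ x) -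
          ro (NormedSpace.exp ((-1 : ℝ) • S.adm (ah φ a))) (x2 φ ψ x)‖ ≤ c * μ * L := by
      have h3 := exp_diff S a (ah φ a) (c * μ) (fun y => by
        have e1 : S.adm (ah φ a) - S.adm a = S.adm ((-1 : ℝ) • am φ a) := by
          conv_lhs => rw [am_ah φ a, adm_add]
          rw [adm_smul]
          have : ah φ (ah φ a + am φ a) = ah φ a := by rw [← am_ah]
          rw [this, neg_one_smul]
          abel
        rw [e1, hc]
        refine adm_bd S _ μ (fun A => ?_) y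
        simp only [Pi.smul_apply, smul_eq_mul, neg_mul, one_mul, abs_neg]
        exact ham A) (-1) (x2 φ ψ x)
      rw [abs_neg, abs_one, mul_one] at h3
      refine h3.trans ?_
      have : 0 ≤ c * μ := by positivity
      gcongr
    rw [norm_smul, Real.norm_of_nonneg hq0.le, e]
    have h4 := (norm_add₃_le (a := pm φ (ro (NormedSpace.exp ((-1 : ℝ) • S.adm a)) (x1 φ ψ x) - x1 φ ψ x))
      (b := pm φ (ro (NormedSpace.exp ((-1 : ℝ) • S.adm a)) (x2 φ ψ x) -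
          ro (NormedSpace.exp ((-1 : ℝ) • S.adm (ah φ a))) (x2 φ ψ x)))
      (c := pm φ (ro (NormedSpace.exp ((-1 : ℝ) • S.adm a)) (x3 φ x))))
    have h5 := (pm_le φ ψ (ro (NormedSpace.exp ((-1 : ℝ) • S.adm a)) (x1 φ ψ x) - x1 φ ψ x)).trans hD1
    have h6 := (pm_le φ ψ (ro (NormedSpace.exp ((-1 : ℝ) • S.adm a)) (x2 φ ψ x) -
          ro (NormedSpace.exp ((-1 : ℝ) • S.adm (ah φ a))) (x2 φ ψ x))).trans h2
    have h7 := pm_le φ ψ (ro (NormedSpace.exp ((-1 : ℝ) • S.adm a)) (x3 φ x))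
    rw [norm_exp] at h7
    have h8 : q * (c * B * q⁻¹) = c * B := by field_simp
    have h9 : q * (c * μ * L) ≤ c * L := by
      have : q * (c * μ * L) = (q * μ) * (c * L) := by ring
      rw [this]
      have h4 : 0 ≤ c * L := by positivity
      nlinarith
    calc _ ≤ q * (c * B * q⁻¹ + c * μ * L + ‖x3 φ x‖) := by
            apply mul_le_mul_of_nonneg_left _ hq0.le
            linarith
      _ = q * (c * B * q⁻¹) + q * (c * μ * L) + q * ‖x3 φ x‖ := by ring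
      _ ≤ _ := by rw [h8]; linarith

end Vale.Agent.P353.AN.LW
end

section

/-! P353, all N, block LOW part H: unconditional outputs. -/

namespace Vale.Agent.P353.AN.LW.H

open Vale.Agent.P353 Vale.Agent.P353.AN.LW

variable {N d : ℕ} {F : Type*} [NormedAddCommGroup F] [InnerProductSpace ℂ F]

theorem log (M : BFSS.Model N d F) : LogStmt M := log_stmt M

theorem expLip (M : BFSS.Model N d F) : ExpLipStmt M := expLip_stmt M

theorem hl (M : BFSS.Model N d F) : HLStmt M := hl_stmt M (log M) (expLip M)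

theorem good (M : BFSS.Model N d F) : GoodStmt M := LH4.good_stmt M (expLip M) (hl M)

theorem adE (M : BFSS.Model N d F) : AdEStmt M := adE_stmt M

theorem sUni (M : BFSS.Model N d F) : SUniStmt M := sUni_stmt M

theorem near (M : BFSS.Model N d F) : NearStmt M := near_stmt M

theorem geo [FiniteDimensional ℂ F] (M : BFSS.Model N d F) : GeoStmt M :=
  geo_stmt M (log M) (expLip M) (adE M) (sUni M) (near M)

theorem goodA (M : BFSS.Model N d F) : GoodAStmt M := goodA_stmt M (adE M)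

end Vale.Agent.P353.AN.LW.H
end
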