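import Mathlib
import Vale.Agent.P353.BdA.B1
import Vale.Agent.P353.BdA.B11
import Vale.Agent.P353.BdA.B21

set_option linter.all false

section

/-! # P353, all `N`, block A4: bounds near the reference point, uniform in the scale -/

open MeasureTheory Filter Topology
open scoped ContDiff

namespace Vale.Agent.P353.Z.AN

variable {d dh dm : ℕ} {F : Type*} [NormedAddCommGroup F] [InnerProductSpace ℂ F]

lemma bd_apply (S : Setup d F) (φ : Spl dh dm d) (i : Fin 9) (y : Cfg dh) (B C : Fin dm) :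
    S.Dy φ i y B C = ∑ A, S.f (φ (Sum.inr B)) (φ (Sum.inl A)) (φ (Sum.inr C)) * y (i, A) := rfl

lemma bd_smul (S : Setup d F) (φ : Spl dh dm d) (i : Fin 9) (R : ℝ) (y : Cfg dh) :
    S.Dy φ i (R • y) = R • S.Dy φ i y := by
  ext B C
  simp only [bd_apply, Matrix.smul_apply, PiLp.smul_apply, smul_eq_mul, Finset.mul_sum]
  exact Finset.sum_congr rfl fun A _ => by ring

lemma bd_cd (S : Setup d F) (φ : Spl dh dm d) (i : Fin 9) (B C : Fin dm) :
    ContDiff ℝ ∞ (fun y : Cfg dh => S.Dy φ i y B C) := by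
  simp only [bd_apply]
  fun_prop

/-- the determinant of `D_8` -/
noncomputable def bdet (S : Setup d F) (φ : Spl dh dm d) (y : Cfg dh) : ℝ := (S.Dy φ 8 y).det

lemma bdet_cd (S : Setup d F) (φ : Spl dh dm d) : ContDiff ℝ ∞ (bdet S φ : Cfg dh → ℝ) := by
  unfold bdet
  simp only [Matrix.det_apply]
  refine ContDiff.sum fun σ _ => ?_
  refine ContDiff.const_smul _ ?_
  refine contDiff_prod fun i _ => ?_
  exact bd_cd S φ 8 _ _

lemma bdet_smul (S : Setup d F) (φ : Spl dh dm d) (R : ℝ) (y : Cfg dh) :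
    bdet S φ (R • y) = R ^ dm * bdet S φ y := by
  unfold bdet
  rw [bd_smul, Matrix.det_smul, Fintype.card_fin]

/-- the logarithmic derivative -/
lemma bd_log (S : Setup d F) (φ : Spl dh dm d) (y : Cfg dh) (h : bdet S φ y ≠ 0) (e : Cfg dh) :
    fderiv ℝ (fun y' => Real.log (S.Jd φ y')) y e = (bdet S φ y)⁻¹ * fderiv ℝ (bdet S φ) y e := by
  have h1 : (fun y' => Real.log (S.Jd φ y')) = fun y' => Real.log (bdet S φ y') := by
    funext y'
    unfold Setup.Jd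
    rw [Real.log_abs]
    rfl
  rw [h1]
  have h2 : HasFDerivAt (bdet S φ) (fderiv ℝ (bdet S φ) y) y :=
    ((bdet_cd S φ).differentiable (by simp)).differentiableAt.hasFDerivAt
  rw [(h2.log h).fderiv]
  simp

lemma bd_fd_smul (S : Setup d F) (φ : Spl dh dm d) {R : ℝ} (hR : 0 < R) (y e : Cfg dh) :
    fderiv ℝ (bdet S φ) (R • y) e = R ^ dm * (R⁻¹ * fderiv ℝ (bdet S φ) y e) := by
  have hd : Differentiable ℝ (bdet S φ : Cfg dh → ℝ) := (bdet_cd S φ).differentiable (by simp)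
  have h1 : (fun z => bdet S φ (R • z)) = fun z => R ^ dm * bdet S φ z := by
    funext z
    exact bdet_smul S φ R z
  have h2 : HasFDerivAt (fun z => bdet S φ (R • z))
      ((fderiv ℝ (bdet S φ) (R • y)).comp (R • ContinuousLinearMap.id ℝ (Cfg dh))) y := by
    have h3 : HasFDerivAt (fun z : Cfg dh => R • z) (R • ContinuousLinearMap.id ℝ (Cfg dh)) y :=
      (hasFDerivAt_id y).const_smul R
    exact (hd (R • y)).hasFDerivAt.comp y h3
  have h4 : HasFDerivAt (fun z => R ^ dm * bdet S φ z) (R ^ dm • fderiv ℝ (bdet S φ) y) y :=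
    (hd y).hasFDerivAt.const_mul (R ^ dm)
  rw [h1] at h2
  have h5 := h2.unique h4
  have h6 : R * fderiv ℝ (bdet S φ) (R • y) e = R ^ dm * fderiv ℝ (bdet S φ) y e := by
    have h7 := congrArg (fun L : Cfg dh →L[ℝ] ℝ => L e) h5
    simpa using h7
  have h8 : R * R⁻¹ = 1 := mul_inv_cancel₀ hR.ne'
  calc fderiv ℝ (bdet S φ) (R • y) e = R⁻¹ * (R * fderiv ℝ (bdet S φ) (R • y) e) := by
        rw [← mul_assoc, inv_mul_cancel₀ hR.ne', one_mul]
    _ = _ := by rw [h6]; ring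

lemma bd_inv_smul (S : Setup d F) (φ : Spl dh dm d) {R : ℝ} (hR : 0 < R) (y : Cfg dh)
    (h : bdet S φ y ≠ 0) (B E : Fin dm) :
    (S.Dy φ 8 (R • y))⁻¹ B E = R⁻¹ * (S.Dy φ 8 y)⁻¹ B E := by
  have hu : IsUnit (S.Dy φ 8 y).det := isUnit_iff_ne_zero.2 h
  have h1 : (S.Dy φ 8 (R • y))⁻¹ = R⁻¹ • (S.Dy φ 8 y)⁻¹ := by
    rw [bd_smul]
    refine Matrix.inv_eq_right_inv ?_
    rw [smul_mul_smul_comm, mul_inv_cancel₀ hR.ne', Matrix.mul_nonsing_inv _ hu, one_smul]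
  rw [h1, Matrix.smul_apply, smul_eq_mul]

lemma bd_cont_inv (S : Setup d F) (φ : Spl dh dm d) (B E : Fin dm) {K : Set (Cfg dh)}
    (hK : ∀ y ∈ K, bdet S φ y ≠ 0) : ContinuousOn (fun y => (S.Dy φ 8 y)⁻¹ B E) K := by
  have h1 : (fun y : Cfg dh => (S.Dy φ 8 y)⁻¹ B E) =
      fun y => (bdet S φ y)⁻¹ * (S.Dy φ 8 y).adjugate B E := by
    funext y
    rw [Matrix.inv_def, Matrix.smul_apply, smul_eq_mul, Ring.inverse_eq_inv']
    rfl
  rw [h1]
  have h2 : Continuous (fun y : Cfg dh => S.Dy φ 8 y) :=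
    continuous_matrix fun B C => (bd_cd S φ 8 B C).continuous
  have h3 : Continuous (fun y : Cfg dh => (S.Dy φ 8 y).adjugate B E) :=
    h2.matrix_adjugate.matrix_elem B E
  exact ((bdet_cd S φ).continuous.continuousOn.inv₀ hK).mul h3.continuousOn

/-- all bounds at a general scale by one constant -/
lemma bd_main (S : Setup d F) (φ : Spl dh dm d) (y₀ : Cfg dh) (h0 : bdet S φ y₀ ≠ 0) :
    ∃ ε C : ℝ, 0 < ε ∧ 1 ≤ C ∧ ∀ (R : ℝ) (y : Cfg dh), 0 < R → ‖y - R • y₀‖ ≤ ε * R →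
      bdet S φ y ≠ 0 ∧ (∀ i B E, |S.Dy φ i y B E| ≤ C * R) ∧
      (∀ B E, |(S.Dy φ 8 y)⁻¹ B E| ≤ C / R) ∧
      (∀ A, |fderiv ℝ (fun y' => Real.log (S.Jd φ y')) y
        (EuclideanSpace.single ((8 : Fin 9), A) 1)| ≤ C / R) := by
  have hopen : IsOpen {y : Cfg dh | bdet S φ y ≠ 0} :=
    isOpen_ne_fun (bdet_cd S φ).continuous continuous_const
  obtain ⟨ε, hε, hsub⟩ := Metric.nhds_basis_closedBall.mem_iff.1 (hopen.mem_nhds h0)
  set K := Metric.closedBall y₀ ε with hKdef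
  have hK : ∀ y ∈ K, bdet S φ y ≠ 0 := fun y hy => hsub hy
  have hc : IsCompact K := isCompact_closedBall y₀ ε
  have hfd : Continuous (fderiv ℝ (bdet S φ : Cfg dh → ℝ)) :=
    (bdet_cd S φ).continuous_fderiv (by simp)
  have hcont : ContinuousOn (fun y : Cfg dh => (∑ B, ∑ E, |(S.Dy φ 8 y)⁻¹ B E|) +
      (∑ i, ∑ B, ∑ E, |S.Dy φ i y B E|) +
      ∑ A, |(bdet S φ y)⁻¹ * fderiv ℝ (bdet S φ) y (EuclideanSpace.single ((8 : Fin 9), A) 1)|) K := by
    refine ContinuousOn.add (ContinuousOn.add ?_ ?_) ?_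
    · exact continuousOn_finsetSum _ fun B _ => continuousOn_finsetSum _ fun E _ =>
        (bd_cont_inv S φ B E hK).abs
    · exact continuousOn_finsetSum _ fun i _ => continuousOn_finsetSum _ fun B _ =>
        continuousOn_finsetSum _ fun E _ => (bd_cd S φ i B E).continuous.continuousOn.abs
    · refine continuousOn_finsetSum _ fun A _ => ContinuousOn.abs ?_
      refine ((bdet_cd S φ).continuous.continuousOn.inv₀ hK).mul ?_
      exact (hfd.clm_apply continuous_const).continuousOn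
  obtain ⟨C, hC⟩ := hc.exists_bound_of_continuousOn hcont
  refine ⟨ε, max C 1, hε, le_max_right _ _, ?_⟩
  intro R y hR hy
  have hRy : y = R • (R⁻¹ • y) := by
    rw [smul_smul, mul_inv_cancel₀ hR.ne', one_smul]
  set y' := R⁻¹ • y with hy'
  have hmem : y' ∈ K := by
    rw [hKdef, Metric.mem_closedBall, dist_eq_norm]
    have h1 : y - R • y₀ = R • (y' - y₀) := by rw [hRy, smul_sub]
    rw [h1, norm_smul, Real.norm_of_nonneg hR.le] at hy
    have h2 : R * ‖y' - y₀‖ ≤ R * ε := by linarith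
    exact le_of_mul_le_mul_left h2 hR
  have hdet := hK y' hmem
  have hb := hC y' hmem
  set s1 := ∑ B, ∑ E, |(S.Dy φ 8 y')⁻¹ B E| with hs1
  set s2 := ∑ i, ∑ B, ∑ E, |S.Dy φ i y' B E| with hs2
  set s3 := ∑ A, |(bdet S φ y')⁻¹ *
    fderiv ℝ (bdet S φ) y' (EuclideanSpace.single ((8 : Fin 9), A) 1)| with hs3
  have n1 : 0 ≤ s1 := Finset.sum_nonneg fun _ _ => Finset.sum_nonneg fun _ _ => abs_nonneg _
  have n2 : 0 ≤ s2 := Finset.sum_nonneg fun _ _ => Finset.sum_nonneg fun _ _ =>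
    Finset.sum_nonneg fun _ _ => abs_nonneg _
  have n3 : 0 ≤ s3 := Finset.sum_nonneg fun _ _ => abs_nonneg _
  rw [Real.norm_of_nonneg (by linarith)] at hb
  have hb' : s1 + s2 + s3 ≤ max C 1 := hb.trans (le_max_left _ _)
  refine ⟨?_, ?_, ?_, ?_⟩
  · rw [hRy, bdet_smul]
    exact mul_ne_zero (pow_ne_zero _ hR.ne') hdet
  · intro i B E
    rw [hRy, bd_smul, Matrix.smul_apply, smul_eq_mul, abs_mul, abs_of_pos hR, mul_comm]
    refine mul_le_mul_of_nonneg_right ?_ hR.le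
    have h1 : |S.Dy φ i y' B E| ≤ s2 := by
      refine le_trans ?_ (Finset.single_le_sum (f := fun i => ∑ B, ∑ E, |S.Dy φ i y' B E|)
        (fun _ _ => Finset.sum_nonneg fun _ _ => Finset.sum_nonneg fun _ _ => abs_nonneg _)
        (Finset.mem_univ i))
      refine le_trans ?_ (Finset.single_le_sum (f := fun B => ∑ E, |S.Dy φ i y' B E|)
        (fun _ _ => Finset.sum_nonneg fun _ _ => abs_nonneg _) (Finset.mem_univ B))
      exact Finset.single_le_sum (f := fun E => |S.Dy φ i y' B E|) (fun _ _ => abs_nonneg _)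
        (Finset.mem_univ E)
    linarith
  · intro B E
    rw [hRy, bd_inv_smul S φ hR y' hdet, abs_mul, abs_of_pos (inv_pos.2 hR), div_eq_mul_inv,
      mul_comm]
    refine mul_le_mul_of_nonneg_right ?_ (inv_pos.2 hR).le
    have h1 : |(S.Dy φ 8 y')⁻¹ B E| ≤ s1 := by
      refine le_trans ?_ (Finset.single_le_sum (f := fun B => ∑ E, |(S.Dy φ 8 y')⁻¹ B E|)
        (fun _ _ => Finset.sum_nonneg fun _ _ => abs_nonneg _) (Finset.mem_univ B))
      exact Finset.single_le_sum (f := fun E => |(S.Dy φ 8 y')⁻¹ B E|) (fun _ _ => abs_nonneg _)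
        (Finset.mem_univ E)
    linarith
  · intro A
    have hdet2 : bdet S φ y ≠ 0 := by
      rw [hRy, bdet_smul]
      exact mul_ne_zero (pow_ne_zero _ hR.ne') hdet
    rw [bd_log S φ y hdet2]
    have h1 : (bdet S φ y)⁻¹ * fderiv ℝ (bdet S φ) y (EuclideanSpace.single ((8 : Fin 9), A) 1) =
        ((bdet S φ y')⁻¹ * fderiv ℝ (bdet S φ) y' (EuclideanSpace.single ((8 : Fin 9), A) 1)) *
          R⁻¹ := by
      rw [hRy, bdet_smul, bd_fd_smul S φ hR]
      have hRm : R ^ dm ≠ 0 := pow_ne_zero _ hR.ne'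
      field_simp
    rw [h1, abs_mul, abs_of_pos (inv_pos.2 hR), div_eq_mul_inv]
    refine mul_le_mul_of_nonneg_right ?_ (inv_pos.2 hR).le
    have h2 := Finset.single_le_sum (f := fun A => |(bdet S φ y')⁻¹ *
      fderiv ℝ (bdet S φ) y' (EuclideanSpace.single ((8 : Fin 9), A) 1)|)
      (fun _ _ => abs_nonneg _) (Finset.mem_univ A)
    have h3 : |(bdet S φ y')⁻¹ *
      fderiv ℝ (bdet S φ) y' (EuclideanSpace.single ((8 : Fin 9), A) 1)| ≤ s3 := h2
    linarith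

/-- a common bound for all algebraic constants -/
lemma bd_const (S : Setup d F) : ∃ T : ℝ, 0 ≤ T ∧ S.κ ≤ T ∧ (∀ A B C, |S.f A B C| ≤ T) ∧
    (∀ A β, ‖S.vec (S.g 8) A β‖ ≤ T) ∧ (∀ i j A β, ‖S.vec (S.g2 i j) A β‖ ≤ T) ∧
    ∀ A, ‖S.cS A‖ ≤ T := by
  set t1 := ∑ A, ∑ B, ∑ C, |S.f A B C| with ht1
  set t2 := ∑ A, ∑ β, ‖S.vec (S.g 8) A β‖ with ht2
  set t3 := ∑ i, ∑ j, ∑ A, ∑ β, ‖S.vec (S.g2 i j) A β‖ with ht3
  set t4 := ∑ A, ‖S.cS A‖ with ht4
  have n1 : 0 ≤ t1 := Finset.sum_nonneg fun _ _ => Finset.sum_nonneg fun _ _ =>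
    Finset.sum_nonneg fun _ _ => abs_nonneg _
  have n2 : 0 ≤ t2 := Finset.sum_nonneg fun _ _ => Finset.sum_nonneg fun _ _ => norm_nonneg _
  have n3 : 0 ≤ t3 := Finset.sum_nonneg fun _ _ => Finset.sum_nonneg fun _ _ =>
    Finset.sum_nonneg fun _ _ => Finset.sum_nonneg fun _ _ => norm_nonneg _
  have n4 : 0 ≤ t4 := Finset.sum_nonneg fun _ _ => norm_nonneg _
  have hκ := S.κ_pos
  refine ⟨S.κ + t1 + t2 + t3 + t4, by linarith, by linarith, ?_, ?_, ?_, ?_⟩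
  · intro A B C
    have h1 : |S.f A B C| ≤ t1 := by
      refine le_trans ?_ (Finset.single_le_sum (f := fun A => ∑ B, ∑ C, |S.f A B C|)
        (fun _ _ => Finset.sum_nonneg fun _ _ => Finset.sum_nonneg fun _ _ => abs_nonneg _)
        (Finset.mem_univ A))
      refine le_trans ?_ (Finset.single_le_sum (f := fun B => ∑ C, |S.f A B C|)
        (fun _ _ => Finset.sum_nonneg fun _ _ => abs_nonneg _) (Finset.mem_univ B))
      exact Finset.single_le_sum (f := fun C => |S.f A B C|) (fun _ _ => abs_nonneg _)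
        (Finset.mem_univ C)
    linarith
  · intro A β
    have h1 : ‖S.vec (S.g 8) A β‖ ≤ t2 := by
      refine le_trans ?_ (Finset.single_le_sum (f := fun A => ∑ β, ‖S.vec (S.g 8) A β‖)
        (fun _ _ => Finset.sum_nonneg fun _ _ => norm_nonneg _) (Finset.mem_univ A))
      exact Finset.single_le_sum (f := fun β => ‖S.vec (S.g 8) A β‖) (fun _ _ => norm_nonneg _)
        (Finset.mem_univ β)
    linarith
  · intro i j A β
    have h1 : ‖S.vec (S.g2 i j) A β‖ ≤ t3 := by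
      refine le_trans ?_ (Finset.single_le_sum
        (f := fun i => ∑ j, ∑ A, ∑ β, ‖S.vec (S.g2 i j) A β‖)
        (fun _ _ => Finset.sum_nonneg fun _ _ => Finset.sum_nonneg fun _ _ =>
          Finset.sum_nonneg fun _ _ => norm_nonneg _) (Finset.mem_univ i))
      refine le_trans ?_ (Finset.single_le_sum (f := fun j => ∑ A, ∑ β, ‖S.vec (S.g2 i j) A β‖)
        (fun _ _ => Finset.sum_nonneg fun _ _ => Finset.sum_nonneg fun _ _ => norm_nonneg _)
        (Finset.mem_univ j))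
      refine le_trans ?_ (Finset.single_le_sum (f := fun A => ∑ β, ‖S.vec (S.g2 i j) A β‖)
        (fun _ _ => Finset.sum_nonneg fun _ _ => norm_nonneg _) (Finset.mem_univ A))
      exact Finset.single_le_sum (f := fun β => ‖S.vec (S.g2 i j) A β‖)
        (fun _ _ => norm_nonneg _) (Finset.mem_univ β)
    linarith
  · intro A
    have h1 : ‖S.cS A‖ ≤ t4 := Finset.single_le_sum (f := fun A => ‖S.cS A‖)
      (fun _ _ => norm_nonneg _) (Finset.mem_univ A)
    linarith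

lemma bd_w (w : Wsp dm) (j : Fin 8) (B : Fin dm) : |w (j, B)| ≤ ‖w‖ := by
  have := PiLp.norm_apply_le w (j, B)
  rwa [Real.norm_eq_abs] at this

lemma bd_wt (w : Wsp dm) (i : Fin 9) (B : Fin dm) : |wt w i B| ≤ ‖w‖ := by
  unfold wt
  refine Fin.lastCases ?_ (fun j => ?_) i
  · rw [Fin.lastCases_last, abs_zero]
    exact norm_nonneg w
  · rw [Fin.lastCases_castSucc]
    exact bd_w w j B

lemma bd_sum3 {ι κ' μ : Type*} [Fintype ι] [Fintype κ'] [Fintype μ] (c : ι → κ' → μ → ℂ)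
    (p : ι → μ → F) {M : ℝ} (h : ∀ j E A, ‖c j E A‖ ≤ M) :
    ‖∑ j, ∑ E, ∑ A, c j E A • p j A‖ ≤ M * (Fintype.card κ' : ℝ) * ∑ j, ∑ A, ‖p j A‖ := by
  have h1 : ∀ j, ‖∑ E, ∑ A, c j E A • p j A‖ ≤
      (Fintype.card κ' : ℝ) * (M * ∑ A, ‖p j A‖) := by
    intro j
    have h2 : ∀ E ∈ (Finset.univ : Finset κ'), ‖∑ A, c j E A • p j A‖ ≤
        M * ∑ A, ‖p j A‖ := by
      intro E _
      rw [Finset.mul_sum]
      refine norm_sum_le_of_le _ fun A _ => ?_
      rw [norm_smul]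
      exact mul_le_mul_of_nonneg_right (h j E A) (norm_nonneg _)
    refine (norm_sum_le_of_le _ h2).trans ?_
    rw [Finset.sum_const, Finset.card_univ, nsmul_eq_mul]
  refine (norm_sum_le_of_le _ fun j _ => h1 j).trans ?_
  rw [← Finset.mul_sum, ← Finset.mul_sum]
  exact le_of_eq (by ring)

lemma bd_opsum {n : ℕ} (L : Fin n → F →L[ℂ] F) (x : Fin n → F) {T M : ℝ} (hT : 0 ≤ T)
    (hL : ∀ B, ‖L B‖ ≤ T) (hx : ∀ B, ‖x B‖ ≤ M) : ‖∑ B, L B (x B)‖ ≤ n * (T * M) := by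
  have h1 : ∀ B ∈ (Finset.univ : Finset (Fin n)), ‖L B (x B)‖ ≤ T * M := by
    intro B _
    exact ((L B).le_opNorm _).trans (mul_le_mul (hL B) (hx B) (norm_nonneg _) hT)
  refine (norm_sum_le_of_le _ h1).trans ?_
  rw [Finset.sum_const, Finset.card_univ, Fintype.card_fin, nsmul_eq_mul]

lemma bd_csum {n : ℕ} (c : Fin n → ℂ) (x : Fin n → F) {T M : ℝ} (hT : 0 ≤ T)
    (hL : ∀ B, ‖c B‖ ≤ T) (hx : ∀ B, ‖x B‖ ≤ M) : ‖∑ B, c B • x B‖ ≤ n * (T * M) := by
  have h1 : ∀ B ∈ (Finset.univ : Finset (Fin n)), ‖c B • x B‖ ≤ T * M := by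
    intro B _
    rw [norm_smul]
    exact mul_le_mul (hL B) (hx B) (norm_nonneg _) hT
  refine (norm_sum_le_of_le _ h1).trans ?_
  rw [Finset.sum_const, Finset.card_univ, Fintype.card_fin, nsmul_eq_mul]

/-- terms quadratic in `w` -/
lemma bd_quad (S : Setup d F) {T : ℝ} (hT : 0 ≤ T) (hκ : S.κ ≤ T)
    (hf : ∀ A B C, |S.f A B C| ≤ T) (hg : ∀ i j A β, ‖S.vec (S.g2 i j) A β‖ ≤ T)
    {n : ℕ} (e : Fin n → Fin d) (e' : Fin dm → Fin d) (w : Wsp dm) (β : Fin 16) (x : F) :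
    ‖(1 / 2 : ℂ) • (∑ A, ∑ i, ∑ j,
      ((S.κ * ∑ B, ∑ C, S.f (e A) (e' B) (e' C) * wt w i B * wt w j C : ℝ) : ℂ) •
        S.vec (S.g2 i j) (e A) β x)‖ ≤
      n * (9 * (9 * (T * (dm * (dm * (T * ‖w‖ * ‖w‖))) * (T * ‖x‖)))) := by
  have h0 : ∀ A i j, |S.κ * ∑ B, ∑ C, S.f (e A) (e' B) (e' C) * wt w i B * wt w j C| ≤
      T * (dm * (dm * (T * ‖w‖ * ‖w‖))) := by
    intro A i j
    rw [abs_mul, abs_of_pos S.κ_pos]
    have h1 : |∑ B, ∑ C, S.f (e A) (e' B) (e' C) * wt w i B * wt w j C| ≤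
        dm * (dm * (T * ‖w‖ * ‖w‖)) := by
      refine (Finset.abs_sum_le_sum_abs _ _).trans ?_
      have h2 : ∀ B ∈ (Finset.univ : Finset (Fin dm)),
          |∑ C, S.f (e A) (e' B) (e' C) * wt w i B * wt w j C| ≤ dm * (T * ‖w‖ * ‖w‖) := by
        intro B _
        refine (Finset.abs_sum_le_sum_abs _ _).trans ?_
        have h3 : ∀ C ∈ (Finset.univ : Finset (Fin dm)),
            |S.f (e A) (e' B) (e' C) * wt w i B * wt w j C| ≤ T * ‖w‖ * ‖w‖ := by
          intro C _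
          rw [abs_mul, abs_mul]
          exact mul_le_mul (mul_le_mul (hf _ _ _) (bd_wt w i B) (abs_nonneg _) hT)
            (bd_wt w j C) (abs_nonneg _) (mul_nonneg hT (norm_nonneg _))
        refine (Finset.sum_le_sum h3).trans ?_
        rw [Finset.sum_const, Finset.card_univ, Fintype.card_fin, nsmul_eq_mul]
      refine (Finset.sum_le_sum h2).trans ?_
      rw [Finset.sum_const, Finset.card_univ, Fintype.card_fin, nsmul_eq_mul]
    exact mul_le_mul hκ h1 (abs_nonneg _) hT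
  set M := T * (dm * (dm * (T * ‖w‖ * ‖w‖))) with hM
  have hM0 : 0 ≤ M := by positivity
  have h1 : ∀ A ∈ (Finset.univ : Finset (Fin n)), ‖∑ i, ∑ j,
      ((S.κ * ∑ B, ∑ C, S.f (e A) (e' B) (e' C) * wt w i B * wt w j C : ℝ) : ℂ) •
        S.vec (S.g2 i j) (e A) β x‖ ≤ 9 * (9 * (M * (T * ‖x‖))) := by
    intro A _
    have h2 : ∀ i ∈ (Finset.univ : Finset (Fin 9)), ‖∑ j,
        ((S.κ * ∑ B, ∑ C, S.f (e A) (e' B) (e' C) * wt w i B * wt w j C : ℝ) : ℂ) •
        S.vec (S.g2 i j) (e A) β x‖ ≤ 9 * (M * (T * ‖x‖)) := by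
      intro i _
      have := bd_csum (n := 9) (fun j =>
        ((S.κ * ∑ B, ∑ C, S.f (e A) (e' B) (e' C) * wt w i B * wt w j C : ℝ) : ℂ))
        (fun j => S.vec (S.g2 i j) (e A) β x) (T := M) (M := T * ‖x‖) hM0
        (fun j => by rw [Complex.norm_real, Real.norm_eq_abs]; exact h0 A i j)
        (fun j => ((S.vec (S.g2 i j) (e A) β).le_opNorm x).trans
          (mul_le_mul_of_nonneg_right (hg i j (e A) β) (norm_nonneg _)))
      simpa using this
    refine (norm_sum_le_of_le _ h2).trans ?_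
    rw [Finset.sum_const, Finset.card_univ, Fintype.card_fin, nsmul_eq_mul]
    norm_num
  have h3 : ‖∑ A, ∑ i, ∑ j,
      ((S.κ * ∑ B, ∑ C, S.f (e A) (e' B) (e' C) * wt w i B * wt w j C : ℝ) : ℂ) •
        S.vec (S.g2 i j) (e A) β x‖ ≤ n * (9 * (9 * (M * (T * ‖x‖)))) := by
    refine (norm_sum_le_of_le _ h1).trans ?_
    rw [Finset.sum_const, Finset.card_univ, Fintype.card_fin, nsmul_eq_mul]
  rw [norm_smul]
  have h4 : ‖(1 / 2 : ℂ)‖ ≤ 1 := by norm_num
  have h5 := mul_le_mul h4 h3 (norm_nonneg _) zero_le_one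
  rwa [one_mul] at h5

lemma bd_lin_py (v : Cfg dh → Wsp dm → F) (y : Cfg dh) (w : Wsp dm) :
    ∑ j : Fin 8, ∑ A, ‖py j.castSucc A v y w‖ ≤ ∑ i, ∑ A, ‖py i A v y w‖ := by
  rw [Fin.sum_univ_castSucc (f := fun i : Fin 9 => ∑ A, ‖py i A v y w‖)]
  exact le_add_of_nonneg_right (Finset.sum_nonneg fun _ _ => norm_nonneg _)

/-- the bound of the remaining terms -/
lemma bd_Qr (S : Setup d F) (φ : Spl dh dm d) {T C R : ℝ} (hT : 0 ≤ T) (hC : 0 ≤ C) (hR : 0 < R)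
    (hκ : S.κ ≤ T) (hf : ∀ A B C, |S.f A B C| ≤ T) (h8 : ∀ A β, ‖S.vec (S.g 8) A β‖ ≤ T)
    (hg : ∀ i j A β, ‖S.vec (S.g2 i j) A β‖ ≤ T) (hS : ∀ A, ‖S.cS A‖ ≤ T) (y : Cfg dh)
    (hinv : ∀ B E, |(S.Dy φ 8 y)⁻¹ B E| ≤ C / R)
    (hlog : ∀ A, |fderiv ℝ (fun y' => Real.log (S.Jd φ y')) y
        (EuclideanSpace.single ((8 : Fin 9), A) 1)| ≤ C / R)
    (w : Wsp dm) (v : Cfg dh → Wsp dm → F) (β : Fin 16) :
    ‖S.Qr φ β v y w‖ ≤
      dm * (T * (dm * (C / R * (T * ‖w‖ * dm * ((∑ i, ∑ A, ‖py i A v y w‖) +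
        ∑ j, ∑ B, ‖pw j B v y w‖) + T * ‖v y w‖)))) +
      dh * (9 * (9 * (T * (dm * (dm * (T * ‖w‖ * ‖w‖))) * (T * ‖v y w‖)))) +
      dm * (9 * (9 * (T * (dm * (dm * (T * ‖w‖ * ‖w‖))) * (T * ‖v y w‖)))) +
      dh * (C / R * (T * ‖v y w‖)) := by
  have hCR : 0 ≤ C / R := div_nonneg hC hR.le
  unfold Setup.Qr
  refine (norm_add_le _ _).trans (add_le_add ((norm_add_le _ _).trans
    (add_le_add ((norm_add_le _ _).trans (add_le_add ?_ ?_)) ?_)) ?_)
  · rw [norm_smul, Complex.norm_I, one_mul]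
    refine bd_opsum _ _ hT (fun B => h8 _ _) fun B => ?_
    refine bd_csum _ _ hCR (fun E => ?_) fun C' => ?_
    · rw [Complex.norm_real, Real.norm_eq_abs]
      exact hinv B E
    · refine (norm_add₃_le).trans ?_
      have hc1 : ∀ (j : Fin 8) (E : Fin dm) (A : Fin dh),
          ‖((S.f (φ (Sum.inr C')) (φ (Sum.inr E)) (φ (Sum.inl A)) * w (j, E) : ℝ) : ℂ)‖ ≤
          T * ‖w‖ := by
        intro j E A
        rw [Complex.norm_real, Real.norm_eq_abs, abs_mul]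
        exact mul_le_mul (hf _ _ _) (bd_w w j E) (abs_nonneg _) hT
      have hc2 : ∀ (j : Fin 8) (E : Fin dm) (A : Fin dm),
          ‖((S.f (φ (Sum.inr C')) (φ (Sum.inr E)) (φ (Sum.inr A)) * w (j, E) : ℝ) : ℂ)‖ ≤
          T * ‖w‖ := by
        intro j E A
        rw [Complex.norm_real, Real.norm_eq_abs, abs_mul]
        exact mul_le_mul (hf _ _ _) (bd_w w j E) (abs_nonneg _) hT
      have h1 := bd_sum3 _ (fun (j : Fin 8) (A : Fin dh) => py j.castSucc A v y w) hc1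
      have h2 := bd_sum3 _ (fun (j : Fin 8) (A : Fin dm) => pw j A v y w) hc2
      rw [Fintype.card_fin] at h1 h2
      have h3 : ‖Complex.I • S.cS (φ (Sum.inr C')) (v y w)‖ ≤ T * ‖v y w‖ := by
        rw [norm_smul, Complex.norm_I, one_mul]
        exact ((S.cS _).le_opNorm _).trans (mul_le_mul_of_nonneg_right (hS _) (norm_nonneg _))
      have h4 := bd_lin_py v y w
      have h5 : 0 ≤ T * ‖w‖ * dm := by positivity
      have h6 := mul_le_mul_of_nonneg_left h4 h5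
      rw [mul_add]
      linarith
  · exact bd_quad S hT hκ hf hg (fun A => φ (Sum.inl A)) (fun B => φ (Sum.inr B)) w β (v y w)
  · exact bd_quad S hT hκ hf hg (fun A => φ (Sum.inr A)) (fun B => φ (Sum.inr B)) w β (v y w)
  · rw [norm_smul]
    have h4 : ‖(Complex.I / 2 : ℂ)‖ ≤ 1 := by
      rw [norm_div, Complex.norm_I]
      norm_num
    have h3 := bd_csum (fun A : Fin dh => ((fderiv ℝ (fun y' => Real.log (S.Jd φ y')) y
      (EuclideanSpace.single ((8 : Fin 9), A) 1) : ℝ) : ℂ))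
      (fun A => S.vec (S.g 8) (φ (Sum.inl A)) β (v y w)) (M := T * ‖v y w‖) hCR
      (fun A => by rw [Complex.norm_real, Real.norm_eq_abs]; exact hlog A)
      (fun A => ((S.vec (S.g 8) (φ (Sum.inl A)) β).le_opNorm _).trans
        (mul_le_mul_of_nonneg_right (h8 _ β) (norm_nonneg _)))
    have h5 := mul_le_mul h4 h3 (norm_nonneg _) zero_le_one
    rwa [one_mul] at h5

lemma bd_cs {n : ℕ} (a z : Fin n → ℝ) {M : ℝ} (ha : ∀ E, |a E| ≤ M) :
    (∑ E, a E * z E) ^ 2 ≤ n * M ^ 2 * ∑ E, z E ^ 2 := by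
  refine (Finset.sum_mul_sq_le_sq_mul_sq _ _ _).trans ?_
  refine mul_le_mul_of_nonneg_right ?_ (Finset.sum_nonneg fun _ _ => sq_nonneg _)
  have h1 : ∀ E ∈ (Finset.univ : Finset (Fin n)), a E ^ 2 ≤ M ^ 2 := by
    intro E _
    rw [← sq_abs]
    exact pow_le_pow_left₀ (abs_nonneg _) (ha E) 2
  refine (Finset.sum_le_sum h1).trans ?_
  rw [Finset.sum_const, Finset.card_univ, Fintype.card_fin, nsmul_eq_mul]

lemma bd_cs2 {n : ℕ} (a : Matrix (Fin n) (Fin n) ℝ) (z : Fin n → ℝ) {M : ℝ}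
    (ha : ∀ B E, |a B E| ≤ M) :
    ∑ B, (∑ E, a B E * z E) ^ 2 ≤ n * (n * M ^ 2) * ∑ E, z E ^ 2 := by
  refine (Finset.sum_le_sum fun B _ => bd_cs (a B) z (ha B)).trans ?_
  rw [Finset.sum_const, Finset.card_univ, Fintype.card_fin, nsmul_eq_mul]
  exact le_of_eq (by ring)

theorem bd_stmt (S : Setup d F) : BdStmt S := by
  intro dh dm φ y₀ hstd
  obtain ⟨ε, C, hε, hC1, hmain⟩ := bd_main S φ y₀ hstd.inv
  obtain ⟨T, hT, hκ, hf, h8, hg, hS⟩ := bd_const S
  have hC : 0 ≤ C := by linarith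
  set K1 : ℝ := dm * (T * (dm * (C * (T * dm)))) with hK1
  set K2 : ℝ := dm * (T * (dm * (C * T))) with hK2
  set K3 : ℝ := dh * (9 * (9 * (T * (dm * (dm * T)) * T))) with hK3
  set K4 : ℝ := dm * (9 * (9 * (T * (dm * (dm * T)) * T))) with hK4
  set K5 : ℝ := dh * (C * T) with hK5
  set K6 : ℝ := dm * (dm * C ^ 2) with hK6
  have n1 : 0 ≤ K1 := by positivity
  have n2 : 0 ≤ K2 := by positivity
  have n3 : 0 ≤ K3 := by positivity
  have n4 : 0 ≤ K4 := by positivity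
  have n5 : 0 ≤ K5 := by positivity
  have n6 : 0 ≤ K6 := by positivity
  refine ⟨ε, K1 + K2 + K3 + K4 + K5 + K6 + C, hε, by linarith, ?_⟩
  set D := K1 + K2 + K3 + K4 + K5 + K6 + C with hD
  intro R y hR hy
  obtain ⟨hdet, hDy, hinv, hlog⟩ := hmain R y hR hy
  have hCD : C / R ≤ D / R := div_le_div_of_nonneg_right (by linarith) hR.le
  refine ⟨hdet, ?_, ?_, fun B E => (hinv B E).trans hCD, fun A => (hlog A).trans hCD, ?_⟩
  · intro z
    have hu : IsUnit (S.Dy φ 8 y).det := isUnit_iff_ne_zero.2 hdet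
    have h1 : ∀ B, z B = ∑ E, (S.Dy φ 8 y)⁻¹ B E * ∑ G, S.Dy φ 8 y E G * z G := by
      intro B
      have h2 : (S.Dy φ 8 y)⁻¹.mulVec ((S.Dy φ 8 y).mulVec z) = z := by
        rw [Matrix.mulVec_mulVec, Matrix.nonsing_inv_mul _ hu, Matrix.one_mulVec]
      exact (congrFun h2 B).symm
    have h3 := bd_cs2 (S.Dy φ 8 y)⁻¹ (fun E => ∑ G, S.Dy φ 8 y E G * z G) hinv
    have h4 : ∑ B, z B ^ 2 ≤ dm * (dm * (C / R) ^ 2) *
        ∑ E, (∑ G, S.Dy φ 8 y E G * z G) ^ 2 := by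
      refine le_trans (le_of_eq ?_) h3
      exact Finset.sum_congr rfl fun B _ => by rw [← h1 B]
    have h5 := mul_le_mul_of_nonneg_left h4 (sq_nonneg R)
    refine h5.trans ?_
    have h6 : R ^ 2 * (dm * (dm * (C / R) ^ 2) * ∑ E, (∑ G, S.Dy φ 8 y E G * z G) ^ 2) =
        K6 * ∑ E, (∑ G, S.Dy φ 8 y E G * z G) ^ 2 := by
      rw [hK6]
      have hR' := hR.ne'
      field_simp
    rw [h6]
    exact mul_le_mul_of_nonneg_right (by linarith) (Finset.sum_nonneg fun _ _ => sq_nonneg _)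
  · intro i z
    have h3 := bd_cs2 (S.Dy φ i y) z (hDy i)
    refine h3.trans ?_
    have h6 : (dm : ℝ) * (dm * (C * R) ^ 2) = K6 * R ^ 2 := by rw [hK6]; ring
    rw [h6]
    refine mul_le_mul_of_nonneg_right ?_ (Finset.sum_nonneg fun _ _ => sq_nonneg _)
    exact mul_le_mul_of_nonneg_right (by linarith) (sq_nonneg R)
  · intro w _ v β
    refine (bd_Qr S φ hT hC hR hκ hf h8 hg hS y hinv hlog w v β).trans ?_
    set P := (∑ i, ∑ A, ‖py i A v y w‖) + ∑ j, ∑ B, ‖pw j B v y w‖ with hP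
    have hP0 : 0 ≤ P := add_nonneg
      (Finset.sum_nonneg fun _ _ => Finset.sum_nonneg fun _ _ => norm_nonneg _)
      (Finset.sum_nonneg fun _ _ => Finset.sum_nonneg fun _ _ => norm_nonneg _)
    set X := ‖w‖ / R * P with hX
    set Y := 1 / R * ‖v y w‖ with hY
    set Z := ‖w‖ ^ 2 * ‖v y w‖ with hZ
    have hX0 : 0 ≤ X := by positivity
    have hY0 : 0 ≤ Y := by positivity
    have hZ0 : 0 ≤ Z := by positivity
    have e1 : (dm : ℝ) * (T * (dm * (C / R * (T * ‖w‖ * dm * P + T * ‖v y w‖)))) =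
        K1 * X + K2 * Y := by
      rw [hK1, hK2, hX, hY]
      ring
    have e2 : (dh : ℝ) * (9 * (9 * (T * (dm * (dm * (T * ‖w‖ * ‖w‖))) * (T * ‖v y w‖)))) =
        K3 * Z := by
      rw [hK3, hZ]
      ring
    have e3 : (dm : ℝ) * (9 * (9 * (T * (dm * (dm * (T * ‖w‖ * ‖w‖))) * (T * ‖v y w‖)))) =
        K4 * Z := by
      rw [hK4, hZ]
      ring
    have e4 : (dh : ℝ) * (C / R * (T * ‖v y w‖)) = K5 * Y := by
      rw [hK5, hY]
      ring
    rw [e1, e2, e3, e4]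
    have e5 : D * (X + (1 / R + ‖w‖ ^ 2) * ‖v y w‖) = D * X + D * Y + D * Z := by
      rw [hY, hZ]
      ring
    rw [e5]
    have m1 : K1 * X ≤ D * X := mul_le_mul_of_nonneg_right (by linarith) hX0
    have m2 : (K2 + K5) * Y ≤ D * Y := mul_le_mul_of_nonneg_right (by linarith) hY0
    have m3 : (K3 + K4) * Z ≤ D * Z := mul_le_mul_of_nonneg_right (by linarith) hZ0
    linarith

end Vale.Agent.P353.Z.AN
end

section

/-! # P353, all `N`, block C: bounds for the coefficients near the reference point -/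

open MeasureTheory Filter Topology
open scoped ContDiff

namespace Vale.Agent.P353.Z.AN

variable {d dh dm : ℕ} {F : Type*} [NormedAddCommGroup F] [InnerProductSpace ℂ F]

/-- the entries of `D_i` are linear -/
private lemma cf_lin (S : Setup d F) (φ : Spl dh dm d) (i : Fin 9) (B E : Fin dm) (y e : Cfg dh) :
    fderiv ℝ (fun y' => S.Dy φ i y' B E) y e = S.Dy φ i e B E := by
  have h : (fun y' : Cfg dh => S.Dy φ i y' B E) =
      ((∑ A, S.f (φ (Sum.inr B)) (φ (Sum.inl A)) (φ (Sum.inr E)) •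
        (EuclideanSpace.proj (i, A) : Cfg dh →L[ℝ] ℝ) : Cfg dh →L[ℝ] ℝ) : Cfg dh → ℝ) := by
    funext y'
    simp [bd_apply]
  have h2 := congrFun h e
  rw [h, ContinuousLinearMap.fderiv]
  exact h2.symm

/-- the adjugate entries are differentiable -/
private lemma cf_adj (S : Setup d F) (φ : Spl dh dm d) (B E : Fin dm) :
    Differentiable ℝ (fun y : Cfg dh => (S.Dy φ 8 y).adjugate B E) := by
  have h : (fun y : Cfg dh => (S.Dy φ 8 y).adjugate B E) = fun y =>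
      ∑ σ : Equiv.Perm (Fin dm), ((Equiv.Perm.sign σ : ℤ) : ℝ) *
        ∏ k, ((S.Dy φ 8 y).updateRow E (Pi.single B 1)) (σ k) k := by
    funext y
    rw [Matrix.adjugate_apply, Matrix.det_apply']
  rw [h]
  refine Differentiable.fun_sum fun σ _ => ?_
  refine Differentiable.const_mul ?_ _
  have hk : ContDiff ℝ ∞ (fun y : Cfg dh =>
      ∏ k, ((S.Dy φ 8 y).updateRow E (Pi.single B 1)) (σ k) k) := by
    refine contDiff_prod fun k _ => ?_
    by_cases hk : σ k = E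
    · simp only [hk, Matrix.updateRow_self]
      exact contDiff_const
    · simp only [Matrix.updateRow_ne hk]
      exact bd_cd S φ 8 _ _
  exact hk.differentiable (by simp)

private lemma cf_inv (S : Setup d F) (φ : Spl dh dm d) (y : Cfg dh) (h : bdet S φ y ≠ 0) (B E : Fin dm) :
    DifferentiableAt ℝ (fun y' => (S.Dy φ 8 y')⁻¹ B E) y := by
  have h1 : (fun y : Cfg dh => (S.Dy φ 8 y)⁻¹ B E) =
      fun y => (bdet S φ y)⁻¹ * (S.Dy φ 8 y).adjugate B E := by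
    funext y
    rw [Matrix.inv_def, Matrix.smul_apply, smul_eq_mul, Ring.inverse_eq_inv']
    rfl
  rw [h1]
  exact ((((bdet_cd S φ).differentiable (by simp)) y).inv h).mul ((cf_adj S φ B E) y)

private lemma cf_G (S : Setup d F) (φ : Spl dh dm d) (j : Fin 9) (y : Cfg dh) (h : bdet S φ y ≠ 0)
    (B E : Fin dm) : DifferentiableAt ℝ (fun y' => ((S.Dy φ 8 y')⁻¹ * S.Dy φ j y') B E) y := by
  simp only [Matrix.mul_apply]
  refine DifferentiableAt.fun_sum fun K _ => ?_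
  exact (cf_inv S φ y h B K).mul (((bd_cd S φ j K E).differentiable (by simp)) y)

/-- the derivative of `D_8⁻¹ D_j` -/
private lemma cf_dG (S : Setup d F) (φ : Spl dh dm d) (j : Fin 9) (y e : Cfg dh) (h : bdet S φ y ≠ 0)
    (B E : Fin dm) :
    fderiv ℝ (fun y' => ((S.Dy φ 8 y')⁻¹ * S.Dy φ j y') B E) y e =
      ∑ K, (S.Dy φ 8 y)⁻¹ B K * (S.Dy φ j e K E -
        ∑ L, S.Dy φ 8 e K L * ((S.Dy φ 8 y)⁻¹ * S.Dy φ j y) L E) := by
  have hu : IsUnit (S.Dy φ 8 y).det := isUnit_iff_ne_zero.2 h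
  have hopen : IsOpen {y : Cfg dh | bdet S φ y ≠ 0} :=
    isOpen_ne_fun (bdet_cd S φ).continuous continuous_const
  -- product rule
  have key : ∀ K, S.Dy φ j e K E = ∑ L, (S.Dy φ 8 y K L *
      fderiv ℝ (fun y' => ((S.Dy φ 8 y')⁻¹ * S.Dy φ j y') L E) y e +
        ((S.Dy φ 8 y)⁻¹ * S.Dy φ j y) L E * S.Dy φ 8 e K L) := by
    intro K
    have h1 : (fun y' : Cfg dh => S.Dy φ j y' K E) =ᶠ[𝓝 y]
        fun y' => ∑ L, S.Dy φ 8 y' K L * ((S.Dy φ 8 y')⁻¹ * S.Dy φ j y') L E := by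
      filter_upwards [hopen.mem_nhds h] with y' hy'
      have hu' : IsUnit (S.Dy φ 8 y').det := isUnit_iff_ne_zero.2 hy'
      have h2 : S.Dy φ 8 y' * ((S.Dy φ 8 y')⁻¹ * S.Dy φ j y') = S.Dy φ j y' := by
        rw [← Matrix.mul_assoc, Matrix.mul_nonsing_inv _ hu', Matrix.one_mul]
      have h3 := congrFun (congrFun h2 K) E
      rw [Matrix.mul_apply] at h3
      exact h3.symm
    have h4 := h1.fderiv_eq (𝕜 := ℝ)
    have h5 : HasFDerivAt (fun y' : Cfg dh => ∑ L, S.Dy φ 8 y' K L *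
        ((S.Dy φ 8 y')⁻¹ * S.Dy φ j y') L E)
        (∑ L, (S.Dy φ 8 y K L • fderiv ℝ (fun y' => ((S.Dy φ 8 y')⁻¹ * S.Dy φ j y') L E) y +
          ((S.Dy φ 8 y)⁻¹ * S.Dy φ j y) L E • fderiv ℝ (fun y' => S.Dy φ 8 y' K L) y)) y := by
      refine HasFDerivAt.fun_sum fun L _ => ?_
      exact HasFDerivAt.mul (((bd_cd S φ 8 K L).differentiable (by simp)) y).hasFDerivAt
        (cf_G S φ j y h L E).hasFDerivAt
    rw [h5.fderiv] at h4
    have h6 := congrArg (fun T : Cfg dh →L[ℝ] ℝ => T e) h4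
    simp only [cf_lin] at h6
    rw [h6]
    simp [cf_lin]
  have h7 : ∀ K, ∑ L, S.Dy φ 8 y K L * fderiv ℝ (fun y' => ((S.Dy φ 8 y')⁻¹ * S.Dy φ j y') L E) y e =
      S.Dy φ j e K E - ∑ L, S.Dy φ 8 e K L * ((S.Dy φ 8 y)⁻¹ * S.Dy φ j y) L E := by
    intro K
    rw [key K, Finset.sum_add_distrib]
    have : ∑ L, ((S.Dy φ 8 y)⁻¹ * S.Dy φ j y) L E * S.Dy φ 8 e K L =
        ∑ L, S.Dy φ 8 e K L * ((S.Dy φ 8 y)⁻¹ * S.Dy φ j y) L E :=
      Finset.sum_congr rfl fun L _ => mul_comm _ _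
    rw [this]
    ring
  have h8 : (S.Dy φ 8 y)⁻¹ * S.Dy φ 8 y = 1 := Matrix.nonsing_inv_mul _ hu
  simp only [← h7]
  simp only [Finset.mul_sum]
  rw [Finset.sum_comm]
  have h9 : ∀ L, ∑ K, (S.Dy φ 8 y)⁻¹ B K * (S.Dy φ 8 y K L *
      fderiv ℝ (fun y' => ((S.Dy φ 8 y')⁻¹ * S.Dy φ j y') L E) y e) =
      (if B = L then 1 else 0) * fderiv ℝ (fun y' => ((S.Dy φ 8 y')⁻¹ * S.Dy φ j y') L E) y e := by
    intro L
    have h10 := congrFun (congrFun h8 B) L
    rw [Matrix.mul_apply, Matrix.one_apply] at h10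
    rw [← h10, Finset.sum_mul]
    exact Finset.sum_congr rfl fun K _ => by ring
  simp only [h9]
  simp

private lemma cf_entry {M : Matrix (Fin dm) (Fin dm) ℝ} {c : ℝ} (hc : 0 ≤ c)
    (h : ∀ z : Fin dm → ℝ, ∑ B, (∑ E, M B E * z E) ^ 2 ≤ c ^ 2 * ∑ B, z B ^ 2) (B E : Fin dm) :
    |M B E| ≤ c := by
  have h1 := h (Pi.single E 1)
  have h2 : ∀ B', ∑ E', M B' E' * (Pi.single E 1 : Fin dm → ℝ) E' = M B' E := by
    intro B'
    simp [Pi.single_apply]
  have h3 : ∑ B', (Pi.single E 1 : Fin dm → ℝ) B' ^ 2 = 1 := by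
    simp [Pi.single_apply]
  simp only [h2] at h1
  rw [h3, mul_one] at h1
  have h4 : M B E ^ 2 ≤ c ^ 2 :=
    (Finset.single_le_sum (f := fun B' => M B' E ^ 2) (fun _ _ => sq_nonneg _)
      (Finset.mem_univ B)).trans h1
  exact abs_le_of_sq_le_sq h4 hc

theorem coef_stmt (S : Setup d F) (φ : Spl dh dm d) : BdStmt S → CoefStmt S φ := by
  intro hB Y hY
  obtain ⟨ε, C, hε, hC, H⟩ := hB dh dm φ Y hY
  set T : ℝ := ∑ j, ∑ B, ∑ E, ∑ i, ∑ A, |S.Dy φ j (EuclideanSpace.single (i, A) 1) B E| with hT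
  have hT0 : 0 ≤ T := Finset.sum_nonneg fun _ _ => Finset.sum_nonneg fun _ _ =>
    Finset.sum_nonneg fun _ _ => Finset.sum_nonneg fun _ _ => Finset.sum_nonneg fun _ _ => abs_nonneg _
  have hTb : ∀ j B E i A, |S.Dy φ j (EuclideanSpace.single (i, A) 1) B E| ≤ T := by
    intro j B E i A
    refine le_trans ?_ (Finset.single_le_sum
      (f := fun j => ∑ B, ∑ E, ∑ i, ∑ A, |S.Dy φ j (EuclideanSpace.single (i, A) 1) B E|)
      (fun _ _ => Finset.sum_nonneg fun _ _ => Finset.sum_nonneg fun _ _ =>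
        Finset.sum_nonneg fun _ _ => Finset.sum_nonneg fun _ _ => abs_nonneg _) (Finset.mem_univ j))
    refine le_trans ?_ (Finset.single_le_sum
      (f := fun B => ∑ E, ∑ i, ∑ A, |S.Dy φ j (EuclideanSpace.single (i, A) 1) B E|)
      (fun _ _ => Finset.sum_nonneg fun _ _ => Finset.sum_nonneg fun _ _ =>
        Finset.sum_nonneg fun _ _ => abs_nonneg _) (Finset.mem_univ B))
    refine le_trans ?_ (Finset.single_le_sum
      (f := fun E => ∑ i, ∑ A, |S.Dy φ j (EuclideanSpace.single (i, A) 1) B E|)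
      (fun _ _ => Finset.sum_nonneg fun _ _ => Finset.sum_nonneg fun _ _ => abs_nonneg _)
      (Finset.mem_univ E))
    refine le_trans ?_ (Finset.single_le_sum
      (f := fun i => ∑ A, |S.Dy φ j (EuclideanSpace.single (i, A) 1) B E|)
      (fun _ _ => Finset.sum_nonneg fun _ _ => abs_nonneg _) (Finset.mem_univ i))
    exact Finset.single_le_sum
      (f := fun A => |S.Dy φ j (EuclideanSpace.single (i, A) 1) B E|)
      (fun _ _ => abs_nonneg _) (Finset.mem_univ A)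
  have hdm : (0 : ℝ) ≤ (dm : ℝ) := Nat.cast_nonneg dm
  set G0 : ℝ := (dm : ℝ) * (C * (C + 1)) with hG0
  have hG0n : 0 ≤ G0 := by positivity
  set K0 : ℝ := (dm : ℝ) * (C * (T + (dm : ℝ) * (T * G0))) with hK0
  have hK0n : 0 ≤ K0 := by positivity
  have hC1 : C ≤ C + 1 + K0 := by linarith
  -- entries
  have hdy : ∀ R : ℝ, 0 < R → ∀ y : Cfg dh, ‖y - R • Y‖ ≤ ε * R → ∀ i B E,
      |S.Dy φ i y B E| ≤ (C + 1) * R := by
    intro R hR y hy i B E
    refine cf_entry (by positivity) (fun z => ?_) B E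
    refine ((H R y hR hy).2.2.1 i z).trans ?_
    have h1 : C * R ^ 2 ≤ ((C + 1) * R) ^ 2 := by
      rw [mul_pow]
      exact mul_le_mul_of_nonneg_right (by nlinarith) (by positivity)
    exact mul_le_mul_of_nonneg_right h1 (Finset.sum_nonneg fun _ _ => sq_nonneg _)
  have hinv : ∀ R : ℝ, 0 < R → ∀ y : Cfg dh, ‖y - R • Y‖ ≤ ε * R → ∀ B E,
      |(S.Dy φ 8 y)⁻¹ B E| ≤ C / R := fun R hR y hy => (H R y hR hy).2.2.2.1
  refine ⟨ε, C + 1 + K0, hε, by linarith, ?_, ?_, ?_, ?_, ?_⟩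
  · exact fun R hR y hy => (H R y hR hy).1
  · intro R hR y hy i B E
    exact (hdy R hR y hy i B E).trans (mul_le_mul_of_nonneg_right (by linarith) hR.le)
  · intro R hR y hy B E
    exact (hinv R hR y hy B E).trans (div_le_div_of_nonneg_right hC1 hR.le)
  · intro R hR y hy j B E i A
    rw [cf_dG S φ j y _ (H R y hR hy).1 B E]
    have hGb : ∀ L, |((S.Dy φ 8 y)⁻¹ * S.Dy φ j y) L E| ≤ G0 := by
      intro L
      rw [Matrix.mul_apply]
      refine (Finset.abs_sum_le_sum_abs _ _).trans ?_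
      have h1 : ∀ K ∈ (Finset.univ : Finset (Fin dm)),
          |(S.Dy φ 8 y)⁻¹ L K * S.Dy φ j y K E| ≤ C * (C + 1) := by
        intro K _
        rw [abs_mul]
        calc |(S.Dy φ 8 y)⁻¹ L K| * |S.Dy φ j y K E| ≤ (C / R) * ((C + 1) * R) :=
              mul_le_mul (hinv R hR y hy L K) (hdy R hR y hy j K E) (abs_nonneg _) (by positivity)
          _ = C * (C + 1) := by field_simp
      refine (Finset.sum_le_sum h1).trans ?_
      simp [hG0]
    refine (Finset.abs_sum_le_sum_abs _ _).trans ?_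
    have h2 : ∀ K ∈ (Finset.univ : Finset (Fin dm)),
        |(S.Dy φ 8 y)⁻¹ B K * (S.Dy φ j (EuclideanSpace.single (i, A) 1) K E -
        ∑ L, S.Dy φ 8 (EuclideanSpace.single (i, A) 1) K L *
          ((S.Dy φ 8 y)⁻¹ * S.Dy φ j y) L E)| ≤ (C / R) * (T + (dm : ℝ) * (T * G0)) := by
      intro K _
      rw [abs_mul]
      refine mul_le_mul (hinv R hR y hy B K) ?_ (abs_nonneg _) (by positivity)
      refine (abs_sub _ _).trans (add_le_add (hTb _ _ _ _ _) ?_)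
      refine (Finset.abs_sum_le_sum_abs _ _).trans ?_
      have h3 : ∀ L ∈ (Finset.univ : Finset (Fin dm)),
          |S.Dy φ 8 (EuclideanSpace.single (i, A) 1) K L *
            ((S.Dy φ 8 y)⁻¹ * S.Dy φ j y) L E| ≤ T * G0 := by
        intro L _
        rw [abs_mul]
        exact mul_le_mul (hTb _ _ _ _ _) (hGb L) (abs_nonneg _) hT0
      refine (Finset.sum_le_sum h3).trans ?_
      simp
    refine (Finset.sum_le_sum h2).trans ?_
    rw [Finset.sum_const, Finset.card_univ, Fintype.card_fin, nsmul_eq_mul]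
    have h4 : (dm : ℝ) * (C / R * (T + (dm : ℝ) * (T * G0))) = K0 / R := by
      rw [hK0]
      ring
    rw [h4]
    exact div_le_div_of_nonneg_right (by linarith) hR.le
  · intro R hR y hy w hw v β
    refine ((H R y hR hy).2.2.2.2.2 w hw v β).trans ?_
    refine mul_le_mul_of_nonneg_right hC1 ?_
    refine add_nonneg (mul_nonneg (by positivity) (add_nonneg ?_ ?_)) (by positivity)
    · exact Finset.sum_nonneg fun _ _ => Finset.sum_nonneg fun _ _ => norm_nonneg _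
    · exact Finset.sum_nonneg fun _ _ => Finset.sum_nonneg fun _ _ => norm_nonneg _

end Vale.Agent.P353.Z.AN
end

section

/-! # P353, all `N`, block D: local theorem, the main estimate -/

open MeasureTheory Filter Topology Matrix
open scoped ContDiff

namespace Vale.Agent.P353.Z.AD

variable {d dh dm ds dz : ℕ} {F : Type*} [NormedAddCommGroup F] [InnerProductSpace ℂ F]

/-! ### change of variables -/

lemma lo_sp_cont (ψ : Spl ds dz dh) : Continuous (sp ψ) := by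
  unfold sp
  refine (PiLp.continuous_toLp 2 _).comp (continuous_pi fun p => ?_)
  fun_prop

lemma lo_zp_cont (ψ : Spl ds dz dh) : Continuous (zp ψ) := by
  unfold zp
  refine (PiLp.continuous_toLp 2 _).comp (continuous_pi fun p => ?_)
  fun_prop

lemma lo_cov (hcmb : CmbStmt) (ψ : Spl ds dz dh) (f : Cfg dh → ℝ) (hf : Integrable f) :
    Integrable (fun p : Cfg ds × Cfg dz => f (cmb ψ p.1 p.2))
      ((volume : Measure (Cfg ds)).prod (volume : Measure (Cfg dz))) ∧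
    ∫ y, f y = ∫ p : Cfg ds × Cfg dz, f (cmb ψ p.1 p.2)
      ∂((volume : Measure (Cfg ds)).prod (volume : Measure (Cfg dz))) := by
  obtain ⟨_, _, _, _, _, _, hmp⟩ := hcmb ds dz dh ψ
  refine ⟨(hmp.integrable_comp hf.1).2 hf, ?_⟩
  have h1 := integral_map (μ := (volume : Measure (Cfg ds)).prod (volume : Measure (Cfg dz)))
    hmp.measurable.aemeasurable (f := f) (by rw [hmp.map_eq]; exact hf.1)
  rw [hmp.map_eq] at h1
  exact h1

lemma lo_fub (hcmb : CmbStmt) (ψ : Spl ds dz dh) (hB : AN.CalcB dh dm F) (q : Cfg dh → Wsp dm → F) (hq : Tst2 q) :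
    Integrable (fun yz : Cfg dz => ∫ ys, nsf (q (cmb ψ ys yz))) ∧
    ∫ yz, ∫ ys, nsf (q (cmb ψ ys yz)) = ns2 q := by
  obtain ⟨h1, h2⟩ := hB.yw q hq
  obtain ⟨h3, h4⟩ := lo_cov hcmb ψ _ h1
  refine ⟨h3.integral_prod_right, ?_⟩
  rw [h2, h4, integral_prod_symm _ h3]

/-- the main estimate for one slice test function -/
lemma lo_main [FiniteDimensional ℂ F] (S : Setup d F) (φ : Spl dh dm d) (ψ : Spl ds dz dh) (z₀ : Cfg dz)
    (h : Std2 S φ ψ z₀) (hA : AN.CalcA dh dm F) (hB : AN.CalcB dh dm F) (hcmb : CmbStmt)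
    {n : ℕ} {o : Fin n → Cfg ds → F} {CI : ℝ} (hCI : 0 ≤ CI) (hz : ∀ j, ZM h.ss (o j))
    (ho : ∀ j k, ∫ x, inner ℂ (o j x) (o k x) = if j = k then 1 else 0)
    (hic : ∀ ρ : ℝ, 1 ≤ ρ → ∀ u, GInv h.ss u →
      mas (fun x => u x - ∑ j, (∫ z, inner ℂ (o j z) (u z)) • o j x) (Metric.ball 0 ρ) ≤ CI * ρ ^ 2 * En h.ss u)
    {R ε η δ Cu : ℝ} (hR : 0 < R) (hη : 0 < η) (hδ : 0 ≤ δ) (hCu : 0 ≤ Cu)
    (hdet : ∀ y : Cfg dh, ‖y - R • cmb ψ 0 z₀‖ ≤ ε * R → (S.Dy φ 8 y).det ≠ 0)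
    (huf : ∀ yz, ‖yz - R • z₀‖ ≤ ε * R → ∀ ys : Cfg ds, ‖ys‖ ≤ η * R → ∀ f : Wsp dm → F, FT f →
      nsf (fun w => f w - ((gn S φ ψ yz w : ℝ) : ℂ) • ∫ w', ((gn S φ ψ yz w' : ℝ) : ℂ) • Pz S φ ψ yz (f w')) ≤
        Cu / R * S.e1 φ (S.DY φ (cmb ψ ys yz)) f + δ * nsf f)
    {v : Cfg dh → Wsp dm → F} (hv : Tst2 v) (hs : Sup2 (cmb ψ 0 z₀) ε R v)
    (ha : ContDiff ℝ ∞ (fun p : Cfg dz × Cfg ds => sec S φ ψ v p.1 p.2))
    (hac : HasCompactSupport (fun p : Cfg dz × Cfg ds => sec S φ ψ v p.1 p.2))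
    (hg : ∀ yz, GInv h.ss (sec S φ ψ v yz))
    (hen : ∀ yz, En h.ss (sec S φ ψ v yz) ≤ ∑ β, ∫ ys, nsf (Qss h β v (cmb ψ ys yz)))
    (hq : ∀ β, Tst2 (Qss h β v)) :
    ns2 v ≤ (∫ p in {p : Cfg dh × Wsp dm | η * R ≤ ‖sp ψ p.1‖}, ‖v p.1 p.2‖ ^ 2
        ∂((volume : Measure (Cfg dh)).prod (volume : Measure (Wsp dm)))) +
      Cu / (8 * R) * S.E1 φ v + 2 * δ * ns2 v +
      2 * (2 * CI * (1 + (η * R) ^ 2) * (∑ β, ns2 (Qss h β v)) +
        2 * n * ∑ j, ∫ yz, ‖∫ ys, inner ℂ (o j ys) (sec S φ ψ v yz ys)‖ ^ 2) := by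
  obtain ⟨hc1, hc2, hc3, hc4, hc5, hc6, hmp⟩ := hcmb ds dz dh ψ
  obtain ⟨hvi, hve⟩ := hB.yw v hv
  set A : Set (Cfg dh) := {y | ‖sp ψ y‖ < η * R} with hAdef
  have hAm : MeasurableSet A := (isOpen_lt (lo_sp_cont ψ).norm continuous_const).measurableSet
  -- far part
  have hfar : ∫ y in Aᶜ, nsf (v y) = ∫ p in {p : Cfg dh × Wsp dm | η * R ≤ ‖sp ψ p.1‖}, ‖v p.1 p.2‖ ^ 2
        ∂((volume : Measure (Cfg dh)).prod (volume : Measure (Wsp dm))) := by
    have hset : {p : Cfg dh × Wsp dm | η * R ≤ ‖sp ψ p.1‖} = Aᶜ ×ˢ Set.univ := by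
      ext p
      simp [hAdef]
    rw [hset, setIntegral_prod _ (hB.int_sq v hv).integrableOn]
    simp only [Measure.restrict_univ]
    rfl
  -- `e1`
  have hQi : ∀ β, Integrable (fun y => nsf (S.Q1 φ β v y)) ∧ ns2 (S.Q1 φ β v) = ∫ y, nsf (S.Q1 φ β v y) :=
    fun β => hB.yw _ (lo_tQ1 S φ hA hdet v hv hs β)
  have he1i : Integrable (fun y => S.e1 φ (S.DY φ y) (v y)) := by
    have : Integrable (fun y => ∑ β, nsf (S.Q1 φ β v y)) := integrable_finsetSum _ fun β _ => (hQi β).1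
    exact this.const_mul (1 / 16 : ℝ)
  have he1e : ∫ y, S.e1 φ (S.DY φ y) (v y) = (1 / 16) * S.E1 φ v := by
    have h1 : (fun y => S.e1 φ (S.DY φ y) (v y)) = fun y => (1 / 16 : ℝ) * ∑ β, nsf (S.Q1 φ β v y) := rfl
    rw [h1, integral_const_mul, integral_finsetSum _ fun β _ => (hQi β).1]
    unfold Setup.E1
    congr 1
    exact Finset.sum_congr rfl fun β _ => ((hQi β).2).symm
  have he10 : ∀ y, 0 ≤ S.e1 φ (S.DY φ y) (v y) := fun y => AN.e1359_nonneg S φ _ _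
  -- the section
  set a : Cfg dz → Cfg ds → F := sec S φ ψ v with hadef
  set sq : Cfg dh → ℝ := fun y => ‖a (zp ψ y) (sp ψ y)‖ ^ 2 with hsq
  have hacont : Continuous fun p : Cfg dz × Cfg ds => a p.1 p.2 := ha.continuous
  have hsqc : Continuous sq := by
    have : Continuous fun y : Cfg dh => (zp ψ y, sp ψ y) := (lo_zp_cont ψ).prodMk (lo_sp_cont ψ)
    exact (hacont.comp this).norm.pow 2
  have hai : Integrable (fun p : Cfg dz × Cfg ds => ‖a p.1 p.2‖ ^ 2)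
      ((volume : Measure (Cfg dz)).prod (volume : Measure (Cfg ds))) := by
    refine Continuous.integrable_of_hasCompactSupport (hacont.norm.pow 2) ?_
    exact hac.comp_left (g := fun x : F => ‖x‖ ^ 2) (by simp)
  have hai' : Integrable (fun p : Cfg ds × Cfg dz => ‖a p.2 p.1‖ ^ 2)
      ((volume : Measure (Cfg ds)).prod (volume : Measure (Cfg dz))) := hai.swap
  have hsqi : Integrable sq := by
    refine (hmp.integrable_comp hsqc.aestronglyMeasurable).1 ?_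
    refine hai'.congr (Eventually.of_forall fun p => ?_)
    simp only [Function.comp, hsq, hc1, hc2]
  -- pointwise bound
  have hpt : ∀ y ∈ A, nsf (v y) ≤ 2 * (Cu / R * S.e1 φ (S.DY φ y) (v y) + δ * nsf (v y)) + 2 * sq y := by
    intro y hy
    have hn0 : 0 ≤ nsf (v y) := AN.nsf359_nonneg _
    by_cases hyz : ‖zp ψ y - R • z₀‖ ≤ ε * R
    · have h1 := huf (zp ψ y) hyz (sp ψ y) (le_of_lt hy) (v y) (hA.slw v hv y)
      rw [hc3] at h1
      have h2 := lo_fib (v y) (hA.slw v hv y) (gn S φ ψ (zp ψ y)) (lo_gn_cont S φ ψ (zp ψ y))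
        (lo_gn S φ ψ (zp ψ y)).1 (lo_gn S φ ψ (zp ψ y)).2 (a (zp ψ y) (sp ψ y))
      have h3 : a (zp ψ y) (sp ψ y) = ∫ w', ((gn S φ ψ (zp ψ y) w' : ℝ) : ℂ) • Pz S φ ψ (zp ψ y) (v y w') := by
        rw [hadef]
        unfold sec
        rw [hc3]
      have h4 : nsf (fun w => v y w - ((gn S φ ψ (zp ψ y) w : ℝ) : ℂ) • a (zp ψ y) (sp ψ y)) ≤
          Cu / R * S.e1 φ (S.DY φ y) (v y) + δ * nsf (v y) := by
        rw [h3]
        exact h1
      linarith
    · have h0 : v y = fun _ => 0 := by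
        funext w
        by_contra hne
        have h1 := (hs y w hne).1
        have h2 : y - R • cmb ψ 0 z₀ = cmb ψ (sp ψ y) (zp ψ y - R • z₀) := by
          conv_lhs => rw [← hc3 y]
          rw [hc6, hc5, smul_zero, sub_zero]
        have h3 : ‖y - R • cmb ψ 0 z₀‖ ^ 2 = ‖sp ψ y‖ ^ 2 + ‖zp ψ y - R • z₀‖ ^ 2 := by
          rw [h2, hc4]
        apply hyz
        have h4 : ‖zp ψ y - R • z₀‖ ≤ ‖y - R • cmb ψ 0 z₀‖ := by
          refine abs_le_of_sq_le_sq' ?_ (norm_nonneg _) |>.2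
          nlinarith [sq_nonneg ‖sp ψ y‖]
        exact h4.trans h1
      have h1 : nsf (v y) = 0 := by rw [h0]; exact AN.nsf359_zero
      rw [h1]
      have h2 := he10 y
      have h3 : 0 ≤ Cu / R := by positivity
      have h4 : 0 ≤ sq y := by positivity
      have h5 := mul_nonneg h3 h2
      linarith
  -- near part
  have hnear : ∫ y in A, nsf (v y) ≤ Cu / (8 * R) * S.E1 φ v + 2 * δ * ns2 v + 2 * ∫ y in A, sq y := by
    have h1 : ∫ y in A, nsf (v y) ≤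
        ∫ y in A, (2 * (Cu / R * S.e1 φ (S.DY φ y) (v y) + δ * nsf (v y)) + 2 * sq y) :=
      setIntegral_mono_on hvi.integrableOn
        (((((he1i.const_mul _).add (hvi.const_mul _)).const_mul 2).add (hsqi.const_mul 2)).integrableOn) hAm hpt
    have i1 : Integrable (fun y => Cu / R * S.e1 φ (S.DY φ y) (v y)) := he1i.const_mul _
    have i2 : Integrable (fun y => δ * nsf (v y)) := hvi.const_mul _
    have i3 : Integrable (fun y => 2 * (Cu / R * S.e1 φ (S.DY φ y) (v y) + δ * nsf (v y))) := (i1.add i2).const_mul 2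
    rw [integral_add i3.integrableOn (hsqi.const_mul 2).integrableOn, integral_const_mul,
      integral_add i1.integrableOn i2.integrableOn, integral_const_mul, integral_const_mul, integral_const_mul] at h1
    have h2 : ∫ y in A, S.e1 φ (S.DY φ y) (v y) ≤ (1 / 16) * S.E1 φ v := by
      rw [← he1e]
      exact setIntegral_le_integral he1i (Eventually.of_forall he10)
    have h3 : ∫ y in A, nsf (v y) ≤ ns2 v := by
      rw [hve]
      exact setIntegral_le_integral hvi (Eventually.of_forall fun y => AN.nsf359_nonneg _)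
    have h4 : 0 ≤ Cu / R := by positivity
    have h5 := mul_le_mul_of_nonneg_left h2 h4
    have h6 := mul_le_mul_of_nonneg_left h3 hδ
    have h7 : Cu / (8 * R) * S.E1 φ v = 2 * (Cu / R * (1 / 16 * S.E1 φ v)) := by
      field_simp
      ring
    rw [h7]
    linarith
  -- Fubini for the section
  have hfub : ∫ y in A, sq y = ∫ yz, mas (a yz) (Metric.ball 0 (η * R)) := by
    have hind : Integrable (A.indicator sq) := hsqi.indicator hAm
    obtain ⟨g1, g2⟩ := lo_cov hcmb ψ _ hind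
    rw [← integral_indicator hAm, g2, integral_prod_symm _ g1]
    refine integral_congr_ae (Eventually.of_forall fun yz => ?_)
    simp only
    unfold mas
    rw [← integral_indicator measurableSet_ball]
    refine integral_congr_ae (Eventually.of_forall fun ys => ?_)
    simp only
    have hmem : cmb ψ ys yz ∈ A ↔ ‖ys‖ < η * R := by
      change ‖sp ψ (cmb ψ ys yz)‖ < η * R ↔ _
      rw [hc1]
    by_cases hys : ‖ys‖ < η * R
    · rw [Set.indicator_of_mem (hmem.2 hys), Set.indicator_of_mem (by simpa using hys)]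
      simp only [hsq, hc1, hc2]
    · rw [Set.indicator_of_notMem (fun h' => hys (hmem.1 h')), Set.indicator_of_notMem (by simpa using hys)]
  -- inner completeness, integrated
  have hom : ∀ j, MemLp (o j) 2 (volume : Measure (Cfg ds)) := fun j => by
    obtain ⟨u, _, hu, _⟩ := hz j
    exact hu.mem'
  have hci : ∀ j, Integrable (fun yz : Cfg dz => ‖∫ ys, inner ℂ (o j ys) (a yz ys)‖ ^ 2) := fun j =>
    lo_coef (fun p : Cfg dz × Cfg ds => a p.1 p.2) hacont hac (o j) (hom j)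
  have hQf : ∀ β, Integrable (fun yz : Cfg dz => ∫ ys, nsf (Qss h β v (cmb ψ ys yz))) ∧
      ∫ yz, ∫ ys, nsf (Qss h β v (cmb ψ ys yz)) = ns2 (Qss h β v) := fun β => lo_fub hcmb ψ hB _ (hq β)
  have hint : ∫ yz, mas (a yz) (Metric.ball 0 (η * R)) ≤
      2 * CI * (1 + (η * R) ^ 2) * (∑ β, ns2 (Qss h β v)) +
        2 * n * ∑ j, ∫ yz, ‖∫ ys, inner ℂ (o j ys) (a yz ys)‖ ^ 2 := by
    have k1 : Integrable (fun yz : Cfg dz => 2 * CI * (1 + (η * R) ^ 2) *
        ∑ β, ∫ ys, nsf (Qss h β v (cmb ψ ys yz))) :=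
      (integrable_finsetSum _ fun β _ => (hQf β).1).const_mul _
    have k2 : Integrable (fun yz : Cfg dz => 2 * (n : ℝ) * ∑ j, ‖∫ ys, inner ℂ (o j ys) (a yz ys)‖ ^ 2) :=
      (integrable_finsetSum _ fun j _ => hci j).const_mul _
    have h1 : ∫ yz, mas (a yz) (Metric.ball 0 (η * R)) ≤ ∫ yz : Cfg dz, (2 * CI * (1 + (η * R) ^ 2) *
        (∑ β, ∫ ys, nsf (Qss h β v (cmb ψ ys yz))) + 2 * (n : ℝ) * ∑ j, ‖∫ ys, inner ℂ (o j ys) (a yz ys)‖ ^ 2) := by
      refine integral_mono_of_nonneg (Eventually.of_forall fun yz => ?_) (k1.add k2) (Eventually.of_forall fun yz => ?_)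
      · exact integral_nonneg fun x => by positivity
      · have h2 := lo_ic h.ss hCI hz ho hic (r := η * R) (a yz) (hg yz)
        have h3 := mul_le_mul_of_nonneg_left (hen yz)
          (show 0 ≤ 2 * CI * (1 + (η * R) ^ 2) by positivity)
        simp only
        linarith
    rw [integral_add k1 k2, integral_const_mul, integral_const_mul, integral_finsetSum _ fun β _ => (hQf β).1,
      integral_finsetSum _ fun j _ => hci j] at h1
    simp only [(hQf _).2] at h1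
    exact h1
  have hsplit : ns2 v = (∫ y in A, nsf (v y)) + ∫ y in Aᶜ, nsf (v y) := by
    rw [integral_add_compl hAm hvi, hve]
  rw [hfub] at hnear
  linarith

end Vale.Agent.P353.Z.AD
end

section

/-! # P353, all `N`, block D, L12: the local theorem -/

open MeasureTheory Filter Topology Matrix
open scoped ContDiff

namespace Vale.Agent.P353.Z.AD

variable {d dh dm ds dz : ℕ} {F : Type*} [NormedAddCommGroup F] [InnerProductSpace ℂ F]

omit [InnerProductSpace ℂ F] in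
lemma lo_nule_shift {R : ℕ → ℝ} {u : ℕ → Cfg d → F} {Y : Cfg d} {ε : ℝ} (N : ℕ) :
    NulE (fun n => R (n + N)) (fun n => u (n + N)) Y ε ↔ NulE R u Y ε :=
  tendsto_add_atTop_iff_nat (f := fun n => mas (u n) (Metric.ball (R n • Y) (ε * R n))) N

lemma lo_sq_shift {S : Setup d F} {R : ℕ → ℝ} {u : ℕ → Cfg d → F} (h : Sq S R u) (N : ℕ) :
    Sq S (fun n => R (n + N)) (fun n => u (n + N)) where
  inv := fun n => h.inv _
  pos := fun n => h.pos _
  lim := h.lim.comp (tendsto_add_atTop_nat N)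
  bd := fun s t hs hst => by
    obtain ⟨C, hC⟩ := h.bd s t hs hst
    exact ⟨C, fun n => hC _⟩

lemma lo_emb_cont (φ : Spl dh dm d) : Continuous fun p : Cfg dh × Wsp dm => emb φ p.1 p.2 := by
  unfold emb
  refine (PiLp.continuous_toLp 2 _).comp (continuous_pi fun q => ?_)
  rcases h : φ.symm q.2 with A | B
  · simp only [Sum.elim_inl]
    fun_prop
  · simp only [Sum.elim_inr]
    rcases q with ⟨i, C⟩
    refine Fin.lastCases ?_ (fun j => ?_) i
    · simp only [Fin.lastCases_last]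
      exact continuous_const
    · simp only [Fin.lastCases_castSucc]
      fun_prop

lemma lo_res_cont (S : Setup d F) (φ : Spl dh dm d) {u : Cfg d → F} (hu : Continuous u) :
    Continuous fun p : Cfg dh × Wsp dm => S.res φ u p.1 p.2 := by
  have h1 : Continuous fun y : Cfg dh => (S.Dy φ 8 y).det := by
    refine Continuous.matrix_det ?_
    refine continuous_matrix fun B C => ?_
    show Continuous fun y : Cfg dh => ∑ A, S.f (φ (Sum.inr B)) (φ (Sum.inl A)) (φ (Sum.inr C)) * y (8, A)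
    fun_prop
  have h2 : Continuous fun p : Cfg dh × Wsp dm => ((Real.sqrt (S.Jd φ p.1) : ℝ) : ℂ) := by
    unfold Setup.Jd
    exact Complex.continuous_ofReal.comp (Real.continuous_sqrt.comp (h1.comp continuous_fst).abs)
  unfold Setup.res
  exact h2.smul (hu.comp (lo_emb_cont φ))

lemma lo_nb_meas (y₀ : Cfg dh) (R ε : ℝ) : MeasurableSet (AN.Nb y₀ dm R ε) := by
  unfold AN.Nb
  have h1 : Continuous fun p : Cfg dh × Wsp dm => ‖p.1 - R • y₀‖ := (continuous_fst.sub continuous_const).norm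
  have h2 : Continuous fun p : Cfg dh × Wsp dm => ‖p.2‖ := continuous_snd.norm
  exact ((isOpen_lt h1 continuous_const).inter (isOpen_lt h2 continuous_const)).measurableSet

lemma lo_nb_sub (y₀ : Cfg dh) (R ε : ℝ) : AN.Nb y₀ dm R ε ⊆
    Metric.closedBall (R • y₀) (ε * R) ×ˢ Metric.closedBall (0 : Wsp dm) (ε * R) := by
  intro p hp
  refine ⟨?_, ?_⟩
  · rw [Metric.mem_closedBall, dist_eq_norm]
    exact hp.1.le
  · rw [Metric.mem_closedBall, dist_zero_right]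
    exact hp.2.le

lemma lo_res_int (S : Setup d F) (φ : Spl dh dm d) {u : Cfg d → F} (hu : Continuous u) (y₀ : Cfg dh) (R ε : ℝ) :
    IntegrableOn (fun p : Cfg dh × Wsp dm => ‖S.res φ u p.1 p.2‖ ^ 2) (AN.Nb y₀ dm R ε)
      ((volume : Measure (Cfg dh)).prod (volume : Measure (Wsp dm))) := by
  have hK : IsCompact (Metric.closedBall (R • y₀) (ε * R) ×ˢ Metric.closedBall (0 : Wsp dm) (ε * R)) :=
    (isCompact_closedBall _ _).prod (isCompact_closedBall _ _)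
  exact (((lo_res_cont S φ hu).norm.pow 2).continuousOn.integrableOn_compact hK).mono_set (lo_nb_sub y₀ R ε)

/-! ### arithmetic -/

lemma lo_limit {x : ℕ → ℝ} (hx : ∀ n, 0 ≤ x n) {M : ℝ} (hM : 0 ≤ M)
    (h : ∀ δ : ℝ, 0 < δ → ∃ e : ℕ → ℝ, Tendsto e atTop (𝓝 0) ∧ ∀ n, x n ≤ e n + M * δ) :
    Tendsto x atTop (𝓝 0) := by
  refine tendsto_order.2 ⟨fun a ha => Eventually.of_forall fun n => ha.trans_le (hx n), fun τ hτ => ?_⟩
  obtain ⟨δ, hδdef⟩ : ∃ δ : ℝ, δ = τ / (2 * (M + 1)) := ⟨_, rfl⟩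
  have hδ : 0 < δ := by rw [hδdef]; positivity
  have hδM : M * δ < τ / 2 := by
    have e1 : δ * (M + 1) = τ / 2 := by rw [hδdef]; field_simp
    nlinarith
  obtain ⟨e, he, hxe⟩ := h δ hδ
  filter_upwards [he.eventually (gt_mem_nhds (show (0 : ℝ) < τ / 2 by positivity))] with n hn
  have := hxe n
  linarith

lemma lo_en {A E1 Co Sg r ns C1 en ma K : ℝ} (hr : 1 ≤ r) (hCo : 0 ≤ Co) (hC1 : 0 ≤ C1)
    (h1 : A + E1 ≤ Co * (Sg + (1 / r ^ 2 + 0 ^ 2 / r) * ns)) (h4 : Sg ≤ C1 * (en + 1 / r ^ 2 * ma))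
    (hen : r ^ 2 * en ≤ K) (hma : ma ≤ K) (hns : ns ≤ C1 * K) : A + E1 ≤ 3 * Co * C1 * K / r ^ 2 := by
  have hr0 : 0 < r := by linarith
  have hR2 : 0 < r ^ 2 := by positivity
  have h5 : C1 * (en + 1 / r ^ 2 * ma) ≤ 2 * C1 * K / r ^ 2 := by
    rw [le_div_iff₀ hR2]
    have e1 : C1 * (en + 1 / r ^ 2 * ma) * r ^ 2 = C1 * (r ^ 2 * en + ma) := by
      field_simp
    rw [e1]
    have := mul_le_mul_of_nonneg_left (add_le_add hen hma) hC1
    linarith
  have h6 : (1 / r ^ 2 + 0 ^ 2 / r) * ns ≤ C1 * K / r ^ 2 := by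
    rw [le_div_iff₀ hR2]
    have e1 : (1 / r ^ 2 + 0 ^ 2 / r) * ns * r ^ 2 = ns := by
      field_simp
      ring
    rw [e1]
    exact hns
  have h8 : Sg + (1 / r ^ 2 + 0 ^ 2 / r) * ns ≤ 2 * C1 * K / r ^ 2 + C1 * K / r ^ 2 := add_le_add (h4.trans h5) h6
  have h9 := mul_le_mul_of_nonneg_left h8 hCo
  have h10 : Co * (2 * C1 * K / r ^ 2 + C1 * K / r ^ 2) = 3 * Co * C1 * K / r ^ 2 := by ring
  linarith

lemma lo_arith {ns far Far Cu r E1 δ K1 CI η Q K2 m c : ℝ}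
    (hmain : ns ≤ far + Cu / (8 * r) * E1 + 2 * δ * ns + 2 * (2 * CI * (1 + (η * r) ^ 2) * Q + 2 * m * c))
    (hfar : far ≤ Far) (hE1 : E1 ≤ K2 / r ^ 2) (hns : ns ≤ K1) (hQ : Q ≤ K2 / r ^ 2) (hr : 1 ≤ r)
    (hη2 : η ^ 2 ≤ δ) (hδ : 0 ≤ δ) (hCu : 0 ≤ Cu) (hCI : 0 ≤ CI) (hK2 : 0 ≤ K2) :
    ns ≤ (Far + (Cu * K2 / 8 + 4 * CI * K2) / r + 4 * m * c) + (2 * K1 + 4 * CI * K2) * δ := by
  have hRn : 0 < r := by linarith
  have hR2 : 0 < r ^ 2 := by positivity
  have b1 : Cu / (8 * r) * E1 ≤ Cu * K2 / 8 / r := by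
    have g1 : Cu / (8 * r) * E1 ≤ Cu / (8 * r) * (K2 / r ^ 2) :=
      mul_le_mul_of_nonneg_left hE1 (by positivity)
    have g2 : Cu / (8 * r) * (K2 / r ^ 2) = Cu * K2 / 8 / r * (1 / r ^ 2) := by
      field_simp
    have g3 : 1 / r ^ 2 ≤ 1 := by
      rw [div_le_one hR2]
      exact one_le_pow₀ hr
    have g4 : 0 ≤ Cu * K2 / 8 / r := by positivity
    have g5 := mul_le_mul_of_nonneg_left g3 g4
    linarith
  have b2 : 2 * δ * ns ≤ 2 * δ * K1 := mul_le_mul_of_nonneg_left hns (by positivity)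
  have b3 : 2 * (2 * CI * (1 + (η * r) ^ 2) * Q) ≤ 4 * CI * K2 / r + 4 * CI * K2 * δ := by
    have g1 : 2 * CI * (1 + (η * r) ^ 2) * Q ≤ 2 * CI * (1 + (η * r) ^ 2) * (K2 / r ^ 2) :=
      mul_le_mul_of_nonneg_left hQ (by positivity)
    have g2 : 2 * CI * (1 + (η * r) ^ 2) * (K2 / r ^ 2) = 2 * CI * K2 * (1 / r ^ 2) + 2 * CI * K2 * η ^ 2 := by
      field_simp
    have g3 : 1 / r ^ 2 ≤ 1 / r := by
      refine one_div_le_one_div_of_le hRn ?_
      nlinarith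
    have g4 : 0 ≤ 2 * CI * K2 := by positivity
    have g5 := mul_le_mul_of_nonneg_left g3 g4
    have g6 := mul_le_mul_of_nonneg_left hη2 g4
    have g7 : 4 * CI * K2 / r = 2 * (2 * CI * K2 * (1 / r)) := by ring
    rw [g7]
    linarith
  have b4 : (Cu * K2 / 8 + 4 * CI * K2) / r = Cu * K2 / 8 / r + 4 * CI * K2 / r := by ring
  rw [b4]
  linarith

/-- **L12** -/
theorem locOf (S : Setup d F) : LocOfStmt S := by
  intro hFar hSQ hUF hSec hCut hRel hcmb hOut hFr hCalc fd dh dm ds dz φ ψ z₀ h hY hIC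
  obtain ⟨n₀, o, CI, hCI, hz, ho, hic⟩ := hIC
  obtain ⟨hA, hB⟩ := hCalc dh dm
  obtain ⟨εf, hεf, hfar⟩ := hFar dh dm ds dz φ ψ z₀ h
  obtain ⟨εu, hεu, huf⟩ := hUF fd dh dm ds dz φ ψ z₀ h
  obtain ⟨εs, Cs, hεs, hCs, hsec⟩ := hSec fd dh dm ds dz φ ψ z₀ h
  obtain ⟨εc, s, t, hεc, hs, hst, hcut⟩ := hCut dh dm ds dz φ ψ z₀ h hY
  obtain ⟨εr, hεr, hrel⟩ := hRel fd dh dm ds dz φ ψ z₀ h
  obtain ⟨Om, εo, R0, Co, -, -, hεo, hR0, hCo, hout⟩ :=
    hOut dh dm φ fd (AN.N0 S) hFr.1 (cmb ψ 0 z₀) h.std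
  obtain ⟨εb, Cb, hεb, hCb, hbd⟩ := AN.bd_stmt S dh dm φ (cmb ψ 0 z₀) h.std
  obtain ⟨ε₀, hε₀, l1, l2, l3, l4, l5, l6, l7⟩ : ∃ ε₀ : ℝ, 0 < ε₀ ∧ ε₀ ≤ εf / 2 ∧ ε₀ ≤ εu ∧ ε₀ ≤ εs ∧ ε₀ ≤ εc ∧
      ε₀ ≤ εr ∧ ε₀ ≤ εo ∧ ε₀ ≤ εb := by
    refine ⟨min (εf / 2) (min εu (min εs (min εc (min εr (min εo εb))))), ?_, ?_⟩
    · simp only [lt_min_iff]
      exact ⟨by positivity, hεu, hεs, hεc, hεr, hεo, hεb⟩
    · simp only [min_le_iff, le_refl, true_or, or_true, and_self]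
  refine ⟨ε₀, hε₀, fun ε hε hεε₀ => ?_⟩
  obtain ⟨C1, δ1, hC1, hδ1, θ₁, hθc, hθb, hθs, hΘ⟩ := hcut (ε / 2) (by positivity) (by linarith)
  refine ⟨δ1, hδ1, ?_⟩
  -- the claim for `R n ≥ R0`
  have main : ∀ (R : ℕ → ℝ) (u : ℕ → Cfg d → F), Sq S R u → (∀ n, R0 ≤ R n) →
      (∀ Y', S.V Y' ≠ 0 → Nul R u Y') → (∀ Y', Y' ≠ 0 → S.V Y' = 0 → cd S Y' < dh → Nul R u Y') →
      SPZ S φ ψ z₀ h ε R u → NulE R u (emb φ (cmb ψ 0 z₀) 0) δ1 := by
    intro R u hSq hRR hnc hnul hspz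
    have hR1 : ∀ n, 1 ≤ R n := fun n => hR0.trans (hRR n)
    have hRp : ∀ n, 0 < R n := fun n => by linarith [hR1 n]
    choose Θ hΘ0 hΘ1 hΘ2 hΘ3 hΘ4 using fun n => hΘ (R n) (hR1 n)
    have hv := fun n => hΘ4 n (u n) (hSq.inv n)
    obtain ⟨v, hvdef⟩ : ∃ v : ℕ → Cfg dh → Wsp dm → F, v = fun n => mul2 (Θ n) (S.res φ (u n)) := ⟨_, rfl⟩
    have hvn : ∀ n, mul2 (Θ n) (S.res φ (u n)) = v n := fun n => by rw [hvdef]
    simp only [hvn] at hv
    obtain ⟨K, hK⟩ := hSq.bd s t hs hst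
    have hmas0 : ∀ n, 0 ≤ mas (u n) (shl d (s * R n) (t * R n)) := fun n => integral_nonneg fun x => by positivity
    have hena0 : ∀ n, 0 ≤ ena S (u n) (shl d (s * R n) (t * R n)) := fun n =>
      Finset.sum_nonneg fun β _ => integral_nonneg fun x => by positivity
    have hRe0 : ∀ n, 0 ≤ R n ^ 2 * ena S (u n) (shl d (s * R n) (t * R n)) := fun n =>
      mul_nonneg (sq_nonneg _) (hena0 n)
    have hmasK : ∀ n, mas (u n) (shl d (s * R n) (t * R n)) ≤ K := fun n => by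
      have := hK n
      have := hRe0 n
      linarith
    have henaK : ∀ n, R n ^ 2 * ena S (u n) (shl d (s * R n) (t * R n)) ≤ K := fun n => by
      have := hK n
      have := hmas0 n
      linarith
    have hK0 : 0 ≤ K := (hmas0 0).trans (hmasK 0)
    have hNbK : ∀ n, (∫ p in AN.Nb (cmb ψ 0 z₀) dm (R n) (4 * (ε / 2)), ‖S.res φ (u n) p.1 p.2‖ ^ 2
        ∂((volume : Measure (Cfg dh)).prod (volume : Measure (Wsp dm)))) ≤ C1 * K := fun n =>
      (hv n).2.2.2.1.trans (mul_le_mul_of_nonneg_left (hmasK n) hC1.le)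
    have hsup : ∀ n, Sup2 (cmb ψ 0 z₀) ε (R n) (v n) := fun n => by
      have := (hv n).2.1
      rwa [show 2 * (ε / 2) = ε by ring] at this
    have hvle : ∀ n (p : Cfg dh × Wsp dm), ‖v n p.1 p.2‖ ^ 2 ≤ ‖S.res φ (u n) p.1 p.2‖ ^ 2 := by
      intro n p
      rw [hvdef]
      unfold mul2
      rw [norm_smul, Complex.norm_real, mul_pow, Real.norm_eq_abs, sq_abs]
      obtain ⟨g1, g2⟩ := hΘ0 n p.1 p.2
      have g3 : Θ n p.1 p.2 ^ 2 ≤ 1 := by nlinarith
      have g4 : 0 ≤ ‖S.res φ (u n) p.1 p.2‖ ^ 2 := by positivity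
      calc _ ≤ 1 * ‖S.res φ (u n) p.1 p.2‖ ^ 2 := mul_le_mul_of_nonneg_right g3 g4
        _ = _ := one_mul _
    have hvz : ∀ n (p : Cfg dh × Wsp dm), p ∉ AN.Nb (cmb ψ 0 z₀) dm (R n) (4 * (ε / 2)) →
        ‖v n p.1 p.2‖ ^ 2 = 0 := by
      intro n p hp
      by_contra hne
      have h1 : v n p.1 p.2 ≠ 0 := by
        intro h0
        apply hne
        rw [h0]; simp
      obtain ⟨g1, g2⟩ := hsup n p.1 p.2 h1
      have g3 : 0 < ε * R n := mul_pos hε (hRp n)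
      apply hp
      refine ⟨?_, ?_⟩
      · refine g1.trans_lt ?_
        nlinarith
      · refine g2.trans_lt ?_
        nlinarith
    have huc : ∀ n, Continuous (u n) := fun n => (hSq.inv n).1.1.continuous
    have hri := fun n => lo_res_int (dm := dm) S φ (huc n) (cmb ψ 0 z₀) (R n) (4 * (ε / 2))
    have hvi := fun n => hB.int_sq (v n) (hv n).1
    have hnsK : ∀ n, ns2 (v n) ≤ C1 * K := by
      intro n
      refine le_trans ?_ (hNbK n)
      unfold ns2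
      rw [← setIntegral_eq_integral_of_forall_compl_eq_zero (hvz n)]
      exact integral_mono (hvi n).integrableOn (hri n) (hvle n)
    -- energies
    obtain ⟨K2, hK2def⟩ : ∃ K2 : ℝ, K2 = 3 * Co * C1 * K := ⟨_, rfl⟩
    have hK20 : 0 ≤ K2 := by rw [hK2def]; positivity
    have hE : ∀ n, (∑ β, ns2 (S.Qh φ β (v n))) + S.E1 φ (v n) ≤ K2 / R n ^ 2 := by
      intro n
      have h1 := (hout ε hε (by linarith) (R n) (hRR n) 0 le_rfl zero_le_one (v n) (hv n).1 (hsup n)).1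
      have h2 : S.EH φ (AN.N0 S) 0 (v n) = ∑ β, ns2 (S.Qh φ β (v n)) := by
        unfold Setup.EH
        refine Finset.sum_congr rfl fun β _ => ?_
        congr 1
        funext y w
        simp [Setup.Qhm]
      have h3 : S.ES φ (AN.N0 S) 0 (v n) = ∑ β, ns2 (AN.Qs S φ β (v n)) := by
        unfold Setup.ES
        refine Finset.sum_congr rfl fun β _ => ?_
        congr 1
        funext y w
        simp [Setup.QS, Setup.Qhm, AN.Qs]
      rw [h2, h3] at h1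
      rw [hK2def]
      exact lo_en (hR1 n) hCo.le hC1.le h1 (hv n).2.2.2.2.1 (henaK n) (hmasK n) (hnsK n)
    have hE10 : ∀ n, 0 ≤ S.E1 φ (v n) := fun n => Finset.sum_nonneg fun β _ => hB.nonneg _
    have hsplit := fun n => hSQ hCalc dh dm ds dz φ ψ z₀ h (v n) (hv n).1
    have hQss0 : ∀ n, 0 ≤ ∑ β, ns2 (Qss h β (v n)) := fun n => Finset.sum_nonneg fun β _ => hB.nonneg _
    have hpy0 : ∀ n, 0 ≤ ∑ i, ∑ B, ns2 (py i (ψ (Sum.inr B)) (v n)) := fun n =>
      Finset.sum_nonneg fun i _ => Finset.sum_nonneg fun B _ => hB.nonneg _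
    have hQssK : ∀ n, ∑ β, ns2 (Qss h β (v n)) ≤ K2 / R n ^ 2 := by
      intro n
      have h1 := hE n
      rw [(hsplit n).2] at h1
      have h2 := hE10 n
      have h3 := hpy0 n
      linarith
    have hE1K : ∀ n, S.E1 φ (v n) ≤ K2 / R n ^ 2 := by
      intro n
      have h1 := hE n
      rw [(hsplit n).2] at h1
      have h2 := hQss0 n
      have h3 := hpy0 n
      linarith
    have hpyK : ∀ n i B, R n ^ 2 * ns2 (py i (ψ (Sum.inr B)) (v n)) ≤ K2 := by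
      intro n i B
      have h1 := hE n
      rw [(hsplit n).2] at h1
      have h2 := hQss0 n
      have h4 := hE10 n
      have h3 : ns2 (py i (ψ (Sum.inr B)) (v n)) ≤ ∑ i, ∑ B, ns2 (py i (ψ (Sum.inr B)) (v n)) :=
        (Finset.single_le_sum (f := fun B => ns2 (py i (ψ (Sum.inr B)) (v n))) (fun B _ => hB.nonneg _)
          (Finset.mem_univ B)).trans
        (Finset.single_le_sum (f := fun i => ∑ B, ns2 (py i (ψ (Sum.inr B)) (v n)))
          (fun i _ => Finset.sum_nonneg fun B _ => hB.nonneg _) (Finset.mem_univ i))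
      have h5 := hpy0 n
      have h6 : ns2 (py i (ψ (Sum.inr B)) (v n)) ≤ K2 / R n ^ 2 := by linarith
      have hR2 : 0 < R n ^ 2 := by have := hRp n; positivity
      rw [le_div_iff₀ hR2] at h6
      linarith
    -- zero mode coefficients
    have hcoef : ∀ j, Tendsto (fun n => ∫ yz, ‖∫ ys, inner ℂ (o j ys) (sec S φ ψ (v n) yz ys)‖ ^ 2) atTop (𝓝 0) := by
      intro j
      have h1 := hrel (ε / 2) (by positivity) (by linarith) R u Θ θ₁ (C1 * K + K2) hSq.lim hR1 hSq.inv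
        (fun n y w => hΘ0 n y w) hθc hθs (fun n => hΘ1 n) (fun n => hΘ3 n)
        (fun n => by rw [hvn]; exact (hv n).1) (fun n => (hNbK n).trans (by linarith))
        (fun n i B => by
          rw [hvn]
          have h0 : 0 ≤ C1 * K := by positivity
          exact (hpyK n i B).trans (by linarith))
        (by rw [show 2 * (ε / 2) = ε by ring]; exact hspz) (o j) (hz j)
      simp only [hvn] at h1
      exact h1
    -- the limit
    have hns0 : ∀ n, 0 ≤ ns2 (v n) := fun n => hB.nonneg _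
    have hlim : Tendsto (fun n => ns2 (v n)) atTop (𝓝 0) := by
      refine lo_limit hns0 (M := 2 * (C1 * K) + 4 * CI * K2) (by positivity) fun δ hδ => ?_
      obtain ⟨η0, Cu, hη0, hCu, hufδ⟩ := huf δ hδ
      obtain ⟨η, hη, hηle, hη2⟩ : ∃ η : ℝ, 0 < η ∧ η ≤ η0 ∧ η ^ 2 ≤ δ := by
        refine ⟨min η0 (Real.sqrt δ), lt_min hη0 (Real.sqrt_pos.2 hδ), min_le_left _ _, ?_⟩
        have h1 : min η0 (Real.sqrt δ) ≤ Real.sqrt δ := min_le_right _ _
        have h2 : 0 ≤ min η0 (Real.sqrt δ) := (lt_min hη0 (Real.sqrt_pos.2 hδ)).le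
        calc (min η0 (Real.sqrt δ)) ^ 2 ≤ (Real.sqrt δ) ^ 2 := pow_le_pow_left₀ h2 h1 2
          _ = δ := Real.sq_sqrt hδ.le
      have hfarη := hfar (4 * (ε / 2)) (by positivity) (by linarith) η hη R u hSq hnc hnul
      have hsumc : Tendsto (fun n => ∑ j, ∫ yz, ‖∫ ys, inner ℂ (o j ys) (sec S φ ψ (v n) yz ys)‖ ^ 2) atTop (𝓝 0) := by
        have := tendsto_finsetSum (Finset.univ : Finset (Fin n₀)) fun j _ => hcoef j
        simpa using this
      have herr := (hfarη.add ((tendsto_const_nhds (x := Cu * K2 / 8 + 4 * CI * K2)).div_atTop hSq.lim)).add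
        (hsumc.const_mul (4 * (n₀ : ℝ)))
      simp only [add_zero, mul_zero] at herr
      refine ⟨_, herr, fun n => ?_⟩
      obtain ⟨k1, k2, k3, -, k5, -⟩ := hsec (R n) (hR1 n) (v n) (hv n).1
        (AN.su359_mono (hsup n) (hRp n) (by linarith))
      have hmain := lo_main S φ ψ z₀ h hA hB hcmb hCI hz ho hic (R := R n) (ε := ε) (η := η) (δ := δ) (Cu := Cu)
        (hRp n) hη hδ.le hCu.le
        (fun y hy => (hbd (R n) y (hRp n) (hy.trans (mul_le_mul_of_nonneg_right (by linarith) (hRp n).le))).1)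
        (fun yz hyz ys hys f hf => hufδ (R n) (hRp n) yz
          (hyz.trans (mul_le_mul_of_nonneg_right (by linarith) (hRp n).le)) ys
          (hys.trans (mul_le_mul_of_nonneg_right hηle (hRp n).le)) f hf)
        (hv n).1 (hsup n) k1 k2 (k3 (hv n).2.2.1) k5 (hsplit n).1
      -- far part
      have hfarle : (∫ p in {p : Cfg dh × Wsp dm | η * R n ≤ ‖sp ψ p.1‖}, ‖v n p.1 p.2‖ ^ 2
          ∂((volume : Measure (Cfg dh)).prod (volume : Measure (Wsp dm)))) ≤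
          ∫ p in AN.Nb (cmb ψ 0 z₀) dm (R n) (4 * (ε / 2)) ∩ {p | η * R n ≤ ‖sp ψ p.1‖},
            ‖S.res φ (u n) p.1 p.2‖ ^ 2 ∂((volume : Measure (Cfg dh)).prod (volume : Measure (Wsp dm))) := by
        have hBm : MeasurableSet {p : Cfg dh × Wsp dm | η * R n ≤ ‖sp ψ p.1‖} :=
          (isClosed_le continuous_const ((lo_sp_cont ψ).comp continuous_fst).norm).measurableSet
        rw [setIntegral_eq_of_subset_of_forall_sdiff_eq_zero hBm
          (s := AN.Nb (cmb ψ 0 z₀) dm (R n) (4 * (ε / 2)) ∩ {p | η * R n ≤ ‖sp ψ p.1‖}) Set.inter_subset_right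
          (fun p hp => hvz n p fun h' => hp.2 ⟨h', hp.1⟩)]
        exact integral_mono (hvi n).integrableOn ((hri n).mono_set Set.inter_subset_left) (hvle n)
      exact lo_arith hmain hfarle (hE1K n) (hnsK n) (hQssK n) (hR1 n) hη2 hδ.le hCu.le hCI hK20
    -- conclusion
    unfold NulE
    have hup : Tendsto (fun n => C1 * ns2 (v n)) atTop (𝓝 0) := by
      simpa using hlim.const_mul C1
    exact squeeze_zero (fun n => integral_nonneg fun x => by positivity) (fun n => (hv n).2.2.2.2.2) hup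
  intro R u hSq hnc hnul hspz
  obtain ⟨N, hN⟩ := eventually_atTop.1 (hSq.lim.eventually_ge_atTop R0)
  rw [← lo_nule_shift N]
  refine main _ _ (lo_sq_shift hSq N) (fun n => hN _ (by omega)) (fun Y' h' => ?_) (fun Y' h1 h2 h3 => ?_) ?_
  · obtain ⟨e, he, h2⟩ := hnc Y' h'
    exact ⟨e, he, (lo_nule_shift N).2 h2⟩
  · obtain ⟨e, he, h4⟩ := hnul Y' h1 h2 h3
    exact ⟨e, he, (lo_nule_shift N).2 h4⟩
  · intro χ hχ hχs o' ho'
    exact (tendsto_add_atTop_iff_nat (f := fun n => sfun S φ ψ ε (R n) χ o' (u n)) N).2 (hspz χ hχ hχs o' ho')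

end Vale.Agent.P353.Z.AD
end

section

/-! # P353, all `N`, block GL, GL2: Taylor expansion of the tube coordinates -/

open MeasureTheory Filter Topology
open scoped ContDiff

namespace Vale.Agent.P353.Z.AN

variable {d dh dm : ℕ} {F : Type*} [NormedAddCommGroup F] [InnerProductSpace ℂ F]

private lemma ty_exp0 {𝔸 : Type*} [NormedRing 𝔸] [NormedAlgebra ℝ 𝔸] [CompleteSpace 𝔸] :
    ∃ δ K : ℝ, 0 < δ ∧ 0 < K ∧ ∀ M : 𝔸, ‖M‖ < δ → ‖NormedSpace.exp M - 1 - M‖ ≤ K * ‖M‖ ^ 2 := by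
  have h := (NormedSpace.exp_hasFPowerSeriesAt_zero (𝕂 := ℝ) (𝔸 := 𝔸)).isBigO_sub_partialSum_pow 2
  obtain ⟨K, hK0, hK⟩ := h.exists_pos
  rw [Asymptotics.IsBigOWith] at hK
  obtain ⟨δ, hδ0, hδ⟩ := Metric.eventually_nhds_iff.1 hK
  refine ⟨δ, K, hδ0, hK0, fun M hM => ?_⟩
  have h1 := hδ (y := M) (by simpa using hM)
  have h2 : (NormedSpace.expSeries ℝ 𝔸).partialSum 2 M = 1 + M := by
    simp [FormalMultilinearSeries.partialSum, Finset.sum_range_succ, NormedSpace.expSeries_apply_eq]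
  rw [h2, zero_add] at h1
  rw [sub_sub]
  simpa using h1

section Mat

open scoped Matrix.Norms.Operator

private lemma ty_entry_le (M : Matrix (Fin d) (Fin d) ℝ) (i j : Fin d) : |M i j| ≤ ‖M‖ := by
  rw [Matrix.linfty_opNorm_def]
  have h1 : ‖M i j‖₊ ≤ ∑ j, ‖M i j‖₊ :=
    Finset.single_le_sum (f := fun j => ‖M i j‖₊) (fun _ _ => zero_le) (Finset.mem_univ j)
  have h2 : ∑ j, ‖M i j‖₊ ≤ Finset.univ.sup fun i => ∑ j, ‖M i j‖₊ :=
    Finset.le_sup (f := fun i => ∑ j, ‖M i j‖₊) (Finset.mem_univ i)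
  have h3 := h1.trans h2
  rw [← Real.norm_eq_abs]
  exact_mod_cast h3

private lemma ty_norm_le (M : Matrix (Fin d) (Fin d) ℝ) {t : ℝ} (ht : 0 ≤ t) (h : ∀ i j, |M i j| ≤ t) :
    ‖M‖ ≤ d * t := by
  rw [Matrix.linfty_opNorm_def]
  have h1 : (Finset.univ.sup fun i => ∑ j, ‖M i j‖₊) ≤ (d : NNReal) * t.toNNReal := by
    refine Finset.sup_le fun i _ => ?_
    have : ∀ j ∈ Finset.univ, ‖M i j‖₊ ≤ t.toNNReal := by
      intro j _
      rw [← NNReal.coe_le_coe, Real.coe_toNNReal _ ht, coe_nnnorm, Real.norm_eq_abs]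
      exact h i j
    refine (Finset.sum_le_sum this).trans (le_of_eq ?_)
    rw [Finset.sum_const, Finset.card_univ, Fintype.card_fin, nsmul_eq_mul]
  have h2 := NNReal.coe_le_coe.2 h1
  rw [NNReal.coe_mul, Real.coe_toNNReal _ ht] at h2
  exact_mod_cast h2

private lemma ty_exp2 (d : ℕ) : ∃ δ K : ℝ, 0 < δ ∧ 0 < K ∧ ∀ M : Matrix (Fin d) (Fin d) ℝ, ‖M‖ < δ →
    ‖NormedSpace.exp M - 1 - M‖ ≤ K * ‖M‖ ^ 2 := ty_exp0
private lemma ty_rem (S : Setup d F) (φ : Spl dh dm d) : ∃ ρ K : ℝ, 0 < ρ ∧ 0 < K ∧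
    ∀ a : EuclideanSpace ℝ (Fin dm), ‖a‖ < ρ → (∀ A B, |S.adm (exm φ a) A B| ≤ K * ‖a‖) ∧
      ∀ A B, |(NormedSpace.exp (S.adm (exm φ a)) - 1 - S.adm (exm φ a)) A B| ≤ K * ‖a‖ ^ 2 := by
  obtain ⟨δ, K, hδ, hK, h⟩ := ty_exp2 d
  obtain ⟨L, hL⟩ : ∃ L : ℝ, L = (∑ A, ∑ B, ∑ C, |S.f A C B|) + 1 := ⟨_, rfl⟩
  have hL1 : 1 ≤ L := by
    rw [hL]
    have : 0 ≤ ∑ A, ∑ B, ∑ C, |S.f A C B| := by positivity
    linarith
  have hx : ∀ (a : EuclideanSpace ℝ (Fin dm)) (C : Fin d), |exm φ a C| ≤ ‖a‖ := by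
    intro a C
    unfold exm
    rcases φ.symm C with A | B
    · simp
    · simpa [Real.norm_eq_abs] using PiLp.norm_apply_le a B
  have hA : ∀ (a : EuclideanSpace ℝ (Fin dm)) A B, |S.adm (exm φ a) A B| ≤ L * ‖a‖ := by
    intro a A B
    simp only [Setup.adm, Matrix.of_apply]
    calc |∑ C, S.f A C B * exm φ a C| ≤ ∑ C, |S.f A C B| * ‖a‖ := by
          refine (Finset.abs_sum_le_sum_abs _ _).trans (Finset.sum_le_sum fun C _ => ?_)
          rw [abs_mul]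
          exact mul_le_mul_of_nonneg_left (hx a C) (abs_nonneg _)
      _ = (∑ C, |S.f A C B|) * ‖a‖ := by rw [Finset.sum_mul]
      _ ≤ L * ‖a‖ := by
          refine mul_le_mul_of_nonneg_right ?_ (norm_nonneg _)
          have e1 : ∑ C, |S.f A C B| ≤ ∑ B, ∑ C, |S.f A C B| :=
            Finset.single_le_sum (f := fun B => ∑ C, |S.f A C B|)
              (fun _ _ => Finset.sum_nonneg fun _ _ => abs_nonneg _) (Finset.mem_univ B)
          have e2 : ∑ B, ∑ C, |S.f A C B| ≤ ∑ A, ∑ B, ∑ C, |S.f A C B| :=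
            Finset.single_le_sum (f := fun A => ∑ B, ∑ C, |S.f A C B|)
              (fun _ _ => Finset.sum_nonneg fun _ _ => Finset.sum_nonneg fun _ _ => abs_nonneg _)
              (Finset.mem_univ A)
          rw [hL]
          linarith
  have hN : ∀ a : EuclideanSpace ℝ (Fin dm), ‖S.adm (exm φ a)‖ ≤ d * (L * ‖a‖) := fun a =>
    ty_norm_le _ (by positivity) (hA a)
  refine ⟨δ / (d * L + 1), L + K * (d * L) ^ 2, by positivity, by positivity, fun a ha => ⟨fun A B => ?_, fun A B => ?_⟩⟩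
  · refine (hA a A B).trans (mul_le_mul_of_nonneg_right ?_ (norm_nonneg _))
    have : 0 ≤ K * (d * L) ^ 2 := by positivity
    linarith
  · have hM : ‖S.adm (exm φ a)‖ < δ := by
      refine (hN a).trans_lt ?_
      rw [lt_div_iff₀ (by positivity)] at ha
      have : 0 ≤ ‖a‖ := norm_nonneg _
      nlinarith
    refine (ty_entry_le _ A B).trans ((h _ hM).trans ?_)
    have e1 : ‖S.adm (exm φ a)‖ ^ 2 ≤ (d * (L * ‖a‖)) ^ 2 := pow_le_pow_left₀ (norm_nonneg _) (hN a) 2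
    calc K * ‖S.adm (exm φ a)‖ ^ 2 ≤ K * (d * (L * ‖a‖)) ^ 2 := mul_le_mul_of_nonneg_left e1 hK.le
      _ = K * (d * L) ^ 2 * ‖a‖ ^ 2 := by ring
      _ ≤ (L + K * (d * L) ^ 2) * ‖a‖ ^ 2 := by
          refine mul_le_mul_of_nonneg_right ?_ (sq_nonneg _)
          linarith

end Mat

private lemma ty_norm {ι : Type*} [Fintype ι] (x : EuclideanSpace ℝ ι) {t : ℝ} (ht : 0 ≤ t)
    (h : ∀ i, |x i| ≤ t) : ‖x‖ ≤ Fintype.card ι * t := by
  rw [EuclideanSpace.norm_eq]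
  refine Real.sqrt_le_iff.2 ⟨by positivity, ?_⟩
  have h1 : ∀ i ∈ Finset.univ, ‖x i‖ ^ 2 ≤ t ^ 2 := fun i _ => by
    rw [Real.norm_eq_abs]
    exact pow_le_pow_left₀ (abs_nonneg _) (h i) 2
  refine (Finset.sum_le_sum h1).trans ?_
  rw [Finset.sum_const, Finset.card_univ, nsmul_eq_mul, mul_pow]
  refine mul_le_mul_of_nonneg_right ?_ (sq_nonneg _)
  have h2 : Fintype.card ι ≤ Fintype.card ι ^ 2 := Nat.le_self_pow (by norm_num) _
  exact_mod_cast h2

private lemma ty_emb_inl (φ : Spl dh dm d) (y : Cfg dh) (w : Wsp dm) (i : Fin 9) (A : Fin dh) :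
    emb φ y w (i, φ (Sum.inl A)) = y (i, A) := by
  simp [emb]

private lemma ty_emb_inr (φ : Spl dh dm d) (y : Cfg dh) (w : Wsp dm) (i : Fin 9) (B : Fin dm) :
    emb φ y w (i, φ (Sum.inr B)) = wt w i B := by
  simp [emb, wt]

private lemma ty_wt_le (w : Wsp dm) (i : Fin 9) (B : Fin dm) : |wt w i B| ≤ ‖w‖ := by
  unfold wt
  refine Fin.lastCases (motive := fun i => |Fin.lastCases (motive := fun _ => ℝ) 0 (fun j => w (j, B)) i| ≤ ‖w‖)
    ?_ (fun j => ?_) i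
  · rw [Fin.lastCases_last]
    simp
  · rw [Fin.lastCases_castSucc]
    simpa [Real.norm_eq_abs] using PiLp.norm_apply_le w (j, B)

private lemma ty_tub (S : Setup d F) (φ : Spl dh dm d) (a : EuclideanSpace ℝ (Fin dm)) (p : Cfg dh × Wsp dm)
    (i : Fin 9) (A : Fin d) : tub S φ a p (i, A) = emb φ p.1 p.2 (i, A) +
      (∑ B, S.adm (exm φ a) A B * emb φ p.1 p.2 (i, B)) +
      ∑ B, (NormedSpace.exp (S.adm (exm φ a)) - 1 - S.adm (exm φ a)) A B * emb φ p.1 p.2 (i, B) := by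
  have h1 : tub S φ a p (i, A) = ∑ B, NormedSpace.exp (S.adm (exm φ a)) A B * emb φ p.1 p.2 (i, B) := rfl
  have h2 : emb φ p.1 p.2 (i, A) = ∑ B, (1 : Matrix (Fin d) (Fin d) ℝ) A B * emb φ p.1 p.2 (i, B) := by
    simp [Matrix.one_apply]
  rw [h1]
  conv_rhs => rw [h2]
  rw [← Finset.sum_add_distrib, ← Finset.sum_add_distrib]
  refine Finset.sum_congr rfl fun B _ => ?_
  rw [Matrix.sub_apply, Matrix.sub_apply]
  ring

private lemma ty_adm_ll (S : Setup d F) (φ : Spl dh dm d) (hs : S.IsSub φ) (a : EuclideanSpace ℝ (Fin dm))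
    (A B : Fin dh) : S.adm (exm φ a) (φ (Sum.inl A)) (φ (Sum.inl B)) = 0 := by
  simp only [Setup.adm, Matrix.of_apply]
  rw [← φ.sum_comp, Fintype.sum_sum_type]
  have h1 : ∀ C : Fin dm, S.f (φ (Sum.inl A)) (φ (Sum.inr C)) (φ (Sum.inl B)) = 0 := by
    intro C
    rw [S.f_swap', hs, neg_zero]
  simp [exm, h1]

private lemma ty_adm_rl (S : Setup d F) (φ : Spl dh dm d) (a : EuclideanSpace ℝ (Fin dm)) (y : Cfg dh) (i : Fin 9)
    (A : Fin dm) : ∑ B, S.adm (exm φ a) (φ (Sum.inr A)) (φ (Sum.inl B)) * y (i, B) =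
      -∑ C, S.Dy φ i y A C * a C := by
  simp only [Setup.adm, Matrix.of_apply, Setup.Dy, Setup.Dm]
  have h1 : ∀ B, (∑ C, S.f (φ (Sum.inr A)) C (φ (Sum.inl B)) * exm φ a C) =
      ∑ C : Fin dm, -(S.f (φ (Sum.inr A)) (φ (Sum.inl B)) (φ (Sum.inr C)) * a C) := by
    intro B
    rw [← φ.sum_comp, Fintype.sum_sum_type]
    have h2 : ∀ C : Fin dh, exm φ a (φ (Sum.inl C)) = 0 := by intro C; simp [exm]
    have h3 : ∀ C : Fin dm, exm φ a (φ (Sum.inr C)) = a C := by intro C; simp [exm]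
    simp only [h2, h3, mul_zero, Finset.sum_const_zero, zero_add]
    refine Finset.sum_congr rfl fun C _ => ?_
    rw [S.f_swap', neg_mul]
  simp only [h1, Finset.sum_mul]
  rw [Finset.sum_comm, ← Finset.sum_neg_distrib]
  refine Finset.sum_congr rfl fun C _ => ?_
  rw [← Finset.sum_neg_distrib]
  exact Finset.sum_congr rfl fun B _ => by ring

/-- **GL2** -/
theorem tayT_stmt (S : Setup d F) (hbd : BdStmt S) : TayTStmt S := by
  intro dh dm φ y₀ hstd
  obtain ⟨ε, C, hε, hC, hb⟩ := hbd dh dm φ y₀ hstd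
  obtain ⟨ρ, K, hρ, hK, hrem⟩ := ty_rem S φ
  -- constants
  obtain ⟨M, hM⟩ : ∃ M : ℝ, M = ‖y₀‖ + 2 * ε := ⟨_, rfl⟩
  have hM0 : 0 < M := by rw [hM]; positivity
  obtain ⟨C₂, hC₂⟩ : ∃ C₂ : ℝ, C₂ = d * (K * M) + dm * K + 1 := ⟨_, rfl⟩
  have hC₂0 : 0 < C₂ := by rw [hC₂]; positivity
  obtain ⟨C₄, hC₄⟩ : ∃ C₄ : ℝ, C₄ = (9 * dh + 9 * dm + 1) * C₂ := ⟨_, rfl⟩
  have hC₄0 : 0 < C₄ := by rw [hC₄]; positivity
  obtain ⟨C₃, hC₃⟩ : ∃ C₃ : ℝ, C₃ = Real.sqrt C + 8 * dm * (1 + C) := ⟨_, rfl⟩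
  have hC₃0 : 0 < C₃ := by
    rw [hC₃]
    have := Real.sqrt_pos.2 hC
    positivity
  refine ⟨ε, min ρ (1 / (2 * C₃ * C₄)), 1 / (2 * C₃), C₄, hε, lt_min hρ (by positivity), by positivity, hC₄0,
    fun R hR a p ha hp => ?_⟩
  obtain ⟨hp1, hp2⟩ := hp
  have ha1 : ‖a‖ < ρ := ha.trans_le (min_le_left _ _)
  have ha2 : ‖a‖ < 1 / (2 * C₃ * C₄) := ha.trans_le (min_le_right _ _)
  obtain ⟨hr1, hr2⟩ := hrem a ha1
  have hy : ‖p.1‖ ≤ M * R := by
    have h1 : ‖p.1‖ ≤ ‖p.1 - R • y₀‖ + ‖R • y₀‖ := by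
      have := norm_add_le (p.1 - R • y₀) (R • y₀)
      simpa using this
    rw [norm_smul, Real.norm_of_nonneg hR.le] at h1
    rw [hM]
    nlinarith [mul_pos hε hR]
  have hw : ‖p.2‖ ≤ M * R := by
    rw [hM]
    nlinarith [mul_pos hε hR, mul_nonneg (norm_nonneg y₀) hR.le]
  have he : ∀ i B, |emb φ p.1 p.2 (i, B)| ≤ M * R := by
    intro i B
    obtain ⟨B', rfl⟩ := φ.surjective B
    rcases B' with B' | B'
    · rw [ty_emb_inl]
      refine le_trans ?_ hy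
      simpa [Real.norm_eq_abs] using PiLp.norm_apply_le p.1 (i, B')
    · rw [ty_emb_inr]
      exact (ty_wt_le _ _ _).trans hw
  obtain ⟨T, hT⟩ : ∃ T : ℝ, T = ‖a‖ * (R * ‖a‖ + ‖p.2‖) := ⟨_, rfl⟩
  have hT0 : 0 ≤ T := by rw [hT]; positivity
  -- the remainder term
  have hR1 : ∀ i A, |∑ B, (NormedSpace.exp (S.adm (exm φ a)) - 1 - S.adm (exm φ a)) A B *
      emb φ p.1 p.2 (i, B)| ≤ d * (K * M) * (‖a‖ * (R * ‖a‖)) := by
    intro i A
    refine (Finset.abs_sum_le_sum_abs _ _).trans ?_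
    have : ∀ B ∈ Finset.univ, |(NormedSpace.exp (S.adm (exm φ a)) - 1 - S.adm (exm φ a)) A B *
        emb φ p.1 p.2 (i, B)| ≤ (K * ‖a‖ ^ 2) * (M * R) := by
      intro B _
      rw [abs_mul]
      exact mul_le_mul (hr2 A B) (he i B) (abs_nonneg _) (by positivity)
    refine (Finset.sum_le_sum this).trans (le_of_eq ?_)
    rw [Finset.sum_const, Finset.card_univ, Fintype.card_fin, nsmul_eq_mul]
    ring
  have hR2 : ∀ i A, |∑ B : Fin dm, S.adm (exm φ a) A (φ (Sum.inr B)) * wt p.2 i B| ≤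
      dm * K * (‖a‖ * ‖p.2‖) := by
    intro i A
    refine (Finset.abs_sum_le_sum_abs _ _).trans ?_
    have : ∀ B ∈ Finset.univ, |S.adm (exm φ a) A (φ (Sum.inr B)) * wt p.2 i B| ≤ (K * ‖a‖) * ‖p.2‖ := by
      intro B _
      rw [abs_mul]
      exact mul_le_mul (hr1 A _) (ty_wt_le _ _ _) (abs_nonneg _) (by positivity)
    refine (Finset.sum_le_sum this).trans (le_of_eq ?_)
    rw [Finset.sum_const, Finset.card_univ, Fintype.card_fin, nsmul_eq_mul]
    ring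
  have hsum : ∀ i A, |(∑ B : Fin dm, S.adm (exm φ a) A (φ (Sum.inr B)) * wt p.2 i B) +
      ∑ B, (NormedSpace.exp (S.adm (exm φ a)) - 1 - S.adm (exm φ a)) A B *
      emb φ p.1 p.2 (i, B)| ≤ C₂ * T := by
    intro i A
    refine (abs_add_le _ _).trans ((add_le_add (hR2 i A) (hR1 i A)).trans ?_)
    rw [hC₂, hT]
    have e1 : 0 ≤ ‖a‖ * (R * ‖a‖) := by positivity
    have e2 : 0 ≤ ‖a‖ * ‖p.2‖ := by positivity
    have e3 : 0 ≤ (d : ℝ) * (K * M) := by positivity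
    have e4 : 0 ≤ (dm : ℝ) * K := by positivity
    nlinarith [mul_nonneg e3 e2, mul_nonneg e4 e1]
  have hadm : ∀ i A, ∑ B, S.adm (exm φ a) A B * emb φ p.1 p.2 (i, B) =
      (∑ B : Fin dh, S.adm (exm φ a) A (φ (Sum.inl B)) * p.1 (i, B)) +
        ∑ B : Fin dm, S.adm (exm φ a) A (φ (Sum.inr B)) * wt p.2 i B := by
    intro i A
    rw [← φ.sum_comp, Fintype.sum_sum_type]
    simp only [ty_emb_inl, ty_emb_inr]
  have c1 : ‖zy φ (tub S φ a p) - p.1‖ ≤ C₄ * T := by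
    refine (ty_norm _ (t := C₂ * T) (by positivity) fun q => ?_).trans ?_
    · obtain ⟨i, A⟩ := q
      have h1 : (zy φ (tub S φ a p) - p.1) (i, A) = tub S φ a p (i, φ (Sum.inl A)) - p.1 (i, A) := rfl
      rw [h1, ty_tub, hadm, ty_emb_inl]
      have h2 : ∑ B : Fin dh, S.adm (exm φ a) (φ (Sum.inl A)) (φ (Sum.inl B)) * p.1 (i, B) = 0 :=
        Finset.sum_eq_zero fun B _ => by rw [ty_adm_ll S φ hstd.sub, zero_mul]
      rw [h2, zero_add, add_assoc, add_sub_cancel_left]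
      exact hsum i _
    · rw [hC₄]
      have : (Fintype.card (Fin 9 × Fin dh) : ℝ) = 9 * dh := by simp
      rw [this, ← mul_assoc]
      refine mul_le_mul_of_nonneg_right ?_ hT0
      refine mul_le_mul_of_nonneg_right ?_ hC₂0.le
      have : 0 ≤ (dm : ℝ) := by positivity
      linarith
  have c2 : ‖pm φ (tub S φ a p) - xi (fun i => S.Dy φ i p.1) p.2 a‖ ≤ C₄ * T := by
    refine (ty_norm _ (t := C₂ * T) (by positivity) fun q => ?_).trans ?_
    · obtain ⟨i, A⟩ := q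
      have h1 : (pm φ (tub S φ a p) - xi (fun i => S.Dy φ i p.1) p.2 a) (i, A) =
          tub S φ a p (i, φ (Sum.inr A)) - (wt p.2 i A - ∑ C, S.Dy φ i p.1 A C * a C) := rfl
      rw [h1, ty_tub, hadm, ty_emb_inr, ty_adm_rl]
      have h2 := hsum i (φ (Sum.inr A))
      refine le_of_eq_of_le (congrArg abs ?_) h2
      ring
    · rw [hC₄]
      have : (Fintype.card (Fin 9 × Fin dm) : ℝ) = 9 * dm := by simp
      rw [this, ← mul_assoc]
      refine mul_le_mul_of_nonneg_right ?_ hT0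
      refine mul_le_mul_of_nonneg_right ?_ hC₂0.le
      have : 0 ≤ (dh : ℝ) := by positivity
      linarith
  refine ⟨?_, by rw [mul_assoc, ← hT]; exact c1, by rw [mul_assoc, ← hT]; exact c2⟩
  -- lower bound
  obtain ⟨X, hX⟩ : ∃ X : Cfg dm, X = xi (fun i => S.Dy φ i p.1) p.2 a := ⟨_, rfl⟩
  rw [← hX] at c2
  have hXe : ∀ i B, X (i, B) = wt p.2 i B - ∑ C, S.Dy φ i p.1 B C * a C := by
    intro i B
    rw [hX]
    rfl
  obtain ⟨-, hb1, hb2, -⟩ := hb R p.1 hR hp1.le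
  have ha2sq : ∑ B, a B ^ 2 = ‖a‖ ^ 2 := by
    rw [EuclideanSpace.norm_sq_eq]
    simp
  have d1 : R * ‖a‖ ≤ Real.sqrt C * ‖X‖ := by
    have h1 := hb1 a
    rw [ha2sq] at h1
    have h2 : ∑ B, (∑ E, S.Dy φ 8 p.1 B E * a E) ^ 2 ≤ ‖X‖ ^ 2 := by
      rw [EuclideanSpace.norm_sq_eq, Fintype.sum_prod_type]
      refine le_trans (le_of_eq ?_) (Finset.single_le_sum (f := fun i : Fin 9 => ∑ B, ‖X (i, B)‖ ^ 2)
        (fun i _ => Finset.sum_nonneg fun B _ => sq_nonneg _) (Finset.mem_univ (8 : Fin 9)))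
      refine Finset.sum_congr rfl fun B _ => ?_
      rw [hXe]
      have : wt p.2 8 B = 0 := by
        unfold wt
        exact Fin.lastCases_last
      rw [this, zero_sub, norm_neg, Real.norm_eq_abs, sq_abs]
    refine abs_le_of_sq_le_sq' ?_ (by positivity) |>.2
    rw [mul_pow, mul_pow, Real.sq_sqrt hC.le]
    exact h1.trans (mul_le_mul_of_nonneg_left h2 hC.le)
  have d2 : ‖p.2‖ ≤ 8 * dm * (1 + C) * ‖X‖ := by
    refine (ty_norm _ (t := (1 + C) * ‖X‖) (by positivity) fun q => ?_).trans (le_of_eq ?_)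
    · obtain ⟨j, B⟩ := q
      have h1 : p.2 (j, B) = X (j.castSucc, B) + ∑ E, S.Dy φ j.castSucc p.1 B E * a E := by
        rw [hXe]
        have : wt p.2 j.castSucc B = p.2 (j, B) := by
          unfold wt
          exact Fin.lastCases_castSucc _
        rw [this]
        ring
      have h2 : |X (j.castSucc, B)| ≤ ‖X‖ := by
        simpa [Real.norm_eq_abs] using PiLp.norm_apply_le X (j.castSucc, B)
      have h3 : |∑ E, S.Dy φ j.castSucc p.1 B E * a E| ≤ C * ‖X‖ := by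
        have h4 := hb2 j.castSucc a
        rw [ha2sq] at h4
        have h5 : (∑ E, S.Dy φ j.castSucc p.1 B E * a E) ^ 2 ≤
            ∑ B, (∑ E, S.Dy φ j.castSucc p.1 B E * a E) ^ 2 :=
          Finset.single_le_sum (f := fun B => (∑ E, S.Dy φ j.castSucc p.1 B E * a E) ^ 2)
            (fun _ _ => sq_nonneg _) (Finset.mem_univ B)
        have h6 : (∑ E, S.Dy φ j.castSucc p.1 B E * a E) ^ 2 ≤ (Real.sqrt C * (R * ‖a‖)) ^ 2 := by
          rw [mul_pow, Real.sq_sqrt hC.le, mul_pow]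
          linarith [h5.trans h4]
        have h7 := abs_le_of_sq_le_sq h6 (by positivity)
        refine h7.trans ?_
        calc Real.sqrt C * (R * ‖a‖) ≤ Real.sqrt C * (Real.sqrt C * ‖X‖) :=
              mul_le_mul_of_nonneg_left d1 (Real.sqrt_nonneg C)
          _ = C * ‖X‖ := by rw [← mul_assoc, Real.mul_self_sqrt hC.le]
      rw [h1]
      refine (abs_add_le _ _).trans ?_
      linarith
    · have : (Fintype.card (Fin 8 × Fin dm) : ℝ) = 8 * dm := by simp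
      rw [this]
      ring
  have d3 : R * ‖a‖ + ‖p.2‖ ≤ C₃ * ‖X‖ := by
    rw [hC₃]
    linarith
  have d4 : ‖X‖ - C₄ * T ≤ ‖pm φ (tub S φ a p)‖ := by
    have h1 : ‖X‖ ≤ ‖pm φ (tub S φ a p) - X‖ + ‖pm φ (tub S φ a p)‖ := by
      have := norm_sub_le (pm φ (tub S φ a p)) (pm φ (tub S φ a p) - X)
      rw [sub_sub_cancel] at this
      linarith
    linarith
  refine le_trans ?_ d4
  have d5 : C₄ * T ≤ 1 / (2 * C₃) * (R * ‖a‖ + ‖p.2‖) := by
    rw [hT, ← mul_assoc]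
    refine mul_le_mul_of_nonneg_right ?_ (by positivity)
    calc C₄ * ‖a‖ ≤ C₄ * (1 / (2 * C₃ * C₄)) := mul_le_mul_of_nonneg_left ha2.le hC₄0.le
      _ = 1 / (2 * C₃) := by field_simp
  have d6 : 1 / C₃ * (R * ‖a‖ + ‖p.2‖) ≤ ‖X‖ := by
    rw [one_div, inv_mul_le_iff₀ hC₃0]
    exact d3
  have d7 : 1 / C₃ = 1 / (2 * C₃) + 1 / (2 * C₃) := by
    field_simp
    norm_num
  rw [d7, add_mul] at d6
  linarith

end Vale.Agent.P353.Z.AN
end
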