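import Mathlib
import Vale.Agent.P353.BdA.B1
import Vale.Agent.P353.BdZ.B16

set_option linter.all false

section

/-! # P353, all `N`, block X: the quadratic form `qf` in the joint eigenbasis -/

open MeasureTheory Filter Topology Matrix
open scoped ContDiff

namespace Vale.Agent.P353.Z.AX

section QfPf

variable {dm r : ℕ}

private theorem qfx_wt_last (w : Wsp dm) : wt w (Fin.last 8) = 0 := by
  funext B
  unfold wt
  rw [Fin.lastCases_last]
  rfl

private theorem qfx_wt_cast (w : Wsp dm) (j : Fin 8) : wt w j.castSucc = fun B => w (j, B) := by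
  funext B
  unfold wt
  rw [Fin.lastCases_castSucc]

/-- `sp` acts diagonally after the change of coordinates by `E` -/
private theorem qfx_E_sp {E : Matrix (Fin dm) (Fin dm) ℝ} (hE : E * Eᵀ = 1) (f : Fin dm → ℝ)
    (v : Fin dm → ℝ) (k : Fin dm) : (E *ᵥ (sp E f *ᵥ v)) k = f k * (E *ᵥ v) k := by
  unfold sp
  rw [Matrix.mulVec_mulVec, ← mul_assoc, ← mul_assoc, hE, one_mul, ← Matrix.mulVec_mulVec,
    Matrix.mulVec_diagonal]

private theorem qfx_sp_sum {ι : Type*} (s : Finset ι) (E : Matrix (Fin dm) (Fin dm) ℝ)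
    (f : ι → Fin dm → ℝ) : ∑ a ∈ s, sp E (f a) = sp E (fun k => ∑ a ∈ s, f a k) := by
  unfold sp
  rw [← Finset.sum_mul, ← Finset.mul_sum]
  congr 2
  ext i j
  rw [Matrix.sum_apply, Matrix.diagonal_apply]
  by_cases hij : i = j
  · subst hij
    simp
  · simp [hij]

private theorem qfx_DM {M : Fin r → Matrix (Fin dm) (Fin dm) ℝ} {t : Fin r → ℝ}
    {Kc E : Matrix (Fin dm) (Fin dm) ℝ} {l : Fin dm → Fin r → ℝ} (hSp : SpStmt)
    (h : RD M t Kc E l) (η : Cfg r) (i : Fin 9) :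
    DM M η i = sp E (fun k => zk (l k) η i) * Kc := by
  obtain ⟨-, -, hs, -⟩ := hSp dm E h.orth
  unfold DM
  have h1 : ∀ a, η (i, a) • M a = sp E (fun k => l k a * η (i, a)) * Kc := by
    intro a
    rw [h.M_eq a, ← Matrix.smul_mul, hs]
    congr 2
    funext k
    ring
  simp only [h1]
  rw [← Finset.sum_mul, qfx_sp_sum]
  rfl

/-- the pointwise computation: one root -/
private theorem qfx_alg (z u : Fin 9 → ℝ) (h8 : z 8 ≠ 0) :
    ∑ i, (u i - z i / z 8 * (z 8 ^ 2 / (∑ i, z i ^ 2) * ∑ j, z j / z 8 * u j)) ^ 2 =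
      (∑ i, u i ^ 2) - (∑ i, z i * u i) ^ 2 / (∑ i, z i ^ 2) := by
  set N := ∑ i, z i ^ 2 with hN
  set s := ∑ i, z i * u i with hs
  have hNpos : 0 < N := by
    have h1 : z 8 ^ 2 ≤ N := Finset.single_le_sum (f := fun i => z i ^ 2)
      (fun i _ => sq_nonneg _) (Finset.mem_univ 8)
    have h2 : 0 < z 8 ^ 2 := by positivity
    linarith
  have h1 : ∑ j, z j / z 8 * u j = s / z 8 := by
    rw [hs, Finset.sum_div]
    refine Finset.sum_congr rfl fun i _ => ?_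
    ring
  rw [h1]
  have h2 : ∀ i, (u i - z i / z 8 * (z 8 ^ 2 / N * (s / z 8))) ^ 2 =
      u i ^ 2 - 2 * (s / N) * (z i * u i) + (s / N) ^ 2 * z i ^ 2 := by
    intro i
    have h3 : z i / z 8 * (z 8 ^ 2 / N * (s / z 8)) = z i * (s / N) := by
      field_simp
    rw [h3]
    ring
  simp only [h2]
  rw [Finset.sum_add_distrib, Finset.sum_sub_distrib, ← Finset.mul_sum, ← Finset.mul_sum,
    ← hN, ← hs]
  field_simp
  ring

end QfPf

theorem qfR (hSp : SpStmt) : QfStmt := by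
  intro r dm κ M t Kc E l hκ h η hdet
  obtain ⟨hmul, hadd, hsmul, hone, htr, hdt, hquad, -, -⟩ := hSp dm E h.orth
  have hD : ∀ i, DM M η i = sp E (fun k => zk (l k) η i) * Kc := qfx_DM hSp h η
  have hKdet : |Kc.det| = 1 := by
    have h1 : Kc.det * Kc.det = (-1) ^ dm := by
      rw [← Matrix.det_mul, h.sq, Matrix.det_neg, Matrix.det_one, Fintype.card_fin, mul_one]
    have h2 : |Kc.det| * |Kc.det| = 1 := by
      rw [← abs_mul, h1, abs_pow, abs_neg, abs_one, one_pow]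
    nlinarith [abs_nonneg Kc.det]
  have hdetabs : |(DM M η 8).det| = ∏ k, |zk (l k) η 8| := by
    rw [hD, Matrix.det_mul, abs_mul, hKdet, mul_one, hdt, Finset.abs_prod]
  have hz8 : ∀ k, zk (l k) η 8 ≠ 0 := by
    intro k hk
    apply hdet
    rw [← abs_eq_zero, hdetabs]
    exact Finset.prod_eq_zero (Finset.mem_univ k) (by rw [hk, abs_zero])
  refine ⟨hz8, hdetabs, ?_, ?_⟩
  · unfold OmE
    rw [hsmul, hdt, Finset.prod_mul_distrib, Finset.prod_const, Finset.card_univ,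
      Fintype.card_fin]
  intro w
  -- the matrices `T_i`
  have hT : ∀ i, tI (DM M η) i = sp E (fun k => zk (l k) η i / zk (l k) η 8) := by
    intro i
    have h1 : DM M η i = DM M η 8 * sp E (fun k => zk (l k) η i / zk (l k) η 8) := by
      rw [hD i, hD 8, mul_assoc]
      have h2 := h.comm (fun u => zk u η i / zk u η 8)
      rw [h2, ← mul_assoc, hmul]
      congr 2
      funext k
      rw [mul_div_cancel₀ _ (hz8 k)]
    unfold tI
    rw [h1, ← mul_assoc, Matrix.nonsing_inv_mul _ (isUnit_iff_ne_zero.2 hdet), one_mul]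
  have hNpos : ∀ k, 0 < ∑ i, zk (l k) η i ^ 2 := by
    intro k
    have h1 : zk (l k) η 8 ^ 2 ≤ ∑ i, zk (l k) η i ^ 2 :=
      Finset.single_le_sum (f := fun i => zk (l k) η i ^ 2)
        (fun i _ => sq_nonneg _) (Finset.mem_univ 8)
    have h2 : 0 < zk (l k) η 8 ^ 2 := by
      have := hz8 k
      positivity
    linarith
  have ht2 : t2 (DM M η) = sp E (fun k => (∑ i, zk (l k) η i ^ 2) / zk (l k) η 8 ^ 2) := by
    unfold t2
    simp only [hT, hmul]
    rw [qfx_sp_sum]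
    congr 1
    funext k
    rw [Finset.sum_div]
    refine Finset.sum_congr rfl fun i _ => ?_
    rw [← sq, div_pow]
  have ht2inv : (t2 (DM M η))⁻¹ = sp E (fun k => zk (l k) η 8 ^ 2 / (∑ i, zk (l k) η i ^ 2)) := by
    apply Matrix.inv_eq_left_inv
    rw [ht2, hmul, ← hone]
    congr 1
    funext k
    have h1 := hz8 k
    have h2 := (hNpos k).ne'
    field_simp
  have hEV : ∀ (i : Fin 9) (k : Fin dm), (E *ᵥ VV (DM M η) w i) k =
      (E *ᵥ wt w i) k - zk (l k) η i / zk (l k) η 8 * (zk (l k) η 8 ^ 2 / (∑ i, zk (l k) η i ^ 2) *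
        ∑ j, zk (l k) η j / zk (l k) η 8 * (E *ᵥ wt w j) k) := by
    intro i k
    unfold VV
    rw [Matrix.mulVec_sub, Pi.sub_apply, hT, qfx_E_sp h.orth]
    unfold sV
    rw [ht2inv, qfx_E_sp h.orth, Matrix.mulVec_sum, Finset.sum_apply]
    congr 3
    refine Finset.sum_congr rfl fun j _ => ?_
    rw [hT, qfx_E_sp h.orth]
  have hnz : ∀ k, nz (zk (l k) η) ^ 2 = ∑ i, zk (l k) η i ^ 2 := by
    intro k
    unfold nz
    rw [Real.sq_sqrt (hNpos k).le]
  unfold qf OmE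
  simp only [Matrix.smul_mulVec, dotProduct_smul, smul_eq_mul, hquad]
  rw [← Finset.mul_sum, Finset.sum_comm]
  congr 1
  refine Finset.sum_congr rfl fun k _ => ?_
  rw [← Finset.mul_sum]
  congr 1
  simp only [hEV]
  rw [qfx_alg (zk (l k) η) (fun i => (E *ᵥ wt w i) k) (hz8 k), hnz k]
  have h0 : (E *ᵥ wt w (Fin.last 8)) k = 0 := by
    rw [qfx_wt_last, Matrix.mulVec_zero, Pi.zero_apply]
  rw [Fin.sum_univ_castSucc (fun i => (E *ᵥ wt w i) k ^ 2),
    Fin.sum_univ_castSucc (fun i => zk (l k) η i * (E *ᵥ wt w i) k), h0]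
  simp only [qfx_wt_cast]
  ring

end Vale.Agent.P353.Z.AX
end

section

/-! # P353, all `N`, block A, A5a: derivative of `exp (ad a)` (Duhamel) -/

open MeasureTheory Filter Topology
open scoped ContDiff

namespace Vale.Agent.P353.Z.AN

variable {d dh dm : ℕ} {F : Type*} [NormedAddCommGroup F] [InnerProductSpace ℂ F]

section Duhamel

variable {𝔸 : Type*} [NormedRing 𝔸] [NormedAlgebra ℝ 𝔸] [NormedAlgebra ℚ 𝔸] [CompleteSpace 𝔸]

open NormedSpace

/-- integrand of Duhamel's formula -/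
private lemma dx969_cont (A B : 𝔸) :
    Continuous (fun p : ℝ × ℝ => exp (p.2 • (A + p.1 • B)) * B * exp ((1 - p.2) • A)) := by
  have h : Continuous (exp : 𝔸 → 𝔸) := exp_continuous
  fun_prop

private lemma dx969_duh (A B : 𝔸) (t : ℝ) :
    exp (A + t • B) - exp A =
      t • ∫ s in (0 : ℝ)..1, exp (s • (A + t • B)) * B * exp ((1 - s) • A) := by
  have hd : ∀ s : ℝ, HasDerivAt (fun s : ℝ => exp (s • (A + t • B)) * exp ((1 - s) • A))
      (t • (exp (s • (A + t • B)) * B * exp ((1 - s) • A))) s := by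
    intro s
    have h1 := hasDerivAt_exp_smul_const (𝕂 := ℝ) (A + t • B) s
    have h2 := hasDerivAt_exp_smul_const' (𝕂 := ℝ) A (1 - s)
    have h3 : HasDerivAt (fun s : ℝ => 1 - s) (-1) s := by
      simpa using (hasDerivAt_id s).const_sub 1
    have h4 := h2.scomp s h3
    refine (h1.mul h4).congr_deriv ?_
    simp only [Function.comp_apply, neg_smul, one_smul, mul_neg, mul_add, add_mul, mul_assoc,
      Algebra.smul_mul_assoc, Algebra.mul_smul_comm]
    abel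
  have hc : Continuous (fun s : ℝ => t • (exp (s • (A + t • B)) * B * exp ((1 - s) • A))) :=
    ((dx969_cont A B).comp (Continuous.prodMk_right t)).const_smul t
  have h5 := intervalIntegral.integral_eq_sub_of_hasDerivAt (a := 0) (b := 1)
    (fun s _ => hd s) (hc.intervalIntegrable 0 1)
  rw [intervalIntegral.integral_smul] at h5
  rw [h5]
  simp

private lemma dx969_hasDerivAt (A B : 𝔸) :
    HasDerivAt (fun t : ℝ => exp (A + t • B))
      (∫ s in (0 : ℝ)..1, exp (s • A) * B * exp ((1 - s) • A)) 0 := by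
  rw [hasDerivAt_iff_tendsto_slope_zero]
  have hc : Continuous (fun t : ℝ => ∫ s in (0 : ℝ)..1,
      exp (s • (A + t • B)) * B * exp ((1 - s) • A)) :=
    intervalIntegral.continuous_parametric_intervalIntegral_of_continuous' (dx969_cont A B) 0 1
  have h1 := (hc.tendsto 0).mono_left (nhdsWithin_le_nhds (s := {(0 : ℝ)}ᶜ))
  simp only [zero_smul, add_zero] at h1
  refine h1.congr' ?_
  filter_upwards [self_mem_nhdsWithin] with t ht
  rw [zero_add, zero_smul, add_zero, dx969_duh, smul_smul, inv_mul_cancel₀ ht, one_smul]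

private lemma dx969_eq (A B : 𝔸) :
    ∫ s in (0 : ℝ)..1, exp (s • A) * B * exp ((1 - s) • A) =
      ∫ s in (0 : ℝ)..1, exp A * (exp (-(s • A)) * B * exp (s • A)) := by
  have h1 := intervalIntegral.integral_comp_sub_left (a := 0) (b := 1)
    (fun s : ℝ => exp (s • A) * B * exp ((1 - s) • A)) 1
  simp only [sub_self, sub_zero, sub_sub_cancel] at h1
  rw [← h1]
  congr 1
  funext s
  have h2 : exp ((1 - s) • A) = exp A * exp (-(s • A)) := by
    rw [sub_smul, one_smul, sub_eq_add_neg]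
    exact exp_add_of_commute (((Commute.refl A).smul_right s).neg_right)
  rw [h2, mul_assoc, mul_assoc, mul_assoc]

end Duhamel

section Mat

open scoped Matrix.Norms.Operator

private lemma dx969_exp_cont : Continuous (NormedSpace.exp : Matrix (Fin d) (Fin d) ℝ → _) :=
  NormedSpace.exp_continuous

private lemma dx969_exp_contDiff (i j : Fin d) :
    ContDiff ℝ ∞ (fun M : Matrix (Fin d) (Fin d) ℝ => (NormedSpace.exp M) i j) := by
  have h1 : ContDiff ℝ ∞ (NormedSpace.exp : Matrix (Fin d) (Fin d) ℝ → Matrix (Fin d) (Fin d) ℝ) :=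
    contDiff_iff_contDiffAt.2 fun M => (NormedSpace.exp_analytic (𝕂 := ℝ) M).contDiffAt
  exact (LinearMap.toContinuousLinearMap
    (Matrix.entryLinearMap ℝ ℝ i j)).contDiff.comp h1

private lemma dx969_exp_lin_contDiff (L : (Fin d → ℝ) →ₗ[ℝ] Matrix (Fin d) (Fin d) ℝ)
    (i j : Fin d) : ContDiff ℝ ∞ (fun a : Fin d → ℝ => (NormedSpace.exp (L a)) i j) :=
  (dx969_exp_contDiff i j).comp (LinearMap.toContinuousLinearMap L).contDiff

private lemma dx969_entry (A B : Matrix (Fin d) (Fin d) ℝ) (i j : Fin d) :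
    HasDerivAt (fun t : ℝ => (NormedSpace.exp (A + t • B)) i j)
      (∫ s in (0 : ℝ)..1, (NormedSpace.exp A *
        (NormedSpace.exp (-(s • A)) * B * NormedSpace.exp (s • A))) i j) 0 := by
  have h1 := dx969_hasDerivAt A B
  rw [dx969_eq] at h1
  have hc : Continuous (fun s : ℝ => NormedSpace.exp A *
      (NormedSpace.exp (-(s • A)) * B * NormedSpace.exp (s • A))) := by
    have h : Continuous (NormedSpace.exp : Matrix (Fin d) (Fin d) ℝ → _) := dx969_exp_cont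
    fun_prop
  have h2 := (LinearMap.toContinuousLinearMap
    (Matrix.entryLinearMap ℝ ℝ i j)).hasFDerivAt.comp_hasDerivAt 0 h1
  exact h2.congr_deriv ((LinearMap.toContinuousLinearMap
    (Matrix.entryLinearMap ℝ ℝ i j)).intervalIntegral_comp_comm (hc.intervalIntegrable 0 1)).symm

end Mat

section Adm

variable (S : Setup d F)

private lemma dx969_adm_add (a b : Fin d → ℝ) (t : ℝ) :
    S.adm (a + t • b) = S.adm a + t • S.adm b := by
  ext A C
  simp only [Setup.adm, Matrix.of_apply, Matrix.add_apply, Matrix.smul_apply, Pi.add_apply,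
    Pi.smul_apply, smul_eq_mul, Finset.mul_sum, ← Finset.sum_add_distrib]
  exact Finset.sum_congr rfl fun B _ => by ring

private lemma dx969_adm_contDiff (i j : Fin d) :
    ContDiff ℝ ∞ (fun a : Fin d → ℝ => (NormedSpace.exp (S.adm a)) i j) := by
  let L : (Fin d → ℝ) →ₗ[ℝ] Matrix (Fin d) (Fin d) ℝ :=
    { toFun := fun a => S.adm a
      map_add' := fun a b => by simpa using dx969_adm_add S a b 1
      map_smul' := fun t b => by
        ext A C
        simp only [Setup.adm, Matrix.of_apply, Matrix.smul_apply, Pi.smul_apply, smul_eq_mul,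
          Finset.mul_sum, RingHom.id_apply]
        exact Finset.sum_congr rfl fun B _ => by ring }
  exact dx969_exp_lin_contDiff L i j

private lemma dx969_adm_zero : S.adm 0 = 0 := by
  ext A C
  simp [Setup.adm]

private lemma dx969_adm_cont : Continuous (fun a : Fin d → ℝ => S.adm a) := by
  refine continuous_matrix fun A C => ?_
  simp only [Setup.adm, Matrix.of_apply]
  fun_prop

private lemma dx969_orth (a : Fin d → ℝ) (s : ℝ) :
    (NormedSpace.exp (s • S.adm a)).transpose = NormedSpace.exp (-(s • S.adm a)) := by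
  rw [← Matrix.exp_transpose, Matrix.transpose_smul, U.gx983_adm_transpose, smul_neg]

private lemma dx969_conj (a α : Fin d → ℝ) (s : ℝ) :
    NormedSpace.exp (-(s • S.adm a)) * S.adm α * NormedSpace.exp (s • S.adm a) =
      S.adm ((NormedSpace.exp (-(s • S.adm a))).mulVec α) := by
  have hO := U.gx983_orth S a s
  have hO' := mul_eq_one_comm.1 hO
  have hinv := U.gx983_inv S a s
  rw [← dx969_orth]
  set O := NormedSpace.exp (s • S.adm a) with hOdef
  set b := O.transpose.mulVec α with hb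
  have hα : α = O.mulVec b := by
    rw [hb, Matrix.mulVec_mulVec, hO', Matrix.one_mulVec]
  ext A C
  rw [hα]
  simp only [Matrix.mul_apply, Matrix.transpose_apply, Setup.adm, Matrix.of_apply, Matrix.mulVec,
    dotProduct]
  have h1 : ∀ B, S.f A B C * b B = ∑ A', ∑ B', ∑ C', O A' A * O B' B * O C' C * S.f A' B' C' *
      b B := by
    intro B
    rw [← hinv A B C]
    simp only [Finset.sum_mul]
  simp only [h1, Finset.sum_mul, Finset.mul_sum]
  rw [Finset.sum_comm]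
  conv_rhs => rw [Finset.sum_comm]
  refine Finset.sum_congr rfl fun A' _ => ?_
  rw [Finset.sum_comm]
  conv_rhs => rw [Finset.sum_comm]
  refine Finset.sum_congr rfl fun B' _ => ?_
  rw [Finset.sum_comm]
  refine Finset.sum_congr rfl fun B _ => Finset.sum_congr rfl fun C' _ => ?_
  ring

private lemma dx969_int_cont (α : Fin d → ℝ) (A : Fin d) :
    Continuous (fun p : (Fin d → ℝ) × ℝ =>
      (NormedSpace.exp (-(p.2 • S.adm p.1))).mulVec α A) := by
  have h1 : Continuous (fun p : (Fin d → ℝ) × ℝ => NormedSpace.exp (-(p.2 • S.adm p.1))) :=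
    dx969_exp_cont.comp (continuous_snd.smul ((dx969_adm_cont S).comp continuous_fst)).neg
  have h2 : Continuous (fun p : (Fin d → ℝ) × ℝ =>
      (NormedSpace.exp (-(p.2 • S.adm p.1))).mulVec α) := h1.matrix_mulVec continuous_const
  exact (continuous_apply A).comp h2

private lemma dx969_int_cont' (a α : Fin d → ℝ) (A : Fin d) :
    Continuous (fun τ : ℝ => (NormedSpace.exp (-(τ • S.adm a))).mulVec α A) :=
  (dx969_int_cont S α A).comp (Continuous.prodMk_right a)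

private lemma dx969_om_cont (α : Fin d → ℝ) : Continuous fun a => om S a α := by
  refine continuous_pi fun A => ?_
  exact intervalIntegral.continuous_parametric_intervalIntegral_of_continuous'
    (f := fun a τ => (NormedSpace.exp (-(τ • S.adm a))).mulVec α A) (dx969_int_cont S α A) 0 1

private lemma dx969_om_lin (a : Fin d → ℝ) : IsLinearMap ℝ (om S a) where
  map_add α β := by
    funext A
    simp only [om, Pi.add_apply, Matrix.mulVec_add]
    exact intervalIntegral.integral_add ((dx969_int_cont' S a α A).intervalIntegrable 0 1)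
      ((dx969_int_cont' S a β A).intervalIntegrable 0 1)
  map_smul r α := by
    funext A
    simp only [om, Pi.smul_apply, Matrix.mulVec_smul]
    exact intervalIntegral.integral_smul r _

private lemma dx969_om_zero (α : Fin d → ℝ) : om S 0 α = α := by
  funext A
  simp [om, dx969_adm_zero]

private lemma dx969_adm_om (a α : Fin d → ℝ) (A C : Fin d) :
    S.adm (om S a α) A C = ∫ s in (0 : ℝ)..1,
      S.adm ((NormedSpace.exp (-(s • S.adm a))).mulVec α) A C := by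
  simp only [Setup.adm, Matrix.of_apply]
  rw [intervalIntegral.integral_finsetSum]
  · refine Finset.sum_congr rfl fun B _ => ?_
    rw [intervalIntegral.integral_const_mul]
    rfl
  · intro B _
    exact ((dx969_int_cont' S a α B).const_mul _).intervalIntegrable 0 1

private lemma dx969_entry' (a α : Fin d → ℝ) (A C : Fin d) :
    HasDerivAt (fun t : ℝ => (NormedSpace.exp (S.adm (a + t • α))) A C)
      ((NormedSpace.exp (S.adm a) * S.adm (om S a α)) A C) 0 := by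
  have h1 := dx969_entry (S.adm a) (S.adm α) A C
  simp only [dx969_adm_add]
  refine h1.congr_deriv ?_
  simp only [dx969_conj]
  rw [Matrix.mul_apply]
  simp only [dx969_adm_om, Matrix.mul_apply]
  rw [intervalIntegral.integral_finsetSum]
  · refine Finset.sum_congr rfl fun B _ => ?_
    rw [intervalIntegral.integral_const_mul]
  · intro B _
    refine (Continuous.const_mul ?_ _ |>.intervalIntegrable 0 1)
    simp only [Setup.adm, Matrix.of_apply]
    exact continuous_finsetSum _ fun D _ => (dx969_int_cont' S a α D).const_mul _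

/-- **A5a** derivative of `exp (ad a)` -/
theorem dexp_stmt (S : Setup d F) : DexpStmt S := by
  refine ⟨fun a α x => ?_, ?_, dx969_om_cont S, dx969_om_lin S, dx969_om_zero S, fun a => ?_⟩
  · have h1 : HasDerivAt (fun t : ℝ => fun p : Fin 9 × Fin d =>
        ∑ B, (NormedSpace.exp (S.adm (a + t • α))) p.2 B * x (p.1, B))
        (fun p : Fin 9 × Fin d =>
          ∑ B, (NormedSpace.exp (S.adm a) * S.adm (om S a α)) p.2 B * x (p.1, B)) 0 :=
      hasDerivAt_pi.2 fun p => HasDerivAt.fun_sum fun B _ =>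
        (dx969_entry' S a α p.2 B).mul_const _
    have h2 := (PiLp.continuousLinearEquiv 2 ℝ
      (fun _ : Fin 9 × Fin d => ℝ)).symm.hasFDerivAt.comp_hasDerivAt 0 h1
    rw [← U.gx983_ro_mul]
    exact h2
  · have h1 : ContDiff ℝ ∞ (fun p : (Fin d → ℝ) × Cfg d => fun q : Fin 9 × Fin d =>
        ∑ B, (NormedSpace.exp (S.adm p.1)) q.2 B * p.2 (q.1, B)) := by
      refine contDiff_pi.2 fun q => ContDiff.sum fun B _ => ?_
      refine ContDiff.mul ((dx969_adm_contDiff S q.2 B).comp contDiff_fst) ?_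
      exact ((EuclideanSpace.proj (q.1, B) : Cfg d →L[ℝ] ℝ).contDiff).comp contDiff_snd
    exact (PiLp.continuousLinearEquiv 2 ℝ
      (fun _ : Fin 9 × Fin d => ℝ)).symm.contDiff.comp h1
  · have h := U.gx983_orth S a 1
    rw [one_smul] at h
    exact mul_eq_one_comm.1 h

end Adm

end Vale.Agent.P353.Z.AN
end

section

/-! # P353, all `N`, block A5e: assembly of the tube coordinates -/

open MeasureTheory Filter Topology
open scoped ContDiff

namespace Vale.Agent.P353.Z.AN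

variable {d dh dm : ℕ} {F : Type*} [NormedAddCommGroup F] [InnerProductSpace ℂ F]

theorem tbf_emb_smul (φ : Spl dh dm d) (R : ℝ) (y : Cfg dh) (w : Wsp dm) :
    emb φ (R • y) (R • w) = R • emb φ y w := by
  ext ⟨i, A⟩
  obtain ⟨s, rfl⟩ := φ.surjective A
  rw [PiLp.smul_apply]
  rcases s with A | B
  · simp [emb]
  · refine Fin.lastCases ?_ (fun j => ?_) i
    · simp only [emb, Equiv.symm_apply_apply, Sum.elim_inr, Fin.lastCases_last, smul_eq_mul,
        mul_zero]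
    · simp [emb]

theorem tbf_ro_smul (O : Matrix (Fin d) (Fin d) ℝ) (R : ℝ) (x : Cfg d) :
    ro O (R • x) = R • ro O x := by
  ext p
  simp only [ro, PiLp.smul_apply, smul_eq_mul, Finset.mul_sum]
  exact Finset.sum_congr rfl fun B _ => by ring

theorem tbf_tub_smul (S : Setup d F) (φ : Spl dh dm d) (a : EuclideanSpace ℝ (Fin dm)) (R : ℝ)
    (p : Cfg dh × Wsp dm) : tub S φ a (R • p) = R • tub S φ a p := by
  rw [tub, tub, Prod.smul_fst, Prod.smul_snd, tbf_emb_smul, tbf_ro_smul]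

theorem tbf_nb {y₀ : Cfg dh} {dm : ℕ} {R ε : ℝ} (hR : 0 < R) (p : Cfg dh × Wsp dm) :
    R • p ∈ Nb y₀ dm R ε ↔ p ∈ Nb y₀ dm 1 ε := by
  simp only [Nb, Set.mem_ofPred_eq, Prod.smul_fst, Prod.smul_snd, one_smul, mul_one]
  rw [← smul_sub, norm_smul, norm_smul, Real.norm_of_nonneg hR.le, mul_comm ε R,
    mul_lt_mul_iff_right₀ hR, mul_lt_mul_iff_right₀ hR]

theorem tbf_tube (S : Setup d F) (φ : Spl dh dm d) {y₀ : Cfg dh} {R ε ρ : ℝ} (hR : 0 < R)
    (x : Cfg d) : R • x ∈ Tube S φ y₀ R ε ρ ↔ x ∈ Tube S φ y₀ 1 ε ρ := by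
  constructor
  · rintro ⟨a, ha, p, hp, h⟩
    refine ⟨a, ha, R⁻¹ • p, ?_, ?_⟩
    · rw [← tbf_nb hR, smul_inv_smul₀ hR.ne']
      exact hp
    · rw [tbf_tub_smul, ← h, inv_smul_smul₀ hR.ne']
  · rintro ⟨a, ha, p, hp, rfl⟩
    exact ⟨a, ha, R • p, (tbf_nb hR p).2 hp, (tbf_tub_smul S φ a R p).symm⟩

theorem tbf_tube' (S : Setup d F) (φ : Spl dh dm d) {y₀ : Cfg dh} {R ε ρ : ℝ} (hR : 0 < R) :
    Tube S φ y₀ R ε ρ = (fun x => R⁻¹ • x) ⁻¹' Tube S φ y₀ 1 ε ρ := by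
  ext x
  rw [Set.mem_preimage, ← tbf_tube S φ hR, smul_inv_smul₀ hR.ne']

theorem tbf_continuous_emb (φ : Spl dh dm d) :
    Continuous fun p : Cfg dh × Wsp dm => emb φ p.1 p.2 := by
  refine (PiLp.continuous_toLp 2 _).comp (continuous_pi fun q => ?_)
  rcases φ.symm q.2 with A | B
  · simp only [Sum.elim_inl]
    fun_prop
  · simp only [Sum.elim_inr]
    refine Fin.lastCases ?_ (fun j => ?_) q.1
    · simp only [Fin.lastCases_last]
      fun_prop
    · simp only [Fin.lastCases_castSucc]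
      fun_prop

theorem tbf_continuous_Jd (S : Setup d F) (φ : Spl dh dm d) :
    Continuous fun y : Cfg dh => S.Jd φ y := by
  unfold Setup.Jd Setup.Dy Setup.Dm
  refine continuous_abs.comp (Continuous.matrix_det ?_)
  refine continuous_matrix fun B C => ?_
  simp only [Matrix.of_apply]
  fun_prop

/-- the constant of the tube coordinates -/
theorem tbf_const {dm : ℕ} (j : EuclideanSpace ℝ (Fin dm) → ℝ) (hj : Continuous j) (hj0 : j 0 = 1)
    {ρ : ℝ} (hρ : 0 < ρ) : ∃ c : ℝ, 0 < c ∧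
      ∫⁻ a in {a : EuclideanSpace ℝ (Fin dm) | ‖a‖ < ρ}, ENNReal.ofReal |j a| = ENNReal.ofReal c := by
  have hball : {a : EuclideanSpace ℝ (Fin dm) | ‖a‖ < ρ} = Metric.ball 0 ρ := by
    ext a
    simp
  rw [hball]
  have hint : IntegrableOn (fun a => |j a|) (Metric.ball (0 : EuclideanSpace ℝ (Fin dm)) ρ) :=
    ((hj.abs.continuousOn.integrableOn_compact (isCompact_closedBall 0 ρ))).mono_set
      Metric.ball_subset_closedBall
  refine ⟨∫ a in Metric.ball (0 : EuclideanSpace ℝ (Fin dm)) ρ, |j a|, ?_, ?_⟩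
  · rw [setIntegral_pos_iff_support_of_nonneg_ae (ae_of_all _ fun a => abs_nonneg _) hint]
    have hopen : IsOpen (Function.support (fun a => |j a|) ∩
        Metric.ball (0 : EuclideanSpace ℝ (Fin dm)) ρ) :=
      (isOpen_ne_fun hj.abs continuous_const).inter Metric.isOpen_ball
    refine hopen.measure_pos volume ⟨0, ?_, Metric.mem_ball_self hρ⟩
    simp [hj0]
  · rw [ofReal_integral_eq_lintegral_ofReal hint (ae_of_all _ fun a => abs_nonneg _)]

theorem tube_stmt (S : Setup d F) : TubeOfStmt S := by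
  intro hD hC hI dh dm φ y₀ hS
  obtain ⟨hsm, j, hj, hj0, hdet⟩ := hD dh dm φ hS.sub
  obtain ⟨e, he, hmp⟩ := hC d dh dm φ
  obtain ⟨ε₀, ρ₀, hε₀, hρ₀, hIn⟩ := hI dh dm φ y₀ hS
  refine ⟨ε₀, ρ₀, hε₀, hρ₀, fun ε ρ hε hεε hρ hρρ => ?_⟩
  obtain ⟨δ, hδ, hopen, hball, hinj⟩ := hIn ε ρ hε hεε hρ hρρ
  obtain ⟨c, hc, hcc⟩ := tbf_const j hj hj0 hρ
  refine ⟨c, δ, hc, hδ, fun R hR => ?_⟩
  have hinjR : ∀ a a' p p', ‖a‖ < ρ → ‖a'‖ < ρ → p ∈ Nb y₀ dm R ε → p' ∈ Nb y₀ dm R ε →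
      tub S φ a p = tub S φ a' p' → a = a' ∧ p = p' := by
    intro a a' p p' ha ha' hp hp' h
    have hp1 : R⁻¹ • p ∈ Nb y₀ dm 1 ε := by
      rw [← tbf_nb hR, smul_inv_smul₀ hR.ne']
      exact hp
    have hp1' : R⁻¹ • p' ∈ Nb y₀ dm 1 ε := by
      rw [← tbf_nb hR, smul_inv_smul₀ hR.ne']
      exact hp'
    have h1 := hinj a a' (R⁻¹ • p) (R⁻¹ • p') ha ha' hp1 hp1' (by
      rw [tbf_tub_smul, tbf_tub_smul, h])
    exact ⟨h1.1, smul_right_injective _ (inv_ne_zero hR.ne') h1.2⟩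
  refine ⟨?_, ?_, hinjR, ?_⟩
  · rw [tbf_tube' S φ hR]
    exact hopen.preimage (continuous_const_smul _)
  · intro x hx
    rw [tbf_tube' S φ hR, Set.mem_preimage]
    apply hball
    rw [Metric.mem_ball, dist_eq_norm] at hx ⊢
    have h1 : R⁻¹ • x - emb φ y₀ 0 = R⁻¹ • (x - R • emb φ y₀ 0) := by
      rw [smul_sub, inv_smul_smul₀ hR.ne']
    rw [h1, norm_smul, norm_inv, Real.norm_of_nonneg hR.le]
    calc R⁻¹ * ‖x - R • emb φ y₀ 0‖ < R⁻¹ * (δ * R) := by gcongr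
      _ = δ := by field_simp
  · intro f hf hinv
    obtain ⟨B, hBdef⟩ : ∃ B : Set (Cfg d), B = {z | ‖zm φ z‖ < ρ ∧ (zy φ z, zw φ z) ∈ Nb y₀ dm R ε} :=
      ⟨_, rfl⟩
    obtain ⟨T, hTdef⟩ : ∃ T : Set (EuclideanSpace ℝ (Fin dm) × (Cfg dh × Wsp dm)),
        T = {a : EuclideanSpace ℝ (Fin dm) | ‖a‖ < ρ} ×ˢ Nb y₀ dm R ε := ⟨_, rfl⟩
    have hNb : IsOpen (Nb y₀ dm R ε) := by
      have h2 : IsOpen {p : Cfg dh × Wsp dm | ‖p.1 - R • y₀‖ < ε * R} :=
        isOpen_lt (by fun_prop) (by fun_prop)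
      have h3 : IsOpen {p : Cfg dh × Wsp dm | ‖p.2‖ < ε * R} :=
        isOpen_lt (by fun_prop) (by fun_prop)
      exact h2.inter h3
    have hA : IsOpen {a : EuclideanSpace ℝ (Fin dm) | ‖a‖ < ρ} :=
      isOpen_lt (by fun_prop) (by fun_prop)
    have hT : IsOpen T := by
      rw [hTdef]
      exact hA.prod hNb
    have hBT : B = e ⁻¹' T := by
      rw [hBdef, hTdef]
      ext z
      simp only [Set.mem_ofPred_eq, Set.mem_preimage, he, Set.mem_prod]
    have hB : MeasurableSet B := by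
      rw [hBT]
      exact (hT.preimage e.continuous).measurableSet
    have himg : Tube S φ y₀ R ε ρ = tz S φ '' B := by
      ext x
      constructor
      · rintro ⟨a, ha, p, hp, rfl⟩
        have h1 : e (e.symm (a, p)) = (a, p) := e.apply_symm_apply _
        have h2 := he (e.symm (a, p))
        rw [h1] at h2
        refine ⟨e.symm (a, p), ?_, ?_⟩
        · rw [hBT, Set.mem_preimage, h1, hTdef]
          exact ⟨ha, hp⟩
        · have h3 := congrArg Prod.fst h2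
          have h4 := congrArg Prod.snd h2
          simp only at h3 h4
          rw [tz, ← h3, ← h4]
      · rintro ⟨z, hz, rfl⟩
        rw [hBdef] at hz
        exact ⟨zm φ z, hz.1, (zy φ z, zw φ z), hz.2, rfl⟩
    have hinjB : Set.InjOn (tz S φ) B := by
      intro z hz z' hz' h
      rw [hBdef] at hz hz'
      have h1 := hinjR _ _ _ _ hz.1 hz'.1 hz.2 hz'.2 h
      apply e.injective
      rw [he, he, h1.1, h1.2]
    rw [himg, lintegral_image_eq_lintegral_abs_det_fderiv_mul volume hB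
      (fun z _ => ((hsm.differentiable (by simp)) z).hasFDerivAt.hasFDerivWithinAt) hinjB]
    have hcongr : ∫⁻ z in B, ENNReal.ofReal |(fderiv ℝ (tz S φ) z).det| * f (tz S φ z) =
        ∫⁻ z in e ⁻¹' T, (fun q : EuclideanSpace ℝ (Fin dm) × (Cfg dh × Wsp dm) =>
          ENNReal.ofReal |j q.1| * (f (emb φ q.2.1 q.2.2) * ENNReal.ofReal (S.Jd φ q.2.1))) (e z) := by
      rw [← hBT]
      refine setLIntegral_congr_fun hB fun z hz => ?_
      rw [hBdef] at hz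
      simp only [he]
      rw [hdet z, ENNReal.ofReal_mul (by unfold Setup.Jd; exact abs_nonneg _), tz,
        hinv _ _ hz.1 hz.2]
      ring
    rw [hcongr]
    have hmeas1 : Measurable fun a : EuclideanSpace ℝ (Fin dm) => ENNReal.ofReal |j a| :=
      (hj.abs.measurable).ennreal_ofReal
    have hmeas2 : Measurable fun p : Cfg dh × Wsp dm =>
        f (emb φ p.1 p.2) * ENNReal.ofReal (S.Jd φ p.1) :=
      (hf.comp (tbf_continuous_emb φ).measurable).mul
        (((tbf_continuous_Jd S φ).comp continuous_fst).measurable).ennreal_ofReal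
    have hmeas3 : Measurable fun q : EuclideanSpace ℝ (Fin dm) × (Cfg dh × Wsp dm) =>
        ENNReal.ofReal |j q.1| * (f (emb φ q.2.1 q.2.2) * ENNReal.ofReal (S.Jd φ q.2.1)) :=
      (hmeas1.comp measurable_fst).mul (hmeas2.comp measurable_snd)
    rw [hmp.setLIntegral_comp_preimage hT.measurableSet hmeas3]
    rw [hTdef, ← Measure.prod_restrict]
    rw [lintegral_prod_mul hmeas1.aemeasurable hmeas2.aemeasurable, hcc]

end Vale.Agent.P353.Z.AN
end

section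

/-! # P353, all `N`, block B: algebra at a frozen point and the quadratic form `qf` -/

open MeasureTheory Filter Topology Matrix
open scoped ContDiff

namespace Vale.Agent.P353.Z

section AQ

variable {dm : ℕ} {κ : ℝ} {D : Fin 9 → Matrix (Fin dm) (Fin dm) ℝ}
  {Om : Matrix (Fin dm) (Fin dm) ℝ}

private theorem aq_inv_mul (h : Frz D) : (D 8)⁻¹ * D 8 = 1 :=
  Matrix.nonsing_inv_mul _ (isUnit_iff_ne_zero.2 h.inv)

private theorem aq_mul_inv (h : Frz D) : D 8 * (D 8)⁻¹ = 1 :=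
  Matrix.mul_nonsing_inv _ (isUnit_iff_ne_zero.2 h.inv)

private theorem aq_comm_inv (h : Frz D) (i : Fin 9) : (D 8)⁻¹ * D i = D i * (D 8)⁻¹ := by
  calc (D 8)⁻¹ * D i = (D 8)⁻¹ * D i * (D 8 * (D 8)⁻¹) := by rw [aq_mul_inv h, mul_one]
    _ = (D 8)⁻¹ * (D i * D 8) * (D 8)⁻¹ := by simp only [mul_assoc]
    _ = (D 8)⁻¹ * D 8 * D i * (D 8)⁻¹ := by rw [h.comm i 8]; simp only [mul_assoc]
    _ = D i * (D 8)⁻¹ := by rw [aq_inv_mul h, one_mul]

private theorem aq_inv_anti (h : Frz D) : ((D 8)⁻¹)ᵀ = -(D 8)⁻¹ := by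
  have h1 : ((D 8)⁻¹)ᵀ * (D 8)ᵀ = 1 := by
    rw [← Matrix.transpose_mul, aq_mul_inv h, Matrix.transpose_one]
  rw [h.anti 8, mul_neg] at h1
  calc ((D 8)⁻¹)ᵀ = ((D 8)⁻¹)ᵀ * (D 8 * (D 8)⁻¹) := by rw [aq_mul_inv h, mul_one]
    _ = -(-(((D 8)⁻¹)ᵀ * D 8)) * (D 8)⁻¹ := by rw [neg_neg, mul_assoc]
    _ = -(D 8)⁻¹ := by rw [h1, neg_mul, one_mul]

private theorem aq_tI_symm (h : Frz D) (i : Fin 9) : (tI D i)ᵀ = tI D i := by
  unfold tI
  rw [Matrix.transpose_mul, h.anti i, aq_inv_anti h, neg_mul_neg, aq_comm_inv h]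

private theorem aq_tI_comm (h : Frz D) (i j : Fin 9) : tI D i * tI D j = tI D j * tI D i := by
  unfold tI
  calc (D 8)⁻¹ * D i * ((D 8)⁻¹ * D j) = (D 8)⁻¹ * (D i * (D 8)⁻¹) * D j := by
        simp only [mul_assoc]
    _ = (D 8)⁻¹ * ((D 8)⁻¹ * D i) * D j := by rw [aq_comm_inv h i]
    _ = (D 8)⁻¹ * (D 8)⁻¹ * (D i * D j) := by simp only [mul_assoc]
    _ = (D 8)⁻¹ * (D 8)⁻¹ * (D j * D i) := by rw [h.comm i j]
    _ = (D 8)⁻¹ * ((D 8)⁻¹ * D j) * D i := by simp only [mul_assoc]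
    _ = (D 8)⁻¹ * (D j * (D 8)⁻¹) * D i := by rw [aq_comm_inv h j]
    _ = (D 8)⁻¹ * D j * ((D 8)⁻¹ * D i) := by simp only [mul_assoc]

private theorem aq_tI_last (h : Frz D) : tI D 8 = 1 := aq_inv_mul h

private theorem aq_D_eq (h : Frz D) (i : Fin 9) : D i = D 8 * tI D i := by
  unfold tI
  rw [← mul_assoc, aq_mul_inv h, one_mul]

private theorem aq_comm_sum {M : Matrix (Fin dm) (Fin dm) ℝ} (hM : ∀ i, M * D i = D i * M) :
    M * (∑ i, D i * D i) = (∑ i, D i * D i) * M := by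
  rw [Finset.mul_sum, Finset.sum_mul]
  refine Finset.sum_congr rfl fun i _ => ?_
  rw [← mul_assoc, hM i, mul_assoc, hM i, mul_assoc]

private theorem aq_tI_D (h : Frz D) (i j : Fin 9) : tI D i * D j = D j * tI D i := by
  unfold tI
  rw [mul_assoc, h.comm i j, ← mul_assoc, aq_comm_inv h j, mul_assoc]

private theorem aq_tI_Om (h : Frz D) (hO : IsOm κ D Om) (i : Fin 9) :
    tI D i * Om = Om * tI D i := hO.comm _ (aq_comm_sum (aq_tI_D h i))

private theorem aq_D_Om (h : Frz D) (hO : IsOm κ D Om) (i : Fin 9) : D i * Om = Om * D i :=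
  hO.comm _ (aq_comm_sum fun j => h.comm i j)

/-- symmetric matrices move across the dot product -/
private theorem aq_dot {A : Matrix (Fin dm) (Fin dm) ℝ} (hA : Aᵀ = A) (v w : Fin dm → ℝ) :
    v ⬝ᵥ (A *ᵥ w) = (A *ᵥ v) ⬝ᵥ w := by
  rw [Matrix.dotProduct_mulVec, ← Matrix.mulVec_transpose, hA]

private theorem aq_t2_det (h : Frz D) : (t2 D).det ≠ 0 := by
  intro h0
  obtain ⟨v, hv, h1⟩ := Matrix.exists_mulVec_eq_zero_iff.2 h0
  have h2 : ∑ i, (tI D i *ᵥ v) ⬝ᵥ (tI D i *ᵥ v) = 0 := by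
    have h3 : v ⬝ᵥ (t2 D *ᵥ v) = ∑ i, (tI D i *ᵥ v) ⬝ᵥ (tI D i *ᵥ v) := by
      unfold t2
      rw [Matrix.sum_mulVec, dotProduct_sum]
      refine Finset.sum_congr rfl fun i _ => ?_
      rw [← Matrix.mulVec_mulVec, aq_dot (aq_tI_symm h i)]
    rw [← h3, h1, dotProduct_zero]
  have h3 := (Finset.sum_eq_zero_iff_of_nonneg fun i _ =>
    (Finset.sum_nonneg fun _ _ => mul_self_nonneg _ : 0 ≤ (tI D i *ᵥ v) ⬝ᵥ (tI D i *ᵥ v))).1 h2 8 (Finset.mem_univ _)
  rw [aq_tI_last h, Matrix.one_mulVec] at h3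
  exact hv (dotProduct_self_eq_zero.1 h3)

private theorem aq_sum_tI_VV (h : Frz D) (w : Wsp dm) : ∑ i, tI D i *ᵥ VV D w i = 0 := by
  unfold VV
  simp only [Matrix.mulVec_sub, Finset.sum_sub_distrib, Matrix.mulVec_mulVec]
  rw [← Matrix.sum_mulVec]
  change _ - t2 D *ᵥ sV D w = 0
  unfold sV
  rw [Matrix.mulVec_mulVec, Matrix.mul_nonsing_inv _ (isUnit_iff_ne_zero.2 (aq_t2_det h)),
    Matrix.one_mulVec, sub_self]

private theorem aq_wt_last (w : Wsp dm) : wt w 8 = 0 := by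
  funext B
  show wt w (Fin.last 8) B = 0
  unfold wt
  rw [Fin.lastCases_last]

private theorem aq_wt_cast (w : Wsp dm) (j : Fin 8) : wt w j.castSucc = fun B => w (j, B) := by
  funext B
  unfold wt
  rw [Fin.lastCases_castSucc]

private theorem aq_VV_last (h : Frz D) (w : Wsp dm) : VV D w 8 = -sV D w := by
  unfold VV
  rw [aq_wt_last, aq_tI_last h, Matrix.one_mulVec, zero_sub]

private theorem aq_wt_eq (h : Frz D) (w : Wsp dm) (i : Fin 9) :
    wt w i = VV D w i - tI D i *ᵥ VV D w 8 := by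
  rw [aq_VV_last h, Matrix.mulVec_neg, sub_neg_eq_add]
  unfold VV
  rw [sub_add_cancel]

end AQ

theorem alg : AlgStmt := by
  intro dm κ D Om _ h hO
  refine ⟨aq_tI_symm h, aq_tI_comm h, aq_tI_last h, aq_tI_Om h hO, aq_D_Om h hO, aq_t2_det h,
    aq_D_eq h, aq_sum_tI_VV h, fun w => ?_, fun w i j => ?_, fun w j => aq_wt_eq h w _⟩
  · have h1 : ∑ i, D i *ᵥ VV D w i = D 8 *ᵥ ∑ i, tI D i *ᵥ VV D w i := by
      rw [Matrix.mulVec_sum]
      refine Finset.sum_congr rfl fun i _ => ?_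
      rw [Matrix.mulVec_mulVec, ← aq_D_eq h]
    rw [h1, aq_sum_tI_VV h, Matrix.mulVec_zero]
  · unfold VV
    rw [Matrix.mulVec_sub, Matrix.mulVec_sub, Matrix.mulVec_mulVec, Matrix.mulVec_mulVec]
    have h1 : D i * tI D j = D j * tI D i := by
      rw [aq_D_eq h i, mul_assoc, aq_tI_comm h i j, ← mul_assoc, ← aq_D_eq h]
    rw [h1]
    abel

section QF

variable {dm : ℕ} {κ : ℝ} {D : Fin 9 → Matrix (Fin dm) (Fin dm) ℝ}
  {Om : Matrix (Fin dm) (Fin dm) ℝ}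

private theorem aq_wt_add (v w : Wsp dm) (i : Fin 9) : wt (v + w) i = wt v i + wt w i := by
  induction i using Fin.lastCases with
  | last =>
    have h : ∀ w : Wsp dm, wt w (Fin.last 8) = 0 := aq_wt_last
    rw [h, h, h, add_zero]
  | cast j =>
    rw [aq_wt_cast, aq_wt_cast, aq_wt_cast]
    rfl

private theorem aq_wt_smul (c : ℝ) (w : Wsp dm) (i : Fin 9) : wt (c • w) i = c • wt w i := by
  induction i using Fin.lastCases with
  | last =>
    have h : ∀ w : Wsp dm, wt w (Fin.last 8) = 0 := aq_wt_last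
    rw [h, h, smul_zero]
  | cast j =>
    rw [aq_wt_cast, aq_wt_cast]
    rfl

private theorem aq_VV_add (v w : Wsp dm) (i : Fin 9) : VV D (v + w) i = VV D v i + VV D w i := by
  unfold VV sV
  simp only [aq_wt_add, Matrix.mulVec_add, Finset.sum_add_distrib]
  abel

private theorem aq_VV_smul (c : ℝ) (w : Wsp dm) (i : Fin 9) : VV D (c • w) i = c • VV D w i := by
  unfold VV sV
  simp only [aq_wt_smul, Matrix.mulVec_smul, ← Finset.smul_sum, smul_sub]

/-- the linear map `w ↦ Ω V` -/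
private noncomputable def aqM (D : Fin 9 → Matrix (Fin dm) (Fin dm) ℝ)
    (Om : Matrix (Fin dm) (Fin dm) ℝ) : Wsp dm →ₗ[ℝ] Wsp dm where
  toFun w := WithLp.toLp 2 fun p => (Om *ᵥ VV D w p.1.castSucc) p.2
  map_add' v w := by
    ext p
    simp only [aq_VV_add, Matrix.mulVec_add, PiLp.add_apply, Pi.add_apply]
  map_smul' c w := by
    ext p
    simp only [aq_VV_smul, Matrix.mulVec_smul, PiLp.smul_apply, Pi.smul_apply, RingHom.id_apply]

private theorem aqM_inner (h : Frz D) (hO : IsOm κ D Om) (v w : Wsp dm) :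
    inner ℝ (aqM D Om v) w = ∑ i, (Om *ᵥ VV D v i) ⬝ᵥ VV D w i := by
  have h1 : inner ℝ (aqM D Om v) w = ∑ i : Fin 9, (Om *ᵥ VV D v i) ⬝ᵥ wt w i := by
    rw [Fin.sum_univ_castSucc]
    have e : (Fin.last 8 : Fin 9) = 8 := rfl
    rw [e, aq_wt_last, dotProduct_zero, add_zero, PiLp.inner_apply,
      Fintype.sum_prod_type]
    refine Finset.sum_congr rfl fun j _ => ?_
    rw [aq_wt_cast]
    refine Finset.sum_congr rfl fun B _ => ?_
    simp only [RCLike.inner_apply, conj_trivial]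
    exact mul_comm _ _
  rw [h1]
  have h2 : ∑ i : Fin 9, (Om *ᵥ VV D v i) ⬝ᵥ wt w i =
      ∑ i : Fin 9, (Om *ᵥ VV D v i) ⬝ᵥ VV D w i -
        ∑ i : Fin 9, (Om *ᵥ VV D v i) ⬝ᵥ (tI D i *ᵥ VV D w 8) := by
    rw [← Finset.sum_sub_distrib]
    refine Finset.sum_congr rfl fun i _ => ?_
    rw [aq_wt_eq h w i, dotProduct_sub]
  have h3 : ∑ i : Fin 9, (Om *ᵥ VV D v i) ⬝ᵥ (tI D i *ᵥ VV D w 8) = 0 := by
    have h4 : ∑ i : Fin 9, (Om *ᵥ VV D v i) ⬝ᵥ (tI D i *ᵥ VV D w 8) =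
        (Om *ᵥ ∑ i, tI D i *ᵥ VV D v i) ⬝ᵥ VV D w 8 := by
      rw [Matrix.mulVec_sum, sum_dotProduct]
      refine Finset.sum_congr rfl fun i _ => ?_
      rw [aq_dot (aq_tI_symm h i), Matrix.mulVec_mulVec, Matrix.mulVec_mulVec, aq_tI_Om h hO]
    rw [h4, aq_sum_tI_VV h, Matrix.mulVec_zero, zero_dotProduct]
  rw [h2, h3, sub_zero]

private theorem aq_pos (h : Frz D) (hO : IsOm κ D Om) {w : Wsp dm} (hw : w ≠ 0) :
    0 < ∑ i, VV D w i ⬝ᵥ (Om *ᵥ VV D w i) := by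
  have hnn : ∀ v : Fin dm → ℝ, 0 ≤ v ⬝ᵥ (Om *ᵥ v) := fun v => by
    by_cases hv : v = 0
    · rw [hv, zero_dotProduct]
    · exact (hO.pos v hv).le
  by_contra hcon
  have h1 : ∑ i, VV D w i ⬝ᵥ (Om *ᵥ VV D w i) = 0 :=
    le_antisymm (not_lt.1 hcon) (Finset.sum_nonneg fun i _ => hnn _)
  have h2 : ∀ i, VV D w i = 0 := by
    intro i
    have h3 := (Finset.sum_eq_zero_iff_of_nonneg fun i _ => hnn (VV D w i)).1 h1 i
      (Finset.mem_univ _)
    by_contra hne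
    exact (hO.pos _ hne).ne' h3
  apply hw
  ext ⟨j, B⟩
  have h3 := aq_wt_eq h w j.castSucc
  rw [h2, h2, Matrix.mulVec_zero, sub_zero, aq_wt_cast] at h3
  exact congrFun h3 B

theorem qfS : QFStmt := by
  intro dm κ D Om _ h hO
  set M : Wsp dm →L[ℝ] Wsp dm := LinearMap.toContinuousLinearMap (aqM D Om) with hM
  have hMi : ∀ v w, inner ℝ (M v) w = ∑ i, (Om *ᵥ VV D v i) ⬝ᵥ VV D w i := aqM_inner h hO
  have hsym : ∀ v w, inner ℝ (M v) w = inner ℝ v (M w) := by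
    intro v w
    rw [real_inner_comm (M w) v, hMi, hMi]
    refine Finset.sum_congr rfl fun i _ => ?_
    rw [← aq_dot hO.symm, dotProduct_comm]
  have hqf : ∀ w, qf D Om w = inner ℝ w (M w) := by
    intro w
    rw [← hsym, hMi]
    unfold qf
    refine Finset.sum_congr rfl fun i _ => ?_
    rw [dotProduct_comm]
  refine ⟨M, hsym, hqf, fun w j B => rfl, ?_⟩
  have hpos : ∀ w : Wsp dm, w ≠ 0 → 0 < inner ℝ w (M w) := fun w hw => by
    rw [← hqf]
    exact aq_pos h hO hw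
  rcases subsingleton_or_nontrivial (Wsp dm) with hs | hs
  · refine ⟨1, one_pos, fun w => ?_⟩
    rw [Subsingleton.elim w 0]
    simp
  · obtain ⟨w0, hw0, hmin⟩ := (isCompact_sphere (0 : Wsp dm) 1).exists_isMinOn
      (NormedSpace.sphere_nonempty.2 zero_le_one)
      (f := fun w => inner ℝ w (M w)) (continuous_id.inner M.continuous).continuousOn
    have hw0' : w0 ≠ 0 := by
      rintro rfl
      simp at hw0
    refine ⟨inner ℝ w0 (M w0), hpos w0 hw0', fun w => ?_⟩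
    by_cases hw : w = 0
    · rw [hw]
      simp
    have hn : 0 < ‖w‖ := norm_pos_iff.2 hw
    have h1 := hmin (show ‖w‖⁻¹ • w ∈ Metric.sphere (0 : Wsp dm) 1 by
      rw [mem_sphere_zero_iff_norm, norm_smul, norm_inv, norm_norm, inv_mul_cancel₀ hn.ne'])
    simp only [Set.mem_ofPred_eq, map_smul, inner_smul_left, inner_smul_right, conj_trivial] at h1
    calc inner ℝ w0 (M w0) * ‖w‖ ^ 2 ≤ ‖w‖⁻¹ * (‖w‖⁻¹ * inner ℝ w (M w)) * ‖w‖ ^ 2 :=
          mul_le_mul_of_nonneg_right h1 (by positivity)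
      _ = inner ℝ w (M w) := by
          field_simp

end QF

end Vale.Agent.P353.Z
end

section

/-! # P353, all `N`, block GL8: the exact Gaussian identity (prover helper213) -/

open MeasureTheory Filter Topology Matrix
open scoped ContDiff

namespace Vale.Agent.P353.Z.AN

section GauAlg

variable {dm : ℕ} {κ : ℝ} {D : Fin 9 → Matrix (Fin dm) (Fin dm) ℝ} {Om : Matrix (Fin dm) (Fin dm) ℝ}

lemma gau_dot (A : Matrix (Fin dm) (Fin dm) ℝ) (v w : Fin dm → ℝ) :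
    ∑ B, ∑ C, v B * A B C * w C = v ⬝ᵥ (A *ᵥ w) := by
  simp only [dotProduct, mulVec, Finset.mul_sum, mul_assoc]

lemma gau_xi (D : Fin 9 → Matrix (Fin dm) (Fin dm) ℝ) (w : Wsp dm) (a : EuclideanSpace ℝ (Fin dm)) (i : Fin 9) :
    (fun B => xi D w a (i, B)) = wt w i - D i *ᵥ a.ofLp := rfl

lemma gau_qX (Om : Matrix (Fin dm) (Fin dm) ℝ) (X : Cfg dm) :
    qX Om X = ∑ i, (fun B => X (i, B)) ⬝ᵥ (Om *ᵥ fun B => X (i, B)) := by
  unfold qX
  exact Finset.sum_congr rfl fun i _ => gau_dot Om (fun B => X (i, B)) (fun B => X (i, B))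

/-- the point `a₀` with `D_8 a₀ = s(w)` -/
noncomputable def gauA (D : Fin 9 → Matrix (Fin dm) (Fin dm) ℝ) (w : Wsp dm) : EuclideanSpace ℝ (Fin dm) :=
  WithLp.toLp 2 ((D 8)⁻¹ *ᵥ sV D w)

lemma gau_cross (h : Frz D) (hO : IsOm κ D Om) (hc : ∀ i, D i * Om = Om * D i)
    (V : Fin 9 → Fin dm → ℝ) (hV : ∑ i, D i *ᵥ V i = 0) (b : Fin dm → ℝ) :
    ∑ i, V i ⬝ᵥ (Om *ᵥ (D i *ᵥ b)) = 0 ∧ ∑ i, (D i *ᵥ b) ⬝ᵥ (Om *ᵥ V i) = 0 := by
  have key : ∀ (v : Fin dm → ℝ) i, (D i *ᵥ b) ⬝ᵥ (Om *ᵥ v) = -(b ⬝ᵥ (Om *ᵥ (D i *ᵥ v))) := by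
    intro v i
    rw [dotProduct_comm, dotProduct_mulVec, ← mulVec_transpose, h.anti i, neg_mulVec, neg_dotProduct,
      mulVec_mulVec, hc i, ← mulVec_mulVec, dotProduct_comm]
  have e2 : ∑ i, (D i *ᵥ b) ⬝ᵥ (Om *ᵥ V i) = 0 := by
    simp only [key, Finset.sum_neg_distrib]
    rw [← dotProduct_sum, ← mulVec_sum, hV, mulVec_zero, dotProduct_zero, neg_zero]
  refine ⟨?_, e2⟩
  rw [← e2]
  refine Finset.sum_congr rfl fun i _ => ?_
  rw [dotProduct_mulVec, ← mulVec_transpose, hO.symm, dotProduct_comm]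

lemma gau_quad (hκ : 0 < κ) (h : Frz D) (hO : IsOm κ D Om) (hc : ∀ i, D i * Om = Om * D i) (b : Fin dm → ℝ) :
    ∑ i, (D i *ᵥ b) ⬝ᵥ (Om *ᵥ (D i *ᵥ b)) = (κ ^ 2)⁻¹ * (b ⬝ᵥ ((Om * Om * Om) *ᵥ b)) := by
  have key : ∀ i, (D i *ᵥ b) ⬝ᵥ (Om *ᵥ (D i *ᵥ b)) = -(b ⬝ᵥ ((Om * (D i * D i)) *ᵥ b)) := by
    intro i
    rw [dotProduct_comm, dotProduct_mulVec, ← mulVec_transpose, h.anti i, neg_mulVec, neg_dotProduct,
      mulVec_mulVec, hc i, ← mulVec_mulVec, dotProduct_comm, mulVec_mulVec, mulVec_mulVec, ← mul_assoc]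
  simp only [key, Finset.sum_neg_distrib]
  rw [← dotProduct_sum, ← sum_mulVec, ← Finset.mul_sum]
  have h2 : (∑ i, D i * D i) = -((κ ^ 2)⁻¹ • (Om * Om)) := by
    rw [hO.sq, smul_neg, neg_neg, smul_smul, inv_mul_cancel₀ (by positivity), one_smul]
  rw [h2, mul_neg, neg_mulVec, dotProduct_neg, neg_neg, mul_smul_comm, smul_mulVec, dotProduct_smul, smul_eq_mul,
    mul_assoc]

/-- completion of the square -/
theorem gau_qX_xi (hκ : 0 < κ) (h : Frz D) (hO : IsOm κ D Om) (w : Wsp dm) (a : EuclideanSpace ℝ (Fin dm)) :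
    qX Om (xi D w a) = qf D Om w +
      (κ ^ 2)⁻¹ * ∑ B, ∑ C, (a - gauA D w) B * (Om * Om * Om) B C * (a - gauA D w) C := by
  obtain ⟨hTs, hTc, hT8, hTO, hDO, ht2, hDT, hTV, hDV, hDw, hwt⟩ := Z.alg dm κ D Om hκ h hO
  have hmul : D 8 * (D 8)⁻¹ = 1 := Matrix.mul_nonsing_inv _ (isUnit_iff_ne_zero.2 h.inv)
  have hinv : ∀ i, D i * (D 8)⁻¹ = tI D i := by
    intro i
    calc D i * (D 8)⁻¹ = D 8 * tI D i * (D 8)⁻¹ := by rw [← hDT i]
      _ = tI D i * D 8 * (D 8)⁻¹ := by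
          congr 1
          rw [← hDT i]
          have := hTc i 8
          unfold tI
          rw [mul_assoc, h.comm i 8, ← mul_assoc, Matrix.nonsing_inv_mul _ (isUnit_iff_ne_zero.2 h.inv), one_mul]
      _ = tI D i := by rw [mul_assoc, hmul, mul_one]
  set b : Fin dm → ℝ := (a - gauA D w).ofLp with hb
  have hX : ∀ i, (fun B => xi D w a (i, B)) = VV D w i - D i *ᵥ b := by
    intro i
    rw [gau_xi]
    have e1 : D i *ᵥ a.ofLp = D i *ᵥ b + tI D i *ᵥ sV D w := by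
      rw [hb]
      change _ = D i *ᵥ (a.ofLp - (D 8)⁻¹ *ᵥ sV D w) + _
      rw [mulVec_sub, mulVec_mulVec, hinv, sub_add_cancel]
    rw [e1]
    unfold VV
    abel
  rw [gau_qX]
  have e2 : ∀ i, (fun B => xi D w a (i, B)) ⬝ᵥ (Om *ᵥ fun B => xi D w a (i, B)) =
      VV D w i ⬝ᵥ (Om *ᵥ VV D w i) - VV D w i ⬝ᵥ (Om *ᵥ (D i *ᵥ b)) - (D i *ᵥ b) ⬝ᵥ (Om *ᵥ VV D w i) +
        (D i *ᵥ b) ⬝ᵥ (Om *ᵥ (D i *ᵥ b)) := by
    intro i
    rw [hX i, mulVec_sub, dotProduct_sub, sub_dotProduct, sub_dotProduct]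
    ring
  simp only [e2, Finset.sum_add_distrib, Finset.sum_sub_distrib]
  rw [(gau_cross h hO hDO (VV D w) (hDV w) b).1, (gau_cross h hO hDO (VV D w) (hDV w) b).2, sub_zero, sub_zero,
    gau_quad hκ h hO hDO b]
  unfold qf
  congr 2
  exact (gau_dot (Om * Om * Om) b b).symm

end GauAlg

section GauInt

variable {E : Type*} [NormedAddCommGroup E] [InnerProductSpace ℝ E] [FiniteDimensional ℝ E]

/-- positive definite forms are bounded below -/
lemma gau_low (Q : E → ℝ) (hc : Continuous Q) (hh : ∀ (t : ℝ) x, Q (t • x) = t ^ 2 * Q x)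
    (hp : ∀ x, x ≠ 0 → 0 < Q x) : ∃ c : ℝ, 0 < c ∧ ∀ x, c * ‖x‖ ^ 2 ≤ Q x := by
  have h0 : Q 0 = 0 := by
    have := hh 0 0
    rwa [smul_zero, zero_pow two_ne_zero, zero_mul] at this
  rcases subsingleton_or_nontrivial E with hs | hs
  · refine ⟨1, one_pos, fun x => ?_⟩
    rw [Subsingleton.elim x 0, h0]
    simp
  · obtain ⟨x0, hx0, hmin⟩ := (isCompact_sphere (0 : E) 1).exists_isMinOn
      (NormedSpace.sphere_nonempty.2 zero_le_one) (f := Q) hc.continuousOn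
    have hx0' : x0 ≠ 0 := by
      rintro rfl
      simp at hx0
    refine ⟨Q x0, hp x0 hx0', fun x => ?_⟩
    by_cases hx : x = 0
    · rw [hx, h0]
      simp
    have hn : 0 < ‖x‖ := norm_pos_iff.2 hx
    have h1 := hmin (show ‖x‖⁻¹ • x ∈ Metric.sphere (0 : E) 1 by
      rw [mem_sphere_zero_iff_norm, norm_smul, norm_inv, norm_norm, inv_mul_cancel₀ hn.ne'])
    simp only [Set.mem_ofPred_eq, hh] at h1
    calc Q x0 * ‖x‖ ^ 2 ≤ ‖x‖⁻¹ ^ 2 * Q x * ‖x‖ ^ 2 := mul_le_mul_of_nonneg_right h1 (by positivity)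
      _ = Q x := by field_simp

variable [MeasurableSpace E] [BorelSpace E]

lemma gau_int_sq {c : ℝ} (hc : 0 < c) : Integrable fun x : E => Real.exp (-(c * ‖x‖ ^ 2)) := by
  have := GaussianFourier.integrable_cexp_neg_mul_sq_norm_add (V := E) (b := (c : ℂ))
    (by simpa using hc) 0 0
  have h2 := this.re
  refine h2.congr (Eventually.of_forall fun x => ?_)
  simp only [inner_zero_left, Complex.ofReal_zero, mul_zero, add_zero]
  rw [show (-(c : ℂ) * (‖x‖ : ℂ) ^ 2) = ((-(c * ‖x‖ ^ 2) : ℝ) : ℂ) by push_cast; ring,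
    ← Complex.ofReal_exp]
  exact Complex.ofReal_re _

/-- Gaussians of positive definite forms are integrable -/
lemma gau_int (Q : E → ℝ) (hc : Continuous Q) (hh : ∀ (t : ℝ) x, Q (t • x) = t ^ 2 * Q x)
    (hp : ∀ x, x ≠ 0 → 0 < Q x) {s : ℝ} (hs : 0 < s) : Integrable fun x : E => Real.exp (-(s * Q x)) := by
  obtain ⟨c, hc0, hcl⟩ := gau_low Q hc hh hp
  refine (gau_int_sq (E := E) (mul_pos hs hc0)).mono' ?_ (Eventually.of_forall fun x => ?_)
  · exact (Real.continuous_exp.comp (continuous_const.mul hc).neg).aestronglyMeasurable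
  · rw [Real.norm_eq_abs, abs_of_pos (Real.exp_pos _), Real.exp_le_exp, neg_le_neg_iff, mul_assoc]
    exact mul_le_mul_of_nonneg_left (hcl x) hs.le

lemma gau_pos (Q : E → ℝ) (hc : Continuous Q) (hh : ∀ (t : ℝ) x, Q (t • x) = t ^ 2 * Q x)
    (hp : ∀ x, x ≠ 0 → 0 < Q x) {s : ℝ} (hs : 0 < s) : 0 < ∫ x : E, Real.exp (-(s * Q x)) :=
  integral_exp_pos (gau_int Q hc hh hp hs)

end GauInt

section GauSub

variable {dm : ℕ}

/-- `ℝ^9 ⊗ m = (ℝ^8 ⊗ m) × m` -/
noncomputable def gauE (dm : ℕ) : WithLp 2 (Wsp dm × EuclideanSpace ℝ (Fin dm)) ≃ₗᵢ[ℝ] Cfg dm where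
  toFun p := WithLp.toLp 2 fun q =>
    Fin.lastCases (motive := fun _ => ℝ) (p.ofLp.2 q.2) (fun j => p.ofLp.1 (j, q.2)) q.1
  invFun X := WithLp.toLp 2 (WithLp.toLp 2 fun q => X (q.1.castSucc, q.2), WithLp.toLp 2 fun B => X (Fin.last 8, B))
  map_add' p q := by
    ext ⟨i, B⟩
    induction i using Fin.lastCases with
    | last => simp [-Fin.reduceLast]
    | cast j => simp
  map_smul' c p := by
    ext ⟨i, B⟩
    induction i using Fin.lastCases with
    | last => simp [-Fin.reduceLast]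
    | cast j => simp
  left_inv p := by
    simp [-Fin.reduceLast]
    rfl
  right_inv X := by
    ext ⟨i, B⟩
    induction i using Fin.lastCases with
    | last => simp [-Fin.reduceLast]
    | cast j => simp
  norm_map' p := by
    have h : ‖(WithLp.toLp 2 fun q : Fin 9 × Fin dm =>
        Fin.lastCases (motive := fun _ => ℝ) (p.ofLp.2 q.2) (fun j => p.ofLp.1 (j, q.2)) q.1 : Cfg dm)‖ ^ 2 = ‖p‖ ^ 2 := by
      rw [EuclideanSpace.real_norm_sq_eq, WithLp.prod_norm_sq_eq_of_L2, EuclideanSpace.real_norm_sq_eq,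
        EuclideanSpace.real_norm_sq_eq, Fintype.sum_prod_type, Fintype.sum_prod_type, Fin.sum_univ_castSucc]
      simp [-Fin.reduceLast]
    exact (sq_eq_sq₀ (norm_nonneg _) (norm_nonneg _)).1 h

lemma gauE_mp (dm : ℕ) : MeasurePreserving
    (fun p : Wsp dm × EuclideanSpace ℝ (Fin dm) => gauE dm (WithLp.toLp 2 p)) volume volume :=
  (gauE dm).measurePreserving.comp (WithLp.volume_preserving_toLp (Wsp dm) (EuclideanSpace ℝ (Fin dm)))

/-- the translation `D'a` -/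
noncomputable def gauT (D : Fin 9 → Matrix (Fin dm) (Fin dm) ℝ) (a : EuclideanSpace ℝ (Fin dm)) : Wsp dm :=
  WithLp.toLp 2 fun p => ∑ C, D p.1.castSucc p.2 C * a C

lemma gauE_xi (D : Fin 9 → Matrix (Fin dm) (Fin dm) ℝ) (w : Wsp dm) (a : EuclideanSpace ℝ (Fin dm)) :
    gauE dm (WithLp.toLp 2 (w - gauT D a, Matrix.toEuclideanLin (-D 8) a)) = xi D w a := by
  ext ⟨i, B⟩
  induction i using Fin.lastCases with
  | last =>
    simp only [gauE, xi, wt]
    simp [-Fin.reduceLast, Matrix.toEuclideanLin, mulVec, dotProduct]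
    rfl
  | cast j =>
    simp [gauE, xi, wt, gauT]

/-- substitution `X = w - D a` -/
theorem gau_sub (D : Fin 9 → Matrix (Fin dm) (Fin dm) ℝ) (hD : (D 8).det ≠ 0) (f : Cfg dm → ENNReal)
    (hf : Measurable f) :
    ∫⁻ X, f X = ENNReal.ofReal |(D 8).det| * ∫⁻ w : Wsp dm, ∫⁻ a : EuclideanSpace ℝ (Fin dm), f (xi D w a) := by
  have hmp := gauE_mp dm
  have hm : Measurable fun p : Wsp dm × EuclideanSpace ℝ (Fin dm) => f (gauE dm (WithLp.toLp 2 p)) :=
    hf.comp hmp.measurable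
  rw [← hmp.lintegral_comp hf]
  rw [show (volume : Measure (Wsp dm × EuclideanSpace ℝ (Fin dm))) = volume.prod volume from rfl,
    lintegral_prod_symm' _ hm]
  set G : EuclideanSpace ℝ (Fin dm) → ENNReal := fun c => ∫⁻ w : Wsp dm, f (gauE dm (WithLp.toLp 2 (w, c))) with hG
  have hGm : Measurable G := hm.lintegral_prod_left'
  have hdet : LinearMap.det (Matrix.toEuclideanLin (-D 8)) = (-D 8).det := by
    rw [show Matrix.toEuclideanLin (-D 8) = Matrix.toLpLin 2 2 (-D 8) from rfl, Matrix.toLpLin_eq_toLin, LinearMap.det_toLin]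
  have hdet2 : |(-D 8).det| = |(D 8).det| := by
    rw [Matrix.det_neg, abs_mul, abs_pow, abs_neg, abs_one, one_pow, one_mul]
  have hne : LinearMap.det (Matrix.toEuclideanLin (-D 8)) ≠ 0 := by
    rw [hdet, ← abs_pos, hdet2, abs_pos]
    exact hD
  have hmap := Measure.map_linearMap_addHaar_eq_smul_addHaar (volume : Measure (EuclideanSpace ℝ (Fin dm))) hne
  have hsub : ∫⁻ a, G (Matrix.toEuclideanLin (-D 8) a) = ENNReal.ofReal |(D 8).det|⁻¹ * ∫⁻ c, G c := by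
    have hfm : Measurable (Matrix.toEuclideanLin (-D 8) : EuclideanSpace ℝ (Fin dm) → EuclideanSpace ℝ (Fin dm)) :=
      (LinearMap.continuous_of_finiteDimensional _).measurable
    rw [← lintegral_map hGm hfm, hmap, lintegral_smul_measure, hdet, smul_eq_mul, abs_inv, hdet2]
  have hpos : 0 < |(D 8).det| := abs_pos.2 hD
  have hG2 : ∫⁻ c, G c = ENNReal.ofReal |(D 8).det| * ∫⁻ a, G (Matrix.toEuclideanLin (-D 8) a) := by
    rw [hsub, ← mul_assoc, ← ENNReal.ofReal_mul hpos.le, mul_inv_cancel₀ hpos.ne', ENNReal.ofReal_one, one_mul]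
  change ∫⁻ c, G c = _
  rw [hG2]
  congr 1
  have hxm : Measurable fun q : EuclideanSpace ℝ (Fin dm) × Wsp dm => f (xi D q.2 q.1) := by
    refine hf.comp (Continuous.measurable ?_)
    have : (fun q : EuclideanSpace ℝ (Fin dm) × Wsp dm => xi D q.2 q.1) = fun q =>
        gauE dm (WithLp.toLp 2 (q.2 - gauT D q.1, Matrix.toEuclideanLin (-D 8) q.1)) := by
      funext q
      exact (gauE_xi D q.2 q.1).symm
    rw [this]
    refine (gauE dm).continuous.comp ?_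
    have c1 : Continuous (gauT D) := by
      unfold gauT
      fun_prop
    have c2 : Continuous (Matrix.toEuclideanLin (-D 8) : EuclideanSpace ℝ (Fin dm) → EuclideanSpace ℝ (Fin dm)) :=
      LinearMap.continuous_of_finiteDimensional _
    have c3 : Continuous fun q : EuclideanSpace ℝ (Fin dm) × Wsp dm =>
        ((q.2 - gauT D q.1, Matrix.toEuclideanLin (-D 8) q.1) : Wsp dm × EuclideanSpace ℝ (Fin dm)) :=
      (continuous_snd.sub (c1.comp continuous_fst)).prodMk (c2.comp continuous_fst)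
    exact (WithLp.prod_continuous_toLp 2 _ _).comp c3
  calc ∫⁻ a, G (Matrix.toEuclideanLin (-D 8) a)
      = ∫⁻ a : EuclideanSpace ℝ (Fin dm), ∫⁻ w : Wsp dm, f (xi D w a) := by
        refine lintegral_congr fun a => ?_
        rw [hG]
        change ∫⁻ w : Wsp dm, f (gauE dm (WithLp.toLp 2 (w, Matrix.toEuclideanLin (-D 8) a))) = _
        rw [← lintegral_sub_right_eq_self (fun w : Wsp dm =>
          f (gauE dm (WithLp.toLp 2 (w, Matrix.toEuclideanLin (-D 8) a)))) (gauT D a)]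
        simp only [gauE_xi]
    _ = ∫⁻ w : Wsp dm, ∫⁻ a : EuclideanSpace ℝ (Fin dm), f (xi D w a) :=
        lintegral_lintegral_swap hxm.aemeasurable

end GauSub

section GauMain

variable {dm : ℕ} {κ : ℝ} {D : Fin 9 → Matrix (Fin dm) (Fin dm) ℝ} {Om : Matrix (Fin dm) (Fin dm) ℝ}

lemma gau_qX_cont (Om : Matrix (Fin dm) (Fin dm) ℝ) : Continuous (qX Om) := by
  unfold qX
  fun_prop

lemma gau_qX_smul (Om : Matrix (Fin dm) (Fin dm) ℝ) (t : ℝ) (X : Cfg dm) : qX Om (t • X) = t ^ 2 * qX Om X := by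
  unfold qX
  simp only [PiLp.smul_apply, smul_eq_mul, Finset.mul_sum]
  exact Finset.sum_congr rfl fun i _ => Finset.sum_congr rfl fun B _ => Finset.sum_congr rfl fun C _ => by ring

lemma gau_nn (hO : IsOm κ D Om) (v : Fin dm → ℝ) : 0 ≤ v ⬝ᵥ (Om *ᵥ v) := by
  by_cases hv : v = 0
  · rw [hv, zero_dotProduct]
  · exact (hO.pos v hv).le

lemma gau_qX_pos (hO : IsOm κ D Om) (X : Cfg dm) (hX : X ≠ 0) : 0 < qX Om X := by
  rw [gau_qX]
  by_contra hcon
  have h1 : ∑ i, (fun B => X (i, B)) ⬝ᵥ (Om *ᵥ fun B => X (i, B)) = 0 :=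
    le_antisymm (not_lt.1 hcon) (Finset.sum_nonneg fun i _ => gau_nn hO _)
  apply hX
  ext ⟨i, B⟩
  have h3 := (Finset.sum_eq_zero_iff_of_nonneg fun i _ => gau_nn hO fun B => X (i, B)).1 h1 i (Finset.mem_univ _)
  by_contra hne
  exact (hO.pos (fun B => X (i, B)) fun h => hne (congrFun h B)).ne' h3

/-- the form `⟨a, Ω³ a⟩` -/
noncomputable def gauQ (Om : Matrix (Fin dm) (Fin dm) ℝ) (a : EuclideanSpace ℝ (Fin dm)) : ℝ :=
  ∑ B, ∑ C, a B * (Om * Om * Om) B C * a C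

lemma gauQ_cont (Om : Matrix (Fin dm) (Fin dm) ℝ) : Continuous (gauQ Om) := by
  unfold gauQ
  fun_prop

lemma gauQ_smul (Om : Matrix (Fin dm) (Fin dm) ℝ) (t : ℝ) (a : EuclideanSpace ℝ (Fin dm)) :
    gauQ Om (t • a) = t ^ 2 * gauQ Om a := by
  unfold gauQ
  simp only [PiLp.smul_apply, smul_eq_mul, Finset.mul_sum]
  exact Finset.sum_congr rfl fun B _ => Finset.sum_congr rfl fun C _ => by ring

lemma gauQ_pos (hO : IsOm κ D Om) (a : EuclideanSpace ℝ (Fin dm)) (ha : a ≠ 0) : 0 < gauQ Om a := by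
  have h0 : a.ofLp ≠ 0 := fun h => ha (by ext B; exact congrFun h B)
  have h1 : Om *ᵥ a.ofLp ≠ 0 := by
    intro h
    have := hO.pos _ h0
    rw [h, dotProduct_zero] at this
    exact lt_irrefl _ this
  have h2 := hO.pos _ h1
  unfold gauQ
  rw [gau_dot (Om * Om * Om) a.ofLp a.ofLp]
  have : a.ofLp ⬝ᵥ ((Om * Om * Om) *ᵥ a.ofLp) = (Om *ᵥ a.ofLp) ⬝ᵥ (Om *ᵥ (Om *ᵥ a.ofLp)) := by
    rw [mul_assoc, ← mulVec_mulVec, ← mulVec_mulVec, dotProduct_mulVec, ← mulVec_transpose, hO.symm]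
  rw [this]
  exact h2

lemma gau_Gs_int (hκ : 0 < κ) (hO : IsOm κ D Om) {s : ℝ} (hs : 0 < s) :
    Integrable fun a : EuclideanSpace ℝ (Fin dm) => Real.exp (-(s * (κ ^ 2)⁻¹ * gauQ Om a)) :=
  gau_int (gauQ Om) (gauQ_cont Om) (gauQ_smul Om) (gauQ_pos hO) (by positivity)

lemma gau_Gs_pos (hκ : 0 < κ) (hO : IsOm κ D Om) {s : ℝ} (hs : 0 < s) : 0 < Gs κ Om s :=
  gau_pos (gauQ Om) (gauQ_cont Om) (gauQ_smul Om) (gauQ_pos hO) (by positivity)

lemma gau_Kx_int (hO : IsOm κ D Om) : Integrable fun X : Cfg dm => Real.exp (-qX Om X) := by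
  have := gau_int (qX Om) (gau_qX_cont Om) (gau_qX_smul Om) (gau_qX_pos hO) one_pos
  simpa only [one_mul] using this

lemma gau_Kx_pos (hO : IsOm κ D Om) : 0 < Kx Om := integral_exp_pos (gau_Kx_int hO)

lemma gau_g2 (D : Fin 9 → Matrix (Fin dm) (Fin dm) ℝ) (Om : Matrix (Fin dm) (Fin dm) ℝ) (w : Wsp dm) :
    gR D Om 1 w ^ 2 = Real.exp (-qf D Om w) := by
  unfold gR
  rw [← Real.exp_nat_mul]
  congr 1
  push_cast
  ring

lemma gau_g2_int (hκ : 0 < κ) (h : Frz D) (hO : IsOm κ D Om) : Integrable fun w : Wsp dm => Real.exp (-qf D Om w) := by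
  obtain ⟨M, -, hqf, -, c, hc, hcl⟩ := Z.qfS dm κ D Om hκ h hO
  refine (gau_int_sq (E := Wsp dm) hc).mono' ?_ (Eventually.of_forall fun w => ?_)
  · have : Continuous fun w : Wsp dm => Real.exp (-qf D Om w) := by
      simp only [hqf]
      exact Real.continuous_exp.comp (continuous_id.inner M.continuous).neg
    exact this.aestronglyMeasurable
  · rw [Real.norm_eq_abs, abs_of_pos (Real.exp_pos _), Real.exp_le_exp, neg_le_neg_iff, hqf]
    exact hcl w

lemma gau_exp (hκ : 0 < κ) (h : Frz D) (hO : IsOm κ D Om) (w : Wsp dm) (a : EuclideanSpace ℝ (Fin dm)) :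
    Real.exp (-qX Om (xi D w a)) = Real.exp (-qf D Om w) *
      Real.exp (-(1 * (κ ^ 2)⁻¹ * gauQ Om (a - gauA D w))) := by
  rw [gau_qX_xi hκ h hO, ← Real.exp_add]
  congr 1
  unfold gauQ
  ring

lemma gau_exp2 (hκ : 0 < κ) (h : Frz D) (hO : IsOm κ D Om) (w : Wsp dm) (a : EuclideanSpace ℝ (Fin dm)) :
    Real.exp (-(1 / 2) * qX Om (xi D w a)) = gR D Om 1 w *
      Real.exp (-(1 / 2 * (κ ^ 2)⁻¹ * gauQ Om (a - gauA D w))) := by
  unfold gR
  rw [gau_qX_xi hκ h hO, ← Real.exp_add]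
  congr 1
  unfold gauQ
  ring

/-- `Kx = |det D_8| ∫gR² · Gs(1)` -/
theorem gau_Kx (hκ : 0 < κ) (h : Frz D) (hO : IsOm κ D Om) :
    Kx Om = |(D 8).det| * ((∫ w, gR D Om 1 w ^ 2) * Gs κ Om 1) := by
  simp only [gau_g2]
  have hG := gau_Gs_pos hκ hO one_pos
  have hG1 := gau_Gs_int hκ hO one_pos
  have hI := gau_g2_int hκ h hO
  have hI0 : 0 < ∫ w, Real.exp (-qf D Om w) := integral_exp_pos hI
  have e : ENNReal.ofReal (Kx Om) =
      ENNReal.ofReal (|(D 8).det| * ((∫ w, Real.exp (-qf D Om w)) * Gs κ Om 1)) := by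
    unfold Kx
    rw [ofReal_integral_eq_lintegral_ofReal (gau_Kx_int hO) (Eventually.of_forall fun X => (Real.exp_pos _).le),
      gau_sub D h.inv (fun X => ENNReal.ofReal (Real.exp (-qX Om X)))
        (Real.continuous_exp.comp (gau_qX_cont Om).neg).measurable.ennreal_ofReal,
      ENNReal.ofReal_mul (abs_nonneg _), ENNReal.ofReal_mul hI0.le,
      ofReal_integral_eq_lintegral_ofReal hI (Eventually.of_forall fun X => (Real.exp_pos _).le)]
    congr 1
    rw [← lintegral_mul_const' _ _ ENNReal.ofReal_ne_top]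
    refine lintegral_congr fun w => ?_
    simp only [gau_exp hκ h hO, ENNReal.ofReal_mul (Real.exp_pos _).le]
    rw [lintegral_const_mul' _ _ ENNReal.ofReal_ne_top]
    congr 1
    rw [lintegral_sub_right_eq_self (fun a : EuclideanSpace ℝ (Fin dm) =>
      ENNReal.ofReal (Real.exp (-(1 * (κ ^ 2)⁻¹ * gauQ Om a)))) (gauA D w)]
    exact (ofReal_integral_eq_lintegral_ofReal hG1 (Eventually.of_forall fun X => (Real.exp_pos _).le)).symm
  exact (ENNReal.ofReal_eq_ofReal_iff (gau_Kx_pos hO).le (by positivity)).1 e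

/-- **GL8** exact Gaussian identity -/
theorem gau_stmt : GauStmt := by
  intro dm κ D Om hκ h hO
  have hG1 := gau_Gs_pos hκ hO one_pos
  have hG2 := gau_Gs_pos hκ hO (s := 1 / 2) (by norm_num)
  have hK := gau_Kx_pos hO
  have hI : Integrable fun w => gR D Om 1 w ^ 2 := by
    simp only [gau_g2]
    exact gau_g2_int hκ h hO
  have hI0 : 0 < ∫ w, gR D Om 1 w ^ 2 := by
    have := integral_exp_pos (gau_g2_int hκ h hO)
    simpa only [gau_g2] using this
  refine ⟨hG1, hG2, hK, hI0, hI, fun w => ⟨?_, ?_⟩⟩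
  · simp only [gau_exp2 hκ h hO]
    exact ((gau_Gs_int hκ hO (s := 1 / 2) (by norm_num)).comp_sub_right (gauA D w)).const_mul _
  · have e1 : ∫ a, Real.exp (-(1 / 2) * qX Om (xi D w a)) = gR D Om 1 w * Gs κ Om (1 / 2) := by
      simp only [gau_exp2 hκ h hO]
      rw [integral_const_mul, integral_sub_right_eq_self (fun a : EuclideanSpace ℝ (Fin dm) =>
        Real.exp (-(1 / 2 * (κ ^ 2)⁻¹ * gauQ Om a))) (gauA D w)]
      rfl
    rw [e1]
    have hdet : 0 < |(D 8).det| := abs_pos.2 h.inv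
    have hkey := gau_Kx hκ h hO
    unfold Nf
    set I := ∫ w, gR D Om 1 w ^ 2 with hIdef
    rw [hkey]
    have e2 : Real.sqrt |(D 8).det| * (Real.sqrt (Gs κ Om 1 / (Gs κ Om (1 / 2) ^ 2 * (|(D 8).det| * (I * Gs κ Om 1)))) *
        Gs κ Om (1 / 2)) = (Real.sqrt I)⁻¹ := by
      rw [← Real.sqrt_inv]
      have h3 : Gs κ Om 1 / (Gs κ Om (1 / 2) ^ 2 * (|(D 8).det| * (I * Gs κ Om 1))) =
          (|(D 8).det|)⁻¹ * ((Gs κ Om (1 / 2)) ^ 2)⁻¹ * I⁻¹ := by
        field_simp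
      rw [h3, Real.sqrt_mul (by positivity), Real.sqrt_mul (by positivity), Real.sqrt_inv, Real.sqrt_inv (Gs κ Om (1 / 2) ^ 2),
        Real.sqrt_sq hG2.le]
      have h4 : Real.sqrt |(D 8).det| ≠ 0 := (Real.sqrt_pos.2 hdet).ne'
      field_simp
    calc Real.sqrt |(D 8).det| * (Real.sqrt (Gs κ Om 1 / (Gs κ Om (1 / 2) ^ 2 * (|(D 8).det| * (I * Gs κ Om 1)))) *
        (gR D Om 1 w * Gs κ Om (1 / 2))) = gR D Om 1 w * (Real.sqrt |(D 8).det| *
          (Real.sqrt (Gs κ Om 1 / (Gs κ Om (1 / 2) ^ 2 * (|(D 8).det| * (I * Gs κ Om 1)))) * Gs κ Om (1 / 2))) := by ring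
      _ = gR D Om 1 w / Real.sqrt I := by rw [e2, div_eq_mul_inv]

end GauMain

end Vale.Agent.P353.Z.AN
end

section

/-! # P353, all `N`, block GL5: weighted bound for the orbit average, uniform in the scale -/

open MeasureTheory Filter Topology
open scoped ContDiff ENNReal

namespace Vale.Agent.P353.Z.AN

variable {d dh dm r ds : ℕ} {F : Type*} [NormedAddCommGroup F] [InnerProductSpace ℂ F]

/-! ## coordinates `(z, s, m)` -/

/-- index map of the coordinates `(z, s, m)` -/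
def wgtIdx (φ : Spl dh dm d) (ψ : Spz r ds dh) :
    (Fin 9 × Fin r) ⊕ ((Fin 9 × Fin ds) ⊕ (Fin 9 × Fin dm)) → Fin 9 × Fin d :=
  Sum.elim (fun p => (p.1, φ (Sum.inl (ψ (Sum.inl p.2)))))
    (Sum.elim (fun p => (p.1, φ (Sum.inl (ψ (Sum.inr p.2))))) fun p => (p.1, φ (Sum.inr p.2)))

theorem wgtIdx_bijective (φ : Spl dh dm d) (ψ : Spz r ds dh) : Function.Bijective (wgtIdx φ ψ) := by
  constructor
  · rintro (⟨i, A⟩ | ⟨i, A⟩ | ⟨j, B⟩) (⟨i', A'⟩ | ⟨i', A'⟩ | ⟨j', B'⟩) h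
    all_goals simp only [wgtIdx, Sum.elim_inl, Sum.elim_inr, Prod.mk.injEq,
      EmbeddingLike.apply_eq_iff_eq, Sum.inr.injEq, Sum.inl.injEq, reduceCtorEq,
      and_false] at h
    · rw [h.1, h.2]
    · rw [h.1, h.2]
    · rw [h.1, h.2]
  · rintro ⟨i, A⟩
    obtain ⟨s, rfl⟩ := φ.surjective A
    rcases s with A | B
    · obtain ⟨s, rfl⟩ := ψ.surjective A
      rcases s with a | b
      · exact ⟨Sum.inl (i, a), rfl⟩
      · exact ⟨Sum.inr (Sum.inl (i, b)), rfl⟩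
    · exact ⟨Sum.inr (Sum.inr (i, B)), rfl⟩

/-- the index equivalence -/
noncomputable def wgtEquiv (φ : Spl dh dm d) (ψ : Spz r ds dh) :
    (Fin 9 × Fin r) ⊕ ((Fin 9 × Fin ds) ⊕ (Fin 9 × Fin dm)) ≃ Fin 9 × Fin d :=
  Equiv.ofBijective _ (wgtIdx_bijective φ ψ)

theorem wgt_mp (φ : Spl dh dm d) (ψ : Spz r ds dh) :
    MeasurePreserving (fun x : Cfg d => (hz ψ (zy φ x), (hs ψ (zy φ x), pm φ x))) volume
      (volume.prod (volume.prod volume)) := by
  have m1 := PiLp.volume_preserving_ofLp (Fin 9 × Fin d)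
  have m2 := (volume_measurePreserving_piCongrLeft (fun _ : Fin 9 × Fin d => ℝ)
    (wgtEquiv φ ψ)).symm
  have m3 := volume_measurePreserving_sumPiEquivProdPi
    (fun _ : (Fin 9 × Fin r) ⊕ ((Fin 9 × Fin ds) ⊕ (Fin 9 × Fin dm)) => ℝ)
  have m4 := volume_measurePreserving_sumPiEquivProdPi
    (fun _ : (Fin 9 × Fin ds) ⊕ (Fin 9 × Fin dm) => ℝ)
  have n1 := PiLp.volume_preserving_toLp (Fin 9 × Fin r)
  have n2 := PiLp.volume_preserving_toLp (Fin 9 × Fin ds)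
  have n3 := PiLp.volume_preserving_toLp (Fin 9 × Fin dm)
  have m5 := n1.prod ((n2.prod n3).comp m4)
  exact m5.comp (m3.comp (m2.comp m1))

theorem wgt_map_smul {ι : Type*} [Fintype ι] (c : ℝ) (hc : c ≠ 0) :
    Measure.map (fun x : EuclideanSpace ℝ ι => c • x) volume =
      ENNReal.ofReal |(c ^ Fintype.card ι)⁻¹| • (volume : Measure (EuclideanSpace ℝ ι)) := by
  have h := Measure.map_addHaar_smul (volume : Measure (EuclideanSpace ℝ ι)) hc
  rw [finrank_euclideanSpace] at h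
  exact h

theorem wgt_scale (c₁ c₂ : ℝ) (h1 : c₁ ≠ 0) (h2 : c₂ ≠ 0) (g : Cfg r × Cfg ds × Cfg dm → ℝ≥0∞)
    (hg : Measurable g) :
    ∫⁻ q : Cfg r × Cfg ds × Cfg dm, g (c₁ • q.1, q.2.1, c₂ • q.2.2)
      ∂((volume : Measure (Cfg r)).prod ((volume : Measure (Cfg ds)).prod (volume : Measure (Cfg dm)))) =
    ENNReal.ofReal |(c₁ ^ (9 * r))⁻¹| * ENNReal.ofReal |(c₂ ^ (9 * dm))⁻¹| *
      ∫⁻ q, g q ∂((volume : Measure (Cfg r)).prod ((volume : Measure (Cfg ds)).prod (volume : Measure (Cfg dm)))) := by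
  have e1 := wgt_map_smul (ι := Fin 9 × Fin r) c₁ h1
  have e2 := wgt_map_smul (ι := Fin 9 × Fin dm) c₂ h2
  have k1 : Fintype.card (Fin 9 × Fin r) = 9 * r := by simp
  have k2 : Fintype.card (Fin 9 × Fin dm) = 9 * dm := by simp
  rw [k1] at e1
  rw [k2] at e2
  have mc : ∀ {ι : Type} [Fintype ι] (c : ℝ), Measurable (fun x : EuclideanSpace ℝ ι => c • x) :=
    fun c => (continuous_const_smul c).measurable
  have hm : Measure.map (Prod.map (fun x : Cfg r => c₁ • x) (Prod.map (id : Cfg ds → Cfg ds)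
      (fun x : Cfg dm => c₂ • x)))
      ((volume : Measure (Cfg r)).prod ((volume : Measure (Cfg ds)).prod (volume : Measure (Cfg dm)))) =
      (ENNReal.ofReal |(c₁ ^ (9 * r))⁻¹| * ENNReal.ofReal |(c₂ ^ (9 * dm))⁻¹|) •
      ((volume : Measure (Cfg r)).prod ((volume : Measure (Cfg ds)).prod (volume : Measure (Cfg dm)))) := by
    rw [← Measure.map_prod_map _ _ (mc c₁) (measurable_id.prodMap (mc c₂)),
      ← Measure.map_prod_map _ _ measurable_id (mc c₂), Measure.map_id, e1, e2,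
      Measure.prod_smul_right, Measure.prod_smul_left, Measure.prod_smul_right, smul_smul]
  have h3 := lintegral_map (μ := (volume : Measure (Cfg r)).prod
    ((volume : Measure (Cfg ds)).prod (volume : Measure (Cfg dm)))) hg
    ((mc c₁).prodMap ((measurable_id (α := Cfg ds)).prodMap (mc (ι := Fin 9 × Fin dm) c₂)))
  rw [hm, lintegral_smul_measure, smul_eq_mul] at h3
  exact h3.symm

/-! ## Cauchy–Schwarz and decay -/

theorem wgt_cs {α : Type*} [MeasurableSpace α] (μ : Measure α) (u v : α → ℝ≥0∞) (hu : AEMeasurable u μ)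
    (hv : AEMeasurable v μ) :
    (∫⁻ a, u a * v a ∂μ) ^ 2 ≤ (∫⁻ a, u a ^ 2 ∂μ) * ∫⁻ a, v a ^ 2 ∂μ := by
  have h := ENNReal.lintegral_mul_le_Lp_mul_Lq μ Real.HolderConjugate.two_two hu hv
  simp only [Pi.mul_apply, ENNReal.rpow_two] at h
  have h2 : ∀ x : ℝ≥0∞, (x ^ (1 / 2 : ℝ)) ^ 2 = x := by
    intro x
    rw [← ENNReal.rpow_two, ← ENNReal.rpow_mul]
    norm_num
  calc (∫⁻ a, u a * v a ∂μ) ^ 2
      ≤ ((∫⁻ a, u a ^ 2 ∂μ) ^ (1 / 2 : ℝ) * (∫⁻ a, v a ^ 2 ∂μ) ^ (1 / 2 : ℝ)) ^ 2 := by gcongr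
    _ = _ := by rw [mul_pow, h2, h2]

theorem wgt_csw {α : Type*} [MeasurableSpace α] (μ : Measure α) (j W : α → ℝ) (z : α → ℝ≥0∞)
    (hj : Measurable j) (hW : Measurable W) (hz : Measurable z) (hj0 : ∀ a, 0 ≤ j a) (hW0 : ∀ a, 0 < W a) :
    (∫⁻ a, ENNReal.ofReal (j a) * z a ∂μ) ^ 2 ≤
      (∫⁻ a, ENNReal.ofReal (j a * (W a)⁻¹) ∂μ) * ∫⁻ a, ENNReal.ofReal (W a * j a) * z a ^ 2 ∂μ := by
  have h := wgt_cs μ (fun a => ENNReal.ofReal (Real.sqrt (j a * (W a)⁻¹)))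
    (fun a => ENNReal.ofReal (Real.sqrt (W a * j a)) * z a) (by fun_prop) (by fun_prop)
  have e1 : ∀ a, ENNReal.ofReal (Real.sqrt (j a * (W a)⁻¹)) *
      (ENNReal.ofReal (Real.sqrt (W a * j a)) * z a) = ENNReal.ofReal (j a) * z a := by
    intro a
    rw [← mul_assoc, ← ENNReal.ofReal_mul (Real.sqrt_nonneg _), ← Real.sqrt_mul
      (mul_nonneg (hj0 a) (inv_nonneg.2 (hW0 a).le))]
    have : j a * (W a)⁻¹ * (W a * j a) = j a ^ 2 := by
      have := (hW0 a).ne'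
      field_simp
    rw [this, Real.sqrt_sq (hj0 a)]
  have e2 : ∀ a, ENNReal.ofReal (Real.sqrt (j a * (W a)⁻¹)) ^ 2 = ENNReal.ofReal (j a * (W a)⁻¹) := by
    intro a
    rw [← ENNReal.ofReal_pow (Real.sqrt_nonneg _), Real.sq_sqrt (mul_nonneg (hj0 a) (inv_nonneg.2 (hW0 a).le))]
  have e3 : ∀ a, (ENNReal.ofReal (Real.sqrt (W a * j a)) * z a) ^ 2 = ENNReal.ofReal (W a * j a) * z a ^ 2 := by
    intro a
    rw [mul_pow, ← ENNReal.ofReal_pow (Real.sqrt_nonneg _), Real.sq_sqrt (mul_nonneg (hW0 a).le (hj0 a))]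
  simp only [e1, e2, e3] at h
  exact h

theorem wgt_decay (dm : ℕ) : ∃ K : ℝ, 0 < K ∧ ∀ R : ℝ, 0 < R →
    ∫⁻ a : EuclideanSpace ℝ (Fin dm), ENNReal.ofReal (((1 + R ^ 3 * ‖a‖ ^ 2) ^ (dm + 1))⁻¹) ≤
      ENNReal.ofReal (K * (R ^ (3 / 2 * (dm : ℝ)))⁻¹) := by
  have hint : Integrable (fun a : EuclideanSpace ℝ (Fin dm) => (((1 : ℝ) + ‖a‖ ^ 2) ^ (dm + 1))⁻¹) := by
    have h := integrable_rpow_neg_one_add_norm_sq (E := EuclideanSpace ℝ (Fin dm)) (μ := volume)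
      (r := 2 * ((dm : ℝ) + 1)) (by rw [finrank_euclideanSpace, Fintype.card_fin]; linarith [(Nat.cast_nonneg dm : (0:ℝ) ≤ dm)])
    refine h.congr (ae_of_all _ fun a => ?_)
    have h1 : (0 : ℝ) ≤ 1 + ‖a‖ ^ 2 := by positivity
    have h2 : -(2 * ((dm : ℝ) + 1)) / 2 = -((dm + 1 : ℕ) : ℝ) := by push_cast; ring
    simp only [h2]
    rw [Real.rpow_neg h1, Real.rpow_natCast]
  set K : ℝ := ∫ a : EuclideanSpace ℝ (Fin dm), (((1 : ℝ) + ‖a‖ ^ 2) ^ (dm + 1))⁻¹ with hK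
  have hK0 : 0 ≤ K := integral_nonneg fun a => by positivity
  refine ⟨K + 1, by positivity, fun R hR => ?_⟩
  set c : ℝ := R ^ (3 / 2 : ℝ) with hc
  have hc0 : 0 < c := Real.rpow_pos_of_pos hR _
  have hc2 : c ^ 2 = R ^ 3 := by
    rw [hc, ← Real.rpow_natCast, ← Real.rpow_mul hR.le, ← Real.rpow_natCast]
    norm_num
  have hcd : c ^ dm = R ^ (3 / 2 * (dm : ℝ)) := by
    rw [hc, ← Real.rpow_natCast, ← Real.rpow_mul hR.le]
  have e1 : ∀ a : EuclideanSpace ℝ (Fin dm), ENNReal.ofReal (((1 + R ^ 3 * ‖a‖ ^ 2) ^ (dm + 1))⁻¹) =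
      ENNReal.ofReal (((1 + ‖c • a‖ ^ 2) ^ (dm + 1))⁻¹) := by
    intro a
    rw [norm_smul, mul_pow, Real.norm_of_nonneg hc0.le, hc2]
  simp only [e1]
  have hg : Measurable (fun a : EuclideanSpace ℝ (Fin dm) =>
      ENNReal.ofReal (((1 + ‖a‖ ^ 2) ^ (dm + 1))⁻¹)) := by fun_prop
  have h3 := lintegral_map (μ := (volume : Measure (EuclideanSpace ℝ (Fin dm)))) hg
    (continuous_const_smul c).measurable
  rw [wgt_map_smul c hc0.ne', lintegral_smul_measure, smul_eq_mul] at h3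
  rw [← h3, ← ofReal_integral_eq_lintegral_ofReal hint (ae_of_all _ fun a => by positivity), ← hK,
    ← ENNReal.ofReal_mul (abs_nonneg _), Fintype.card_fin, hcd, abs_of_pos
      (inv_pos.2 (Real.rpow_pos_of_pos hR _)), mul_comm]
  refine ENNReal.ofReal_le_ofReal (mul_le_mul_of_nonneg_right (by linarith) ?_)
  exact (inv_pos.2 (Real.rpow_pos_of_pos hR _)).le

/-! ## continuity of the tube coordinates -/

theorem wgt_exm_cont (φ : Spl dh dm d) : Continuous fun a : EuclideanSpace ℝ (Fin dm) => exm φ a := by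
  refine continuous_pi fun A => ?_
  unfold exm
  rcases φ.symm A with A | B
  · simp only [Sum.elim_inl]
    fun_prop
  · simp only [Sum.elim_inr]
    fun_prop

theorem wgt_tub_cont (S : Setup d F) (φ : Spl dh dm d) :
    Continuous fun q : EuclideanSpace ℝ (Fin dm) × (Cfg dh × Wsp dm) => tub S φ q.1 q.2 := by
  have h := (dexp_stmt S).2.1.continuous
  have h2 : Continuous fun q : EuclideanSpace ℝ (Fin dm) × (Cfg dh × Wsp dm) =>
      (exm φ q.1, emb φ q.2.1 q.2.2) :=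
    ((wgt_exm_cont φ).comp continuous_fst).prodMk ((tbf_continuous_emb φ).comp continuous_snd)
  exact h.comp h2

theorem wgt_tub_meas (S : Setup d F) (φ : Spl dh dm d) (p : Cfg dh × Wsp dm) :
    Measurable fun a : EuclideanSpace ℝ (Fin dm) => tub S φ a p := by
  have h1 : Continuous fun a : EuclideanSpace ℝ (Fin dm) => (a, p) := continuous_id.prodMk continuous_const
  have h2 := Continuous.comp (g := fun q : EuclideanSpace ℝ (Fin dm) × (Cfg dh × Wsp dm) => tub S φ q.1 q.2)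
    (wgt_tub_cont S φ) h1
  exact h2.measurable

/-! ## the weighted norm of the global functional -/

theorem wgt_total (φ : Spl dh dm d) (ψ : Spz r ds dh) (R : ℝ) (hR : 0 < R)
    (b : Cfg r × Cfg ds × Cfg dm → F) (hb : StronglyMeasurable b) :
    ∫⁻ x : Cfg d, ENNReal.ofReal ((1 + ‖Real.sqrt R • pm φ x‖ ^ 2) ^ (dm + 1)) * ‖Zb φ ψ b R x‖ₑ ^ 2 =
      ENNReal.ofReal (R ^ (3 / 2 * (dm : ℝ))) *
        ∫⁻ q, ENNReal.ofReal ((1 + ‖q.2.2‖ ^ 2) ^ (dm + 1)) * ‖b q‖ₑ ^ 2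
          ∂((volume : Measure (Cfg r)).prod ((volume : Measure (Cfg ds)).prod (volume : Measure (Cfg dm)))) := by
  set g : Cfg r × Cfg ds × Cfg dm → ℝ≥0∞ := fun q =>
    ENNReal.ofReal ((1 + ‖q.2.2‖ ^ 2) ^ (dm + 1)) * ‖b q‖ₑ ^ 2 with hg
  have hgm : Measurable g := by
    refine Measurable.mul ?_ (hb.enorm.pow_const 2)
    fun_prop
  have hsq : 0 < Real.sqrt R := Real.sqrt_pos.2 hR
  have hR0 : 0 < R ^ (3 * (dm : ℝ) - 9 * (r : ℝ) / 2) := Real.rpow_pos_of_pos hR _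
  have e1 : ∀ x : Cfg d, ENNReal.ofReal ((1 + ‖Real.sqrt R • pm φ x‖ ^ 2) ^ (dm + 1)) * ‖Zb φ ψ b R x‖ₑ ^ 2 =
      ENNReal.ofReal ((R ^ (3 * (dm : ℝ) - 9 * (r : ℝ) / 2)) ^ 2) *
        g (R⁻¹ • hz ψ (zy φ x), hs ψ (zy φ x), Real.sqrt R • pm φ x) := by
    intro x
    have h1 : ‖Zb φ ψ b R x‖ₑ ^ 2 = ENNReal.ofReal ((R ^ (3 * (dm : ℝ) - 9 * (r : ℝ) / 2)) ^ 2) *
        ‖b (R⁻¹ • hz ψ (zy φ x), hs ψ (zy φ x), Real.sqrt R • pm φ x)‖ₑ ^ 2 := by
      rw [Zb, enorm_smul, mul_pow, ENNReal.ofReal_pow hR0.le, ← ofReal_norm,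
        Complex.norm_real, Real.norm_of_nonneg hR0.le]
    rw [h1, hg]
    ring
  simp only [e1]
  rw [lintegral_const_mul' _ _ ENNReal.ofReal_ne_top]
  have h2 := (wgt_mp φ ψ).lintegral_comp (f := fun q : Cfg r × Cfg ds × Cfg dm =>
    g (R⁻¹ • q.1, q.2.1, Real.sqrt R • q.2.2)) (hgm.comp (by fun_prop))
  simp only at h2
  rw [h2, wgt_scale R⁻¹ (Real.sqrt R) (inv_ne_zero hR.ne') hsq.ne' g hgm, ← mul_assoc, ← mul_assoc,
    ← ENNReal.ofReal_mul (by positivity), ← ENNReal.ofReal_mul (by positivity)]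
  congr 2
  have k1 : |((R⁻¹) ^ (9 * r))⁻¹| = R ^ (9 * (r : ℝ)) := by
    rw [abs_of_pos (by positivity), inv_pow, inv_inv, ← Real.rpow_natCast]
    push_cast
    rfl
  have k2 : |(Real.sqrt R ^ (9 * dm))⁻¹| = R ^ (-(9 * (dm : ℝ) / 2)) := by
    rw [abs_of_pos (by positivity), Real.sqrt_eq_rpow, ← Real.rpow_natCast, ← Real.rpow_mul hR.le,
      ← Real.rpow_neg hR.le]
    push_cast
    congr 1
    ring
  rw [k1, k2, ← Real.rpow_natCast, ← Real.rpow_mul hR.le, ← Real.rpow_add hR, ← Real.rpow_add hR]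
  congr 1
  push_cast
  ring

theorem wgt_nb_open (y₀ : Cfg dh) (dm : ℕ) (R ε : ℝ) : IsOpen (Nb y₀ dm R ε) := by
  have h1 : IsOpen {p : Cfg dh × Wsp dm | ‖p.1 - R • y₀‖ < ε * R} :=
    isOpen_lt ((continuous_fst.sub continuous_const).norm) continuous_const
  have h2 : IsOpen {p : Cfg dh × Wsp dm | ‖p.2‖ < ε * R} :=
    isOpen_lt continuous_snd.norm continuous_const
  exact h1.inter h2

theorem wgt_pm_cont (φ : Spl dh dm d) : Continuous fun x : Cfg d => pm φ x := by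
  unfold pm
  fun_prop

/-- the weighted density -/
noncomputable def wgtG (φ : Spl dh dm d) (R : ℝ) (Z : Cfg d → F) (x : Cfg d) : ℝ≥0∞ :=
  ENNReal.ofReal ((1 + ‖Real.sqrt R • pm φ x‖ ^ 2) ^ (dm + 1)) * ‖Z x‖ₑ ^ 2

omit [InnerProductSpace ℂ F] in
theorem wgtG_meas (φ : Spl dh dm d) (R : ℝ) {Z : Cfg d → F} (hZ : StronglyMeasurable Z) :
    Measurable (wgtG φ R Z) := by
  unfold wgtG
  refine Measurable.mul ?_ (hZ.enorm.pow_const 2)
  have : Measurable fun x : Cfg d => pm φ x := (wgt_pm_cont φ).measurable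
  fun_prop

/-- comparison of the weights -/
theorem wgt_cmp (n : ℕ) (c R t u : ℝ) (hc : 0 < c) (hR : 0 < R) (hu : 0 ≤ u) (h : c * (R * u) ≤ t) :
    (1 + R ^ 3 * u ^ 2) ^ (n + 1) ≤ (1 + (c ^ 2)⁻¹) ^ (n + 1) * (1 + (Real.sqrt R * t) ^ 2) ^ (n + 1) := by
  rw [← mul_pow]
  refine pow_le_pow_left₀ (by positivity) ?_ _
  have h3 : R ^ 3 * u ^ 2 ≤ (c ^ 2)⁻¹ * (Real.sqrt R * t) ^ 2 := by
    rw [mul_pow, Real.sq_sqrt hR.le]
    have h4 := pow_le_pow_left₀ (by positivity) h 2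
    rw [inv_mul_eq_div, le_div_iff₀ (by positivity)]
    nlinarith
  have h6 : 0 ≤ (c ^ 2)⁻¹ := by positivity
  have h7 : 0 ≤ (Real.sqrt R * t) ^ 2 := by positivity
  nlinarith

theorem wgt_mass {j : EuclideanSpace ℝ (Fin dm) → ℝ} {ρ M K R : ℝ} (hM0 : 0 < M) (hR0 : 0 < R)
    (hM : ∀ a ∈ Metric.ball (0 : EuclideanSpace ℝ (Fin dm)) ρ, j a ≤ M)
    (hdec : ∀ R : ℝ, 0 < R →
    ∫⁻ a : EuclideanSpace ℝ (Fin dm), ENNReal.ofReal (((1 + R ^ 3 * ‖a‖ ^ 2) ^ (dm + 1))⁻¹) ≤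
      ENNReal.ofReal (K * (R ^ (3 / 2 * (dm : ℝ)))⁻¹)) :
    ∫⁻ a in Metric.ball (0 : EuclideanSpace ℝ (Fin dm)) ρ,
      ENNReal.ofReal (j a * ((1 + R ^ 3 * ‖a‖ ^ 2) ^ (dm + 1))⁻¹) ≤
      ENNReal.ofReal (M * (K * (R ^ (3 / 2 * (dm : ℝ)))⁻¹)) := by
  calc ∫⁻ a in Metric.ball (0 : EuclideanSpace ℝ (Fin dm)) ρ,
        ENNReal.ofReal (j a * ((1 + R ^ 3 * ‖a‖ ^ 2) ^ (dm + 1))⁻¹)
      ≤ ∫⁻ a in Metric.ball (0 : EuclideanSpace ℝ (Fin dm)) ρ,
        ENNReal.ofReal M * ENNReal.ofReal (((1 + R ^ 3 * ‖a‖ ^ 2) ^ (dm + 1))⁻¹) := by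
        refine setLIntegral_mono' measurableSet_ball fun a ha => ?_
        rw [← ENNReal.ofReal_mul hM0.le]
        exact ENNReal.ofReal_le_ofReal (mul_le_mul_of_nonneg_right (hM a ha) (by positivity))
    _ ≤ ∫⁻ a : EuclideanSpace ℝ (Fin dm),
        ENNReal.ofReal M * ENNReal.ofReal (((1 + R ^ 3 * ‖a‖ ^ 2) ^ (dm + 1))⁻¹) := setLIntegral_le_lintegral _ _
    _ = ENNReal.ofReal M * ∫⁻ a : EuclideanSpace ℝ (Fin dm),
        ENNReal.ofReal (((1 + R ^ 3 * ‖a‖ ^ 2) ^ (dm + 1))⁻¹) :=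
        lintegral_const_mul' _ _ ENNReal.ofReal_ne_top
    _ ≤ ENNReal.ofReal M * ENNReal.ofReal (K * (R ^ (3 / 2 * (dm : ℝ)))⁻¹) := by
        gcongr
        exact hdec R hR0
    _ = _ := by rw [← ENNReal.ofReal_mul hM0.le]

theorem wgt_h1 (S : Setup d F) (φ : Spl dh dm d) (hiso : ∀ a v, ‖spn S a v‖ = ‖v‖)
    {j : EuclideanSpace ℝ (Fin dm) → ℝ} (ρ : ℝ) (hj0 : ∀ a, 0 ≤ j a) (Z : Cfg d → F) (p : Cfg dh × Wsp dm) :
    ‖Zt S φ j ρ Z p‖ₑ ^ 2 ≤ ENNReal.ofReal (S.Jd φ p.1) *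
      (∫⁻ a in Metric.ball (0 : EuclideanSpace ℝ (Fin dm)) ρ,
        ENNReal.ofReal (j a) * ‖Z (tub S φ a p)‖ₑ) ^ 2 := by
  have hJ : 0 ≤ S.Jd φ p.1 := abs_nonneg _
  have h2 : ‖((Real.sqrt (S.Jd φ p.1) : ℝ) : ℂ)‖ₑ = ENNReal.ofReal (Real.sqrt (S.Jd φ p.1)) := by
    rw [← ofReal_norm, Complex.norm_real, Real.norm_of_nonneg (Real.sqrt_nonneg _)]
  have h3 : ∀ a : EuclideanSpace ℝ (Fin dm),
      ‖((j a : ℝ) : ℂ) • spn S (-(exm φ a)) (Z (tub S φ a p))‖ₑ = ENNReal.ofReal (j a) * ‖Z (tub S φ a p)‖ₑ := by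
    intro a
    rw [enorm_smul, ← ofReal_norm, ← ofReal_norm, ← ofReal_norm, hiso,
      Complex.norm_real, Real.norm_of_nonneg (hj0 a)]
  have h4 := enorm_integral_le_lintegral_enorm (μ := volume.restrict (Metric.ball (0 : EuclideanSpace ℝ (Fin dm)) ρ))
    (fun a => ((j a : ℝ) : ℂ) • spn S (-(exm φ a)) (Z (tub S φ a p)))
  simp only [h3] at h4
  have h6 : ENNReal.ofReal (Real.sqrt (S.Jd φ p.1)) ^ 2 = ENNReal.ofReal (S.Jd φ p.1) := by
    rw [← ENNReal.ofReal_pow (Real.sqrt_nonneg _), Real.sq_sqrt hJ]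
  rw [Zt, enorm_smul, mul_pow, h2, h6]
  exact mul_le_mul' le_rfl (pow_le_pow_left' h4 2)

theorem wgt_h4 (S : Setup d F) (φ : Spl dh dm d) {j : EuclideanSpace ℝ (Fin dm) → ℝ} {ρ c R : ℝ}
    (hj0 : ∀ a, 0 ≤ j a) (hc : 0 < c) (hR0 : 0 < R) (Z : Cfg d → F) (p : Cfg dh × Wsp dm)
    (hTay : ∀ a ∈ Metric.ball (0 : EuclideanSpace ℝ (Fin dm)) ρ, c * (R * ‖a‖) ≤ ‖pm φ (tub S φ a p)‖) :
    ∫⁻ a in Metric.ball (0 : EuclideanSpace ℝ (Fin dm)) ρ,
      ENNReal.ofReal ((1 + R ^ 3 * ‖a‖ ^ 2) ^ (dm + 1) * j a) * ‖Z (tub S φ a p)‖ₑ ^ 2 ≤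
      ENNReal.ofReal ((1 + (c ^ 2)⁻¹) ^ (dm + 1)) *
        ∫⁻ a in Metric.ball (0 : EuclideanSpace ℝ (Fin dm)) ρ,
          ENNReal.ofReal (j a) * wgtG φ R Z (tub S φ a p) := by
  rw [← lintegral_const_mul' _ _ ENNReal.ofReal_ne_top]
  refine setLIntegral_mono' measurableSet_ball fun a ha => ?_
  have h5 := wgt_cmp dm c R _ ‖a‖ hc hR0 (norm_nonneg a) (hTay a ha)
  generalize hx : tub S φ a p = x at h5 ⊢
  have h7 : (Real.sqrt R * ‖pm φ x‖) ^ 2 = ‖Real.sqrt R • pm φ x‖ ^ 2 := by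
    rw [norm_smul, Real.norm_of_nonneg (Real.sqrt_nonneg _)]
  rw [h7] at h5
  rw [wgtG]
  generalize hA : (1 + R ^ 3 * ‖a‖ ^ 2) ^ (dm + 1) = A at h5 ⊢
  generalize hB : (1 + ‖Real.sqrt R • pm φ x‖ ^ 2) ^ (dm + 1) = B at h5 ⊢
  have hC0 : 0 ≤ (1 + (c ^ 2)⁻¹) ^ (dm + 1) := by positivity
  generalize hC : (1 + (c ^ 2)⁻¹) ^ (dm + 1) = C at h5 hC0 ⊢
  have h8 : ENNReal.ofReal (A * j a) ≤ ENNReal.ofReal C * (ENNReal.ofReal (j a) * ENNReal.ofReal B) := by
    rw [← ENNReal.ofReal_mul (hj0 a), ← ENNReal.ofReal_mul hC0]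
    refine ENNReal.ofReal_le_ofReal ((mul_le_mul_of_nonneg_right h5 (hj0 a)).trans (le_of_eq ?_))
    ring
  calc _ ≤ ENNReal.ofReal C * (ENNReal.ofReal (j a) * ENNReal.ofReal B) * ‖Z x‖ₑ ^ 2 :=
        mul_le_mul' h8 le_rfl
    _ = _ := by ring

theorem wgt_h3 (S : Setup d F) (φ : Spl dh dm d)
    {j : EuclideanSpace ℝ (Fin dm) → ℝ} {ρ R : ℝ} (hj : Continuous j) (hj0 : ∀ a, 0 ≤ j a)
    (hR0 : 0 < R) {Z : Cfg d → F} (hZ : StronglyMeasurable Z) (p : Cfg dh × Wsp dm) :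
    (∫⁻ a in Metric.ball (0 : EuclideanSpace ℝ (Fin dm)) ρ,
      ENNReal.ofReal (j a) * ‖Z (tub S φ a p)‖ₑ) ^ 2 ≤
      (∫⁻ a in Metric.ball (0 : EuclideanSpace ℝ (Fin dm)) ρ,
        ENNReal.ofReal (j a * ((1 + R ^ 3 * ‖a‖ ^ 2) ^ (dm + 1))⁻¹)) *
        ∫⁻ a in Metric.ball (0 : EuclideanSpace ℝ (Fin dm)) ρ,
          ENNReal.ofReal ((1 + R ^ 3 * ‖a‖ ^ 2) ^ (dm + 1) * j a) * ‖Z (tub S φ a p)‖ₑ ^ 2 := by
  have htp : Measurable fun a : EuclideanSpace ℝ (Fin dm) => tub S φ a p := wgt_tub_meas S φ p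
  have hz : Measurable fun a : EuclideanSpace ℝ (Fin dm) => ‖Z (tub S φ a p)‖ₑ := hZ.enorm.comp htp
  have hW : Measurable fun a : EuclideanSpace ℝ (Fin dm) => (1 + R ^ 3 * ‖a‖ ^ 2) ^ (dm + 1) := by
    fun_prop
  have hW0 : ∀ a : EuclideanSpace ℝ (Fin dm), 0 < (1 + R ^ 3 * ‖a‖ ^ 2) ^ (dm + 1) := fun a => by
    positivity
  have h := wgt_csw (volume.restrict (Metric.ball (0 : EuclideanSpace ℝ (Fin dm)) ρ)) j
    (fun a => (1 + R ^ 3 * ‖a‖ ^ 2) ^ (dm + 1)) (fun a => ‖Z (tub S φ a p)‖ₑ) hj.measurable hW hz hj0 hW0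
  exact h

/-- pointwise bound of the orbit average -/
theorem wgt_point (S : Setup d F) (φ : Spl dh dm d) (hiso : ∀ a v, ‖spn S a v‖ = ‖v‖)
    {j : EuclideanSpace ℝ (Fin dm) → ℝ} {ρ c R m : ℝ} (hj : Continuous j) (hj0 : ∀ a, 0 ≤ j a) (hc : 0 < c)
    (hR0 : 0 < R) {Z : Cfg d → F} (hZ : StronglyMeasurable Z) (p : Cfg dh × Wsp dm)
    (hmass : ∫⁻ a in Metric.ball (0 : EuclideanSpace ℝ (Fin dm)) ρ,
      ENNReal.ofReal (j a * ((1 + R ^ 3 * ‖a‖ ^ 2) ^ (dm + 1))⁻¹) ≤ ENNReal.ofReal m)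
    (hTay : ∀ a ∈ Metric.ball (0 : EuclideanSpace ℝ (Fin dm)) ρ, c * (R * ‖a‖) ≤ ‖pm φ (tub S φ a p)‖) :
    ‖Zt S φ j ρ Z p‖ₑ ^ 2 ≤ ENNReal.ofReal m * ENNReal.ofReal ((1 + (c ^ 2)⁻¹) ^ (dm + 1)) *
        ∫⁻ a in Metric.ball (0 : EuclideanSpace ℝ (Fin dm)) ρ,
          wgtG φ R Z (tub S φ a p) * ENNReal.ofReal (S.Jd φ p.1 * j a) := by
  have hJ : 0 ≤ S.Jd φ p.1 := abs_nonneg _
  have h3 : (∫⁻ a in Metric.ball (0 : EuclideanSpace ℝ (Fin dm)) ρ,
      ENNReal.ofReal (j a) * ‖Z (tub S φ a p)‖ₑ) ^ 2 ≤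
      (∫⁻ a in Metric.ball (0 : EuclideanSpace ℝ (Fin dm)) ρ,
        ENNReal.ofReal (j a * ((1 + R ^ 3 * ‖a‖ ^ 2) ^ (dm + 1))⁻¹)) *
        ∫⁻ a in Metric.ball (0 : EuclideanSpace ℝ (Fin dm)) ρ,
          ENNReal.ofReal ((1 + R ^ 3 * ‖a‖ ^ 2) ^ (dm + 1) * j a) * ‖Z (tub S φ a p)‖ₑ ^ 2 :=
    wgt_h3 S φ hj hj0 hR0 hZ p
  have h5 : ∫⁻ a in Metric.ball (0 : EuclideanSpace ℝ (Fin dm)) ρ,
      wgtG φ R Z (tub S φ a p) * ENNReal.ofReal (S.Jd φ p.1 * j a) =
      ENNReal.ofReal (S.Jd φ p.1) * ∫⁻ a in Metric.ball (0 : EuclideanSpace ℝ (Fin dm)) ρ,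
        ENNReal.ofReal (j a) * wgtG φ R Z (tub S φ a p) := by
    rw [← lintegral_const_mul' _ _ ENNReal.ofReal_ne_top]
    refine lintegral_congr fun a => ?_
    rw [ENNReal.ofReal_mul hJ, mul_comm, mul_assoc]
  rw [h5]
  refine ((wgt_h1 S φ hiso ρ hj0 Z p).trans (mul_le_mul' le_rfl (h3.trans (mul_le_mul' hmass
    (wgt_h4 S φ hj0 hc hR0 Z p hTay))))).trans (le_of_eq ?_)
  generalize ENNReal.ofReal m = x1
  generalize ENNReal.ofReal (S.Jd φ p.1) = x2
  generalize ENNReal.ofReal ((1 + (c ^ 2)⁻¹) ^ (dm + 1)) = x3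
  generalize ∫⁻ a in Metric.ball (0 : EuclideanSpace ℝ (Fin dm)) ρ,
        ENNReal.ofReal (j a) * wgtG φ R Z (tub S φ a p) = x4
  ring

/-- Tonelli on the tube -/
theorem wgt_fub (S : Setup d F) (φ : Spl dh dm d) {j : EuclideanSpace ℝ (Fin dm) → ℝ} (hj : Continuous j)
    (y₀ : Cfg dh) (R ε ρ : ℝ) {G : Cfg d → ℝ≥0∞} (hG : Measurable G) :
    ∫⁻ p in Nb y₀ dm R ε, (∫⁻ a in Metric.ball (0 : EuclideanSpace ℝ (Fin dm)) ρ,
      G (tub S φ a p) * ENNReal.ofReal (S.Jd φ p.1 * j a)) ∂(volume.prod volume) =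
    ∫⁻ q in (Metric.ball (0 : EuclideanSpace ℝ (Fin dm)) ρ) ×ˢ (Nb y₀ dm R ε),
          G (tub S φ q.1 q.2) * ENNReal.ofReal (S.Jd φ q.2.1 * j q.1) ∂(volume.prod (volume.prod volume)) := by
  have hJm : Measurable fun q : EuclideanSpace ℝ (Fin dm) × (Cfg dh × Wsp dm) => S.Jd φ q.2.1 * j q.1 :=
    (((tbf_continuous_Jd S φ).comp (continuous_fst.comp continuous_snd)).mul
      (hj.comp continuous_fst)).measurable
  have hm : Measurable fun q : EuclideanSpace ℝ (Fin dm) × (Cfg dh × Wsp dm) =>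
      G (tub S φ q.1 q.2) * ENNReal.ofReal (S.Jd φ q.2.1 * j q.1) :=
    (hG.comp (wgt_tub_cont S φ).measurable).mul hJm.ennreal_ofReal
  rw [← Measure.prod_restrict, lintegral_prod_symm _ hm.aemeasurable]

/-- **GL5** -/
theorem wgt_stmt (S : Setup d F) : TayTStmt S → EqvStmt S → MeaStmt S → WgtStmt S := by
  intro hT hE hMea hfin dh dm r ds φ ψ y₀ hS
  obtain ⟨ε₀, ρ₀, c, C', hε₀, hρ₀, hc, hC', hTay⟩ := hT dh dm φ y₀ hS
  obtain ⟨hiso, -⟩ := hE hfin
  refine ⟨ε₀, ρ₀, hε₀, hρ₀, fun ε ρ hε hεε hρ hρρ j hj hj0 _ htube => ?_⟩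
  obtain ⟨K, hK, hdec⟩ := wgt_decay dm
  obtain ⟨M, hM0, hM⟩ : ∃ M : ℝ, 0 < M ∧ ∀ a ∈ Metric.ball (0 : EuclideanSpace ℝ (Fin dm)) ρ, j a ≤ M := by
    obtain ⟨M, hM⟩ := (isCompact_closedBall (0 : EuclideanSpace ℝ (Fin dm)) ρ).exists_bound_of_continuousOn
      hj.continuousOn
    refine ⟨|M| + 1, by positivity, fun a ha => ?_⟩
    have h1 := hM a (Metric.ball_subset_closedBall ha)
    have h2 := le_abs_self M
    have h3 := le_abs_self (j a)
    rw [Real.norm_eq_abs] at h1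
    linarith
  refine ⟨M * K * (1 + (c ^ 2)⁻¹) ^ (dm + 1), by positivity, fun R hR b hb => ?_⟩
  have hR0 : 0 < R := by linarith
  have hZ : StronglyMeasurable (Zb φ ψ b R) := ((hMea hfin dh dm r ds φ ψ hS.sub).2.1 R b hb).1
  have hmass := wgt_mass (dm := dm) hM0 hR0 hM hdec
  have hbd : ∀ p ∈ Nb y₀ dm R ε, ‖Zt S φ j ρ (Zb φ ψ b R) p‖ₑ ^ 2 ≤
      ENNReal.ofReal (M * (K * (R ^ (3 / 2 * (dm : ℝ)))⁻¹)) * ENNReal.ofReal ((1 + (c ^ 2)⁻¹) ^ (dm + 1)) *
        ∫⁻ a in Metric.ball (0 : EuclideanSpace ℝ (Fin dm)) ρ,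
          wgtG φ R (Zb φ ψ b R) (tub S φ a p) * ENNReal.ofReal (S.Jd φ p.1 * j a) := by
    intro p hp
    refine wgt_point S φ hiso hj hj0 hc hR0 hZ p hmass fun a ha => ?_
    have hp' : p ∈ Nb y₀ dm R ε₀ := by
      refine ⟨hp.1.trans_le ?_, hp.2.trans_le ?_⟩ <;> exact mul_le_mul_of_nonneg_right hεε hR0.le
    have ha' : ‖a‖ < ρ₀ := (mem_ball_zero_iff.1 ha).trans_le hρρ
    refine le_trans ?_ (hTay R hR0 a p ha' hp').1
    have := norm_nonneg p.2
    nlinarith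
  have hfub := wgt_fub S φ hj y₀ R ε ρ (wgtG_meas φ R hZ)
  rw [← htube R hR0 _ (wgtG_meas φ R hZ)] at hfub
  have htot := wgt_total φ ψ R hR0 b hb
  calc ∫⁻ p in Nb y₀ dm R ε, ‖Zt S φ j ρ (Zb φ ψ b R) p‖ₑ ^ 2 ∂(volume.prod volume)
      ≤ ∫⁻ p in Nb y₀ dm R ε, ENNReal.ofReal (M * (K * (R ^ (3 / 2 * (dm : ℝ)))⁻¹)) *
        ENNReal.ofReal ((1 + (c ^ 2)⁻¹) ^ (dm + 1)) *
        (∫⁻ a in Metric.ball (0 : EuclideanSpace ℝ (Fin dm)) ρ,
          wgtG φ R (Zb φ ψ b R) (tub S φ a p) * ENNReal.ofReal (S.Jd φ p.1 * j a)) ∂(volume.prod volume) :=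
        setLIntegral_mono' (wgt_nb_open y₀ dm R ε).measurableSet hbd
    _ = ENNReal.ofReal (M * (K * (R ^ (3 / 2 * (dm : ℝ)))⁻¹)) * ENNReal.ofReal ((1 + (c ^ 2)⁻¹) ^ (dm + 1)) *
        ∫⁻ x in Tube S φ y₀ R ε ρ, wgtG φ R (Zb φ ψ b R) x := by
        rw [lintegral_const_mul' _ _ (ENNReal.mul_ne_top ENNReal.ofReal_ne_top ENNReal.ofReal_ne_top), hfub]
    _ ≤ ENNReal.ofReal (M * (K * (R ^ (3 / 2 * (dm : ℝ)))⁻¹)) * ENNReal.ofReal ((1 + (c ^ 2)⁻¹) ^ (dm + 1)) *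
        ∫⁻ x, wgtG φ R (Zb φ ψ b R) x := mul_le_mul' le_rfl (setLIntegral_le_lintegral _ _)
    _ = _ := by
        simp only [wgtG]
        rw [htot, ← mul_assoc, ← ENNReal.ofReal_mul (by positivity),
          ← ENNReal.ofReal_mul (by positivity)]
        congr 2
        have h9 : R ^ (3 / 2 * (dm : ℝ)) ≠ 0 := (Real.rpow_pos_of_pos hR0 _).ne'
        field_simp

end Vale.Agent.P353.Z.AN
end

section

/-! # P353, all `N`, block L: `LinStmt` (prover helper182) -/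

open MeasureTheory Filter Topology Matrix
open scoped ContDiff ENNReal

namespace Vale.Agent.P353.Z.AL

section LinGen

variable {X E : Type*} [TopologicalSpace X] [NormedAddCommGroup E] [InnerProductSpace ℝ E] [FiniteDimensional ℝ E]

/-- uniform lower bound of a continuous family of positive definite forms -/
theorem lin_ulow {A : Set X} (hA : IsCompact A) (Q : X → E → ℝ)
    (hc : ContinuousOn (fun p : X × E => Q p.1 p.2) (A ×ˢ Set.univ))
    (hh : ∀ x (t : ℝ) v, Q x (t • v) = t ^ 2 * Q x v) (hp : ∀ x ∈ A, ∀ v, v ≠ 0 → 0 < Q x v) :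
    ∃ c : ℝ, 0 < c ∧ ∀ x ∈ A, ∀ v, c * ‖v‖ ^ 2 ≤ Q x v := by
  have h0 : ∀ x, Q x 0 = 0 := by
    intro x
    have := hh x 0 0
    rwa [smul_zero, zero_pow two_ne_zero, zero_mul] at this
  rcases A.eq_empty_or_nonempty with rfl | hne
  · exact ⟨1, one_pos, fun x hx => absurd hx (Set.notMem_empty x)⟩
  rcases subsingleton_or_nontrivial E with hs | hs
  · refine ⟨1, one_pos, fun x _ v => ?_⟩
    rw [Subsingleton.elim v 0, h0]
    simp
  · obtain ⟨p0, hp0, hmin⟩ := (hA.prod (isCompact_sphere (0 : E) 1)).exists_isMinOn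
      (hne.prod (NormedSpace.sphere_nonempty.2 zero_le_one)) (f := fun p : X × E => Q p.1 p.2)
      (hc.mono (Set.prod_mono le_rfl (Set.subset_univ _)))
    have hx0' : p0.2 ≠ 0 := by
      intro h
      have := hp0.2
      rw [h] at this
      simp at this
    refine ⟨Q p0.1 p0.2, hp p0.1 hp0.1 p0.2 hx0', fun x hx v => ?_⟩
    by_cases hv : v = 0
    · rw [hv, h0]
      simp
    have hn : 0 < ‖v‖ := norm_pos_iff.2 hv
    have h1 := hmin (show (x, ‖v‖⁻¹ • v) ∈ A ×ˢ Metric.sphere (0 : E) 1 from ⟨hx, by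
      rw [mem_sphere_zero_iff_norm, norm_smul, norm_inv, norm_norm, inv_mul_cancel₀ hn.ne']⟩)
    simp only [Set.mem_ofPred_eq, hh] at h1
    calc Q p0.1 p0.2 * ‖v‖ ^ 2 ≤ ‖v‖⁻¹ ^ 2 * Q x v * ‖v‖ ^ 2 := mul_le_mul_of_nonneg_right h1 (by positivity)
      _ = Q x v := by field_simp

variable [MeasurableSpace E] [BorelSpace E] [FirstCountableTopology X]

/-- Gaussian integrals depend continuously on the form -/
theorem lin_gcont {A : Set X} (hA : IsCompact A) (Q : X → E → ℝ)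
    (hc : ContinuousOn (fun p : X × E => Q p.1 p.2) (A ×ˢ Set.univ))
    (hh : ∀ x (t : ℝ) v, Q x (t • v) = t ^ 2 * Q x v) (hp : ∀ x ∈ A, ∀ v, v ≠ 0 → 0 < Q x v) {s : ℝ} (hs : 0 < s) :
    ContinuousOn (fun x => ∫ v : E, Real.exp (-(s * Q x v))) A ∧
      ∀ x ∈ A, 0 < ∫ v : E, Real.exp (-(s * Q x v)) := by
  have hcv : ∀ x ∈ A, Continuous (Q x) := by
    intro x hx
    have h1 : Continuous fun v : E => (x, v) := by fun_prop
    have h2 := hc.comp_continuous h1 fun v => ⟨hx, Set.mem_univ v⟩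
    exact h2
  obtain ⟨c, hc0, hcl⟩ := lin_ulow hA Q hc hh hp
  refine ⟨continuousOn_of_dominated (bound := fun v => Real.exp (-(s * c * ‖v‖ ^ 2))) ?_ ?_ ?_ ?_, fun x hx => ?_⟩
  · intro x hx
    exact (Real.continuous_exp.comp (continuous_const.mul (hcv x hx)).neg).aestronglyMeasurable
  · intro x hx
    refine Eventually.of_forall fun v => ?_
    rw [Real.norm_eq_abs, abs_of_pos (Real.exp_pos _), Real.exp_le_exp, neg_le_neg_iff, mul_assoc]
    exact mul_le_mul_of_nonneg_left (hcl x hx v) hs.le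
  · exact AN.gau_int_sq (mul_pos hs hc0)
  · refine Eventually.of_forall fun v => ?_
    have h1 : ContinuousOn (fun x : X => Q x v) A :=
      hc.comp (f := fun x : X => (x, v)) (by fun_prop) fun x hx => ⟨hx, Set.mem_univ v⟩
    exact Real.continuous_exp.comp_continuousOn (continuousOn_const.mul h1).neg
  · exact AN.gau_pos (Q x) (hcv x hx) (hh x) (hp x hx) hs

end LinGen

section LinNf

variable {r dm : ℕ} {κ : ℝ} {A : Set (Cfg r)} {Om : Cfg r → Matrix (Fin dm) (Fin dm) ℝ}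
  {D : Cfg r → Fin 9 → Matrix (Fin dm) (Fin dm) ℝ}

theorem lin_qX_cont (hO : ∀ B C, ContinuousOn (fun η => Om η B C) A) :
    ContinuousOn (fun p : Cfg r × Cfg dm => AN.qX (Om p.1) p.2) (A ×ˢ Set.univ) := by
  have h : ∀ B C, ContinuousOn (fun p : Cfg r × Cfg dm => Om p.1 B C) (A ×ˢ Set.univ) := fun B C =>
    (hO B C).comp (f := fun p : Cfg r × Cfg dm => p.1) continuous_fst.continuousOn fun p hp => hp.1
  unfold AN.qX
  refine continuousOn_finsetSum _ fun i _ => continuousOn_finsetSum _ fun B _ => continuousOn_finsetSum _ fun C _ => ?_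
  have h1 : Continuous fun p : Cfg r × Cfg dm => p.2 (i, B) := by fun_prop
  have h2 : Continuous fun p : Cfg r × Cfg dm => p.2 (i, C) := by fun_prop
  exact (h1.continuousOn.mul (h B C)).mul h2.continuousOn

theorem lin_Q_cont (hO : ∀ B C, ContinuousOn (fun η => Om η B C) A) :
    ContinuousOn (fun p : Cfg r × EuclideanSpace ℝ (Fin dm) => AN.gauQ (Om p.1) p.2) (A ×ˢ Set.univ) := by
  have h : ∀ B C, ContinuousOn (fun p : Cfg r × EuclideanSpace ℝ (Fin dm) => Om p.1 B C) (A ×ˢ Set.univ) := fun B C =>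
    (hO B C).comp (f := fun p : Cfg r × EuclideanSpace ℝ (Fin dm) => p.1) continuous_fst.continuousOn fun p hp => hp.1
  unfold AN.gauQ
  refine continuousOn_finsetSum _ fun B _ => continuousOn_finsetSum _ fun C _ => ?_
  have h1 : Continuous fun p : Cfg r × EuclideanSpace ℝ (Fin dm) => p.2 B := by fun_prop
  have h2 : Continuous fun p : Cfg r × EuclideanSpace ℝ (Fin dm) => p.2 C := by fun_prop
  refine (h1.continuousOn.mul ?_).mul h2.continuousOn
  simp only [Matrix.mul_apply]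
  refine continuousOn_finsetSum _ fun k _ => ContinuousOn.mul (continuousOn_finsetSum _ fun l _ => ?_) (h k C)
  exact (h B l).mul (h l k)

theorem lin_Nf_cont (hκ : 0 < κ) (hA : IsCompact A) (hO : ∀ B C, ContinuousOn (fun η => Om η B C) A)
    (hI : ∀ η ∈ A, IsOm κ (D η) (Om η)) : ContinuousOn (fun η => AN.Nf κ (Om η)) A := by
  have hG : ∀ s : ℝ, 0 < s → ContinuousOn (fun η => AN.Gs κ (Om η) s) A ∧ ∀ η ∈ A, 0 < AN.Gs κ (Om η) s := by
    intro s hs
    exact lin_gcont hA (fun η v => AN.gauQ (Om η) v) (lin_Q_cont hO) (fun η => AN.gauQ_smul (Om η))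
      (fun η hη => AN.gauQ_pos (hI η hη)) (s := s * (κ ^ 2)⁻¹) (by positivity)
  have hK : ContinuousOn (fun η => AN.Kx (Om η)) A ∧ ∀ η ∈ A, 0 < AN.Kx (Om η) := by
    have := lin_gcont hA (fun η v => AN.qX (Om η) v) (lin_qX_cont hO) (fun η => AN.gau_qX_smul (Om η))
      (fun η hη => AN.gau_qX_pos (hI η hη)) one_pos
    simp only [one_mul] at this
    exact this
  unfold AN.Nf
  refine Real.continuous_sqrt.comp_continuousOn ?_
  refine (hG 1 one_pos).1.div (((hG (1 / 2) (by norm_num)).1.pow 2).mul hK.1) fun η hη => ?_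
  have h1 := (hG (1 / 2) (by norm_num)).2 η hη
  have h2 := hK.2 η hη
  positivity

end LinNf

section LinMap

variable {d dh dm r ds : ℕ} {F : Type*} [NormedAddCommGroup F] [InnerProductSpace ℂ F]

/-- the change of variables `(η, s, X)` -/
noncomputable def linT (φ : Spl dh dm d) (ψ : Spl r ds dh) (R : ℝ) (x : Cfg d) : Cfg r × Cfg ds × Cfg dm :=
  (R⁻¹ • AN.hz ψ (AN.zy φ x), AN.hs ψ (AN.zy φ x), Real.sqrt R • AN.pm φ x)

theorem linT_meas (φ : Spl dh dm d) (ψ : Spl r ds dh) (R : ℝ) : Measurable (linT φ ψ R) := by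
  have h1 := (AN.wgt_mp φ ψ).measurable
  have h2 : Measurable fun q : Cfg r × Cfg ds × Cfg dm => ((R⁻¹ • q.1, q.2.1, Real.sqrt R • q.2.2) : Cfg r × Cfg ds × Cfg dm) := by
    fun_prop
  exact h2.comp h1

theorem linT_map (φ : Spl dh dm d) (ψ : Spl r ds dh) {R : ℝ} (hR : 0 < R) :
    ∃ c : ℝ≥0∞, c ≠ ⊤ ∧ Measure.map (linT φ ψ R) volume =
      c • ((volume : Measure (Cfg r)).prod ((volume : Measure (Cfg ds)).prod (volume : Measure (Cfg dm)))) := by
  have e1 := AN.wgt_map_smul (ι := Fin 9 × Fin r) R⁻¹ (inv_ne_zero hR.ne')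
  have e2 := AN.wgt_map_smul (ι := Fin 9 × Fin dm) (Real.sqrt R) (Real.sqrt_pos.2 hR).ne'
  have mc : ∀ {ι : Type} [Fintype ι] (c : ℝ), Measurable (fun x : EuclideanSpace ℝ ι => c • x) :=
    fun c => (continuous_const_smul c).measurable
  set k1 : ℝ≥0∞ := ENNReal.ofReal |(R⁻¹ ^ Fintype.card (Fin 9 × Fin r))⁻¹| with hk1
  set k2 : ℝ≥0∞ := ENNReal.ofReal |(Real.sqrt R ^ Fintype.card (Fin 9 × Fin dm))⁻¹| with hk2
  refine ⟨k1 * k2, ENNReal.mul_ne_top ENNReal.ofReal_ne_top ENNReal.ofReal_ne_top, ?_⟩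
  have hk2' : k2 ≠ ⊤ := ENNReal.ofReal_ne_top
  have hm : Measure.map (Prod.map (fun x : Cfg r => R⁻¹ • x) (Prod.map (id : Cfg ds → Cfg ds)
      (fun x : Cfg dm => Real.sqrt R • x)))
      ((volume : Measure (Cfg r)).prod ((volume : Measure (Cfg ds)).prod (volume : Measure (Cfg dm)))) =
      (k1 * k2) •
      ((volume : Measure (Cfg r)).prod ((volume : Measure (Cfg ds)).prod (volume : Measure (Cfg dm)))) := by
    rw [← Measure.map_prod_map _ _ (mc R⁻¹) (measurable_id.prodMap (mc (Real.sqrt R))),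
      ← Measure.map_prod_map _ _ measurable_id (mc (Real.sqrt R)), Measure.map_id, e1, e2,
      Measure.prod_smul_right, Measure.prod_smul_left, Measure.prod_smul_right, smul_smul]
  have h3 : linT φ ψ R = (Prod.map (fun x : Cfg r => R⁻¹ • x) (Prod.map (id : Cfg ds → Cfg ds)
      (fun x : Cfg dm => Real.sqrt R • x))) ∘ (fun x : Cfg d => (AN.hz ψ (AN.zy φ x), (AN.hs ψ (AN.zy φ x), AN.pm φ x))) := rfl
  rw [h3, ← Measure.map_map ((mc R⁻¹).prodMap ((measurable_id (α := Cfg ds)).prodMap (mc (Real.sqrt R))))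
    (AN.wgt_mp φ ψ).measurable, (AN.wgt_mp φ ψ).map_eq, hm]

omit [InnerProductSpace ℂ F] in
theorem lin_memT (φ : Spl dh dm d) (ψ : Spl r ds dh) {R : ℝ} (hR : 0 < R) {g : Cfg r × Cfg ds × Cfg dm → F}
    (hg : MemLp g 2 ((volume : Measure (Cfg r)).prod ((volume : Measure (Cfg ds)).prod (volume : Measure (Cfg dm))))) :
    MemLp (fun x => g (linT φ ψ R x)) 2 (volume : Measure (Cfg d)) := by
  obtain ⟨c, hc, hmap⟩ := linT_map φ ψ hR
  have h1 : MemLp g 2 (Measure.map (linT φ ψ R) volume) := by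
    rw [hmap]
    exact hg.smul_measure hc
  exact h1.comp_of_map (linT_meas φ ψ R).aemeasurable

omit [InnerProductSpace ℂ F] in
/-- the product of a section and the indicator of a ball is in `L²` -/
theorem lin_mem0 {a : Cfg r → Cfg ds → F} (ha : MemLp (fun q : Cfg r × Cfg ds => a q.1 q.2) 2 (volume.prod volume)) (R : ℝ) :
    MemLp (fun q : Cfg r × Cfg ds × Cfg dm => a q.1 q.2.1) 2
      ((volume : Measure (Cfg r)).prod ((volume : Measure (Cfg ds)).prod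
        ((volume : Measure (Cfg dm)).restrict (Metric.closedBall 0 R)))) := by
  have hfin : IsFiniteMeasure ((volume : Measure (Cfg dm)).restrict (Metric.closedBall 0 R)) :=
    ⟨by rw [Measure.restrict_apply_univ]; exact (isCompact_closedBall (0 : Cfg dm) R).measure_lt_top⟩
  have h1 := ha.comp_fst ((volume : Measure (Cfg dm)).restrict (Metric.closedBall 0 R))
  have h2 : MeasurePreserving (MeasurableEquiv.prodAssoc (α := Cfg r) (β := Cfg ds) (γ := Cfg dm)).symm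
      ((volume : Measure (Cfg r)).prod ((volume : Measure (Cfg ds)).prod
        ((volume : Measure (Cfg dm)).restrict (Metric.closedBall 0 R))))
      (((volume : Measure (Cfg r)).prod (volume : Measure (Cfg ds))).prod
        ((volume : Measure (Cfg dm)).restrict (Metric.closedBall 0 R))) :=
    (measurePreserving_prodAssoc _ _ _).symm _
  exact h1.comp_measurePreserving h2

theorem lin_memG {κ : ℝ} (hκ : 0 < κ) {A : Set (Cfg r)} (hA : IsCompact A)
    {Om : Cfg r → Matrix (Fin dm) (Fin dm) ℝ} {D : Cfg r → Fin 9 → Matrix (Fin dm) (Fin dm) ℝ}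
    (hO : ∀ B C, ContinuousOn (fun η => Om η B C) A) (hI : ∀ η ∈ A, IsOm κ (D η) (Om η))
    {a : Cfg r → Cfg ds → F} (ha : Sec2 A a) (R : ℝ) :
    MemLp (fun q : Cfg r × Cfg ds × Cfg dm => ((chi R q : ℝ) : ℂ) • AN.bG κ Om a q) 2
      ((volume : Measure (Cfg r)).prod ((volume : Measure (Cfg ds)).prod (volume : Measure (Cfg dm)))) := by
  set g : Cfg r × Cfg ds × Cfg dm → F := fun q => ((chi R q : ℝ) : ℂ) • AN.bG κ Om a q with hg
  set T1 : Set (Cfg r × Cfg ds × Cfg dm) := Set.univ ×ˢ Set.univ ×ˢ Metric.closedBall 0 R with hT1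
  set T2 : Set (Cfg r × Cfg ds × Cfg dm) := A ×ˢ Set.univ with hT2
  have hT1m : MeasurableSet T1 := MeasurableSet.univ.prod (MeasurableSet.univ.prod measurableSet_closedBall)
  have hAm : MeasurableSet A := hA.isClosed.measurableSet
  have hT2m : MeasurableSet T2 := hAm.prod MeasurableSet.univ
  obtain ⟨C, hC⟩ := hA.exists_bound_of_continuousOn (lin_Nf_cont hκ hA hO hI)
  have hz : ∀ q, q ∉ T2 → g q = 0 := by
    intro q hq
    have h1 : a q.1 q.2.1 = 0 := by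
      by_contra h
      exact hq ⟨ha.2 _ _ h, Set.mem_univ _⟩
    simp only [hg, AN.bG, h1, smul_zero]
  have hz1 : ∀ q, q ∉ T1 → g q = 0 := by
    intro q hq
    have h1 : chi R q = 0 := by
      unfold chi
      rw [if_neg]
      rintro ⟨-, h⟩
      exact hq ⟨Set.mem_univ _, Set.mem_univ _, mem_closedBall_zero_iff.2 h⟩
    simp only [hg, h1, Complex.ofReal_zero, zero_smul]
  have e1 : g = T1.indicator g := (Set.indicator_eq_self.2 fun q hq => by
    by_contra h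
    exact hq (hz1 q h)).symm
  have e2 : g = T2.indicator g := (Set.indicator_eq_self.2 fun q hq => by
    by_contra h
    exact hq (hz q h)).symm
  have hμ : ((volume : Measure (Cfg r)).prod ((volume : Measure (Cfg ds)).prod (volume : Measure (Cfg dm)))).restrict T1 =
      (volume : Measure (Cfg r)).prod ((volume : Measure (Cfg ds)).prod
        ((volume : Measure (Cfg dm)).restrict (Metric.closedBall 0 R))) := by
    rw [hT1, ← Measure.prod_restrict, ← Measure.prod_restrict, Measure.restrict_univ, Measure.restrict_univ]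
  rw [e1, memLp_indicator_iff_restrict hT1m, hμ, e2, memLp_indicator_iff_restrict hT2m]
  have hh := (lin_mem0 (dm := dm) ha.1 R).restrict T2
  have hsec : ∀ q ∈ T2, ‖AN.Nf κ (Om q.1) * Real.exp (-(1 / 2) * AN.qX (Om q.1) q.2.2)‖ ≤ C := by
    intro q hq
    have h1 := hC q.1 hq.1
    have h2 : 0 ≤ AN.qX (Om q.1) q.2.2 := by
      by_cases h : q.2.2 = 0
      · rw [h]
        have := AN.gau_qX_smul (Om q.1) 0 (0 : Cfg dm)
        rw [smul_zero, zero_pow two_ne_zero, zero_mul] at this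
        exact this.ge
      · exact (AN.gau_qX_pos (hI _ hq.1) _ h).le
    have h3 : Real.exp (-(1 / 2) * AN.qX (Om q.1) q.2.2) ≤ 1 := by
      rw [Real.exp_le_one_iff]
      linarith
    have h4 := Real.exp_pos (-(1 / 2) * AN.qX (Om q.1) q.2.2)
    rw [norm_mul, Real.norm_eq_abs (Real.exp _), abs_of_pos h4]
    calc _ ≤ ‖AN.Nf κ (Om q.1)‖ * 1 := mul_le_mul_of_nonneg_left h3 (norm_nonneg _)
      _ ≤ C := by rw [mul_one]; exact h1
  have hcc : ContinuousOn (fun q : Cfg r × Cfg ds × Cfg dm =>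
      AN.Nf κ (Om q.1) * Real.exp (-(1 / 2) * AN.qX (Om q.1) q.2.2)) T2 := by
    have h1 : ContinuousOn (fun q : Cfg r × Cfg ds × Cfg dm => AN.Nf κ (Om q.1)) T2 :=
      (lin_Nf_cont hκ hA hO hI).comp (f := fun q : Cfg r × Cfg ds × Cfg dm => q.1) continuous_fst.continuousOn
        fun q hq => hq.1
    have h2 : ContinuousOn (fun q : Cfg r × Cfg ds × Cfg dm => AN.qX (Om q.1) q.2.2) T2 :=
      (lin_qX_cont hO).comp (f := fun q : Cfg r × Cfg ds × Cfg dm => (q.1, q.2.2)) (by fun_prop)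
        fun q hq => ⟨hq.1, Set.mem_univ _⟩
    exact h1.mul (Real.continuous_exp.comp_continuousOn (continuousOn_const.mul h2))
  have hchi : Measurable fun q : Cfg r × Cfg ds × Cfg dm => chi R q := by
    unfold chi
    refine Measurable.ite ?_ measurable_const measurable_const
    have m1 : Measurable fun q : Cfg r × Cfg ds × Cfg dm => ‖q.2.1‖ := by fun_prop
    have m2 : Measurable fun q : Cfg r × Cfg ds × Cfg dm => ‖q.2.2‖ := by fun_prop
    exact (measurableSet_le m1 measurable_const).inter (measurableSet_le m2 measurable_const)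
  have hc1 : ∀ q : Cfg r × Cfg ds × Cfg dm, ‖chi R q‖ ≤ 1 := by
    intro q
    unfold chi
    split_ifs <;> simp
  refine MemLp.of_le_mul (c := C) hh ?_ ?_
  · have m1 : AEStronglyMeasurable (fun q : Cfg r × Cfg ds × Cfg dm => ((chi R q : ℝ) : ℂ))
        (((volume : Measure (Cfg r)).prod ((volume : Measure (Cfg ds)).prod
        ((volume : Measure (Cfg dm)).restrict (Metric.closedBall 0 R)))).restrict T2) :=
      (Complex.measurable_ofReal.comp hchi).aestronglyMeasurable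
    have m2 : AEStronglyMeasurable (fun q : Cfg r × Cfg ds × Cfg dm =>
        ((AN.Nf κ (Om q.1) * Real.exp (-(1 / 2) * AN.qX (Om q.1) q.2.2) : ℝ) : ℂ))
        (((volume : Measure (Cfg r)).prod ((volume : Measure (Cfg ds)).prod
        ((volume : Measure (Cfg dm)).restrict (Metric.closedBall 0 R)))).restrict T2) :=
      (Complex.continuous_ofReal.comp_continuousOn hcc).aestronglyMeasurable hT2m
    exact m1.smul (m2.smul hh.1)
  · filter_upwards [ae_restrict_mem hT2m] with q hq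
    have h1 := hsec q hq
    have h2 := hc1 q
    simp only [hg, AN.bG]
    rw [norm_smul, norm_smul, Complex.norm_real, Complex.norm_real]
    calc ‖chi R q‖ * (‖AN.Nf κ (Om q.1) * Real.exp (-(1 / 2) * AN.qX (Om q.1) q.2.2)‖ * ‖a q.1 q.2.1‖)
        ≤ 1 * (C * ‖a q.1 q.2.1‖) := by gcongr
      _ = _ := one_mul _

theorem lin_memZ (φ : Spl dh dm d) (ψ : Spl r ds dh) {κ : ℝ} (hκ : 0 < κ) {A : Set (Cfg r)} (hA : IsCompact A)
    {Om : Cfg r → Matrix (Fin dm) (Fin dm) ℝ} {D : Cfg r → Fin 9 → Matrix (Fin dm) (Fin dm) ℝ}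
    (hO : ∀ B C, ContinuousOn (fun η => Om η B C) A) (hI : ∀ η ∈ A, IsOm κ (D η) (Om η))
    {a : Cfg r → Cfg ds → F} (ha : Sec2 A a) {R : ℝ} (hR : 0 < R) :
    MemLp (AN.Zb φ ψ (fun q => ((chi R q : ℝ) : ℂ) • AN.bG κ Om a q) R) 2 (volume : Measure (Cfg d)) :=
  (lin_memT φ ψ hR (lin_memG hκ hA hO hI ha R)).const_smul ((R ^ (3 * (dm : ℝ) - 9 * (r : ℝ) / 2) : ℝ) : ℂ)

end LinMap

/-- **L-Lin** -/
theorem lin {d : ℕ} {F : Type*} [NormedAddCommGroup F] [InnerProductSpace ℂ F] (S : Setup d F) : LinStmt S := by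
  intro _ dh dm r ds φ ψ L Om K U hB A hA hAR R hR u hu
  have hdet : ∀ η ∈ A, (∑ i, DM (AX.Mz S φ (spsw ψ)) η i * DM (AX.Mz S φ (spsw ψ)) η i).det ≠ 0 := by
    intro η hη
    have h := hAR hη
    simp only [Rg, Set.mem_ofPred_eq] at h
    simp only [AX.DM_Dz]
    exact h
  have hO : ∀ B C, ContinuousOn (fun η => Om η B C) A := fun B C =>
    (hB.om_smooth B C).continuousOn.mono fun η hη => hdet η hη
  have hI : ∀ η ∈ A, IsOm S.κ (DM (AX.Mz S φ (spsw ψ)) η) (Om η) := fun η hη => hB.om η (hdet η hη)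
  have hint : ∀ a : Cfg r → Cfg ds → F, Sec2 A a → Integrable fun x =>
      inner ℂ (AN.Zb φ ψ (fun q => ((chi R q : ℝ) : ℂ) • AN.bG S.κ Om a q) R x) (u x) := fun a ha =>
    integrable_inner_memLp (lin_memZ φ ψ S.κ_pos hA hO hI ha hR) hu.memLp
  refine ⟨hint, fun a a' ha ha' => ?_, fun c a ha => ?_⟩
  · unfold ZZ
    rw [← integral_add (hint a ha) (hint a' ha')]
    refine integral_congr_ae (Eventually.of_forall fun x => ?_)
    simp only [AN.Zb, AN.bG, smul_add, inner_add_left]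
  · unfold ZZ
    rw [← integral_const_mul]
    refine integral_congr_ae (Eventually.of_forall fun x => ?_)
    simp only [AN.Zb, AN.bG]
    rw [← inner_smul_left]
    congr 1
    rw [smul_comm _ c, smul_comm _ c, smul_comm _ c]

end Vale.Agent.P353.Z.AL
end

section

/-! # P353, all `N`, block GL0: integration over the tube without invariance -/

open MeasureTheory Filter Topology
open scoped ContDiff

namespace Vale.Agent.P353.Z.AN

variable {d dh dm : ℕ} {F : Type*} [NormedAddCommGroup F] [InnerProductSpace ℂ F]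

theorem tubeJ_stmt (S : Setup d F) : DetStmt S → CooStmt → InjStmt S → TubeJStmt S := by
  intro hD hC hI dh dm φ y₀ hS
  obtain ⟨hsm, j, hj, hj0, hdet⟩ := hD dh dm φ hS.sub
  obtain ⟨e, he, hmp⟩ := hC d dh dm φ
  obtain ⟨ε₀, ρ₀, hε₀, hρ₀, hIn⟩ := hI dh dm φ y₀ hS
  refine ⟨ε₀, ρ₀, hε₀, hρ₀, fun a => |j a|, hj.abs, fun a => abs_nonneg _, by simp [hj0],
    fun ε ρ hε hεε hρ hρρ R hR => ?_⟩
  obtain ⟨δ, hδ, hopen, hball, hinj⟩ := hIn ε ρ hε hεε hρ hρρ
  have hinjR : ∀ a a' p p', ‖a‖ < ρ → ‖a'‖ < ρ → p ∈ Nb y₀ dm R ε → p' ∈ Nb y₀ dm R ε →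
      tub S φ a p = tub S φ a' p' → a = a' ∧ p = p' := by
    intro a a' p p' ha ha' hp hp' h
    have hp1 : R⁻¹ • p ∈ Nb y₀ dm 1 ε := by
      rw [← tbf_nb hR, smul_inv_smul₀ hR.ne']
      exact hp
    have hp1' : R⁻¹ • p' ∈ Nb y₀ dm 1 ε := by
      rw [← tbf_nb hR, smul_inv_smul₀ hR.ne']
      exact hp'
    have h1 := hinj a a' (R⁻¹ • p) (R⁻¹ • p') ha ha' hp1 hp1' (by
      rw [tbf_tub_smul, tbf_tub_smul, h])
    exact ⟨h1.1, smul_right_injective _ (inv_ne_zero hR.ne') h1.2⟩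
  obtain ⟨B, hBdef⟩ : ∃ B : Set (Cfg d), B = {z | ‖zm φ z‖ < ρ ∧ (zy φ z, zw φ z) ∈ Nb y₀ dm R ε} :=
    ⟨_, rfl⟩
  obtain ⟨T, hTdef⟩ : ∃ T : Set (EuclideanSpace ℝ (Fin dm) × (Cfg dh × Wsp dm)),
      T = (Metric.ball (0 : EuclideanSpace ℝ (Fin dm)) ρ) ×ˢ Nb y₀ dm R ε := ⟨_, rfl⟩
  have hNb : IsOpen (Nb y₀ dm R ε) := by
    have h2 : IsOpen {p : Cfg dh × Wsp dm | ‖p.1 - R • y₀‖ < ε * R} :=
      isOpen_lt (by fun_prop) (by fun_prop)
    have h3 : IsOpen {p : Cfg dh × Wsp dm | ‖p.2‖ < ε * R} :=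
      isOpen_lt (by fun_prop) (by fun_prop)
    exact h2.inter h3
  have hT : IsOpen T := by
    rw [hTdef]
    exact Metric.isOpen_ball.prod hNb
  have hBT : B = e ⁻¹' T := by
    rw [hBdef, hTdef]
    ext z
    simp only [Set.mem_ofPred_eq, Set.mem_preimage, he, Set.mem_prod, mem_ball_zero_iff]
  have hB : MeasurableSet B := by
    rw [hBT]
    exact (hT.preimage e.continuous).measurableSet
  have htz : ∀ q, tub S φ q.1 q.2 = tz S φ (e.symm q) := by
    intro q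
    have h1 : e (e.symm q) = q := e.apply_symm_apply _
    have h2 := he (e.symm q)
    rw [h1] at h2
    have h3 : zm φ (e.symm q) = q.1 := (congrArg Prod.fst h2).symm
    have h4 : (zy φ (e.symm q), zw φ (e.symm q)) = q.2 := (congrArg Prod.snd h2).symm
    rw [tz, h3, h4]
  have himg : Tube S φ y₀ R ε ρ = tz S φ '' B := by
    ext x
    constructor
    · rintro ⟨a, ha, p, hp, rfl⟩
      refine ⟨e.symm (a, p), ?_, ?_⟩
      · rw [hBT, Set.mem_preimage, e.apply_symm_apply, hTdef]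
        exact ⟨mem_ball_zero_iff.2 ha, hp⟩
      · exact (htz (a, p)).symm
    · rintro ⟨z, hz, rfl⟩
      rw [hBdef] at hz
      exact ⟨zm φ z, hz.1, (zy φ z, zw φ z), hz.2, rfl⟩
  have hinjB : Set.InjOn (tz S φ) B := by
    intro z hz z' hz' h
    rw [hBdef] at hz hz'
    have h1 := hinjR _ _ _ _ hz.1 hz'.1 hz.2 hz'.2 h
    apply e.injective
    rw [he, he, h1.1, h1.2]
  have hJ0 : ∀ y, 0 ≤ S.Jd φ y := fun y => by unfold Setup.Jd; exact abs_nonneg _
  constructor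
  · intro f hf
    rw [himg, lintegral_image_eq_lintegral_abs_det_fderiv_mul volume hB
      (fun z _ => ((hsm.differentiable (by simp)) z).hasFDerivAt.hasFDerivWithinAt) hinjB]
    have hcongr : ∫⁻ z in B, ENNReal.ofReal |(fderiv ℝ (tz S φ) z).det| * f (tz S φ z) =
        ∫⁻ z in e ⁻¹' T, (fun q : EuclideanSpace ℝ (Fin dm) × (Cfg dh × Wsp dm) =>
          f (tub S φ q.1 q.2) * ENNReal.ofReal (S.Jd φ q.2.1 * |j q.1|)) (e z) := by
      rw [← hBT]
      refine setLIntegral_congr_fun hB fun z hz => ?_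
      simp only [he]
      rw [hdet z, tz, mul_comm]
    rw [hcongr]
    have hmeas : Measurable fun q : EuclideanSpace ℝ (Fin dm) × (Cfg dh × Wsp dm) =>
          f (tub S φ q.1 q.2) * ENNReal.ofReal (S.Jd φ q.2.1 * |j q.1|) := by
      refine Measurable.mul ?_ ?_
      · have h1 : (fun q : EuclideanSpace ℝ (Fin dm) × (Cfg dh × Wsp dm) =>
            f (tub S φ q.1 q.2)) = fun q => f (tz S φ (e.symm q)) := by
          funext q
          rw [htz]
        rw [h1]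
        exact hf.comp ((hsm.continuous.comp e.symm.continuous).measurable)
      · refine Measurable.ennreal_ofReal ?_
        exact ((((tbf_continuous_Jd S φ).comp (continuous_fst.comp continuous_snd))).mul
          (hj.abs.comp continuous_fst)).measurable
    rw [hmp.setLIntegral_comp_preimage hT.measurableSet hmeas, hTdef]
  · intro f
    rw [himg, integral_image_eq_integral_abs_det_fderiv_smul volume hB
      (fun z _ => ((hsm.differentiable (by simp)) z).hasFDerivAt.hasFDerivWithinAt) hinjB]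
    have hcongr : ∫ z in B, |(fderiv ℝ (tz S φ) z).det| • f (tz S φ z) =
        ∫ z in e ⁻¹' T, (fun q : EuclideanSpace ℝ (Fin dm) × (Cfg dh × Wsp dm) =>
          ((S.Jd φ q.2.1 * |j q.1| : ℝ) : ℂ) * f (tub S φ q.1 q.2)) (e z) := by
      rw [← hBT]
      refine setIntegral_congr_fun hB fun z hz => ?_
      simp only [he]
      rw [hdet z, tz, Complex.real_smul]
    rw [hcongr, hmp.setIntegral_preimage_emb e.toHomeomorph.measurableEmbedding
      (fun q : EuclideanSpace ℝ (Fin dm) × (Cfg dh × Wsp dm) =>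
          ((S.Jd φ q.2.1 * |j q.1| : ℝ) : ℂ) * f (tub S φ q.1 q.2)) T, hTdef]

end Vale.Agent.P353.Z.AN
end

section

/-! # P353, all `N`, block A7: finite cover -/

open MeasureTheory Filter Topology
open scoped ContDiff

namespace Vale.Agent.P353.Z.AN

variable {d dh dm : ℕ} {F : Type*} [NormedAddCommGroup F] [InnerProductSpace ℂ F]

theorem cov_FF_smul (S : Setup d F) (c : ℝ) (x : Cfg d) (A : Fin d) (i j : Fin 9) :
    S.FF A i j (c • x) = c ^ 2 * S.FF A i j x := by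
  unfold Setup.FF
  rw [mul_left_comm]
  congr 1
  rw [Finset.mul_sum]
  refine Finset.sum_congr rfl fun B _ => ?_
  rw [Finset.mul_sum]
  refine Finset.sum_congr rfl fun C _ => ?_
  rw [PiLp.smul_apply, PiLp.smul_apply, smul_eq_mul, smul_eq_mul]
  ring

theorem cov_V_smul (S : Setup d F) (c : ℝ) (x : Cfg d) : S.V (c • x) = c ^ 4 * S.V x := by
  unfold Setup.V
  rw [mul_left_comm]
  congr 1
  rw [Finset.mul_sum]
  refine Finset.sum_congr rfl fun A _ => ?_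
  rw [Finset.mul_sum]
  refine Finset.sum_congr rfl fun i _ => ?_
  rw [Finset.mul_sum]
  refine Finset.sum_congr rfl fun j _ => ?_
  rw [cov_FF_smul]
  ring

theorem cov_V_nonneg (S : Setup d F) (x : Cfg d) : 0 ≤ S.V x := by
  unfold Setup.V
  positivity

theorem cov_V_cont (S : Setup d F) : Continuous S.V := by
  unfold Setup.V Setup.FF
  fun_prop

theorem cov_rox_smul (R : Matrix (Fin 9) (Fin 9) ℝ) (O : Matrix (Fin d) (Fin d) ℝ) (c : ℝ)
    (x : Cfg d) : rox R O (c • x) = c • rox R O x := by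
  ext p
  change ∑ j, ∑ B, R p.1 j * O p.2 B * (c • x) (j, B) = c * ∑ j, ∑ B, R p.1 j * O p.2 B * x (j, B)
  rw [Finset.mul_sum]
  refine Finset.sum_congr rfl fun j _ => ?_
  rw [Finset.mul_sum]
  refine Finset.sum_congr rfl fun B _ => ?_
  rw [PiLp.smul_apply, smul_eq_mul]
  ring

theorem cov_rox_cont (R : Matrix (Fin 9) (Fin 9) ℝ) (O : Matrix (Fin d) (Fin d) ℝ) :
    Continuous (rox R O : Cfg d → Cfg d) := by
  unfold rox
  fun_prop

theorem cov_emb_zero (φ : Spl dh dm d) : emb φ (0 : Cfg dh) (0 : Wsp dm) = 0 := by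
  ext p
  unfold emb
  change Sum.elim (fun A => (0 : Cfg dh) (p.1, A))
    (fun B => Fin.lastCases (motive := fun _ => ℝ) 0 (fun j => (0 : Wsp dm) (j, B)) p.1) (φ.symm p.2) = 0
  rcases φ.symm p.2 with A | B
  · simp
  · rw [Sum.elim_inr]
    refine Fin.lastCases (motive := fun i => Fin.lastCases (motive := fun _ => ℝ) 0
      (fun j => (0 : Wsp dm) (j, B)) i = 0) ?_ (fun j => ?_) p.1
    · rw [Fin.lastCases_last]
    · rw [Fin.lastCases_castSucc]
      rfl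

theorem cov_scale {R : Matrix (Fin 9) (Fin 9) ℝ} {O : Matrix (Fin d) (Fin d) ℝ} {s : ℝ} (hs : 0 < s)
    {x z : Cfg d} {δ : ℝ} (h : rox R O (s⁻¹ • x) ∈ Metric.ball z δ) :
    rox R O x ∈ Metric.ball (s • z) (δ * s) := by
  have hx' : rox R O x = s • rox R O (s⁻¹ • x) := by
    rw [cov_rox_smul, smul_smul, mul_inv_cancel₀ hs.ne', one_smul]
  rw [Metric.mem_ball, dist_eq_norm] at h ⊢
  rw [hx', ← smul_sub, norm_smul, Real.norm_of_nonneg hs.le, mul_comm]
  exact mul_lt_mul_of_pos_right h hs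

/-- data of a standard position -/
structure CovDat (d : ℕ) where
  R : Matrix (Fin 9) (Fin 9) ℝ
  O : Matrix (Fin d) (Fin d) ℝ
  dh : ℕ
  dm : ℕ
  φ : Spl dh dm d
  y : Cfg dh
  r : ℝ
  δ : ℝ

/-- the property required of the data -/
def CovOk (S : Setup d F)
    (P : ∀ (_ : Matrix (Fin 9) (Fin 9) ℝ) (_ : Matrix (Fin d) (Fin d) ℝ) (dh dm : ℕ)
      (_ : Spl dh dm d) (_ : Cfg dh) (_ _ : ℝ), Prop) (D : CovDat d) : Prop :=
  ∃ (hR : D.R * D.R.transpose = 1) (hO : D.O * D.O.transpose = 1),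
    Std (S.rot D.R hR D.O hO) D.φ D.y ∧ 0 < D.dm ∧ 0 < D.δ ∧ P D.R D.O D.dh D.dm D.φ D.y D.r D.δ

theorem cov_loc (S : Setup d F) (h : StdStmt S) (h1 : RotStmt S) (hC : Cless S)
    (P : ∀ (_ : Matrix (Fin 9) (Fin 9) ℝ) (_ : Matrix (Fin d) (Fin d) ℝ) (dh dm : ℕ)
      (_ : Spl dh dm d) (_ : Cfg dh) (_ _ : ℝ), Prop)
    (hP : ∀ (R : Matrix (Fin 9) (Fin 9) ℝ) (hR : R * R.transpose = 1) (O : Matrix (Fin d) (Fin d) ℝ)
      (hO : O * O.transpose = 1)
      (dh dm : ℕ) (φ : Spl dh dm d) (y : Cfg dh), Std (S.rot R hR O hO) φ y → 0 < dm → y ≠ 0 →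
      ∃ r δ : ℝ, 0 < r ∧ 0 < δ ∧ P R O dh dm φ y r δ)
    (Y : Cfg d) (hY : S.V Y = 0) (hY0 : Y ≠ 0) :
    ∃ D : CovDat d, CovOk S P D ∧ rox D.R D.O Y = emb D.φ D.y 0 ∧ 0 < D.δ := by
  obtain ⟨R, hR, O, hO, dh, dm, φ, y, hstd, hrox, hdm⟩ := h Y hY
  have hdm0 : 0 < dm := by
    rcases Nat.eq_zero_or_pos dm with h0 | h0
    · exfalso
      apply hY0
      have h2 := hdm h0
      have h3 : ∀ i, (fun A => Y (i, A)) = 0 := fun i => hC _ (h2 i)
      ext p
      exact congrFun (h3 p.1) p.2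
    · exact h0
  have hy0 : y ≠ 0 := by
    rintro rfl
    rw [cov_emb_zero] at hrox
    apply hY0
    rw [← norm_eq_zero, ← (h1 R hR O hO).1 Y, hrox, norm_zero]
  obtain ⟨r, δ, -, hδ, hPP⟩ := hP R hR O hO dh dm φ y hstd hdm0 hy0
  exact ⟨⟨R, O, dh, dm, φ, y, r, δ⟩, ⟨hR, hO, hstd, hdm0, hδ, hPP⟩, hrox, hδ⟩

theorem cov_mem {R : Matrix (Fin 9) (Fin 9) ℝ} {O : Matrix (Fin d) (Fin d) ℝ} {x z : Cfg d} {δ : ℝ}
    (h : rox R O x = z) (hδ : 0 < δ) : x ∈ rox R O ⁻¹' Metric.ball z δ := by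
  rw [Set.mem_preimage, h]
  exact Metric.mem_ball_self hδ

theorem cov_cover (S : Setup d F) (D : Cfg d → CovDat d)
    (hD : ∀ Y : Cfg d, S.V Y = 0 → Y ≠ 0 →
      rox (D Y).R (D Y).O Y = emb (D Y).φ (D Y).y 0 ∧ 0 < (D Y).δ) {ε L : ℝ} (hε : 0 < ε) :
    ∃ (t : Finset (Cfg d)) (η : ℝ), 0 < η ∧ (∀ Y ∈ t, S.V Y = 0 ∧ Y ≠ 0) ∧
      ∀ x : Cfg d, ε ≤ ‖x‖ → ‖x‖ ≤ L → S.V x ≤ η →
        ∃ Y ∈ t, rox (D Y).R (D Y).O x ∈ Metric.ball (emb (D Y).φ (D Y).y 0) (D Y).δ := by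
  let U : Cfg d → Set (Cfg d) := fun Y =>
    rox (D Y).R (D Y).O ⁻¹' Metric.ball (emb (D Y).φ (D Y).y 0) (D Y).δ
  have hU : ∀ Y, IsOpen (U Y) := fun Y => Metric.isOpen_ball.preimage (cov_rox_cont _ _)
  let K : Set (Cfg d) := {x | ε ≤ ‖x‖ ∧ ‖x‖ ≤ L}
  have hKclosed : IsClosed K :=
    (isClosed_le continuous_const continuous_norm).inter (isClosed_le continuous_norm continuous_const)
  have hK : IsCompact K := by
    refine (isCompact_closedBall (0 : Cfg d) L).of_isClosed_subset hKclosed fun x hx => ?_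
    rw [mem_closedBall_zero_iff]
    exact hx.2
  have hZ : IsCompact (K ∩ {x | S.V x = 0}) :=
    hK.inter_right (isClosed_eq (cov_V_cont S) continuous_const)
  have hne : ∀ x ∈ K, x ≠ 0 := by
    rintro x hx rfl
    have := hx.1
    rw [norm_zero] at this
    linarith
  obtain ⟨t, htK, ht⟩ := hZ.elim_nhds_subcover U (fun x hx => (hU x).mem_nhds
    (cov_mem (hD x hx.2 (hne x hx.1)).1 (hD x hx.2 (hne x hx.1)).2))
  have hK' : IsCompact (K \ ⋃ Y ∈ t, U Y) := hK.diff (isOpen_biUnion fun Y _ => hU Y)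
  have hmem : ∀ x ∈ K, x ∉ K \ ⋃ Y ∈ t, U Y → ∃ Y ∈ t, x ∈ U Y := by
    intro x hx hx'
    by_contra hc
    refine hx' ⟨hx, fun hx'' => hc ?_⟩
    obtain ⟨Y, hY, hxY⟩ := Set.mem_iUnion₂.1 hx''
    exact ⟨Y, hY, hxY⟩
  have htZ : ∀ Y ∈ t, S.V Y = 0 ∧ Y ≠ 0 := fun Y hY => ⟨(htK Y hY).2, hne Y (htK Y hY).1⟩
  rcases (K \ ⋃ Y ∈ t, U Y).eq_empty_or_nonempty with he | hn
  · refine ⟨t, 1, one_pos, htZ, fun x hx1 hx2 _ => hmem x ⟨hx1, hx2⟩ ?_⟩
    rw [he]
    exact Set.notMem_empty x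
  · obtain ⟨x₀, hx₀, hmin⟩ := hK'.exists_isMinOn hn (cov_V_cont S).continuousOn
    have hpos : 0 < S.V x₀ := by
      refine lt_of_le_of_ne (cov_V_nonneg S x₀) fun h0 => ?_
      exact hx₀.2 (ht ⟨hx₀.1, h0.symm⟩)
    refine ⟨t, S.V x₀ / 2, by linarith, htZ, fun x hx1 hx2 hVx => hmem x ⟨hx1, hx2⟩ fun hx' => ?_⟩
    have : S.V x₀ ≤ S.V x := hmin hx'
    linarith

theorem cov_stmt (S : Setup d F) (h : StdStmt S) (h1 : RotStmt S) : CovStmt S := by
  intro hC P hP ε L hε hεL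
  have hloc : ∀ Y : Cfg d, ∃ D : CovDat d, S.V Y = 0 → Y ≠ 0 →
      CovOk S P D ∧ rox D.R D.O Y = emb D.φ D.y 0 ∧ 0 < D.δ := by
    intro Y
    by_cases hY : S.V Y = 0 ∧ Y ≠ 0
    · obtain ⟨D, hD⟩ := cov_loc S h h1 hC P hP Y hY.1 hY.2
      exact ⟨D, fun _ _ => hD⟩
    · exact ⟨⟨0, 0, 0, d, Equiv.emptySum (Fin 0) (Fin d), 0, 0, 0⟩, fun h2 h3 => absurd ⟨h2, h3⟩ hY⟩
  choose D hD using hloc
  obtain ⟨t, η, hη0, htZ, hη⟩ := cov_cover S D (fun Y h2 h3 => (hD Y h2 h3).2) (L := L) hε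
  obtain ⟨q, hqt, hq⟩ : ∃ q : Fin t.card → Cfg d, (∀ k, q k ∈ t) ∧ ∀ Y ∈ t, ∃ k, q k = Y :=
    ⟨fun k => (t.equivFin.symm k).1, fun k => (t.equivFin.symm k).2,
      fun Y hY => ⟨t.equivFin ⟨Y, hY⟩, by simp only [Equiv.symm_apply_apply]⟩⟩
  refine ⟨t.card, η, hη0, fun k => (D (q k)).R, fun k => (D (q k)).O, fun k => (D (q k)).dh,
    fun k => (D (q k)).dm, fun k => (D (q k)).φ, fun k => (D (q k)).y, fun k => (D (q k)).r,
    fun k => (D (q k)).δ, fun k => (hD (q k) (htZ _ (hqt k)).1 (htZ _ (hqt k)).2).1, ?_⟩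
  intro s x hs hx1 hx2 hV
  have hn : ‖s⁻¹ • x‖ = s⁻¹ * ‖x‖ := by
    rw [norm_smul, Real.norm_of_nonneg (inv_nonneg.2 hs.le)]
  have hVK : S.V (s⁻¹ • x) ≤ η := by
    rw [cov_V_smul, inv_pow, inv_mul_le_iff₀ (pow_pos hs 4), mul_comm]
    exact hV
  obtain ⟨Y, hYt, hxY⟩ := hη (s⁻¹ • x)
    (by rw [hn, ← div_eq_inv_mul, le_div_iff₀ hs]; exact hx1)
    (by rw [hn, ← div_eq_inv_mul, div_le_iff₀ hs]; exact hx2) hVK
  obtain ⟨k, rfl⟩ := hq Y hYt
  exact ⟨k, cov_scale hs hxY⟩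

end Vale.Agent.P353.Z.AN
end

section

/-! # P353, all `N`, block E: EG-Int, integrability of the global functional (prover helper932)

Continuity of the normalisation `Nf` on compact sets off the collisions: uniform Gaussian domination. Integrability: the linear
substitution `x ↔ (η, s, X)`, the bound `|bG a| ≤ C |a|`, and `a ∈ L² ⊂ L¹` on sets of finite measure. -/

open MeasureTheory Filter Topology Matrix
open scoped ContDiff ENNReal

namespace Vale.Agent.P353.Z.AE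

variable {d dh dm r ds : ℕ} {F : Type*} [NormedAddCommGroup F] [InnerProductSpace ℂ F]

section ZIntGauss

variable {X : Type*} [TopologicalSpace X]
  {E : Type*} [NormedAddCommGroup E] [InnerProductSpace ℝ E] [FiniteDimensional ℝ E]

/-- uniform lower bound for a continuous family of positive definite forms on a compact set -/
theorem zInt_low {𝒞 : Set X} (h𝒞 : IsCompact 𝒞) (Q : X → E → ℝ)
    (hc : ContinuousOn (fun p : X × E => Q p.1 p.2) (𝒞 ×ˢ Set.univ))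
    (hh : ∀ η ∈ 𝒞, ∀ (t : ℝ) x, Q η (t • x) = t ^ 2 * Q η x) (hp : ∀ η ∈ 𝒞, ∀ x, x ≠ 0 → 0 < Q η x) :
    ∃ c : ℝ, 0 < c ∧ ∀ η ∈ 𝒞, ∀ x, c * ‖x‖ ^ 2 ≤ Q η x := by
  have h0 : ∀ η ∈ 𝒞, Q η 0 = 0 := by
    intro η hη
    have := hh η hη 0 0
    rwa [smul_zero, zero_pow two_ne_zero, zero_mul] at this
  rcases subsingleton_or_nontrivial E with hs | hs
  · refine ⟨1, one_pos, fun η hη x => ?_⟩
    rw [Subsingleton.elim x 0, h0 η hη]
    simp
  rcases 𝒞.eq_empty_or_nonempty with he | hne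
  · refine ⟨1, one_pos, fun η hη x => ?_⟩
    rw [he] at hη
    exact absurd hη (Set.notMem_empty η)
  have hK : IsCompact (𝒞 ×ˢ Metric.sphere (0 : E) 1) := h𝒞.prod (isCompact_sphere 0 1)
  have hKn : (𝒞 ×ˢ Metric.sphere (0 : E) 1).Nonempty := hne.prod (NormedSpace.sphere_nonempty.2 zero_le_one)
  obtain ⟨q0, hq0, hmin⟩ := hK.exists_isMinOn hKn
    (hc.mono (Set.prod_mono_right (Set.subset_univ _)))
  have hx0' : q0.2 ≠ 0 := by
    intro h
    have h2 := hq0.2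
    rw [h] at h2
    simp at h2
  refine ⟨Q q0.1 q0.2, hp _ hq0.1 _ hx0', fun η hη x => ?_⟩
  by_cases hx : x = 0
  · rw [hx, h0 η hη]
    simp
  have hn : 0 < ‖x‖ := norm_pos_iff.2 hx
  have h1 := hmin (show (η, ‖x‖⁻¹ • x) ∈ 𝒞 ×ˢ Metric.sphere (0 : E) 1 by
    refine ⟨hη, ?_⟩
    rw [mem_sphere_zero_iff_norm, norm_smul, norm_inv, norm_norm, inv_mul_cancel₀ hn.ne'])
  simp only [Set.mem_ofPred_eq, hh η hη] at h1
  calc Q q0.1 q0.2 * ‖x‖ ^ 2 ≤ ‖x‖⁻¹ ^ 2 * Q η x * ‖x‖ ^ 2 := mul_le_mul_of_nonneg_right h1 (by positivity)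
    _ = Q η x := by field_simp

variable [MeasurableSpace E] [BorelSpace E]

/-- Gaussian integrals of a continuous family of positive definite forms are continuous -/
theorem zInt_gcont [FirstCountableTopology X] {𝒞 : Set X} (h𝒞 : IsCompact 𝒞) (Q : X → E → ℝ)
    (hc : ContinuousOn (fun p : X × E => Q p.1 p.2) (𝒞 ×ˢ Set.univ))
    (hh : ∀ η ∈ 𝒞, ∀ (t : ℝ) x, Q η (t • x) = t ^ 2 * Q η x) (hp : ∀ η ∈ 𝒞, ∀ x, x ≠ 0 → 0 < Q η x) :
    ContinuousOn (fun η => ∫ x : E, Real.exp (-Q η x)) 𝒞 := by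
  obtain ⟨c, hc0, hcl⟩ := zInt_low h𝒞 Q hc hh hp
  refine continuousOn_of_dominated (bound := fun x : E => Real.exp (-(c * ‖x‖ ^ 2))) ?_ ?_ (AN.gau_int_sq hc0) ?_
  · intro η hη
    have h1 : Continuous fun x : E => Q η x := by
      have h2 : ContinuousOn (fun x : E => Q η x) Set.univ :=
        hc.comp (f := fun x : E => (η, x)) (by fun_prop) (fun x _ => ⟨hη, Set.mem_univ x⟩)
      exact continuousOn_univ.1 h2
    exact (Real.continuous_exp.comp h1.neg).aestronglyMeasurable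
  · intro η hη
    refine Eventually.of_forall fun x => ?_
    rw [Real.norm_eq_abs, abs_of_pos (Real.exp_pos _), Real.exp_le_exp, neg_le_neg_iff]
    exact hcl η hη x
  · refine Eventually.of_forall fun x => ?_
    have h2 : ContinuousOn (fun η => Q η x) 𝒞 :=
      hc.comp (f := fun η : X => (η, x)) (by fun_prop) (fun η hη => ⟨hη, Set.mem_univ x⟩)
    exact Real.continuous_exp.comp_continuousOn h2.neg

/-- a form with continuous coefficients is continuous -/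
theorem zInt_qX {𝒞 : Set X} {Om : X → Matrix (Fin dm) (Fin dm) ℝ} (hO : ContinuousOn Om 𝒞) :
    ContinuousOn (fun p : X × Cfg dm => AN.qX (Om p.1) p.2) (𝒞 ×ˢ Set.univ) := by
  have h1 : ContinuousOn (fun p : X × Cfg dm => Om p.1) (𝒞 ×ˢ Set.univ) :=
    hO.comp continuousOn_fst (fun p hp => hp.1)
  unfold AN.qX
  refine continuousOn_finsetSum _ fun i _ => continuousOn_finsetSum _ fun B _ => continuousOn_finsetSum _ fun C _ => ?_
  have h2 : ContinuousOn (fun p : X × Cfg dm => Om p.1 B C) (𝒞 ×ˢ Set.univ) :=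
    (continuous_apply_apply B C).comp_continuousOn h1
  refine ContinuousOn.mul (ContinuousOn.mul ?_ h2) ?_
  · exact Continuous.continuousOn (by fun_prop)
  · exact Continuous.continuousOn (by fun_prop)

theorem zInt_gQ {𝒞 : Set X} {Om : X → Matrix (Fin dm) (Fin dm) ℝ} (hO : ContinuousOn Om 𝒞) :
    ContinuousOn (fun p : X × EuclideanSpace ℝ (Fin dm) => AN.gauQ (Om p.1) p.2) (𝒞 ×ˢ Set.univ) := by
  have h1 : ContinuousOn (fun p : X × EuclideanSpace ℝ (Fin dm) => Om p.1 * Om p.1 * Om p.1) (𝒞 ×ˢ Set.univ) := by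
    have h3 : ContinuousOn (fun p : X × EuclideanSpace ℝ (Fin dm) => Om p.1) (𝒞 ×ˢ Set.univ) :=
      hO.comp continuousOn_fst (fun p hp => hp.1)
    exact (h3.mul h3).mul h3
  unfold AN.gauQ
  refine continuousOn_finsetSum _ fun B _ => continuousOn_finsetSum _ fun C _ => ?_
  have h2 : ContinuousOn (fun p : X × EuclideanSpace ℝ (Fin dm) => (Om p.1 * Om p.1 * Om p.1) B C) (𝒞 ×ˢ Set.univ) :=
    (continuous_apply_apply B C).comp_continuousOn h1
  refine ContinuousOn.mul (ContinuousOn.mul ?_ h2) ?_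
  · exact Continuous.continuousOn (by fun_prop)
  · exact Continuous.continuousOn (by fun_prop)

end ZIntGauss

/-- the normalisation is continuous on compact sets where `Ω` is -/
theorem zInt_Nf {X : Type*} [TopologicalSpace X] [FirstCountableTopology X] {κ : ℝ} (hκ : 0 < κ) {𝒞 : Set X} (h𝒞 : IsCompact 𝒞)
    {D : X → Fin 9 → Matrix (Fin dm) (Fin dm) ℝ} {Om : X → Matrix (Fin dm) (Fin dm) ℝ}
    (hI : ∀ η ∈ 𝒞, IsOm κ (D η) (Om η)) (hO : ContinuousOn Om 𝒞) :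
    ContinuousOn (fun η => AN.Nf κ (Om η)) 𝒞 := by
  have hK : ContinuousOn (fun η => AN.Kx (Om η)) 𝒞 :=
    zInt_gcont h𝒞 (fun η x => AN.qX (Om η) x) (zInt_qX hO) (fun η _ => AN.gau_qX_smul (Om η))
      (fun η hη => AN.gau_qX_pos (hI η hη))
  have hG : ∀ s : ℝ, 0 < s → ContinuousOn (fun η => AN.Gs κ (Om η) s) 𝒞 := by
    intro s hs
    have hs' : 0 < s * (κ ^ 2)⁻¹ := by positivity
    have := zInt_gcont h𝒞 (fun η x => s * (κ ^ 2)⁻¹ * AN.gauQ (Om η) x) (continuousOn_const.mul (zInt_gQ hO))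
      (fun η _ t x => by rw [AN.gauQ_smul]; ring)
      (fun η hη x hx => mul_pos hs' (AN.gauQ_pos (hI η hη) x hx))
    exact this
  have hK0 : ∀ η ∈ 𝒞, 0 < AN.Kx (Om η) := fun η hη => AN.gau_Kx_pos (hI η hη)
  have hG0 : ∀ η ∈ 𝒞, 0 < AN.Gs κ (Om η) (1 / 2) := fun η hη => AN.gau_Gs_pos hκ (hI η hη) (by norm_num)
  unfold AN.Nf
  refine Real.continuous_sqrt.comp_continuousOn ?_
  refine (hG 1 one_pos).div (((hG (1 / 2) (by norm_num)).pow 2).mul hK) ?_
  intro η hη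
  have := hK0 η hη
  have := hG0 η hη
  positivity

/-- the substitution `x ↔ (η, s, X)` at scale `R` -/
noncomputable def zIntT (φ : Spl dh dm d) (ψ : Spl r ds dh) (R : ℝ) (x : Cfg d) : Cfg r × Cfg ds × Cfg dm :=
  (R⁻¹ • AN.hz ψ (AN.zy φ x), AN.hs ψ (AN.zy φ x), Real.sqrt R • AN.pm φ x)

theorem zIntT_cont (φ : Spl dh dm d) (ψ : Spl r ds dh) (R : ℝ) : Continuous (zIntT φ ψ R) := by
  have a4 : Continuous (AN.zy φ : Cfg d → Cfg dh) := by unfold AN.zy; fun_prop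
  have a1 : Continuous fun x : Cfg d => AN.hz ψ (AN.zy φ x) := by unfold AN.hz; fun_prop
  have a2 : Continuous fun x : Cfg d => AN.hs ψ (AN.zy φ x) := by unfold AN.hs; fun_prop
  have a3 : Continuous fun x : Cfg d => AN.pm φ x := by unfold AN.pm; fun_prop
  unfold zIntT
  fun_prop

/-- the image measure is a finite multiple of the product measure -/
theorem zIntT_map (φ : Spl dh dm d) (ψ : Spl r ds dh) {R : ℝ} (hR : 0 < R) :
    Measure.map (zIntT φ ψ R) (volume : Measure (Cfg d)) =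
      (ENNReal.ofReal |(R⁻¹ ^ (9 * r))⁻¹| * ENNReal.ofReal |(Real.sqrt R ^ (9 * dm))⁻¹|) •
      ((volume : Measure (Cfg r)).prod ((volume : Measure (Cfg ds)).prod (volume : Measure (Cfg dm)))) := by
  have h1 : R⁻¹ ≠ 0 := (inv_pos.2 hR).ne'
  have h2 : Real.sqrt R ≠ 0 := (Real.sqrt_pos.2 hR).ne'
  have e1 := AN.wgt_map_smul (ι := Fin 9 × Fin r) R⁻¹ h1
  have e2 := AN.wgt_map_smul (ι := Fin 9 × Fin dm) (Real.sqrt R) h2
  have k1 : Fintype.card (Fin 9 × Fin r) = 9 * r := by simp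
  have k2 : Fintype.card (Fin 9 × Fin dm) = 9 * dm := by simp
  rw [k1] at e1
  rw [k2] at e2
  have mc : ∀ {ι : Type} [Fintype ι] (c : ℝ), Measurable (fun x : EuclideanSpace ℝ ι => c • x) :=
    fun c => (continuous_const_smul c).measurable
  have hm : Measure.map (Prod.map (fun x : Cfg r => R⁻¹ • x) (Prod.map (id : Cfg ds → Cfg ds)
      (fun x : Cfg dm => Real.sqrt R • x)))
      ((volume : Measure (Cfg r)).prod ((volume : Measure (Cfg ds)).prod (volume : Measure (Cfg dm)))) =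
      (ENNReal.ofReal |(R⁻¹ ^ (9 * r))⁻¹| * ENNReal.ofReal |(Real.sqrt R ^ (9 * dm))⁻¹|) •
      ((volume : Measure (Cfg r)).prod ((volume : Measure (Cfg ds)).prod (volume : Measure (Cfg dm)))) := by
    rw [← Measure.map_prod_map _ _ (mc R⁻¹) (measurable_id.prodMap (mc (Real.sqrt R))),
      ← Measure.map_prod_map _ _ measurable_id (mc (Real.sqrt R)), Measure.map_id, e1, e2,
      Measure.prod_smul_right, Measure.prod_smul_left, Measure.prod_smul_right, smul_smul]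
  have hmp := AN.wgt_mp φ ψ
  rw [← hm, ← hmp.map_eq, Measure.map_map ((mc R⁻¹).prodMap ((measurable_id (α := Cfg ds)).prodMap
    (mc (ι := Fin 9 × Fin dm) (Real.sqrt R)))) hmp.measurable]
  rfl

/-- the projection to `(η, s)` -/
theorem zInt_proj : Measure.QuasiMeasurePreserving (fun q : Cfg r × Cfg ds × Cfg dm => (q.1, q.2.1))
    ((volume : Measure (Cfg r)).prod ((volume : Measure (Cfg ds)).prod (volume : Measure (Cfg dm))))
    ((volume : Measure (Cfg r)).prod (volume : Measure (Cfg ds))) := by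
  have h1 := (measurePreserving_prodAssoc (volume : Measure (Cfg r)) (volume : Measure (Cfg ds))
      (volume : Measure (Cfg dm))).symm
  have h2 : Measure.QuasiMeasurePreserving (Prod.fst : (Cfg r × Cfg ds) × Cfg dm → Cfg r × Cfg ds)
      (((volume : Measure (Cfg r)).prod (volume : Measure (Cfg ds))).prod (volume : Measure (Cfg dm)))
      ((volume : Measure (Cfg r)).prod (volume : Measure (Cfg ds))) := Measure.quasiMeasurePreserving_fst
  exact h2.comp h1.quasiMeasurePreserving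

omit [InnerProductSpace ℂ F] in
/-- local integrability of a section, as a function of three variables -/
theorem zInt_loc (a : Cfg r → Cfg ds → F) (ha : MemLp (fun q : Cfg r × Cfg ds => a q.1 q.2) 2 (volume.prod volume))
    {A₁ : Set (Cfg r)} {A₂ : Set (Cfg ds)} {A₃ : Set (Cfg dm)} (h1 : IsCompact A₁) (h2 : IsCompact A₂) (h3 : IsCompact A₃) :
    IntegrableOn (fun q : Cfg r × Cfg ds × Cfg dm => a q.1 q.2.1) (A₁ ×ˢ (A₂ ×ˢ A₃))
      ((volume : Measure (Cfg r)).prod ((volume : Measure (Cfg ds)).prod (volume : Measure (Cfg dm)))) := by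
  have hl : IntegrableOn (fun q : Cfg r × Cfg ds => a q.1 q.2) (A₁ ×ˢ A₂) (volume.prod volume) :=
    (ha.locallyIntegrable (by norm_num)).integrableOn_isCompact (h1.prod h2)
  unfold IntegrableOn at hl ⊢
  rw [← Measure.prod_restrict] at hl
  rw [← Measure.prod_restrict, ← Measure.prod_restrict]
  have : IsFiniteMeasure ((volume : Measure (Cfg dm)).restrict A₃) :=
    ⟨by rw [Measure.restrict_apply_univ]; exact h3.measure_lt_top⟩
  have h4 := hl.comp_fst ((volume : Measure (Cfg dm)).restrict A₃)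
  have h5 := (measurePreserving_prodAssoc ((volume : Measure (Cfg r)).restrict A₁)
    ((volume : Measure (Cfg ds)).restrict A₂) ((volume : Measure (Cfg dm)).restrict A₃)).symm
  exact h5.integrable_comp_of_integrable h4

/-- the profile is measurable and bounded by the section -/
theorem zInt_bG (κ : ℝ) (Om : Cfg r → Matrix (Fin dm) (Fin dm) ℝ) {𝒞 : Set (Cfg r)} (h𝒞 : IsCompact 𝒞)
    (hO : ContinuousOn Om 𝒞) (hN : ContinuousOn (fun η => AN.Nf κ (Om η)) 𝒞)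
    (hq : ∀ η ∈ 𝒞, ∀ X : Cfg dm, 0 ≤ AN.qX (Om η) X)
    (a : Cfg r → Cfg ds → F) (ha : MemLp (fun q : Cfg r × Cfg ds => a q.1 q.2) 2 (volume.prod volume))
    (hs : ∀ η s, a η s ≠ 0 → η ∈ 𝒞) :
    AEStronglyMeasurable (AN.bG κ Om a)
      ((volume : Measure (Cfg r)).prod ((volume : Measure (Cfg ds)).prod (volume : Measure (Cfg dm)))) ∧
    ∃ N₀ : ℝ, 0 ≤ N₀ ∧ ∀ q : Cfg r × Cfg ds × Cfg dm, ‖AN.bG κ Om a q‖ ≤ N₀ * ‖a q.1 q.2.1‖ := by
  constructor
  · have hm : AEStronglyMeasurable (fun q : Cfg r × Cfg ds × Cfg dm => a q.1 q.2.1)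
        ((volume : Measure (Cfg r)).prod ((volume : Measure (Cfg ds)).prod (volume : Measure (Cfg dm)))) :=
      ha.1.comp_quasiMeasurePreserving zInt_proj
    have hS : MeasurableSet (𝒞 ×ˢ (Set.univ : Set (Cfg ds × Cfg dm))) := h𝒞.isClosed.measurableSet.prod MeasurableSet.univ
    have hg : ContinuousOn (fun q : Cfg r × Cfg ds × Cfg dm =>
        ((AN.Nf κ (Om q.1) * Real.exp (-(1 / 2) * AN.qX (Om q.1) q.2.2) : ℝ) : ℂ)) (𝒞 ×ˢ Set.univ) := by
      refine Complex.continuous_ofReal.comp_continuousOn (ContinuousOn.mul ?_ ?_)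
      · exact hN.comp continuousOn_fst (fun q hq => hq.1)
      · refine Real.continuous_exp.comp_continuousOn (continuousOn_const.mul ?_)
        exact (zInt_qX hO).comp (f := fun q : Cfg r × Cfg ds × Cfg dm => (q.1, q.2.2)) (by fun_prop)
          (fun q hq => ⟨hq.1, Set.mem_univ _⟩)
    have hgm := (aestronglyMeasurable_indicator_iff hS).2 (hg.aestronglyMeasurable
      (μ := (volume : Measure (Cfg r)).prod ((volume : Measure (Cfg ds)).prod (volume : Measure (Cfg dm)))) hS)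
    refine (hgm.smul hm).congr (Eventually.of_forall fun q => ?_)
    change Set.indicator (𝒞 ×ˢ (Set.univ : Set (Cfg ds × Cfg dm))) (fun q : Cfg r × Cfg ds × Cfg dm =>
        ((AN.Nf κ (Om q.1) * Real.exp (-(1 / 2) * AN.qX (Om q.1) q.2.2) : ℝ) : ℂ)) q • a q.1 q.2.1 = _
    unfold AN.bG
    by_cases h0 : a q.1 q.2.1 = 0
    · rw [h0, smul_zero, smul_zero]
    · rw [Set.indicator_of_mem (show q ∈ 𝒞 ×ˢ (Set.univ : Set (Cfg ds × Cfg dm)) from ⟨hs _ _ h0, Set.mem_univ _⟩)]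
  · obtain ⟨N₀, hN₀⟩ := h𝒞.exists_bound_of_continuousOn hN
    refine ⟨max N₀ 0, le_max_right _ _, fun q => ?_⟩
    unfold AN.bG
    by_cases h0 : a q.1 q.2.1 = 0
    · rw [h0, smul_zero, norm_zero, mul_zero]
    have hm := hs _ _ h0
    rw [norm_smul, Complex.norm_real, norm_mul, Real.norm_of_nonneg (Real.exp_pos _).le]
    refine mul_le_mul_of_nonneg_right ?_ (norm_nonneg _)
    have h1 := hN₀ _ hm
    have h2 : Real.exp (-(1 / 2) * AN.qX (Om q.1) q.2.2) ≤ 1 := by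
      rw [Real.exp_le_one_iff]
      have := hq _ hm q.2.2
      linarith
    calc ‖AN.Nf κ (Om q.1)‖ * Real.exp (-(1 / 2) * AN.qX (Om q.1) q.2.2) ≤ ‖AN.Nf κ (Om q.1)‖ * 1 :=
        mul_le_mul_of_nonneg_left h2 (norm_nonneg _)
      _ ≤ max N₀ 0 := by rw [mul_one]; exact h1.trans (le_max_left _ _)

/-- **EG-Int** integrability -/
theorem zInt (S : Setup d F) (φ : Spl dh dm d) (ψ : Spl r ds dh) : ZIntStmt S φ ψ := by
  intro _ _ _ L Om K U hB 𝒞 h𝒞 hdis
  have hnot : ∀ η ∈ 𝒞, η ∉ Coll L := fun η hη h => Set.disjoint_left.1 hdis hη h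
  have hI : ∀ η ∈ 𝒞, IsOm S.κ (DM (AX.Mz S φ (spsw ψ)) η) (Om η) := fun η hη => hB.om η (hB.det η (hnot η hη))
  have hO : ContinuousOn Om 𝒞 := by
    refine continuousOn_pi.2 fun A => continuousOn_pi.2 fun B => ?_
    exact (hB.om_smooth A B).continuousOn.mono fun η hη => hB.det η (hnot η hη)
  have hN : ContinuousOn (fun η => AN.Nf S.κ (Om η)) 𝒞 := zInt_Nf S.κ_pos h𝒞 hI hO
  refine ⟨hN, fun a ha hs R χ u hR hχ hχb hu => ?_⟩
  have hq : ∀ η ∈ 𝒞, ∀ X : Cfg dm, 0 ≤ AN.qX (Om η) X := by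
    intro η hη X
    rw [AN.gau_qX]
    exact Finset.sum_nonneg fun i _ => AN.gau_nn (hI η hη) _
  obtain ⟨hbm, N₀, hN₀, hbd⟩ := zInt_bG S.κ Om h𝒞 hO hN hq a ha hs
  have hR0 : 0 < R := lt_of_lt_of_le one_pos hR
  have hTc := zIntT_cont (d := d) φ ψ R
  have hTm := hTc.measurable
  have hmap := zIntT_map (d := d) φ ψ hR0
  -- measurability
  have hb : AEStronglyMeasurable (fun q : Cfg r × Cfg ds × Cfg dm => ((χ q : ℝ) : ℂ) • AN.bG S.κ Om a q)
      ((volume : Measure (Cfg r)).prod ((volume : Measure (Cfg ds)).prod (volume : Measure (Cfg dm)))) :=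
    (Complex.measurable_ofReal.comp hχ).aestronglyMeasurable.smul hbm
  have hb2 : AEStronglyMeasurable (fun x : Cfg d => ((χ (zIntT φ ψ R x) : ℝ) : ℂ) • AN.bG S.κ Om a (zIntT φ ψ R x)) volume := by
    have h1 : AEStronglyMeasurable (fun q : Cfg r × Cfg ds × Cfg dm => ((χ q : ℝ) : ℂ) • AN.bG S.κ Om a q)
        (Measure.map (zIntT φ ψ R) (volume : Measure (Cfg d))) := by
      rw [hmap]
      exact hb.smul_measure _
    exact h1.comp_measurable hTm
  have hZm : AEStronglyMeasurable (fun x : Cfg d =>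
      AN.Zb φ ψ (fun q => ((χ q : ℝ) : ℂ) • AN.bG S.κ Om a q) R x) volume := hb2.const_smul _
  have huc : Continuous u := hu.1.continuous
  -- the dominating function
  have hK : IsCompact (tsupport u) := hu.2
  have hKT := hK.image hTc
  set A₁ : Set (Cfg r) := Prod.fst '' (zIntT φ ψ R '' tsupport u) with hA₁
  set A₂ : Set (Cfg ds) := (fun q : Cfg r × Cfg ds × Cfg dm => q.2.1) '' (zIntT φ ψ R '' tsupport u) with hA₂
  set A₃ : Set (Cfg dm) := (fun q : Cfg r × Cfg ds × Cfg dm => q.2.2) '' (zIntT φ ψ R '' tsupport u) with hA₃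
  have c1 : IsCompact A₁ := hKT.image continuous_fst
  have c2 : IsCompact A₂ := hKT.image (by fun_prop)
  have c3 : IsCompact A₃ := hKT.image (by fun_prop)
  have hH : Integrable (Set.indicator (A₁ ×ˢ (A₂ ×ˢ A₃)) fun q : Cfg r × Cfg ds × Cfg dm => ‖a q.1 q.2.1‖)
      ((volume : Measure (Cfg r)).prod ((volume : Measure (Cfg ds)).prod (volume : Measure (Cfg dm)))) := by
    rw [integrable_indicator_iff (c1.isClosed.measurableSet.prod (c2.isClosed.measurableSet.prod c3.isClosed.measurableSet))]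
    exact (zInt_loc a ha c1 c2 c3).norm
  have hH2 : Integrable (fun x : Cfg d => Set.indicator (A₁ ×ˢ (A₂ ×ˢ A₃))
      (fun q : Cfg r × Cfg ds × Cfg dm => ‖a q.1 q.2.1‖) (zIntT φ ψ R x)) volume := by
    have h1 : Integrable (Set.indicator (A₁ ×ˢ (A₂ ×ˢ A₃)) fun q : Cfg r × Cfg ds × Cfg dm => ‖a q.1 q.2.1‖)
        (Measure.map (zIntT φ ψ R) (volume : Measure (Cfg d))) := by
      rw [hmap]
      exact hH.smul_measure (ENNReal.mul_ne_top ENNReal.ofReal_ne_top ENNReal.ofReal_ne_top)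
    exact h1.comp_measurable hTm
  obtain ⟨M, hM⟩ := hu.2.exists_bound_of_continuous huc
  have hM0 : 0 ≤ M := (norm_nonneg _).trans (hM 0)
  set c : ℝ := |R ^ (3 * (dm : ℝ) - 9 * (r : ℝ) / 2)| with hc
  have hc0 : 0 ≤ c := abs_nonneg _
  refine (hH2.const_mul (c * N₀ * M)).mono' (hZm.inner huc.aestronglyMeasurable) (Eventually.of_forall fun x => ?_)
  by_cases hux : u x = 0
  · rw [hux, inner_zero_right, norm_zero]
    refine mul_nonneg (by positivity) (Set.indicator_nonneg (fun q _ => norm_nonneg _) _)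
  · have hx : x ∈ tsupport u := subset_tsupport u hux
    have hTx : zIntT φ ψ R x ∈ zIntT φ ψ R '' tsupport u := ⟨x, hx, rfl⟩
    have hmem : zIntT φ ψ R x ∈ A₁ ×ˢ (A₂ ×ˢ A₃) := ⟨⟨_, hTx, rfl⟩, ⟨_, hTx, rfl⟩, ⟨_, hTx, rfl⟩⟩
    rw [Set.indicator_of_mem hmem]
    have hZ : ‖AN.Zb φ ψ (fun q => ((χ q : ℝ) : ℂ) • AN.bG S.κ Om a q) R x‖ ≤
        c * (N₀ * ‖a (zIntT φ ψ R x).1 (zIntT φ ψ R x).2.1‖) := by
      change ‖((R ^ (3 * (dm : ℝ) - 9 * (r : ℝ) / 2) : ℝ) : ℂ) • (((χ (zIntT φ ψ R x) : ℝ) : ℂ) •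
        AN.bG S.κ Om a (zIntT φ ψ R x))‖ ≤ _
      rw [norm_smul, Complex.norm_real, Real.norm_eq_abs, norm_smul, Complex.norm_real]
      refine mul_le_mul_of_nonneg_left ?_ hc0
      have h1 := hχb (zIntT φ ψ R x)
      rw [Real.norm_of_nonneg h1.1]
      calc χ (zIntT φ ψ R x) * ‖AN.bG S.κ Om a (zIntT φ ψ R x)‖ ≤ 1 * ‖AN.bG S.κ Om a (zIntT φ ψ R x)‖ :=
          mul_le_mul_of_nonneg_right h1.2 (norm_nonneg _)
        _ ≤ _ := by rw [one_mul]; exact hbd _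
    calc ‖inner ℂ (AN.Zb φ ψ (fun q => ((χ q : ℝ) : ℂ) • AN.bG S.κ Om a q) R x) (u x)‖
        ≤ ‖AN.Zb φ ψ (fun q => ((χ q : ℝ) : ℂ) • AN.bG S.κ Om a q) R x‖ * ‖u x‖ := norm_inner_le_norm _ _
      _ ≤ (c * (N₀ * ‖a (zIntT φ ψ R x).1 (zIntT φ ψ R x).2.1‖)) * M :=
          mul_le_mul hZ (hM x) (norm_nonneg _) (by positivity)
      _ = c * N₀ * M * ‖a (zIntT φ ψ R x).1 (zIntT φ ψ R x).2.1‖ := by ring

end Vale.Agent.P353.Z.AE
end

section

/-! # P353, all `N`, block L (LIO): the limit equation from block E -/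

open MeasureTheory Filter Topology Matrix
open scoped ContDiff

namespace Vale.Agent.P353.Z.AL

variable {d dh dm r ds n : ℕ} {F : Type*} [NormedAddCommGroup F] [InnerProductSpace ℂ F]

/-- **L-Eq** PROOF. `N = N0 S` (`FrameStmt`: `IsMass`), `μ = 0`: `QN S N (0/R²) β u = S.Q β u`. `ζ_j = b_j` (components of `b`, smooth, compact support off
`Coll L ∪ {0}`), `o_j ∈ IZm` (`ZmStmt (S.int φ ψ …)`, `Dat.zm`, `mem`, `val`, `Bun.K_th`). `ZL S φ ψ Om (chi (R n)) (R n) = ZZ` (rfl); shift the sequences so that `1 ≤ R n` and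
`chi (R n)` satisfies `CutA δ`. `GLimLStmt`: `R_nZZ_n(U pp ζ_j o_j)(Q_βu_n) - ZZ_n(U DF_β(pp ζ_j o_j))(u_n) → 0`. First term: `= ZZ_n(…)(R_nQ_βu_n)`, `SqM` sequence (`QInvStmt`), masses of shells
`≤ R_n²ena → 0`: UB (section over `tsupport ζ_j`; Iso not needed: `MemLp` as in L-Iso with `b = ζ_j e_j`). Sum over `j` (L-Lin): `∑_jU(η)DF_β(pp ζ_j o_j)(η,s) = sc U o (T.Q0 β b) η s` for a.e. `s`, every `η`:
`DF … (η,s) = -i∑_{iA}∂_{iA}ζ_j(η)(γ^iθ^{zA})_βo_j(s)`, `θ^{zA}_αo_j = ∑_k(T.th α A e_j)_k o_k` (`thT`), `T.g = S.g`. -/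
def LEqOfStmt (S : Setup d F) : Prop :=
  (∀ (dh dm r ds : ℕ) (φ : Spl dh dm d) (ψ : Spl r ds dh), AE.GLimLStmt S φ ψ) → AN.FrameStmt S → AE.QInvStmt S →
  (∀ (e : ℕ) (T : Setup e F), AE.ZmStmt T) → UBStmt S → LinStmt S → IsoStmt S → LEqStmt S

end Vale.Agent.P353.Z.AL
end

section

/-! # P353, all `N`, block L: the global functional has an `L²` kernel (prover helper182) -/

open MeasureTheory Filter Topology Matrix
open scoped ContDiff ENNReal

namespace Vale.Agent.P353.Z.AL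

variable {d : ℕ} {F : Type*} [NormedAddCommGroup F] [InnerProductSpace ℂ F]

/-- the kernel of `ZZ` is in `L²` -/
theorem zmem0 (S : Setup d F) {dh dm r ds : ℕ} {φ : Spl dh dm d} {ψ : Spl r ds dh}
    {L : Finset (Fin r → ℝ)} {Om : Cfg r → Matrix (Fin dm) (Fin dm) ℝ} {K : Submodule ℂ F} {U : Cfg r → F →L[ℂ] F}
    (hB : AX.Bun S φ (AX.Mz S φ (spsw ψ)) L Om K U) {A : Set (Cfg r)} (hA : IsCompact A) (hAR : A ⊆ Rg S φ ψ)
    {R : ℝ} (hR : 0 < R) {a : Cfg r → Cfg ds → F} (ha : Sec2 A a) :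
    MemLp (AN.Zb φ ψ (fun q => ((chi R q : ℝ) : ℂ) • AN.bG S.κ Om a q) R) 2 (volume : Measure (Cfg d)) := by
  have hdet : ∀ η ∈ A, (∑ i, DM (AX.Mz S φ (spsw ψ)) η i * DM (AX.Mz S φ (spsw ψ)) η i).det ≠ 0 := by
    intro η hη
    have h := hAR hη
    simp only [Rg, Set.mem_ofPred_eq] at h
    simp only [AX.DM_Dz]
    exact h
  have hO : ∀ B C, ContinuousOn (fun η => Om η B C) A := fun B C =>
    (hB.om_smooth B C).continuousOn.mono fun η hη => hdet η hη
  exact lin_memZ φ ψ S.κ_pos hA hO (fun η hη => hB.om η (hdet η hη)) ha hR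

/-- **L-ZMem** (same order of arguments as `LinStmt`) -/
theorem zmem (S : Setup d F) : FiniteDimensional ℂ F → ∀ (dh dm r ds : ℕ) (φ : Spl dh dm d) (ψ : Spl r ds dh)
    (L : Finset (Fin r → ℝ)) (Om : Cfg r → Matrix (Fin dm) (Fin dm) ℝ) (K : Submodule ℂ F) (U : Cfg r → F →L[ℂ] F),
    AX.Bun S φ (AX.Mz S φ (spsw ψ)) L Om K U → ∀ A, IsCompact A → A ⊆ Rg S φ ψ → ∀ R : ℝ, 0 < R →
    ∀ a : Cfg r → Cfg ds → F, Sec2 A a →
    MemLp (AN.Zb φ ψ (fun q => ((chi R q : ℝ) : ℂ) • AN.bG S.κ Om a q) R) 2 (volume : Measure (Cfg d)) :=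
  fun _ _ _ _ _ _ _ _ _ _ _ hB _ hA hAR _ hR _ ha => zmem0 S hB hA hAR hR ha

end Vale.Agent.P353.Z.AL
end
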