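import Mathlib
import Vale.Agent.P353.BdZ.B3
import Vale.Agent.P353.BdA.B1

set_option linter.all false

section

/-! # P353, all `N`, block D, D9: inner completeness (helper455) -/

open MeasureTheory Filter Topology
open scoped ContDiff

namespace Vale.Agent.P353.Z.AD

namespace IC

variable {d : ℕ} {F : Type*} [NormedAddCommGroup F] [InnerProductSpace ℂ F]

/-! ### linearity -/

lemma Q_add (S : Setup d F) (β : Fin 16) {u v : Cfg d → F} (hu : Setup.Tst u) (hv : Setup.Tst v)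
    (x : Cfg d) : S.Q β (fun y => u y + v y) x = S.Q β u x + S.Q β v x := by
  have h1 : ∀ i A, pd i A (fun y => u y + v y) x = pd i A u x + pd i A v x := fun i A =>
    pd_add (hu.diff x) (hv.diff x)
  simp only [Setup.Q, h1, map_add, smul_add, Finset.sum_add_distrib]
  abel

lemma Q_csmul (S : Setup d F) (β : Fin 16) (c : ℂ) {u : Cfg d → F} (hu : Setup.Tst u)
    (x : Cfg d) : S.Q β (fun y => c • u y) x = c • S.Q β u x := by
  have h1 : ∀ i A, pd i A (fun y => c • u y) x = c • pd i A u x := by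
    intro i A
    rw [pd_csmul (differentiableAt_const _) (hu.diff x)]
    simp
  simp only [Setup.Q, h1, map_smul, smul_add, Finset.smul_sum, smul_smul,
    mul_comm c]

lemma G_add (S : Setup d F) (C : Fin d) {u v : Cfg d → F} (hu : Setup.Tst u) (hv : Setup.Tst v)
    (x : Cfg d) : S.G C (fun y => u y + v y) x = S.G C u x + S.G C v x := by
  have h1 : ∀ i A, pd i A (fun y => u y + v y) x = pd i A u x + pd i A v x := fun i A =>
    pd_add (hu.diff x) (hv.diff x)
  simp only [Setup.G, h1, map_add, smul_add, Finset.sum_add_distrib]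
  abel

lemma G_csmul (S : Setup d F) (C : Fin d) (c : ℂ) {u : Cfg d → F} (hu : Setup.Tst u)
    (x : Cfg d) : S.G C (fun y => c • u y) x = c • S.G C u x := by
  have h1 : ∀ i A, pd i A (fun y => c • u y) x = c • pd i A u x := by
    intro i A
    rw [pd_csmul (differentiableAt_const _) (hu.diff x)]
    simp
  simp only [Setup.G, h1, map_smul, smul_add, Finset.smul_sum, smul_smul]
  congr 1
  refine Finset.sum_congr rfl fun i _ => Finset.sum_congr rfl fun A _ =>
    Finset.sum_congr rfl fun B _ => ?_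
  congr 1
  ring

lemma Tst_csmul (c : ℂ) {u : Cfg d → F} (hu : Setup.Tst u) : Setup.Tst (fun x => c • u x) := by
  refine ⟨contDiff_const.smul hu.1, hu.2.mono ?_⟩
  intro x hx
  simp only [Function.mem_support] at hx ⊢
  intro h0
  exact hx (by rw [h0, smul_zero])

lemma GInv_add {S : Setup d F} {u v : Cfg d → F} (hu : GInv S u) (hv : GInv S v) :
    GInv S (fun x => u x + v x) :=
  ⟨hu.1.add hv.1, fun C x => by rw [G_add S C hu.1 hv.1, hu.2, hv.2, add_zero]⟩

lemma GInv_csmul {S : Setup d F} (c : ℂ) {u : Cfg d → F} (hu : GInv S u) :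
    GInv S (fun x => c • u x) :=
  ⟨Tst_csmul c hu.1, fun C x => by rw [G_csmul S C c hu.1, hu.2, smul_zero]⟩

lemma GInv_zero (S : Setup d F) : GInv S (fun _ => (0 : F)) := by
  refine ⟨⟨contDiff_const, HasCompactSupport.zero⟩, fun C x => ?_⟩
  have h := G_csmul S C 0 (u := fun _ => (0 : F)) ⟨contDiff_const, HasCompactSupport.zero⟩ x
  simpa using h

lemma GInv_sum {S : Setup d F} {ι : Type*} (s : Finset ι) (a : ι → ℂ) {u : ι → Cfg d → F}
    (hu : ∀ k, GInv S (u k)) : GInv S (fun x => ∑ k ∈ s, a k • u k x) := by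
  classical
  induction s using Finset.induction_on with
  | empty => simpa using GInv_zero S
  | insert b s hb ih =>
    simp only [Finset.sum_insert hb]
    exact GInv_add (GInv_csmul (a b) (hu b)) ih

lemma GInv_sub {S : Setup d F} {u v : Cfg d → F} (hu : GInv S u) (hv : GInv S v) :
    GInv S (fun x => u x - v x) := by
  have h := GInv_add hu (GInv_csmul (-1) hv)
  simpa [sub_eq_add_neg] using h

/-! ### energy -/

lemma En_nonneg (S : Setup d F) (u : Cfg d → F) : 0 ≤ En S u :=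
  Finset.sum_nonneg fun _ _ => nsq_nonneg _

lemma En_add_le (S : Setup d F) {u v : Cfg d → F} (hu : Setup.Tst u) (hv : Setup.Tst v) :
    En S (fun x => u x + v x) ≤ 2 * En S u + 2 * En S v := by
  unfold En
  rw [Finset.mul_sum, Finset.mul_sum, ← Finset.sum_add_distrib]
  refine Finset.sum_le_sum fun β _ => ?_
  have h : S.Q β (fun x => u x + v x) = fun x => S.Q β u x + S.Q β v x :=
    funext fun x => Q_add S β hu hv x
  rw [h]
  exact nsq_add_le (hu.Q S β).memLp (hv.Q S β).memLp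

lemma nsq_csmul (c : ℂ) (u : Cfg d → F) : nsq (fun x => c • u x) = ‖c‖ ^ 2 * nsq u := by
  rw [nsq, nsq, ← integral_const_mul]
  congr 1
  funext x
  rw [norm_smul, mul_pow]

lemma En_csmul (S : Setup d F) (c : ℂ) {u : Cfg d → F} (hu : Setup.Tst u) :
    En S (fun x => c • u x) = ‖c‖ ^ 2 * En S u := by
  unfold En
  rw [Finset.mul_sum]
  refine Finset.sum_congr rfl fun β _ => ?_
  have h : S.Q β (fun x => c • u x) = fun x => c • S.Q β u x :=
    funext fun x => Q_csmul S β c hu x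
  rw [h, nsq_csmul]

lemma En_sub_le (S : Setup d F) {u v : Cfg d → F} (hu : Setup.Tst u) (hv : Setup.Tst v) :
    En S (fun x => u x - v x) ≤ 2 * En S u + 2 * En S v := by
  have h := En_add_le S hu (Tst_csmul (-1) hv)
  rw [En_csmul S (-1) hv] at h
  simpa [sub_eq_add_neg] using h

/-! ### weighted norm -/

/-- weighted integrability -/
def WI (u : Cfg d → F) : Prop :=
  Integrable (fun x => ‖u x‖ ^ 2 / (1 + ‖x‖ ^ 2)) (volume : Measure (Cfg d))

omit [InnerProductSpace ℂ F] in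
lemma wn_nonneg (u : Cfg d → F) : 0 ≤ wn u := integral_nonneg fun _ => by positivity

lemma continuous_wt : Continuous (fun x : Cfg d => (1 + ‖x‖ ^ 2)⁻¹) := by
  refine Continuous.inv₀ (by fun_prop) fun x => ?_
  positivity

omit [InnerProductSpace ℂ F] in
lemma wt_meas {u : Cfg d → F} (hu : AEStronglyMeasurable u (volume : Measure (Cfg d))) :
    AEStronglyMeasurable (fun x => ‖u x‖ ^ 2 / (1 + ‖x‖ ^ 2)) (volume : Measure (Cfg d)) := by
  simp only [div_eq_mul_inv]
  exact (hu.norm.pow 2).mul continuous_wt.aestronglyMeasurable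

omit [InnerProductSpace ℂ F] in
lemma wt_le (v : F) (x : Cfg d) : ‖v‖ ^ 2 / (1 + ‖x‖ ^ 2) ≤ ‖v‖ ^ 2 :=
  div_le_self (by positivity) (by nlinarith [sq_nonneg ‖x‖])

omit [InnerProductSpace ℂ F] in
lemma WI_of_memLp {u : Cfg d → F} (hu : MemLp u 2 (volume : Measure (Cfg d))) : WI u := by
  refine (memLp_norm_sq_int hu).mono' (wt_meas hu.1) (Eventually.of_forall fun x => ?_)
  rw [Real.norm_of_nonneg (by positivity)]
  exact wt_le _ _

omit [InnerProductSpace ℂ F] in
lemma wn_le_nsq {u : Cfg d → F} (hu : MemLp u 2 (volume : Measure (Cfg d))) : wn u ≤ nsq u :=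
  integral_mono_of_nonneg (Eventually.of_forall fun x => by positivity) (memLp_norm_sq_int hu)
    (Eventually.of_forall fun x => wt_le _ _)

omit [InnerProductSpace ℂ F] in
lemma wt_sub_le (v w : F) (x : Cfg d) : ‖v - w‖ ^ 2 / (1 + ‖x‖ ^ 2) ≤
    2 * (‖v‖ ^ 2 / (1 + ‖x‖ ^ 2)) + 2 * (‖w‖ ^ 2 / (1 + ‖x‖ ^ 2)) := by
  have h1 := norm_sub_le v w
  have h2 := norm_nonneg (v - w)
  have h3 : ‖v - w‖ ^ 2 ≤ 2 * ‖v‖ ^ 2 + 2 * ‖w‖ ^ 2 := by
    nlinarith [sq_nonneg (‖v‖ - ‖w‖)]
  have h4 : (0 : ℝ) < 1 + ‖x‖ ^ 2 := by positivity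
  rw [← mul_div_assoc, ← mul_div_assoc, ← add_div]
  exact div_le_div_of_nonneg_right h3 h4.le

omit [InnerProductSpace ℂ F] in
lemma WI.sub {u v : Cfg d → F} (hu : WI u) (hv : WI v)
    (mu : AEStronglyMeasurable u (volume : Measure (Cfg d)))
    (mv : AEStronglyMeasurable v (volume : Measure (Cfg d))) : WI (fun x => u x - v x) := by
  refine ((hu.const_mul 2).add (hv.const_mul 2)).mono' (wt_meas (mu.sub mv))
    (Eventually.of_forall fun x => ?_)
  rw [Real.norm_of_nonneg (by positivity)]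
  exact wt_sub_le _ _ _

omit [InnerProductSpace ℂ F] in
lemma wn_sub_le {u v : Cfg d → F} (hu : WI u) (hv : WI v) :
    wn (fun x => u x - v x) ≤ 2 * wn u + 2 * wn v := by
  have h : 2 * wn u + 2 * wn v = ∫ x, (2 * (‖u x‖ ^ 2 / (1 + ‖x‖ ^ 2)) +
      2 * (‖v x‖ ^ 2 / (1 + ‖x‖ ^ 2))) := by
    rw [integral_add (hu.const_mul 2) (hv.const_mul 2), integral_const_mul, integral_const_mul]
    rfl
  rw [h]
  exact integral_mono_of_nonneg (Eventually.of_forall fun x => by positivity)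
    ((hu.const_mul 2).add (hv.const_mul 2)) (Eventually.of_forall fun x => wt_sub_le _ _ _)

lemma wn_csmul (c : ℂ) (u : Cfg d → F) : wn (fun x => c • u x) = ‖c‖ ^ 2 * wn u := by
  rw [wn, wn, ← integral_const_mul]
  congr 1
  funext x
  rw [norm_smul, mul_pow, mul_div_assoc]

omit [InnerProductSpace ℂ F] in
lemma mas_nonneg (u : Cfg d → F) (A : Set (Cfg d)) : 0 ≤ mas u A :=
  integral_nonneg fun _ => by positivity

omit [InnerProductSpace ℂ F] in
lemma mas_le_wn {u : Cfg d → F} (hu : WI u) (s : ℝ) :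
    mas u (Metric.ball 0 s) ≤ (1 + s ^ 2) * wn u := by
  have h1 : mas u (Metric.ball 0 s) ≤ ∫ x in Metric.ball (0 : Cfg d) s,
      (1 + s ^ 2) * (‖u x‖ ^ 2 / (1 + ‖x‖ ^ 2)) := by
    refine integral_mono_of_nonneg (Eventually.of_forall fun x => by positivity)
      (hu.const_mul _).integrableOn ?_
    filter_upwards [ae_restrict_mem Metric.isOpen_ball.measurableSet] with x hx
    rw [Metric.mem_ball, dist_zero_right] at hx
    have h4 : (0 : ℝ) < 1 + ‖x‖ ^ 2 := by positivity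
    have h5 : ‖x‖ ^ 2 ≤ s ^ 2 := by
      have := norm_nonneg x
      nlinarith
    rw [← mul_div_assoc, le_div_iff₀ h4]
    have h6 : 0 ≤ ‖u x‖ ^ 2 := by positivity
    nlinarith
  refine h1.trans ?_
  rw [integral_const_mul]
  refine mul_le_mul_of_nonneg_left ?_ (by positivity)
  exact setIntegral_le_integral hu (Eventually.of_forall fun x => by positivity)

omit [InnerProductSpace ℂ F] in
lemma mas_mono {u : Cfg d → F} (hu : MemLp u 2 (volume : Measure (Cfg d))) {s t : ℝ} (h : s ≤ t) :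
    mas u (Metric.ball 0 s) ≤ mas u (Metric.ball 0 t) :=
  setIntegral_mono_set (memLp_norm_sq_int hu).integrableOn
    (Eventually.of_forall fun x => by positivity) (Metric.ball_subset_ball h).eventuallyLE

/-! ### local energy bound -/

lemma gradOp_bd (S : Setup d F) {K₀ s : ℝ} (hs : 0 < s) (hK₀ : 0 ≤ K₀) {χ : Cfg d → ℝ}
    (hχ : IsCut K₀ s χ) (β : Fin 16) : ∃ CG : ℝ, 0 ≤ CG ∧ ∀ x : Cfg d, ‖S.gradOp χ β x‖ ≤ CG ∧
      (3 * s ≤ ‖x‖ → S.gradOp χ β x = 0) := by
  obtain ⟨hχ1, hχ2, hχ3, hχ4, hχ5, hχ6, hχ7, hχ8⟩ := hχ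
  have hp : ∀ (i : Fin 9) (A : Fin d) (x : Cfg d), |pdr i A χ x| ≤ K₀ / s := by
    intro i A x
    by_cases hx : ‖x‖ < s
    · rw [hχ8 i A x hx, abs_zero]
      positivity
    · have h1 : s ≤ ‖x‖ := not_lt.mp hx
      have h2 := hχ7 i A x
      rw [le_div_iff₀ hs]
      exact (mul_le_mul_of_nonneg_left h1 (abs_nonneg _)).trans h2
  refine ⟨∑ i, ∑ A, (K₀ / s) * ‖S.vec (S.g i) A β‖, by positivity, fun x => ⟨?_, fun hx => ?_⟩⟩
  · unfold Setup.gradOp
    rw [norm_smul, norm_neg, Complex.norm_I, one_mul]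
    refine (norm_sum_le _ _).trans (Finset.sum_le_sum fun i _ => ?_)
    refine (norm_sum_le _ _).trans (Finset.sum_le_sum fun A _ => ?_)
    rw [norm_smul, Complex.norm_real, Real.norm_eq_abs]
    exact mul_le_mul_of_nonneg_right (hp i A x) (norm_nonneg _)
  · have h0 : ∀ (i : Fin 9) (A : Fin d), pdr i A χ x = 0 := by
      intro i A
      have h1 : χ =ᶠ[𝓝 x] fun _ => 0 := by
        have h2 : {y : Cfg d | 2 * s < ‖y‖} ∈ 𝓝 x :=
          (isOpen_lt continuous_const continuous_norm).mem_nhds (by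
            change 2 * s < ‖x‖
            linarith)
        filter_upwards [h2] with y hy
        exact hχ6 y (le_of_lt hy)
      rw [pdr, h1.fderiv_eq]
      simp
    simp [Setup.gradOp, h0]

lemma loc_en (S : Setup d F) {s : ℝ} (hs : 0 < s) : ∃ K : ℝ, 0 ≤ K ∧
    ∀ u : Cfg d → F, Setup.Tst u →
    ∑ i, ∑ A, (∫ x in Metric.ball (0 : Cfg d) s, ‖pd i A u x‖ ^ 2) ≤
      K * (mas u (Metric.ball 0 (3 * s)) + En S u) := by
  obtain ⟨K₀, hK₀, hcut⟩ := exists_cut (d := d)
  obtain ⟨χ, hχ⟩ := hcut s hs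
  choose CG hCG hCG2 using fun β => gradOp_bd S hs hK₀ hχ β
  obtain ⟨hχ1, hχ2, hχ3, hχ4, hχ5, hχ6, hχ7, hχ8⟩ := hχ
  obtain ⟨CF', hCF'⟩ := (isCompact_closedBall (0 : Cfg d) (3 * s)).exists_bound_of_continuousOn
    (contDiff_Fx S).continuous.continuousOn
  set CF : ℝ := max CF' 0 with hCFd
  have hCF0 : 0 ≤ CF := le_max_right _ _
  have hCF : ∀ x : Cfg d, ‖x‖ ≤ 3 * s → ‖S.Fx x‖ ≤ CF := fun x hx =>
    (hCF' x (by rwa [Metric.mem_closedBall, dist_zero_right])).trans (le_max_left _ _)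
  refine ⟨1 / 4 + 1 / 4 * ∑ β, CG β ^ 2 + 2 * CF, by positivity, fun u hu => ?_⟩
  set M : ℝ := mas u (Metric.ball 0 (3 * s)) with hMd
  have hM0 : 0 ≤ M := mas_nonneg _ _
  have hE0 : 0 ≤ En S u := En_nonneg _ _
  set v : Cfg d → F := fun x => ((χ x : ℝ) : ℂ) • u x with hvd
  have hv : Setup.Tst v := hu.rsmul hχ1
  have hind : Integrable ((Metric.ball (0 : Cfg d) (3 * s)).indicator fun x => ‖u x‖ ^ 2) :=
    hu.norm_sq_int.indicator Metric.isOpen_ball.measurableSet
  have hMi : ∫ x, (Metric.ball (0 : Cfg d) (3 * s)).indicator (fun x => ‖u x‖ ^ 2) x = M :=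
    integral_indicator Metric.isOpen_ball.measurableSet
  have hout : ∀ x : Cfg d, x ∉ Metric.ball (0 : Cfg d) (3 * s) → v x = 0 := by
    intro x hx
    rw [Metric.mem_ball, dist_zero_right, not_lt] at hx
    simp only [hvd]
    rw [hχ6 x (by linarith)]
    simp
  have hvle : ∀ x, ‖v x‖ ^ 2 ≤ (Metric.ball (0 : Cfg d) (3 * s)).indicator (fun x => ‖u x‖ ^ 2) x := by
    intro x
    by_cases hx : x ∈ Metric.ball (0 : Cfg d) (3 * s)
    · rw [Set.indicator_of_mem hx]
      simp only [hvd, norm_smul, Complex.norm_real, Real.norm_of_nonneg (hχ3 x), mul_pow]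
      have h1 : χ x ^ 2 ≤ 1 := pow_le_one₀ (hχ3 x) (hχ4 x)
      have h2 : 0 ≤ ‖u x‖ ^ 2 := by positivity
      nlinarith
    · rw [Set.indicator_of_notMem hx, hout x hx]
      simp
  -- energy of the cutoff
  have hQ : ∀ β, ∫ x, ‖S.Q β v x‖ ^ 2 ≤ 2 * nsq (S.Q β u) + 2 * CG β ^ 2 * M := by
    intro β
    rw [← hMi, nsq, ← integral_const_mul, ← integral_const_mul, ← integral_add
      ((hu.Q S β).norm_sq_int.const_mul _) (hind.const_mul _)]
    refine integral_mono_of_nonneg (Eventually.of_forall fun x => by positivity)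
      (((hu.Q S β).norm_sq_int.const_mul _).add (hind.const_mul _))
      (Eventually.of_forall fun x => ?_)
    have h1 := S.Q_cut χ β u x (hχ1.differentiable (by simp) x) (hu.diff x)
    have h2 : ‖((χ x : ℝ) : ℂ) • S.Q β u x‖ ≤ ‖S.Q β u x‖ := by
      rw [norm_smul, Complex.norm_real, Real.norm_of_nonneg (hχ3 x)]
      exact mul_le_of_le_one_left (norm_nonneg _) (hχ4 x)
    have h3 : ‖S.gradOp χ β x (u x)‖ ^ 2 ≤
        CG β ^ 2 * (Metric.ball (0 : Cfg d) (3 * s)).indicator (fun x => ‖u x‖ ^ 2) x := by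
      by_cases hx : x ∈ Metric.ball (0 : Cfg d) (3 * s)
      · rw [Set.indicator_of_mem hx, ← mul_pow]
        refine pow_le_pow_left₀ (norm_nonneg _) (((S.gradOp χ β x).le_opNorm _).trans ?_) 2
        exact mul_le_mul_of_nonneg_right ((hCG2 β x).1) (norm_nonneg _)
      · rw [Set.indicator_of_notMem hx]
        rw [Metric.mem_ball, dist_zero_right, not_lt] at hx
        rw [(hCG2 β x).2 hx]
        simp
    have h4 : S.Q β v x = ((χ x : ℝ) : ℂ) • S.Q β u x + S.gradOp χ β x (u x) := h1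
    simp only
    rw [h4]
    have h5 := norm_add_le (((χ x : ℝ) : ℂ) • S.Q β u x) (S.gradOp χ β x (u x))
    have h6 := norm_nonneg (((χ x : ℝ) : ℂ) • S.Q β u x)
    have h7 := norm_nonneg (S.gradOp χ β x (u x))
    have h8 := norm_nonneg (((χ x : ℝ) : ℂ) • S.Q β u x + S.gradOp χ β x (u x))
    nlinarith [sq_nonneg (‖((χ x : ℝ) : ℂ) • S.Q β u x‖ - ‖S.gradOp χ β x (u x)‖)]
  have hef := energy_formula S v hv
  have hV : 0 ≤ ∫ x, S.V x * ‖v x‖ ^ 2 := by
    refine integral_nonneg fun x => mul_nonneg ?_ (by positivity)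
    unfold Setup.V
    positivity
  have hFv : Setup.Tst (fun x => S.Fx x (v x)) := hv.clm (contDiff_Fx S)
  have hF : -(CF * M) ≤ ∫ x, (inner ℂ (v x) (S.Fx x (v x))).re := by
    have h1 : ‖∫ x, (inner ℂ (v x) (S.Fx x (v x))).re‖ ≤
        ∫ x, CF * (Metric.ball (0 : Cfg d) (3 * s)).indicator (fun x => ‖u x‖ ^ 2) x := by
      refine norm_integral_le_of_norm_le (hind.const_mul _) (Eventually.of_forall fun x => ?_)
      have h2 : ‖(inner ℂ (v x) (S.Fx x (v x))).re‖ ≤ ‖v x‖ * ‖S.Fx x (v x)‖ := by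
        rw [Real.norm_eq_abs]
        exact (Complex.abs_re_le_norm _).trans (norm_inner_le_norm _ _)
      refine h2.trans ?_
      by_cases hx : x ∈ Metric.ball (0 : Cfg d) (3 * s)
      · have h3 : ‖S.Fx x (v x)‖ ≤ CF * ‖v x‖ := by
          refine ((S.Fx x).le_opNorm _).trans (mul_le_mul_of_nonneg_right ?_ (norm_nonneg _))
          rw [Metric.mem_ball, dist_zero_right] at hx
          exact hCF x hx.le
        have h4 := hvle x
        calc ‖v x‖ * ‖S.Fx x (v x)‖ ≤ ‖v x‖ * (CF * ‖v x‖) :=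
              mul_le_mul_of_nonneg_left h3 (norm_nonneg _)
          _ = CF * ‖v x‖ ^ 2 := by ring
          _ ≤ _ := mul_le_mul_of_nonneg_left h4 hCF0
      · rw [hout x hx]
        simp only [norm_zero, zero_mul]
        exact mul_nonneg hCF0 (Set.indicator_nonneg (fun _ _ => by positivity) _)
    rw [integral_const_mul, hMi, Real.norm_eq_abs] at h1
    exact neg_le_of_abs_le h1
  have hpd : ∑ i, ∑ A, (∫ x in Metric.ball (0 : Cfg d) s, ‖pd i A u x‖ ^ 2) ≤
      ∑ i, ∑ A, ∫ x, ‖pd i A v x‖ ^ 2 := by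
    refine Finset.sum_le_sum fun i _ => Finset.sum_le_sum fun A _ => ?_
    have h1 : ∫ x in Metric.ball (0 : Cfg d) s, ‖pd i A u x‖ ^ 2 =
        ∫ x in Metric.ball (0 : Cfg d) s, ‖pd i A v x‖ ^ 2 := by
      refine setIntegral_congr_fun Metric.isOpen_ball.measurableSet fun x hx => ?_
      have h2 : v =ᶠ[𝓝 x] u := by
        filter_upwards [Metric.isOpen_ball.mem_nhds hx] with y hy
        rw [Metric.mem_ball, dist_zero_right] at hy
        simp only [hvd]
        rw [hχ5 y hy.le]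
        simp
      have h3 : pd i A v x = pd i A u x := by
        unfold pd
        rw [h2.fderiv_eq]
      simp only [h3]
    rw [h1]
    exact setIntegral_le_integral (hv.pd i A).norm_sq_int
      (Eventually.of_forall fun x => by positivity)
  have hQs : ∑ β, ∫ x, ‖S.Q β v x‖ ^ 2 ≤ 2 * En S u + 2 * (∑ β, CG β ^ 2) * M := by
    refine (Finset.sum_le_sum fun β _ => hQ β).trans (le_of_eq ?_)
    rw [Finset.sum_add_distrib, En, Finset.mul_sum, Finset.mul_sum, Finset.sum_mul]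
  have hG0 : 0 ≤ ∑ β, CG β ^ 2 := by positivity
  nlinarith [mul_nonneg hG0 hM0, mul_nonneg hCF0 hM0, mul_nonneg hG0 hE0, mul_nonneg hCF0 hE0]

/-! ### the component orthogonal to the zero modes -/

/-- component orthogonal to the `o j` -/
noncomputable def rr {n : ℕ} (o : Fin n → Cfg d → F) (u : Cfg d → F) (x : Cfg d) : F :=
  u x - ∑ j, (∫ z, inner ℂ (o j z) (u z)) • o j x

lemma rr_memLp {n : ℕ} {o : Fin n → Cfg d → F} (ho : ∀ j, MemLp (o j) 2 (volume : Measure (Cfg d)))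
    {u : Cfg d → F} (hu : MemLp u 2 (volume : Measure (Cfg d))) :
    MemLp (rr o u) 2 (volume : Measure (Cfg d)) :=
  hu.sub (memLp_finsetSum _ fun j _ => (ho j).const_smul _)

lemma rr_csmul {n : ℕ} (o : Fin n → Cfg d → F) (c : ℂ) (u : Cfg d → F) :
    rr o (fun x => c • u x) = fun x => c • rr o u x := by
  funext x
  simp only [rr, inner_smul_right, integral_const_mul, smul_sub, Finset.smul_sum, smul_smul]

lemma inner_rr {n : ℕ} {o : Fin n → Cfg d → F} (ho : ∀ j, MemLp (o j) 2 (volume : Measure (Cfg d)))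
    (hO : ∀ j k, ∫ x, inner ℂ (o j x) (o k x) = if j = k then 1 else 0)
    {u : Cfg d → F} (hu : MemLp u 2 (volume : Measure (Cfg d))) (j : Fin n) :
    ∫ x, inner ℂ (o j x) (rr o u x) = 0 := by
  simp only [rr, inner_sub_right, inner_sum, inner_smul_right]
  rw [integral_sub (integrable_inner_memLp (ho j) hu)
    (integrable_finsetSum _ fun k _ => (integrable_inner_memLp (ho j) (ho k)).const_mul _),
    integral_finsetSum _ fun k _ => (integrable_inner_memLp (ho j) (ho k)).const_mul _]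
  simp only [integral_const_mul, hO]
  simp

lemma Q_sum (S : Setup d F) (β : Fin 16) {ι : Type*} (s : Finset ι) (a : ι → ℂ)
    {u : ι → Cfg d → F} (hu : ∀ k, GInv S (u k)) (x : Cfg d) :
    S.Q β (fun y => ∑ k ∈ s, a k • u k y) x = ∑ k ∈ s, a k • S.Q β (u k) x := by
  classical
  induction s using Finset.induction_on with
  | empty =>
    have h := Q_csmul S β 0 (u := fun _ => (0 : F)) ⟨contDiff_const, HasCompactSupport.zero⟩ x
    simpa using h
  | insert b s hb ih =>
    simp only [Finset.sum_insert hb]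
    rw [← ih, ← Q_csmul S β _ (hu b).1, ← Q_add S β (Tst_csmul _ (hu b).1) (GInv_sum s a hu).1]

lemma En_sum_le (S : Setup d F) {n : ℕ} (a : Fin n → ℂ) {w : Fin n → Cfg d → F}
    (hw : ∀ k, GInv S (w k)) :
    En S (fun x => ∑ k, a k • w k x) ≤ n * ∑ k, ‖a k‖ ^ 2 * En S (w k) := by
  have h1 : ∀ β, nsq (S.Q β (fun x => ∑ k, a k • w k x)) ≤
      n * ∑ k, ‖a k‖ ^ 2 * nsq (S.Q β (w k)) := by
    intro β
    have h2 : S.Q β (fun x => ∑ k, a k • w k x) = fun x => ∑ k, a k • S.Q β (w k) x :=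
      funext fun x => Q_sum S β _ a hw x
    rw [h2]
    have h3 := nsq_sum_le Finset.univ (fun k x => a k • S.Q β (w k) x)
      fun k _ => ((hw k).1.Q S β).memLp.const_smul (a k)
    simpa only [Finset.card_univ, Fintype.card_fin, nsq_csmul] using h3
  unfold En
  refine (Finset.sum_le_sum fun β _ => h1 β).trans (le_of_eq ?_)
  rw [← Finset.mul_sum, Finset.sum_comm]
  simp only [Finset.mul_sum]

lemma approx {S : Setup d F} {n : ℕ} {o : Fin n → Cfg d → F} (ho : ∀ j, ZM S (o j))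
    {u : Cfg d → F} (hu : GInv S u) {ε : ℝ} (hε : 0 < ε) :
    ∃ v, GInv S v ∧ nsq (fun x => v x - rr o u x) ≤ ε ∧ En S v ≤ 2 * En S u + ε := by
  choose w hw1 hw2 hw3 using ho
  set a : Fin n → ℂ := fun j => ∫ z, inner ℂ (o j z) (u z) with ha
  have h1 : Tendsto (fun k => (n : ℝ) * ∑ j, ‖a j‖ ^ 2 * nsq (fun x => w j k x - o j x)) atTop
      (𝓝 0) := by
    have h2 : Tendsto (fun k => (n : ℝ) * ∑ j, ‖a j‖ ^ 2 * nsq (fun x => w j k x - o j x)) atTop
        (𝓝 ((n : ℝ) * ∑ j, ‖a j‖ ^ 2 * 0)) :=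
      (tendsto_finsetSum _ fun j _ => ((hw2 j).lim).const_mul _).const_mul _
    simpa using h2
  have h2 : Tendsto (fun k => 2 * ((n : ℝ) * ∑ j, ‖a j‖ ^ 2 * En S (w j k))) atTop (𝓝 0) := by
    have h2 : Tendsto (fun k => 2 * ((n : ℝ) * ∑ j, ‖a j‖ ^ 2 * En S (w j k))) atTop
        (𝓝 (2 * ((n : ℝ) * ∑ j, ‖a j‖ ^ 2 * 0))) :=
      ((tendsto_finsetSum _ fun j _ => (hw3 j).const_mul _).const_mul _).const_mul _
    simpa using h2
  obtain ⟨k, hk1, hk2⟩ := ((h1.eventually_le_const hε).and (h2.eventually_le_const hε)).exists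
  refine ⟨fun x => u x - ∑ j, a j • w j k x, GInv_sub hu (GInv_sum _ _ fun j => hw1 j k), ?_, ?_⟩
  · have h3 : nsq (fun x => u x - ∑ j, a j • w j k x - rr o u x) =
        nsq (fun x => ∑ j, a j • (w j k x - o j x)) := by
      unfold nsq
      congr 1
      funext x
      have h4 : u x - ∑ j, a j • w j k x - rr o u x = -∑ j, a j • (w j k x - o j x) := by
        simp only [rr, ← ha, smul_sub, Finset.sum_sub_distrib]
        abel
      beta_reduce
      rw [h4, norm_neg]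
    rw [h3]
    have h5 := nsq_sum_le Finset.univ (fun j x => a j • (w j k x - o j x))
      fun j _ => (((hw2 j).mem k).sub (hw2 j).mem').const_smul (a j)
    simp only [Finset.card_univ, Fintype.card_fin, nsq_csmul] at h5
    exact h5.trans hk1
  · have h3 := En_sub_le S hu.1 (GInv_sum Finset.univ a fun j => hw1 j k).1
    have h4 := En_sum_le S a (w := fun j => w j k) fun j => hw1 j k
    linarith

/-! ### limits -/

omit [InnerProductSpace ℂ F] in
/-- bounds on balls give global bounds -/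
lemma ball_bound {g : Cfg d → ℝ} (hg : ∀ x, 0 ≤ g x)
    (hi : ∀ s : ℝ, 0 < s → IntegrableOn g (Metric.ball 0 s)) {B : ℝ}
    (hB : ∀ s : ℝ, 0 < s → ∫ x in Metric.ball (0 : Cfg d) s, g x ≤ B) :
    Integrable g ∧ ∫ x, g x ≤ B := by
  have hr : Tendsto (fun n : ℕ => (n : ℝ) + 1) atTop atTop :=
    tendsto_atTop_add_const_right _ _ tendsto_natCast_atTop_atTop
  have hφ : AECover (volume : Measure (Cfg d)) atTop
      (fun n : ℕ => Metric.ball (0 : Cfg d) ((n : ℝ) + 1)) := aecover_ball hr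
  have h1 : Integrable g := hφ.integrable_of_integral_bounded_of_nonneg_ae B
    (fun n => hi _ (by positivity)) (Eventually.of_forall hg)
    (Eventually.of_forall fun n => hB _ (by positivity))
  refine ⟨h1, ?_⟩
  exact le_of_tendsto' (hφ.integral_tendsto_of_countably_generated h1)
    fun n => hB _ (by positivity)

lemma am_gm (v w : F) (x : Cfg d) {ε : ℝ} (hε : 0 < ε) : ‖(inner ℂ v w : ℂ)‖ ≤
    ε / 2 * ((1 + ‖x‖ ^ 2) * ‖v‖ ^ 2) + 1 / (2 * ε) * (‖w‖ ^ 2 / (1 + ‖x‖ ^ 2)) := by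
  have h1 := norm_inner_le_norm (𝕜 := ℂ) v w
  refine h1.trans ?_
  have ht : 0 < 1 + ‖x‖ ^ 2 := by positivity
  set t := 1 + ‖x‖ ^ 2 with htd
  have h2 : ε / 2 * (t * ‖v‖ ^ 2) + 1 / (2 * ε) * (‖w‖ ^ 2 / t) - ‖v‖ * ‖w‖ =
      (ε * t * ‖v‖ - ‖w‖) ^ 2 / (2 * ε * t) := by
    field_simp
    ring
  have h3 : 0 ≤ (ε * t * ‖v‖ - ‖w‖) ^ 2 / (2 * ε * t) := by positivity
  linarith

/-- convergence of a sequence with vanishing energy and bounded weighted norm -/
lemma compact (S : Setup d F) {ρ₀ C₀ : ℝ} (hC₀ : 0 ≤ C₀)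
    (hH : ∀ u, GInv S u → wn u ≤ C₀ * (mas u (Metric.ball 0 ρ₀) + En S u)) (hρ₀ : 0 < ρ₀)
    (hLR : U.LRStmt d F) {v : ℕ → Cfg d → F} (hv : ∀ n, GInv S (v n)) {B : ℝ}
    (hB : ∀ n, wn (v n) ≤ B) (hE : Tendsto (fun n => En S (v n)) atTop (𝓝 0)) :
    ∃ φ : ℕ → ℕ, StrictMono φ ∧ ∃ Ψ : Cfg d → F, KW S Ψ ∧ WI Ψ ∧
      (∀ n, WI (fun x => v (φ n) x - Ψ x)) ∧
      Tendsto (fun n => wn (fun x => v (φ n) x - Ψ x)) atTop (𝓝 0) := by
  obtain ⟨E₀, hE₀⟩ : ∃ E₀ : ℝ, ∀ n, En S (v n) ≤ E₀ := by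
    obtain ⟨E₀, hE₀⟩ := hE.bddAbove_range
    exact ⟨E₀, fun n => hE₀ ⟨n, rfl⟩⟩
  have hm : ∀ n, MemLp (v n) 2 (volume : Measure (Cfg d)) := fun n => (hv n).1.memLp
  obtain ⟨φ, hφ, Ψ, hΨm, hΨi, hΨl⟩ := hLR v (fun n => (hv n).1.1) (by
    intro s hs
    obtain ⟨K, hK, hK2⟩ := loc_en S hs
    refine ⟨(1 + s ^ 2) * B + K * ((1 + (3 * s) ^ 2) * B + E₀), fun n => add_le_add ?_ ?_⟩
    · exact (mas_le_wn (WI_of_memLp (hm n)) s).trans
        (mul_le_mul_of_nonneg_left (hB n) (by positivity))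
    · refine (hK2 (v n) (hv n).1).trans (mul_le_mul_of_nonneg_left (add_le_add ?_ (hE₀ n)) hK)
      exact (mas_le_wn (WI_of_memLp (hm n)) _).trans
        (mul_le_mul_of_nonneg_left (hB n) (by positivity)))
  set f : ℕ → Cfg d → F := fun n => v (φ n) with hfd
  have hf : ∀ n, GInv S (f n) := fun n => hv _
  have hfm : ∀ n, MemLp (f n) 2 (volume : Measure (Cfg d)) := fun n => hm _
  have hfE : Tendsto (fun n => En S (f n)) atTop (𝓝 0) := hE.comp hφ.tendsto_atTop
  have hΨL : ∀ s : ℝ, 0 < s → MemLp Ψ 2 (volume.restrict (Metric.ball (0 : Cfg d) s)) := fun s hs =>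
    (memLp_two_iff_integrable_sq_norm hΨm.aestronglyMeasurable).mpr (hΨi s hs)
  have hdi : ∀ n, ∀ s : ℝ, 0 < s →
      IntegrableOn (fun x => ‖f n x - Ψ x‖ ^ 2) (Metric.ball (0 : Cfg d) s) := fun n s hs =>
    ((hfm n).restrict _ |>.sub (hΨL s hs)).integrable_norm_pow (by norm_num)
  set δ : ℕ → ℝ := fun n => ∫ x in Metric.ball (0 : Cfg d) ρ₀, ‖f n x - Ψ x‖ ^ 2 with hδd
  have hδ : Tendsto δ atTop (𝓝 0) := hΨl ρ₀ hρ₀
  have hδ0 : ∀ n, 0 ≤ δ n := fun n => integral_nonneg fun _ => by positivity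
  -- Cauchy estimate
  have hA : ∀ n m, wn (fun x => f n x - f m x) ≤
      C₀ * (2 * δ n + 2 * δ m + (2 * En S (f n) + 2 * En S (f m))) := by
    intro n m
    refine (hH _ (GInv_sub (hf n) (hf m))).trans (mul_le_mul_of_nonneg_left (add_le_add ?_
      (En_sub_le S (hf n).1 (hf m).1)) hC₀)
    rw [mas, hδd, ← integral_const_mul, ← integral_const_mul, ← integral_add
      ((hdi n ρ₀ hρ₀).const_mul _) ((hdi m ρ₀ hρ₀).const_mul _)]
    refine integral_mono_of_nonneg (Eventually.of_forall fun x => by positivity)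
      (((hdi n ρ₀ hρ₀).const_mul _).add ((hdi m ρ₀ hρ₀).const_mul _))
      (Eventually.of_forall fun x => ?_)
    have h1 : f n x - f m x = (f n x - Ψ x) - (f m x - Ψ x) := by abel
    simp only
    rw [h1]
    have h2 := norm_sub_le (f n x - Ψ x) (f m x - Ψ x)
    have h3 := norm_nonneg ((f n x - Ψ x) - (f m x - Ψ x))
    nlinarith [sq_nonneg (‖f n x - Ψ x‖ - ‖f m x - Ψ x‖)]
  have hwm : ∀ n, AEStronglyMeasurable (fun x => ‖f n x - Ψ x‖ ^ 2 / (1 + ‖x‖ ^ 2))
      (volume : Measure (Cfg d)) := fun n =>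
    wt_meas ((hfm n).1.sub hΨm.aestronglyMeasurable)
  have hwi : ∀ n, ∀ s : ℝ, 0 < s →
      IntegrableOn (fun x => ‖f n x - Ψ x‖ ^ 2 / (1 + ‖x‖ ^ 2)) (Metric.ball (0 : Cfg d) s) := by
    intro n s hs
    refine (hdi n s hs).mono' (hwm n).restrict (Eventually.of_forall fun x => ?_)
    rw [Real.norm_of_nonneg (by positivity)]
    exact wt_le _ _
  have hBn : ∀ n, ∀ s : ℝ, 0 < s →
      ∫ x in Metric.ball (0 : Cfg d) s, ‖f n x - Ψ x‖ ^ 2 / (1 + ‖x‖ ^ 2) ≤
      2 * (C₀ * (2 * δ n + 2 * 0 + (2 * En S (f n) + 2 * 0))) + 2 * 0 := by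
    intro n s hs
    have h1 : ∀ m, ∫ x in Metric.ball (0 : Cfg d) s, ‖f n x - Ψ x‖ ^ 2 / (1 + ‖x‖ ^ 2) ≤
        2 * (C₀ * (2 * δ n + 2 * δ m + (2 * En S (f n) + 2 * En S (f m)))) +
          2 * ∫ x in Metric.ball (0 : Cfg d) s, ‖f m x - Ψ x‖ ^ 2 := by
      intro m
      have hWI : WI (fun x => f n x - f m x) := WI_of_memLp ((hfm n).sub (hfm m))
      have h2 : ∫ x in Metric.ball (0 : Cfg d) s, ‖f n x - Ψ x‖ ^ 2 / (1 + ‖x‖ ^ 2) ≤
          ∫ x in Metric.ball (0 : Cfg d) s, (2 * (‖f n x - f m x‖ ^ 2 / (1 + ‖x‖ ^ 2)) +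
            2 * ‖f m x - Ψ x‖ ^ 2) := by
        refine integral_mono_of_nonneg (Eventually.of_forall fun x => by positivity)
          ((hWI.integrableOn.const_mul 2).add ((hdi m s hs).const_mul 2))
          (Eventually.of_forall fun x => ?_)
        have h3 : f n x - Ψ x = (f n x - f m x) - (Ψ x - f m x) := by abel
        have h4 := wt_sub_le (f n x - f m x) (Ψ x - f m x) x
        rw [← h3, norm_sub_rev (Ψ x) (f m x)] at h4
        have h5 := wt_le (f m x - Ψ x) x
        simp only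
        linarith
      refine h2.trans ?_
      rw [integral_add (hWI.integrableOn.const_mul 2) ((hdi m s hs).const_mul 2),
        integral_const_mul, integral_const_mul]
      refine add_le_add (mul_le_mul_of_nonneg_left ?_ (by norm_num)) le_rfl
      exact (setIntegral_le_integral hWI (Eventually.of_forall fun x => by positivity)).trans
        (hA n m)
    have h2 : Tendsto (fun m => 2 * (C₀ * (2 * δ n + 2 * δ m + (2 * En S (f n) + 2 * En S (f m)))) +
        2 * ∫ x in Metric.ball (0 : Cfg d) s, ‖f m x - Ψ x‖ ^ 2) atTop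
        (𝓝 (2 * (C₀ * (2 * δ n + 2 * 0 + (2 * En S (f n) + 2 * 0))) + 2 * 0)) := by
      refine Tendsto.add (Tendsto.const_mul _ (Tendsto.const_mul _ (Tendsto.add
        (Tendsto.const_add _ (hδ.const_mul _)) (Tendsto.const_add _ (hfE.const_mul _))))) ?_
      exact (hΨl s hs).const_mul _
    exact ge_of_tendsto' h2 h1
  have hC := fun n => ball_bound (g := fun x => ‖f n x - Ψ x‖ ^ 2 / (1 + ‖x‖ ^ 2))
    (fun x => by positivity) (hwi n) (hBn n)
  have hWd : ∀ n, WI (fun x => f n x - Ψ x) := fun n => (hC n).1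
  have hWΨ : WI Ψ := by
    have h1 := (WI_of_memLp (hfm 0)).sub (hWd 0) (hfm 0).1 ((hfm 0).1.sub hΨm.aestronglyMeasurable)
    simpa using h1
  have hlim : Tendsto (fun n => wn (fun x => f n x - Ψ x)) atTop (𝓝 0) := by
    refine squeeze_zero (fun n => wn_nonneg _) (fun n => (hC n).2) ?_
    have h1 : Tendsto (fun n => 2 * (C₀ * (2 * δ n + 2 * 0 + (2 * En S (f n) + 2 * 0))) + 2 * 0)
        atTop (𝓝 (2 * (C₀ * (2 * 0 + 2 * 0 + (2 * 0 + 2 * 0))) + 2 * 0)) :=
      ((((hδ.const_mul 2).add_const _).add ((hfE.const_mul 2).add_const _)).const_mul _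
        |>.const_mul _).add_const _
    simpa using h1
  exact ⟨φ, hφ, Ψ, ⟨hΨm.aestronglyMeasurable, f, hf, hWΨ, hlim, hfE⟩, hWΨ, hWd, hlim⟩

lemma core (S : Setup d F) {ρ₀ C₀ : ℝ} (hC₀ : 0 ≤ C₀)
    (hH : ∀ u, GInv S u → wn u ≤ C₀ * (mas u (Metric.ball 0 ρ₀) + En S u)) (hρ₀ : 0 < ρ₀)
    (hLR : U.LRStmt d F) {n : ℕ} {o : Fin n → Cfg d → F} (hoZ : ∀ j, ZM S (o j))
    (hoO : ∀ j k, ∫ x, inner ℂ (o j x) (o k x) = if j = k then 1 else 0)
    (hsp : ∀ u, KW S u → ∃ c : Fin n → ℂ, ∀ᵐ x ∂(volume : Measure (Cfg d)),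
      u x = ∑ j, c j • o j x)
    (hdec : ∀ j, Integrable (fun x => (1 + ‖x‖ ^ 2) * ‖o j x‖ ^ 2) (volume : Measure (Cfg d))) :
    ∃ C : ℝ, 0 ≤ C ∧ ∀ u, GInv S u → wn (rr o u) ≤ C * En S u := by
  have hom : ∀ j, MemLp (o j) 2 (volume : Measure (Cfg d)) := fun j => by
    obtain ⟨w, _, hw, _⟩ := hoZ j
    exact hw.mem'
  by_contra hcon
  push Not at hcon
  have hs : ∀ n : ℕ, ∃ u, GInv S u ∧ wn (rr o u) = 1 ∧ En S u ≤ 1 / ((n : ℝ) + 1) := by
    intro n
    obtain ⟨u, hu, hlt⟩ := hcon ((n : ℝ) + 1) (by positivity)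
    have hE := En_nonneg S u
    have hpos : 0 < wn (rr o u) := lt_of_le_of_lt (by positivity) hlt
    refine ⟨fun x => (((Real.sqrt (wn (rr o u)))⁻¹ : ℝ) : ℂ) • u x, GInv_csmul _ hu, ?_, ?_⟩
    · rw [rr_csmul, wn_csmul, Complex.norm_real, Real.norm_of_nonneg (by positivity), inv_pow,
        Real.sq_sqrt hpos.le, inv_mul_cancel₀ hpos.ne']
    · rw [En_csmul S _ hu.1, Complex.norm_real, Real.norm_of_nonneg (by positivity), inv_pow,
        Real.sq_sqrt hpos.le, inv_mul_le_iff₀ hpos, mul_one_div, le_div_iff₀ (by positivity)]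
      linarith
  choose u hu hu1 hu2 using hs
  have hv : ∀ n : ℕ, ∃ v, GInv S v ∧ nsq (fun x => v x - rr o (u n) x) ≤ 1 / ((n : ℝ) + 1) ∧
      En S v ≤ 2 * En S (u n) + 1 / ((n : ℝ) + 1) := fun n => approx hoZ (hu n) (by positivity)
  choose v hv hv1 hv2 using hv
  have hlim1 : Tendsto (fun n : ℕ => 1 / ((n : ℝ) + 1)) atTop (𝓝 0) :=
    tendsto_one_div_add_atTop_nhds_zero_nat
  have hrm : ∀ n, MemLp (rr o (u n)) 2 (volume : Measure (Cfg d)) := fun n =>
    rr_memLp hom (hu n).1.memLp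
  have hvr : ∀ n, MemLp (fun x => v n x - rr o (u n) x) 2 (volume : Measure (Cfg d)) := fun n =>
    (hv n).1.memLp.sub (hrm n)
  have hE : Tendsto (fun n => En S (v n)) atTop (𝓝 0) := by
    have h1 : Tendsto (fun n : ℕ => 2 * (1 / ((n : ℝ) + 1)) + 1 / ((n : ℝ) + 1)) atTop
        (𝓝 (2 * 0 + 0)) := (hlim1.const_mul 2).add hlim1
    rw [mul_zero, add_zero] at h1
    refine squeeze_zero (fun n => En_nonneg _ _) (fun n => ?_) h1
    have := hv2 n
    have := hu2 n
    linarith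
  have hwr : ∀ n, wn (fun x => v n x - rr o (u n) x) ≤ 1 / ((n : ℝ) + 1) := fun n =>
    (wn_le_nsq (hvr n)).trans (hv1 n)
  have hB : ∀ n, wn (v n) ≤ 4 := by
    intro n
    have h1 := wn_sub_le (WI_of_memLp (hvr n)) (WI_of_memLp (hrm n).neg)
    have h2 : (fun x => v n x - rr o (u n) x - (-rr o (u n)) x) = v n := by
      funext x
      simp
    have h3 : wn (-rr o (u n)) = wn (rr o (u n)) := by
      unfold wn
      simp
    rw [h2, h3, hu1] at h1
    have h4 := hwr n
    have h5 : 1 / ((n : ℝ) + 1) ≤ 1 := by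
      rw [div_le_one (by positivity)]
      have : (0 : ℝ) ≤ n := Nat.cast_nonneg n
      linarith
    linarith
  obtain ⟨φ, hφ, Ψ, hKΨ, hWΨ, hWd, hlim⟩ := compact S hC₀ hH hρ₀ hLR hv hB hE
  obtain ⟨c, hc⟩ := hsp Ψ hKΨ
  -- the remainders converge to the limit
  have hrd : ∀ n, WI (fun x => rr o (u (φ n)) x - Ψ x) := fun n =>
    (WI_of_memLp (hrm (φ n))).sub hWΨ (hrm (φ n)).1 hKΨ.1
  have hrl : Tendsto (fun n => wn (fun x => rr o (u (φ n)) x - Ψ x)) atTop (𝓝 0) := by
    have h1 : Tendsto (fun n => 2 * wn (fun x => v (φ n) x - Ψ x) + 2 * (1 / ((φ n : ℝ) + 1)))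
        atTop (𝓝 (2 * 0 + 2 * 0)) :=
      (hlim.const_mul 2).add ((hlim1.comp hφ.tendsto_atTop).const_mul 2)
    rw [mul_zero, add_zero] at h1
    refine squeeze_zero (fun n => wn_nonneg _) (fun n => ?_) h1
    have h2 := wn_sub_le (hWd n) (WI_of_memLp (hvr (φ n)))
    have h3 : (fun x => v (φ n) x - Ψ x - (v (φ n) x - rr o (u (φ n)) x)) =
        fun x => rr o (u (φ n)) x - Ψ x := by
      funext x
      abel
    rw [h3] at h2
    have h4 := hwr (φ n)
    linarith
  set g : Cfg d → F := fun x => ∑ j, c j • o j x with hg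
  have hgm : MemLp g 2 (volume : Measure (Cfg d)) :=
    memLp_finsetSum _ fun j _ => (hom j).const_smul _
  have hwg : ∀ n, wn (fun x => rr o (u (φ n)) x - Ψ x) =
      ∫ x, ‖g x - rr o (u (φ n)) x‖ ^ 2 / (1 + ‖x‖ ^ 2) := by
    intro n
    refine integral_congr_ae ?_
    filter_upwards [hc] with x hx
    rw [hx, norm_sub_rev]
  have hcz : ∀ j, c j = 0 := by
    intro j
    set A : ℝ := ∫ x, (1 + ‖x‖ ^ 2) * ‖o j x‖ ^ 2 with hA
    have hA0 : 0 ≤ A := integral_nonneg fun _ => by positivity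
    have h1 : ∫ x, inner ℂ (o j x) (g x) = c j := by
      simp only [hg, inner_sum, inner_smul_right]
      rw [integral_finsetSum _ fun k _ =>
        (integrable_inner_memLp (hom j) (hom k)).const_mul _]
      simp only [integral_const_mul, hoO]
      simp
    have h2 : ∀ n, ∫ x, inner ℂ (o j x) (g x - rr o (u (φ n)) x) = c j := by
      intro n
      simp only [inner_sub_right]
      rw [integral_sub (integrable_inner_memLp (hom j) hgm)
        (integrable_inner_memLp (hom j) (hrm _)), h1, inner_rr hom hoO (hu _).1.memLp, sub_zero]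
    have h3 : ∀ ε : ℝ, 0 < ε → ‖c j‖ ≤ ε / 2 * A := by
      intro ε hε
      have h4 : ∀ n, ‖c j‖ ≤ ε / 2 * A + 1 / (2 * ε) * wn (fun x => rr o (u (φ n)) x - Ψ x) := by
        intro n
        have hI : Integrable (fun x => ‖g x - rr o (u (φ n)) x‖ ^ 2 / (1 + ‖x‖ ^ 2)) :=
          WI_of_memLp (hgm.sub (hrm _))
        rw [← h2 n, hwg, hA, ← integral_const_mul, ← integral_const_mul, ← integral_add
          ((hdec j).const_mul _) (hI.const_mul _)]
        exact norm_integral_le_of_norm_le (((hdec j).const_mul _).add (hI.const_mul _))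
          (Eventually.of_forall fun x => am_gm _ _ x hε)
      have h5 : Tendsto (fun n => ε / 2 * A + 1 / (2 * ε) *
          wn (fun x => rr o (u (φ n)) x - Ψ x)) atTop (𝓝 (ε / 2 * A + 1 / (2 * ε) * 0)) :=
        (hrl.const_mul _).const_add _
      rw [mul_zero, add_zero] at h5
      exact ge_of_tendsto' h5 h4
    have h6 : ‖c j‖ ≤ 0 := by
      have h7 : Tendsto (fun ε : ℝ => ε / 2 * A) (𝓝[>] 0) (𝓝 (0 / 2 * A)) := by
        refine Tendsto.mono_left ?_ nhdsWithin_le_nhds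
        exact ((tendsto_id).div_const _).mul_const _
      rw [zero_div, zero_mul] at h7
      refine ge_of_tendsto h7 ?_
      filter_upwards [self_mem_nhdsWithin] with ε hε
      exact h3 ε hε
    exact norm_le_zero_iff.mp h6
  have hone : ∀ n, wn (fun x => rr o (u (φ n)) x - Ψ x) = 1 := by
    intro n
    rw [← hu1 (φ n)]
    refine integral_congr_ae ?_
    filter_upwards [hc] with x hx
    rw [hx]
    simp [hcz]
  simp only [hone] at hrl
  exact absurd (tendsto_nhds_unique hrl tendsto_const_nhds) (by norm_num)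

end IC

variable {d : ℕ} {F : Type*} [NormedAddCommGroup F] [InnerProductSpace ℂ F]

/-- **D9** inner completeness -/
theorem icOf (S : Setup d F) : ICOfStmt S := by
  intro hDec hKW hHI hDy hDisc hLR hfd
  obtain ⟨zk, -, n, o, hoZ, hoO, hsp⟩ := hKW hDec hDy hDisc hLR hfd
  obtain ⟨ρ₀, C₀, hρ₀, hC₀, hH⟩ := hHI hDy hDisc
  obtain ⟨ρ₁, C₁, -, -, hd⟩ := hDec hDy hDisc
  have hdec : ∀ j, Integrable (fun x => (1 + ‖x‖ ^ 2) * ‖o j x‖ ^ 2)
      (volume : Measure (Cfg d)) := fun j => (hd _ (zk _ (hoZ j))).1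
  have hom : ∀ j, MemLp (o j) 2 (volume : Measure (Cfg d)) := fun j => by
    obtain ⟨w, _, hw, _⟩ := hoZ j
    exact hw.mem'
  obtain ⟨C, hC, hcore⟩ := IC.core S hC₀ hH hρ₀ hLR hoZ hoO hsp hdec
  refine ⟨n, o, 2 * C, by positivity, hoZ, hoO, fun ρ hρ u hu => ?_⟩
  have h1 : mas (fun x => u x - ∑ j, (∫ z, inner ℂ (o j z) (u z)) • o j x) (Metric.ball 0 ρ) ≤
      (1 + ρ ^ 2) * wn (IC.rr o u) :=
    IC.mas_le_wn (IC.WI_of_memLp (IC.rr_memLp hom hu.1.memLp)) ρ
  have h2 := hcore u hu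
  have h3 := IC.En_nonneg S u
  refine h1.trans ?_
  calc (1 + ρ ^ 2) * wn (IC.rr o u) ≤ (1 + ρ ^ 2) * (C * En S u) :=
        mul_le_mul_of_nonneg_left h2 (by positivity)
    _ ≤ (2 * ρ ^ 2) * (C * En S u) := by
        refine mul_le_mul_of_nonneg_right ?_ (mul_nonneg hC h3)
        nlinarith
    _ = 2 * C * ρ ^ 2 * En S u := by ring

end Vale.Agent.P353.Z.AD
end

section

/-! # P353, all `N`, block L: the space of zero modes (`ZMLStmt`, `ZMFStmt`; helper276) -/

open MeasureTheory Filter Topology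
open scoped ContDiff

namespace Vale.Agent.P353.Z.AL

variable {d : ℕ} {F : Type*} [NormedAddCommGroup F] [InnerProductSpace ℂ F]

/-! ### operators (anti)commuting with the fermions -/

/-- `A θ = σ θ A` with a sign `σ` -/
def SgC (S : Setup d F) (A : F →L[ℂ] F) (σ : ℂ) : Prop := ∀ α B, A * S.th α B = σ • (S.th α B * A)

lemma sgC_vec {S : Setup d F} {A : F →L[ℂ] F} {σ : ℂ} (h : SgC S A σ)
    (N : Matrix (Fin 16) (Fin 16) ℂ) (B : Fin d) (β : Fin 16) :
    A * S.vec N B β = σ • (S.vec N B β * A) := by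
  simp only [CS.vec, Finset.mul_sum, Finset.sum_mul, Finset.smul_sum]
  refine Finset.sum_congr rfl fun γ _ => ?_
  rw [mul_smul_comm, h, smul_mul_assoc, smul_comm]

lemma sgC_bil {S : Setup d F} {A : F →L[ℂ] F} {σ : ℂ} (h : SgC S A σ) (hσ : σ * σ = 1)
    (N : Matrix (Fin 16) (Fin 16) ℂ) (B C : Fin d) :
    A * S.bil N B C = S.bil N B C * A := by
  simp only [CS.bil, Finset.mul_sum, Finset.sum_mul]
  refine Finset.sum_congr rfl fun α _ => ?_
  rw [← mul_assoc, h, smul_mul_assoc, mul_assoc, sgC_vec h, mul_smul_comm, smul_smul, hσ, one_smul,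
    mul_assoc]

lemma sgC_cS {S : Setup d F} {A : F →L[ℂ] F} {σ : ℂ} (h : SgC S A σ) (hσ : σ * σ = 1) (C : Fin d) :
    A * S.cS C = S.cS C * A := by
  simp only [Setup.cS, mul_smul_comm, smul_mul_assoc, Finset.mul_sum, Finset.sum_mul,
    sgC_bil h hσ]

lemma sgC_W {S : Setup d F} {A : F →L[ℂ] F} {σ : ℂ} (h : SgC S A σ) (β : Fin 16) (x : Cfg d) :
    A * S.W β x = σ • (S.W β x * A) := by
  simp only [Setup.W, mul_smul_comm, smul_mul_assoc, Finset.mul_sum, Finset.sum_mul, sgC_vec h,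
    Finset.smul_sum]
  refine Finset.sum_congr rfl fun B _ => Finset.sum_congr rfl fun i _ =>
    Finset.sum_congr rfl fun j _ => ?_
  simp only [smul_smul]
  congr 1
  ring

lemma Tst_clm (A : F →L[ℂ] F) {u : Cfg d → F} (hu : Setup.Tst u) :
    Setup.Tst fun x => A (u x) := Setup.Tst.clm contDiff_const hu

lemma G_clm {S : Setup d F} {A : F →L[ℂ] F} {σ : ℂ} (h : SgC S A σ) (hσ : σ * σ = 1) (C : Fin d)
    {u : Cfg d → F} (hu : Setup.Tst u) (x : Cfg d) :
    S.G C (fun y => A (u y)) x = A (S.G C u x) := by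
  have h1 : ∀ i B, pd i B (fun y => A (u y)) x = A (pd i B u x) := fun i B =>
    pd_clm A (hu.diff x)
  have h2 : ∀ v, S.cS C (A v) = A (S.cS C v) := fun v => by
    have := congrArg (fun T : F →L[ℂ] F => T v) (sgC_cS h hσ C)
    exact this.symm
  simp only [Setup.G, h1, h2, map_add, map_smul, map_sum]

lemma Q_clm {S : Setup d F} {A : F →L[ℂ] F} {σ : ℂ} (h : SgC S A σ) (hσ : σ * σ = 1) (β : Fin 16)
    {u : Cfg d → F} (hu : Setup.Tst u) (x : Cfg d) :
    S.Q β (fun y => A (u y)) x = σ • A (S.Q β u x) := by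
  have h1 : ∀ i B, pd i B (fun y => A (u y)) x = A (pd i B u x) := fun i B =>
    pd_clm A (hu.diff x)
  have h2 : ∀ i B v, S.vec (S.g i) B β (A v) = σ • A (S.vec (S.g i) B β v) := fun i B v => by
    have := congrArg (fun T : F →L[ℂ] F => T v) (sgC_vec h (S.g i) B β)
    simp only [mul_apply_eq_comp, smul_apply] at this
    rw [this, smul_smul, hσ, one_smul]
  have h3 : ∀ v, S.W β x (A v) = σ • A (S.W β x v) := fun v => by
    have := congrArg (fun T : F →L[ℂ] F => T v) (sgC_W h β x)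
    simp only [mul_apply_eq_comp, smul_apply] at this
    rw [this, smul_smul, hσ, one_smul]
  simp only [Setup.Q, h1, h2, h3, map_add, map_smul, map_sum, smul_add, Finset.smul_sum]
  congr 1
  refine Finset.sum_congr rfl fun i _ => Finset.sum_congr rfl fun B _ => ?_
  rw [smul_comm]

lemma GInv_clm {S : Setup d F} {A : F →L[ℂ] F} {σ : ℂ} (h : SgC S A σ) (hσ : σ * σ = 1)
    {u : Cfg d → F} (hu : AD.GInv S u) : AD.GInv S fun x => A (u x) :=
  ⟨Tst_clm A hu.1, fun C x => by rw [G_clm h hσ C hu.1, hu.2, map_zero]⟩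

lemma En_clm_le {S : Setup d F} {A : F →L[ℂ] F} {σ : ℂ} (h : SgC S A σ) (hσ : σ * σ = 1)
    {u : Cfg d → F} (hu : Setup.Tst u) :
    AD.En S (fun x => A (u x)) ≤ ‖A‖ ^ 2 * AD.En S u := by
  have hσ1 : ‖σ‖ = 1 := by
    have h1 : ‖σ‖ * ‖σ‖ = 1 := by rw [← norm_mul, hσ, norm_one]
    nlinarith [norm_nonneg σ]
  unfold AD.En
  rw [Finset.mul_sum]
  refine Finset.sum_le_sum fun β _ => ?_
  have h1 : S.Q β (fun x => A (u x)) = fun x => σ • A (S.Q β u x) :=
    funext fun x => Q_clm h hσ β hu x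
  rw [h1, AD.IC.nsq_csmul, hσ1, one_pow, one_mul]
  exact nsq_op_le (A := fun _ => A) (fun _ => le_rfl) (hu.Q S β).memLp

lemma ZM_clm {S : Setup d F} {A : F →L[ℂ] F} {σ : ℂ} (h : SgC S A σ) (hσ : σ * σ = 1)
    {o : Cfg d → F} (ho : AD.ZM S o) : AD.ZM S fun x => A (o x) := by
  obtain ⟨u, hu, hl, he⟩ := ho
  refine ⟨fun n x => A (u n x), fun n => GInv_clm h hσ (hu n),
    hl.op (A := fun _ => A) continuous_const (fun _ => le_rfl), ?_⟩
  refine squeeze_zero (fun n => AD.IC.En_nonneg S _) (fun n => En_clm_le h hσ (hu n).1) ?_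
  simpa using he.const_mul (‖A‖ ^ 2)

/-! ### the space of zero modes -/

lemma ZM_add {S : Setup d F} {o o' : Cfg d → F} (ho : AD.ZM S o) (ho' : AD.ZM S o') :
    AD.ZM S fun x => o x + o' x := by
  obtain ⟨u, hu, hl, he⟩ := ho
  obtain ⟨v, hv, hl', he'⟩ := ho'
  refine ⟨fun n x => u n x + v n x, fun n => AD.IC.GInv_add (hu n) (hv n), hl.add hl', ?_⟩
  refine squeeze_zero (fun n => AD.IC.En_nonneg S _)
    (fun n => AD.IC.En_add_le S (hu n).1 (hv n).1) ?_
  simpa using (he.const_mul 2).add (he'.const_mul 2)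

lemma sgC_smul_one (S : Setup d F) (c : ℂ) : SgC S (c • (1 : F →L[ℂ] F)) 1 := by
  intro α B
  simp

lemma ZM_csmul {S : Setup d F} (c : ℂ) {o : Cfg d → F} (ho : AD.ZM S o) :
    AD.ZM S fun x => c • o x := by
  have := ZM_clm (sgC_smul_one S c) (by norm_num) ho
  simpa using this

lemma ZM_congr {S : Setup d F} {o o' : Cfg d → F} (ho : AD.ZM S o)
    (h : ∀ᵐ x ∂(volume : Measure (Cfg d)), o' x = o x) : AD.ZM S o' := by
  obtain ⟨u, hu, hl, he⟩ := ho
  refine ⟨u, hu, ⟨hl.mem, (memLp_congr_ae h).2 hl.mem', ?_⟩, he⟩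
  refine hl.lim.congr fun n => ?_
  refine integral_congr_ae ?_
  filter_upwards [h] with x hx
  rw [hx]

/-- **L-ZML** -/
theorem zml (S : Setup d F) : ZMLStmt S := by
  refine ⟨fun o o' ho ho' => ZM_add ho ho', fun c o ho => ZM_csmul c ho,
    fun o o' ho h => ZM_congr ho h, fun o ho => ?_, fun A hA o ho => ?_⟩
  · obtain ⟨u, hu, hl, he⟩ := ho
    exact hl.mem'
  · rcases hA with hA | hA
    · exact ZM_clm (A := A) (σ := 1) (fun α B => by rw [hA, one_smul]) (by norm_num) ho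
    · exact ZM_clm (A := A) (σ := -1) (fun α B => by rw [hA, neg_smul, one_smul])
        (by norm_num) ho

/-! ### zero modes are spanned by the orthonormal family of inner completeness -/

lemma L2t_cfix {c : ℕ → ℂ} {c0 : ℂ} (hc : Tendsto c atTop (𝓝 c0)) {f : Cfg d → F}
    (hf : MemLp f 2 (volume : Measure (Cfg d))) :
    L2t (fun n x => c n • f x) (fun x => c0 • f x) := by
  refine ⟨fun n => hf.const_smul _, hf.const_smul _, ?_⟩
  have h1 : ∀ n, nsq (fun x => c n • f x - c0 • f x) = ‖c n - c0‖ ^ 2 * nsq f := by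
    intro n
    rw [← AD.IC.nsq_csmul]
    congr 1
    funext x
    rw [sub_smul]
  simp only [h1]
  have h2 : Tendsto (fun n => ‖c n - c0‖ ^ 2 * nsq f) atTop (𝓝 (‖c0 - c0‖ ^ 2 * nsq f)) :=
    (((hc.sub_const c0).norm).pow 2).mul_const _
  simpa using h2

lemma L2t_sum {ι : Type*} (s : Finset ι) {f : ι → ℕ → Cfg d → F} {g : ι → Cfg d → F}
    (h : ∀ i, L2t (f i) (g i)) :
    L2t (fun n x => ∑ i ∈ s, f i n x) (fun x => ∑ i ∈ s, g i x) := by
  classical
  induction s using Finset.induction_on with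
  | empty => exact ⟨fun _ => by simp, by simp, by simp [nsq]⟩
  | insert b s hb ih =>
    simp only [Finset.sum_insert hb]
    exact (h b).add ih

lemma L2t_sub {f f' : ℕ → Cfg d → F} {g g' : Cfg d → F} (h : L2t f g) (h' : L2t f' g') :
    L2t (fun n x => f n x - f' n x) (fun x => g x - g' x) := by
  have h1 := h.add (h'.op (A := fun _ => -(1 : F →L[ℂ] F)) (C := ‖-(1 : F →L[ℂ] F)‖)
    continuous_const (fun _ => le_rfl))
  simpa [sub_eq_add_neg] using h1

omit [InnerProductSpace ℂ F] in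
lemma L2t_fix {f : Cfg d → F} (hf : MemLp f 2 (volume : Measure (Cfg d))) :
    L2t (fun _ => f) f := ⟨fun _ => hf, hf, by simp [nsq]⟩

omit [InnerProductSpace ℂ F] in
/-- if the masses of the approximants on a ball tend to zero, the limit vanishes there -/
lemma mas_lim {f : ℕ → Cfg d → F} {g : Cfg d → F} (h : L2t f g) (B : Set (Cfg d))
    (h0 : Tendsto (fun n => AD.mas (f n) B) atTop (𝓝 0)) : AD.mas g B = 0 := by
  have h1 : ∀ n, AD.mas g B ≤ 2 * AD.mas (f n) B + 2 * nsq (fun x => f n x - g x) := by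
    intro n
    have i1 : Integrable (fun x => ‖f n x‖ ^ 2) := memLp_norm_sq_int (h.mem n)
    have i2 : Integrable (fun x => ‖f n x - g x‖ ^ 2) := memLp_norm_sq_int ((h.mem n).sub h.mem')
    have h2 : AD.mas g B ≤ ∫ x in B, (2 * ‖f n x‖ ^ 2 + 2 * ‖f n x - g x‖ ^ 2) := by
      refine integral_mono_of_nonneg (Eventually.of_forall fun x => by positivity)
        ((i1.const_mul 2).add (i2.const_mul 2)).integrableOn (Eventually.of_forall fun x => ?_)
      have h3 : ‖g x‖ ≤ ‖f n x‖ + ‖f n x - g x‖ := by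
        have := norm_sub_le (f n x) (f n x - g x)
        rwa [sub_sub_cancel] at this
      have h4 := norm_nonneg (g x)
      simp only
      nlinarith [sq_nonneg (‖f n x‖ - ‖f n x - g x‖)]
    refine h2.trans ?_
    rw [integral_add (i1.const_mul 2).integrableOn (i2.const_mul 2).integrableOn,
      integral_const_mul, integral_const_mul]
    refine add_le_add le_rfl (mul_le_mul_of_nonneg_left ?_ (by norm_num))
    exact setIntegral_le_integral i2 (Eventually.of_forall fun x => by positivity)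
  have h2 : Tendsto (fun n => 2 * AD.mas (f n) B + 2 * nsq (fun x => f n x - g x)) atTop
      (𝓝 (2 * 0 + 2 * 0)) := (h0.const_mul 2).add (h.lim.const_mul 2)
  have h3 := ge_of_tendsto' h2 h1
  simp only [mul_zero, add_zero] at h3
  exact le_antisymm h3 (AD.IC.mas_nonneg _ _)

/-- **L-ZMF** -/
theorem zmf (S : Setup d F) : ZMFStmt S := by
  intro n o C hZ _ hIC o' ho'
  have ho : ∀ j, MemLp (o j) 2 (volume : Measure (Cfg d)) := fun j => (zml S).2.2.2.1 _ (hZ j)
  obtain ⟨u, hu, hl, he⟩ := ho'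
  set c : Fin n → ℕ → ℂ := fun j m => ∫ z, inner ℂ (o j z) (u m z) with hc
  have hcl : ∀ j, Tendsto (c j) atTop (𝓝 (∫ z, inner ℂ (o j z) (o' z))) := fun j =>
    (L2t_fix (ho j)).lim_inner hl
  have hr : L2t (fun m x => u m x - ∑ j, c j m • o j x)
      (fun x => o' x - ∑ j, (∫ z, inner ℂ (o j z) (o' z)) • o j x) :=
    L2t_sub hl (L2t_sum Finset.univ fun j => L2t_cfix (hcl j) (ho j))
  have h0 : ∀ N : ℕ, AD.mas (fun x => o' x - ∑ j, (∫ z, inner ℂ (o j z) (o' z)) • o j x)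
      (Metric.ball 0 ((N : ℝ) + 1)) = 0 := by
    intro N
    refine mas_lim hr _ ?_
    refine squeeze_zero (fun m => AD.IC.mas_nonneg _ _)
      (fun m => hIC ((N : ℝ) + 1) (by linarith [Nat.cast_nonneg (α := ℝ) N]) (u m) (hu m)) ?_
    simpa using he.const_mul (C * ((N : ℝ) + 1) ^ 2)
  have h1 : ∀ N : ℕ, ∀ᵐ x ∂(volume : Measure (Cfg d)), x ∈ Metric.ball (0 : Cfg d) ((N : ℝ) + 1) →
      o' x - ∑ j, (∫ z, inner ℂ (o j z) (o' z)) • o j x = 0 := by
    intro N
    have h2 := h0 N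
    unfold AD.mas at h2
    rw [setIntegral_eq_zero_iff_of_nonneg_ae (Eventually.of_forall fun x => by positivity)
      (memLp_norm_sq_int hr.mem').integrableOn] at h2
    have h3 := (ae_restrict_iff' Metric.isOpen_ball.measurableSet).1 h2
    filter_upwards [h3] with x hx hxN
    have := hx hxN
    simpa using this
  filter_upwards [ae_all_iff.2 h1] with x hx
  obtain ⟨N, hN⟩ := exists_nat_gt ‖x‖
  have h2 := hx N (by rw [Metric.mem_ball, dist_zero_right]; linarith)
  exact sub_eq_zero.1 h2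

end Vale.Agent.P353.Z.AL
end

section

/-! # P353, all `N`, block X2: `ZInvStmt` (helper379)

The fermions of the second setup map zero modes of the first one (with values in an invariant subspace)
to zero modes: they anticommute with the fermions of the first setup, so `Q_β (T u) = -T (Q_β u)` and
`G_C (T u) = T (G_C u)`. -/

open MeasureTheory Filter Topology Matrix
open scoped ContDiff

namespace Vale.Agent.P353.Z.AX2

universe u

variable {d1 d2 : ℕ} {F : Type u} [NormedAddCommGroup F] [InnerProductSpace ℂ F]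

lemma zInv_sgC {S1 : Setup d1 F} {S2 : Setup d2 F} (h : Ant S1 S2) (α : Fin 16) (A : Fin d2) :
    AL.SgC S1 (S2.th α A) (-1) := by
  intro β B
  have h1 := h.anti β B α A
  rw [neg_one_smul]
  exact eq_neg_of_add_eq_zero_right h1

lemma zInv_opL (T : F →L[ℂ] F) {w : ℕ → Cfg d1 → F} (hw : ∀ n, MemLp (w n) 2 (volume : Measure (Cfg d1)))
    (h : Tendsto (fun n => ∫ x, ‖w n x‖ ^ 2) atTop (𝓝 0)) :
    Tendsto (fun n => ∫ x, ‖T (w n x)‖ ^ 2) atTop (𝓝 0) := by
  have h2 : Tendsto (fun n => ‖T‖ ^ 2 * ∫ x, ‖w n x‖ ^ 2) atTop (𝓝 0) := by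
    simpa using h.const_mul (‖T‖ ^ 2)
  refine squeeze_zero (fun n => integral_nonneg fun x => by positivity) (fun n => ?_) h2
  rw [← integral_const_mul]
  refine integral_mono_of_nonneg (Filter.Eventually.of_forall fun x => by positivity)
    ((memLp_norm_sq_int (hw n)).const_mul _) (Filter.Eventually.of_forall fun x => ?_)
  show ‖T (w n x)‖ ^ 2 ≤ ‖T‖ ^ 2 * ‖w n x‖ ^ 2
  rw [← mul_pow]
  exact pow_le_pow_left₀ (norm_nonneg _) (T.le_opNorm _) 2

/-- **X2-ZInv**: the other fermions act on the zero modes -/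
theorem zInv_stmt (S1 : Setup d1 F) (S2 : Setup d2 F) : ZmsStmt S1 → ZInvStmt S1 S2 := by
  intro hz hA K0 hK α A Ψ hΨ
  obtain ⟨⟨u, hu1, hu2, hu3, hu4⟩, hk⟩ := (hz K0 Ψ).1 hΨ
  have hs := zInv_sgC hA α A
  have h11 : (-1 : ℂ) * (-1) = 1 := by norm_num
  refine (hz K0 _).2 ⟨⟨fun n x => S2.th α A (u n x), fun n => AL.Tst_clm _ (hu1 n), fun n C x => ?_, ?_, fun β => ?_⟩, ?_⟩
  · rw [AL.G_clm hs h11 C (hu1 n) x, hu2, map_zero]
  · have h := zInv_opL (S2.th α A) (w := fun n x => u n x - Ψ x)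
      (fun n => (hu1 n).memLp.sub (Lp.memLp Ψ)) hu3
    refine h.congr fun n => integral_congr_ae ?_
    filter_upwards [Setup.pwa_ae (S2.th α A) Ψ] with x hx
    rw [hx, map_sub]
  · have h := zInv_opL (S2.th α A) (w := fun n x => S1.Q β (u n) x)
      (fun n => ((hu1 n).Q S1 β).memLp) (hu4 β)
    refine h.congr fun n => integral_congr_ae (Filter.Eventually.of_forall fun x => ?_)
    simp only [AL.Q_clm hs h11 β (hu1 n) x, norm_smul, norm_neg, norm_one, one_mul]
  · filter_upwards [hk, Setup.pwa_ae (S2.th α A) Ψ] with x hx hy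
    rw [hy]
    exact hK α A _ hx

end Vale.Agent.P353.Z.AX2
end

section

/-! # P353, all `N`, block COV: fibre sizes and partitions, conjuncts (4), (5), (6) of `CombStmt` -/

open Finset

namespace Vale.Agent.P353.Z.ACov

theorem comb4_aux (s : Multiset ℕ) : ∃ n : Fin (Multiset.card s) → ℕ, Finset.univ.val.map n = s := by
  induction s using Quot.inductionOn with
  | h l =>
    refine ⟨fun a : Fin l.length => l.get a, ?_⟩
    show Finset.univ.val.map (fun a : Fin l.length => l.get a) = (l : Multiset ℕ)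
    rw [Fin.univ_val_map]
    congr 1
    exact List.ofFn_get l

/-- conjunct (4) -/
theorem comb4 (N : ℕ) (p : Nat.Partition N) :
    ∃ n : Fin (Multiset.card p.parts) → ℕ, Finset.univ.val.map n = p.parts ∧ (∀ a, 1 ≤ n a) ∧ ∑ a, n a = N := by
  obtain ⟨n, hn⟩ := comb4_aux p.parts
  refine ⟨n, hn, ?_, ?_⟩
  · intro a
    have h2 : n a ∈ Finset.univ.val.map n := Multiset.mem_map_of_mem n (Finset.mem_univ a)
    rw [hn] at h2
    exact p.parts_pos h2
  · have h2 : ∑ a, n a = (Finset.univ.val.map n).sum := rfl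
    rw [h2, hn, p.parts_sum]

/-- conjunct (5) -/
theorem comb5 (N : ℕ) (X : Type) [DecidableEq X] (y : Fin N → X)
    (h : Multiset.card ((Finset.univ.image y).val.map fun a => (Finset.univ.filter fun p => y p = a).card) < 2) :
    ∀ p q, y p = y q := by
  rw [Multiset.card_map] at h
  have h1 : (Finset.univ.image y).card ≤ 1 := by
    have : (Finset.univ.image y).card = Multiset.card (Finset.univ.image y).val := rfl
    omega
  intro p q
  exact Finset.card_le_one.1 h1 _ (Finset.mem_image_of_mem y (Finset.mem_univ p)) _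
    (Finset.mem_image_of_mem y (Finset.mem_univ q))

/-- conjunct (6) -/
theorem comb6 (N : ℕ) (hN : 0 < N) :
    ∃ p₀ : Nat.Partition N, Multiset.card p₀.parts = 1 ∧ ∀ p : Nat.Partition N, p ≠ p₀ ↔ 2 ≤ Multiset.card p.parts := by
  have hp : ∀ p : Nat.Partition N, Multiset.card p.parts ≠ 0 := by
    intro p h
    rw [Multiset.card_eq_zero] at h
    have := p.parts_sum
    rw [h, Multiset.sum_zero] at this
    omega
  let p₀ : Nat.Partition N := ⟨{N}, fun {i} hi => by
    rw [Multiset.mem_singleton] at hi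
    omega, by simp⟩
  have h0 : p₀.parts = {N} := rfl
  refine ⟨p₀, by rw [h0, Multiset.card_singleton], fun p => ?_⟩
  constructor
  · intro h
    by_contra hc
    apply h
    have h1 : Multiset.card p.parts = 1 := by
      have := hp p
      omega
    obtain ⟨a, ha⟩ := Multiset.card_eq_one.1 h1
    have h2 := p.parts_sum
    rw [ha, Multiset.sum_singleton] at h2
    apply Nat.Partition.ext
    rw [h0, ha, h2]
  · intro h hc
    rw [hc, h0, Multiset.card_singleton] at h
    omega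

end Vale.Agent.P353.Z.ACov
end

section

/-! # P353, all `N`, block D, D8: the weighted kernel is finite dimensional (helper455) -/

open MeasureTheory Filter Topology
open scoped ContDiff

namespace Vale.Agent.P353.Z.AD

namespace KWB

open IC

variable {d : ℕ} {F : Type*} [NormedAddCommGroup F] [InnerProductSpace ℂ F]

omit [InnerProductSpace ℂ F] in
lemma mas_sub_le {f g : Cfg d → F} {A : Set (Cfg d)}
    (hf : IntegrableOn (fun x => ‖f x‖ ^ 2) A) (hg : IntegrableOn (fun x => ‖g x‖ ^ 2) A) :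
    mas (fun x => f x - g x) A ≤ 2 * mas f A + 2 * mas g A := by
  rw [mas, mas, mas, ← integral_const_mul, ← integral_const_mul, ← integral_add
    (hf.const_mul _) (hg.const_mul _)]
  refine integral_mono_of_nonneg (Eventually.of_forall fun x => by positivity)
    ((hf.const_mul _).add (hg.const_mul _)) (Eventually.of_forall fun x => ?_)
  have h2 := norm_sub_le (f x) (g x)
  have h3 := norm_nonneg (f x - g x)
  simp only
  nlinarith [sq_nonneg (‖f x‖ - ‖g x‖)]

/-- local compactness -/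
lemma loc_compact (S : Setup d F) (hLR : U.LRStmt d F) {v : ℕ → Cfg d → F}
    (hv : ∀ n, GInv S (v n)) {B E₀ : ℝ} (hB : ∀ n, wn (v n) ≤ B) (hE₀ : ∀ n, En S (v n) ≤ E₀) :
    ∃ φ : ℕ → ℕ, StrictMono φ ∧ ∃ Ψ : Cfg d → F, StronglyMeasurable Ψ ∧
      (∀ s : ℝ, 0 < s → IntegrableOn (fun x => ‖Ψ x‖ ^ 2) (Metric.ball (0 : Cfg d) s)) ∧
      ∀ s : ℝ, 0 < s → Tendsto (fun n => ∫ x in Metric.ball (0 : Cfg d) s, ‖v (φ n) x - Ψ x‖ ^ 2)
        atTop (𝓝 0) := by
  have hm : ∀ n, MemLp (v n) 2 (volume : Measure (Cfg d)) := fun n => (hv n).1.memLp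
  refine hLR v (fun n => (hv n).1.1) fun s hs => ?_
  obtain ⟨K, hK, hK2⟩ := loc_en S hs
  refine ⟨(1 + s ^ 2) * B + K * ((1 + (3 * s) ^ 2) * B + E₀), fun n => add_le_add ?_ ?_⟩
  · exact (mas_le_wn (WI_of_memLp (hm n)) s).trans
      (mul_le_mul_of_nonneg_left (hB n) (by positivity))
  · refine (hK2 (v n) (hv n).1).trans (mul_le_mul_of_nonneg_left (add_le_add ?_ (hE₀ n)) hK)
    exact (mas_le_wn (WI_of_memLp (hm n)) _).trans
      (mul_le_mul_of_nonneg_left (hB n) (by positivity))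

/-! ### the weighted kernel is a linear space -/

variable {S : Setup d F}

lemma KW_wi {u : Cfg d → F} (h : KW S u) : WI u := by
  obtain ⟨_, v, _, hi, _⟩ := h
  exact hi

lemma WI_csmul (c : ℂ) {u : Cfg d → F} (hu : WI u) : WI (fun x => c • u x) := by
  refine (hu.const_mul (‖c‖ ^ 2)).congr (Eventually.of_forall fun x => ?_)
  simp only [norm_smul, mul_pow, mul_div_assoc]

lemma KW_sub {u v : Cfg d → F} (hu : KW S u) (hv : KW S v) : KW S (fun x => u x - v x) := by
  obtain ⟨mu, a, ha, hia, hla, hea⟩ := hu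
  obtain ⟨mv, b, hb, hib, hlb, heb⟩ := hv
  refine ⟨mu.sub mv, fun n x => a n x - b n x, fun n => GInv_sub (ha n) (hb n),
    WI.sub hia hib mu mv, ?_, ?_⟩
  · have h1 : Tendsto (fun n => 2 * wn (fun x => a n x - u x) + 2 * wn (fun x => b n x - v x))
        atTop (𝓝 (2 * 0 + 2 * 0)) := (hla.const_mul 2).add (hlb.const_mul 2)
    rw [mul_zero, add_zero] at h1
    refine squeeze_zero (fun n => wn_nonneg _) (fun n => ?_) h1
    have h2 := wn_sub_le
      ((WI_of_memLp (ha n).1.memLp).sub hia (ha n).1.memLp.1 mu)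
      ((WI_of_memLp (hb n).1.memLp).sub hib (hb n).1.memLp.1 mv)
    have h3 : (fun x => a n x - b n x - (u x - v x)) =
        fun x => (a n x - u x) - (b n x - v x) := by
      funext x
      abel
    rw [h3]
    exact h2
  · have h1 : Tendsto (fun n => 2 * En S (a n) + 2 * En S (b n)) atTop (𝓝 (2 * 0 + 2 * 0)) :=
      (hea.const_mul 2).add (heb.const_mul 2)
    rw [mul_zero, add_zero] at h1
    exact squeeze_zero (fun n => En_nonneg _ _) (fun n => En_sub_le S (ha n).1 (hb n).1) h1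

lemma KW_csmul (c : ℂ) {u : Cfg d → F} (hu : KW S u) : KW S (fun x => c • u x) := by
  obtain ⟨mu, a, ha, hia, hla, hea⟩ := hu
  refine ⟨mu.const_smul c, fun n x => c • a n x, fun n => GInv_csmul c (ha n),
    WI_csmul c hia, ?_, ?_⟩
  · have h1 : ∀ n, wn (fun x => c • a n x - c • u x) = ‖c‖ ^ 2 * wn (fun x => a n x - u x) := by
      intro n
      simp only [← smul_sub]
      exact wn_csmul c _
    simp only [h1]
    simpa using hla.const_mul (‖c‖ ^ 2)
  · have h1 : ∀ n, En S (fun x => c • a n x) = ‖c‖ ^ 2 * En S (a n) := fun n =>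
      En_csmul S c (ha n).1
    simp only [h1]
    simpa using hea.const_mul (‖c‖ ^ 2)

lemma KW_zero : KW S (fun _ => (0 : F)) := by
  refine ⟨aestronglyMeasurable_const, fun _ _ => 0, fun _ => GInv_zero S, ?_, ?_, ?_⟩
  · simp
  · simp [wn]
  · have h : En S (fun _ : Cfg d => (0 : F)) = 0 := by
      have h1 := En_csmul S 0 (u := fun _ : Cfg d => (0 : F)) (GInv_zero S).1
      simpa using h1
    simp [h]

lemma KW_congr {u v : Cfg d → F} (hu : KW S u) (huv : u =ᵐ[volume] v)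
    (mv : AEStronglyMeasurable v (volume : Measure (Cfg d))) : KW S v := by
  obtain ⟨mu, a, ha, hia, hla, hea⟩ := hu
  refine ⟨mv, a, ha, ?_, ?_, hea⟩
  · refine hia.congr ?_
    filter_upwards [huv] with x hx
    rw [hx]
  · refine hla.congr fun n => ?_
    refine integral_congr_ae ?_
    filter_upwards [huv] with x hx
    rw [hx]

lemma KW_add {u v : Cfg d → F} (hu : KW S u) (hv : KW S v) : KW S (fun x => u x + v x) := by
  have h := KW_sub hu (KW_csmul (-1) hv)
  simpa using h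

/-- the weighted kernel as a subspace of `L²` -/
def KS (S : Setup d F) : Submodule ℂ (Lp F 2 (volume : Measure (Cfg d))) where
  carrier := {Ψ | KW S Ψ}
  add_mem' := by
    intro a b ha hb
    refine KW_congr (KW_add ha hb) ?_ (Lp.aestronglyMeasurable _)
    filter_upwards [Lp.coeFn_add a b] with x hx
    rw [hx]
    rfl
  zero_mem' := by
    refine KW_congr KW_zero ?_ (Lp.aestronglyMeasurable _)
    filter_upwards [Lp.coeFn_zero F 2 (volume : Measure (Cfg d))] with x hx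
    rw [hx]
    rfl
  smul_mem' := by
    intro c a ha
    refine KW_congr (KW_csmul c ha) ?_ (Lp.aestronglyMeasurable _)
    filter_upwards [Lp.coeFn_smul c a] with x hx
    rw [hx]
    rfl

lemma norm_sq_Lp (Ψ : Lp F 2 (volume : Measure (Cfg d))) : ‖Ψ‖ ^ 2 = nsq Ψ := by
  have h := norm_toLp (Lp.memLp Ψ)
  rw [Lp.toLp_coeFn] at h
  rw [h, Real.sq_sqrt (nsq_nonneg _)]

lemma KS_fd (hLR : U.LRStmt d F) {ρ C : ℝ} (hρ : 0 < ρ) (hC : 0 ≤ C)
    (hdec : ∀ u, KW S u →
      Integrable (fun x => (1 + ‖x‖ ^ 2) * ‖u x‖ ^ 2) (volume : Measure (Cfg d)) ∧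
      ∫ x, (1 + ‖x‖ ^ 2) * ‖u x‖ ^ 2 ≤ C * mas u (Metric.ball 0 ρ)) :
    FiniteDimensional ℂ (KS S) := by
  by_contra hnf
  obtain ⟨R, f, hR, hfR, hff⟩ := exists_seq_norm_le_one_le_norm_sub hnf
  set u : ℕ → Cfg d → F := fun n => ((f n : Lp F 2 (volume : Measure (Cfg d))) : Cfg d → F)
    with hud
  have hu : ∀ n, KW S (u n) := fun n => (f n).2
  have hum : ∀ n, MemLp (u n) 2 (volume : Measure (Cfg d)) := fun n => Lp.memLp _
  have hun : ∀ n, nsq (u n) ≤ R ^ 2 := by
    intro n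
    rw [hud]
    simp only
    rw [← norm_sq_Lp]
    exact pow_le_pow_left₀ (norm_nonneg _) (hfR n) 2
  have hv : ∀ n : ℕ, ∃ v, GInv S v ∧ wn (fun x => v x - u n x) ≤ 1 / ((n : ℝ) + 1) ∧
      En S v ≤ 1 := by
    intro n
    obtain ⟨_, a, ha, _, hla, hea⟩ := hu n
    have hn : (0 : ℝ) < 1 / ((n : ℝ) + 1) := by positivity
    obtain ⟨k, hk1, hk2⟩ := ((hla.eventually_le_const hn).and
      (hea.eventually_le_const one_pos)).exists
    exact ⟨a k, ha k, hk1, hk2⟩
  choose v hv hv1 hv2 using hv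
  have hvm : ∀ n, MemLp (v n) 2 (volume : Measure (Cfg d)) := fun n => (hv n).1.memLp
  have hvu : ∀ n, MemLp (fun x => v n x - u n x) 2 (volume : Measure (Cfg d)) := fun n =>
    (hvm n).sub (hum n)
  have hlim1 : Tendsto (fun n : ℕ => 1 / ((n : ℝ) + 1)) atTop (𝓝 0) :=
    tendsto_one_div_add_atTop_nhds_zero_nat
  have hB : ∀ n, wn (v n) ≤ 2 * 1 + 2 * R ^ 2 := by
    intro n
    have h1 := wn_sub_le (WI_of_memLp (hvu n)) (WI_of_memLp (hum n).neg)
    have h2 : (fun x => v n x - u n x - (-u n) x) = v n := by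
      funext x
      simp
    have h3 : wn (-u n) = wn (u n) := by
      unfold wn
      simp
    rw [h2, h3] at h1
    have h4 := hv1 n
    have h5 : 1 / ((n : ℝ) + 1) ≤ 1 := by
      rw [div_le_one (by positivity)]
      have : (0 : ℝ) ≤ n := Nat.cast_nonneg n
      linarith
    have h6 := (wn_le_nsq (hum n)).trans (hun n)
    linarith
  obtain ⟨φ, hφ, Ψ, hΨm, hΨi, hΨl⟩ := loc_compact S hLR hv hB hv2
  have hΨL : MemLp Ψ 2 (volume.restrict (Metric.ball (0 : Cfg d) ρ)) :=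
    (memLp_two_iff_integrable_sq_norm hΨm.aestronglyMeasurable).mpr (hΨi ρ hρ)
  have hi1 : ∀ n, IntegrableOn (fun x => ‖v (φ n) x - Ψ x‖ ^ 2) (Metric.ball (0 : Cfg d) ρ) :=
    fun n => ((hvm (φ n)).restrict _ |>.sub hΨL).integrable_norm_pow (by norm_num)
  have hi2 : ∀ n, IntegrableOn (fun x => ‖v (φ n) x - u (φ n) x‖ ^ 2)
      (Metric.ball (0 : Cfg d) ρ) := fun n => (memLp_norm_sq_int (hvu (φ n))).integrableOn
  have hi3 : ∀ n, IntegrableOn (fun x => ‖u (φ n) x - Ψ x‖ ^ 2) (Metric.ball (0 : Cfg d) ρ) :=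
    fun n => ((hum (φ n)).restrict _ |>.sub hΨL).integrable_norm_pow (by norm_num)
  set δ : ℕ → ℝ := fun n => mas (fun x => u (φ n) x - Ψ x) (Metric.ball 0 ρ) with hδd
  have hδ : Tendsto δ atTop (𝓝 0) := by
    have h1 : Tendsto (fun n => 2 * (∫ x in Metric.ball (0 : Cfg d) ρ, ‖v (φ n) x - Ψ x‖ ^ 2) +
        2 * ((1 + ρ ^ 2) * (1 / ((φ n : ℝ) + 1)))) atTop (𝓝 (2 * 0 + 2 * ((1 + ρ ^ 2) * 0))) :=
      ((hΨl ρ hρ).const_mul 2).add
        (((hlim1.comp hφ.tendsto_atTop).const_mul (1 + ρ ^ 2)).const_mul 2)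
    rw [mul_zero, mul_zero, mul_zero, add_zero] at h1
    refine squeeze_zero (fun n => mas_nonneg _ _) (fun n => ?_) h1
    have h2 := mas_sub_le (hi1 n) (hi2 n)
    have h3 : (fun x => v (φ n) x - Ψ x - (v (φ n) x - u (φ n) x)) =
        fun x => u (φ n) x - Ψ x := by
      funext x
      abel
    rw [h3] at h2
    refine h2.trans (add_le_add le_rfl (mul_le_mul_of_nonneg_left ?_ (by norm_num)))
    exact (mas_le_wn (WI_of_memLp (hvu (φ n))) ρ).trans
      (mul_le_mul_of_nonneg_left (hv1 (φ n)) (by positivity))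
  have hd2 : ∀ n m, nsq (fun x => u (φ n) x - u (φ m) x) ≤ C * (2 * δ n + 2 * δ m) := by
    intro n m
    obtain ⟨h1, h2⟩ := hdec _ (KW_sub (hu (φ n)) (hu (φ m)))
    have h3 : nsq (fun x => u (φ n) x - u (φ m) x) ≤
        ∫ x, (1 + ‖x‖ ^ 2) * ‖u (φ n) x - u (φ m) x‖ ^ 2 := by
      refine integral_mono_of_nonneg (Eventually.of_forall fun x => by positivity) h1
        (Eventually.of_forall fun x => ?_)
      have h4 : 0 ≤ ‖u (φ n) x - u (φ m) x‖ ^ 2 := by positivity
      have h5 : 0 ≤ ‖x‖ ^ 2 := by positivity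
      simp only
      nlinarith
    refine (h3.trans h2).trans (mul_le_mul_of_nonneg_left ?_ hC)
    have h4 := mas_sub_le (hi3 n) (hi3 m)
    have h5 : (fun x => u (φ n) x - Ψ x - (u (φ m) x - Ψ x)) =
        fun x => u (φ n) x - u (φ m) x := by
      funext x
      abel
    rw [h5] at h4
    exact h4
  have hge : ∀ n m, n ≠ m → 1 ≤ nsq (fun x => u (φ n) x - u (φ m) x) := by
    intro n m hnm
    have h1 : 1 ≤ ‖f (φ n) - f (φ m)‖ := hff fun h => hnm (hφ.injective h)
    have h2 : ‖f (φ n) - f (φ m)‖ ^ 2 = nsq (fun x => u (φ n) x - u (φ m) x) := by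
      rw [Submodule.coe_norm, norm_sq_Lp, Submodule.coe_sub]
      refine integral_congr_ae ?_
      filter_upwards [Lp.coeFn_sub (f (φ n) : Lp F 2 (volume : Measure (Cfg d)))
        (f (φ m) : Lp F 2 (volume : Measure (Cfg d)))] with x hx
      rw [hx]
      rfl
    rw [← h2]
    exact one_le_pow₀ h1
  have hs : Tendsto (fun n => C * (2 * δ n + 2 * δ (n + 1))) atTop
      (𝓝 (C * (2 * 0 + 2 * 0))) :=
    ((hδ.const_mul 2).add ((hδ.comp (tendsto_add_atTop_nat 1)).const_mul 2)).const_mul C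
  rw [mul_zero, add_zero, mul_zero] at hs
  have h1 : (1 : ℝ) ≤ 0 := ge_of_tendsto' hs fun n =>
    (hge n (n + 1) (by omega)).trans (hd2 n (n + 1))
  linarith

lemma repr_ae {n : ℕ} (b : OrthonormalBasis (Fin n) ℂ (KS S)) (w : KS S) :
    ∃ c : Fin n → ℂ, ∀ᵐ x ∂(volume : Measure (Cfg d)),
      (w : Lp F 2 (volume : Measure (Cfg d))) x =
        ∑ j, c j • ((b j : Lp F 2 (volume : Measure (Cfg d))) : Cfg d → F) x := by
  obtain ⟨c, hc⟩ : ∃ c : Fin n → ℂ, ∑ j, c j • b j = w := ⟨fun j => b.repr w j, b.sum_repr w⟩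
  refine ⟨c, ?_⟩
  have h2 : (w : Lp F 2 (volume : Measure (Cfg d))) =
      ∑ j, c j • (b j : Lp F 2 (volume : Measure (Cfg d))) := by
    rw [← hc, Submodule.coe_sum]
    rfl
  have h4 := Lp.coeFn_finsetSum Finset.univ fun j =>
    c j • (b j : Lp F 2 (volume : Measure (Cfg d)))
  have h5 : ∀ᵐ x ∂(volume : Measure (Cfg d)), ∀ j,
      (c j • (b j : Lp F 2 (volume : Measure (Cfg d))) :
        Lp F 2 (volume : Measure (Cfg d))) x =
      c j • ((b j : Lp F 2 (volume : Measure (Cfg d))) : Cfg d → F) x := by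
    rw [ae_all_iff]
    intro j
    exact Lp.coeFn_smul _ _
  rw [h2]
  filter_upwards [h4, h5] with x hx hx2
  rw [hx]
  simp only [Finset.sum_apply]
  exact Finset.sum_congr rfl fun j _ => hx2 j

lemma inner_on {n : ℕ} (b : OrthonormalBasis (Fin n) ℂ (KS S)) (j k : Fin n) :
    ∫ x, inner ℂ ((b j : Lp F 2 (volume : Measure (Cfg d))) x)
      ((b k : Lp F 2 (volume : Measure (Cfg d))) x) = if j = k then 1 else 0 := by
  have h1 : inner ℂ (b j) (b k) = if j = k then (1 : ℂ) else 0 :=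
    orthonormal_iff_ite.mp b.orthonormal j k
  rw [← h1, Submodule.coe_inner, L2.inner_def]

/-- **third part of D8** -/
theorem kw_basis (hDec : DecStmt S) (hDy : DyStmt S) (hDisc : DiscStmt) (hLR : U.LRStmt d F)
    (hKZ : ∀ u, KW S u → ZM S u) :
    ∃ (n : ℕ) (o : Fin n → Cfg d → F), (∀ j, ZM S (o j)) ∧
    (∀ j k, ∫ x, inner ℂ (o j x) (o k x) = if j = k then 1 else 0) ∧
    ∀ u, KW S u → ∃ c : Fin n → ℂ, ∀ᵐ x ∂(volume : Measure (Cfg d)),
      u x = ∑ j, c j • o j x := by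
  obtain ⟨ρ, C, hρ, hC, hdec⟩ := hDec hDy hDisc
  haveI : FiniteDimensional ℂ (KS S) := KS_fd hLR hρ hC hdec
  obtain ⟨n, ⟨b⟩⟩ : ∃ n : ℕ, Nonempty (OrthonormalBasis (Fin n) ℂ (KS S)) :=
    ⟨_, ⟨stdOrthonormalBasis ℂ (KS S)⟩⟩
  refine ⟨n, fun j => ((b j : Lp F 2 (volume : Measure (Cfg d))) : Cfg d → F),
    fun j => hKZ _ (b j).2, fun j k => inner_on b j k, fun u hu => ?_⟩
  obtain ⟨h1, -⟩ := hdec u hu
  have hm : MemLp u 2 (volume : Measure (Cfg d)) := by
    rw [memLp_two_iff_integrable_sq_norm hu.1]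
    refine h1.mono' (hu.1.norm.pow 2) (Eventually.of_forall fun x => ?_)
    rw [Real.norm_of_nonneg (by positivity)]
    have h4 : 0 ≤ ‖u x‖ ^ 2 := by positivity
    have h5 : 0 ≤ ‖x‖ ^ 2 := by positivity
    nlinarith
  have hmem : hm.toLp u ∈ KS S := KW_congr hu hm.coeFn_toLp.symm (Lp.aestronglyMeasurable _)
  obtain ⟨c, hc⟩ := repr_ae b ⟨hm.toLp u, hmem⟩
  refine ⟨c, ?_⟩
  filter_upwards [hm.coeFn_toLp, hc] with x hx hx3
  rw [← hx]
  exact hx3

end KWB

end Vale.Agent.P353.Z.AD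
end

section

/-! # P353, all `N`, block D, D8: the weighted kernel consists of zero modes (helper455) -/

open MeasureTheory Filter Topology
open scoped ContDiff

namespace Vale.Agent.P353.Z.AD

namespace KWB

open IC

variable {d : ℕ} {F : Type*} [NormedAddCommGroup F] [InnerProductSpace ℂ F]

lemma f_sum_zero (S : Setup d F) (C : Fin d) (a : Fin d → ℂ) :
    ∑ A, ∑ B, (S.f C A B : ℂ) * (a A * a B) = 0 := by
  have he : ∀ A B : Fin d, S.f C B A = - S.f C A B := fun A B => S.f_swap' C A B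
  have h1 : ∑ A, ∑ B, (S.f C A B : ℂ) * (a A * a B) =
      -∑ A, ∑ B, (S.f C A B : ℂ) * (a A * a B) := by
    conv_lhs => rw [Finset.sum_comm]
    rw [← Finset.sum_neg_distrib]
    refine Finset.sum_congr rfl fun A _ => ?_
    rw [← Finset.sum_neg_distrib]
    refine Finset.sum_congr rfl fun B _ => ?_
    rw [he A B]
    push_cast
    ring
  have h2 : (2 : ℂ) * ∑ A, ∑ B, (S.f C A B : ℂ) * (a A * a B) = 0 := by
    linear_combination h1
  simpa using h2

lemma G_rad (S : Setup d F) {f : ℝ → ℝ} (hf : ContDiff ℝ ∞ f) (C : Fin d) (u : Cfg d → F)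
    (x : Cfg d) (hu : DifferentiableAt ℝ u x) :
    S.G C (fun y => ((rad f y : ℝ) : ℂ) • u y) x = ((rad f x : ℝ) : ℂ) • S.G C u x := by
  have h : ∀ i A, pd i A (fun y => ((rad f y : ℝ) : ℂ) • u y) x =
      ((2 * deriv f (‖x‖ ^ 2) * x (i, A) : ℝ) : ℂ) • u x + ((rad f x : ℝ) : ℂ) • pd i A u x := by
    intro i A
    rw [pd_rsmul ((contDiff_rad hf).differentiable (by simp) x) hu]
    have := pdr_rad hf i A x
    rw [pdr] at this
    rw [this]
  have e : ∑ i, ∑ A, ∑ B, ((S.f C A B : ℂ) * (x (i, A) : ℂ)) •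
      (((2 * deriv f (‖x‖ ^ 2) * x (i, B) : ℝ) : ℂ) • u x) = 0 := by
    refine Finset.sum_eq_zero fun i _ => ?_
    have e1 := f_sum_zero S C (fun A => (x (i, A) : ℂ))
    have e2 : ∑ A, ∑ B, ((S.f C A B : ℂ) * (x (i, A) : ℂ)) •
        (((2 * deriv f (‖x‖ ^ 2) * x (i, B) : ℝ) : ℂ) • u x) =
        ((2 * deriv f (‖x‖ ^ 2) : ℝ) : ℂ) •
          (∑ A, ∑ B, (S.f C A B : ℂ) * ((x (i, A) : ℂ) * (x (i, B) : ℂ))) • u x := by
      rw [Finset.sum_smul, Finset.smul_sum]
      refine Finset.sum_congr rfl fun A _ => ?_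
      rw [Finset.sum_smul, Finset.smul_sum]
      refine Finset.sum_congr rfl fun B _ => ?_
      rw [smul_smul, smul_smul]
      congr 1
      push_cast
      ring
    rw [e2, e1, zero_smul, smul_zero]
  have e3 : ∑ i, ∑ A, ∑ B, ((S.f C A B : ℂ) * (x (i, A) : ℂ)) •
      (((rad f x : ℝ) : ℂ) • pd i B u x) = ((rad f x : ℝ) : ℂ) •
        ∑ i, ∑ A, ∑ B, ((S.f C A B : ℂ) * (x (i, A) : ℂ)) • pd i B u x := by
    simp only [Finset.smul_sum, smul_comm ((rad f x : ℝ) : ℂ)]
  simp only [Setup.G, h, smul_add, Finset.sum_add_distrib, map_smul]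
  rw [e, e3, smul_zero, zero_add]
  rw [smul_comm ((rad f x : ℝ) : ℂ) (-Complex.I)]

lemma GInv_rad (S : Setup d F) {f : ℝ → ℝ} (hf : ContDiff ℝ ∞ f) {u : Cfg d → F}
    (hu : GInv S u) : GInv S (fun y => ((rad f y : ℝ) : ℂ) • u y) :=
  ⟨hu.1.rsmul (contDiff_rad hf), fun C x => by
    rw [G_rad S hf C u x (hu.1.diff x), hu.2, smul_zero]⟩

/-- cutoff functions in the variable `‖x‖²` -/
lemma exists_rcut : ∃ M : ℝ, 0 ≤ M ∧ ∀ R : ℝ, 0 < R → ∃ f : ℝ → ℝ, ContDiff ℝ ∞ f ∧
    (∀ t, 0 ≤ f t) ∧ (∀ t, f t ≤ 1) ∧ (∀ t, 0 ≤ t → t ≤ R ^ 2 → f t = 1) ∧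
    (∀ t, 4 * R ^ 2 ≤ t → f t = 0) ∧ (∀ t, |deriv f t| * R ^ 2 ≤ M) ∧
    (∀ t, 4 * R ^ 2 < t → deriv f t = 0) := by
  let g : ContDiffBump (0 : ℝ) := ⟨1, 4, one_pos, by norm_num⟩
  have hgc : ContDiff ℝ ∞ (g : ℝ → ℝ) := g.contDiff
  have hgs : HasCompactSupport (g : ℝ → ℝ) := g.hasCompactSupport
  obtain ⟨M, hM⟩ := (hgs.deriv).exists_bound_of_continuous (hgc.continuous_deriv (by simp))
  refine ⟨max M 0, le_max_right _ _, fun R hR => ⟨fun t => g ((R ^ 2)⁻¹ * t), ?_⟩⟩
  have hR2 : 0 < R ^ 2 := by positivity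
  have hd : ∀ t, deriv (fun t => g ((R ^ 2)⁻¹ * t)) t = (R ^ 2)⁻¹ * deriv g ((R ^ 2)⁻¹ * t) := by
    intro t
    have h1 := deriv_comp_mul_left (R ^ 2)⁻¹ (g : ℝ → ℝ) t
    simpa using h1
  have h0 : ∀ t, 4 * R ^ 2 ≤ t → g ((R ^ 2)⁻¹ * t) = 0 := by
    intro t ht
    refine g.zero_of_le_dist ?_
    rw [dist_zero_right, Real.norm_eq_abs]
    change 4 ≤ |(R ^ 2)⁻¹ * t|
    have h1 : 4 ≤ (R ^ 2)⁻¹ * t := by
      rw [le_inv_mul_iff₀ hR2]
      linarith
    exact h1.trans (le_abs_self _)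
  refine ⟨hgc.comp (contDiff_const.mul contDiff_id), fun t => g.nonneg, fun t => g.le_one,
    fun t ht0 ht => ?_, h0, fun t => ?_, fun t ht => ?_⟩
  · refine g.one_of_mem_closedBall ?_
    rw [Metric.mem_closedBall, dist_zero_right, Real.norm_eq_abs]
    change |(R ^ 2)⁻¹ * t| ≤ 1
    rw [abs_of_nonneg (by positivity), inv_mul_le_iff₀ hR2]
    linarith
  · rw [hd, abs_mul, abs_of_pos (inv_pos.mpr hR2)]
    have h1 := hM ((R ^ 2)⁻¹ * t)
    rw [Real.norm_eq_abs] at h1
    calc (R ^ 2)⁻¹ * |deriv g ((R ^ 2)⁻¹ * t)| * R ^ 2 = |deriv g ((R ^ 2)⁻¹ * t)| := by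
          field_simp
      _ ≤ M := h1
      _ ≤ max M 0 := le_max_left _ _
  · have h1 : (fun t => g ((R ^ 2)⁻¹ * t)) =ᶠ[𝓝 t] fun _ => 0 := by
      filter_upwards [lt_mem_nhds ht] with s hs
      exact h0 s hs.le
    rw [h1.deriv_eq]
    simp

lemma B_bd (S : Setup d F) (β : Fin 16) : ∃ K : ℝ, 0 ≤ K ∧ ∀ x : Cfg d, ‖S.B β x‖ ≤ K * ‖x‖ := by
  refine ⟨∑ i, ∑ A, ‖S.vec (S.g i) A β‖, by positivity, fun x => ?_⟩
  unfold Setup.B
  rw [Finset.sum_mul]
  refine (norm_sum_le _ _).trans (Finset.sum_le_sum fun i _ => ?_)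
  rw [Finset.sum_mul]
  refine (norm_sum_le _ _).trans (Finset.sum_le_sum fun A _ => ?_)
  rw [norm_smul, Complex.norm_real, mul_comm]
  exact mul_le_mul_of_nonneg_left (PiLp.norm_apply_le x (i, A)) (norm_nonneg _)

/-- energy of a radial cutoff -/
lemma En_rad_le (S : Setup d F) : ∃ K : ℝ, 0 ≤ K ∧ ∀ R : ℝ, 0 < R → ∃ f : ℝ → ℝ,
    ContDiff ℝ ∞ f ∧ (∀ t, 0 ≤ f t) ∧ (∀ t, f t ≤ 1) ∧ (∀ t, 0 ≤ t → t ≤ R ^ 2 → f t = 1) ∧
    (∀ t, 4 * R ^ 2 ≤ t → f t = 0) ∧ ∀ v : Cfg d → F, Setup.Tst v →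
      En S (fun y => ((rad f y : ℝ) : ℂ) • v y) ≤
        2 * En S v + K / R ^ 2 * mas v (Metric.ball 0 (3 * R)) := by
  obtain ⟨M, hM, hcut⟩ := exists_rcut
  choose KB hKB hKB2 using fun β => B_bd S β
  refine ⟨∑ β, 2 * (4 * M * KB β) ^ 2, by positivity, fun R hR => ?_⟩
  obtain ⟨f, hf, hf0, hf1, hfi, hfo, hfd, hfz⟩ := hcut R hR
  refine ⟨f, hf, hf0, hf1, hfi, hfo, fun v hv => ?_⟩
  set D : ℝ := mas v (Metric.ball 0 (3 * R)) with hDd
  have hind : Integrable ((Metric.ball (0 : Cfg d) (3 * R)).indicator fun x => ‖v x‖ ^ 2) :=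
    hv.norm_sq_int.indicator Metric.isOpen_ball.measurableSet
  have hMi : ∫ x, (Metric.ball (0 : Cfg d) (3 * R)).indicator (fun x => ‖v x‖ ^ 2) x = D :=
    integral_indicator Metric.isOpen_ball.measurableSet
  have hQ : ∀ β, nsq (S.Q β (fun y => ((rad f y : ℝ) : ℂ) • v y)) ≤
      2 * nsq (S.Q β v) + (2 * (4 * M * KB β) ^ 2) / R ^ 2 * D := by
    intro β
    rw [← hMi, nsq, nsq, ← integral_const_mul, ← integral_const_mul, ← integral_add
      ((hv.Q S β).norm_sq_int.const_mul _) (hind.const_mul _)]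
    refine integral_mono_of_nonneg (Eventually.of_forall fun x => by positivity)
      (((hv.Q S β).norm_sq_int.const_mul _).add (hind.const_mul _))
      (Eventually.of_forall fun x => ?_)
    simp only
    rw [S.Q_rad hf β v x (hv.diff x)]
    have h2 : ‖((rad f x : ℝ) : ℂ) • S.Q β v x‖ ≤ ‖S.Q β v x‖ := by
      rw [norm_smul, Complex.norm_real, Real.norm_of_nonneg (show 0 ≤ rad f x from hf0 _)]
      exact mul_le_of_le_one_left (norm_nonneg _) (show rad f x ≤ 1 from hf1 _)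
    have h3 : ‖(-Complex.I * ((2 * deriv f (‖x‖ ^ 2) : ℝ) : ℂ)) • S.B β x (v x)‖ ^ 2 ≤
        (4 * M * KB β) ^ 2 / R ^ 2 *
          (Metric.ball (0 : Cfg d) (3 * R)).indicator (fun x => ‖v x‖ ^ 2) x := by
      by_cases hx : ‖x‖ ≤ 2 * R
      · have hxb : x ∈ Metric.ball (0 : Cfg d) (3 * R) := by
          rw [Metric.mem_ball, dist_zero_right]
          linarith
        rw [Set.indicator_of_mem hxb]
        have h4 : ‖(-Complex.I * ((2 * deriv f (‖x‖ ^ 2) : ℝ) : ℂ)) • S.B β x (v x)‖ ≤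
            4 * M * KB β / R * ‖v x‖ := by
          rw [norm_smul, norm_mul, norm_neg, Complex.norm_I, one_mul, Complex.norm_real,
            Real.norm_eq_abs, abs_mul, abs_of_pos (by norm_num : (0 : ℝ) < 2)]
          have h5 := ((S.B β x).le_opNorm (v x)).trans
            (mul_le_mul_of_nonneg_right (hKB2 β x) (norm_nonneg _))
          have h6 : |deriv f (‖x‖ ^ 2)| ≤ M / R ^ 2 := by
            rw [le_div_iff₀ (by positivity)]
            exact hfd _
          calc 2 * |deriv f (‖x‖ ^ 2)| * ‖S.B β x (v x)‖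
              ≤ 2 * (M / R ^ 2) * (KB β * ‖x‖ * ‖v x‖) := by
                gcongr
            _ ≤ 2 * (M / R ^ 2) * (KB β * (2 * R) * ‖v x‖) := by
                have := hKB β
                gcongr
            _ = 4 * M * KB β / R * ‖v x‖ := by
                field_simp
                ring
        have h7 := pow_le_pow_left₀ (norm_nonneg _) h4 2
        rw [mul_pow, div_pow] at h7
        exact h7
      · have h8 : 4 * R ^ 2 < ‖x‖ ^ 2 := by
          have h9 : 2 * R < ‖x‖ := not_le.mp hx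
          nlinarith
        rw [hfz _ h8]
        have h10 : 0 ≤ (Metric.ball (0 : Cfg d) (3 * R)).indicator (fun x => ‖v x‖ ^ 2) x :=
          Set.indicator_nonneg (fun _ _ => by positivity) _
        have h11 : 0 ≤ (4 * M * KB β) ^ 2 / R ^ 2 *
            (Metric.ball (0 : Cfg d) (3 * R)).indicator (fun x => ‖v x‖ ^ 2) x :=
          mul_nonneg (by positivity) h10
        simpa using h11
    have h5 := norm_add_le (((rad f x : ℝ) : ℂ) • S.Q β v x)
      ((-Complex.I * ((2 * deriv f (‖x‖ ^ 2) : ℝ) : ℂ)) • S.B β x (v x))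
    have h6 := norm_nonneg (((rad f x : ℝ) : ℂ) • S.Q β v x)
    have h7 := norm_nonneg ((-Complex.I * ((2 * deriv f (‖x‖ ^ 2) : ℝ) : ℂ)) • S.B β x (v x))
    have h8 := norm_nonneg (((rad f x : ℝ) : ℂ) • S.Q β v x +
      (-Complex.I * ((2 * deriv f (‖x‖ ^ 2) : ℝ) : ℂ)) • S.B β x (v x))
    have h9 : (2 * (4 * M * KB β) ^ 2) / R ^ 2 *
          (Metric.ball (0 : Cfg d) (3 * R)).indicator (fun x => ‖v x‖ ^ 2) x =
        2 * ((4 * M * KB β) ^ 2 / R ^ 2 *
          (Metric.ball (0 : Cfg d) (3 * R)).indicator (fun x => ‖v x‖ ^ 2) x) := by ring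
    rw [h9]
    generalize ‖((rad f x : ℝ) : ℂ) • S.Q β v x +
      (-Complex.I * ((2 * deriv f (‖x‖ ^ 2) : ℝ) : ℂ)) • S.B β x (v x)‖ = X at h5 h8 ⊢
    generalize ‖(-Complex.I * ((2 * deriv f (‖x‖ ^ 2) : ℝ) : ℂ)) • S.B β x (v x)‖ = Y
      at h3 h5 h7 ⊢
    generalize ‖((rad f x : ℝ) : ℂ) • S.Q β v x‖ = Z at h2 h5 h6 ⊢
    nlinarith [sq_nonneg (Z - Y), norm_nonneg (S.Q β v x)]
  unfold En
  refine (Finset.sum_le_sum fun β _ => hQ β).trans (le_of_eq ?_)
  rw [Finset.sum_add_distrib, Finset.mul_sum, Finset.sum_div, Finset.sum_mul]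

/-- **second part of D8** -/
theorem zm_of_kw {S : Setup d F} (hDec : DecStmt S) (hDy : DyStmt S) (hDisc : DiscStmt)
    {u : Cfg d → F} (hu : KW S u) : ZM S u := by
  obtain ⟨ρ, C, hρ, hC, hdec⟩ := hDec hDy hDisc
  obtain ⟨hwi, -⟩ := hdec u hu
  obtain ⟨mu, a, ha, hia, hla, hea⟩ := hu
  obtain ⟨K, hK, hcut⟩ := En_rad_le S
  have hm : MemLp u 2 (volume : Measure (Cfg d)) := by
    rw [memLp_two_iff_integrable_sq_norm mu]
    refine hwi.mono' (mu.norm.pow 2) (Eventually.of_forall fun x => ?_)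
    rw [Real.norm_of_nonneg (by positivity)]
    have h4 : 0 ≤ ‖u x‖ ^ 2 := by positivity
    have h5 : 0 ≤ ‖x‖ ^ 2 := by positivity
    nlinarith
  set A : ℝ := ∫ x, (1 + ‖x‖ ^ 2) * ‖u x‖ ^ 2 with hA
  have hA0 : 0 ≤ A := integral_nonneg fun _ => by positivity
  have hN0 : 0 ≤ nsq u := nsq_nonneg _
  have step : ∀ k : ℕ, ∃ w, GInv S w ∧
      nsq (fun x => w x - u x) ≤ (2 + 2 * A) * (1 / ((k : ℝ) + 1)) ∧
      En S w ≤ (2 + K * (2 + 2 * nsq u)) * (1 / ((k : ℝ) + 1)) := by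
    intro k
    set R : ℝ := (k : ℝ) + 1 with hRd
    have hR : 0 < R := by positivity
    have hR1 : 1 ≤ R := by
      have : (0 : ℝ) ≤ k := Nat.cast_nonneg k
      linarith
    obtain ⟨f, hf, hf0, hf1, hfi, hfo, hfE⟩ := hcut R hR
    have hη : 0 < 1 / ((1 + (3 * R) ^ 2) * R) := by positivity
    have hη2 : 0 < 1 / R := by positivity
    obtain ⟨n, hn1, hn2⟩ := ((hla.eventually_le_const hη).and
      (hea.eventually_le_const hη2)).exists
    have ham : MemLp (a n) 2 (volume : Measure (Cfg d)) := (ha n).1.memLp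
    have hau : MemLp (fun x => a n x - u x) 2 (volume : Measure (Cfg d)) := ham.sub hm
    have hmas : mas (fun x => a n x - u x) (Metric.ball 0 (3 * R)) ≤ 1 / R := by
      refine (mas_le_wn (WI_of_memLp hau) (3 * R)).trans ?_
      calc (1 + (3 * R) ^ 2) * wn (fun x => a n x - u x)
          ≤ (1 + (3 * R) ^ 2) * (1 / ((1 + (3 * R) ^ 2) * R)) :=
            mul_le_mul_of_nonneg_left hn1 (by positivity)
        _ = 1 / R := by field_simp
    refine ⟨fun y => ((rad f y : ℝ) : ℂ) • a n y, GInv_rad S hf (ha n), ?_, ?_⟩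
    · have hind : Integrable ((Metric.ball (0 : Cfg d) (3 * R)).indicator
          fun x => ‖a n x - u x‖ ^ 2) :=
        (memLp_norm_sq_int hau).indicator Metric.isOpen_ball.measurableSet
      have hMi : ∫ x, (Metric.ball (0 : Cfg d) (3 * R)).indicator
          (fun x => ‖a n x - u x‖ ^ 2) x =
          mas (fun x => a n x - u x) (Metric.ball 0 (3 * R)) :=
        integral_indicator Metric.isOpen_ball.measurableSet
      have h1 : nsq (fun x => ((rad f x : ℝ) : ℂ) • a n x - u x) ≤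
          2 * mas (fun x => a n x - u x) (Metric.ball 0 (3 * R)) + 2 / (1 + R ^ 2) * A := by
        rw [← hMi, hA, nsq, ← integral_const_mul, ← integral_const_mul, ← integral_add
          (hind.const_mul _) (hwi.const_mul _)]
        refine integral_mono_of_nonneg (Eventually.of_forall fun x => by positivity)
          ((hind.const_mul _).add (hwi.const_mul _)) (Eventually.of_forall fun x => ?_)
        simp only
        have h2 : ((rad f x : ℝ) : ℂ) • a n x - u x =
            ((rad f x : ℝ) : ℂ) • (a n x - u x) - ((1 - rad f x : ℝ) : ℂ) • u x := by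
          push_cast
          rw [smul_sub, sub_smul, one_smul]
          abel
        have h3 : ‖((rad f x : ℝ) : ℂ) • (a n x - u x)‖ ^ 2 ≤
            (Metric.ball (0 : Cfg d) (3 * R)).indicator (fun x => ‖a n x - u x‖ ^ 2) x := by
          by_cases hx : x ∈ Metric.ball (0 : Cfg d) (3 * R)
          · rw [Set.indicator_of_mem hx, norm_smul, Complex.norm_real,
              Real.norm_of_nonneg (show 0 ≤ rad f x from hf0 _), mul_pow]
            have h4 : rad f x ^ 2 ≤ 1 := pow_le_one₀ (hf0 _) (hf1 _)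
            exact mul_le_of_le_one_left (by positivity) h4
          · rw [Set.indicator_of_notMem hx]
            rw [Metric.mem_ball, dist_zero_right, not_lt] at hx
            have h4 : rad f x = 0 := hfo _ (by nlinarith)
            simp [h4]
        have h5 : ‖((1 - rad f x : ℝ) : ℂ) • u x‖ ^ 2 ≤
            1 / (1 + R ^ 2) * ((1 + ‖x‖ ^ 2) * ‖u x‖ ^ 2) := by
          rw [norm_smul, Complex.norm_real, mul_pow, ← mul_assoc]
          refine mul_le_mul_of_nonneg_right ?_ (by positivity)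
          by_cases hx : ‖x‖ ≤ R
          · have h4 : rad f x = 1 := hfi _ (by positivity) (by
              have := norm_nonneg x
              nlinarith)
            rw [h4, sub_self, norm_zero, zero_pow two_ne_zero]
            positivity
          · have h6 : R < ‖x‖ := not_le.mp hx
            have h7 : ‖1 - rad f x‖ ^ 2 ≤ 1 := by
              rw [Real.norm_of_nonneg (by linarith [hf1 (‖x‖ ^ 2), show rad f x = f (‖x‖ ^ 2) from rfl])]
              refine pow_le_one₀ ?_ ?_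
              · linarith [hf1 (‖x‖ ^ 2), show rad f x = f (‖x‖ ^ 2) from rfl]
              · linarith [hf0 (‖x‖ ^ 2), show rad f x = f (‖x‖ ^ 2) from rfl]
            refine h7.trans ?_
            rw [one_div_mul_eq_div, le_div_iff₀ (by positivity)]
            nlinarith
        rw [h2]
        have h6 := norm_sub_le (((rad f x : ℝ) : ℂ) • (a n x - u x))
          (((1 - rad f x : ℝ) : ℂ) • u x)
        have h7 := norm_nonneg (((rad f x : ℝ) : ℂ) • (a n x - u x) -
          ((1 - rad f x : ℝ) : ℂ) • u x)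
        have h8 : 2 / (1 + R ^ 2) * ((1 + ‖x‖ ^ 2) * ‖u x‖ ^ 2) =
            2 * (1 / (1 + R ^ 2) * ((1 + ‖x‖ ^ 2) * ‖u x‖ ^ 2)) := by ring
        rw [h8]
        nlinarith [sq_nonneg (‖((rad f x : ℝ) : ℂ) • (a n x - u x)‖ -
          ‖((1 - rad f x : ℝ) : ℂ) • u x‖)]
      have h2 : 2 / (1 + R ^ 2) * A ≤ 2 * (1 / R) * A := by
        refine mul_le_mul_of_nonneg_right ?_ hA0
        rw [mul_one_div]
        exact div_le_div_of_nonneg_left (by norm_num) hR (by nlinarith)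
      have h3 : (2 + 2 * A) * (1 / R) = 2 * (1 / R) + 2 * (1 / R) * A := by ring
      rw [h3]
      linarith
    · refine (hfE (a n) (ha n).1).trans ?_
      have hm1 : mas (a n) (Metric.ball 0 (3 * R)) ≤ 2 + 2 * nsq u := by
        have h1 := mas_sub_le (f := fun x => a n x - u x) (g := fun x => -u x)
          (A := Metric.ball (0 : Cfg d) (3 * R)) (memLp_norm_sq_int hau).integrableOn
          (memLp_norm_sq_int hm.neg).integrableOn
        have h2 : (fun x => a n x - u x - -u x) = a n := by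
          funext x
          simp
        have h3 : mas (fun x => -u x) (Metric.ball 0 (3 * R)) ≤ nsq u := by
          unfold mas nsq
          simp only [norm_neg]
          exact setIntegral_le_integral (memLp_norm_sq_int hm)
            (Eventually.of_forall fun x => by positivity)
        rw [h2] at h1
        have h4 : 1 / R ≤ 1 := by
          rw [div_le_one hR]
          exact hR1
        linarith
      have h5 : K / R ^ 2 * mas (a n) (Metric.ball 0 (3 * R)) ≤
          K * (1 / R) * (2 + 2 * nsq u) := by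
        have h6 : K / R ^ 2 ≤ K * (1 / R) := by
          rw [mul_one_div]
          exact div_le_div_of_nonneg_left hK hR (by nlinarith)
        exact mul_le_mul h6 hm1 (mas_nonneg _ _) (by positivity)
      have h7 : (2 + K * (2 + 2 * nsq u)) * (1 / R) =
          2 * (1 / R) + K * (1 / R) * (2 + 2 * nsq u) := by ring
      rw [h7]
      linarith
  choose w hw hw1 hw2 using step
  have hlim1 : Tendsto (fun n : ℕ => 1 / ((n : ℝ) + 1)) atTop (𝓝 0) :=
    tendsto_one_div_add_atTop_nhds_zero_nat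
  refine ⟨w, hw, ⟨fun n => (hw n).1.memLp, hm, ?_⟩, ?_⟩
  · have h1 := hlim1.const_mul (2 + 2 * A)
    rw [mul_zero] at h1
    exact squeeze_zero (fun n => nsq_nonneg _) hw1 h1
  · have h1 := hlim1.const_mul (2 + K * (2 + 2 * nsq u))
    rw [mul_zero] at h1
    exact squeeze_zero (fun n => En_nonneg _ _) hw2 h1

/-- **first part of D8** -/
theorem kw_of_zm {S : Setup d F} {u : Cfg d → F} (hu : ZM S u) : KW S u := by
  obtain ⟨w, hw, hl, he⟩ := hu
  refine ⟨hl.mem'.1, w, hw, WI_of_memLp hl.mem', ?_, he⟩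
  exact squeeze_zero (fun n => wn_nonneg _)
    (fun n => wn_le_nsq ((hl.mem n).sub hl.mem')) hl.lim

end KWB

variable {d : ℕ} {F : Type*} [NormedAddCommGroup F] [InnerProductSpace ℂ F]

/-- **D8** -/
theorem kwOf (S : Setup d F) : KWStmt S := by
  intro hDec hDy hDisc hLR _
  exact ⟨fun u hu => KWB.kw_of_zm hu, fun u hu => KWB.zm_of_kw hDec hDy hDisc hu,
    KWB.kw_basis hDec hDy hDisc hLR fun u hu => KWB.zm_of_kw hDec hDy hDisc hu⟩

end Vale.Agent.P353.Z.AD
end

section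

/-! # P353, all `N`, block D, L6: the vacuum projection is a polynomial in the number operator -/

open Filter Topology Matrix
open scoped ContDiff

namespace Vale.Agent.P353.Z.AD.Sc

variable {F : Type*} [NormedAddCommGroup F] [InnerProductSpace ℂ F] {ι : Type*} [Fintype ι] [DecidableEq ι]

/-- annihilators `∑_q Π_{pq} θ_q` -/
noncomputable def an (T : ι → F →L[ℂ] F) (P : Matrix ι ι ℂ) (p : ι) : F →L[ℂ] F := ∑ q, P p q • T q

/-- number operator `∑_p θ_p a_p` -/
noncomputable def nu (T : ι → F →L[ℂ] F) (P : Matrix ι ι ℂ) : F →L[ℂ] F := ∑ p, T p * an T P p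

/-- `∏_{1 ≤ k ≤ m} (1 - N/k)` -/
noncomputable def pj (N : F →L[ℂ] F) : ℕ → F →L[ℂ] F
  | 0 => 1
  | k + 1 => pj N k * (1 - ((k : ℂ) + 1)⁻¹ • N)

variable {T : ι → F →L[ℂ] F} {P : Matrix ι ι ℂ}

lemma an_T (hT : ∀ p q, T p * T q + T q * T p = if p = q then 1 else 0) (p q : ι) :
    T q * an T P p + an T P p * T q = P p q • (1 : F →L[ℂ] F) := by
  unfold an
  rw [Finset.mul_sum, Finset.sum_mul, ← Finset.sum_add_distrib]
  have h1 : ∀ r, T q * P p r • T r + P p r • T r * T q = if q = r then P p r • (1 : F →L[ℂ] F) else 0 := by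
    intro r
    rw [mul_smul_comm, smul_mul_assoc, ← smul_add, hT q r]
    split_ifs <;> simp
  simp only [h1, Finset.sum_ite_eq, Finset.mem_univ, if_true]

lemma an_an (hT : ∀ p q, T p * T q + T q * T p = if p = q then 1 else 0) (hP : P * Pᵀ = 0) (p q : ι) :
    an T P q * an T P p + an T P p * an T P q = 0 := by
  have h1 : an T P q * an T P p + an T P p * an T P q = ∑ r, P q r • (T r * an T P p + an T P p * T r) := by
    conv_lhs => rw [an, Finset.sum_mul, Finset.mul_sum, ← Finset.sum_add_distrib]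
    refine Finset.sum_congr rfl fun r _ => ?_
    rw [smul_mul_assoc, mul_smul_comm, smul_add]
  rw [h1]
  simp only [an_T hT, smul_smul, ← Finset.sum_smul]
  have h2 : ∑ r, P q r * P p r = 0 := by
    have h3 := congrFun (congrFun hP q) p
    rw [mul_apply] at h3
    exact h3
  rw [h2, zero_smul]

lemma an_mul (A B : Matrix ι ι ℂ) (p : ι) : an T (A * B) p = ∑ q, A p q • an T B q := by
  simp only [an, mul_apply, Finset.sum_smul, Finset.smul_sum, smul_smul]
  exact Finset.sum_comm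

lemma nu_an (hT : ∀ p q, T p * T q + T q * T p = if p = q then 1 else 0) (hP : P * Pᵀ = 0) (hPP : P * P = P) (p : ι) :
    nu T P * an T P p = an T P p * nu T P - an T P p := by
  have h1 : ∀ q, an T P p * (T q * an T P q) = P p q • an T P q - T q * (an T P p * an T P q) := by
    intro q
    have h2 := an_T (P := P) hT p q
    have h3 : an T P p * T q = P p q • (1 : F →L[ℂ] F) - T q * an T P p := by
      rw [← h2]
      abel
    rw [← mul_assoc, h3, sub_mul, smul_mul_assoc, one_mul, mul_assoc]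
  have h4 : an T P p = ∑ q, P p q • an T P q := by
    conv_lhs => rw [← hPP]
    exact an_mul P P p
  have h5 : an T P p * nu T P = an T P p - ∑ q, T q * (an T P p * an T P q) := by
    conv_lhs => rw [nu, Finset.mul_sum]
    simp only [h1, Finset.sum_sub_distrib]
    rw [← h4]
  have h6 : nu T P * an T P p = -∑ q, T q * (an T P p * an T P q) := by
    rw [nu, Finset.sum_mul, ← Finset.sum_neg_distrib]
    refine Finset.sum_congr rfl fun q _ => ?_
    rw [mul_assoc, eq_neg_of_add_eq_zero_left (an_an hT hP p q), mul_neg]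
  rw [h5, h6]
  abel

lemma an_apply (A : Matrix ι ι ℂ) (p : ι) (v : F) : an T A p v = ∑ q, A p q • T q v := by
  rw [an, _root_.sum_apply]
  rfl

lemma nu_apply (A : Matrix ι ι ℂ) (v : F) : nu T A v = ∑ p, T p (an T A p v) := by
  rw [nu, _root_.sum_apply]
  rfl

lemma nu_inner (hsa : ∀ p (v w : F), inner ℂ (T p v) w = inner ℂ v (T p w)) (hPh : Pᴴ = P) (hPP : P * P = P) (v w : F) :
    inner ℂ v (nu T P w) = ∑ p, inner ℂ (an T P p v) (an T P p w) := by
  have h1 : inner ℂ v (nu T P w) = ∑ p, ∑ q, P p q * inner ℂ (T p v) (T q w) := by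
    rw [nu_apply, inner_sum]
    refine Finset.sum_congr rfl fun p _ => ?_
    rw [← hsa, an_apply, inner_sum]
    refine Finset.sum_congr rfl fun q _ => ?_
    rw [inner_smul_right]
  have h2 : ∀ p, inner ℂ (an T P p v) (an T P p w) = ∑ q, ∑ r, (P q p * P p r) * inner ℂ (T q v) (T r w) := by
    intro p
    rw [an_apply, an_apply, sum_inner]
    refine Finset.sum_congr rfl fun q _ => ?_
    rw [inner_sum]
    refine Finset.sum_congr rfl fun r _ => ?_
    rw [inner_smul_left, inner_smul_right]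
    have h3 : (starRingEnd ℂ) (P p q) = P q p := by
      have := congrFun (congrFun hPh q) p
      rwa [conjTranspose_apply] at this
    rw [h3]
    ring
  rw [h1]
  simp only [h2]
  rw [Finset.sum_comm (s := Finset.univ) (t := Finset.univ) (f := fun p q => ∑ r, (P q p * P p r) * inner ℂ (T q v) (T r w))]
  refine Finset.sum_congr rfl fun q _ => ?_
  rw [Finset.sum_comm]
  refine Finset.sum_congr rfl fun r _ => ?_
  rw [← Finset.sum_mul]
  congr 1
  have := congrFun (congrFun hPP q) r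
  rw [mul_apply] at this
  exact this.symm

lemma nu_symm (hsa : ∀ p (v w : F), inner ℂ (T p v) w = inner ℂ v (T p w)) (hPh : Pᴴ = P) (hPP : P * P = P) (v w : F) :
    inner ℂ (nu T P v) w = inner ℂ v (nu T P w) := by
  rw [nu_inner hsa hPh hPP, ← inner_conj_symm, nu_inner hsa hPh hPP, map_sum]
  exact Finset.sum_congr rfl fun p _ => inner_conj_symm _ _

lemma nu_ker (hsa : ∀ p (v w : F), inner ℂ (T p v) w = inner ℂ v (T p w)) (hPh : Pᴴ = P) (hPP : P * P = P) {v : F}
    (hv : nu T P v = 0) (p : ι) : an T P p v = 0 := by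
  have h1 := nu_inner hsa hPh hPP v v
  rw [hv, inner_zero_right] at h1
  have h2 : ∑ p, ‖an T P p v‖ ^ 2 = 0 := by
    have h3 : ((∑ p, ‖an T P p v‖ ^ 2 : ℝ) : ℂ) = ∑ p, inner ℂ (an T P p v) (an T P p v) := by
      push_cast
      refine Finset.sum_congr rfl fun p _ => ?_
      rw [inner_self_eq_norm_sq_to_K]
      norm_cast
    rw [← h1] at h3
    exact_mod_cast h3
  have h3 := (Finset.sum_eq_zero_iff_of_nonneg (fun p _ => by positivity)).1 h2 p (Finset.mem_univ p)
  have h4 : ‖an T P p v‖ = 0 := by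
    simpa using h3
  exact norm_eq_zero.1 h4

lemma pj_apply {N : F →L[ℂ] F} {v : F} {μ : ℂ} (h : N v = μ • v) (m : ℕ) :
    pj N m v = (∏ k ∈ Finset.range m, (1 - ((k : ℂ) + 1)⁻¹ * μ)) • v := by
  induction m with
  | zero => simp [pj]
  | succ k ih =>
    have h1 : pj N (k + 1) v = pj N k ((1 - ((k : ℂ) + 1)⁻¹ * μ) • v) := by
      change pj N k ((1 - ((k : ℂ) + 1)⁻¹ • N) v) = _
      congr 1
      change v - ((k : ℂ) + 1)⁻¹ • N v = _
      rw [h, sub_smul, one_smul, smul_smul]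
    rw [h1, map_smul, ih, Finset.prod_range_succ, smul_smul, mul_comm]

/-- the spectrum of the number operator -/
lemma spec [FiniteDimensional ℂ F] (hT : ∀ p q, T p * T q + T q * T p = if p = q then 1 else 0) (hP : P * Pᵀ = 0)
    (hPP : P * P = P) {v : F} (hv0 : v ≠ 0) {μ : ℂ} (hv : nu T P v = μ • v) :
    ∃ j : ℕ, j < Module.finrank ℂ F ∧ μ = j := by
  by_contra hcon
  push Not at hcon
  have h1 : ∀ j : ℕ, j ≤ Module.finrank ℂ F → ∃ u : F, u ≠ 0 ∧ nu T P u = (μ - j) • u := by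
    intro j
    induction j with
    | zero =>
      intro _
      exact ⟨v, hv0, by simpa using hv⟩
    | succ j ih =>
      intro hj
      obtain ⟨u, hu0, hu⟩ := ih (by omega)
      have h2 : μ - j ≠ 0 := sub_ne_zero.2 (hcon j (by omega))
      have h3 : ∃ p, an T P p u ≠ 0 := by
        by_contra h4
        push Not at h4
        have h5 : nu T P u = 0 := by
          rw [nu_apply]
          exact Finset.sum_eq_zero fun p _ => by rw [h4 p, map_zero]
        rw [hu] at h5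
        exact (smul_ne_zero h2 hu0) h5
      obtain ⟨p, hp⟩ := h3
      refine ⟨an T P p u, hp, ?_⟩
      have h4 := congrArg (fun A : F →L[ℂ] F => A u) (nu_an hT hP hPP p)
      have h5 : nu T P (an T P p u) = an T P p (nu T P u) - an T P p u := h4
      rw [h5, hu, map_smul]
      push_cast
      rw [← sub_sub, sub_smul (μ - (j : ℂ)) 1, one_smul]
  choose! u hu0 hu using h1
  have h2 : LinearIndependent ℂ (fun j : Fin (Module.finrank ℂ F + 1) => u j) := by
    refine Module.End.eigenvectors_linearIndependent' (nu T P).toLinearMap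
      (fun j : Fin (Module.finrank ℂ F + 1) => μ - ((j : ℕ) : ℂ)) ?_ _ ?_
    · intro i j hij
      have h3 : ((i : ℕ) : ℂ) = ((j : ℕ) : ℂ) := by
        have : μ - ((i : ℕ) : ℂ) = μ - ((j : ℕ) : ℂ) := hij
        linear_combination -this
      exact Fin.ext (by exact_mod_cast h3)
    · intro j
      exact Module.End.hasEigenvector_iff.2 ⟨Module.End.mem_eigenspace_iff.2 (hu j (by omega)), hu0 j (by omega)⟩
  have h3 := h2.fintype_card_le_finrank
  rw [Fintype.card_fin] at h3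
  omega

/-- **the vacuum projection** -/
theorem proj_eq [FiniteDimensional ℂ F] (hT : ∀ p q, T p * T q + T q * T p = if p = q then 1 else 0)
    (hsa : ∀ p (v w : F), inner ℂ (T p v) w = inner ℂ v (T p w)) (hPh : Pᴴ = P) (hP : P * Pᵀ = 0)
    (hPP : P * P = P) (K : Submodule ℂ F) (hK : ∀ v, v ∈ K ↔ ∀ p, an T P p v = 0) :
    K.starProjection = pj (nu T P) (Module.finrank ℂ F) := by
  have hsym : (nu T P).toLinearMap.IsSymmetric := fun v w => nu_symm hsa hPh hPP v w
  set b := hsym.eigenvectorBasis rfl with hb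
  have h0 : (K.starProjection).toLinearMap = (pj (nu T P) (Module.finrank ℂ F)).toLinearMap := by
    refine b.toBasis.ext fun i => ?_
    rw [OrthonormalBasis.coe_toBasis]
    have h1 : nu T P (b i) = ((hsym.eigenvalues rfl i : ℝ) : ℂ) • b i := hsym.apply_eigenvectorBasis rfl i
    set μ : ℂ := ((hsym.eigenvalues rfl i : ℝ) : ℂ) with hμ
    have hb0 : b i ≠ 0 := b.orthonormal.ne_zero i
    change K.starProjection (b i) = pj (nu T P) (Module.finrank ℂ F) (b i)
    rw [pj_apply h1]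
    by_cases h2 : μ = 0
    · have h3 : b i ∈ K := by
        rw [hK]
        intro p
        refine nu_ker hsa hPh hPP ?_ p
        rw [h1, h2, zero_smul]
      rw [Submodule.starProjection_eq_self_iff.2 h3, h2]
      simp
    · obtain ⟨j, hj, hμj⟩ := spec hT hP hPP hb0 h1
      have h3 : ∏ k ∈ Finset.range (Module.finrank ℂ F), (1 - ((k : ℂ) + 1)⁻¹ * μ) = 0 := by
        have hj0 : j ≠ 0 := by
          rintro rfl
          exact h2 (by simpa using hμj)
        obtain ⟨l, rfl⟩ := Nat.exists_eq_succ_of_ne_zero hj0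
        refine Finset.prod_eq_zero (Finset.mem_range.2 (show l < _ by omega)) ?_
        rw [hμj]
        have h4 : (l : ℂ) + 1 ≠ 0 := by
          exact_mod_cast Nat.succ_ne_zero l
        push_cast
        rw [inv_mul_cancel₀ h4, sub_self]
      rw [h3, zero_smul]
      refine K.starProjection_apply_eq_zero_iff.2 ?_
      rw [Submodule.mem_orthogonal]
      intro u hu
      have h4 : nu T P u = 0 := by
        rw [nu_apply]
        exact Finset.sum_eq_zero fun p _ => by rw [(hK u).1 hu p, map_zero]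
      have h5 : μ * inner ℂ u (b i) = 0 := by
        rw [← inner_smul_right, ← h1, ← nu_symm hsa hPh hPP, h4, inner_zero_left]
      exact (mul_eq_zero.1 h5).resolve_left h2
  ext1 v
  exact congrArg (fun A : F →ₗ[ℂ] F => A v) h0

/-- smoothness -/
theorem pj_smooth {E : Type*} [NormedAddCommGroup E] [NormedSpace ℝ E] {s : Set E} {N : E → F →L[ℂ] F}
    (h : ContDiffOn ℝ ∞ N s) (m : ℕ) : ContDiffOn ℝ ∞ (fun x => pj (N x) m) s := by
  induction m with
  | zero => exact contDiffOn_const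
  | succ k ih =>
    refine ih.mul (contDiffOn_const.sub ?_)
    exact h.const_smul _

theorem nu_smooth {E : Type*} [NormedAddCommGroup E] [NormedSpace ℝ E] {s : Set E} {P : E → Matrix ι ι ℂ}
    (h : ∀ p q, ContDiffOn ℝ ∞ (fun x => P x p q) s) : ContDiffOn ℝ ∞ (fun x => nu T (P x)) s := by
  unfold nu an
  refine ContDiffOn.sum fun p _ => ?_
  refine contDiffOn_const.mul ?_
  refine ContDiffOn.sum fun q _ => ?_
  exact (h p q).smul_const (T q)

end Vale.Agent.P353.Z.AD.Sc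
end

section

/-! # P353, all `N`, block L: comparison of slice integrals over two regions (part of `GluAOfStmt`) -/

open MeasureTheory Filter Topology Matrix
open scoped ContDiff

namespace Vale.Agent.P353.Z.AL

set_option linter.unusedSectionVars false

variable {d dh dm r ds n : ℕ} {F : Type*} [NormedAddCommGroup F] [InnerProductSpace ℂ F]

/-- Cauchy–Schwarz for the `L²` pairing -/
theorem gb459_cs {X : Type*} [MeasurableSpace X] {μ : Measure X} {T g : X → F} (hT : MemLp T 2 μ) (hg : MemLp g 2 μ) :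
    ‖∫ p, inner ℂ (T p) (g p) ∂μ‖ ≤ Real.sqrt (∫ p, ‖T p‖ ^ 2 ∂μ) * Real.sqrt (∫ p, ‖g p‖ ^ 2 ∂μ) := by
  have h1 : ‖∫ p, inner ℂ (T p) (g p) ∂μ‖ ≤ ∫ p, ‖T p‖ * ‖g p‖ ∂μ := by
    refine norm_integral_le_of_norm_le ?_ (Eventually.of_forall fun p => norm_inner_le_norm _ _)
    exact hT.norm.integrable_mul hg.norm
  have h2 := integral_mul_le_Lp_mul_Lq_of_nonneg (μ := μ) (p := 2) (q := 2) Real.HolderConjugate.two_two
    (f := fun p => ‖T p‖) (g := fun p => ‖g p‖) (Eventually.of_forall fun p => norm_nonneg _)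
    (Eventually.of_forall fun p => norm_nonneg _) (by simpa using hT.norm) (by simpa using hg.norm)
  refine h1.trans (h2.trans (le_of_eq ?_))
  simp only [Real.sqrt_eq_rpow, Real.rpow_two]

/-- monotonicity of the square integral in the region -/
theorem gb459_mono {X : Type*} [MeasurableSpace X] {μ : Measure X} {T : X → F} {A B : Set X} (hAB : A ⊆ B)
    (hT : MemLp T 2 (μ.restrict B)) : ∫ p in A, ‖T p‖ ^ 2 ∂μ ≤ ∫ p in B, ‖T p‖ ^ 2 ∂μ := by
  have hi : IntegrableOn (fun p => ‖T p‖ ^ 2) B μ := by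
    have := hT.integrable_norm_pow (p := 2) two_ne_zero
    simpa [IntegrableOn] using this
  exact setIntegral_mono_set hi (Eventually.of_forall fun p => by positivity) (LE.le.eventuallyLE hAB)

/-- the pairings over two regions differ little if the regions agree, outside `B`, on the support of `T` -/
theorem gb459_cmp {X : Type*} [MeasurableSpace X] {μ : Measure X} {T g : X → F} {N₁ N₂ B : Set X}
    (h1 : MeasurableSet N₁) (h2 : MeasurableSet N₂) (hB : MeasurableSet B)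
    (hT : MemLp T 2 μ) (hg1 : MemLp g 2 (μ.restrict N₁)) (hg2 : MemLp g 2 (μ.restrict N₂))
    (h : ∀ p, T p ≠ 0 → p ∉ B → (p ∈ N₁ ↔ p ∈ N₂)) :
    ‖(∫ p in N₁, inner ℂ (T p) (g p) ∂μ) - ∫ p in N₂, inner ℂ (T p) (g p) ∂μ‖ ≤
      Real.sqrt (∫ p in B, ‖T p‖ ^ 2 ∂μ) *
        (Real.sqrt (∫ p in N₁, ‖g p‖ ^ 2 ∂μ) + Real.sqrt (∫ p in N₂, ‖g p‖ ^ 2 ∂μ)) := by
  have hint : ∀ N : Set X, MemLp g 2 (μ.restrict N) → IntegrableOn (fun p => inner ℂ (T p) (g p)) N μ := by
    intro N hg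
    refine Integrable.mono' ((hT.restrict N).norm.integrable_mul hg.norm) ((hT.restrict N).1.inner hg.1)
      (Eventually.of_forall fun p => norm_inner_le_norm _ _)
  have key : ∀ N : Set X, MeasurableSet N → MemLp g 2 (μ.restrict N) →
      ‖∫ p in N ∩ B, inner ℂ (T p) (g p) ∂μ‖ ≤
        Real.sqrt (∫ p in B, ‖T p‖ ^ 2 ∂μ) * Real.sqrt (∫ p in N, ‖g p‖ ^ 2 ∂μ) := by
    intro N hN hg
    have hTr : MemLp T 2 (μ.restrict (N ∩ B)) := hT.restrict _
    have hgr : MemLp g 2 (μ.restrict (N ∩ B)) := hg.mono_measure (Measure.restrict_mono Set.inter_subset_left le_rfl)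
    refine (gb459_cs hTr hgr).trans ?_
    refine mul_le_mul (Real.sqrt_le_sqrt ?_) (Real.sqrt_le_sqrt ?_) (Real.sqrt_nonneg _) (Real.sqrt_nonneg _)
    · exact gb459_mono Set.inter_subset_right (hT.restrict _)
    · exact gb459_mono Set.inter_subset_left hg
  have e1 : ∫ p in N₁, inner ℂ (T p) (g p) ∂μ =
      (∫ p in N₁ ∩ B, inner ℂ (T p) (g p) ∂μ) + ∫ p in N₁ \ B, inner ℂ (T p) (g p) ∂μ :=
    (integral_inter_add_sdiff hB (hint N₁ hg1)).symm
  have e2 : ∫ p in N₂, inner ℂ (T p) (g p) ∂μ =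
      (∫ p in N₂ ∩ B, inner ℂ (T p) (g p) ∂μ) + ∫ p in N₂ \ B, inner ℂ (T p) (g p) ∂μ :=
    (integral_inter_add_sdiff hB (hint N₂ hg2)).symm
  have e3 : ∫ p in N₁ \ B, inner ℂ (T p) (g p) ∂μ = ∫ p in N₂ \ B, inner ℂ (T p) (g p) ∂μ := by
    rw [← integral_indicator (h1.diff hB), ← integral_indicator (h2.diff hB)]
    congr 1
    funext p
    by_cases hTp : T p = 0
    · simp only [Set.indicator, hTp, inner_zero_left, ite_self]
    · have hiff : p ∈ N₁ \ B ↔ p ∈ N₂ \ B :=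
        ⟨fun hh => ⟨(h p hTp hh.2).1 hh.1, hh.2⟩, fun hh => ⟨(h p hTp hh.2).2 hh.1, hh.2⟩⟩
      by_cases hp : p ∈ N₁ \ B
      · rw [Set.indicator_of_mem hp, Set.indicator_of_mem (hiff.1 hp)]
      · rw [Set.indicator_of_notMem hp, Set.indicator_of_notMem (fun hh => hp (hiff.2 hh))]
  rw [e1, e2, e3, add_sub_add_right_eq_sub]
  refine (norm_sub_le _ _).trans ?_
  rw [mul_add]
  exact add_le_add (key N₁ h1 hg1) (key N₂ h2 hg2)

end Vale.Agent.P353.Z.AL
end
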