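import Mathlib
import Vale.Agent.P353.BdA.B2
import Vale.Agent.P353.BdA.B1
import Vale.Agent.P353.BdA.B12
import Vale.Agent.P353.BdA.B6
import Vale.Agent.P353.BdA.B13
import Vale.Agent.P353.BdA.B21
import Vale.Agent.P353.BdA.B10
import Vale.Agent.P353.BdA.B5

set_option linter.all false

section

open MeasureTheory Filter Topology
open scoped ContDiff

namespace Vale.Agent.P353.AN.G

/-- **G02** -/
theorem sqComm : SqCommStmt := by
  intro E _ _ _ K X hs hp hc x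
  classical
  have hsym : (K : E →ₗ[ℝ] E).IsSymmetric := fun a b => hs a b
  have hn : Module.finrank ℝ E = Module.finrank ℝ E := rfl
  set b := hsym.eigenvectorBasis hn with hb
  set lam := hsym.eigenvalues hn with hlam
  have hev : ∀ i, K (b i) = lam i • b i := fun i => by
    have := hsym.apply_eigenvectorBasis hn i
    exact this
  have hl0 : ∀ i, 0 ≤ lam i := by
    intro i
    have h1 := hp (b i)
    rw [hev i, inner_smul_right] at h1
    have h2 : inner ℝ (b i) (b i) = (1 : ℝ) := by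
      rw [real_inner_self_eq_norm_sq, b.orthonormal.1 i]
      norm_num
    rwa [h2, mul_one] at h1
  have key : ∀ i, X (K (b i)) = K (X (b i)) := by
    intro i
    have h1 := hc (b i)
    rw [hev i, map_smul, hev i, map_smul, map_smul] at h1
    -- K K X b = lam^2 X b
    set y := X (b i) with hy
    rw [hev i, map_smul, ← hy]
    have h2 : K (K y) = lam i • lam i • y := h1.symm
    set z := K y - lam i • y with hz
    have h3 : K z = -(lam i • z) := by
      rw [hz, map_sub, map_smul, h2, smul_sub]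
      abel
    have h4 := hp z
    rw [h3, inner_neg_right, inner_smul_right] at h4
    rcases (hl0 i).lt_or_eq with h5 | h5
    · have h6 : inner ℝ z z = (0 : ℝ) := by
        have : 0 ≤ inner ℝ z z := real_inner_self_nonneg
        nlinarith
      have h7 : z = 0 := inner_self_eq_zero.1 h6
      rw [hz, sub_eq_zero] at h7
      exact h7.symm
    · rw [← h5, zero_smul]
      rw [← h5, zero_smul] at h2
      have h6 : inner ℝ (K y) (K y) = (0 : ℝ) := by
        rw [hs, h2, inner_zero_right]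
      exact (inner_self_eq_zero.1 h6).symm
  have hx := b.sum_repr x
  rw [← hx]
  simp only [map_sum, map_smul, key]

end Vale.Agent.P353.AN.G
end

section

/-! # P353, all `N`, block G: the nonzero Casimir eigenvalues of `so(3)` are at least `3/4` (G03) -/

namespace Vale.Agent.P353.AN.G

open Vale.Agent.P353.Z.U Matrix

namespace CasAux

variable {d : ℕ}

/-- the complexified matrices -/
noncomputable def JJ (D : Fin 3 → Matrix (Fin d) (Fin d) ℝ) (k : Fin 3) :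
    Matrix (Fin d) (Fin d) ℂ := Complex.I • (D k).map (algebraMap ℝ ℂ)

lemma map_mul' (A B : Matrix (Fin d) (Fin d) ℝ) :
    (A * B).map (algebraMap ℝ ℂ) = A.map (algebraMap ℝ ℂ) * B.map (algebraMap ℝ ℂ) := by
  rw [Matrix.map_mul]

lemma jt (D : Fin 3 → Matrix (Fin d) (Fin d) ℝ) (h1 : ∀ k, (D k).transpose = -D k)
    (h2 : ∀ k, D (k + 1) * D (k + 2) - D (k + 2) * D (k + 1) = D k) : Cnt.JT (JJ D) := by
  constructor
  · intro k
    ext a b
    have h3 : D k b a = -D k a b := by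
      have := congrFun (congrFun (h1 k) a) b
      simpa [Matrix.transpose_apply] using this
    simp [JJ, Matrix.conjTranspose_apply, h3]
  · intro k
    have h3 := h2 k
    have h4 : (D (k + 1)).map (algebraMap ℝ ℂ) * (D (k + 2)).map (algebraMap ℝ ℂ) -
        (D (k + 2)).map (algebraMap ℝ ℂ) * (D (k + 1)).map (algebraMap ℝ ℂ) =
        (D k).map (algebraMap ℝ ℂ) := by
      rw [← map_mul', ← map_mul', ← Matrix.map_sub _ (by intro a b; simp), h3]
    simp only [JJ, smul_mul_assoc, mul_smul_comm, smul_smul, Complex.I_mul_I]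
    rw [← smul_sub, h4]

/-- the Casimir -/
noncomputable def CC (J : Fin 3 → Matrix (Fin d) (Fin d) ℂ) : Matrix (Fin d) (Fin d) ℂ :=
  J 0 * J 0 + J 1 * J 1 + J 2 * J 2

lemma comm0 {J : Fin 3 → Matrix (Fin d) (Fin d) ℂ} (hJ : Cnt.JT J) : CC J * J 0 = J 0 * CC J := by
  have a := hJ.c01
  have b := hJ.c20
  have e : CC J * J 0 - J 0 * CC J = -(J 1 * (J 0 * J 1 - J 1 * J 0) + (J 0 * J 1 - J 1 * J 0) * J 1)
      + (J 2 * (J 2 * J 0 - J 0 * J 2) + (J 2 * J 0 - J 0 * J 2) * J 2) := by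
    unfold CC; noncomm_ring
  rw [a, b] at e
  rw [← sub_eq_zero, e]
  simp only [mul_smul_comm, smul_mul_assoc]
  abel

lemma comm1 {J : Fin 3 → Matrix (Fin d) (Fin d) ℂ} (hJ : Cnt.JT J) : CC J * J 1 = J 1 * CC J := by
  have a := hJ.c01
  have b := hJ.c12
  have e : CC J * J 1 - J 1 * CC J = (J 0 * (J 0 * J 1 - J 1 * J 0) + (J 0 * J 1 - J 1 * J 0) * J 0)
      - (J 2 * (J 1 * J 2 - J 2 * J 1) + (J 1 * J 2 - J 2 * J 1) * J 2) := by
    unfold CC; noncomm_ring
  rw [a, b] at e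
  rw [← sub_eq_zero, e]
  simp only [mul_smul_comm, smul_mul_assoc]
  abel

lemma comm2 {J : Fin 3 → Matrix (Fin d) (Fin d) ℂ} (hJ : Cnt.JT J) : CC J * J 2 = J 2 * CC J := by
  have a := hJ.c20
  have b := hJ.c12
  have e : CC J * J 2 - J 2 * CC J = -(J 0 * (J 2 * J 0 - J 0 * J 2) + (J 2 * J 0 - J 0 * J 2) * J 0)
      + (J 1 * (J 1 * J 2 - J 2 * J 1) + (J 1 * J 2 - J 2 * J 1) * J 1) := by
    unfold CC; noncomm_ring
  rw [a, b] at e
  rw [← sub_eq_zero, e]
  simp only [mul_smul_comm, smul_mul_assoc]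
  abel

lemma cas_ident {J : Fin 3 → Matrix (Fin d) (Fin d) ℂ} (hJ : Cnt.JT J) :
    (4 : ℂ) • CC J = (4 : ℂ) • (Cnt.Em J * Cnt.Ep J) + (2 : ℂ) • Cnt.Hh J + Cnt.Hh J * Cnt.Hh J := by
  have a := hJ.c01
  have e : Cnt.Em J * Cnt.Ep J = J 0 * J 0 + J 1 * J 1 + Complex.I • (J 0 * J 1 - J 1 * J 0) := by
    simp only [Cnt.Em, Cnt.Ep, mul_add, sub_mul, smul_mul_assoc, mul_smul_comm, smul_smul,
      Complex.I_mul_I, smul_sub]
    module
  rw [e, a, smul_smul, Complex.I_mul_I]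
  simp only [CC, Cnt.Hh, smul_mul_assoc, mul_smul_comm, smul_smul]
  module

end CasAux

open CasAux in
theorem cas (d : ℕ) : CasStmt d := by
  intro D h1 h2 c v hv hc
  have hJ := jt D h1 h2
  set J := JJ D with hJd
  have T := hJ.htr
  set K : Submodule ℂ (EuclideanSpace ℂ (Fin d)) :=
    Module.End.eigenspace (Cnt.TL (CC J)) (c : ℂ) with hK
  have hmem : ∀ x, x ∈ K ↔ Cnt.TL (CC J) x = (c : ℂ) • x := fun x =>
    Module.End.mem_eigenspace_iff
  -- the complexified vector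
  have hCC : CC J = (-(∑ k, D k * D k)).map (algebraMap ℝ ℂ) := by
    rw [Fin.sum_univ_three]
    ext a b
    simp only [CC, hJd, JJ, Matrix.map_apply, Matrix.neg_apply, Matrix.add_apply, smul_mul_assoc,
      mul_smul_comm, smul_smul, Complex.I_mul_I, Matrix.smul_apply, ← map_mul', map_neg, map_add]
    simp
    ring
  have hK0 : K ≠ ⊥ := by
    intro h
    have hin : (WithLp.toLp 2 fun A => ((v A : ℝ) : ℂ) : EuclideanSpace ℂ (Fin d)) ∈ K := by
      rw [hmem, hCC]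
      ext A
      have h3 := congrFun hc A
      have h4 : ((-(∑ k, D k * D k)).mulVec v) A = c * v A := by
        rw [Matrix.neg_mulVec, Matrix.sum_mulVec]
        simpa using h3
      have h5 : ((-(∑ k, D k * D k)).map (algebraMap ℝ ℂ)).mulVec (fun A => ((v A : ℝ) : ℂ)) A =
          ((((-(∑ k, D k * D k)).mulVec v) A : ℝ) : ℂ) := by
        simp only [Matrix.mulVec, dotProduct, Matrix.map_apply]
        push_cast
        rfl
      have h6 : (Cnt.TL ((-(∑ k, D k * D k)).map (algebraMap ℝ ℂ))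
          (WithLp.toLp 2 fun A => ((v A : ℝ) : ℂ))) A =
          ((-(∑ k, D k * D k)).map (algebraMap ℝ ℂ)).mulVec (fun A => ((v A : ℝ) : ℂ)) A := by
        simp [Cnt.TL, Matrix.toLpLin_apply]
      rw [h6, h5, h4]
      simp
    rw [h, Submodule.mem_bot] at hin
    apply hv
    funext A
    have := congrArg (fun x : EuclideanSpace ℂ (Fin d) => x A) hin
    simpa using this
  have inv : ∀ M : Matrix (Fin d) (Fin d) ℂ, CC J * M = M * CC J →
      ∀ x ∈ K, Cnt.TL M x ∈ K := by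
    intro M hM x hx
    rw [hmem] at hx ⊢
    rw [← Cnt.TL_mul, hM, Cnt.TL_mul, hx, map_smul]
  have c0 := comm0 hJ
  have c1 := comm1 hJ
  have c2 := comm2 hJ
  obtain ⟨n, w, hwK, hw0, hw1⟩ := T.exists_hw K hK0
    (inv _ (by rw [Cnt.Hh, mul_smul_comm, smul_mul_assoc, c2]))
    (inv _ (by rw [Cnt.Ep, mul_add, add_mul, mul_smul_comm, smul_mul_assoc, c0, c1]))
  rw [Cnt.mem_hw] at hw1
  have h7 : Cnt.TL ((4 : ℂ) • CC J) w = ((2 : ℂ) * n + (n : ℂ) * n) • w := by
    rw [cas_ident hJ]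
    have e1 : Cnt.TL ((4 : ℂ) • (Cnt.Em J * Cnt.Ep J) + (2 : ℂ) • Cnt.Hh J + Cnt.Hh J * Cnt.Hh J) w =
        (4 : ℂ) • Cnt.TL (Cnt.Em J * Cnt.Ep J) w + (2 : ℂ) • Cnt.TL (Cnt.Hh J) w +
          Cnt.TL (Cnt.Hh J * Cnt.Hh J) w := by
      simp [Cnt.TL, map_add]
    rw [e1, Cnt.TL_mul, Cnt.TL_mul, hw1.1, hw1.2, map_zero, smul_zero, zero_add, map_smul, hw1.2,
      smul_smul, smul_smul, ← add_smul]
  have h8 : Cnt.TL ((4 : ℂ) • CC J) w = ((4 : ℂ) * c) • w := by
    have e1 : Cnt.TL ((4 : ℂ) • CC J) w = (4 : ℂ) • Cnt.TL (CC J) w := by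
      simp [Cnt.TL]
    rw [e1, (hmem w).1 hwK, smul_smul]
  have h9 : (4 : ℂ) * c = (2 : ℂ) * n + (n : ℂ) * n :=
    smul_left_injective ℂ hw0 (h8.symm.trans h7)
  have h10 : (4 : ℝ) * c = 2 * n + n * n := by exact_mod_cast h9
  rcases Nat.eq_zero_or_pos n with hn | hn
  · left
    subst hn
    simp at h10
    linarith
  · right
    have : (1 : ℝ) ≤ n := by exact_mod_cast hn
    nlinarith

end Vale.Agent.P353.AN.G
end

section

/-! # P353, all `N`, block G27: pointwise bounds for averages -/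

open MeasureTheory Filter Topology
open scoped ContDiff

namespace Vale.Agent.P353.AN.G

open Vale.Agent.P353.Z Vale.Agent.P353.Z.U

universe w

variable {N d : ℕ} {F : Type w} [NormedAddCommGroup F] [InnerProductSpace ℂ F]

namespace AvgB

lemma inner_S (M : BFSS.Model N d F) (U : BFSS.SU N) (v w : F) :
    inner ℂ (M.S U v) (M.S U w) = inner ℂ v w :=
  LinearIsometry.inner_map_map
    ({ (M.S U).toLinearMap with norm_map' := fun x => M.S_isometry U x } : F →ₗᵢ[ℂ] F) v w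

lemma act_inv_cont (M : BFSS.Model N d F) (h : ActStmt M) (x : Cfg d) :
    Continuous fun U : BFSS.SU N => M.act U⁻¹ x := by
  have h3 : Continuous fun p : BFSS.SU N × Cfg d => M.act p.1 p.2 := h.2.2.2.2.2.1
  have h4 : Continuous ((fun p : BFSS.SU N × Cfg d => M.act p.1 p.2) ∘
      fun U : BFSS.SU N => ((U⁻¹, x) : BFSS.SU N × Cfg d)) :=
    h3.comp (continuous_inv.prodMk continuous_const)
  exact h4

end AvgB

/-- **G27** -/
theorem avgB [FiniteDimensional ℂ F] (M : BFSS.Model N d F) (h22 : ActStmt M) : AvgBStmt M := by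
  refine ⟨fun f φ B hf hφ hle hB x => ?_, fun φ Ω hφ _ h0 hΩ hhalf x => ?_⟩
  · have hc := AvgB.act_inv_cont M h22 x
    refine norm_integral_le_of_norm_le ?_ (ae_of_all _ fun U => ?_)
    · refine Integrable.of_bound (C := B) (hφ.comp hc.measurable).aestronglyMeasurable
        (ae_of_all _ fun U => ?_)
      have h1 : 0 ≤ φ (M.act U⁻¹ x) := (norm_nonneg _).trans (hle _)
      rw [Real.norm_of_nonneg h1]
      exact hB _
    · rw [M.S_isometry]
      exact hle _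
  · have hc := AvgB.act_inv_cont M h22 x
    by_cases hex : ∃ U₀, φ (M.act U₀⁻¹ x) ≠ 0
    · obtain ⟨U₀, hU₀⟩ := hex
      have hkey : ∀ U, 1 / 2 * φ (M.act U⁻¹ x) ≤
          (inner ℂ (M.S U₀ Ω) (M.S U (((φ (M.act U⁻¹ x) : ℝ) : ℂ) • Ω))).re := by
        intro U
        have e1 : (inner ℂ (M.S U₀ Ω) (M.S U (((φ (M.act U⁻¹ x) : ℝ) : ℂ) • Ω))).re =
            φ (M.act U⁻¹ x) * (inner ℂ (M.S U₀ Ω) (M.S U Ω)).re := by
          rw [map_smul, inner_smul_right, Complex.re_ofReal_mul]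
        rw [e1]
        rcases eq_or_ne (φ (M.act U⁻¹ x)) 0 with h | h
        · rw [h]
          simp
        · have h1 : M.act (U⁻¹ * U₀) (M.act U₀⁻¹ x) = M.act U⁻¹ x := by
            rw [← h22.1, mul_assoc, mul_inv_cancel, mul_one]
          have h2 := hhalf (U⁻¹ * U₀) (M.act U₀⁻¹ x) hU₀ (by rwa [h1])
          have h3 : (inner ℂ Ω (M.S (U⁻¹ * U₀) Ω)).re = (inner ℂ (M.S U₀ Ω) (M.S U Ω)).re := by
            rw [← AvgB.inner_S M U, ← M.S_mul, ← mul_assoc, mul_inv_cancel, one_mul,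
              ← inner_conj_symm, Complex.conj_re]
          rw [h3] at h2
          nlinarith [h0 (M.act U⁻¹ x)]
      have hcv : Continuous fun U : BFSS.SU N => M.S U (((φ (M.act U⁻¹ x) : ℝ) : ℂ) • Ω) := by
        have : (fun U : BFSS.SU N => M.S U (((φ (M.act U⁻¹ x) : ℝ) : ℂ) • Ω)) =
            fun U => ((φ (M.act U⁻¹ x) : ℝ) : ℂ) • M.S U Ω := by
          funext U
          rw [map_smul]
        rw [this]
        exact (Complex.continuous_ofReal.comp (hφ.comp hc)).smul (M.S_continuous Ω)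
      have hiv : Integrable (fun U : BFSS.SU N => M.S U (((φ (M.act U⁻¹ x) : ℝ) : ℂ) • Ω))
          (hm N) := hcv.integrable_of_hasCompactSupport (HasCompactSupport.of_compactSpace _)
      have hir : Integrable (fun U : BFSS.SU N => 1 / 2 * φ (M.act U⁻¹ x)) (hm N) :=
        (continuous_const.mul (hφ.comp hc)).integrable_of_hasCompactSupport
          (HasCompactSupport.of_compactSpace _)
      have h1 : inner ℂ (M.S U₀ Ω) (avg M (fun y => ((φ y : ℝ) : ℂ) • Ω) x) =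
          ∫ U, inner ℂ (M.S U₀ Ω) (M.S U (((φ (M.act U⁻¹ x) : ℝ) : ℂ) • Ω)) ∂(hm N) :=
        (integral_inner hiv _).symm
      have hii : Integrable (fun U : BFSS.SU N =>
          inner ℂ (M.S U₀ Ω) (M.S U (((φ (M.act U⁻¹ x) : ℝ) : ℂ) • Ω))) (hm N) :=
        hiv.const_inner _
      have h2 : (inner ℂ (M.S U₀ Ω) (avg M (fun y => ((φ y : ℝ) : ℂ) • Ω) x)).re =
          ∫ U, (inner ℂ (M.S U₀ Ω) (M.S U (((φ (M.act U⁻¹ x) : ℝ) : ℂ) • Ω))).re ∂(hm N) := by
        rw [h1]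
        exact (integral_re hii).symm
      have h3 : 1 / 2 * avs M φ x ≤
          (inner ℂ (M.S U₀ Ω) (avg M (fun y => ((φ y : ℝ) : ℂ) • Ω) x)).re := by
        rw [h2]
        unfold avs
        rw [← integral_const_mul]
        exact integral_mono hir hii.re hkey
      refine h3.trans ((Complex.re_le_norm _).trans ((norm_inner_le_norm _ _).trans ?_))
      rw [M.S_isometry, hΩ, one_mul]
    · push Not at hex
      have : avs M φ x = 0 := by
        unfold avs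
        simp only [hex, integral_zero]
      rw [this, mul_zero]
      exact norm_nonneg _

end Vale.Agent.P353.AN.G
end

section

/-! # P353, all `N`, block G: G28, doubling -/

open MeasureTheory Filter Topology
open scoped ContDiff ENNReal

namespace Vale.Agent.P353.AN.G

open Vale.Agent.P353.Z Vale.Agent.P353.Z.U

section Dbl

variable {N d : ℕ} {F : Type*} [NormedAddCommGroup F] [InnerProductSpace ℂ F]

/-- the set of pairs `(U, x)` with `|Up - x| ≤ ρ` and `|x - p| ≤ R` -/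
private def dblA (M : BFSS.Model N d F) (p : Cfg d) (ρ R : ℝ) : Set (BFSS.SU N × Cfg d) :=
  {q | ‖M.act q.1 p - q.2‖ ≤ ρ ∧ ‖q.2 - p‖ ≤ R}

private lemma dbl_cont (M : BFSS.Model N d F) (h22 : ActStmt M) (p : Cfg d) :
    Continuous fun U : BFSS.SU N => M.act U p := by
  obtain ⟨-, -, -, -, -, h6, -⟩ := h22
  have h1 : Continuous fun U : BFSS.SU N => (U, p) := by fun_prop
  have h2 : Continuous ((fun q : BFSS.SU N × Cfg d => M.act q.1 q.2) ∘
      fun U : BFSS.SU N => (U, p)) := Continuous.comp h6 h1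
  exact h2

private lemma dbl_meas (M : BFSS.Model N d F) (h22 : ActStmt M) (p : Cfg d) (ρ R : ℝ) :
    MeasurableSet (dblA M p ρ R) := by
  have h1 : Continuous fun q : BFSS.SU N × Cfg d => M.act q.1 p :=
    (dbl_cont M h22 p).comp continuous_fst
  have h2 : IsClosed (dblA M p ρ R) :=
    (isClosed_le (h1.sub continuous_snd).norm continuous_const).inter
      (isClosed_le (continuous_snd.sub continuous_const).norm continuous_const)
  exact h2.measurableSet

/-- `mu` as an extended number -/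
private lemma dbl_mu (M : BFSS.Model N d F) (p : Cfg d) (r : ℝ) :
    ENNReal.ofReal (mu M p r) = hm N {U | ‖M.act U p - p‖ ≤ r} := by
  unfold mu
  exact ENNReal.ofReal_toReal (measure_ne_top _ _)

private lemma dbl_sub (M : BFSS.Model N d F) (h22 : ActStmt M) (U : BFSS.SU N) (x y : Cfg d) :
    M.act U x - M.act U y = M.act U (x - y) := by
  have h1 := h22.2.2.1 U (x - y) y
  rw [sub_add_cancel] at h1
  rw [h1, add_sub_cancel_right]

/-- `N_ρ(x) ≤ mu(2ρ)` -/
private lemma dbl_up (M : BFSS.Model N d F) (h22 : ActStmt M) (p x : Cfg d) (ρ : ℝ) :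
    hm N {U | ‖M.act U p - x‖ ≤ ρ} ≤ hm N {U | ‖M.act U p - p‖ ≤ 2 * ρ} := by
  by_cases hne : {U : BFSS.SU N | ‖M.act U p - x‖ ≤ ρ}.Nonempty
  · obtain ⟨V, hV⟩ := hne
    have hV' : ‖M.act V p - x‖ ≤ ρ := hV
    have h1 : {U | ‖M.act U p - x‖ ≤ ρ} ⊆
        (fun U => V⁻¹ * U) ⁻¹' {U | ‖M.act U p - p‖ ≤ 2 * ρ} := by
      intro U hU
      have hU' : ‖M.act U p - x‖ ≤ ρ := hU
      change ‖M.act (V⁻¹ * U) p - p‖ ≤ 2 * ρ
      have h2 : p = M.act V⁻¹ (M.act V p) := by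
        rw [← h22.1, inv_mul_cancel, h22.2.1]
      have h3 : M.act (V⁻¹ * U) p - p = M.act V⁻¹ (M.act U p - M.act V p) := by
        rw [← dbl_sub M h22, ← h2, h22.1]
      rw [h3, h22.2.2.2.2.1]
      calc ‖M.act U p - M.act V p‖ = ‖(M.act U p - x) - (M.act V p - x)‖ := by
            rw [sub_sub_sub_cancel_right]
        _ ≤ ‖M.act U p - x‖ + ‖M.act V p - x‖ := norm_sub_le _ _
        _ ≤ 2 * ρ := by linarith
    refine (measure_mono h1).trans_eq ?_
    rw [measure_preimage_mul]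
  · rw [Set.not_nonempty_iff_eq_empty.1 hne, measure_empty]
    exact bot_le

private lemma dbl_main (M : BFSS.Model N d F) (h22 : ActStmt M) (p : Cfg d) (ρ R : ℝ) :
    ENNReal.ofReal (mu M p (R - ρ)) * volume (Metric.closedBall (0 : Cfg d) ρ)
      ≤ ENNReal.ofReal (mu M p (2 * ρ)) * volume (Metric.closedBall (0 : Cfg d) R) := by
  have hA := dbl_meas M h22 p ρ R
  have hlow : ENNReal.ofReal (mu M p (R - ρ)) * volume (Metric.closedBall (0 : Cfg d) ρ)
      ≤ ((hm N).prod volume) (dblA M p ρ R) := by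
    rw [Measure.prod_apply hA, dbl_mu]
    have hS : MeasurableSet {U : BFSS.SU N | ‖M.act U p - p‖ ≤ R - ρ} :=
      (isClosed_le ((dbl_cont M h22 p).sub continuous_const).norm
        continuous_const).measurableSet
    have h1 : ∀ U ∈ {U : BFSS.SU N | ‖M.act U p - p‖ ≤ R - ρ},
        volume (Metric.closedBall (0 : Cfg d) ρ) ≤ volume (Prod.mk U ⁻¹' dblA M p ρ R) := by
      intro U hU
      have hU' : ‖M.act U p - p‖ ≤ R - ρ := hU
      have h2 : Metric.closedBall (M.act U p) ρ ⊆ Prod.mk U ⁻¹' dblA M p ρ R := by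
        intro x hx
        rw [mem_closedBall_iff_norm] at hx
        refine ⟨?_, ?_⟩
        · change ‖M.act U p - x‖ ≤ ρ
          rw [norm_sub_rev]
          exact hx
        · change ‖x - p‖ ≤ R
          calc ‖x - p‖ = ‖(x - M.act U p) + (M.act U p - p)‖ := by rw [sub_add_sub_cancel]
            _ ≤ ‖x - M.act U p‖ + ‖M.act U p - p‖ := norm_add_le _ _
            _ ≤ R := by linarith
      refine le_trans (le_of_eq ?_) (measure_mono h2)
      rw [Measure.addHaar_closedBall_center volume (M.act U p)]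
    calc hm N {U | ‖M.act U p - p‖ ≤ R - ρ} * volume (Metric.closedBall (0 : Cfg d) ρ)
        = ∫⁻ _ in {U | ‖M.act U p - p‖ ≤ R - ρ}, volume (Metric.closedBall (0 : Cfg d) ρ) ∂(hm N) := by
          rw [setLIntegral_const, mul_comm]
      _ ≤ ∫⁻ U in {U | ‖M.act U p - p‖ ≤ R - ρ}, volume (Prod.mk U ⁻¹' dblA M p ρ R) ∂(hm N) :=
          setLIntegral_mono' hS h1
      _ ≤ _ := setLIntegral_le_lintegral _ _
  have hup : ((hm N).prod volume) (dblA M p ρ R)
      ≤ ENNReal.ofReal (mu M p (2 * ρ)) * volume (Metric.closedBall (0 : Cfg d) R) := by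
    rw [Measure.prod_apply_symm hA, dbl_mu]
    have hB : MeasurableSet (Metric.closedBall p R) := Metric.isClosed_closedBall.measurableSet
    have h1 : ∀ x : Cfg d, hm N ((fun U => (U, x)) ⁻¹' dblA M p ρ R) ≤
        (Metric.closedBall p R).indicator
          (fun _ => hm N {U | ‖M.act U p - p‖ ≤ 2 * ρ}) x := by
      intro x
      by_cases hx : x ∈ Metric.closedBall p R
      · rw [Set.indicator_of_mem hx]
        refine le_trans (measure_mono ?_) (dbl_up M h22 p x ρ)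
        intro U hU
        exact hU.1
      · rw [Set.indicator_of_notMem hx]
        have h2 : (fun U => (U, x)) ⁻¹' dblA M p ρ R = ∅ := by
          ext U
          simp only [Set.mem_preimage, Set.mem_empty_iff_false, iff_false]
          intro hU
          exact hx (mem_closedBall_iff_norm.2 hU.2)
        rw [h2, measure_empty]
    refine (lintegral_mono h1).trans_eq ?_
    rw [lintegral_indicator hB, setLIntegral_const, Measure.addHaar_closedBall_center]
  exact hlow.trans hup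

theorem dbl (M : BFSS.Model N d F) (h22 : ActStmt M) : DblStmt M := by
  intro p r hr
  constructor
  · -- positivity
    have hop : IsOpen {U : BFSS.SU N | ‖M.act U p - p‖ < r} :=
      isOpen_lt ((dbl_cont M h22 p).sub continuous_const).norm continuous_const
    have h1 : (1 : BFSS.SU N) ∈ {U : BFSS.SU N | ‖M.act U p - p‖ < r} := by
      change ‖M.act 1 p - p‖ < r
      rw [h22.2.1, sub_self, norm_zero]
      exact hr
    have h2 : 0 < hm N {U : BFSS.SU N | ‖M.act U p - p‖ < r} := hop.measure_pos _ ⟨1, h1⟩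
    have h3 : 0 < hm N {U : BFSS.SU N | ‖M.act U p - p‖ ≤ r} :=
      h2.trans_le (measure_mono fun U (hU : ‖M.act U p - p‖ < r) => (le_of_lt hU :
        ‖M.act U p - p‖ ≤ r))
    exact ENNReal.toReal_pos h3.ne' (measure_ne_top _ _)
  · have h1 := dbl_main M h22 p (r / 8) (17 * r / 8)
    have e1 : 17 * r / 8 - r / 8 = 2 * r := by ring
    have e2 : 2 * (r / 8) = r / 4 := by ring
    rw [e1, e2, Measure.addHaar_closedBall _ _ (by positivity),
      Measure.addHaar_closedBall _ _ (by positivity)] at h1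
    have hfin : Module.finrank ℝ (Cfg d) = 9 * d := by
      rw [finrank_euclideanSpace, Fintype.card_prod, Fintype.card_fin, Fintype.card_fin]
    rw [hfin] at h1
    set c := volume (Metric.ball (0 : Cfg d) 1) with hc
    have hc0 : c ≠ 0 := (Metric.measure_ball_pos volume (0 : Cfg d) one_pos).ne'
    have hct : c ≠ ⊤ := measure_ball_lt_top.ne
    have hmu0 : ∀ s, 0 ≤ mu M p s := fun s => measureReal_nonneg
    have h2 : mu M p (2 * r) * ((r / 8) ^ (9 * d) * c.toReal)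
        ≤ mu M p (r / 4) * ((17 * r / 8) ^ (9 * d) * c.toReal) := by
      have h3 := ENNReal.toReal_mono (by finiteness) h1
      rw [ENNReal.toReal_mul, ENNReal.toReal_mul, ENNReal.toReal_mul, ENNReal.toReal_mul,
        ENNReal.toReal_ofReal (hmu0 _), ENNReal.toReal_ofReal (hmu0 _),
        ENNReal.toReal_ofReal (by positivity), ENNReal.toReal_ofReal (by positivity)] at h3
      exact h3
    have hcp : 0 < c.toReal := ENNReal.toReal_pos hc0 hct
    have e3 : (17 * r / 8) ^ (9 * d) = 17 ^ (9 * d) * (r / 8) ^ (9 * d) := by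
      rw [← mul_pow]
      congr 1
      ring
    rw [e3] at h2
    have hq : 0 < (r / 8) ^ (9 * d) * c.toReal := by positivity
    refine le_of_mul_le_mul_right ?_ hq
    calc mu M p (2 * r) * ((r / 8) ^ (9 * d) * c.toReal)
        ≤ mu M p (r / 4) * (17 ^ (9 * d) * (r / 8) ^ (9 * d) * c.toReal) := h2
      _ = 17 ^ (9 * d) * mu M p (r / 4) * ((r / 8) ^ (9 * d) * c.toReal) := by ring

end Dbl

end Vale.Agent.P353.AN.G
end

section

/-! # P353, all `N`, block A: the tube coordinates are a measure preserving linear isomorphism -/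

open MeasureTheory Filter Topology
open scoped ContDiff

namespace Vale.Agent.P353.Z.AN

variable {d dh dm : ℕ}

/-- index map of the coordinates -/
def cooIdx (φ : Spl dh dm d) : Fin dm ⊕ ((Fin 9 × Fin dh) ⊕ (Fin 8 × Fin dm)) → Fin 9 × Fin d :=
  Sum.elim (fun B => (8, φ (Sum.inr B)))
    (Sum.elim (fun p => (p.1, φ (Sum.inl p.2))) fun p => (p.1.castSucc, φ (Sum.inr p.2)))

theorem cooIdx_bijective (φ : Spl dh dm d) : Function.Bijective (cooIdx φ) := by
  have h8 : ∀ j : Fin 8, (8 : Fin 9) ≠ j.castSucc := fun j h => by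
    have := congrArg Fin.val h
    have hj := j.isLt
    simp at this
    omega
  constructor
  · rintro (B | ⟨i, A⟩ | ⟨j, B⟩) (B' | ⟨i', A'⟩ | ⟨j', B'⟩) h
    all_goals simp only [cooIdx, Sum.elim_inl, Sum.elim_inr, Prod.mk.injEq,
      EmbeddingLike.apply_eq_iff_eq, Sum.inr.injEq, Sum.inl.injEq, true_and, reduceCtorEq,
      and_false, Fin.castSucc_inj] at h
    · rw [h]
    · exact absurd h.1 (h8 j')
    · rw [h.1, h.2]
    · exact absurd h.1.symm (h8 j)
    · rw [h.1, h.2]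
  · rintro ⟨i, A⟩
    obtain ⟨s, rfl⟩ := φ.surjective A
    rcases s with A | B
    · exact ⟨Sum.inr (Sum.inl (i, A)), rfl⟩
    · refine Fin.lastCases ?_ (fun j => ?_) i
      · exact ⟨Sum.inl B, rfl⟩
      · exact ⟨Sum.inr (Sum.inr (j, B)), rfl⟩

/-- the index equivalence -/
noncomputable def cooEquiv (φ : Spl dh dm d) :
    Fin dm ⊕ ((Fin 9 × Fin dh) ⊕ (Fin 8 × Fin dm)) ≃ Fin 9 × Fin d :=
  Equiv.ofBijective _ (cooIdx_bijective φ)

theorem coo_mp (φ : Spl dh dm d) :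
    MeasurePreserving (fun z : Cfg d => (zm φ z, (zy φ z, zw φ z))) volume
      (volume.prod (volume.prod volume)) := by
  have m1 := PiLp.volume_preserving_ofLp (Fin 9 × Fin d)
  have m2 := (volume_measurePreserving_piCongrLeft (fun _ : Fin 9 × Fin d => ℝ)
    (cooEquiv φ)).symm
  have m3 := volume_measurePreserving_sumPiEquivProdPi
    (fun _ : Fin dm ⊕ ((Fin 9 × Fin dh) ⊕ (Fin 8 × Fin dm)) => ℝ)
  have m4 := volume_measurePreserving_sumPiEquivProdPi
    (fun _ : (Fin 9 × Fin dh) ⊕ (Fin 8 × Fin dm) => ℝ)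
  have n1 := PiLp.volume_preserving_toLp (Fin dm)
  have n2 := PiLp.volume_preserving_toLp (Fin 9 × Fin dh)
  have n3 := PiLp.volume_preserving_toLp (Fin 8 × Fin dm)
  have m5 := n1.prod ((n2.prod n3).comp m4)
  exact m5.comp (m3.comp (m2.comp m1))

theorem coo_stmt : CooStmt := by
  intro d dh dm φ
  let f : Cfg d →ₗ[ℝ] EuclideanSpace ℝ (Fin dm) × (Cfg dh × Wsp dm) :=
    { toFun := fun z => (zm φ z, (zy φ z, zw φ z))
      map_add' := fun _ _ => rfl
      map_smul' := fun _ _ => rfl }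
  have hinj : Function.Injective f := by
    intro z z' h
    have h1 : zm φ z = zm φ z' := congrArg Prod.fst h
    have h2 : zy φ z = zy φ z' := congrArg (fun t => t.2.1) h
    have h3 : zw φ z = zw φ z' := congrArg (fun t => t.2.2) h
    ext p
    obtain ⟨s, rfl⟩ := (cooIdx_bijective φ).2 p
    rcases s with B | p | p
    · exact congrArg (fun t : EuclideanSpace ℝ (Fin dm) => t B) h1
    · exact congrArg (fun t : Cfg dh => t p) h2
    · exact congrArg (fun t : Wsp dm => t p) h3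
  have hdim : Module.finrank ℝ (Cfg d) =
      Module.finrank ℝ (EuclideanSpace ℝ (Fin dm) × (Cfg dh × Wsp dm)) := by
    rw [Module.finrank_prod, Module.finrank_prod, finrank_euclideanSpace, finrank_euclideanSpace,
      finrank_euclideanSpace, finrank_euclideanSpace, ← Fintype.card_congr (cooEquiv φ),
      Fintype.card_sum, Fintype.card_sum]
  let e := (f.linearEquivOfInjective hinj hdim).toContinuousLinearEquiv
  have he : ∀ z, e z = (zm φ z, (zy φ z, zw φ z)) := fun z => rfl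
  refine ⟨e, he, ?_⟩
  have : (e : Cfg d → EuclideanSpace ℝ (Fin dm) × (Cfg dh × Wsp dm)) =
      fun z => (zm φ z, (zy φ z, zw φ z)) := funext he
  rw [this]
  exact coo_mp φ

end Vale.Agent.P353.Z.AN
end

section

/-! # P353, all `N`, block A: Jacobian of the tube coordinates -/

open MeasureTheory Filter Topology
open scoped ContDiff

namespace Vale.Agent.P353.Z.AN

variable {d dh dm : ℕ} {F : Type*} [NormedAddCommGroup F] [InnerProductSpace ℂ F]

private lemma dt_emb_inl (φ : Spl dh dm d) (y : Cfg dh) (w : Wsp dm) (i : Fin 9) (A : Fin dh) :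
    emb φ y w (i, φ (Sum.inl A)) = y (i, A) := by
  simp [emb]

private lemma dt_emb_8 (φ : Spl dh dm d) (y : Cfg dh) (w : Wsp dm) (B : Fin dm) :
    emb φ y w (8, φ (Sum.inr B)) = 0 := by
  simp only [emb, Equiv.symm_apply_apply, Sum.elim_inr]
  exact Fin.lastCases_last (motive := fun _ => ℝ)

private lemma dt_emb_cs (φ : Spl dh dm d) (y : Cfg dh) (w : Wsp dm) (j : Fin 8) (B : Fin dm) :
    emb φ y w (j.castSucc, φ (Sum.inr B)) = w (j, B) := by
  simp [emb]

private lemma dt_ext (φ : Spl dh dm d) {x x' : Cfg d} (h1 : ∀ B, x (8, φ (Sum.inr B)) = x' (8, φ (Sum.inr B)))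
    (h2 : ∀ i A, x (i, φ (Sum.inl A)) = x' (i, φ (Sum.inl A)))
    (h3 : ∀ (j : Fin 8) B, x (j.castSucc, φ (Sum.inr B)) = x' (j.castSucc, φ (Sum.inr B))) : x = x' := by
  ext p
  obtain ⟨s, rfl⟩ := (cooIdx_bijective φ).2 p
  rcases s with B | p | p
  · exact h1 B
  · exact h2 p.1 p.2
  · exact h3 p.1 p.2

/-- slice part -/
private noncomputable def dtP (φ : Spl dh dm d) : Cfg d →L[ℝ] Cfg d :=
  LinearMap.toContinuousLinearMap
    { toFun := fun z => emb φ (zy φ z) (zw φ z)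
      map_add' := by
        intro z z'
        apply dt_ext φ
        · intro B
          rw [PiLp.add_apply, dt_emb_8, dt_emb_8, dt_emb_8, add_zero]
        · intro i A
          rw [PiLp.add_apply, dt_emb_inl, dt_emb_inl, dt_emb_inl]
          rfl
        · intro j B
          rw [PiLp.add_apply, dt_emb_cs, dt_emb_cs, dt_emb_cs]
          rfl
      map_smul' := by
        intro c z
        apply dt_ext φ
        · intro B
          rw [PiLp.smul_apply, dt_emb_8, dt_emb_8, smul_zero]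
        · intro i A
          rw [PiLp.smul_apply, dt_emb_inl, dt_emb_inl]
          rfl
        · intro j B
          rw [PiLp.smul_apply, dt_emb_cs, dt_emb_cs]
          rfl }

private lemma dtP_apply (φ : Spl dh dm d) (z : Cfg d) : dtP φ z = emb φ (zy φ z) (zw φ z) := rfl

/-- gauge part -/
private noncomputable def dtL (φ : Spl dh dm d) : Cfg d →L[ℝ] (Fin d → ℝ) :=
  LinearMap.toContinuousLinearMap
    { toFun := fun z => exm φ (zm φ z)
      map_add' := by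
        intro z z'
        funext A
        obtain ⟨s, rfl⟩ := φ.surjective A
        rcases s with A | B
        · simp [exm]
        · simp [exm, zm]
      map_smul' := by
        intro c z
        funext A
        obtain ⟨s, rfl⟩ := φ.surjective A
        rcases s with A | B
        · simp [exm]
        · simp [exm, zm] }

private lemma dtL_apply (φ : Spl dh dm d) (z : Cfg d) : dtL φ z = exm φ (zm φ z) := rfl

private lemma dt_ro_add (O : Matrix (Fin d) (Fin d) ℝ) (x y : Cfg d) : ro O (x + y) = ro O x + ro O y := by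
  ext p
  simp [ro, mul_add, Finset.sum_add_distrib]

private lemma dt_ro_smul (O : Matrix (Fin d) (Fin d) ℝ) (c : ℝ) (x : Cfg d) : ro O (c • x) = c • ro O x := by
  ext p
  simp only [ro, PiLp.smul_apply, smul_eq_mul, Finset.mul_sum]
  exact Finset.sum_congr rfl fun B _ => by ring

private lemma dt_fderiv (S : Setup d F) (h : DexpStmt S) (a : Fin d → ℝ) (x : Cfg d) (α : Fin d → ℝ) (σ : Cfg d) :
    fderiv ℝ (fun p : (Fin d → ℝ) × Cfg d => ro (NormedSpace.exp (S.adm p.1)) p.2) (a, x) (α, σ) =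
      ro (NormedSpace.exp (S.adm a)) (ro (S.adm (om S a α)) x + σ) := by
  obtain ⟨h1, h2, -⟩ := h
  set Ψ : (Fin d → ℝ) × Cfg d → Cfg d := fun p => ro (NormedSpace.exp (S.adm p.1)) p.2 with hΨ
  have hd : DifferentiableAt ℝ Ψ (a, x) := (h2.differentiable (by simp)).differentiableAt
  have e0 : ((α, σ) : (Fin d → ℝ) × Cfg d) = (α, 0) + (0, σ) := by simp
  rw [e0, map_add]
  have e1 : fderiv ℝ Ψ (a, x) (α, 0) = ro (NormedSpace.exp (S.adm a)) (ro (S.adm (om S a α)) x) := by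
    have hc : HasDerivAt (fun t : ℝ => ((a + t • α, x) : (Fin d → ℝ) × Cfg d)) (α, 0) 0 := by
      have hc1 : HasDerivAt (fun t : ℝ => a + t • α) α 0 := by
        simpa using ((hasDerivAt_id (0 : ℝ)).smul_const α).const_add a
      exact hc1.prodMk (hasDerivAt_const (0 : ℝ) x)
    have hf : HasFDerivAt Ψ (fderiv ℝ Ψ (a, x)) ((fun t : ℝ => ((a + t • α, x) : (Fin d → ℝ) × Cfg d)) 0) := by
      simpa using hd.hasFDerivAt
    have hcomp := hf.comp_hasDerivAt (0 : ℝ) hc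
    exact hcomp.unique (h1 a α x)
  have e2 : fderiv ℝ Ψ (a, x) (0, σ) = ro (NormedSpace.exp (S.adm a)) σ := by
    have hc : HasDerivAt (fun t : ℝ => ((a, x + t • σ) : (Fin d → ℝ) × Cfg d)) (0, σ) 0 := by
      have hc1 : HasDerivAt (fun t : ℝ => x + t • σ) σ 0 := by
        simpa using ((hasDerivAt_id (0 : ℝ)).smul_const σ).const_add x
      exact (hasDerivAt_const (0 : ℝ) a).prodMk hc1
    have hf : HasFDerivAt Ψ (fderiv ℝ Ψ (a, x)) ((fun t : ℝ => ((a, x + t • σ) : (Fin d → ℝ) × Cfg d)) 0) := by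
      simpa using hd.hasFDerivAt
    have hcomp := hf.comp_hasDerivAt (0 : ℝ) hc
    have h3 : HasDerivAt (fun t : ℝ => ro (NormedSpace.exp (S.adm a)) x + t • ro (NormedSpace.exp (S.adm a)) σ)
        (ro (NormedSpace.exp (S.adm a)) σ) 0 := by
      simpa using ((hasDerivAt_id (0 : ℝ)).smul_const (ro (NormedSpace.exp (S.adm a)) σ)).const_add
        (ro (NormedSpace.exp (S.adm a)) x)
    have h4 : (Ψ ∘ fun t : ℝ => ((a, x + t • σ) : (Fin d → ℝ) × Cfg d)) =
        fun t : ℝ => ro (NormedSpace.exp (S.adm a)) x + t • ro (NormedSpace.exp (S.adm a)) σ := by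
      funext t
      simp only [hΨ, Function.comp]
      rw [dt_ro_add, dt_ro_smul]
    rw [h4] at hcomp
    exact hcomp.unique h3
  rw [e1, e2, dt_ro_add]

private lemma dt_tz_eq (S : Setup d F) (φ : Spl dh dm d) :
    tz S φ = (fun p : (Fin d → ℝ) × Cfg d => ro (NormedSpace.exp (S.adm p.1)) p.2) ∘
      fun z => (dtL φ z, dtP φ z) := rfl

private lemma dt_fderiv_tz (S : Setup d F) (h : DexpStmt S) (φ : Spl dh dm d) (z ζ : Cfg d) :
    fderiv ℝ (tz S φ) z ζ =
      ro (NormedSpace.exp (S.adm (dtL φ z))) (ro (S.adm (om S (dtL φ z) (dtL φ ζ))) (dtP φ z) + dtP φ ζ) := by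
  rw [← dt_fderiv S h, dt_tz_eq]
  have hd : DifferentiableAt ℝ (fun p : (Fin d → ℝ) × Cfg d => ro (NormedSpace.exp (S.adm p.1)) p.2)
      (dtL φ z, dtP φ z) := (h.2.1.differentiable (by simp)).differentiableAt
  have hg : HasFDerivAt (fun z => (dtL φ z, dtP φ z)) ((dtL φ).prod (dtP φ)) z :=
    ((dtL φ).prod (dtP φ)).hasFDerivAt
  have hc := hd.hasFDerivAt.comp z hg
  rw [hc.fderiv]
  rfl

private lemma dt_det (f : Cfg d →ₗ[ℝ] Cfg d) :
    LinearMap.det f = Matrix.det (Matrix.of fun p q : Fin 9 × Fin d => f (EuclideanSpace.single q 1) p) := by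
  rw [← LinearMap.det_toMatrix (EuclideanSpace.basisFun (Fin 9 × Fin d) ℝ).toBasis f]
  congr 1

/-- matrix of `ro O` -/
private noncomputable def dtM (O : Matrix (Fin d) (Fin d) ℝ) : Matrix (Fin 9 × Fin d) (Fin 9 × Fin d) ℝ :=
  Matrix.of fun p q => if p.1 = q.1 then O p.2 q.2 else 0

private lemma dtM_ro (O : Matrix (Fin d) (Fin d) ℝ) (x : Cfg d) (p : Fin 9 × Fin d) :
    ro O x p = ∑ q, dtM O p q * x q := by
  rw [Fintype.sum_prod_type]
  simp only [dtM, Matrix.of_apply, ite_mul, zero_mul]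
  rw [Finset.sum_comm]
  simp [ro]

private lemma dtM_det (O : Matrix (Fin d) (Fin d) ℝ) (hO : O * O.transpose = 1) : |(dtM O).det| = 1 := by
  have h1 : dtM O * (dtM O).transpose = 1 := by
    ext p q
    rw [Matrix.mul_apply, Fintype.sum_prod_type]
    simp only [dtM, Matrix.of_apply, Matrix.transpose_apply, ite_mul, zero_mul, mul_ite, mul_zero]
    rw [Finset.sum_comm]
    simp only [Finset.sum_ite_eq, Finset.mem_univ, if_true]
    by_cases h : p.1 = q.1
    · have h2 := congrFun (congrFun hO p.2) q.2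
      rw [Matrix.mul_apply] at h2
      simp only [Matrix.transpose_apply] at h2
      simp only [h, if_true]
      rw [h2, Matrix.one_apply, Matrix.one_apply]
      congr 1
      rw [Prod.ext_iff]
      simp [h]
    · have h3 : p ≠ q := fun hh => h (by rw [hh])
      simp [h, h3]
  have h2 := congrArg Matrix.det h1
  rw [Matrix.det_mul, Matrix.det_transpose, Matrix.det_one] at h2
  have h3 : |(dtM O).det| * |(dtM O).det| = 1 := by
    rw [← abs_mul, h2, abs_one]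
  nlinarith [abs_nonneg (dtM O).det]

/-- matrix of `P_m ω_a` -/
private noncomputable def dtJ (S : Setup d F) (φ : Spl dh dm d) (a : EuclideanSpace ℝ (Fin dm)) :
    Matrix (Fin dm) (Fin dm) ℝ :=
  Matrix.of fun E B => om S (exm φ a) (Pi.single (φ (Sum.inr B)) 1) (φ (Sum.inr E))


private lemma dtJ_zero (S : Setup d F) (h : DexpStmt S) (φ : Spl dh dm d) : dtJ S φ 0 = 1 := by
  have h0 : exm φ (0 : EuclideanSpace ℝ (Fin dm)) = 0 := by
    funext A
    obtain ⟨s, rfl⟩ := φ.surjective A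
    rcases s with A | B <;> simp [exm]
  ext E B
  simp only [dtJ, Matrix.of_apply]
  rw [h0, h.2.2.2.2.1, Matrix.one_apply, Pi.single_apply]
  simp only [EmbeddingLike.apply_eq_iff_eq, Sum.inr.injEq]

private lemma dt_exm_cont (φ : Spl dh dm d) : Continuous fun a : EuclideanSpace ℝ (Fin dm) => exm φ a := by
  refine continuous_pi fun A => ?_
  obtain ⟨s, rfl⟩ := φ.surjective A
  rcases s with A | B
  · simp only [exm, Equiv.symm_apply_apply, Sum.elim_inl]
    exact continuous_const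
  · simp only [exm, Equiv.symm_apply_apply, Sum.elim_inr]
    fun_prop

private lemma dt_b11 (S : Setup d F) (φ : Spl dh dm d) (hsub : S.IsSub φ) (z : Cfg d) (C B : Fin dm) :
    (ro (S.adm (om S (dtL φ z) (dtL φ (EuclideanSpace.single (8, φ (Sum.inr B)) 1)))) (dtP φ z) +
      dtP φ (EuclideanSpace.single (8, φ (Sum.inr B)) 1)) (8, φ (Sum.inr C)) =
      (-(S.Dy φ 8 (zy φ z) * dtJ S φ (zm φ z))) C B := by
  have hLe : dtL φ (EuclideanSpace.single (8, φ (Sum.inr B)) (1 : ℝ)) = Pi.single (φ (Sum.inr B)) 1 := by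
    rw [dtL_apply]
    funext A
    obtain ⟨t, rfl⟩ := φ.surjective A
    rcases t with A | E
    · simp [exm, Pi.single_apply]
    · simp [exm, zm, Pi.single_apply]
  rw [hLe, PiLp.add_apply, dtP_apply φ (EuclideanSpace.single (8, φ (Sum.inr B)) (1 : ℝ)), dt_emb_8, add_zero]
  set vv := om S (dtL φ z) (Pi.single (φ (Sum.inr B)) 1) with hvv
  have e1 : ro (S.adm vv) (dtP φ z) (8, φ (Sum.inr C)) =
      ∑ A : Fin dh, S.adm vv (φ (Sum.inr C)) (φ (Sum.inl A)) * z (8, φ (Sum.inl A)) := by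
    have e2 : ro (S.adm vv) (dtP φ z) (8, φ (Sum.inr C)) =
        ∑ A, S.adm vv (φ (Sum.inr C)) A * dtP φ z (8, A) := rfl
    rw [e2, ← φ.sum_comp, Fintype.sum_sum_type]
    have e3 : ∀ E : Fin dm, S.adm vv (φ (Sum.inr C)) (φ (Sum.inr E)) * dtP φ z (8, φ (Sum.inr E)) = 0 := by
      intro E
      rw [dtP_apply, dt_emb_8, mul_zero]
    simp only [e3, Finset.sum_const_zero, add_zero]
    refine Finset.sum_congr rfl fun A _ => ?_
    rw [dtP_apply, dt_emb_inl]
    rfl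
  have e4 : ∀ A : Fin dh, S.adm vv (φ (Sum.inr C)) (φ (Sum.inl A)) =
      -∑ E : Fin dm, S.f (φ (Sum.inr C)) (φ (Sum.inl A)) (φ (Sum.inr E)) * vv (φ (Sum.inr E)) := by
    intro A
    have e5 : S.adm vv (φ (Sum.inr C)) (φ (Sum.inl A)) = ∑ G, S.f (φ (Sum.inr C)) G (φ (Sum.inl A)) * vv G := rfl
    rw [e5, ← φ.sum_comp, Fintype.sum_sum_type]
    have e6 : ∀ A' : Fin dh, S.f (φ (Sum.inr C)) (φ (Sum.inl A')) (φ (Sum.inl A)) * vv (φ (Sum.inl A')) = 0 := by
      intro A'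
      rw [S.f_cyc, hsub, zero_mul]
    simp only [e6, Finset.sum_const_zero, zero_add]
    rw [← Finset.sum_neg_distrib]
    refine Finset.sum_congr rfl fun E _ => ?_
    rw [S.f_swap' (φ (Sum.inr C)) (φ (Sum.inl A)) (φ (Sum.inr E))]
    ring
  rw [e1, Matrix.neg_apply, Matrix.mul_apply]
  simp only [e4]
  have e7 : ∀ E : Fin dm, S.Dy φ 8 (zy φ z) C E * dtJ S φ (zm φ z) E B =
      ∑ A : Fin dh, S.f (φ (Sum.inr C)) (φ (Sum.inl A)) (φ (Sum.inr E)) * z (8, φ (Sum.inl A)) * vv (φ (Sum.inr E)) := by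
    intro E
    have e8 : S.Dy φ 8 (zy φ z) C E =
        ∑ A : Fin dh, S.f (φ (Sum.inr C)) (φ (Sum.inl A)) (φ (Sum.inr E)) * z (8, φ (Sum.inl A)) := rfl
    have e9 : dtJ S φ (zm φ z) E B = vv (φ (Sum.inr E)) := rfl
    rw [e8, e9, Finset.sum_mul]
  simp only [e7]
  rw [Finset.sum_comm, ← Finset.sum_neg_distrib]
  refine Finset.sum_congr rfl fun A _ => ?_
  rw [neg_mul, Finset.sum_mul]
  congr 1
  refine Finset.sum_congr rfl fun E _ => ?_
  ring

/-- block form of the derivative -/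
private lemma dt_block (S : Setup d F) (h : DexpStmt S) (φ : Spl dh dm d) (hsub : S.IsSub φ) (z : Cfg d) :
    Matrix.det (Matrix.of fun p q : Fin 9 × Fin d =>
      (ro (S.adm (om S (dtL φ z) (dtL φ (EuclideanSpace.single q 1)))) (dtP φ z) +
        dtP φ (EuclideanSpace.single q 1)) p) = Matrix.det (-(S.Dy φ 8 (zy φ z) * dtJ S φ (zm φ z))) := by
  set T : Matrix (Fin 9 × Fin d) (Fin 9 × Fin d) ℝ := Matrix.of fun p q : Fin 9 × Fin d =>
      (ro (S.adm (om S (dtL φ z) (dtL φ (EuclideanSpace.single q 1)))) (dtP φ z) +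
        dtP φ (EuclideanSpace.single q 1)) p with hT
  rw [← Matrix.det_submatrix_equiv_self (cooEquiv φ) T]
  have hL0 : ∀ s : (Fin 9 × Fin dh) ⊕ (Fin 8 × Fin dm),
      dtL φ (EuclideanSpace.single (cooIdx φ (Sum.inr s)) (1 : ℝ)) = 0 := by
    intro s
    rw [dtL_apply]
    funext A
    obtain ⟨t, rfl⟩ := φ.surjective A
    rcases t with A | B
    · simp [exm]
    · have hne : (8, φ (Sum.inr B)) ≠ cooIdx φ (Sum.inr s) := fun hh => by
        have := (cooIdx_bijective φ).1 (a₁ := Sum.inl B) (a₂ := Sum.inr s) hh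
        simp at this
      simp only [exm, zm, Equiv.symm_apply_apply, Sum.elim_inr, PiLp.single_apply, Pi.zero_apply]
      rw [if_neg hne]
  have hP0 : ∀ s : (Fin 9 × Fin dh) ⊕ (Fin 8 × Fin dm),
      dtP φ (EuclideanSpace.single (cooIdx φ (Sum.inr s)) (1 : ℝ)) =
        EuclideanSpace.single (cooIdx φ (Sum.inr s)) (1 : ℝ) := by
    intro s
    rw [dtP_apply]
    apply dt_ext φ
    · intro B
      have hne : (8, φ (Sum.inr B)) ≠ cooIdx φ (Sum.inr s) := fun hh => by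
        have := (cooIdx_bijective φ).1 (a₁ := Sum.inl B) (a₂ := Sum.inr s) hh
        simp at this
      rw [dt_emb_8, PiLp.single_apply, if_neg hne]
    · intro i A
      rw [dt_emb_inl]
      rfl
    · intro j B
      rw [dt_emb_cs]
      rfl
  have hom0 : om S (dtL φ z) 0 = 0 := (h.2.2.2.1 (dtL φ z)).map_zero
  have hadm0 : S.adm 0 = 0 := by
    ext A C
    simp [Setup.adm]
  have hro0 : ∀ x : Cfg d, ro (0 : Matrix (Fin d) (Fin d) ℝ) x = 0 := by
    intro x
    ext p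
    simp [ro]
  have hblock : T.submatrix (cooEquiv φ) (cooEquiv φ) =
      Matrix.fromBlocks (-(S.Dy φ 8 (zy φ z) * dtJ S φ (zm φ z))) 0
        (Matrix.of fun p q => T (cooIdx φ (Sum.inr p)) (cooIdx φ (Sum.inl q))) 1 := by
    ext p q
    rcases p with C | p
    · rcases q with B | q
      · rw [Matrix.fromBlocks_apply₁₁, Matrix.submatrix_apply]
        exact dt_b11 S φ hsub z C B
      · rw [Matrix.fromBlocks_apply₁₂, Matrix.submatrix_apply]
        show (ro (S.adm (om S (dtL φ z) (dtL φ (EuclideanSpace.single (cooIdx φ (Sum.inr q)) 1)))) (dtP φ z) +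
          dtP φ (EuclideanSpace.single (cooIdx φ (Sum.inr q)) 1)) (cooIdx φ (Sum.inl C)) = 0
        rw [hL0, hP0, hom0, hadm0, hro0, zero_add, PiLp.single_apply, if_neg]
        intro hh
        have := (cooIdx_bijective φ).1 hh
        simp at this
    · rcases q with B | q
      · rw [Matrix.fromBlocks_apply₂₁, Matrix.submatrix_apply]
        rfl
      · rw [Matrix.fromBlocks_apply₂₂, Matrix.submatrix_apply]
        show (ro (S.adm (om S (dtL φ z) (dtL φ (EuclideanSpace.single (cooIdx φ (Sum.inr q)) 1)))) (dtP φ z) +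
          dtP φ (EuclideanSpace.single (cooIdx φ (Sum.inr q)) 1)) (cooIdx φ (Sum.inr p)) = _
        rw [hL0, hP0, hom0, hadm0, hro0, zero_add, PiLp.single_apply, Matrix.one_apply]
        congr 1
        rw [(cooIdx_bijective φ).1.eq_iff]
        simp
  rw [hblock, Matrix.det_fromBlocks_zero₁₂, Matrix.det_one, mul_one]

theorem det_stmt (S : Setup d F) (h : DexpStmt S) : DetStmt S := by
  intro dh dm φ hsub
  obtain ⟨h1, h2, h3, h4, h5, h6⟩ := id h
  refine ⟨?_, fun a => (dtJ S φ a).det, ?_, ?_, ?_⟩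
  · rw [dt_tz_eq]
    exact h2.comp ((dtL φ).contDiff.prodMk (dtP φ).contDiff)
  · apply Continuous.matrix_det
    refine continuous_pi fun E => continuous_pi fun B => ?_
    exact (continuous_apply (φ (Sum.inr E))).comp
      ((h3 (Pi.single (φ (Sum.inr B)) 1)).comp (dt_exm_cont φ))
  · show (dtJ S φ 0).det = 1
    rw [dtJ_zero S h, Matrix.det_one]
  · intro z
    have e1 : (fderiv ℝ (tz S φ) z).det = LinearMap.det ((fderiv ℝ (tz S φ) z : Cfg d →L[ℝ] Cfg d) : Cfg d →ₗ[ℝ] Cfg d) := rfl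
    rw [e1, dt_det]
    have e2 : (Matrix.of fun p q : Fin 9 × Fin d =>
        ((fderiv ℝ (tz S φ) z : Cfg d →L[ℝ] Cfg d) : Cfg d →ₗ[ℝ] Cfg d) (EuclideanSpace.single q 1) p) =
        dtM (NormedSpace.exp (S.adm (dtL φ z))) * Matrix.of fun p q : Fin 9 × Fin d =>
          (ro (S.adm (om S (dtL φ z) (dtL φ (EuclideanSpace.single q 1)))) (dtP φ z) +
            dtP φ (EuclideanSpace.single q 1)) p := by
      ext p q
      rw [Matrix.mul_apply, Matrix.of_apply]
      have e3 : ((fderiv ℝ (tz S φ) z : Cfg d →L[ℝ] Cfg d) : Cfg d →ₗ[ℝ] Cfg d) (EuclideanSpace.single q 1) =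
          fderiv ℝ (tz S φ) z (EuclideanSpace.single q 1) := rfl
      rw [e3, dt_fderiv_tz S h, dtM_ro]
      rfl
    rw [e2, Matrix.det_mul, abs_mul, dtM_det _ (h6 _), one_mul, dt_block S h φ hsub, Matrix.det_neg, abs_mul,
      Matrix.det_mul, abs_mul, abs_pow, abs_neg, abs_one, one_pow, one_mul]
    rfl

end Vale.Agent.P353.Z.AN
end

section

/-! # P353, all `N`, block D, L6: the positive square root is a smooth function -/

open Filter Topology Matrix
open scoped ContDiff Matrix.Norms.Operator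

namespace Vale.Agent.P353.Z.AD.Sc

variable {n : ℕ}

/-- squared Frobenius norm -/
noncomputable def qF (X : Matrix (Fin n) (Fin n) ℝ) : ℝ := ∑ i, ∑ j, X i j * X i j

lemma pd_low (M : Matrix (Fin n) (Fin n) ℝ) (hp : ∀ v : Fin n → ℝ, v ≠ 0 → 0 < v ⬝ᵥ (M *ᵥ v)) :
    ∃ c : ℝ, 0 < c ∧ ∀ v : Fin n → ℝ, c * (v ⬝ᵥ v) ≤ v ⬝ᵥ (M *ᵥ v) := by
  rcases subsingleton_or_nontrivial (Fin n → ℝ) with hs | hs
  · refine ⟨1, one_pos, fun v => ?_⟩
    rw [Subsingleton.elim v 0]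
    simp
  · have hc : Continuous fun v : Fin n → ℝ => v ⬝ᵥ (M *ᵥ v) := by
      simp only [dotProduct, mulVec]
      fun_prop
    obtain ⟨w0, hw0, hmin⟩ := (isCompact_sphere (0 : Fin n → ℝ) 1).exists_isMinOn
      (NormedSpace.sphere_nonempty.2 zero_le_one) hc.continuousOn
    have hw0' : w0 ≠ 0 := by
      rintro rfl
      simp at hw0
    have hc0 := hp w0 hw0'
    set c0 := w0 ⬝ᵥ (M *ᵥ w0) with hc0d
    have hbd : ∀ v : Fin n → ℝ, v ⬝ᵥ v ≤ n * ‖v‖ ^ 2 := by
      intro v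
      calc v ⬝ᵥ v = ∑ i, v i * v i := rfl
        _ ≤ ∑ _i : Fin n, ‖v‖ ^ 2 := by
            refine Finset.sum_le_sum fun i _ => ?_
            have h1 : ‖v i‖ ≤ ‖v‖ := norm_le_pi_norm v i
            have h2 : v i * v i = ‖v i‖ ^ 2 := by
              rw [Real.norm_eq_abs, sq_abs, sq]
            rw [h2]
            exact pow_le_pow_left₀ (norm_nonneg _) h1 2
        _ = n * ‖v‖ ^ 2 := by simp
    refine ⟨c0 / (n + 1), by positivity, fun v => ?_⟩
    by_cases hv : v = 0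
    · rw [hv]
      simp
    have hn : 0 < ‖v‖ := norm_pos_iff.2 hv
    have h1 := hmin (show ‖v‖⁻¹ • v ∈ Metric.sphere (0 : Fin n → ℝ) 1 by
      rw [mem_sphere_zero_iff_norm, norm_smul, norm_inv, norm_norm, inv_mul_cancel₀ hn.ne'])
    simp only [Set.mem_ofPred_eq, mulVec_smul, smul_dotProduct, dotProduct_smul, smul_eq_mul] at h1
    have h2 : c0 * ‖v‖ ^ 2 ≤ v ⬝ᵥ (M *ᵥ v) := by
      calc c0 * ‖v‖ ^ 2 ≤ ‖v‖⁻¹ * (‖v‖⁻¹ * (v ⬝ᵥ (M *ᵥ v))) * ‖v‖ ^ 2 :=
            mul_le_mul_of_nonneg_right h1 (by positivity)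
        _ = v ⬝ᵥ (M *ᵥ v) := by field_simp
    refine le_trans ?_ h2
    rw [div_mul_eq_mul_div, div_le_iff₀ (by positivity)]
    have h3 := hbd v
    have h4 : (n : ℝ) * ‖v‖ ^ 2 ≤ (n + 1) * ‖v‖ ^ 2 := by
      have : (0 : ℝ) ≤ ‖v‖ ^ 2 := by positivity
      nlinarith
    calc c0 * (v ⬝ᵥ v) ≤ c0 * ((n + 1) * ‖v‖ ^ 2) :=
          mul_le_mul_of_nonneg_left (h3.trans h4) hc0.le
      _ = c0 * ‖v‖ ^ 2 * (n + 1) := by ring

/-- coercivity of the Sylvester operator -/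
lemma syl (M' M₀ X : Matrix (Fin n) (Fin n) ℝ) (hs : M₀ᵀ = M₀) (hp' : ∀ v : Fin n → ℝ, 0 ≤ v ⬝ᵥ (M' *ᵥ v))
    {c : ℝ} (hc : ∀ v : Fin n → ℝ, c * (v ⬝ᵥ v) ≤ v ⬝ᵥ (M₀ *ᵥ v)) :
    c * qF X ≤ ∑ i, ∑ j, X i j * (M' * X + X * M₀) i j := by
  have h1 : 0 ≤ ∑ i, ∑ j, X i j * (M' * X) i j := by
    rw [Finset.sum_comm]
    refine Finset.sum_nonneg fun j _ => ?_
    exact hp' fun i => X i j
  have h2 : c * qF X ≤ ∑ i, ∑ j, X i j * (X * M₀) i j := by
    unfold qF
    rw [Finset.mul_sum]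
    refine Finset.sum_le_sum fun i _ => ?_
    refine (hc (X i)).trans (le_of_eq ?_)
    simp only [dotProduct, mulVec, mul_apply]
    refine Finset.sum_congr rfl fun j _ => ?_
    congr 1
    refine Finset.sum_congr rfl fun k _ => ?_
    rw [mul_comm]
    congr 1
    exact congrFun (congrFun hs k) j
  have h3 : ∑ i, ∑ j, X i j * (M' * X + X * M₀) i j =
      (∑ i, ∑ j, X i j * (M' * X) i j) + ∑ i, ∑ j, X i j * (X * M₀) i j := by
    simp only [Matrix.add_apply, mul_add, Finset.sum_add_distrib]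
  rw [h3]
  linarith

lemma qF_nonneg (X : Matrix (Fin n) (Fin n) ℝ) : 0 ≤ qF X :=
  Finset.sum_nonneg fun _ _ => Finset.sum_nonneg fun _ _ => mul_self_nonneg _

lemma qF_entry (X : Matrix (Fin n) (Fin n) ℝ) (i j : Fin n) : X i j ^ 2 ≤ qF X := by
  have h1 : X i j * X i j ≤ ∑ j, X i j * X i j :=
    Finset.single_le_sum (f := fun j => X i j * X i j) (fun _ _ => mul_self_nonneg _) (Finset.mem_univ j)
  have h2 : ∑ j, X i j * X i j ≤ qF X :=
    Finset.single_le_sum (f := fun i => ∑ j, X i j * X i j)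
      (fun _ _ => Finset.sum_nonneg fun _ _ => mul_self_nonneg _) (Finset.mem_univ i)
  rw [sq]
  exact h1.trans h2

lemma cs (X B : Matrix (Fin n) (Fin n) ℝ) (c : ℝ) (hc : 0 < c) :
    ∑ i, ∑ j, X i j * B i j ≤ c / 2 * qF X + 1 / (2 * c) * qF B := by
  unfold qF
  simp only [Finset.mul_sum, ← Finset.sum_add_distrib]
  refine Finset.sum_le_sum fun i _ => Finset.sum_le_sum fun j _ => ?_
  have h1 : 0 ≤ (c * X i j - B i j) ^ 2 := sq_nonneg _
  have h2 : c / 2 * (X i j * X i j) + 1 / (2 * c) * (B i j * B i j) - X i j * B i j =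
      (c * X i j - B i j) ^ 2 / (2 * c) := by
    field_simp
    ring
  have h3 : 0 ≤ (c * X i j - B i j) ^ 2 / (2 * c) := by positivity
  linarith

/-- quantitative continuity of the square root -/
lemma qF_root (Om Om₀ : Matrix (Fin n) (Fin n) ℝ) (hs : Om₀ᵀ = Om₀) (hp' : ∀ v : Fin n → ℝ, 0 ≤ v ⬝ᵥ (Om *ᵥ v))
    {c : ℝ} (hc0 : 0 < c) (hc : ∀ v : Fin n → ℝ, c * (v ⬝ᵥ v) ≤ v ⬝ᵥ (Om₀ *ᵥ v)) :
    qF (Om - Om₀) ≤ 1 / c ^ 2 * qF (Om * Om - Om₀ * Om₀) := by
  have h1 := syl Om Om₀ (Om - Om₀) hs hp' hc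
  have h2 : Om * (Om - Om₀) + (Om - Om₀) * Om₀ = Om * Om - Om₀ * Om₀ := by
    rw [mul_sub, sub_mul]
    abel
  rw [h2] at h1
  have h3 := cs (Om - Om₀) (Om * Om - Om₀ * Om₀) c hc0
  have h4 : c / 2 * qF (Om - Om₀) ≤ 1 / (2 * c) * qF (Om * Om - Om₀ * Om₀) := by linarith
  have h5 : 2 / c * (c / 2 * qF (Om - Om₀)) ≤ 2 / c * (1 / (2 * c) * qF (Om * Om - Om₀ * Om₀)) :=
    mul_le_mul_of_nonneg_left h4 (by positivity)
  have h6 : 2 / c * (c / 2 * qF (Om - Om₀)) = qF (Om - Om₀) := by field_simp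
  have h7 : 2 / c * (1 / (2 * c) * qF (Om * Om - Om₀ * Om₀)) = 1 / c ^ 2 * qF (Om * Om - Om₀ * Om₀) := by
    field_simp
  rwa [h6, h7] at h5

lemma mat_eq (A : Matrix (Fin n) (Fin n) ℝ) : A = ∑ i, ∑ j, A i j • Matrix.single i j (1 : ℝ) := by
  ext a b
  simp only [Matrix.sum_apply, Matrix.smul_apply, Matrix.single_apply, smul_eq_mul, mul_ite, mul_one, mul_zero]
  simp [Finset.sum_ite_eq', ite_and]

lemma mat_cd {E : Type*} [NormedAddCommGroup E] [NormedSpace ℝ E] {x : E}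
    {A : E → Matrix (Fin n) (Fin n) ℝ} (hA : ∀ i j, ContDiffAt ℝ ∞ (fun x => A x i j) x) :
    ContDiffAt ℝ ∞ A x := by
  have h1 : A = fun x => ∑ i, ∑ j, A x i j • Matrix.single i j (1 : ℝ) := funext fun x => mat_eq (A x)
  rw [h1]
  exact ContDiffAt.sum fun i _ => ContDiffAt.sum fun j _ => (hA i j).smul contDiffAt_const

lemma ent_cd {E : Type*} [NormedAddCommGroup E] [NormedSpace ℝ E] {x : E}
    {A : E → Matrix (Fin n) (Fin n) ℝ} (hA : ContDiffAt ℝ ∞ A x) (i j : Fin n) :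
    ContDiffAt ℝ ∞ (fun x => A x i j) x := by
  have h1 : ContDiff ℝ ∞ fun X : Matrix (Fin n) (Fin n) ℝ => X i j :=
    (LinearMap.toContinuousLinearMap (Matrix.entryLinearMap ℝ ℝ i j)).contDiff
  exact h1.contDiffAt.comp x hA

/-- the Sylvester operator -/
noncomputable def sylL (M : Matrix (Fin n) (Fin n) ℝ) :
    Matrix (Fin n) (Fin n) ℝ →L[ℝ] Matrix (Fin n) (Fin n) ℝ :=
  ContinuousLinearMap.mul ℝ _ M + (ContinuousLinearMap.mul ℝ (Matrix (Fin n) (Fin n) ℝ)).flip M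

lemma sylL_apply (M X : Matrix (Fin n) (Fin n) ℝ) : sylL M X = M * X + X * M := rfl

lemma hasFDeriv_sq (M : Matrix (Fin n) (Fin n) ℝ) :
    HasFDerivAt (fun X : Matrix (Fin n) (Fin n) ℝ => X * X) (sylL M) M := by
  have h1 := (hasFDerivAt_id (𝕜 := ℝ) M).mul' (hasFDerivAt_id (𝕜 := ℝ) M)
  refine h1.congr_fderiv ?_
  ext1 X
  rfl

/-- **smoothness of the positive square root** -/
theorem sqrt_smooth {E : Type*} [NormedAddCommGroup E] [NormedSpace ℝ E] {s : Set E} (hso : IsOpen s)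
    (A Om : E → Matrix (Fin n) (Fin n) ℝ) (hA : ∀ i j, ContDiffOn ℝ ∞ (fun x => A x i j) s)
    (hsym : ∀ x ∈ s, (Om x)ᵀ = Om x) (hpos : ∀ x ∈ s, ∀ v : Fin n → ℝ, v ≠ 0 → 0 < v ⬝ᵥ (Om x *ᵥ v))
    (hsq : ∀ x ∈ s, Om x * Om x = A x) (i j : Fin n) : ContDiffOn ℝ ∞ (fun x => Om x i j) s := by
  intro x hx
  refine ContDiffAt.contDiffWithinAt ?_
  have hnx : s ∈ 𝓝 x := hso.mem_nhds hx
  obtain ⟨c, hc0, hc⟩ := pd_low (Om x) (hpos x hx)
  have hpos' : ∀ y ∈ s, ∀ v : Fin n → ℝ, 0 ≤ v ⬝ᵥ (Om y *ᵥ v) := by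
    intro y hy v
    by_cases hv : v = 0
    · rw [hv]
      simp
    · exact (hpos y hy v hv).le
  have hAx : ∀ i j, ContDiffAt ℝ ∞ (fun x => A x i j) x := fun i j => (hA i j).contDiffAt hnx
  -- continuity
  have hcont : ∀ i j, ContinuousAt (fun y => Om y i j) x := by
    intro i j
    have h1 : Tendsto (fun y => 1 / c ^ 2 * qF (A y - A x)) (𝓝 x) (𝓝 0) := by
      have h2 : ContinuousAt (fun y => 1 / c ^ 2 * qF (A y - A x)) x := by
        unfold qF
        refine continuousAt_const.mul ?_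
        refine tendsto_finsetSum _ fun i _ => tendsto_finsetSum _ fun j _ => ?_
        have h3 : ContinuousAt (fun y => (A y - A x) i j) x := (hAx i j).continuousAt.sub continuousAt_const
        exact h3.mul h3
      have h4 : (1 / c ^ 2 * qF (A x - A x)) = 0 := by simp [qF]
      have h5 : Tendsto (fun y => 1 / c ^ 2 * qF (A y - A x)) (𝓝 x) (𝓝 (1 / c ^ 2 * qF (A x - A x))) := h2
      rwa [h4] at h5
    have h2 : Tendsto (fun y => (Om y i j - Om x i j) ^ 2) (𝓝 x) (𝓝 0) := by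
      refine squeeze_zero' (Eventually.of_forall fun y => sq_nonneg _) ?_ h1
      filter_upwards [hnx] with y hy
      have h3 := qF_root (Om y) (Om x) (hsym x hx) (hpos' y hy) hc0 hc
      rw [hsq y hy, hsq x hx] at h3
      exact (qF_entry (Om y - Om x) i j).trans h3
    have h3 : Tendsto (fun y => |Om y i j - Om x i j|) (𝓝 x) (𝓝 0) := by
      have h4 := (Real.continuous_sqrt.tendsto 0).comp h2
      rw [Real.sqrt_zero] at h4
      refine h4.congr fun y => ?_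
      simp only [Function.comp]
      exact Real.sqrt_sq_eq_abs _
    have h4 : Tendsto (fun y => Om y i j - Om x i j) (𝓝 x) (𝓝 0) := by
      rwa [tendsto_zero_iff_abs_tendsto_zero]
    have h5 := h4.add_const (Om x i j)
    simp only [sub_add_cancel, zero_add] at h5
    exact h5
  have hcontM : ContinuousAt Om x := by
    have h1 : Om = fun y => ∑ i, ∑ j, Om y i j • Matrix.single i j (1 : ℝ) := funext fun y => mat_eq (Om y)
    rw [h1]
    exact tendsto_finsetSum _ fun i _ => tendsto_finsetSum _ fun j _ =>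
      (hcont i j).smul continuousAt_const
  -- local inverse
  have hinj : Function.Injective (sylL (Om x)) := by
    rw [injective_iff_map_eq_zero]
    intro X hX
    rw [sylL_apply] at hX
    have h1 := syl (Om x) (Om x) X (hsym x hx) (hpos' x hx) hc
    rw [hX] at h1
    simp only [Matrix.zero_apply, mul_zero, Finset.sum_const_zero] at h1
    have h2 : qF X = 0 := by
      have h3 := qF_nonneg X
      have h4 : c * qF X = 0 := le_antisymm h1 (mul_nonneg hc0.le h3)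
      exact (mul_eq_zero.1 h4).resolve_left hc0.ne'
    ext i j
    have h3 := qF_entry X i j
    rw [h2] at h3
    have h4 : X i j ^ 2 = 0 := le_antisymm h3 (sq_nonneg _)
    simpa using h4
  let e : Matrix (Fin n) (Fin n) ℝ ≃L[ℝ] Matrix (Fin n) (Fin n) ℝ :=
    (LinearEquiv.ofInjectiveEndo (sylL (Om x)).toLinearMap hinj).toContinuousLinearEquiv
  have he : (e : Matrix (Fin n) (Fin n) ℝ →L[ℝ] Matrix (Fin n) (Fin n) ℝ) = sylL (Om x) := by
    ext1 X
    rfl
  have hd : HasFDerivAt (fun X : Matrix (Fin n) (Fin n) ℝ => X * X)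
      (e : Matrix (Fin n) (Fin n) ℝ →L[ℝ] Matrix (Fin n) (Fin n) ℝ) (Om x) := by
    rw [he]
    exact hasFDeriv_sq (Om x)
  have hf : ContDiffAt ℝ ∞ (fun X : Matrix (Fin n) (Fin n) ℝ => X * X) (Om x) :=
    (contDiff_id.mul contDiff_id).contDiffAt
  have hn0 : (∞ : WithTop ℕ∞) ≠ 0 := by simp
  have hloc := hf.to_localInverse hd hn0
  have hev : ∀ᶠ X in 𝓝 (Om x), hf.localInverse hd hn0 (X * X) = X :=
    (hf.hasStrictFDerivAt' hd hn0).eventually_left_inverse
  have h6 : ∀ᶠ y in 𝓝 x, hf.localInverse hd hn0 (A y) = Om y := by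
    filter_upwards [hcontM.eventually hev, hnx] with y h7 hy
    rw [← hsq y hy]
    exact h7
  have hAM : ContDiffAt ℝ ∞ A x := mat_cd hAx
  have h7 : ContDiffAt ℝ ∞ (fun y => hf.localInverse hd hn0 (A y)) x := by
    refine ContDiffAt.comp x ?_ hAM
    rw [← hsq x hx]
    exact hloc
  have h8 : ContDiffAt ℝ ∞ Om x := h7.congr_of_eventuallyEq (h6.mono fun y hy => hy.symm)
  exact ent_cd h8 i j

end Vale.Agent.P353.Z.AD.Sc
end

section

/-! # P353, all `N`, block D, L6: the scalar points -/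

open MeasureTheory Filter Topology Matrix Kronecker
open scoped ContDiff

namespace Vale.Agent.P353.Z.AD

variable {d dh dm ds dz : ℕ} {F : Type*} [NormedAddCommGroup F] [InnerProductSpace ℂ F]

namespace Sc

open LamPf

/-- the fermions of `m` -/
noncomputable def tt (S : Setup d F) (φ : Spl dh dm d) (p : Fin 16 × Fin dm) : F →L[ℂ] F :=
  S.th p.1 (φ (Sum.inr p.2))

lemma tt_anti (S : Setup d F) (φ : Spl dh dm d) (p q : Fin 16 × Fin dm) :
    tt S φ p * tt S φ q + tt S φ q * tt S φ p = if p = q then 1 else 0 := by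
  unfold tt
  rw [S.th_anti]
  have h1 : (p.1 = q.1 ∧ φ (Sum.inr p.2) = φ (Sum.inr q.2)) ↔ p = q := by
    rw [φ.injective.eq_iff, Sum.inr.injEq, ← Prod.ext_iff]
  simp only [h1]

lemma tt_sa (S : Setup d F) (φ : Spl dh dm d) (p : Fin 16 × Fin dm) (v w : F) :
    inner ℂ (tt S φ p v) w = inner ℂ v (tt S φ p w) := S.th_sa _ _ _ _

/-- `Π = Ω⁻¹Λ` -/
noncomputable def pm (S : Setup d F) (D : Fin 9 → Matrix (Fin dm) (Fin dm) ℝ) (Om : Matrix (Fin dm) (Fin dm) ℝ) :
    Matrix (Fin 16 × Fin dm) (Fin 16 × Fin dm) ℂ := l1 Om⁻¹ * S.Lam D Om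

lemma om_unit {κ : ℝ} {D : Fin 9 → Matrix (Fin dm) (Fin dm) ℝ} {Om : Matrix (Fin dm) (Fin dm) ℝ} (hO : IsOm κ D Om) :
    IsUnit Om.det := by
  rw [isUnit_iff_ne_zero]
  intro h0
  obtain ⟨v, hv, hv0⟩ := Matrix.exists_mulVec_eq_zero_iff.2 h0
  have h1 := hO.pos v hv
  rw [hv0, dotProduct_zero] at h1
  exact lt_irrefl _ h1

lemma om_D {κ : ℝ} {D : Fin 9 → Matrix (Fin dm) (Fin dm) ℝ} {Om : Matrix (Fin dm) (Fin dm) ℝ} (hD : Frz D)
    (hO : IsOm κ D Om) (i : Fin 9) : D i * Om = Om * D i := by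
  refine hO.comm (D i) ?_
  rw [Finset.mul_sum, Finset.sum_mul]
  refine Finset.sum_congr rfl fun j _ => ?_
  rw [← mul_assoc, hD.comm i j, mul_assoc, hD.comm i j, mul_assoc]

lemma om_Di {κ : ℝ} {D : Fin 9 → Matrix (Fin dm) (Fin dm) ℝ} {Om : Matrix (Fin dm) (Fin dm) ℝ} (hD : Frz D)
    (hO : IsOm κ D Om) (i : Fin 9) : D i * Om⁻¹ = Om⁻¹ * D i := by
  have hu := om_unit hO
  have h1 : Om⁻¹ * (D i * Om) * Om⁻¹ = Om⁻¹ * (Om * D i) * Om⁻¹ := by rw [om_D hD hO i]
  rw [← mul_assoc Om⁻¹ Om, nonsing_inv_mul _ hu, one_mul, mul_assoc Om⁻¹, mul_assoc (D i),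
    mul_nonsing_inv _ hu, mul_one] at h1
  exact h1.symm

lemma pm_comm (S : Setup d F) {D : Fin 9 → Matrix (Fin dm) (Fin dm) ℝ} {Om : Matrix (Fin dm) (Fin dm) ℝ} (hD : Frz D)
    (hO : IsOm S.κ D Om) : l1 Om⁻¹ * S.Lam D Om = S.Lam D Om * l1 Om⁻¹ := by
  have hu := om_unit hO
  rw [Lam_eq, mul_smul_comm, smul_mul_assoc, mul_sub, sub_mul, mul_smul_comm, smul_mul_assoc,
    l1_PP S D _ (om_Di hD hO), l1_mul, l1_mul, nonsing_inv_mul _ hu, mul_nonsing_inv _ hu]

lemma pm_ct (S : Setup d F) {D : Fin 9 → Matrix (Fin dm) (Fin dm) ℝ} {Om : Matrix (Fin dm) (Fin dm) ℝ} (hD : Frz D)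
    (hO : IsOm S.κ D Om) : (pm S D Om)ᴴ = pm S D Om := by
  have h1 : (Om⁻¹)ᵀ = Om⁻¹ := by rw [transpose_nonsing_inv, hO.symm]
  rw [pm, conjTranspose_mul, Lam_ct S D Om hD.anti hO.symm, l1_ct _ h1, pm_comm S hD hO]

lemma pm_sq (S : Setup d F) {D : Fin 9 → Matrix (Fin dm) (Fin dm) ℝ} {Om : Matrix (Fin dm) (Fin dm) ℝ} (hD : Frz D)
    (hO : IsOm S.κ D Om) : pm S D Om * pm S D Om = pm S D Om := by
  have hu := om_unit hO
  have e : l1 Om⁻¹ * l1 Om = 1 := by rw [l1_mul, nonsing_inv_mul _ hu, l1_one]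
  unfold pm
  calc l1 Om⁻¹ * S.Lam D Om * (l1 Om⁻¹ * S.Lam D Om)
      = l1 Om⁻¹ * (S.Lam D Om * l1 Om⁻¹) * S.Lam D Om := by simp only [mul_assoc]
    _ = l1 Om⁻¹ * (l1 Om⁻¹ * S.Lam D Om) * S.Lam D Om := by rw [pm_comm S hD hO]
    _ = l1 Om⁻¹ * (l1 Om⁻¹ * (S.Lam D Om * S.Lam D Om)) := by simp only [mul_assoc]
    _ = l1 Om⁻¹ * (l1 Om⁻¹ * (l1 Om * S.Lam D Om)) := by rw [Lam_sq S D Om hD hO (om_D hD hO)]
    _ = l1 Om⁻¹ * ((l1 Om⁻¹ * l1 Om) * S.Lam D Om) := by simp only [mul_assoc]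
    _ = l1 Om⁻¹ * S.Lam D Om := by rw [e, one_mul]

lemma PP_tr (S : Setup d F) {D : Fin 9 → Matrix (Fin dm) (Fin dm) ℝ} (hD : ∀ i, (D i)ᵀ = -D i) :
    (S.PP D)ᵀ = -S.PP D := by
  ext p q
  rw [transpose_apply, Matrix.neg_apply]
  simp only [Setup.PP, of_apply]
  rw [← mul_neg, ← Finset.sum_neg_distrib]
  congr 1
  refine Finset.sum_congr rfl fun i _ => ?_
  have h1 : S.g i q.1 p.1 = S.g i p.1 q.1 := congrFun (congrFun (S.g_symm i) p.1) q.1
  have h2 : D i q.2 p.2 = -D i p.2 q.2 := congrFun (congrFun (hD i) p.2) q.2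
  rw [h1, h2]
  push_cast
  ring

lemma l1_tr (A : Matrix (Fin dm) (Fin dm) ℝ) (hA : Aᵀ = A) : (l1 A)ᵀ = l1 A := by
  ext p q
  have h2 : A q.2 p.2 = A p.2 q.2 := congrFun (congrFun hA p.2) q.2
  simp only [l1, lc, transpose_apply, kroneckerMap_apply, map_apply, h2, one_apply, eq_comm]

lemma Lam_tr (S : Setup d F) {D : Fin 9 → Matrix (Fin dm) (Fin dm) ℝ} {Om : Matrix (Fin dm) (Fin dm) ℝ} (hD : Frz D)
    (hO : IsOm S.κ D Om) : S.Lam D Om * (S.Lam D Om)ᵀ = 0 := by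
  have h1 : S.PP D * S.PP D = -(l1 Om * l1 Om) := by
    rw [PP_sq S D hD.comm, l1_mul, hO.sq]
    ext p q
    simp [l1, lc, kroneckerMap_apply]
  have h2 := l1_PP S D Om (om_D hD hO)
  rw [Lam_eq, transpose_smul, transpose_sub, transpose_smul, PP_tr S hD.anti, l1_tr _ hO.symm, smul_mul_smul_comm]
  have h3 : (l1 Om - Complex.I • S.PP D) * (l1 Om - Complex.I • -S.PP D) = 0 := by
    rw [smul_neg, sub_neg_eq_add, sub_mul, mul_add, mul_add, smul_mul_smul_comm, h1, smul_mul_assoc, mul_smul_comm, ← h2,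
      Complex.I_mul_I, neg_one_smul, neg_neg]
    abel
  rw [h3, smul_zero]

lemma pm_tr (S : Setup d F) {D : Fin 9 → Matrix (Fin dm) (Fin dm) ℝ} {Om : Matrix (Fin dm) (Fin dm) ℝ} (hD : Frz D)
    (hO : IsOm S.κ D Om) : pm S D Om * (pm S D Om)ᵀ = 0 := by
  rw [pm, transpose_mul, mul_assoc, ← mul_assoc (S.Lam D Om), Lam_tr S hD hO, zero_mul, mul_zero]

lemma mem_F0 (S : Setup d F) (φ : Spl dh dm d) {D : Fin 9 → Matrix (Fin dm) (Fin dm) ℝ}
    {Om : Matrix (Fin dm) (Fin dm) ℝ} (hO : IsOm S.κ D Om) (v : F) :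
    v ∈ S.F0 φ D Om ↔ ∀ p, an (tt S φ) (pm S D Om) p v = 0 := by
  have h1 : l1 Om * l1 Om⁻¹ = 1 := by rw [l1_mul, mul_nonsing_inv _ (om_unit hO), l1_one]
  exact (Tm_zero S D Om φ Om h1 v).symm

lemma F0_proj [FiniteDimensional ℂ F] (S : Setup d F) (φ : Spl dh dm d) {D : Fin 9 → Matrix (Fin dm) (Fin dm) ℝ}
    {Om : Matrix (Fin dm) (Fin dm) ℝ} (hD : Frz D) (hO : IsOm S.κ D Om) :
    (S.F0 φ D Om).starProjection = pj (nu (tt S φ) (pm S D Om)) (Module.finrank ℂ F) :=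
  proj_eq (tt_anti S φ) (tt_sa S φ) (pm_ct S hD hO) (pm_tr S hD hO) (pm_sq S hD hO) _ (mem_F0 S φ hO)

lemma isOm_smul {κ : ℝ} {D : Fin 9 → Matrix (Fin dm) (Fin dm) ℝ} {Om : Matrix (Fin dm) (Fin dm) ℝ} (hO : IsOm κ D Om)
    {R : ℝ} (hR : 0 < R) : IsOm κ (fun i => R • D i) (R • Om) := by
  have e : ∑ i, (R • D i) * (R • D i) = (R * R) • ∑ i, D i * D i := by
    rw [Finset.smul_sum]
    exact Finset.sum_congr rfl fun i _ => smul_mul_smul_comm _ _ _ _
  refine ⟨?_, ?_, ?_, ?_⟩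
  · rw [transpose_smul, hO.symm]
  · intro v hv
    rw [smul_mulVec, dotProduct_smul, smul_eq_mul]
    exact mul_pos hR (hO.pos v hv)
  · rw [e, smul_mul_smul_comm, hO.sq, smul_neg, smul_comm]
  · intro M hM
    rw [e, mul_smul_comm, smul_mul_assoc] at hM
    have h1 := smul_right_injective _ (mul_pos hR hR).ne' hM
    rw [mul_smul_comm, smul_mul_assoc, hO.comm M h1]

lemma Dz_smul (S : Setup d F) (φ : Spl dh dm d) (ψ : Spl ds dz dh) (R : ℝ) (yz : Cfg dz) :
    Dz S φ ψ (R • yz) = fun i => R • Dz S φ ψ yz i := by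
  rw [← AX.DM_Mz, ← AX.DM_Mz]
  funext i
  simp only [DM, PiLp.smul_apply, smul_eq_mul, Finset.smul_sum, smul_smul]

lemma Dz_cd (S : Setup d F) (φ : Spl dh dm d) (ψ : Spl ds dz dh) (i : Fin 9) (B C : Fin dm) :
    ContDiff ℝ ∞ fun yz : Cfg dz => Dz S φ ψ yz i B C := by
  simp only [← AX.DM_Mz, DM, Matrix.sum_apply, Matrix.smul_apply, smul_eq_mul]
  exact ContDiff.sum fun a _ => (Setup.contDiff_coord _).mul contDiff_const

end Sc

open Sc LamPf in
/-- **L6** -/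
theorem scal (S : Setup d F) : ScalStmt S := by
  intro hfin dh dm ds dz φ ψ z₀ h
  have h1 : ∀ yz, (S.Dy φ 8 (cmb ψ 0 yz)).det ≠ 0 →
      Frz (Dz S φ ψ yz) ∧ IsOm S.κ (Dz S φ ψ yz) (omc S.κ (Dz S φ ψ yz)) := by
    intro yz hy
    have hF := AX.frz_Dz h yz hy
    refine ⟨hF, ?_⟩
    obtain ⟨Om, hOm⟩ := om dm S.κ _ S.κ_pos hF
    rw [AX.omc_eq AX.omU S.κ_pos hOm]
    exact hOm
  have hopen : IsOpen {yz : Cfg dz | (S.Dy φ 8 (cmb ψ 0 yz)).det ≠ 0} := by
    have hc : Continuous fun yz : Cfg dz => (Dz S φ ψ yz 8).det :=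
      (AN.Sy.contDiff_det fun B C => Dz_cd S φ ψ 8 B C).continuous
    exact isOpen_ne_fun hc continuous_const
  have hAcd : ∀ B C, ContDiff ℝ ∞ fun yz : Cfg dz => (-(S.κ ^ 2 • ∑ i, Dz S φ ψ yz i * Dz S φ ψ yz i)) B C := by
    intro B C
    simp only [Matrix.neg_apply, Matrix.smul_apply, Matrix.sum_apply, Matrix.mul_apply]
    refine ContDiff.neg (ContDiff.const_smul _ ?_)
    exact ContDiff.sum fun i _ => ContDiff.sum fun E _ => (Dz_cd S φ ψ i B E).mul (Dz_cd S φ ψ i E C)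
  have h3 : ∀ B C, ContDiffOn ℝ ∞ (fun yz => omc S.κ (Dz S φ ψ yz) B C) {yz | (S.Dy φ 8 (cmb ψ 0 yz)).det ≠ 0} :=
    sqrt_smooth hopen (fun yz => -(S.κ ^ 2 • ∑ i, Dz S φ ψ yz i * Dz S φ ψ yz i)) (fun yz => omc S.κ (Dz S φ ψ yz))
      (fun B C => (hAcd B C).contDiffOn) (fun yz hy => (h1 yz hy).2.symm) (fun yz hy => (h1 yz hy).2.pos)
      (fun yz hy => (h1 yz hy).2.sq)
  refine ⟨h1, ?_, h3, ?_⟩
  · intro yz hy R hR
    have h2 : omc S.κ (Dz S φ ψ (R • yz)) = R • omc S.κ (Dz S φ ψ yz) := by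
      refine AX.omc_eq AX.omU S.κ_pos ?_
      rw [Dz_smul]
      exact isOm_smul (h1 yz hy).2 hR
    refine ⟨h2, ?_⟩
    have h4 : S.F0 φ (Dz S φ ψ (R • yz)) (omc S.κ (Dz S φ ψ (R • yz))) =
        S.F0 φ (Dz S φ ψ yz) (omc S.κ (Dz S φ ψ yz)) := by
      rw [h2, Dz_smul]
      exact (f0S S φ (Dz S φ ψ yz) (omc S.κ (Dz S φ ψ yz))).2 R hR
    unfold Pz
    simp only [h4]
  · -- smoothness of the projection
    have hinv : ∀ B C, ContDiffOn ℝ ∞ (fun yz => (omc S.κ (Dz S φ ψ yz))⁻¹ B C)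
        {yz | (S.Dy φ 8 (cmb ψ 0 yz)).det ≠ 0} := by
      intro B C
      have h4 : ContDiffOn ℝ ∞ (fun yz => ∑ E, (-(S.κ ^ 2 • ∑ i, Dz S φ ψ yz i * Dz S φ ψ yz i))⁻¹ B E *
          omc S.κ (Dz S φ ψ yz) E C) {yz | (S.Dy φ 8 (cmb ψ 0 yz)).det ≠ 0} := by
        refine ContDiffOn.sum fun E _ => ContDiffOn.mul ?_ (h3 E C)
        refine (AN.Sy.contDiffOn_inv hAcd B E).mono fun yz hy => ?_
        have h5 := (h1 yz hy).2
        change (-(S.κ ^ 2 • ∑ i, Dz S φ ψ yz i * Dz S φ ψ yz i)).det ≠ 0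
        rw [← h5.sq, det_mul]
        exact mul_ne_zero (om_unit h5).ne_zero (om_unit h5).ne_zero
      refine h4.congr fun yz hy => ?_
      have h5 := (h1 yz hy).2
      have h6 := om_unit h5
      rw [← mul_apply, ← h5.sq, Matrix.mul_inv_rev, mul_assoc, nonsing_inv_mul _ h6, mul_one]
    have hlc : ∀ (M : Cfg dz → Matrix (Fin dm) (Fin dm) ℝ),
        (∀ B C, ContDiffOn ℝ ∞ (fun yz => M yz B C) {yz | (S.Dy φ 8 (cmb ψ 0 yz)).det ≠ 0}) → ∀ B C,
        ContDiffOn ℝ ∞ (fun yz => ((M yz B C : ℝ) : ℂ)) {yz | (S.Dy φ 8 (cmb ψ 0 yz)).det ≠ 0} :=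
      fun M hM B C => Complex.ofRealCLM.contDiff.comp_contDiffOn (hM B C)
    have hpm : ∀ p q, ContDiffOn ℝ ∞ (fun yz => pm S (Dz S φ ψ yz) (omc S.κ (Dz S φ ψ yz)) p q)
        {yz | (S.Dy φ 8 (cmb ψ 0 yz)).det ≠ 0} := by
      intro p q
      simp only [pm, mul_apply, l1, kroneckerMap_apply, lc, map_apply, Setup.Lam, Setup.PP, of_apply]
      refine ContDiffOn.sum fun r _ => ?_
      refine ContDiffOn.mul (contDiffOn_const.mul (hlc _ hinv _ _)) ?_
      refine contDiffOn_const.mul (ContDiffOn.sub ?_ ?_)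
      · split_ifs
        · exact hlc _ h3 _ _
        · exact contDiffOn_const
      · refine contDiffOn_const.mul (contDiffOn_const.mul ?_)
        refine ContDiffOn.sum fun i _ => contDiffOn_const.mul ?_
        exact hlc (fun yz => Dz S φ ψ yz i) (fun B C => (Dz_cd S φ ψ i B C).contDiffOn) _ _
    refine (pj_smooth (nu_smooth (T := tt S φ) hpm) (Module.finrank ℂ F)).congr fun yz hy => ?_
    exact F0_proj S φ (h1 yz hy).1 (h1 yz hy).2

end Vale.Agent.P353.Z.AD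
end

section

/-! # P353, all `N`, block GL: GL12, measurability -/

open MeasureTheory Filter Topology Matrix
open scoped ContDiff

namespace Vale.Agent.P353.Z.AN.SfuA

variable {d dh dm ds dz : ℕ} {F : Type*} [NormedAddCommGroup F] [InnerProductSpace ℂ F]

section mat

variable {X : Type*} [MeasurableSpace X] {n : ℕ}

lemma meas_det {m : Type*} [Fintype m] [DecidableEq m] (A : X → Matrix m m ℝ) (hA : ∀ i j, Measurable fun x => A x i j) :
    Measurable fun x => (A x).det := by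
  simp only [Matrix.det_apply]
  refine Finset.measurable_sum _ fun σ _ => ?_
  refine Measurable.const_smul ?_ _
  exact Finset.measurable_prod _ fun i _ => hA _ _

lemma meas_inv (A : X → Matrix (Fin n) (Fin n) ℝ) (hA : ∀ i j, Measurable fun x => A x i j) (i j : Fin n) :
    Measurable fun x => (A x)⁻¹ i j := by
  have h : (fun x => (A x)⁻¹ i j) = fun x => ((A x).det)⁻¹ * ((A x).updateRow j (Pi.single i 1)).det := by
    funext x
    rw [Matrix.inv_def, Matrix.smul_apply, Matrix.adjugate_apply, Ring.inverse_eq_inv', smul_eq_mul]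
  rw [h]
  refine (meas_det A hA).inv.mul (meas_det _ fun k l => ?_)
  by_cases hk : k = j
  · subst hk
    simp only [Matrix.updateRow_self]
    exact measurable_const
  · simp only [Matrix.updateRow_ne hk]
    exact hA k l

lemma meas_mul (A B : X → Matrix (Fin n) (Fin n) ℝ) (hA : ∀ i j, Measurable fun x => A x i j)
    (hB : ∀ i j, Measurable fun x => B x i j) (i j : Fin n) : Measurable fun x => (A x * B x) i j := by
  simp only [Matrix.mul_apply]
  exact Finset.measurable_sum _ fun k _ => (hA i k).mul (hB k j)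

lemma meas_mulVec (A : X → Matrix (Fin n) (Fin n) ℝ) (v : X → Fin n → ℝ) (hA : ∀ i j, Measurable fun x => A x i j)
    (hv : ∀ i, Measurable fun x => v x i) (i : Fin n) : Measurable fun x => (A x *ᵥ v x) i := by
  simp only [Matrix.mulVec, dotProduct]
  exact Finset.measurable_sum _ fun k _ => (hA i k).mul (hv k)

/-- measurability of the quadratic form -/
lemma meas_qf (D : X → Fin 9 → Matrix (Fin dm) (Fin dm) ℝ) (Om : X → Matrix (Fin dm) (Fin dm) ℝ)
    (w : X → Wsp dm) (hD : ∀ i A B, Measurable fun x => D x i A B) (hO : ∀ A B, Measurable fun x => Om x A B)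
    (hw : ∀ p, Measurable fun x => w x p) : Measurable fun x => qf (D x) (Om x) (w x) := by
  have hwt : ∀ i B, Measurable fun x => wt (w x) i B := by
    intro i B
    refine Fin.lastCases ?_ (fun j => ?_) i
    · simp only [wt, Fin.lastCases_last]
      exact measurable_const
    · simp only [wt, Fin.lastCases_castSucc]
      exact hw (j, B)
  have htI : ∀ i A B, Measurable fun x => tI (D x) i A B := fun i =>
    meas_mul _ _ (meas_inv _ (hD 8)) (hD i)
  have ht2 : ∀ A B, Measurable fun x => t2 (D x) A B := by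
    intro A B
    simp only [t2, Matrix.sum_apply]
    exact Finset.measurable_sum _ fun i _ => meas_mul _ _ (htI i) (htI i) A B
  have hsV : ∀ A, Measurable fun x => sV (D x) (w x) A := by
    intro A
    unfold sV
    refine meas_mulVec _ (fun x => ∑ i, tI (D x) i *ᵥ wt (w x) i) (meas_inv _ ht2) (fun B => ?_) A
    simp only [Finset.sum_apply]
    exact Finset.measurable_sum _ fun i _ => meas_mulVec _ _ (htI i) (hwt i) B
  have hVV : ∀ i A, Measurable fun x => VV (D x) (w x) i A := by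
    intro i A
    unfold VV
    simp only [Pi.sub_apply]
    exact (hwt i A).sub (meas_mulVec _ _ (htI i) hsV A)
  unfold qf
  refine Finset.measurable_sum _ fun i _ => ?_
  simp only [dotProduct]
  exact Finset.measurable_sum _ fun A _ => (hVV i A).mul (meas_mulVec _ _ hO (hVV i) A)

/-- measurability of the normalised vacuum -/
lemma meas_gh (D : X → Fin 9 → Matrix (Fin dm) (Fin dm) ℝ) (Om : X → Matrix (Fin dm) (Fin dm) ℝ)
    (hD : ∀ i A B, Measurable fun x => D x i A B) (hO : ∀ A B, Measurable fun x => Om x A B) :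
    Measurable fun q : X × Wsp dm => gh (D q.1) (Om q.1) q.2 := by
  have hg : Measurable fun q : X × Wsp dm => gR (D q.1) (Om q.1) 1 q.2 := by
    unfold gR
    refine Real.measurable_exp.comp (Measurable.const_mul ?_ _)
    refine meas_qf (X := X × Wsp dm) (fun q => D q.1) (fun q => Om q.1) (fun q => q.2)
      (fun i A B => (hD i A B).comp measurable_fst) (fun A B => (hO A B).comp measurable_fst) (fun p => ?_)
    have : Measurable fun v : Wsp dm => v p := by fun_prop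
    exact this.comp measurable_snd
  unfold gh
  refine hg.div (Real.continuous_sqrt.measurable.comp ?_)
  have h1 : StronglyMeasurable fun x : X => ∫ w', gR (D x) (Om x) 1 w' ^ 2 := by
    have h2 : StronglyMeasurable fun q : X × Wsp dm => gR (D q.1) (Om q.1) 1 q.2 ^ 2 :=
      (hg.pow_const 2).stronglyMeasurable
    exact h2.integral_prod_right
  exact h1.measurable.comp measurable_fst

end mat

/-- modified `Ω`, zero outside the good ball -/
noncomputable def OmC (S : Setup d F) (φ : Spl dh dm d) (ψ : Spl ds dz dh) (z₀ : Cfg dz) (δ : ℝ) (η : Cfg dz) :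
    Matrix (Fin dm) (Fin dm) ℝ :=
  (Metric.closedBall z₀ δ).indicator (fun η => AD.omc S.κ (AD.Dz S φ ψ η)) η

lemma meas_OmC (S : Setup d F) (φ : Spl dh dm d) (ψ : Spl ds dz dh) (z₀ : Cfg dz) (δ : ℝ)
    (h : ContinuousOn (fun η => AD.omc S.κ (AD.Dz S φ ψ η)) {η | ‖η - z₀‖ ≤ δ}) (A B : Fin dm) :
    Measurable fun η => OmC S φ ψ z₀ δ η A B := by
  have hset : {η : Cfg dz | ‖η - z₀‖ ≤ δ} = Metric.closedBall z₀ δ := by
    ext η
    rw [Metric.mem_closedBall, dist_eq_norm]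
    rfl
  rw [hset] at h
  have h1 : ContinuousOn (fun η => AD.omc S.κ (AD.Dz S φ ψ η) A B) (Metric.closedBall z₀ δ) := by
    have := continuousOn_pi.1 (continuousOn_pi.1 h A) B
    exact this
  have h2 : (fun η => OmC S φ ψ z₀ δ η A B) =
      (Metric.closedBall z₀ δ).indicator (fun η => AD.omc S.κ (AD.Dz S φ ψ η) A B) := by
    funext η
    unfold OmC
    by_cases hη : η ∈ Metric.closedBall z₀ δ
    · rw [Set.indicator_of_mem hη, Set.indicator_of_mem hη]
    · rw [Set.indicator_of_notMem hη, Set.indicator_of_notMem hη]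
      rfl
  rw [h2]
  classical
  rw [← Set.piecewise_eq_indicator]
  exact h1.measurable_piecewise continuousOn_const Metric.isClosed_closedBall.measurableSet

lemma meas_Dz (S : Setup d F) (φ : Spl dh dm d) (ψ : Spl ds dz dh) (i : Fin 9) (A B : Fin dm) :
    Measurable fun η : Cfg dz => AD.Dz S φ ψ η i A B := by
  simp only [AD.Dz, Setup.Dy, Setup.Dm, Matrix.of_apply]
  refine Finset.measurable_sum _ fun C _ => Measurable.const_mul ?_ _
  obtain ⟨a, rfl⟩ := ψ.surjective C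
  rcases a with a | a
  · have : (fun η : Cfg dz => AD.cmb ψ (0 : Cfg ds) η (i, ψ (Sum.inl a))) = fun _ => 0 := by
      funext η; simp [AD.cmb]
    rw [this]; exact measurable_const
  · have : (fun η : Cfg dz => AD.cmb ψ (0 : Cfg ds) η (i, ψ (Sum.inr a))) = fun η => η (i, a) := by
      funext η; simp [AD.cmb]
    rw [this]; fun_prop

/-- strong measurability of the section `a(η,s)` -/
lemma sm_aP [FiniteDimensional ℂ F] (S : Setup d F) (φ : Spl dh dm d) (ψ : Spl ds dz dh) (z₀ : Cfg dz) (δ : ℝ)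
    (h : ∀ v : F, ContinuousOn (fun η => (S.F0 φ (AD.Dz S φ ψ η) (AD.omc S.κ (AD.Dz S φ ψ η))).starProjection v)
      {η | ‖η - z₀‖ ≤ δ}) (χ : Cfg dz → ℝ) (hc : Continuous χ) (hχ : ∀ η, χ η ≠ 0 → ‖η - z₀‖ ≤ δ)
    (o : Cfg ds → F) (ho : StronglyMeasurable o) :
    StronglyMeasurable fun q : Cfg dz × Cfg ds => aP S φ ψ χ o q.1 q.2 := by
  have hset : {η : Cfg dz | ‖η - z₀‖ ≤ δ} = Metric.closedBall z₀ δ := by
    ext η
    rw [Metric.mem_closedBall, dist_eq_norm]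
    rfl
  rw [hset] at h
  let b := stdOrthonormalBasis ℂ F
  have h1 : ∀ v : F, StronglyMeasurable fun η : Cfg dz => aP S φ ψ χ (fun _ : Cfg ds => v) η 0 := by
    intro v
    have e : (fun η : Cfg dz => aP S φ ψ χ (fun _ : Cfg ds => v) η 0) = fun η => ((χ η : ℝ) : ℂ) •
        (Metric.closedBall z₀ δ).indicator (fun η =>
          (S.F0 φ (AD.Dz S φ ψ η) (AD.omc S.κ (AD.Dz S φ ψ η))).starProjection v) η := by
      funext η
      unfold aP
      by_cases hη : η ∈ Metric.closedBall z₀ δ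
      · rw [Set.indicator_of_mem hη]
      · have h0 : χ η = 0 := by
          by_contra h0
          exact hη (by rw [Metric.mem_closedBall, dist_eq_norm]; exact hχ η h0)
        rw [h0]; simp
    rw [e]
    refine StronglyMeasurable.smul ((Complex.continuous_ofReal.comp hc).stronglyMeasurable) ?_
    classical
    rw [← Set.piecewise_eq_indicator]
    borelize F
    have hm : Measurable ((Metric.closedBall z₀ δ).piecewise (fun η =>
          (S.F0 φ (AD.Dz S φ ψ η) (AD.omc S.κ (AD.Dz S φ ψ η))).starProjection v) 0) :=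
      (h v).measurable_piecewise continuousOn_const Metric.isClosed_closedBall.measurableSet
    have : SecondCountableTopology F := by
      have := FiniteDimensional.proper ℂ F
      infer_instance
    exact hm.stronglyMeasurable
  have e : (fun q : Cfg dz × Cfg ds => aP S φ ψ χ o q.1 q.2) = fun q => ∑ i, inner ℂ (b i) (o q.2) •
      aP S φ ψ χ (fun _ : Cfg ds => b i) q.1 0 := by
    funext q
    unfold aP
    conv_lhs => rw [← b.sum_repr (o q.2)]
    rw [map_sum, Finset.smul_sum]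
    refine Finset.sum_congr rfl fun i _ => ?_
    rw [map_smul, smul_comm, b.repr_apply_apply]
  rw [e]
  refine Finset.stronglyMeasurable_fun_sum _ fun i _ => ?_
  refine StronglyMeasurable.smul ?_ ((h1 (b i)).comp_measurable measurable_fst)
  exact (StronglyMeasurable.inner stronglyMeasurable_const (ho.comp_measurable measurable_snd))

lemma aP_norm_le [FiniteDimensional ℂ F] (S : Setup d F) (φ : Spl dh dm d) (ψ : Spl ds dz dh) (χ : Cfg dz → ℝ)
    (o : Cfg ds → F) (η : Cfg dz) (s : Cfg ds) : ‖aP S φ ψ χ o η s‖ ≤ |χ η| * ‖o s‖ := by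
  unfold aP
  rw [norm_smul, Complex.norm_real, Real.norm_eq_abs]
  refine mul_le_mul_of_nonneg_left ?_ (abs_nonneg _)
  exact Submodule.norm_starProjection_apply_le _ _

/-- strong measurability of the slice section -/
lemma sm_vv [FiniteDimensional ℂ F] (S : Setup d F) (φ : Spl dh dm d) (ψ : Spl ds dz dh) (z₀ : Cfg dz) (δ : ℝ)
    (hO : ContinuousOn (fun η => AD.omc S.κ (AD.Dz S φ ψ η)) {η | ‖η - z₀‖ ≤ δ})
    (χ : Cfg dz → ℝ) (hχ : ∀ η, χ η ≠ 0 → ‖η - z₀‖ ≤ δ) (o : Cfg ds → F)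
    (ha : StronglyMeasurable fun q : Cfg dz × Cfg ds => aP S φ ψ χ o q.1 q.2) :
    StronglyMeasurable fun q : Cfg dz × Cfg ds × Wsp dm => vv S φ ψ χ o q.1 q.2.1 q.2.2 := by
  have e : (fun q : Cfg dz × Cfg ds × Wsp dm => vv S φ ψ χ o q.1 q.2.1 q.2.2) = fun q =>
      ((gh (AD.Dz S φ ψ q.1) (OmC S φ ψ z₀ δ q.1) q.2.2 : ℝ) : ℂ) • aP S φ ψ χ o q.1 q.2.1 := by
    funext q
    rw [vv_eq]
    by_cases h0 : χ q.1 = 0
    · have : aP S φ ψ χ o q.1 q.2.1 = 0 := by unfold aP; rw [h0]; simp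
      rw [this, smul_zero, smul_zero]
    · unfold OmC
      rw [Set.indicator_of_mem]
      rw [Metric.mem_closedBall, dist_eq_norm]
      exact hχ _ h0
  rw [e]
  refine StronglyMeasurable.smul ?_ ?_
  · have h1 := meas_gh (X := Cfg dz) (fun η => AD.Dz S φ ψ η) (OmC S φ ψ z₀ δ) (fun i A B => meas_Dz S φ ψ i A B)
      (meas_OmC S φ ψ z₀ δ hO)
    have h2 : Measurable fun q : Cfg dz × Cfg ds × Wsp dm => (q.1, q.2.2) := by fun_prop
    exact (Complex.measurable_ofReal.comp (h1.comp h2)).stronglyMeasurable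
  · have h2 : Measurable fun q : Cfg dz × Cfg ds × Wsp dm => (q.1, q.2.1) := by fun_prop
    exact ha.comp_measurable h2

end Vale.Agent.P353.Z.AN.SfuA
end

section

/-! # P353, all `N`, block GL: GL12, mass estimates of the slice section -/

open MeasureTheory Filter Topology Matrix
open scoped ContDiff ENNReal

namespace Vale.Agent.P353.Z.AN.SfuA

variable {d dh dm ds dz : ℕ} {F : Type*} [NormedAddCommGroup F] [InnerProductSpace ℂ F]

lemma memLp_two {X : Type*} [MeasurableSpace X] {μ : Measure X} {f : X → F} (hf : AEStronglyMeasurable f μ) :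
    MemLp f 2 μ ↔ ∫⁻ x, ‖f x‖ₑ ^ 2 ∂μ < ⊤ := by
  have h := eLpNorm_lt_top_iff_lintegral_rpow_enorm_lt_top (f := f) (μ := μ) (p := 2) (by norm_num) (by norm_num)
  have e : ∫⁻ x, ‖f x‖ₑ ^ (2 : ℝ≥0∞).toReal ∂μ = ∫⁻ x, ‖f x‖ₑ ^ 2 ∂μ := by
    refine lintegral_congr fun x => ?_
    rw [ENNReal.toReal_ofNat, ENNReal.rpow_ofNat]
  rw [e] at h
  rw [← h]
  exact ⟨fun h => h.2, fun h => ⟨hf, h⟩⟩

lemma meas_gh1 (D : Fin 9 → Matrix (Fin dm) (Fin dm) ℝ) (Om : Matrix (Fin dm) (Fin dm) ℝ) :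
    Measurable fun w : Wsp dm => gh D Om w := by
  have h1 : Measurable fun w : Wsp dm => qf D Om w :=
    meas_qf (X := Wsp dm) (fun _ => D) (fun _ => Om) (fun w => w) (fun i A B => measurable_const)
      (fun A B => measurable_const) (fun p => by fun_prop)
  have h2 : Measurable fun w : Wsp dm => gR D Om 1 w := by
    unfold gR
    exact Real.measurable_exp.comp (h1.const_mul _)
  unfold gh
  exact h2.div_const _

lemma lint_gh (hG : GauStmt) {κ : ℝ} (hκ : 0 < κ) {D : Fin 9 → Matrix (Fin dm) (Fin dm) ℝ}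
    {Om : Matrix (Fin dm) (Fin dm) ℝ} (hD : Frz D) (hO : IsOm κ D Om) :
    ∫⁻ w : Wsp dm, ‖(gh D Om w : ℂ)‖ₑ ^ 2 = 1 := by
  obtain ⟨-, -, -, hI, hint, -⟩ := hG dm κ D Om hκ hD hO
  set I : ℝ := ∫ w : Wsp dm, gR D Om 1 w ^ 2 with hIdef
  have e : ∀ w : Wsp dm, ‖(gh D Om w : ℂ)‖ₑ ^ 2 = ENNReal.ofReal (I⁻¹ * gR D Om 1 w ^ 2) := by
    intro w
    rw [← ofReal_norm_eq_enorm, ← ENNReal.ofReal_pow (norm_nonneg _), Complex.norm_real, Real.norm_eq_abs, sq_abs]
    congr 1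
    unfold gh
    rw [div_pow, Real.sq_sqrt hI.le, div_eq_inv_mul]
  simp only [e]
  rw [← ofReal_integral_eq_lintegral_ofReal (hint.const_mul _)
    (Eventually.of_forall fun w => mul_nonneg (inv_nonneg.2 hI.le) (sq_nonneg _)), integral_const_mul,
    inv_mul_cancel₀ hI.ne', ENNReal.ofReal_one]

lemma lint_triple {X Y Z : Type*} [MeasurableSpace X] [MeasurableSpace Y] [MeasurableSpace Z] {μ : Measure X}
    {ν : Measure Y} {τ : Measure Z} [SFinite μ] [SFinite ν] [SFinite τ] {f : X × Y × Z → ℝ≥0∞} {g : X × Y → ℝ≥0∞}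
    (hf : Measurable f) (hg : Measurable g) (h : ∀ x y, ∫⁻ z, f (x, y, z) ∂τ ≤ g (x, y)) :
    ∫⁻ q, f q ∂(μ.prod (ν.prod τ)) ≤ ∫⁻ q, g q ∂(μ.prod ν) := by
  rw [lintegral_prod _ hf.aemeasurable, lintegral_prod _ hg.aemeasurable]
  refine lintegral_mono fun x => ?_
  have m3 : Measurable fun q : Y × Z => f (x, q) := hf.comp (measurable_const.prodMk measurable_id)
  simp only
  rw [lintegral_prod _ m3.aemeasurable]
  exact lintegral_mono fun y => h x y

lemma lint_w [FiniteDimensional ℂ F] (S : Setup d F) (φ : Spl dh dm d) (ψ : Spl ds dz dh) (hG : GauStmt) (z₀ : Cfg dz)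
    (δ : ℝ) (hF : ∀ η, ‖η - z₀‖ ≤ δ → Frz (AD.Dz S φ ψ η) ∧ IsOm S.κ (AD.Dz S φ ψ η) (AD.omc S.κ (AD.Dz S φ ψ η)))
    (χ : Cfg dz → ℝ) (hχ : ∀ η, χ η ≠ 0 → ‖η - z₀‖ ≤ δ) (o : Cfg ds → F) (η : Cfg dz) (s : Cfg ds) :
    ∫⁻ w : Wsp dm, ‖vv S φ ψ χ o η s w‖ₑ ^ 2 ≤ ‖aP S φ ψ χ o η s‖ₑ ^ 2 := by
  by_cases h0 : χ η = 0
  · have h1 : aP S φ ψ χ o η s = 0 := by unfold aP; rw [h0]; simp
    have h2 : ∀ w, ‖vv S φ ψ χ o η s w‖ₑ ^ 2 = 0 := by
      intro w
      rw [vv_eq, h1, smul_zero, enorm_zero]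
      norm_num
    rw [lintegral_congr h2, lintegral_zero]
    exact zero_le
  · obtain ⟨hD, hO⟩ := hF η (hχ η h0)
    obtain ⟨D, hDe⟩ : ∃ D, D = AD.Dz S φ ψ η := ⟨_, rfl⟩
    obtain ⟨a, hae⟩ : ∃ a, a = aP S φ ψ χ o η s := ⟨_, rfl⟩
    have h1 : ∀ w, ‖vv S φ ψ χ o η s w‖ₑ ^ 2 =
        ‖(gh D (AD.omc S.κ D) w : ℂ)‖ₑ ^ 2 * ‖a‖ₑ ^ 2 := by
      intro w
      rw [vv_eq, enorm_smul, mul_pow, hDe, hae]
    rw [← hae, lintegral_congr h1]
    rw [← hDe] at hD hO
    have m4 : Measurable fun w : Wsp dm => ‖(gh D (AD.omc S.κ D) w : ℂ)‖ₑ ^ 2 :=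
      (Complex.measurable_ofReal.comp (meas_gh1 D (AD.omc S.κ D))).enorm.pow_const 2
    rw [lintegral_mul_const _ m4, lint_gh hG S.κ_pos hD hO, one_mul]

lemma lint_vv [FiniteDimensional ℂ F] (S : Setup d F) (φ : Spl dh dm d) (ψ : Spl ds dz dh) (hG : GauStmt) (z₀ : Cfg dz)
    (δ : ℝ) (hF : ∀ η, ‖η - z₀‖ ≤ δ → Frz (AD.Dz S φ ψ η) ∧ IsOm S.κ (AD.Dz S φ ψ η) (AD.omc S.κ (AD.Dz S φ ψ η)))
    (χ : Cfg dz → ℝ) (hχ : ∀ η, χ η ≠ 0 → ‖η - z₀‖ ≤ δ) (o : Cfg ds → F)
    (ha : StronglyMeasurable fun q : Cfg dz × Cfg ds => aP S φ ψ χ o q.1 q.2)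
    (hv : StronglyMeasurable fun q : Cfg dz × Cfg ds × Wsp dm => vv S φ ψ χ o q.1 q.2.1 q.2.2) :
    ∫⁻ q : Cfg dz × Cfg ds × Wsp dm, ‖vv S φ ψ χ o q.1 q.2.1 q.2.2‖ₑ ^ 2 ∂(volume.prod (volume.prod volume)) ≤
      ∫⁻ q : Cfg dz × Cfg ds, ‖aP S φ ψ χ o q.1 q.2‖ₑ ^ 2 ∂(volume.prod volume) :=
  lint_triple (hv.enorm.pow_const 2) (ha.enorm.pow_const 2) fun η s => lint_w S φ ψ hG z₀ δ hF χ hχ o η s

lemma lint_aP [FiniteDimensional ℂ F] (S : Setup d F) (φ : Spl dh dm d) (ψ : Spl ds dz dh)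
    (χ : Cfg dz → ℝ) (hc : Continuous χ) (hcs : HasCompactSupport χ) (o : Cfg ds → F) (ho : MemLp o 2 volume) :
    ∫⁻ q : Cfg dz × Cfg ds, ‖aP S φ ψ χ o q.1 q.2‖ₑ ^ 2 ∂(volume.prod volume) < ⊤ := by
  have h1 : ∀ q : Cfg dz × Cfg ds, ‖aP S φ ψ χ o q.1 q.2‖ₑ ^ 2 ≤ ‖(χ q.1 : ℂ)‖ₑ ^ 2 * ‖o q.2‖ₑ ^ 2 := by
    intro q
    rw [← mul_pow]
    refine pow_le_pow_left' ?_ 2
    rw [← ofReal_norm_eq_enorm, ← ofReal_norm_eq_enorm, ← ofReal_norm_eq_enorm, ← ENNReal.ofReal_mul (norm_nonneg _),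
      Complex.norm_real, Real.norm_eq_abs]
    exact ENNReal.ofReal_le_ofReal (aP_norm_le S φ ψ χ o q.1 q.2)
  refine (lintegral_mono h1).trans_lt ?_
  have hcc : Continuous fun η : Cfg dz => ((χ η : ℝ) : ℂ) := Complex.continuous_ofReal.comp hc
  have hm : MemLp (fun η : Cfg dz => ((χ η : ℝ) : ℂ)) 2 volume := by
    refine hcc.memLp_of_hasCompactSupport ?_
    exact hcs.comp_left (g := fun t : ℝ => (t : ℂ)) Complex.ofReal_zero
  rw [lintegral_prod_mul (f := fun η : Cfg dz => ‖(χ η : ℂ)‖ₑ ^ 2) (g := fun s : Cfg ds => ‖o s‖ₑ ^ 2)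
    (hm.1.enorm.pow_const 2) (ho.1.enorm.pow_const 2)]
  exact ENNReal.mul_lt_top ((memLp_two hm.1).1 hm) ((memLp_two ho.1).1 ho)

/-! ### the tail of the slice section -/

/-- the section outside the box -/
noncomputable def vcut (ε R : ℝ) (v : Cfg dz → Cfg ds → Wsp dm → F) (η : Cfg dz) (s : Cfg ds) (w : Wsp dm) : F :=
  {q : Cfg ds × Wsp dm | ‖q.1‖ < ε * R ∧ ‖q.2‖ < ε * R * Real.sqrt R}ᶜ.indicator (fun q => v η q.1 q.2) (s, w)

lemma meas_cutset (ε R : ℝ) :
    MeasurableSet {q : Cfg ds × Wsp dm | ‖q.1‖ < ε * R ∧ ‖q.2‖ < ε * R * Real.sqrt R} := by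
  have e1 : IsOpen {p : Cfg ds × Wsp dm | ‖p.1‖ < ε * R} :=
    isOpen_lt continuous_fst.norm continuous_const
  have e2 : IsOpen {p : Cfg ds × Wsp dm | ‖p.2‖ < ε * R * Real.sqrt R} :=
    isOpen_lt continuous_snd.norm continuous_const
  exact (e1.inter e2).measurableSet

lemma sm_vcut (ε R : ℝ) (v : Cfg dz → Cfg ds → Wsp dm → F)
    (hv : StronglyMeasurable fun q : Cfg dz × Cfg ds × Wsp dm => v q.1 q.2.1 q.2.2) :
    StronglyMeasurable fun q : Cfg dz × Cfg ds × Wsp dm => vcut ε R v q.1 q.2.1 q.2.2 := by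
  have hm : MeasurableSet (Prod.snd ⁻¹'
      {q : Cfg ds × Wsp dm | ‖q.1‖ < ε * R ∧ ‖q.2‖ < ε * R * Real.sqrt R}ᶜ : Set (Cfg dz × Cfg ds × Wsp dm)) :=
    (meas_cutset ε R).compl.preimage measurable_snd
  exact hv.indicator hm

lemma Ts0_vcut (ψ : Spl ds dz dh) {ε R : ℝ} (hR : 0 < R) (v : Cfg dz → Cfg ds → Wsp dm → F) (p : Cfg dh × Wsp dm) :
    Ts0 (swp ψ) (vcut ε R v) R p.1 p.2 = (Eb ψ dm ε R)ᶜ.indicator (fun p => Ts0 (swp ψ) v R p.1 p.2) p := by
  have hs0 : 0 < Real.sqrt R := Real.sqrt_pos.2 hR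
  have hiff : ‖Real.sqrt R • p.2‖ < ε * R * Real.sqrt R ↔ ‖p.2‖ < ε * R := by
    rw [norm_smul, Real.norm_of_nonneg hs0.le, mul_comm (Real.sqrt R)]
    exact mul_lt_mul_iff_left₀ hs0
  by_cases hp : p ∈ Eb ψ dm ε R
  · rw [Set.indicator_of_notMem (by exact fun h => h hp)]
    have h1 : vcut ε R v (R⁻¹ • hz (swp ψ) p.1) (hs (swp ψ) p.1) (Real.sqrt R • p.2) = 0 := by
      unfold vcut
      rw [Set.indicator_of_notMem]
      exact fun h => h ⟨hp.1, hiff.2 hp.2⟩
    unfold Ts0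
    rw [h1, smul_zero]
  · rw [Set.indicator_of_mem (by exact hp)]
    have h1 : vcut ε R v (R⁻¹ • hz (swp ψ) p.1) (hs (swp ψ) p.1) (Real.sqrt R • p.2) =
        v (R⁻¹ • hz (swp ψ) p.1) (hs (swp ψ) p.1) (Real.sqrt R • p.2) := by
      unfold vcut
      rw [Set.indicator_of_mem]
      exact fun h => hp ⟨h.1, hiff.1 h.2⟩
    unfold Ts0
    rw [h1]

lemma tail_eq {S : Setup d F} [FiniteDimensional ℂ F] (hM : MeaStmt S) {φ : Spl dh dm d} (hsub : S.IsSub φ) (ψ : Spl ds dz dh)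
    {ε R : ℝ} (hR : 0 < R) (v : Cfg dz → Cfg ds → Wsp dm → F)
    (hv : StronglyMeasurable fun q : Cfg dz × Cfg ds × Wsp dm => v q.1 q.2.1 q.2.2) :
    ∫⁻ p in (Eb ψ dm ε R)ᶜ, ‖Ts0 (swp ψ) v R p.1 p.2‖ₑ ^ 2 ∂(volume.prod volume) =
      ∫⁻ q : Cfg dz × Cfg ds × Wsp dm, ‖vcut ε R v q.1 q.2.1 q.2.2‖ₑ ^ 2 ∂(volume.prod (volume.prod volume)) := by
  obtain ⟨-, -, h⟩ := hM inferInstance dh dm dz ds φ (swp ψ) hsub
  obtain ⟨-, h1⟩ := h R (vcut ε R v) hR (sm_vcut ε R v hv)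
  rw [← h1, ← lintegral_indicator (meas_Eb ψ ε R).compl]
  refine lintegral_congr fun p => ?_
  rw [Ts0_vcut ψ hR]
  by_cases hp : p ∈ (Eb ψ dm ε R)ᶜ
  · rw [Set.indicator_of_mem hp, Set.indicator_of_mem hp]
  · rw [Set.indicator_of_notMem hp, Set.indicator_of_notMem hp]
    simp

lemma tail_tendsto {S : Setup d F} [FiniteDimensional ℂ F] (hM : MeaStmt S) {φ : Spl dh dm d} (hsub : S.IsSub φ)
    (ψ : Spl ds dz dh) {ε : ℝ} (hε : 0 < ε) (R : ℕ → ℝ) (hR : ∀ n, 0 < R n) (hlim : Tendsto R atTop atTop)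
    (v : Cfg dz → Cfg ds → Wsp dm → F)
    (hv : StronglyMeasurable fun q : Cfg dz × Cfg ds × Wsp dm => v q.1 q.2.1 q.2.2)
    (hfin : ∫⁻ q : Cfg dz × Cfg ds × Wsp dm, ‖v q.1 q.2.1 q.2.2‖ₑ ^ 2 ∂(volume.prod (volume.prod volume)) ≠ ⊤) :
    Tendsto (fun n => ∫⁻ p in (Eb ψ dm ε (R n))ᶜ, ‖Ts0 (swp ψ) v (R n) p.1 p.2‖ₑ ^ 2 ∂(volume.prod volume))
      atTop (𝓝 0) := by
  have h1 : ∀ n, ∫⁻ p in (Eb ψ dm ε (R n))ᶜ, ‖Ts0 (swp ψ) v (R n) p.1 p.2‖ₑ ^ 2 ∂(volume.prod volume) =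
      ∫⁻ q : Cfg dz × Cfg ds × Wsp dm, ‖vcut ε (R n) v q.1 q.2.1 q.2.2‖ₑ ^ 2 ∂(volume.prod (volume.prod volume)) :=
    fun n => tail_eq hM hsub ψ (hR n) v hv
  simp only [h1]
  have h0 : ∫⁻ q : Cfg dz × Cfg ds × Wsp dm, (0 : ℝ≥0∞) ∂(volume.prod (volume.prod volume)) = 0 := lintegral_zero
  rw [← h0]
  refine tendsto_lintegral_of_dominated_convergence
    (fun q : Cfg dz × Cfg ds × Wsp dm => ‖v q.1 q.2.1 q.2.2‖ₑ ^ 2)
    (fun n => (sm_vcut ε (R n) v hv).enorm.pow_const 2) (fun n => Eventually.of_forall fun q => ?_) hfin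
    (Eventually.of_forall fun q => ?_)
  · refine pow_le_pow_left' ?_ 2
    exact enorm_indicator_le_enorm_self (fun q' : Cfg ds × Wsp dm => v q.1 q'.1 q'.2) q.2
  · have h2 : ∀ᶠ n in atTop, vcut ε (R n) v q.1 q.2.1 q.2.2 = 0 := by
      have h3 : ∀ᶠ n in atTop, max 1 ((‖q.2.1‖ + ‖q.2.2‖ + 1) / ε) ≤ R n := hlim.eventually_ge_atTop _
      filter_upwards [h3] with n hn
      have hn1 : 1 ≤ R n := (le_max_left _ _).trans hn
      have hn2 : (‖q.2.1‖ + ‖q.2.2‖ + 1) / ε ≤ R n := (le_max_right _ _).trans hn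
      rw [div_le_iff₀ hε] at hn2
      have hs1 : 1 ≤ Real.sqrt (R n) := Real.one_le_sqrt.2 hn1
      unfold vcut
      rw [Set.indicator_of_notMem]
      intro h
      apply h
      have p1 := norm_nonneg q.2.1
      have p2 := norm_nonneg q.2.2
      have p3 : 0 < ε * R n := mul_pos hε (hR n)
      refine ⟨?_, ?_⟩
      · show ‖q.2.1‖ < ε * R n
        nlinarith
      · show ‖q.2.2‖ < ε * R n * Real.sqrt (R n)
        nlinarith
    refine tendsto_nhds_of_eventually_eq ?_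
    filter_upwards [h2] with n hn
    rw [hn]
    simp

end Vale.Agent.P353.Z.AN.SfuA
end

section

/-! # P353, all `N`, block GL: GL12, bounded sequences and a strongly measurable `o` -/

open MeasureTheory Filter Topology Matrix
open scoped ContDiff ENNReal

namespace Vale.Agent.P353.Z.AN.SfuA

variable {d dh dm ds dz : ℕ} {F : Type*} [NormedAddCommGroup F] [InnerProductSpace ℂ F]

/-- difference of the two regions -/
lemma region [FiniteDimensional ℂ F] {S : Setup d F} (hM : MeaStmt S) (hCmb : AD.CmbStmt) {φ : Spl dh dm d}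
    (hsub : S.IsSub φ) (ψ : Spl ds dz dh) {z₀ : Cfg dz} {ε εG ρ cN C : ℝ} (hε : 0 < ε) (hεG : 2 * ε ≤ εG)
    (hcN : 0 < cN) (χ : Cfg dz → ℝ) (hχ : ∀ η, χ η ≠ 0 → ‖η - z₀‖ < ε) (o : Cfg ds → F)
    (hv : StronglyMeasurable fun q : Cfg dz × Cfg ds × Wsp dm => vv S φ ψ χ o q.1 q.2.1 q.2.2)
    (hfin : ∫⁻ q : Cfg dz × Cfg ds × Wsp dm, ‖vv S φ ψ χ o q.1 q.2.1 q.2.2‖ₑ ^ 2
      ∂(volume.prod (volume.prod volume)) ≠ ⊤)
    (R : ℕ → ℝ) (hR : ∀ n, 0 < R n) (hlim : Tendsto R atTop atTop) (u : ℕ → Cfg d → F) (hu : ∀ n, Setup.Tst (u n))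
    (hC : ∀ n, ∫ x, ‖u n x‖ ^ 2 ≤ C)
    (hN : ∀ n, ∫ x in Tube S φ (cmb (swp ψ) z₀ 0) (R n) εG ρ, ‖u n x‖ ^ 2 =
      cN * ∫ p in Nb (cmb (swp ψ) z₀ 0) dm (R n) εG, ‖S.res φ (u n) p.1 p.2‖ ^ 2 ∂(volume.prod volume)) :
    Tendsto (fun n => (∫ p in Eb ψ dm ε (R n), (inner ℂ (Ts0 (swp ψ) (vv S φ ψ χ o) (R n) p.1 p.2)
        (S.res φ (u n) p.1 p.2) : ℂ) ∂(volume.prod volume)) -
      ∫ p in Nb (cmb (swp ψ) z₀ 0) dm (R n) εG, inner ℂ (Ts0 (swp ψ) (vv S φ ψ χ o) (R n) p.1 p.2)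
        (S.res φ (u n) p.1 p.2) ∂(volume.prod volume)) atTop (𝓝 0) := by
  have hmem : ∀ n, MemLp (fun p : Cfg dh × Wsp dm => Ts0 (swp ψ) (vv S φ ψ χ o) (R n) p.1 p.2) 2
      (volume.prod volume) := by
    intro n
    obtain ⟨-, -, h⟩ := hM inferInstance dh dm dz ds φ (swp ψ) hsub
    obtain ⟨h1, h2⟩ := h (R n) (vv S φ ψ χ o) (hR n) hv
    refine (memLp_two h1.aestronglyMeasurable).2 ?_
    rw [h2]
    exact hfin.lt_top
  have ht := tail_tendsto hM hsub ψ hε R hR hlim (vv S φ ψ χ o) hv hfin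
  have hK : ∀ n, ∫⁻ p in Nb (cmb (swp ψ) z₀ 0) dm (R n) εG, ‖S.res φ (u n) p.1 p.2‖ₑ ^ 2 ∂(volume.prod volume) ≤
      ENNReal.ofReal (C / cN) := fun n => lint_res (hu n) hcN (hN n) (hC n)
  have hb : ∀ n, ‖(∫ p in Eb ψ dm ε (R n), (inner ℂ (Ts0 (swp ψ) (vv S φ ψ χ o) (R n) p.1 p.2)
        (S.res φ (u n) p.1 p.2) : ℂ) ∂(volume.prod volume)) -
      ∫ p in Nb (cmb (swp ψ) z₀ 0) dm (R n) εG, inner ℂ (Ts0 (swp ψ) (vv S φ ψ χ o) (R n) p.1 p.2)
        (S.res φ (u n) p.1 p.2) ∂(volume.prod volume)‖ₑ ≤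
      (∫⁻ p in (Eb ψ dm ε (R n))ᶜ, ‖Ts0 (swp ψ) (vv S φ ψ χ o) (R n) p.1 p.2‖ₑ ^ 2
        ∂(volume.prod volume)) ^ (1 / 2 : ℝ) * ENNReal.ofReal (C / cN) ^ (1 / 2 : ℝ) := by
    intro n
    refine (diff_le (hmem n) (memLp_res S φ (hu n)) (meas_Eb ψ ε (R n)) (meas_Nb _ (R n) εG)
      (fun p hp h0 => supp_Nb S φ ψ hCmb (hR n) hε hεG χ hχ o p hp h0)).trans ?_
    exact mul_le_mul_right (ENNReal.rpow_le_rpow (hK n) (by norm_num)) _
  have hl : Tendsto (fun n => (∫⁻ p in (Eb ψ dm ε (R n))ᶜ, ‖Ts0 (swp ψ) (vv S φ ψ χ o) (R n) p.1 p.2‖ₑ ^ 2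
        ∂(volume.prod volume)) ^ (1 / 2 : ℝ) * ENNReal.ofReal (C / cN) ^ (1 / 2 : ℝ)) atTop (𝓝 0) := by
    have h1 : Tendsto (fun n => (∫⁻ p in (Eb ψ dm ε (R n))ᶜ, ‖Ts0 (swp ψ) (vv S φ ψ χ o) (R n) p.1 p.2‖ₑ ^ 2
        ∂(volume.prod volume)) ^ (1 / 2 : ℝ)) atTop (𝓝 ((0 : ℝ≥0∞) ^ (1 / 2 : ℝ))) :=
      (ENNReal.continuous_rpow_const.tendsto _).comp ht
    rw [ENNReal.zero_rpow_of_pos (by norm_num)] at h1
    have h2 := ENNReal.Tendsto.mul_const (b := ENNReal.ofReal (C / cN) ^ (1 / 2 : ℝ)) h1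
      (Or.inr (ENNReal.rpow_ne_top_of_nonneg (by norm_num) ENNReal.ofReal_ne_top))
    rwa [zero_mul] at h2
  rw [tendsto_zero_iff_norm_tendsto_zero]
  have h3 := tendsto_of_tendsto_of_tendsto_of_le_of_le tendsto_const_nhds hl (fun n => zero_le) hb
  have h4 := (ENNReal.tendsto_toReal ENNReal.zero_ne_top).comp h3
  simpa only [Function.comp_def, toReal_enorm, ENNReal.toReal_zero] using h4

/-- **GL12** for bounded sequences and strongly measurable `o` -/
theorem sfu_bdd [FiniteDimensional ℂ F] (S : Setup d F) (hGlu : GluStmt S) (hPc : PcStmt S) (hN : NormStmt S)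
    (hM : MeaStmt S) (hGau : GauStmt) (hCmb : AD.CmbStmt) (φ : Spl dh dm d) (ψ : Spl ds dz dh) (z₀ : Cfg dz)
    (h2 : AD.Std2 S φ ψ z₀) : ∃ ε₀ : ℝ, 0 < ε₀ ∧ ∀ ε : ℝ, 0 < ε → ε ≤ ε₀ → ∀ c : ℝ → ℝ, Ctf c →
    ∀ (χ : Cfg dz → ℝ) (o : Cfg ds → F), ContDiff ℝ ∞ χ → tsupport χ ⊆ Metric.ball z₀ ε → StronglyMeasurable o →
    MemLp o 2 (volume : Measure (Cfg ds)) → ∀ (R : ℕ → ℝ) (u : ℕ → Cfg d → F) (C : ℝ), Tendsto R atTop atTop →
    (∀ n, 0 < R n) → (∀ n, AD.GInv S (u n)) → (∀ n, ∫ x, ‖u n x‖ ^ 2 ≤ C) →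
    Tendsto (fun n => AD.sfun S φ ψ ε (R n) χ o (u n) - ∫ x, inner ℂ (Zgl S φ ψ c ε (R n) χ o x) (u n x))
      atTop (𝓝 0) := by
  have hstd : Std S φ (cmb (swp ψ) z₀ 0) := by
    rw [cmb_swp]
    exact h2.std
  have hIsZ : IsZ S φ (swp ψ) := fun a B C => h2.cen a B C
  obtain ⟨εG0, hεG0, hG⟩ := hGlu inferInstance dh dm dz ds φ (swp ψ) z₀ hIsZ hstd
  obtain ⟨εN, ρN, hεN, hρN, hNn⟩ := hN dh dm φ (cmb (swp ψ) z₀ 0) hstd
  obtain ⟨δP, hδP, hP1, hP2, hP3, hP4⟩ := hPc inferInstance dh dm ds dz φ ψ z₀ h2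
  obtain ⟨εG, hεGdef⟩ : ∃ εG, εG = min εG0 εN := ⟨_, rfl⟩
  have hεG : 0 < εG := by rw [hεGdef]; exact lt_min hεG0 hεN
  obtain ⟨cN, δN, hcN, -, hNR⟩ := hNn εG ρN hεG (by rw [hεGdef]; exact min_le_right _ _) hρN le_rfl
  obtain ⟨δ₀, hδ₀, hG1⟩ := hG εG hεG (by rw [hεGdef]; exact min_le_left _ _)
  obtain ⟨δ, hδdef⟩ : ∃ δ, δ = min δ₀ (δP / 2) := ⟨_, rfl⟩
  have hδ : 0 < δ := by rw [hδdef]; exact lt_min hδ₀ (by linarith)
  have hδ1 : δ ≤ δ₀ := by rw [hδdef]; exact min_le_left _ _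
  have hδ2 : 2 * δ ≤ δP := by
    have : δ ≤ δP / 2 := by rw [hδdef]; exact min_le_right _ _
    linarith
  refine ⟨min δ (εG / 2), lt_min hδ (by linarith), ?_⟩
  intro ε hε hεle c hc χ o hχ hsupp ho1 ho R u C hlim hR hu hC
  have hε1 : ε ≤ δ := hεle.trans (min_le_left _ _)
  have hε2 : 2 * ε ≤ εG := by
    have := hεle.trans (min_le_right _ _)
    linarith
  have hχε : ∀ η, χ η ≠ 0 → ‖η - z₀‖ < ε := by
    intro η hη
    have := hsupp (subset_tsupport _ hη)
    rwa [Metric.mem_ball, dist_eq_norm] at this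
  have hχδ : ∀ η, χ η ≠ 0 → ‖η - z₀‖ ≤ δ := fun η hη => (hχε η hη).le.trans hε1
  have hχP : ∀ η, χ η ≠ 0 → ‖η - z₀‖ ≤ δP := fun η hη => (hχδ η hη).trans (by linarith)
  have hcs : HasCompactSupport χ := by
    refine HasCompactSupport.of_support_subset_isCompact (isCompact_closedBall z₀ ε) fun η hη => ?_
    rw [Metric.mem_closedBall, dist_eq_norm]
    exact (hχε η hη).le
  have ha := sm_aP S φ ψ z₀ δP hP3 χ hχ.continuous hχP o ho1
  have hv := sm_vv S φ ψ z₀ δP hP2 χ hχP o ha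
  have haL : ∫⁻ q : Cfg dz × Cfg ds, ‖aP S φ ψ χ o q.1 q.2‖ₑ ^ 2 ∂(volume.prod volume) < ⊤ :=
    lint_aP S φ ψ χ hχ.continuous hcs o ho
  have hvL : ∫⁻ q : Cfg dz × Cfg ds × Wsp dm, ‖vv S φ ψ χ o q.1 q.2.1 q.2.2‖ₑ ^ 2
      ∂(volume.prod (volume.prod volume)) ≠ ⊤ :=
    ((lint_vv S φ ψ hGau z₀ δP (fun η hη => (hP1 η hη).2) χ hχP o ha hv).trans_lt haL).ne
  have hmem : ∀ n, MemLp (fun p : Cfg dh × Wsp dm => Ts0 (swp ψ) (vv S φ ψ χ o) (R n) p.1 p.2) 2
      (volume.prod volume) := by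
    intro n
    obtain ⟨-, -, h⟩ := hM inferInstance dh dm dz ds φ (swp ψ) hstd.sub
    obtain ⟨h1, h3⟩ := h (R n) (vv S φ ψ χ o) (hR n) hv
    refine (memLp_two h1.aestronglyMeasurable).2 ?_
    rw [h3]
    exact hvL.lt_top
  -- the two limits
  have l1 := hG1 δ hδ hδ1 (fun η => AD.omc S.κ (AD.Dz S φ ψ η))
    (fun η hη => by
      rw [Dz_swp]
      exact (hP1 η (hη.trans hδ2)).2)
    (hP2.mono fun η hη => le_trans hη hδ2) (aP S φ ψ χ o) ha
    ((memLp_two ha.aestronglyMeasurable).2 haL)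
    (fun η s h0 => hχδ η (fun h => h0 (by unfold aP; rw [h]; simp)))
    R (fun n => chn c ε (R n)) u C hlim (fun n => chn_meas hc ε (R n)) (fun n q => chn_bd hc ε (R n) q)
    (fun q => chn_lim hc hε hlim q) (fun n q hq => chn_supp hc hε (hε1.trans hδ1) (hR n) q hq)
    (fun n => (hu n).1) (fun n => (hu n).2) hC
  have l2 := region hM hCmb hstd.sub ψ hε hε2 hcN χ hχε o hv hvL R hR hlim u (fun n => (hu n).1) hC
    (fun n => ((hNR (R n) (hR n)).2 (u n) (hu n).1 (hu n).2).1)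
  have l3 := l2.sub l1
  rw [sub_zero] at l3
  refine l3.congr fun n => ?_
  rw [sfun_eq S φ ψ hCmb (δ := δP) hP4 χ hχP o (hR n) ε (u n) (hu n).1 (hmem n)]
  have e1 : (∫ x, (inner ℂ (Zgl S φ ψ c ε (R n) χ o x) (u n x) : ℂ)) =
      ∫ x, inner ℂ (Zb φ (swp ψ) (fun q => ((chn c ε (R n) q : ℝ) : ℂ) •
        bG S.κ (fun η => AD.omc S.κ (AD.Dz S φ ψ η)) (aP S φ ψ χ o) q) (R n) x) (u n x) := rfl
  rw [e1]
  show _ - (_ - ∫ p in Nb (cmb (swp ψ) z₀ 0) dm (R n) εG, inner ℂ (Ts0 (swp ψ) (vv S φ ψ χ o) (R n) p.1 p.2)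
    (S.res φ (u n) p.1 p.2) ∂(volume.prod volume)) = _
  abel

end Vale.Agent.P353.Z.AN.SfuA
end

section

/-! # P353, all `N`, block GL: the slice functionals are limits of one global functional (GL12) -/

open MeasureTheory Filter Topology Matrix
open scoped ContDiff ENNReal

namespace Vale.Agent.P353.Z.AN

namespace SfuA

variable {d dh dm ds dz : ℕ} {F : Type*} [NormedAddCommGroup F] [InnerProductSpace ℂ F]

/-! ### the radial cutoff -/

/-- radial cutoff: `1` for `r/2 ≤ |x| ≤ 2r`, `0` off `r/4 < |x| < 4r` (as a function of `|x|²`) -/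
noncomputable def fk (c : ℝ → ℝ) (r t : ℝ) : ℝ := c (t / (16 * r ^ 2)) * (1 - c (4 * t / r ^ 2))

lemma cd_fk {c : ℝ → ℝ} (hc : Ctf c) (r : ℝ) : ContDiff ℝ ∞ (fk c r) := by
  have h1 : ContDiff ℝ ∞ fun t : ℝ => c (t / (16 * r ^ 2)) := hc.sm.comp (contDiff_id.div_const _)
  have h2 : ContDiff ℝ ∞ fun t : ℝ => c (4 * t / r ^ 2) :=
    hc.sm.comp ((contDiff_const.mul contDiff_id).div_const _)
  exact h1.mul (contDiff_const.sub h2)

lemma fk_bd {c : ℝ → ℝ} (hc : Ctf c) (r t : ℝ) : 0 ≤ fk c r t ∧ fk c r t ≤ 1 := by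
  obtain ⟨a1, a2⟩ := hc.bd (t / (16 * r ^ 2))
  obtain ⟨b1, b2⟩ := hc.bd (4 * t / r ^ 2)
  exact ⟨mul_nonneg a1 (by linarith), mul_le_one₀ a2 (by linarith) (by linarith)⟩

lemma fk_one {c : ℝ → ℝ} (hc : Ctf c) {r a : ℝ} (hr : 0 < r) (h1 : r / 2 ≤ a) (h2 : a ≤ 2 * r) :
    fk c r (a ^ 2) = 1 := by
  have ha : 0 ≤ a := by linarith
  unfold fk
  rw [hc.one, hc.zero, sub_zero, one_mul]
  · rw [le_div_iff₀ (by positivity)]
    nlinarith
  · rw [div_le_iff₀ (by positivity)]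
    nlinarith

lemma fk_supp {c : ℝ → ℝ} (hc : Ctf c) {r a : ℝ} (hr : 0 < r) (ha : 0 ≤ a) (h : fk c r (a ^ 2) ≠ 0) :
    r / 4 < a ∧ a < 4 * r := by
  refine ⟨?_, ?_⟩
  · by_contra h1
    apply h
    unfold fk
    rw [hc.one (4 * a ^ 2 / r ^ 2), sub_self, mul_zero]
    rw [div_le_iff₀ (by positivity)]
    have := not_lt.1 h1
    nlinarith
  · by_contra h1
    apply h
    unfold fk
    rw [hc.zero (a ^ 2 / (16 * r ^ 2)), zero_mul]
    rw [le_div_iff₀ (by positivity)]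
    have := not_lt.1 h1
    nlinarith

/-- the truncated function -/
noncomputable def ut (c : ℝ → ℝ) (r : ℝ) (u : Cfg d → F) (x : Cfg d) : F :=
  ((rad (fk c r) x : ℝ) : ℂ) • u x

lemma ginv_ut {c : ℝ → ℝ} (hc : Ctf c) (r : ℝ) {S : Setup d F} {u : Cfg d → F} (hu : AD.GInv S u) :
    AD.GInv S (ut c r u) := by
  refine ⟨⟨(Setup.contDiff_ofReal (contDiff_rad (cd_fk hc r))).smul hu.1.1, ?_⟩, fun C x => ?_⟩
  · exact HasCompactSupport.smul_left (f := fun x : Cfg d => ((rad (fk c r) x : ℝ) : ℂ)) hu.1.2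
  · have h := U.InvL.G_rad S (cd_fk hc r) C u x (hu.1.1.differentiable (by simp) x)
    rw [hu.2 C x, smul_zero] at h
    exact h

lemma mass_ut {c : ℝ → ℝ} (hc : Ctf c) {r : ℝ} (hr : 0 < r) {S : Setup d F} {u : Cfg d → F} (hu : AD.GInv S u) :
    ∫ x, ‖ut c r u x‖ ^ 2 ≤ AD.mas u (AD.shl d (r / 4) (4 * r)) := by
  have hms : MeasurableSet (AD.shl d (r / 4) (4 * r)) := by
    have e1 : IsOpen {x : Cfg d | r / 4 < ‖x‖} := isOpen_lt continuous_const continuous_norm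
    have e2 : IsOpen {x : Cfg d | ‖x‖ < 4 * r} := isOpen_lt continuous_norm continuous_const
    exact (e1.inter e2).measurableSet
  have i1 : Integrable (fun x => ‖ut c r u x‖ ^ 2) (volume : Measure (Cfg d)) :=
    ((ginv_ut hc r hu).1.1.continuous.memLp_of_hasCompactSupport (ginv_ut hc r hu).1.2
      (p := 2)).integrable_norm_pow (by norm_num)
  have i2 : Integrable (fun x => ‖u x‖ ^ 2) (volume : Measure (Cfg d)) :=
    (hu.1.1.continuous.memLp_of_hasCompactSupport hu.1.2 (p := 2)).integrable_norm_pow (by norm_num)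
  unfold AD.mas
  rw [← integral_indicator hms]
  refine integral_mono i1 (i2.indicator hms) fun x => ?_
  simp only
  obtain ⟨b1, b2⟩ := fk_bd hc r (‖x‖ ^ 2)
  have e : ‖ut c r u x‖ = fk c r (‖x‖ ^ 2) * ‖u x‖ := by
    unfold ut rad
    rw [norm_smul, Complex.norm_real, Real.norm_of_nonneg b1]
  by_cases hx : x ∈ AD.shl d (r / 4) (4 * r)
  · rw [Set.indicator_of_mem hx, e]
    refine pow_le_pow_left₀ (mul_nonneg b1 (norm_nonneg _)) ?_ 2
    exact mul_le_of_le_one_left (norm_nonneg _) b2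
  · have h0 : fk c r (‖x‖ ^ 2) = 0 := by
      by_contra h0
      exact hx (fk_supp hc hr (norm_nonneg x) h0)
    rw [Set.indicator_of_notMem hx, e, h0, zero_mul]
    norm_num

lemma ut_one {c : ℝ → ℝ} (hc : Ctf c) {r : ℝ} (hr : 0 < r) (u : Cfg d → F) {x : Cfg d} (h1 : r / 2 ≤ ‖x‖)
    (h2 : ‖x‖ ≤ 2 * r) : ut c r u x = u x := by
  unfold ut rad
  rw [fk_one hc hr h1 h2, Complex.ofReal_one, one_smul]

lemma rng {r R ε a b e N : ℝ} (hr : 0 < r) (hR : 0 < R) (hε : ε ≤ r / 2) (hN : 0 ≤ N) (hb0 : 0 ≤ b) (he0 : 0 ≤ e)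
    (h1 : r * R - ε * R ≤ a) (h2 : a ≤ r * R + ε * R) (hb : b ≤ ε * R) (he : e ≤ ε * R)
    (h : N ^ 2 = a ^ 2 + b ^ 2 + e ^ 2) : r * R / 2 ≤ N ∧ N ≤ 2 * (r * R) := by
  have hrR : 0 < r * R := mul_pos hr hR
  have k1 : ε * R ≤ r * R / 2 := by nlinarith
  have k2 : r * R / 2 ≤ a := by linarith
  have k3 : a ≤ 3 / 2 * (r * R) := by linarith
  have k4 : b ≤ r * R / 2 := by linarith
  have k5 : e ≤ r * R / 2 := by linarith
  have ha0 : 0 ≤ a := by linarith
  have m1 : (r * R / 2) ^ 2 ≤ a ^ 2 := pow_le_pow_left₀ (by linarith) k2 2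
  have m2 : a ^ 2 ≤ (3 / 2 * (r * R)) ^ 2 := pow_le_pow_left₀ ha0 k3 2
  have m3 : b ^ 2 ≤ (r * R / 2) ^ 2 := pow_le_pow_left₀ hb0 k4 2
  have m4 : e ^ 2 ≤ (r * R / 2) ^ 2 := pow_le_pow_left₀ he0 k5 2
  refine ⟨?_, ?_⟩
  · refine le_of_pow_le_pow_left₀ two_ne_zero hN ?_
    rw [h]
    nlinarith [sq_nonneg b, sq_nonneg e]
  · refine le_of_pow_le_pow_left₀ two_ne_zero (by linarith) ?_
    rw [h]
    nlinarith

lemma near {z₀ z : Cfg dz} {R ε : ℝ} (hR : 0 < R) (h : ‖R⁻¹ • z - z₀‖ < ε) :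
    ‖z₀‖ * R - ε * R ≤ ‖z‖ ∧ ‖z‖ ≤ ‖z₀‖ * R + ε * R := by
  have e : z - R • z₀ = R • (R⁻¹ • z - z₀) := by
    rw [smul_sub, smul_smul, mul_inv_cancel₀ hR.ne', one_smul]
  have h1 : ‖z - R • z₀‖ ≤ ε * R := by
    rw [e, norm_smul, Real.norm_of_nonneg hR.le, mul_comm]
    exact mul_le_mul_of_nonneg_right h.le hR.le
  have h2 : ‖R • z₀‖ = ‖z₀‖ * R := by rw [norm_smul, Real.norm_of_nonneg hR.le, mul_comm]
  have h3 := norm_sub_norm_le z (R • z₀)
  have h4 := norm_sub_norm_le (R • z₀) z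
  rw [norm_sub_rev] at h4
  constructor <;> linarith

/-- the truncation does not change the global pairing -/
lemma Zgl_ut [FiniteDimensional ℂ F] (S : Setup d F) (φ : Spl dh dm d) (ψ : Spl ds dz dh) {z₀ : Cfg dz} (hzp : 0 < ‖z₀‖)
    {c : ℝ → ℝ} (hc : Ctf c) {ε R : ℝ} (hε : 0 < ε) (hεz : ε ≤ ‖z₀‖ / 2) (hR : 0 < R) (χ : Cfg dz → ℝ)
    (hχ : ∀ η, χ η ≠ 0 → ‖η - z₀‖ < ε) (o : Cfg ds → F) (u : Cfg d → F) :
    (∫ x, (inner ℂ (Zgl S φ ψ c ε R χ o x) (ut c (‖z₀‖ * R) u x) : ℂ)) =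
      ∫ x, inner ℂ (Zgl S φ ψ c ε R χ o x) (u x) := by
  refine integral_congr_ae (Eventually.of_forall fun x => ?_)
  simp only
  by_cases h0 : Zgl S φ ψ c ε R χ o x = 0
  · rw [h0, inner_zero_left, inner_zero_left]
  · have hq : ((chn c ε R (R⁻¹ • hz (swp ψ) (zy φ x), hs (swp ψ) (zy φ x), Real.sqrt R • pm φ x) : ℝ) : ℂ) •
        bG S.κ (fun η => AD.omc S.κ (AD.Dz S φ ψ η)) (aP S φ ψ χ o)
          (R⁻¹ • hz (swp ψ) (zy φ x), hs (swp ψ) (zy φ x), Real.sqrt R • pm φ x) ≠ 0 := by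
      intro h1
      apply h0
      unfold Zgl Zb
      change _ • (((chn c ε R (R⁻¹ • hz (swp ψ) (zy φ x), hs (swp ψ) (zy φ x), Real.sqrt R • pm φ x) : ℝ) : ℂ) •
        bG S.κ (fun η => AD.omc S.κ (AD.Dz S φ ψ η)) (aP S φ ψ χ o)
          (R⁻¹ • hz (swp ψ) (zy φ x), hs (swp ψ) (zy φ x), Real.sqrt R • pm φ x)) = 0
      rw [h1, smul_zero]
    have h1 : chn c ε R (R⁻¹ • hz (swp ψ) (zy φ x), hs (swp ψ) (zy φ x), Real.sqrt R • pm φ x) ≠ 0 := by
      intro h
      apply hq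
      rw [h, Complex.ofReal_zero, zero_smul]
    have h2 : χ (R⁻¹ • hz (swp ψ) (zy φ x)) ≠ 0 := by
      intro h
      apply hq
      unfold bG aP
      rw [h]
      simp
    obtain ⟨h3, h4⟩ := chn_supp hc hε le_rfl hR _ h1
    simp only at h3 h4
    have hs0 : 0 < Real.sqrt R := Real.sqrt_pos.2 hR
    have h5 : ‖pm φ x‖ ≤ ε * R := by
      rw [norm_smul, Real.norm_of_nonneg hs0.le] at h4
      refine le_of_mul_le_mul_left ?_ hs0
      calc Real.sqrt R * ‖pm φ x‖ ≤ ε * (R * Real.sqrt R) := h4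
        _ = _ := by ring
    obtain ⟨h6, h7⟩ := near hR (hχ _ h2)
    obtain ⟨h8, h9⟩ := rng hzp hR hεz (norm_nonneg x) (norm_nonneg _) (norm_nonneg _) h6 h7 h3 h5
      (sup_norm_sq φ (swp ψ) x)
    rw [ut_one hc (mul_pos hzp hR) u h8 h9]

/-- the truncation does not change the slice functional -/
lemma sfun_ut [FiniteDimensional ℂ F] (S : Setup d F) (φ : Spl dh dm d) (ψ : Spl ds dz dh) (hCmb : AD.CmbStmt) {z₀ : Cfg dz}
    (hz : 0 < ‖z₀‖) {c : ℝ → ℝ} (hc : Ctf c) {ε R : ℝ} (hεz : ε ≤ ‖z₀‖ / 2) (hR : 0 < R)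
    (χ : Cfg dz → ℝ) (hχ : ∀ η, χ η ≠ 0 → ‖η - z₀‖ < ε) (o : Cfg ds → F) (u : Cfg d → F) :
    AD.sfun S φ ψ ε R χ o (ut c (‖z₀‖ * R) u) = AD.sfun S φ ψ ε R χ o u := by
  obtain ⟨-, -, -, hn, -⟩ := hCmb ds dz dh ψ
  unfold AD.sfun
  congr 1
  refine integral_congr_ae (Eventually.of_forall fun yz => ?_)
  simp only
  by_cases h2 : χ (R⁻¹ • yz) = 0
  · rw [h2]
    simp
  · congr 1
    refine setIntegral_congr_fun measurableSet_ball fun ys hys => ?_
    refine setIntegral_congr_fun measurableSet_ball fun w hw => ?_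
    rw [mem_ball_zero_iff] at hys hw
    congr 1
    unfold Setup.res
    congr 1
    obtain ⟨h6, h7⟩ := near hR (hχ _ h2)
    have h8 : ‖emb φ (AD.cmb ψ ys yz) w‖ ^ 2 = ‖yz‖ ^ 2 + ‖ys‖ ^ 2 + ‖w‖ ^ 2 := by
      rw [norm_emb_sq, hn]
      ring
    obtain ⟨h9, h10⟩ := rng hz hR hεz (norm_nonneg _) (norm_nonneg _) (norm_nonneg _) h6 h7 hys.le hw.le h8
    exact ut_one hc (mul_pos hz hR) u h9 h10

/-! ### change of `o` on a null set -/

lemma sfun_ae [FiniteDimensional ℂ F] (S : Setup d F) (φ : Spl dh dm d) (ψ : Spl ds dz dh) (ε R : ℝ)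
    (χ : Cfg dz → ℝ) {o o' : Cfg ds → F} (h : o =ᵐ[volume] o') (u : Cfg d → F) :
    AD.sfun S φ ψ ε R χ o u = AD.sfun S φ ψ ε R χ o' u := by
  unfold AD.sfun
  congr 1
  refine integral_congr_ae (Eventually.of_forall fun yz => ?_)
  simp only
  congr 1
  refine integral_congr_ae (ae_restrict_of_ae ?_)
  filter_upwards [h] with ys hys
  rw [hys]

lemma qmp_zy (φ : Spl dh dm d) : Measure.QuasiMeasurePreserving (zy φ : Cfg d → Cfg dh) volume volume := by
  obtain ⟨e, he, hmp⟩ := coo_stmt d dh dm φ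
  have h1 : (zy φ : Cfg d → Cfg dh) = fun z => (e z).2.1 := by
    funext z
    rw [he]
  rw [h1]
  exact (Measure.quasiMeasurePreserving_fst.comp Measure.quasiMeasurePreserving_snd).comp hmp.quasiMeasurePreserving

lemma qmp_hs (ψ : Spl ds dz dh) : Measure.QuasiMeasurePreserving (hs (swp ψ) : Cfg dh → Cfg ds) volume volume :=
  Measure.quasiMeasurePreserving_snd.comp (mea824_hzs (swp ψ)).quasiMeasurePreserving

lemma Zgl_ae [FiniteDimensional ℂ F] (S : Setup d F) (φ : Spl dh dm d) (ψ : Spl ds dz dh) (c : ℝ → ℝ) (ε R : ℝ)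
    (χ : Cfg dz → ℝ) {o o' : Cfg ds → F} (h : o =ᵐ[volume] o') (u : Cfg d → F) :
    (∫ x, (inner ℂ (Zgl S φ ψ c ε R χ o x) (u x) : ℂ)) = ∫ x, inner ℂ (Zgl S φ ψ c ε R χ o' x) (u x) := by
  refine integral_congr_ae ?_
  have h1 := ((qmp_hs ψ).comp (qmp_zy φ)).ae_eq_comp h
  filter_upwards [h1] with x hx
  have hx' : o (hs (swp ψ) (zy φ x)) = o' (hs (swp ψ) (zy φ x)) := hx
  congr 1
  unfold Zgl Zb bG aP
  simp only
  rw [hx']

end SfuA

variable {d : ℕ} {F : Type*} [NormedAddCommGroup F] [InnerProductSpace ℂ F]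

/-- **GL12** -/
theorem sfu_stmt (S : Setup d F) (hGlu : GluStmt S) (hPc : PcStmt S) (hN : NormStmt S) (hM : MeaStmt S)
    (hGau : GauStmt) (hCmb : AD.CmbStmt) : SfuStmt S := by
  intro hF dh dm ds dz φ ψ z₀ hz0 h2
  obtain ⟨ε₁, hε₁, H⟩ := SfuA.sfu_bdd S hGlu hPc hN hM hGau hCmb φ ψ z₀ h2
  have hz : 0 < ‖z₀‖ := norm_pos_iff.2 hz0
  refine ⟨min ε₁ (‖z₀‖ / 2), lt_min hε₁ (by linarith), ?_⟩
  intro ε hε hεle c hc χ o hχ hsupp ho R u hlim hu hb
  have hεz : ε ≤ ‖z₀‖ / 2 := hεle.trans (min_le_right _ _)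
  have hχε : ∀ η, χ η ≠ 0 → ‖η - z₀‖ < ε := by
    intro η hη
    have := hsupp (subset_tsupport _ hη)
    rwa [Metric.mem_ball, dist_eq_norm] at this
  obtain ⟨C, hC⟩ := hb (‖z₀‖ / 4) (4 * ‖z₀‖) (by linarith) (by linarith)
  obtain ⟨N, hNp⟩ := Filter.eventually_atTop.1 (hlim.eventually_gt_atTop 0)
  rw [← tendsto_add_atTop_iff_nat N]
  have hRp : ∀ n, 0 < R (n + N) := fun n => hNp _ (Nat.le_add_left _ _)
  have hlim' : Tendsto (fun n => R (n + N)) atTop atTop := (tendsto_add_atTop_iff_nat N).2 hlim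
  have hmk := ho.1.ae_eq_mk
  have key := H ε hε (hεle.trans (min_le_left _ _)) c hc χ (ho.1.mk o) hχ hsupp ho.1.stronglyMeasurable_mk
    (ho.ae_eq hmk) (fun n => R (n + N)) (fun n => SfuA.ut c (‖z₀‖ * R (n + N)) (u (n + N))) C hlim' hRp
    (fun n => SfuA.ginv_ut hc _ (hu _)) (fun n => by
      refine (SfuA.mass_ut hc (mul_pos hz (hRp n)) (hu (n + N))).trans ?_
      have h3 := hC (n + N)
      have e1 : ‖z₀‖ * R (n + N) / 4 = ‖z₀‖ / 4 * R (n + N) := by ring
      have e2 : 4 * (‖z₀‖ * R (n + N)) = 4 * ‖z₀‖ * R (n + N) := by ring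
      rw [e1, e2]
      exact h3)
  refine key.congr fun n => ?_
  rw [SfuA.sfun_ut S φ ψ hCmb hz hc hεz (hRp n) χ hχε, SfuA.Zgl_ut S φ ψ hz hc hε hεz (hRp n) χ hχε,
    SfuA.sfun_ae S φ ψ ε (R (n + N)) χ hmk.symm, SfuA.Zgl_ae S φ ψ c ε (R (n + N)) χ hmk.symm]

end Vale.Agent.P353.Z.AN
end

section

/-! # P353, all `N`, block L: representation of locally bounded antilinear functionals (`RieszStmt`) -/

open MeasureTheory Filter Topology
open scoped ContDiff InnerProductSpace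

namespace Vale.Agent.P353.Z.AL

namespace Rsz518

variable {r n : ℕ}

lemma nsq_Lp (g : Lp (Ek n) 2 (volume : Measure (Cfg r))) : ∫ x, ‖g x‖ ^ 2 = ‖g‖ ^ 2 := by
  have h1 : (inner ℂ g g : ℂ) = ∫ x, inner ℂ (g x) (g x) := L2.inner_def g g
  rw [inner_self_eq_norm_sq_to_K] at h1
  have h2 : ∀ x, (inner ℂ (g x) (g x) : ℂ) = ((‖g x‖ ^ 2 : ℝ) : ℂ) := by
    intro x
    rw [inner_self_eq_norm_sq_to_K]
    norm_cast
  simp only [h2] at h1
  rw [integral_complex_ofReal] at h1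
  have h3 : ((‖g‖ ^ 2 : ℝ) : ℂ) = ((∫ x, ‖g x‖ ^ 2 : ℝ) : ℂ) := by
    rw [← h1]
    norm_cast
  exact (Complex.ofReal_injective h3).symm

lemma LC_add {Ω : Set (Cfg r)} {b b' : Cfg r → Ek n} (h : LC Ω b) (h' : LC Ω b') : LC Ω fun x => b x + b' x := by
  obtain ⟨h1, A, h2, h3, h4⟩ := h
  obtain ⟨h1', A', h2', h3', h4'⟩ := h'
  refine ⟨h1.add h1', A ∪ A', h2.union h2', Set.union_subset h3 h3', fun x hx => ?_⟩
  rw [Set.mem_union, not_or] at hx
  simp only [h4 x hx.1, h4' x hx.2, add_zero]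

lemma LC_smul {Ω : Set (Cfg r)} {b : Cfg r → Ek n} (c : ℂ) (h : LC Ω b) : LC Ω fun x => c • b x := by
  obtain ⟨h1, A, h2, h3, h4⟩ := h
  exact ⟨h1.const_smul c, A, h2, h3, fun x hx => by simp only [h4 x hx, smul_zero]⟩

lemma LC_sub {Ω : Set (Cfg r)} {b b' : Cfg r → Ek n} (h : LC Ω b) (h' : LC Ω b') : LC Ω fun x => b x - b' x := by
  have h1 := LC_add h (LC_smul (-1) h')
  have h2 : (fun x => b x + (-1 : ℂ) • b' x) = fun x => b x - b' x := by
    funext x
    rw [neg_one_smul, sub_eq_add_neg]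
  rwa [h2] at h1

lemma LC_ind {Ω P K : Set (Cfg r)} {b : Cfg r → Ek n} (hb : MemLp b 2 (volume : Measure (Cfg r))) (hP : MeasurableSet P)
    (hPK : P ⊆ K) (hK : IsCompact K) (hKΩ : K ⊆ Ω) : LC Ω (P.indicator b) :=
  ⟨hb.indicator hP, K, hK, hKΩ, fun x hx => Set.indicator_of_notMem (fun h => hx (hPK h)) _⟩

section loc

variable {Ω : Set (Cfg r)} {ℓ : (Cfg r → Ek n) → ℂ}
  (hadd : ∀ b b', LC Ω b → LC Ω b' → ℓ (fun x => b x + b' x) = ℓ b + ℓ b')
  (hsmul : ∀ (c : ℂ) b, LC Ω b → ℓ (fun x => c • b x) = (starRingEnd ℂ) c * ℓ b)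

include hadd in
lemma ae_eq {B : Set (Cfg r)} {C : ℝ} (hC : ∀ b, LC Ω b → (∀ x, x ∉ B → b x = 0) → ‖ℓ b‖ ≤ C * Real.sqrt (∫ x, ‖b x‖ ^ 2))
    {b b' : Cfg r → Ek n} (hb : LC Ω b) (hb' : LC Ω b') (h0 : ∀ x, x ∉ B → b x = 0) (h0' : ∀ x, x ∉ B → b' x = 0)
    (h : b =ᵐ[volume] b') : ℓ b = ℓ b' := by
  have h1 := LC_sub hb' hb
  have h2 := hC _ h1 (fun x hx => by rw [h0 x hx, h0' x hx, sub_zero])
  have h3 : ∫ x, ‖b' x - b x‖ ^ 2 = 0 := by
    rw [integral_eq_zero_of_ae]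
    filter_upwards [h] with x hx
    rw [hx, sub_self]
    simp
  rw [h3, Real.sqrt_zero, mul_zero] at h2
  have h4 : ℓ (fun x => b' x - b x) = 0 := norm_le_zero_iff.1 h2
  have h5 := hadd b (fun x => b' x - b x) hb h1
  rw [h4, add_zero] at h5
  rw [← h5]
  congr 1
  funext x
  rw [add_sub_cancel]

include hadd hsmul in
lemma local_riesz {P K B : Set (Cfg r)} (hP : MeasurableSet P) (hPK : P ⊆ K) (hPB : P ⊆ B) (hK : IsCompact K) (hKΩ : K ⊆ Ω) {C : ℝ}
    (hC : ∀ b, LC Ω b → (∀ x, x ∉ B → b x = 0) → ‖ℓ b‖ ≤ C * Real.sqrt (∫ x, ‖b x‖ ^ 2)) :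
    ∃ f : Lp (Ek n) 2 (volume : Measure (Cfg r)), ∀ b : Cfg r → Ek n, MemLp b 2 (volume : Measure (Cfg r)) →
      ℓ (P.indicator b) = ∫ x, inner ℂ (P.indicator b x) (f x) := by
  have hz : ∀ (b : Cfg r → Ek n) x, x ∉ B → P.indicator b x = 0 := fun b x hx =>
    Set.indicator_of_notMem (fun h => hx (hPB h)) _
  have hL : ∀ b : Cfg r → Ek n, MemLp b 2 (volume : Measure (Cfg r)) → LC Ω (P.indicator b) := fun b hb =>
    LC_ind hb hP hPK hK hKΩ
  have hae : ∀ b b' : Cfg r → Ek n, LC Ω b → LC Ω b' → (∀ x, x ∉ B → b x = 0) → (∀ x, x ∉ B → b' x = 0) →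
      b =ᵐ[volume] b' → ℓ b = ℓ b' := fun b b' h1 h2 h3 h4 h5 => ae_eq hadd hC h1 h2 h3 h4 h5
  let Φ : Lp (Ek n) 2 (volume : Measure (Cfg r)) →ₗ[ℂ] ℂ :=
    { toFun := fun g => (starRingEnd ℂ) (ℓ (P.indicator g))
      map_add' := by
        intro g g'
        rw [← map_add]
        congr 1
        rw [← hadd _ _ (hL _ (Lp.memLp g)) (hL _ (Lp.memLp g'))]
        refine hae _ _ (hL _ (Lp.memLp _)) (LC_add (hL _ (Lp.memLp g)) (hL _ (Lp.memLp g'))) (hz _)
          (fun x hx => by rw [hz _ x hx, hz _ x hx, add_zero]) ?_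
        filter_upwards [Lp.coeFn_add g g'] with x hx
        by_cases hxP : x ∈ P
        · simp only [Set.indicator_of_mem hxP, hx, Pi.add_apply]
        · simp only [Set.indicator_of_notMem hxP, add_zero]
      map_smul' := by
        intro c g
        have h1 : ℓ (P.indicator ⇑(c • g)) = (starRingEnd ℂ) c * ℓ (P.indicator g) := by
          rw [← hsmul c _ (hL _ (Lp.memLp g))]
          refine hae _ _ (hL _ (Lp.memLp _)) (LC_smul c (hL _ (Lp.memLp g))) (hz _)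
            (fun x hx => by rw [hz _ x hx, smul_zero]) ?_
          filter_upwards [Lp.coeFn_smul c g] with x hx
          by_cases hxP : x ∈ P
          · simp only [Set.indicator_of_mem hxP, hx, Pi.smul_apply]
          · simp only [Set.indicator_of_notMem hxP, smul_zero]
        rw [h1, map_mul, Complex.conj_conj]
        rfl }
  have hΦ : ∀ g, ‖Φ g‖ ≤ |C| * ‖g‖ := by
    intro g
    change ‖(starRingEnd ℂ) (ℓ (P.indicator g))‖ ≤ _
    rw [RCLike.norm_conj]
    refine (hC _ (hL _ (Lp.memLp g)) (hz _)).trans ?_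
    have h1 : Real.sqrt (∫ x, ‖P.indicator g x‖ ^ 2) ≤ ‖g‖ := by
      refine Real.sqrt_le_iff.2 ⟨norm_nonneg _, ?_⟩
      rw [← nsq_Lp]
      refine integral_mono ?_ ?_ ?_
      · exact ((Lp.memLp g).indicator hP).integrable_norm_pow (by norm_num)
      · exact (Lp.memLp g).integrable_norm_pow (by norm_num)
      · intro x
        simp only
        gcongr
        exact norm_indicator_le_norm_self _ _
    calc C * Real.sqrt (∫ x, ‖P.indicator g x‖ ^ 2) ≤ |C| * Real.sqrt (∫ x, ‖P.indicator g x‖ ^ 2) :=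
          mul_le_mul_of_nonneg_right (le_abs_self C) (Real.sqrt_nonneg _)
      _ ≤ |C| * ‖g‖ := mul_le_mul_of_nonneg_left h1 (abs_nonneg C)
  set f := (InnerProductSpace.toDual ℂ (Lp (Ek n) 2 (volume : Measure (Cfg r)))).symm (Φ.mkContinuous |C| hΦ) with hf
  have hf1 : ∀ g : Lp (Ek n) 2 (volume : Measure (Cfg r)), ℓ (P.indicator g) = inner ℂ g f := by
    intro g
    have h1 : inner ℂ f g = Φ g := by
      rw [hf, InnerProductSpace.toDual_symm_apply]
      rfl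
    rw [← inner_conj_symm, h1]
    exact (Complex.conj_conj _).symm
  refine ⟨f, fun b hb => ?_⟩
  have h1 : MemLp (P.indicator b) 2 (volume : Measure (Cfg r)) := hb.indicator hP
  have h2 := hf1 (h1.toLp _)
  have h3 : ℓ (P.indicator (h1.toLp _)) = ℓ (P.indicator b) := by
    refine hae _ _ (hL _ (Lp.memLp _)) (hL _ hb) (hz _) (hz _) ?_
    filter_upwards [h1.coeFn_toLp] with x hx
    by_cases hxP : x ∈ P
    · simp only [Set.indicator_of_mem hxP, hx]
    · simp only [Set.indicator_of_notMem hxP]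
  rw [← h3, h2, L2.inner_def]
  refine integral_congr_ae ?_
  filter_upwards [h1.coeFn_toLp] with x hx
  rw [hx]

include hadd hsmul in
lemma sum_split (b : ℕ → Cfg r → Ek n) (hb : ∀ k, LC Ω (b k)) (m : ℕ) :
    LC Ω (fun x => ∑ k ∈ Finset.range m, b k x) ∧
      ℓ (fun x => ∑ k ∈ Finset.range m, b k x) = ∑ k ∈ Finset.range m, ℓ (b k) := by
  induction m with
  | zero =>
    have h1 : (fun x => ∑ k ∈ Finset.range 0, b k x) = fun x => (0 : ℂ) • b 0 x := by
      funext x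
      simp
    rw [h1]
    refine ⟨LC_smul 0 (hb 0), ?_⟩
    rw [hsmul 0 _ (hb 0)]
    simp
  | succ m ih =>
    have h1 : (fun x => ∑ k ∈ Finset.range (m + 1), b k x) = fun x => (∑ k ∈ Finset.range m, b k x) + b m x := by
      funext x
      rw [Finset.sum_range_succ]
    rw [h1]
    refine ⟨LC_add ih.1 (hb m), ?_⟩
    rw [hadd _ _ ih.1 (hb m), ih.2, Finset.sum_range_succ]

end loc

lemma int_inner {b b' : Cfg r → Ek n} (h : MemLp b 2 (volume : Measure (Cfg r))) (h' : MemLp b' 2 (volume : Measure (Cfg r))) :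
    Integrable (fun x => (inner ℂ (b x) (b' x) : ℂ)) := by
  refine (L2.integrable_inner (𝕜 := ℂ) (h.toLp b) (h'.toLp b')).congr ?_
  filter_upwards [h.coeFn_toLp, h'.coeFn_toLp] with x h1 h2
  rw [h1, h2]

end Rsz518

open Rsz518 in
/-- **L-Riesz** -/
theorem riesz : RieszStmt := by
  intro r n Ω ℓ hΩ hadd hsmul hloc
  classical
  have hzero : ∀ b, LC Ω b → (∀ x, b x = 0) → ℓ b = 0 := by
    intro b hb h0
    have h1 := hsmul 0 b hb
    rw [map_zero, zero_mul] at h1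
    rw [← h1]
    congr 1
    funext x
    rw [h0 x, smul_zero]
  rcases Ω.eq_empty_or_nonempty with hem | hne
  · subst hem
    refine ⟨fun _ => 0, aestronglyMeasurable_const, ?_, ?_, ?_⟩
    · intro A _ _
      simp
    · intro b hb
      obtain ⟨_, A, _, hA, hb0⟩ := id hb
      have h0 : ∀ x, b x = 0 := fun x => hb0 x fun hx => hA hx
      rw [hzero b hb h0]
      simp
    · intro Ω' C _ _ hC _
      simp only [norm_zero, ne_eq, OfNat.ofNat_ne_zero, not_false_eq_true, zero_pow, integral_zero]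
      exact ⟨integrableOn_zero, by positivity⟩
  -- balls
  have h1 : ∀ η ∈ Ω, ∃ δ C : ℝ, 0 < δ ∧ Metric.closedBall η δ ⊆ Ω ∧ ∀ b, LC Ω b → (∀ x, x ∉ Metric.ball η δ → b x = 0) →
      ‖ℓ b‖ ≤ C * Real.sqrt (∫ x, ‖b x‖ ^ 2) := by
    intro η hη
    obtain ⟨δ, C, hδ, hC⟩ := hloc η hη
    obtain ⟨ε, hε, hεΩ⟩ := Metric.isOpen_iff.1 hΩ η hη
    refine ⟨min δ (ε / 2), C, lt_min hδ (by positivity), ?_, ?_⟩
    · intro x hx
      refine hεΩ ?_
      rw [Metric.mem_closedBall] at hx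
      rw [Metric.mem_ball]
      have := min_le_right δ (ε / 2)
      linarith
    · intro b hb h0
      refine hC b hb fun x hx => h0 x fun hx' => hx ?_
      exact Metric.ball_subset_ball (min_le_left _ _) hx'
  choose! δ C hδ hcb hC using h1
  obtain ⟨T, hTΩ, hTc, hTcov⟩ := TopologicalSpace.countable_cover_nhdsWithin (f := fun η => Metric.ball η (δ η)) (s := Ω)
    (fun η hη => mem_nhdsWithin_of_mem_nhds (Metric.ball_mem_nhds η (hδ η hη)))
  have hTne : T.Nonempty := by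
    obtain ⟨x, hx⟩ := hne
    obtain ⟨η, hη, -⟩ := Set.mem_iUnion₂.1 (hTcov hx)
    exact ⟨η, hη⟩
  obtain ⟨e, he⟩ := hTc.exists_eq_range hTne
  have heΩ : ∀ k, e k ∈ Ω := fun k => hTΩ (he ▸ Set.mem_range_self k)
  set B : ℕ → Set (Cfg r) := fun k => Metric.ball (e k) (δ (e k)) with hB
  have hBcov : ∀ x ∈ Ω, ∃ k, x ∈ B k := by
    intro x hx
    obtain ⟨η, hη, hxη⟩ := Set.mem_iUnion₂.1 (hTcov hx)
    rw [he] at hη
    obtain ⟨k, rfl⟩ := hη
    exact ⟨k, hxη⟩
  have hBΩ : ∀ k, B k ⊆ Ω := fun k => Metric.ball_subset_closedBall.trans (hcb _ (heΩ k))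
  set P : ℕ → Set (Cfg r) := fun k => B k \ ⋃ j ∈ Finset.range k, B j with hP
  have hPm : ∀ k, MeasurableSet (P k) := fun k =>
    Metric.isOpen_ball.measurableSet.diff (Finset.measurableSet_biUnion _ fun j _ => Metric.isOpen_ball.measurableSet)
  have hPB : ∀ k, P k ⊆ B k := fun k => Set.sdiff_subset
  have hPu : ∀ x k l, x ∈ P k → x ∈ P l → k = l := by
    intro x k l hk hl
    rcases lt_trichotomy k l with h | h | h
    · exact absurd (Set.mem_biUnion (Finset.mem_coe.2 (Finset.mem_range.2 h)) hk.1) hl.2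
    · exact h
    · exact absurd (Set.mem_biUnion (Finset.mem_coe.2 (Finset.mem_range.2 h)) hl.1) hk.2
  have hPcov : ∀ x j, x ∈ B j → ∃ k, k ≤ j ∧ x ∈ P k := by
    intro x j hj
    have hex : ∃ k, x ∈ B k := ⟨j, hj⟩
    refine ⟨Nat.find hex, Nat.find_le hj, Nat.find_spec hex, ?_⟩
    intro hx
    obtain ⟨i, hi, hxi⟩ := Set.mem_iUnion₂.1 hx
    exact Nat.find_min hex (Finset.mem_range.1 hi) hxi
  have hR : ∀ k, ∃ f : Lp (Ek n) 2 (volume : Measure (Cfg r)), ∀ b : Cfg r → Ek n, MemLp b 2 (volume : Measure (Cfg r)) →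
      ℓ ((P k).indicator b) = ∫ x, inner ℂ ((P k).indicator b x) (f x) := fun k =>
    local_riesz hadd hsmul (hPm k) ((hPB k).trans Metric.ball_subset_closedBall) (hPB k)
      (isCompact_closedBall (e k) (δ (e k))) (hcb _ (heΩ k)) (hC _ (heΩ k))
  choose G hG using hR
  -- the function
  set f : Cfg r → Ek n := fun x => ∑' k, (P k).indicator (G k) x with hf
  have hsum : ∀ x, HasSum (fun k => (P k).indicator (G k) x) (f x) := by
    intro x
    by_cases hx : ∃ k, x ∈ P k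
    · obtain ⟨k, hk⟩ := hx
      have h2 : HasSum (fun j => (P j).indicator (G j) x) ((P k).indicator (G k) x) :=
        hasSum_single k fun j hj => Set.indicator_of_notMem (fun h => hj (hPu x j k h hk)) _
      exact h2.summable.hasSum
    · push Not at hx
      have h2 : HasSum (fun j => (P j).indicator (G j) x) 0 := by
        convert hasSum_zero using 2 with j
        exact Set.indicator_of_notMem (hx j) _
      exact h2.summable.hasSum
  have hfP : ∀ k x, x ∈ P k → f x = G k x := by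
    intro k x hk
    have h2 : HasSum (fun j => (P j).indicator (G j) x) ((P k).indicator (G k) x) :=
      hasSum_single k fun j hj => Set.indicator_of_notMem (fun h => hj (hPu x j k h hk)) _
    rw [(hsum x).unique h2, Set.indicator_of_mem hk]
  have hfm : StronglyMeasurable f := by
    refine stronglyMeasurable_of_tendsto atTop (f := fun m x => ∑ k ∈ Finset.range m, (P k).indicator (G k) x) ?_ ?_
    · intro m
      exact Finset.stronglyMeasurable_fun_sum _ fun k _ => (Lp.stronglyMeasurable (G k)).indicator (hPm k)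
    · rw [tendsto_pi_nhds]
      exact fun x => (hsum x).tendsto_sum_nat
  have hcomp : ∀ A, IsCompact A → A ⊆ Ω → ∃ m : ℕ, ∀ x ∈ A, ∃ k, k < m ∧ x ∈ P k := by
    intro A hA hAΩ
    obtain ⟨t, ht⟩ := hA.elim_finite_subcover B (fun k => Metric.isOpen_ball) (fun x hx => by
      obtain ⟨k, hk⟩ := hBcov x (hAΩ hx)
      exact Set.mem_iUnion.2 ⟨k, hk⟩)
    refine ⟨t.sup id + 1, fun x hx => ?_⟩
    obtain ⟨j, hj, hxj⟩ := Set.mem_iUnion₂.1 (ht hx)
    obtain ⟨k, hk, hxk⟩ := hPcov x j hxj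
    exact ⟨k, Nat.lt_succ_of_le (hk.trans (Finset.le_sup (f := id) hj)), hxk⟩
  have hintA : ∀ A, IsCompact A → A ⊆ Ω → IntegrableOn (fun x => ‖f x‖ ^ 2) A (volume : Measure (Cfg r)) := by
    intro A hA hAΩ
    obtain ⟨m, hm⟩ := hcomp A hA hAΩ
    have h2 : Integrable (fun x => ∑ k ∈ Finset.range m, ‖G k x‖ ^ 2) (volume : Measure (Cfg r)) :=
      integrable_finsetSum _ fun k _ => (Lp.memLp (G k)).integrable_norm_pow (by norm_num)
    refine h2.integrableOn.mono' ((hfm.norm.pow 2).aestronglyMeasurable) ?_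
    refine ae_restrict_of_forall_mem hA.measurableSet fun x hx => ?_
    obtain ⟨k, hk, hxk⟩ := hm x hx
    rw [hfP k x hxk, Real.norm_of_nonneg (by positivity)]
    exact Finset.single_le_sum (f := fun k => ‖G k x‖ ^ 2) (fun k _ => by positivity) (Finset.mem_range.2 hk)
  have hrep : ∀ b, LC Ω b → ℓ b = ∫ x, inner ℂ (b x) (f x) := by
    intro b hb
    obtain ⟨hb2, A, hA, hAΩ, hb0⟩ := id hb
    obtain ⟨m, hm⟩ := hcomp A hA hAΩ
    have h2 : b = fun x => ∑ k ∈ Finset.range m, (P k).indicator b x := by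
      funext x
      by_cases hx : x ∈ A
      · obtain ⟨k, hk, hxk⟩ := hm x hx
        rw [Finset.sum_eq_single k, Set.indicator_of_mem hxk]
        · intro j _ hj
          exact Set.indicator_of_notMem (fun h => hj (hPu x j k h hxk)) _
        · intro h
          exact absurd (Finset.mem_range.2 hk) h
      · rw [hb0 x hx, Finset.sum_eq_zero]
        intro k _
        by_cases hk : x ∈ P k
        · rw [Set.indicator_of_mem hk, hb0 x hx]
        · exact Set.indicator_of_notMem hk _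
    have hLk : ∀ k, LC Ω ((P k).indicator b) := fun k =>
      LC_ind hb2 (hPm k) ((hPB k).trans Metric.ball_subset_closedBall) (isCompact_closedBall (e k) (δ (e k))) (hcb _ (heΩ k))
    have h3 : ℓ b = ∑ k ∈ Finset.range m, ℓ ((P k).indicator b) := by
      have h4 := (sum_split hadd hsmul (fun k => (P k).indicator b) hLk m).2
      rw [← h2] at h4
      exact h4
    rw [h3, Finset.sum_congr rfl fun k _ => hG k b hb2, ← integral_finsetSum]
    · refine integral_congr_ae (Eventually.of_forall fun x => ?_)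
      change ∑ k ∈ Finset.range m, (inner ℂ ((P k).indicator b x) (G k x) : ℂ) = inner ℂ (b x) (f x)
      by_cases hx : x ∈ A
      · obtain ⟨k, hk, hxk⟩ := hm x hx
        rw [Finset.sum_eq_single k, Set.indicator_of_mem hxk, hfP k x hxk]
        · intro j _ hj
          rw [Set.indicator_of_notMem (fun h => hj (hPu x j k h hxk)), inner_zero_left]
        · intro h
          exact absurd (Finset.mem_range.2 hk) h
      · rw [hb0 x hx, inner_zero_left, Finset.sum_eq_zero]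
        intro k _
        by_cases hk : x ∈ P k
        · rw [Set.indicator_of_mem hk, hb0 x hx, inner_zero_left]
        · rw [Set.indicator_of_notMem hk, inner_zero_left]
    · intro k _
      exact int_inner (hb2.indicator (hPm k)) (Lp.memLp (G k))
  refine ⟨f, hfm.aestronglyMeasurable, hintA, hrep, ?_⟩
  intro Ω' C' hΩ' hsub hC' hbd
  -- compact sets
  have hcA : ∀ A, IsCompact A → A ⊆ Ω' → ∫ x in A, ‖f x‖ ^ 2 ≤ C' ^ 2 := by
    intro A hA hAΩ'
    have hi := hintA A hA (hAΩ'.trans hsub)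
    have hmem : MemLp (A.indicator f) 2 (volume : Measure (Cfg r)) := by
      rw [memLp_indicator_iff_restrict hA.measurableSet]
      exact (memLp_two_iff_integrable_sq_norm hfm.aestronglyMeasurable).2 hi
    have hLC' : LC Ω' (A.indicator f) := ⟨hmem, A, hA, hAΩ', fun x hx => Set.indicator_of_notMem hx _⟩
    have hLC : LC Ω (A.indicator f) := ⟨hmem, A, hA, hAΩ'.trans hsub, fun x hx => Set.indicator_of_notMem hx _⟩
    have e1 : ∀ x, (inner ℂ (A.indicator f x) (f x) : ℂ) = ((A.indicator (fun x => ‖f x‖ ^ 2) x : ℝ) : ℂ) := by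
      intro x
      by_cases hx : x ∈ A
      · rw [Set.indicator_of_mem hx, Set.indicator_of_mem hx, inner_self_eq_norm_sq_to_K]
        norm_cast
      · rw [Set.indicator_of_notMem hx, Set.indicator_of_notMem hx, inner_zero_left, Complex.ofReal_zero]
    have e2 : ∀ x, ‖A.indicator f x‖ ^ 2 = A.indicator (fun x => ‖f x‖ ^ 2) x := by
      intro x
      by_cases hx : x ∈ A
      · rw [Set.indicator_of_mem hx, Set.indicator_of_mem hx]
      · rw [Set.indicator_of_notMem hx, Set.indicator_of_notMem hx]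
        simp
    have h2 := hrep _ hLC
    have h3 := hbd _ hLC'
    simp only [e1] at h2
    rw [integral_complex_ofReal, integral_indicator hA.measurableSet] at h2
    simp only [e2] at h3
    rw [integral_indicator hA.measurableSet, h2, Complex.norm_real, Real.norm_of_nonneg
      (setIntegral_nonneg hA.measurableSet fun x _ => by positivity)] at h3
    set I := ∫ x in A, ‖f x‖ ^ 2 with hI
    have hI0 : 0 ≤ I := setIntegral_nonneg hA.measurableSet fun x _ => by positivity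
    rcases hI0.eq_or_lt with h4 | h4
    · rw [← h4]
      positivity
    · have h5 : 0 < Real.sqrt I := Real.sqrt_pos.2 h4
      have h6 : Real.sqrt I ≤ C' := by
        have h7 : Real.sqrt I * Real.sqrt I ≤ C' * Real.sqrt I := by rwa [Real.mul_self_sqrt hI0]
        exact le_of_mul_le_mul_right h7 h5
      calc I = Real.sqrt I ^ 2 := (Real.sq_sqrt hI0).symm
        _ ≤ C' ^ 2 := pow_le_pow_left₀ h5.le h6 2
  obtain ⟨Q, hQc, hQs, hQu, hQm⟩ := hΩ'.exists_iUnion_isClosed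
  set A : ℕ → Set (Cfg r) := fun m => Q m ∩ Metric.closedBall 0 m with hAdef
  have hAc : ∀ m, IsCompact (A m) := fun m => (isCompact_closedBall (0 : Cfg r) (m : ℝ)).inter_left (hQc m)
  have hAs : ∀ m, A m ⊆ Ω' := fun m => Set.inter_subset_left.trans (hQs m)
  have hAm : Monotone A := by
    intro i j hij
    refine Set.inter_subset_inter (hQm hij) (Metric.closedBall_subset_closedBall ?_)
    exact_mod_cast hij
  have hAu : ⋃ m, A m = Ω' := by
    refine subset_antisymm (Set.iUnion_subset hAs) ?_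
    intro x hx
    rw [← hQu] at hx
    obtain ⟨i, hi⟩ := Set.mem_iUnion.1 hx
    obtain ⟨j, hj⟩ := exists_nat_ge ‖x‖
    refine Set.mem_iUnion.2 ⟨max i j, hQm (le_max_left i j) hi, ?_⟩
    rw [mem_closedBall_zero_iff]
    refine hj.trans ?_
    exact_mod_cast le_max_right i j
  have hl : ∫⁻ x in Ω', ENNReal.ofReal (‖f x‖ ^ 2) ≤ ENNReal.ofReal (C' ^ 2) := by
    rw [← hAu, setLIntegral_iUnion_of_directed _ hAm.directed_le]
    refine iSup_le fun m => ?_
    rw [← ofReal_integral_eq_lintegral_ofReal (hintA _ (hAc m) ((hAs m).trans hsub)) (Eventually.of_forall fun x => by positivity)]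
    exact ENNReal.ofReal_le_ofReal (hcA _ (hAc m) (hAs m))
  have hi : IntegrableOn (fun x => ‖f x‖ ^ 2) Ω' (volume : Measure (Cfg r)) := by
    refine ⟨(hfm.norm.pow 2).aestronglyMeasurable, ?_⟩
    rw [hasFiniteIntegral_iff_ofReal (Eventually.of_forall fun x => by positivity)]
    exact hl.trans_lt ENNReal.ofReal_lt_top
  refine ⟨hi, ?_⟩
  rw [← ofReal_integral_eq_lintegral_ofReal hi (Eventually.of_forall fun x => by positivity)] at hl
  exact (ENNReal.ofReal_le_ofReal_iff (by positivity)).1 hl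

end Vale.Agent.P353.Z.AL
end

section

/-! # P353, all `N`, block L: tails of the scaled slice functions -/

open MeasureTheory Filter Topology
open scoped ContDiff

namespace Vale.Agent.P353.Z.AL

variable {d dh dm r ds : ℕ} {F : Type*} [NormedAddCommGroup F] [InnerProductSpace ℂ F]

/-- the scaling map -/
noncomputable def tl775 (ψ : Spl r ds dh) (R : ℝ) (p : Cfg dh × Wsp dm) : Cfg r × Cfg ds × Wsp dm :=
  (R⁻¹ • AN.hz ψ p.1, AN.hs ψ p.1, Real.sqrt R • p.2)

theorem tl775_cont (ψ : Spl r ds dh) (R : ℝ) : Continuous (tl775 (dm := dm) ψ R) := by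
  have a1 := AN.mea824_chz ψ
  have a2 := AN.mea824_chs ψ
  unfold tl775
  fun_prop

theorem tl775_map (ψ : Spl r ds dh) (R : ℝ) (hR : 0 < R) :
    ENNReal.ofReal ((R ^ (2 * (dm : ℝ) - 9 * (r : ℝ) / 2)) ^ 2) •
      Measure.map (tl775 ψ R) ((volume : Measure (Cfg dh)).prod (volume : Measure (Wsp dm))) =
    (volume : Measure (Cfg r)).prod ((volume : Measure (Cfg ds)).prod (volume : Measure (Wsp dm))) := by
  have hc0 : 0 < R ^ (2 * (dm : ℝ) - 9 * (r : ℝ) / 2) := Real.rpow_pos_of_pos hR _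
  refine Measure.ext fun N hN => ?_
  have hv : StronglyMeasurable (fun q : Cfg r × Cfg ds × Wsp dm =>
      (fun (a : Cfg r) (b : Cfg ds) (c : Wsp dm) => N.indicator (fun _ => (1 : ℂ)) (a, b, c)) q.1 q.2.1 q.2.2) :=
    (stronglyMeasurable_const.indicator hN)
  obtain ⟨-, h1⟩ := AN.mea824_sc ψ R (fun (a : Cfg r) (b : Cfg ds) (c : Wsp dm) =>
    N.indicator (fun _ => (1 : ℂ)) (a, b, c)) hR hv
  have e1 : ∀ q : Cfg r × Cfg ds × Wsp dm, ‖N.indicator (fun _ => (1 : ℂ)) (q.1, q.2.1, q.2.2)‖ₑ ^ 2 =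
      N.indicator (fun _ => (1 : ENNReal)) q := by
    intro q
    by_cases hq : q ∈ N
    · rw [Set.indicator_of_mem (show (q.1, q.2.1, q.2.2) ∈ N from hq), Set.indicator_of_mem hq]
      simp
    · rw [Set.indicator_of_notMem (show (q.1, q.2.1, q.2.2) ∉ N from hq), Set.indicator_of_notMem hq]
      simp
  have e2 : ∀ p : Cfg dh × Wsp dm, ‖AN.Ts0 ψ (fun (a : Cfg r) (b : Cfg ds) (c : Wsp dm) =>
      N.indicator (fun _ => (1 : ℂ)) (a, b, c)) R p.1 p.2‖ₑ ^ 2 =
      ENNReal.ofReal ((R ^ (2 * (dm : ℝ) - 9 * (r : ℝ) / 2)) ^ 2) *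
        (tl775 ψ R ⁻¹' N).indicator (fun _ => (1 : ENNReal)) p := by
    intro p
    unfold AN.Ts0
    rw [enorm_smul, mul_pow]
    have k1 := e1 (tl775 ψ R p)
    have k2 : (tl775 ψ R ⁻¹' N).indicator (fun _ => (1 : ENNReal)) p = N.indicator (fun _ => (1 : ENNReal)) (tl775 ψ R p) := rfl
    rw [k2, ← k1]
    congr 1
    rw [ENNReal.ofReal_pow hc0.le]
    congr 1
    rw [← ofReal_norm, Complex.norm_real, Real.norm_of_nonneg hc0.le]
  simp only [e2] at h1
  have h2 : ∫⁻ q : Cfg r × Cfg ds × Wsp dm, ‖N.indicator (fun _ => (1 : ℂ)) (q.1, q.2.1, q.2.2)‖ₑ ^ 2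
      ∂(volume.prod (volume.prod volume)) = (volume.prod (volume.prod volume)) N := by
    simp only [e1]
    rw [lintegral_indicator_const hN, one_mul]
  have hpre : MeasurableSet (tl775 (dm := dm) ψ R ⁻¹' N) := (tl775_cont ψ R).measurable hN
  rw [h2, lintegral_const_mul _ (measurable_const.indicator hpre), lintegral_indicator_const hpre, one_mul] at h1
  rw [Measure.smul_apply, smul_eq_mul, Measure.map_apply (tl775_cont ψ R).measurable hN, h1]

theorem tail (S : Setup d F) : TailStmt S := by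
  intro hF _ dh dm r ds φ ψ _ v hv
  -- abbreviations
  have hmap := fun (R : ℝ) (hR : 0 < R) => tl775_map (dm := dm) ψ R hR
  have key : ∀ R : ℝ, 0 < R →
      MemLp (fun q : Cfg r × Cfg ds × Wsp dm => v q.1 q.2.1 q.2.2) 2
        (Measure.map (tl775 ψ R) ((volume : Measure (Cfg dh)).prod (volume : Measure (Wsp dm)))) := by
    intro R hR
    have hc0 : 0 < R ^ (2 * (dm : ℝ) - 9 * (r : ℝ) / 2) := Real.rpow_pos_of_pos hR _
    have hne : ENNReal.ofReal ((R ^ (2 * (dm : ℝ) - 9 * (r : ℝ) / 2)) ^ 2) ≠ 0 := by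
      rw [Ne, ENNReal.ofReal_eq_zero, not_le]; positivity
    refine MemLp.of_measure_le_smul (c := (ENNReal.ofReal ((R ^ (2 * (dm : ℝ) - 9 * (r : ℝ) / 2)) ^ 2))⁻¹)
      (ENNReal.inv_ne_top.2 hne) ?_ hv
    rw [← hmap R hR, smul_smul, ENNReal.inv_mul_cancel hne ENNReal.ofReal_ne_top, one_smul]
  have hts : ∀ R : ℝ, ∀ p : Cfg dh × Wsp dm, AN.Ts0 ψ v R p.1 p.2 =
      ((R ^ (2 * (dm : ℝ) - 9 * (r : ℝ) / 2) : ℝ) : ℂ) •
        ((fun q : Cfg r × Cfg ds × Wsp dm => v q.1 q.2.1 q.2.2) ∘ (tl775 ψ R)) p := fun R p => rfl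
  have hn : ∀ R : ℝ, 0 < R → ∀ p : Cfg dh × Wsp dm, ‖AN.Ts0 ψ v R p.1 p.2‖ ^ 2 =
      (R ^ (2 * (dm : ℝ) - 9 * (r : ℝ) / 2)) ^ 2 *
        (fun q : Cfg r × Cfg ds × Wsp dm => ‖v q.1 q.2.1 q.2.2‖ ^ 2) (tl775 ψ R p) := by
    intro R hR p
    have hc0 : 0 < R ^ (2 * (dm : ℝ) - 9 * (r : ℝ) / 2) := Real.rpow_pos_of_pos hR _
    rw [hts, norm_smul, mul_pow, Complex.norm_real, Real.norm_of_nonneg hc0.le]
    rfl
  -- set version
  have hset : ∀ R : ℝ, 0 < R → ∀ N : Set (Cfg r × Cfg ds × Wsp dm), MeasurableSet N →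
      ∫ p in tl775 ψ R ⁻¹' N, ‖AN.Ts0 ψ v R p.1 p.2‖ ^ 2 ∂((volume : Measure (Cfg dh)).prod (volume : Measure (Wsp dm))) =
        ∫ q in N, ‖v q.1 q.2.1 q.2.2‖ ^ 2 ∂(volume.prod (volume.prod volume)) := by
    intro R hR N hN
    have hc0 : 0 < R ^ (2 * (dm : ℝ) - 9 * (r : ℝ) / 2) := Real.rpow_pos_of_pos hR _
    simp only [hn R hR]
    rw [integral_const_mul]
    have hm : AEStronglyMeasurable (fun q : Cfg r × Cfg ds × Wsp dm => ‖v q.1 q.2.1 q.2.2‖ ^ 2)
        (Measure.map (tl775 ψ R) ((volume : Measure (Cfg dh)).prod (volume : Measure (Wsp dm)))) :=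
      ((key R hR).1.norm.pow 2)
    rw [← setIntegral_map hN hm (tl775_cont ψ R).aemeasurable, ← hmap R hR, Measure.restrict_smul,
      integral_smul_measure, ENNReal.toReal_ofReal (by positivity), smul_eq_mul]
  refine ⟨fun R hR => ⟨?_, ?_⟩, ?_⟩
  · have h1 := ((key R hR).comp_of_map (tl775_cont ψ R).aemeasurable).const_smul
      (((R ^ (2 * (dm : ℝ) - 9 * (r : ℝ) / 2) : ℝ) : ℂ))
    exact h1
  · have h1 := hset R hR Set.univ MeasurableSet.univ
    simpa only [Set.preimage_univ, Measure.restrict_univ] using h1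
  · intro ε hε
    have hI : Integrable (fun q : Cfg r × Cfg ds × Wsp dm => ‖v q.1 q.2.1 q.2.2‖ ^ 2)
        (volume.prod (volume.prod volume)) := hv.integrable_norm_pow (by norm_num)
    let N : ℝ → Set (Cfg r × Cfg ds × Wsp dm) := fun R => {q | ε * R ≤ ‖q.2.1‖ ∨ ε * R * Real.sqrt R ≤ ‖q.2.2‖}
    have hN : ∀ R, MeasurableSet (N R) := by
      intro R
      have m1 : MeasurableSet {q : Cfg r × Cfg ds × Wsp dm | ε * R ≤ ‖q.2.1‖} :=
        measurableSet_le measurable_const (by fun_prop)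
      have m2 : MeasurableSet {q : Cfg r × Cfg ds × Wsp dm | ε * R * Real.sqrt R ≤ ‖q.2.2‖} :=
        measurableSet_le measurable_const (by fun_prop)
      exact m1.union m2
    have hpre : ∀ R : ℝ, 0 < R → {p : Cfg dh × Wsp dm | ε * R ≤ ‖AN.hs ψ p.1‖ ∨ ε * R ≤ ‖p.2‖} = tl775 ψ R ⁻¹' (N R) := by
      intro R hR
      have hs : 0 < Real.sqrt R := Real.sqrt_pos.2 hR
      ext p
      simp only [N, tl775, Set.mem_ofPred_eq, Set.mem_preimage]
      rw [norm_smul, Real.norm_of_nonneg hs.le, mul_comm (Real.sqrt R) ‖p.2‖, mul_le_mul_iff_left₀ hs]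
    have hlim : Tendsto (fun R : ℝ => ∫ q, (N R).indicator (fun q => ‖v q.1 q.2.1 q.2.2‖ ^ 2) q
        ∂(volume.prod (volume.prod volume))) atTop (𝓝 (∫ q : Cfg r × Cfg ds × Wsp dm, (0 : ℝ) ∂(volume.prod (volume.prod volume)))) := by
      refine tendsto_integral_filter_of_dominated_convergence
        (fun q : Cfg r × Cfg ds × Wsp dm => ‖v q.1 q.2.1 q.2.2‖ ^ 2) ?_ ?_ hI ?_
      · exact Eventually.of_forall fun R => hI.1.indicator (hN R)
      · refine Eventually.of_forall fun R => Eventually.of_forall fun q => ?_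
        rw [Real.norm_of_nonneg (Set.indicator_nonneg (fun _ _ => by positivity) _)]
        exact Set.indicator_le_self' (fun _ _ => by positivity) _
      · refine Eventually.of_forall fun q => ?_
        refine tendsto_const_nhds.congr' ?_
        have t1 : Tendsto (fun R : ℝ => ε * R) atTop atTop := tendsto_id.const_mul_atTop hε
        have t2 : Tendsto (fun R : ℝ => ε * R * Real.sqrt R) atTop atTop :=
          t1.atTop_mul_atTop₀ Real.tendsto_sqrt_atTop
        filter_upwards [t1.eventually_gt_atTop ‖q.2.1‖, t2.eventually_gt_atTop ‖q.2.2‖] with R h1 h2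
        rw [Set.indicator_of_notMem]
        simp only [N, Set.mem_ofPred_eq, not_or, not_le]
        exact ⟨h1, h2⟩
    rw [integral_zero] at hlim
    refine hlim.congr' ?_
    filter_upwards [eventually_gt_atTop (0 : ℝ)] with R hR
    rw [integral_indicator (hN R), ← hset R hR (N R) (hN R), hpre R hR]

end Vale.Agent.P353.Z.AL
end

section

/-! # P353, all `N`, block L: VG, the slice section is normalised -/

open MeasureTheory Filter Topology Matrix
open scoped ContDiff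

namespace Vale.Agent.P353.Z.AL

variable {d dh dm r ds n : ℕ} {F : Type*} [NormedAddCommGroup F] [InnerProductSpace ℂ F]

section cont

variable {X : Type*} [TopologicalSpace X] {s : Set X}

lemma vg471_inv {M : X → Matrix (Fin dm) (Fin dm) ℝ} (hM : ContinuousOn M s) (h0 : ∀ x ∈ s, (M x).det ≠ 0) :
    ContinuousOn (fun x => (M x)⁻¹) s := by
  have h1 : Continuous fun A : Matrix (Fin dm) (Fin dm) ℝ => A.det := continuous_id.matrix_det
  have h2 : Continuous fun A : Matrix (Fin dm) (Fin dm) ℝ => A.adjugate := continuous_id.matrix_adjugate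
  have h3 : (fun x => (M x)⁻¹) = fun x => ((M x).det)⁻¹ • (M x).adjugate := by
    funext x
    rw [Matrix.inv_def, Ring.inverse_eq_inv']
  rw [h3]
  exact ((h1.comp_continuousOn hM).inv₀ h0).smul (h2.comp_continuousOn hM)

lemma vg471_mul {M N : X → Matrix (Fin dm) (Fin dm) ℝ} (hM : ContinuousOn M s) (hN : ContinuousOn N s) :
    ContinuousOn (fun x => M x * N x) s := by
  have h : Continuous fun p : Matrix (Fin dm) (Fin dm) ℝ × Matrix (Fin dm) (Fin dm) ℝ => p.1 * p.2 :=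
    continuous_fst.matrix_mul continuous_snd
  exact h.comp_continuousOn (hM.prodMk hN)

lemma vg471_mulVec {M : X → Matrix (Fin dm) (Fin dm) ℝ} {v : X → Fin dm → ℝ} (hM : ContinuousOn M s)
    (hv : ContinuousOn v s) : ContinuousOn (fun x => M x *ᵥ v x) s := by
  have h : Continuous fun p : Matrix (Fin dm) (Fin dm) ℝ × (Fin dm → ℝ) => p.1 *ᵥ p.2 :=
    continuous_fst.matrix_mulVec continuous_snd
  exact h.comp_continuousOn (hM.prodMk hv)

lemma vg471_dot {u v : X → Fin dm → ℝ} (hu : ContinuousOn u s)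
    (hv : ContinuousOn v s) : ContinuousOn (fun x => u x ⬝ᵥ v x) s := by
  have h : Continuous fun p : (Fin dm → ℝ) × (Fin dm → ℝ) => p.1 ⬝ᵥ p.2 := by
    unfold dotProduct
    fun_prop
  exact h.comp_continuousOn (hu.prodMk hv)

lemma vg471_sum {v : Fin 9 → X → Fin dm → ℝ} (hv : ∀ i, ContinuousOn (v i) s) :
    ContinuousOn (fun x => ∑ i, v i x) s := continuousOn_finsetSum _ fun i _ => hv i

end cont

lemma vg471_cDz (S : Setup d F) (φ : Spl dh dm d) (ψ : Spl r ds dh) (i : Fin 9) :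
    Continuous fun η : Cfg r => AN.Dz S φ ψ η i := by
  have h1 : Continuous fun y : Cfg dh => S.Dy φ i y := by
    unfold Setup.Dy Setup.Dm
    refine continuous_matrix fun B C => ?_
    simp only [Matrix.of_apply]
    fun_prop
  have h2 : Continuous fun η : Cfg r => AN.cmb ψ η (0 : Cfg ds) := by
    unfold AN.cmb
    refine (PiLp.continuous_toLp 2 _).comp (continuous_pi fun p => ?_)
    rcases ψ.symm p.2 with a | b
    · simp only [Sum.elim_inl]; fun_prop
    · simp only [Sum.elim_inr]; fun_prop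
  exact h1.comp h2

lemma vg471_cwt (i : Fin 9) : Continuous fun w : Wsp dm => (wt w i : Fin dm → ℝ) := by
  unfold wt
  refine continuous_pi fun B => ?_
  induction i using Fin.lastCases with
  | last => simp only [Fin.lastCases_last]; exact continuous_const
  | cast j => simp only [Fin.lastCases_castSucc]; fun_prop

/-- continuity of the boson density -/
lemma vg471_gR (hAlg : AlgStmt) (S : Setup d F) (φ : Spl dh dm d) (ψ : Spl r ds dh)
    (Om : Cfg r → Matrix (Fin dm) (Fin dm) ℝ) (A : Set (Cfg r))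
    (hF : ∀ η ∈ A, Frz (AN.Dz S φ ψ η) ∧ IsOm S.κ (AN.Dz S φ ψ η) (Om η)) (hOm : ContinuousOn Om A) :
    ContinuousOn (fun p : Cfg r × Wsp dm => gR (AN.Dz S φ ψ p.1) (Om p.1) 1 p.2) (A ×ˢ Set.univ) := by
  set s : Set (Cfg r × Wsp dm) := A ×ˢ Set.univ with hs
  have hD : ∀ i, ContinuousOn (fun p : Cfg r × Wsp dm => AN.Dz S φ ψ p.1 i) s := fun i =>
    ((vg471_cDz S φ ψ i).comp continuous_fst).continuousOn
  have hO : ContinuousOn (fun p : Cfg r × Wsp dm => Om p.1) s :=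
    hOm.comp continuous_fst.continuousOn fun p hp => hp.1
  have hI : ContinuousOn (fun p : Cfg r × Wsp dm => (AN.Dz S φ ψ p.1 8)⁻¹) s :=
    vg471_inv (hD 8) fun p hp => (hF p.1 hp.1).1.inv
  have hT : ∀ i, ContinuousOn (fun p : Cfg r × Wsp dm => tI (AN.Dz S φ ψ p.1) i) s := fun i =>
    vg471_mul hI (hD i)
  have ht2 : ContinuousOn (fun p : Cfg r × Wsp dm => t2 (AN.Dz S φ ψ p.1)) s := by
    unfold t2
    exact continuousOn_finsetSum _ fun i _ => vg471_mul (hT i) (hT i)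
  have ht2i : ContinuousOn (fun p : Cfg r × Wsp dm => (t2 (AN.Dz S φ ψ p.1))⁻¹) s :=
    vg471_inv ht2 fun p hp => (hAlg dm S.κ (AN.Dz S φ ψ p.1) (Om p.1) S.κ_pos (hF p.1 hp.1).1 (hF p.1 hp.1).2).2.2.2.2.2.1
  have hw : ∀ i, ContinuousOn (fun p : Cfg r × Wsp dm => (wt p.2 i : Fin dm → ℝ)) s := fun i =>
    ((vg471_cwt i).comp continuous_snd).continuousOn
  have hsV : ContinuousOn (fun p : Cfg r × Wsp dm => sV (AN.Dz S φ ψ p.1) p.2) s := by
    unfold sV
    exact vg471_mulVec ht2i (vg471_sum fun i => vg471_mulVec (hT i) (hw i))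
  have hV : ∀ i, ContinuousOn (fun p : Cfg r × Wsp dm => VV (AN.Dz S φ ψ p.1) p.2 i) s := fun i => by
    unfold VV
    exact (hw i).sub (vg471_mulVec (hT i) hsV)
  have hq : ContinuousOn (fun p : Cfg r × Wsp dm => qf (AN.Dz S φ ψ p.1) (Om p.1) p.2) s := by
    unfold qf
    exact continuousOn_finsetSum _ fun i _ => vg471_dot (hV i) (vg471_mulVec hO (hV i))
  unfold gR
  exact Real.continuous_exp.comp_continuousOn (continuousOn_const.mul hq)

/-- **L-VG** -/
theorem vg (S : Setup d F) : VGStmt S := by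
  intro _ hGau hAlg dh dm r ds φ ψ Om A hA hF hOm a ha
  have hAm : MeasurableSet A := hA.isClosed.measurableSet
  have hgc := vg471_gR hAlg S φ ψ Om A hF hOm
  have hsm : MeasurableSet (A ×ˢ (Set.univ : Set (Wsp dm))) := hAm.prod MeasurableSet.univ
  -- the density cut off outside `A`
  classical
  set g : Cfg r × Wsp dm → ℝ := (A ×ˢ (Set.univ : Set (Wsp dm))).piecewise
    (fun p : Cfg r × Wsp dm => gR (AN.Dz S φ ψ p.1) (Om p.1) 1 p.2) (fun _ => 0) with hg
  have hgm : Measurable g := hgc.measurable_piecewise continuousOn_const hsm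
  have hgA : ∀ η ∈ A, ∀ w, g (η, w) = gR (AN.Dz S φ ψ η) (Om η) 1 w := fun η hη w =>
    Set.piecewise_eq_of_mem _ _ _ (show (η, w) ∈ A ×ˢ (Set.univ : Set (Wsp dm)) from ⟨hη, trivial⟩)
  have hNm : StronglyMeasurable (fun η : Cfg r => ∫ w, g (η, w) ^ 2) :=
    StronglyMeasurable.integral_prod_right (f := fun (η : Cfg r) (w : Wsp dm) => g (η, w) ^ 2)
      (hgm.pow_const 2).stronglyMeasurable
  set G : Cfg r × Wsp dm → ℝ := fun p => g p / Real.sqrt (∫ w, g (p.1, w) ^ 2) with hG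
  have hGm : Measurable G := hgm.div ((hNm.measurable.comp measurable_fst).sqrt)
  have hGA : ∀ η ∈ A, ∀ w, G (η, w) = gR (AN.Dz S φ ψ η) (Om η) 1 w /
      Real.sqrt (∫ w', gR (AN.Dz S φ ψ η) (Om η) 1 w' ^ 2) := by
    intro η hη w
    simp only [hG, hgA η hη]
  have hG2 : ∀ η ∈ A, Integrable (fun w => G (η, w) ^ 2) ∧ ∫ w, G (η, w) ^ 2 = 1 := by
    intro η hη
    obtain ⟨-, -, -, h4, h5, -⟩ := hGau dm S.κ (AN.Dz S φ ψ η) (Om η) S.κ_pos (hF η hη).1 (hF η hη).2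
    have e : (fun w => G (η, w) ^ 2) = fun w => gR (AN.Dz S φ ψ η) (Om η) 1 w ^ 2 /
        ∫ w', gR (AN.Dz S φ ψ η) (Om η) 1 w' ^ 2 := by
      funext w
      rw [hGA η hη, div_pow, Real.sq_sqrt h4.le]
    rw [e]
    refine ⟨h5.div_const _, ?_⟩
    rw [integral_div, div_self h4.ne']
  -- the section as a function on `(Cfg r × Cfg ds) × Wsp dm`
  have hv : ∀ η s w, AN.vG S φ ψ Om a η s w = ((G (η, w) : ℝ) : ℂ) • a η s := by
    intro η s w
    by_cases hη : η ∈ A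
    · rw [hGA η hη]
      rfl
    · have h0 : a η s = 0 := by
        by_contra h
        exact hη (ha.2 η s h)
      unfold AN.vG
      rw [h0, smul_zero, smul_zero]
  have hmp : MeasurePreserving (MeasurableEquiv.prodAssoc : (Cfg r × Cfg ds) × Wsp dm ≃ᵐ Cfg r × Cfg ds × Wsp dm)
      ((volume.prod volume).prod volume) (volume.prod (volume.prod volume)) := measurePreserving_prodAssoc _ _ _
  have haes : AEStronglyMeasurable (fun q : Cfg r × Cfg ds => a q.1 q.2) (volume.prod volume) := ha.1.1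
  have haI : Integrable (fun q : Cfg r × Cfg ds => ‖a q.1 q.2‖ ^ 2) (volume.prod volume) := by
    have := (memLp_two_iff_integrable_sq_norm haes).1 ha.1
    exact this
  have hm1 : AEStronglyMeasurable (fun p : (Cfg r × Cfg ds) × Wsp dm => ((G (p.1.1, p.2) : ℝ) : ℂ) • a p.1.1 p.1.2)
      ((volume.prod volume).prod volume) := by
    have m1 : Measurable fun p : (Cfg r × Cfg ds) × Wsp dm => ((G (p.1.1, p.2) : ℝ) : ℂ) :=
      Complex.measurable_ofReal.comp (hGm.comp ((measurable_fst.comp measurable_fst).prodMk measurable_snd))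
    have m2 : AEStronglyMeasurable (fun p : (Cfg r × Cfg ds) × Wsp dm => a p.1.1 p.1.2)
        ((volume.prod volume).prod volume) := haes.comp_fst
    exact m1.aestronglyMeasurable.smul m2
  have hI1 : Integrable (fun p : (Cfg r × Cfg ds) × Wsp dm => ‖((G (p.1.1, p.2) : ℝ) : ℂ) • a p.1.1 p.1.2‖ ^ 2)
      ((volume.prod volume).prod volume) ∧
      ∫ p : (Cfg r × Cfg ds) × Wsp dm, ‖((G (p.1.1, p.2) : ℝ) : ℂ) • a p.1.1 p.1.2‖ ^ 2
        ∂((volume.prod volume).prod volume) = n2 a := by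
    have hin : ∀ p : Cfg r × Cfg ds, Integrable (fun w : Wsp dm => ‖((G (p.1, w) : ℝ) : ℂ) • a p.1 p.2‖ ^ 2) ∧
        ∫ w : Wsp dm, ‖((G (p.1, w) : ℝ) : ℂ) • a p.1 p.2‖ ^ 2 = ‖a p.1 p.2‖ ^ 2 := by
      intro p
      by_cases hη : p.1 ∈ A
      · obtain ⟨i1, i2⟩ := hG2 p.1 hη
        have e : (fun w : Wsp dm => ‖((G (p.1, w) : ℝ) : ℂ) • a p.1 p.2‖ ^ 2) =
            fun w => G (p.1, w) ^ 2 * ‖a p.1 p.2‖ ^ 2 := by
          funext w
          rw [norm_smul, mul_pow, Complex.norm_real, Real.norm_eq_abs, sq_abs]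
        rw [e]
        refine ⟨i1.mul_const _, ?_⟩
        rw [integral_mul_const, i2, one_mul]
      · have h0 : a p.1 p.2 = 0 := by
          by_contra h
          exact hη (ha.2 p.1 p.2 h)
        simp [h0]
    have hm2 : AEStronglyMeasurable (fun p : (Cfg r × Cfg ds) × Wsp dm => ‖((G (p.1.1, p.2) : ℝ) : ℂ) • a p.1.1 p.1.2‖ ^ 2)
        ((volume.prod volume).prod volume) := (hm1.norm.aemeasurable.pow_const 2).aestronglyMeasurable
    have hI : Integrable (fun p : (Cfg r × Cfg ds) × Wsp dm => ‖((G (p.1.1, p.2) : ℝ) : ℂ) • a p.1.1 p.1.2‖ ^ 2)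
        ((volume.prod volume).prod volume) := by
      rw [integrable_prod_iff hm2]
      refine ⟨Filter.Eventually.of_forall fun p => (hin p).1, ?_⟩
      have e : (fun p : Cfg r × Cfg ds => ∫ w : Wsp dm, ‖‖((G (p.1, w) : ℝ) : ℂ) • a p.1 p.2‖ ^ 2‖) =
          fun p => ‖a p.1 p.2‖ ^ 2 := by
        funext p
        rw [← (hin p).2]
        refine integral_congr_ae (Filter.Eventually.of_forall fun w => ?_)
        exact Real.norm_of_nonneg (by positivity)
      rw [e]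
      exact haI
    refine ⟨hI, ?_⟩
    rw [integral_prod _ hI]
    unfold n2
    exact integral_congr_ae (Filter.Eventually.of_forall fun p => (hin p).2)
  have hcomp : (fun q : Cfg r × Cfg ds × Wsp dm => AN.vG S φ ψ Om a q.1 q.2.1 q.2.2) ∘
      (MeasurableEquiv.prodAssoc : (Cfg r × Cfg ds) × Wsp dm ≃ᵐ Cfg r × Cfg ds × Wsp dm) =
      fun p : (Cfg r × Cfg ds) × Wsp dm => ((G (p.1.1, p.2) : ℝ) : ℂ) • a p.1.1 p.1.2 := by
    funext p
    exact hv _ _ _
  constructor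
  · have h1 := (memLp_two_iff_integrable_sq_norm hm1).2 hI1.1
    have h2 := h1.comp_measurePreserving (MeasurePreserving.symm _ hmp)
    have e : (fun q : Cfg r × Cfg ds × Wsp dm => AN.vG S φ ψ Om a q.1 q.2.1 q.2.2) =
        (fun p : (Cfg r × Cfg ds) × Wsp dm => ((G (p.1.1, p.2) : ℝ) : ℂ) • a p.1.1 p.1.2) ∘
          (MeasurableEquiv.prodAssoc : (Cfg r × Cfg ds) × Wsp dm ≃ᵐ Cfg r × Cfg ds × Wsp dm).symm := by
      funext q
      exact hv _ _ _
    rw [e]
    exact h2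
  · rw [← hI1.2, ← hmp.integral_comp']
    refine integral_congr_ae (Filter.Eventually.of_forall fun p => ?_)
    have := congrFun hcomp p
    simp only [Function.comp] at this
    simp only [this]

end Vale.Agent.P353.Z.AL
end

section

/-! # P353, all `N`, block L: `sfun` is a slice functional (L-Sf, helper803) -/

open MeasureTheory Filter Topology Matrix
open scoped ContDiff

namespace Vale.Agent.P353.Z.AL

variable {d dh dm r ds : ℕ} {F : Type*} [NormedAddCommGroup F] [InnerProductSpace ℂ F]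

namespace Sf803

open AN.SfuA

lemma swp_spsw (ψ : Spl r ds dh) : AN.swp (spsw ψ) = ψ := by
  refine Equiv.ext fun x => ?_
  rcases x with a | a <;> rfl

lemma Dz_eq (S : Setup d F) (φ : Spl dh dm d) (ψ : Spl r ds dh) (η : Cfg r) :
    AD.Dz S φ (spsw ψ) η = AN.Dz S φ ψ η := by
  rw [← AN.Dz_swp, swp_spsw]

lemma Dz_eq' (S : Setup d F) (φ : Spl dh dm d) (ψ : Spl r ds dh) (η : Cfg r) :
    AD.Dz S φ (spsw ψ) η = S.Dz φ ψ η := Dz_eq S φ ψ η

/-- the squares do not degenerate at frozen points -/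
lemma det_sq {κ : ℝ} {D : Fin 9 → Matrix (Fin dm) (Fin dm) ℝ} {Om : Matrix (Fin dm) (Fin dm) ℝ} (hO : IsOm κ D Om) :
    (∑ i, D i * D i).det ≠ 0 := by
  intro h0
  obtain ⟨v, hv, h1⟩ := Matrix.exists_mulVec_eq_zero_iff.2 h0
  have h2 : (Om * Om) *ᵥ v = 0 := by
    rw [hO.sq, Matrix.neg_mulVec, Matrix.smul_mulVec, h1, smul_zero, neg_zero]
  have h3 : (Om * Om).det = 0 := Matrix.exists_mulVec_eq_zero_iff.1 ⟨v, hv, h2⟩
  rw [Matrix.det_mul] at h3
  have h4 := (AD.Sc.om_unit hO).ne_zero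
  exact h4 (mul_self_eq_zero.1 h3)

lemma memTs (ψ : Spl r ds dh) {R : ℝ} (hR : 0 < R) {v : Cfg r → Cfg ds → Wsp dm → F}
    (hv : MemLp (fun q : Cfg r × Cfg ds × Wsp dm => v q.1 q.2.1 q.2.2) 2 (volume.prod (volume.prod volume))) :
    MemLp (fun p : Cfg dh × Wsp dm => AN.Ts0 ψ v R p.1 p.2) 2 (volume.prod volume) := by
  have hc0 : 0 < R ^ (2 * (dm : ℝ) - 9 * (r : ℝ) / 2) := Real.rpow_pos_of_pos hR _
  have key : MemLp (fun q : Cfg r × Cfg ds × Wsp dm => v q.1 q.2.1 q.2.2) 2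
      (Measure.map (tl775 ψ R) ((volume : Measure (Cfg dh)).prod (volume : Measure (Wsp dm)))) := by
    have hne : ENNReal.ofReal ((R ^ (2 * (dm : ℝ) - 9 * (r : ℝ) / 2)) ^ 2) ≠ 0 := by
      rw [Ne, ENNReal.ofReal_eq_zero, not_le]; positivity
    refine MemLp.of_measure_le_smul (c := (ENNReal.ofReal ((R ^ (2 * (dm : ℝ) - 9 * (r : ℝ) / 2)) ^ 2))⁻¹)
      (ENNReal.inv_ne_top.2 hne) ?_ hv
    rw [← tl775_map (dm := dm) ψ R hR, smul_smul, ENNReal.inv_mul_cancel hne ENNReal.ofReal_ne_top, one_smul]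
  exact (key.comp_of_map (tl775_cont ψ R).aemeasurable).const_smul
    (((R ^ (2 * (dm : ℝ) - 9 * (r : ℝ) / 2) : ℝ) : ℂ))

end Sf803

open Sf803 AN.SfuA in
/-- **L-Sf** -/
theorem sf (S : Setup d F) : SfStmt S := by
  intro hfin dh dm r ds φ ψ z₀ h2 L Om K U hB ε hε hdet χ hχs hχ o ho
  obtain ⟨q1, q2, q3, q4⟩ := AD.scal S hfin dh dm ds r φ (spsw ψ) z₀ h2
  set A : Set (Cfg r) := Metric.closedBall z₀ ε with hA
  have hsetA : {η : Cfg r | ‖η - z₀‖ ≤ ε} = A := by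
    ext η
    rw [hA, Metric.mem_closedBall, dist_eq_norm]
    rfl
  have hdet' : ∀ η ∈ A, (S.Dy φ 8 (AD.cmb (spsw ψ) 0 η)).det ≠ 0 := by
    intro η hη
    have h1 := hdet η hη
    rw [← Dz_eq'] at h1
    exact h1
  have hsub : A ⊆ {yz : Cfg r | (S.Dy φ 8 (AD.cmb (spsw ψ) 0 yz)).det ≠ 0} := hdet'
  -- `Ω`
  have hOm : ∀ η ∈ A, AD.omc S.κ (AD.Dz S φ (spsw ψ) η) = Om η := by
    intro η hη
    refine AX.omc_eq AX.omU S.κ_pos ?_
    have h1 := det_sq (q1 η (hdet' η hη)).2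
    rw [← AX.DM_Mz] at h1 ⊢
    exact hB.om η h1
  have hFO : ∀ η ∈ A, Frz (AN.Dz S φ ψ η) ∧ IsOm S.κ (AN.Dz S φ ψ η) (Om η) := by
    intro η hη
    have h1 := q1 η (hdet' η hη)
    rw [hOm η hη, Dz_eq] at h1
    exact h1
  have hχA : ∀ η, χ η ≠ 0 → η ∈ A := fun η hη =>
    Metric.ball_subset_closedBall (hχ (subset_tsupport _ hη))
  have hχε : ∀ η, χ η ≠ 0 → ‖η - z₀‖ ≤ ε := by
    intro η hη
    have := hχA η hη
    rwa [hA, Metric.mem_closedBall, dist_eq_norm] at this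
  have hcs : HasCompactSupport χ :=
    HasCompactSupport.of_support_subset_isCompact (isCompact_closedBall z₀ ε) fun η hη => hχA η hη
  -- continuity
  have hcO : ContinuousOn (fun η => AD.omc S.κ (AD.Dz S φ (spsw ψ) η)) A := by
    refine continuousOn_pi.2 fun B => continuousOn_pi.2 fun C => ?_
    exact (q3 B C).continuousOn.mono hsub
  have hcOm : ContinuousOn Om A := hcO.congr fun η hη => (hOm η hη).symm
  have hcP : ∀ v : F, ContinuousOn (fun η => (S.F0 φ (AD.Dz S φ (spsw ψ) η)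
      (AD.omc S.κ (AD.Dz S φ (spsw ψ) η))).starProjection v) {η | ‖η - z₀‖ ≤ ε} := by
    intro v
    rw [hsetA]
    exact (q4.continuousOn.mono hsub).clm_apply continuousOn_const
  -- the section
  set a : Cfg r → Cfg ds → F := fun η s => ((χ η : ℝ) : ℂ) •
    (S.F0 φ (S.Dz φ ψ η) (Om η)).starProjection (o s) with ha
  have haP : ∀ (o' : Cfg ds → F) η s, AN.aP S φ (spsw ψ) χ o' η s =
      ((χ η : ℝ) : ℂ) • (S.F0 φ (S.Dz φ ψ η) (Om η)).starProjection (o' s) := by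
    intro o' η s
    unfold AN.aP
    by_cases h0 : χ η = 0
    · rw [h0]; simp
    · have h1 : S.F0 φ (AD.Dz S φ (spsw ψ) η) (AD.omc S.κ (AD.Dz S φ (spsw ψ) η)) =
          S.F0 φ (S.Dz φ ψ η) (Om η) := by
        rw [hOm η (hχA η h0), Dz_eq']
      rw [sp_congr h1]
  have hmem : MemLp (fun q : Cfg r × Cfg ds => a q.1 q.2) 2 (volume.prod volume) := by
    set o' : Cfg ds → F := ho.1.mk o with ho'
    have hoo : o =ᵐ[volume] o' := ho.1.ae_eq_mk
    have hs' : StronglyMeasurable o' := ho.1.stronglyMeasurable_mk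
    have hm' : MemLp o' 2 (volume : Measure (Cfg ds)) := (memLp_congr_ae hoo).1 ho
    have hsm := sm_aP S φ (spsw ψ) z₀ ε hcP χ hχs.continuous hχε o' hs'
    have hfi := lint_aP S φ (spsw ψ) χ hχs.continuous hcs o' hm'
    have h1 : MemLp (fun q : Cfg r × Cfg ds => AN.aP S φ (spsw ψ) χ o' q.1 q.2) 2 (volume.prod volume) :=
      (memLp_two hsm.aestronglyMeasurable).2 hfi
    refine (memLp_congr_ae ?_).1 h1
    have h3 : ∀ᵐ q : Cfg r × Cfg ds ∂((volume : Measure (Cfg r)).prod (volume : Measure (Cfg ds))), o q.2 = o' q.2 :=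
      Measure.quasiMeasurePreserving_snd.ae hoo
    filter_upwards [h3] with q hq
    rw [haP, ha, ← hq]
  have hsec : Sec2 A a := by
    refine ⟨hmem, fun η s h => hχA η fun h0 => h ?_⟩
    simp only [ha, h0, Complex.ofReal_zero, zero_smul]
  refine ⟨hsec, fun R hR u hu => ?_⟩
  -- the identity
  have hPc : ∀ η, ‖η - z₀‖ ≤ ε → ∀ R : ℝ, 0 < R →
      AD.omc S.κ (AD.Dz S φ (spsw ψ) (R • η)) = R • AD.omc S.κ (AD.Dz S φ (spsw ψ) η) ∧
      S.F0 φ (AD.Dz S φ (spsw ψ) (R • η)) (AD.omc S.κ (AD.Dz S φ (spsw ψ) (R • η))) =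
        S.F0 φ (AD.Dz S φ (spsw ψ) η) (AD.omc S.κ (AD.Dz S φ (spsw ψ) η)) := by
    intro η hη R hR
    have hηA : η ∈ A := by rwa [← hsetA]
    have h1 := (q2 η (hdet' η hηA) R hR).1
    refine ⟨h1, ?_⟩
    rw [h1, AD.Sc.Dz_smul]
    exact (f0S S φ (AD.Dz S φ (spsw ψ) η) (AD.omc S.κ (AD.Dz S φ (spsw ψ) η))).2 R hR
  have hvv : vv S φ (spsw ψ) χ o = AN.vG S φ ψ Om a := by
    funext η s w
    unfold vv
    rw [swp_spsw]
    unfold AN.vG
    have h1 : AN.aP S φ (spsw ψ) χ o η s = a η s := haP o η s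
    rw [h1]
    by_cases h0 : χ η = 0
    · have h3 : a η s = 0 := by simp only [ha, h0, Complex.ofReal_zero, zero_smul]
      rw [h3, smul_zero, smul_zero]
    · have h4 : (fun η => AD.omc S.κ (AD.Dz S φ (spsw ψ) η)) η = Om η := hOm η (hχA η h0)
      rw [h4]
  have hv : MemLp (fun p : Cfg dh × Wsp dm => AN.Ts0 ψ (AN.vG S φ ψ Om a) R p.1 p.2) 2 (volume.prod volume) :=
    memTs ψ hR (vg S hfin AN.gau_stmt alg dh dm r ds φ ψ Om A (isCompact_closedBall z₀ ε) hFO hcOm a hsec).1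
  have hTs : ∀ p : Cfg dh × Wsp dm, AN.Ts0 (AN.swp (spsw ψ)) (vv S φ (spsw ψ) χ o) R p.1 p.2 =
      AN.Ts0 ψ (AN.vG S φ ψ Om a) R p.1 p.2 := by
    intro p
    rw [swp_spsw, hvv]
  rw [sfun_eq S φ (spsw ψ) AD.cmbS hPc χ hχε o hR ε u hu (by simpa only [hTs] using hv)]
  simp only [hTs]
  unfold Sl
  have hNE : Nr ψ A dm R ε ⊆ Eb (spsw ψ) dm ε R := fun p hp => ⟨hp.2.1, hp.2.2⟩
  refine setIntegral_eq_of_subset_of_forall_sdiff_eq_zero (meas_Eb (spsw ψ) ε R) hNE ?_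
  rintro p ⟨hp1, hp2⟩
  have h1 : R⁻¹ • AN.hz ψ p.1 ∉ A := fun h => hp2 ⟨h, hp1.1, hp1.2⟩
  have h3 : χ (R⁻¹ • AN.hz ψ p.1) = 0 := by
    by_contra h
    exact h1 (hχA _ h)
  have h4 : AN.Ts0 ψ (AN.vG S φ ψ Om a) R p.1 p.2 = 0 := by
    unfold AN.Ts0 AN.vG
    have h5 : a (R⁻¹ • AN.hz ψ p.1) (AN.hs ψ p.1) = 0 := by
      simp only [ha, h3, Complex.ofReal_zero, zero_smul]
    rw [h5, smul_zero, smul_zero]
  rw [h4, inner_zero_left]

end Vale.Agent.P353.Z.AL
end
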