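import Mathlib
import Vale.Agent.P353.BFSS
import Vale.Agent.P353.BdZ.B5
import Vale.Agent.P353.BdA.B1

set_option linter.all false

section

/-! # P353, all `N`: change of the universe of the fermion space (statement) -/

open MeasureTheory Filter Topology
open scoped ContDiff

namespace Vale.Agent.P353.Z.Fin1

universe u

/-- there is exactly one zero-energy state up to a factor -/
def Uniq {N d : ℕ} {F : Type u} [NormedAddCommGroup F] [InnerProductSpace ℂ F] (M : BFSS.Model N d F) : Prop :=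
  ∃ Φ : BFSS.Conf d → F, M.IsZeroEnergyState Φ ∧ ¬ (∀ᵐ x ∂BFSS.leb d, Φ x = 0) ∧
    ∀ Ψ, M.IsZeroEnergyState Ψ → ∃ c : ℂ, ∀ᵐ x ∂BFSS.leb d, Ψ x = c • Φ x

/-- **UNIV** it suffices to treat fermion spaces in `Type`. PROOF. `F` is finite dimensional (`finiteDimensional_of_model M`, `Z/U`), `e : F ≃ₗᵢ[ℂ] EuclideanSpace ℂ (Fin m)`
(`stdOrthonormalBasis`). Model `M'` on `EuclideanSpace ℂ (Fin m)`: `θ' = e θ e⁻¹`, `S' = e S e⁻¹`, the other data unchanged. `M'.Q α (e ∘ u) = e ∘ M.Q α u` (`lineDeriv` of a composition with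
a continuous linear equivalence), `M'.form (e ∘ φ) (e ∘ u) = M.form φ u`, `IsCore`, `MemLp`, `L²` convergence transported both ways: `M.IsZeroEnergyState Ψ ↔ M'.IsZeroEnergyState (e ∘ Ψ)`. -/
def UnivStmt : Prop :=
  (∀ (N d : ℕ) (F : Type) [NormedAddCommGroup F] [InnerProductSpace ℂ F] (M : BFSS.Model N d F), 2 ≤ N → Uniq M) →
  ∀ (N d : ℕ) (F : Type u) [NormedAddCommGroup F] [InnerProductSpace ℂ F] (M : BFSS.Model N d F), 2 ≤ N → Uniq M

end Vale.Agent.P353.Z.Fin1
end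

section

/-! # P353, all `N`, block F: weak = strong for the free supercharges, self-adjointness -/

open MeasureTheory Filter Topology
open scoped ContDiff

namespace Vale.Agent.P353.Z.AF

variable {r : ℕ} {K : Type*} [NormedAddCommGroup K] [InnerProductSpace ℂ K]

open Vale.Agent.P353.Z.Moll Vale.Agent.P353.Z.U.HB Vale.Agent.P353.Z.U.WS

/-- the same Clifford system with vanishing structure constants -/
noncomputable def flat (S : Setup r K) : Setup r K :=
  { S with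
    f := fun _ _ _ => 0
    f_swap := by intros; simp
    f_cyc := by intros; simp
    f_jac := by intros; simp }

variable (S : Setup r K)

lemma flat_Qm (β : Fin 16) (u : Cfg r → K) (x : Cfg r) : (flat S).Qm 1 β u x = S.FD β u x := by
  have hW : (flat S).W β x = 0 := by
    simp [Setup.W, Setup.FF, flat]
  unfold Setup.Qm Setup.Q Setup.FD Setup.Q0
  rw [hW]
  simp only [_root_.zero_apply, add_zero, Complex.ofReal_one, one_smul]
  rfl

lemma flat_Qm' (β : Fin 16) (u : Cfg r → K) : (flat S).Qm 1 β u = S.FD β u :=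
  funext fun x => flat_Qm S β u x

lemma Tst_FD {u : Cfg r → K} (hu : Setup.Tst u) (β : Fin 16) : Setup.Tst (S.FD β u) := by
  rw [← flat_Qm']
  exact (flat S).esa_Tst_Qm hu 1 β

lemma contDiff_FD {u : Cfg r → K} (hu : ContDiff ℝ ∞ u) (β : Fin 16) : ContDiff ℝ ∞ (S.FD β u) := by
  rw [← flat_Qm']
  exact (flat S).esa_contDiff_Qm 1 β hu

lemma FD_symm (β : Fin 16) (u v : Cfg r → K) (hu : Setup.Tst u) (hv : ContDiff ℝ ∞ v) :
    ∫ x, inner ℂ (S.FD β u x) (v x) = ∫ x, inner ℂ (u x) (S.FD β v x) := by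
  rw [← flat_Qm', ← flat_Qm']
  exact (flat S).esa_Qm_symm 1 β u v hu hv

lemma FD_smul (β : Fin 16) (φ : Cfg r → ℝ) (u : Cfg r → K) (x : Cfg r)
    (hφ : DifferentiableAt ℝ φ x) (hu : DifferentiableAt ℝ u x) :
    S.FD β (fun y => ((φ y : ℝ) : ℂ) • u y) x = ((φ x : ℝ) : ℂ) • S.FD β u x -
      S.esaD φ β x (u x) := by
  rw [← flat_Qm', ← flat_Qm', (flat S).esa_Qm_smul 1 β φ u x hφ hu]
  rfl

lemma MM_lip (β : Fin 16) : ∃ C : ℝ, 0 ≤ C ∧ ∀ x y : Cfg r, ‖S.MM β x - S.MM β y‖ ≤ C * ‖x - y‖ := by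
  refine ⟨∑ i, ∑ A, |aw i| * ‖S.vec (S.g i * S.Gam) A β‖, by positivity, fun x y => ?_⟩
  have e : S.MM β x - S.MM β y =
      ∑ i, ∑ A, ((aw i * (x - y) (i, A) : ℝ) : ℂ) • S.vec (S.g i * S.Gam) A β := by
    unfold Setup.MM
    rw [← Finset.sum_sub_distrib]
    refine Finset.sum_congr rfl fun i _ => ?_
    rw [← Finset.sum_sub_distrib]
    refine Finset.sum_congr rfl fun A _ => ?_
    rw [← sub_smul]
    congr 1
    rw [PiLp.sub_apply]
    push_cast
    ring
  rw [e, Finset.sum_mul]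
  refine (norm_sum_le _ _).trans (Finset.sum_le_sum fun i _ => ?_)
  rw [Finset.sum_mul]
  refine (norm_sum_le _ _).trans (Finset.sum_le_sum fun A _ => ?_)
  rw [norm_smul, Complex.norm_real, Real.norm_eq_abs, abs_mul]
  have h1 : |(x - y) (i, A)| ≤ ‖x - y‖ := by
    have := PiLp.norm_apply_le (x - y) (i, A)
    rwa [Real.norm_eq_abs] at this
  have h2 : 0 ≤ |aw i| * ‖S.vec (S.g i * S.Gam) A β‖ := by positivity
  calc |aw i| * |(x - y) (i, A)| * ‖S.vec (S.g i * S.Gam) A β‖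
      = (|aw i| * ‖S.vec (S.g i * S.Gam) A β‖) * |(x - y) (i, A)| := by ring
    _ ≤ _ := mul_le_mul_of_nonneg_left h1 h2

lemma vec_symm (i : Fin 9) (A : Fin r) (β : Fin 16) (v w : K) :
    inner ℂ (S.vec (S.g i) A β v) w = inner ℂ v (S.vec (S.g i) A β w) := by
  simp only [CS.vec, _root_.sum_apply, _root_.smul_apply, sum_inner, inner_sum, inner_smul_left,
    inner_smul_right, S.th_sa]
  refine Finset.sum_congr rfl fun α _ => ?_
  congr 1
  rw [Complex.conj_eq_iff_im]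
  exact S.g_real i β α

lemma locInt_op {A : Cfg r → K →L[ℂ] K} (hA : Continuous A) {f : Cfg r → K}
    (hf : LocallyIntegrable f volume) : LocallyIntegrable (fun x => A x (f x)) volume := by
  rw [locallyIntegrable_iff]
  intro k hk
  obtain ⟨C, hC⟩ := hk.exists_bound_of_continuousOn hA.continuousOn
  refine ((hf.integrableOn_isCompact hk).norm.const_mul C).mono'
    (continuous_apply_clm hA hf.aestronglyMeasurable).restrict ?_
  refine (ae_restrict_iff' hk.measurableSet).2 (Eventually.of_forall fun x hx => ?_)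
  exact ((A x).le_opNorm _).trans (mul_le_mul_of_nonneg_right (hC x hx) (norm_nonneg _))

/-- the mollified equation -/
lemma FD_mo [CompleteSpace K] {ρ : Cfg r → ℝ} (hρ : ContDiff ℝ ∞ ρ) (hc : HasCompactSupport ρ)
    (β : Fin 16) {u v : Cfg r → K} (hu : LocallyIntegrable u volume)
    (hv : LocallyIntegrable v volume) (hw : S.wF ∅ β u v) (x : Cfg r) :
    S.FD β (mo ρ u) x = mo ρ v x + ∫ t, ρ (x - t) • (S.MM β x - S.MM β t) (u t) := by
  have hMc : Continuous (S.MM β) := (S.esa_contDiff_MM β).continuous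
  have hMu : LocallyIntegrable (fun t => S.MM β t (u t)) volume := locInt_op hMc hu
  have i1 : ∀ i A, Integrable (fun y => pdr i A ρ (x - y) • u y) := fun i A =>
    integrable_mo (esa_pdr_smooth hρ i A).continuous
      (hc.fderiv_apply (𝕜 := ℝ) (EuclideanSpace.single (i, A) (1 : ℝ) : (Cfg r))) hu x
  have i2 : Integrable (fun y => ρ (x - y) • u y) := integrable_mo hρ.continuous hc hu x
  have i3 : Integrable (fun y => ρ (x - y) • S.MM β y (u y)) := integrable_mo hρ.continuous hc hMu x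
  have i4 : Integrable (fun y => ρ (x - y) • S.MM β x (u y)) := by
    have := (S.MM β x).integrable_comp i2
    refine this.congr (Eventually.of_forall fun y => ?_)
    simp only [← Complex.coe_smul (E := K), map_smul]
  have i5 : Integrable (fun y => (-Complex.I) • ∑ i, ∑ A, S.vec (S.g i) A β (pdr i A ρ (x - y) • u y)) :=
    (integrable_finsetSum _ fun i _ => integrable_finsetSum _ fun A _ =>
      (S.vec (S.g i) A β).integrable_comp (i1 i A)).smul (-Complex.I)
  have eL : S.Q0 β (mo ρ u) x =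
      ∫ y, (-Complex.I) • ∑ i, ∑ A, S.vec (S.g i) A β (pdr i A ρ (x - y) • u y) := by
    rw [integral_smul, integral_finsetSum _ fun i _ => integrable_finsetSum _ fun A _ =>
      (S.vec (S.g i) A β).integrable_comp (i1 i A), Setup.Q0]
    congr 1
    refine Finset.sum_congr rfl fun i _ => ?_
    rw [integral_finsetSum _ fun A _ => (S.vec (S.g i) A β).integrable_comp (i1 i A)]
    refine Finset.sum_congr rfl fun A _ => ?_
    rw [(S.vec (S.g i) A β).integral_comp_comm (i1 i A), Moll.pd_mo hρ hc hu]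
    rfl
  have eM : S.MM β x (mo ρ u x) = ∫ y, ρ (x - y) • S.MM β x (u y) := by
    unfold mo
    rw [← (S.MM β x).integral_comp_comm i2]
    refine integral_congr_ae (Eventually.of_forall fun y => ?_)
    simp only [← Complex.coe_smul (E := K), map_smul]
  have eE : (∫ t, ρ (x - t) • (S.MM β x - S.MM β t) (u t)) =
      (∫ y, ρ (x - y) • S.MM β x (u y)) - ∫ y, ρ (x - y) • S.MM β y (u y) := by
    rw [← integral_sub i4 i3]
    refine integral_congr_ae (Eventually.of_forall fun y => ?_)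
    simp only [_root_.sub_apply, smul_sub]
  have key : (∫ y, (-Complex.I) • ∑ i, ∑ A, S.vec (S.g i) A β (pdr i A ρ (x - y) • u y)) +
      ∫ y, ρ (x - y) • S.MM β y (u y) = mo ρ v x := by
    have i6 : Integrable (fun y => (-Complex.I) • ∑ i, ∑ A, S.vec (S.g i) A β (pdr i A ρ (x - y) • u y) +
      ρ (x - y) • S.MM β y (u y)) := i5.add i3
    rw [← integral_add i5 i3]
    refine ext_inner_left ℂ fun w => ?_
    rw [← integral_inner i6, inner_mo hρ.continuous hc hv]
    have h1 := hw (tz ρ x w) ⟨Tst_tz hρ hc x w, by simp [Coll]⟩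
    have e2 : ∀ y, inner ℂ (tz ρ x w y) (v y) = ((ρ (x - y) : ℝ) : ℂ) * inner ℂ w (v y) := fun y => by
      rw [tz, inner_smul_left, Complex.conj_ofReal]
    simp only [e2] at h1
    rw [← h1]
    refine integral_congr_ae (Eventually.of_forall fun y => ?_)
    have e1 : ∀ i A, pd i A (tz ρ x w) y = -((((pdr i A ρ (x - y)) : ℝ) : ℂ) • w) :=
      fun i A => pd_tz hρ x w i A y
    simp only [Setup.FD, Setup.Q0, e1, tz, ← Complex.coe_smul (E := K), map_smul, map_neg,
      inner_add_left, inner_add_right, inner_smul_left, inner_smul_right, sum_inner, inner_sum,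
      inner_neg_left, Complex.conj_ofReal, Complex.conj_I, vec_symm, S.esa_MM_symm]
    congr 1
    simp only [Finset.mul_sum, neg_neg, mul_neg, neg_mul]
  rw [Setup.FD, eL, eM, eE, ← key]
  abel

/-- multiplication by a cutoff -/
lemma nsq_rad_le {h : ℝ → ℝ} (hh : ContDiff ℝ ∞ h) (h0 : ∀ x : Cfg r, 0 ≤ rad h x)
    (h1 : ∀ x : Cfg r, rad h x ≤ 1) {f : Cfg r → K} (hf : MemLp f 2 (volume : Measure (Cfg r))) :
    MemLp (fun x => ((rad h x : ℝ) : ℂ) • f x) 2 (volume : Measure (Cfg r)) ∧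
    nsq (fun x => ((rad h x : ℝ) : ℂ) • f x) ≤ nsq f := by
  have hA : Continuous (fun x : Cfg r => ((rad h x : ℝ) : ℂ) • (1 : K →L[ℂ] K)) :=
    (Complex.continuous_ofReal.comp (contDiff_rad hh).continuous).smul continuous_const
  have hC : ∀ x : Cfg r, ‖((rad h x : ℝ) : ℂ) • (1 : K →L[ℂ] K)‖ ≤ 1 := by
    intro x
    rw [norm_smul, Complex.norm_real, Real.norm_of_nonneg (h0 x)]
    calc rad h x * ‖(1 : K →L[ℂ] K)‖ ≤ 1 * 1 := by
          refine mul_le_mul (h1 x) ?_ (norm_nonneg _) zero_le_one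
          exact ContinuousLinearMap.norm_id_le
      _ = 1 := one_mul _
  have e1 := memLp_op hA hC hf
  have e2 := nsq_op_le hC hf
  rw [one_pow, one_mul] at e2
  exact ⟨e1, e2⟩

lemma mo_approx_fin [CompleteSpace K] (B : Finset (Fin 16)) {v : Fin 16 → Cfg r → K}
    (hv : ∀ β ∈ B, MemLp (v β) 2 (volume : Measure (Cfg r))) {δ : ℝ} (hδ : 0 < δ) :
    ∃ ε₀ > 0, ∀ ε, ε ≤ ε₀ → ∀ ρ, IsMol ε ρ → ∀ β ∈ B, nsq (fun x => mo ρ (v β) x - v β x) ≤ δ := by
  classical
  induction B using Finset.induction_on with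
  | empty => exact ⟨1, one_pos, fun ε _ ρ _ β hβ => absurd hβ (Finset.notMem_empty β)⟩
  | insert b B hb ih =>
    obtain ⟨ε₁, h1, h1'⟩ := ih fun β hβ => hv β (Finset.mem_insert_of_mem hβ)
    obtain ⟨ε₂, h2, h2'⟩ := mo_approx (hv b (Finset.mem_insert_self _ _)) hδ
    refine ⟨min ε₁ ε₂, lt_min h1 h2, fun ε hε ρ hρ β hβ => ?_⟩
    rcases Finset.mem_insert.1 hβ with h | h
    · rw [h]
      exact h2' ε (hε.trans (min_le_right _ _)) ρ hρ
    · exact h1' ε (hε.trans (min_le_left _ _)) ρ hρ β h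

/-- **F-Str** -/
theorem str [CompleteSpace K] (S : Setup r K) : StrStmt S := by
  intro B u v hu hv hw
  obtain ⟨κ, hκ0, hκ⟩ := exists_rc
  have hch : ∀ n : ℕ, ∃ h : ℝ → ℝ, IsRC κ ((n : ℝ) + 1) h := fun n => hκ _ (by positivity)
  choose h hh using hch
  have hmol : ∀ n : ℕ, ∃ ρ : Cfg r → ℝ, ∃ ε : ℝ, 0 < ε ∧ ε ≤ 1 / ((n : ℝ) + 1) ∧ IsMol ε ρ ∧
      nsq (fun x => mo ρ u x - u x) ≤ 1 / ((n : ℝ) + 1) ∧
      ∀ β ∈ B, nsq (fun x => mo ρ (v β) x - v β x) ≤ 1 / ((n : ℝ) + 1) := by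
    intro n
    have hp : (0 : ℝ) < 1 / ((n : ℝ) + 1) := by positivity
    obtain ⟨ε₁, h1, h1'⟩ := mo_approx hu hp
    obtain ⟨ε₂, h2, h2'⟩ := mo_approx_fin B hv hp
    obtain ⟨ε, hε⟩ : ∃ ε : ℝ, ε = min (min ε₁ ε₂) (1 / ((n : ℝ) + 1)) := ⟨_, rfl⟩
    have hε0 : 0 < ε := hε ▸ lt_min (lt_min h1 h2) hp
    obtain ⟨g, -, hg⟩ := exists_mol (dc := r) hε0
    refine ⟨rad g, ε, hε0, hε ▸ min_le_right _ _, hg, h1' ε ?_ _ hg, h2' ε ?_ _ hg⟩
    · exact hε ▸ (min_le_left _ _).trans (min_le_left _ _)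
    · exact hε ▸ (min_le_left _ _).trans (min_le_right _ _)
  choose ρ ε hε0 hε hρ hρu hρv using hmol
  have hn0 : ∀ n : ℕ, (0 : ℝ) < (n : ℝ) + 1 := fun n => by positivity
  have hlim1 : Tendsto (fun n : ℕ => 1 / ((n : ℝ) + 1)) atTop (𝓝 0) :=
    tendsto_one_div_add_atTop_nhds_zero_nat
  have hmu : ∀ n, MemLp (mo (ρ n) u) 2 (volume : Measure (Cfg r)) := fun n => (nsq_mo_le (hρ n) hu).1
  have hms : ∀ n, ContDiff ℝ ∞ (mo (ρ n) u) := fun n => contDiff_mo (hρ n).contDiff (hρ n).hcs (locInt hu)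
  set w : ℕ → Cfg r → K := fun n x => ((rad (h n) x : ℝ) : ℂ) • mo (ρ n) u x with hwdef
  have hT : ∀ n, Setup.Tst (w n) := by
    intro n
    refine ⟨(Setup.contDiff_ofReal (contDiff_rad (hh n).contDiff)).smul (hms n), ?_⟩
    refine HasCompactSupport.intro (isCompact_closedBall (0 : Cfg r) ((n : ℝ) + 1)) fun x hx => ?_
    rw [Metric.mem_closedBall, dist_zero_right, not_le] at hx
    simp only [hwdef]
    rw [(hh n).zero x hx.le, Complex.ofReal_zero, zero_smul]
  refine ⟨w, hT, ⟨fun n => (hT n).memLp, hu, ?_⟩, fun β hβ => ?_⟩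
  · have hb : ∀ n, nsq (fun x => w n x - u x) ≤ 2 * (1 / ((n : ℝ) + 1)) +
        2 * nsq (fun x => ((rad (h n) x : ℝ) : ℂ) • u x - u x) := by
      intro n
      have m1 := nsq_rad_le (hh n).contDiff (hh n).nonneg (hh n).le_one ((hmu n).sub hu)
      have m2 := nsq_rad_le (hh n).contDiff (hh n).nonneg (hh n).le_one hu
      have e1 := nsq_add_le m1.1 (m2.1.sub hu)
      have e2 : (fun x => w n x - u x) = fun x => ((rad (h n) x : ℝ) : ℂ) • (mo (ρ n) u - u) x +
          ((fun x => ((rad (h n) x : ℝ) : ℂ) • u x) - u) x := by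
        funext x
        simp only [hwdef, Pi.sub_apply, smul_sub]
        abel
      rw [e2]
      refine e1.trans (add_le_add ?_ le_rfl)
      exact mul_le_mul_of_nonneg_left (m1.2.trans (hρu n)) (by norm_num)
    refine squeeze_zero (fun n => nsq_nonneg _) hb ?_
    have := (hlim1.const_mul 2).add ((cut_tendsto hu hh).const_mul 2)
    simpa using this
  · have hvβ := hv β hβ
    obtain ⟨C, hC0, hC⟩ := MM_lip S β
    -- error of the mollification
    set E : ℕ → Cfg r → K := fun n x => ∫ t, ρ n (x - t) • (S.MM β x - S.MM β t) (u t) with hE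
    have hEe : ∀ n, E n = fun x => S.FD β (mo (ρ n) u) x - mo (ρ n) (v β) x := by
      intro n
      funext x
      rw [FD_mo S (hρ n).contDiff (hρ n).hcs β (locInt hu) (locInt hvβ) (hw β hβ) x]
      simp only [hE]
      abel
    have hEm : ∀ n, AEStronglyMeasurable (E n) volume := by
      intro n
      rw [hEe n]
      exact ((contDiff_FD S (hms n) β).continuous.sub
        (contDiff_mo (hρ n).contDiff (hρ n).hcs (locInt hvβ)).continuous).aestronglyMeasurable
    have hEb : ∀ n x, ‖E n x‖ ≤ (C * (1 / ((n : ℝ) + 1))) * mo (ρ n) (fun t => ‖u t‖) x := by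
      intro n x
      have hi : Integrable (fun t => ρ n (x - t) • ‖u t‖) :=
        integrable_mo (hρ n).contDiff.continuous (hρ n).hcs (fun z => (locInt hu z).norm) x
      have e : (C * (1 / ((n : ℝ) + 1))) * mo (ρ n) (fun t => ‖u t‖) x =
          ∫ t, (C * (1 / ((n : ℝ) + 1))) * (ρ n (x - t) • ‖u t‖) := by
        rw [integral_const_mul]; rfl
      rw [e]
      refine norm_integral_le_of_norm_le (hi.const_mul _) (Eventually.of_forall fun t => ?_)
      rw [norm_smul, Real.norm_of_nonneg ((hρ n).nonneg _), smul_eq_mul]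
      by_cases h1 : ε n ≤ ‖x - t‖
      · rw [(hρ n).supp _ h1]; simp
      · rw [not_le] at h1
        have h2 : ‖(S.MM β x - S.MM β t) (u t)‖ ≤ (C * (1 / ((n : ℝ) + 1))) * ‖u t‖ := by
          refine ((S.MM β x - S.MM β t).le_opNorm _).trans
            (mul_le_mul_of_nonneg_right ?_ (norm_nonneg _))
          exact (hC x t).trans (mul_le_mul_of_nonneg_left (h1.le.trans (hε n)) hC0)
        calc ρ n (x - t) * ‖(S.MM β x - S.MM β t) (u t)‖
            ≤ ρ n (x - t) * ((C * (1 / ((n : ℝ) + 1))) * ‖u t‖) :=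
              mul_le_mul_of_nonneg_left h2 ((hρ n).nonneg _)
          _ = _ := by ring
    have hEn := fun n => nsq_le_mo (hρ n) hu (hEm n) (hEb n)
    -- cutoff error
    have hDc : ∀ n, Continuous (fun x => S.esaD (rad (h n)) β x) := fun n =>
      (S.esa_contDiff_D (contDiff_rad (hh n).contDiff) β).continuous
    have hDb : ∀ n x, ‖S.esaD (rad (h n)) β x‖ ≤ κ / ((n : ℝ) + 1) * S.esaC β := fun n x =>
      D_norm S (fun j A y => (hh n).grad j A y) β x
    have hDn : ∀ n, MemLp (fun x => S.esaD (rad (h n)) β x (mo (ρ n) u x)) 2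
        (volume : Measure (Cfg r)) ∧ nsq (fun x => S.esaD (rad (h n)) β x (mo (ρ n) u x)) ≤
        (κ / ((n : ℝ) + 1) * S.esaC β) ^ 2 * nsq u := by
      intro n
      refine ⟨memLp_op (hDc n) (hDb n) (hmu n), (nsq_op_le (hDb n) (hmu n)).trans ?_⟩
      exact mul_le_mul_of_nonneg_left (nsq_mo_le (hρ n) hu).2 (sq_nonneg _)
    have hb : ∀ n, nsq (fun x => S.FD β (w n) x - v β x) ≤ 2 * (1 / ((n : ℝ) + 1)) +
        (4 * nsq (fun x => ((rad (h n) x : ℝ) : ℂ) • v β x - v β x) +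
        (8 * ((C * (1 / ((n : ℝ) + 1))) ^ 2 * nsq u) +
          8 * ((κ / ((n : ℝ) + 1) * S.esaC β) ^ 2 * nsq u))) := by
      intro n
      have m1 := nsq_rad_le (hh n).contDiff (hh n).nonneg (hh n).le_one
        ((nsq_mo_le (hρ n) hvβ).1.sub hvβ)
      have m2 := (nsq_rad_le (hh n).contDiff (hh n).nonneg (hh n).le_one hvβ).1.sub hvβ
      have m3 := nsq_rad_le (hh n).contDiff (hh n).nonneg (hh n).le_one (hEn n).1
      have m4 := (hDn n).1.neg
      have e2 : (fun x => S.FD β (w n) x - v β x) =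
          fun x => ((rad (h n) x : ℝ) : ℂ) • (mo (ρ n) (v β) - v β) x +
          (((fun x => ((rad (h n) x : ℝ) : ℂ) • v β x) - v β) x +
          (((rad (h n) x : ℝ) : ℂ) • E n x +
            (-(fun x => S.esaD (rad (h n)) β x (mo (ρ n) u x))) x)) := by
        funext x
        have e3 : S.FD β (w n) x = ((rad (h n) x : ℝ) : ℂ) • S.FD β (mo (ρ n) u) x -
            S.esaD (rad (h n)) β x (mo (ρ n) u x) :=
          FD_smul S β (rad (h n)) (mo (ρ n) u) x
            ((contDiff_rad (hh n).contDiff).differentiable (by simp) x)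
            ((hms n).differentiable (by simp) x)
        have e4 : S.FD β (mo (ρ n) u) x = mo (ρ n) (v β) x + E n x := by
          rw [congrFun (hEe n) x]
          exact (add_sub_cancel (mo (ρ n) (v β) x) (S.FD β (mo (ρ n) u) x)).symm
        rw [e3, e4]
        simp only [Pi.sub_apply, Pi.neg_apply, smul_sub, smul_add]
        abel
      rw [e2]
      have b3 := nsq_add_le m3.1 m4
      have b2 := nsq_add_le m2 (m3.1.add m4)
      have b1 := nsq_add_le m1.1 (m2.add (m3.1.add m4))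
      have c4 : nsq (-(fun x => S.esaD (rad (h n)) β x (mo (ρ n) u x))) =
          nsq (fun x => S.esaD (rad (h n)) β x (mo (ρ n) u x)) := by
        simp [nsq]
      have c1 := m1.2.trans (hρv n β hβ)
      have c3 := m3.2.trans (hEn n).2
      have c5 := (hDn n).2
      rw [c4] at b3
      refine b1.trans ?_
      have b2' : nsq ((((fun x => ((rad (h n) x : ℝ) : ℂ) • v β x) - v β) +
        ((fun x => ((rad (h n) x : ℝ) : ℂ) • E n x) +
        -fun x => S.esaD (rad (h n)) β x (mo (ρ n) u x)))) ≤ _ := b2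
      have b3' : nsq ((fun x => ((rad (h n) x : ℝ) : ℂ) • E n x) +
        -fun x => S.esaD (rad (h n)) β x (mo (ρ n) u x)) ≤ _ := b3
      have c2 : nsq ((fun x => ((rad (h n) x : ℝ) : ℂ) • v β x) - v β) =
        nsq (fun x => ((rad (h n) x : ℝ) : ℂ) • v β x - v β x) := rfl
      linarith
    refine ⟨fun n => (Tst_FD S (hT n) β).memLp, hvβ, squeeze_zero (fun n => nsq_nonneg _) hb ?_⟩
    have hl2 : Tendsto (fun n : ℕ => (C * (1 / ((n : ℝ) + 1))) ^ 2 * nsq u) atTop (𝓝 0) := by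
      have := ((hlim1.const_mul C).pow 2).mul_const (nsq u)
      simpa using this
    have hl3 : Tendsto (fun n : ℕ => (κ / ((n : ℝ) + 1) * S.esaC β) ^ 2 * nsq u) atTop (𝓝 0) := by
      have h1 : ∀ n : ℕ, (κ / ((n : ℝ) + 1) * S.esaC β) ^ 2 * nsq u =
          (κ * S.esaC β * (1 / ((n : ℝ) + 1))) ^ 2 * nsq u := fun n => by ring
      simp only [h1]
      have := ((hlim1.const_mul (κ * S.esaC β)).pow 2).mul_const (nsq u)
      simpa using this
    have := (hlim1.const_mul 2).add (((cut_tendsto hvβ hh).const_mul 4).add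
      ((hl2.const_mul 8).add (hl3.const_mul 8)))
    simpa using this

end Vale.Agent.P353.Z.AF
end

section

/-! # P353, all `N`, block F: resolvent equation of the free supercharges -/

open MeasureTheory Filter Topology
open scoped ContDiff

namespace Vale.Agent.P353.Z.AF

variable {r : ℕ} {K : Type*} [NormedAddCommGroup K] [InnerProductSpace ℂ K]

open Vale.Agent.P353.Z.Moll Vale.Agent.P353.Z.U.HB Vale.Agent.P353.Z.U.WS

lemma TstOff_empty {ζ : Cfg r → K} : TstOff ∅ ζ ↔ Setup.Tst ζ := by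
  unfold TstOff Coll
  simp

lemma re_int_self (f : Cfg r → K) :
    (∫ x, inner ℂ (f x) (f x)).re = nsq f := by
  have h1 : ∀ x, inner ℂ (f x) (f x) = ((‖f x‖ ^ 2 : ℝ) : ℂ) := fun x => by
    rw [inner_self_eq_norm_sq_to_K]; push_cast; rfl
  simp only [h1]
  rw [integral_complex_ofReal, Complex.ofReal_re, nsq]

lemma res_core [CompleteSpace K] (S : Setup r K) (B : Finset (Fin 16)) {c : ℝ} (hc : 0 < c)
    {φ w : Cfg r → K} {v : Fin 16 → Cfg r → K} (hφ : MemLp φ 2 (volume : Measure (Cfg r)))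
    (hw : MemLp w 2 (volume : Measure (Cfg r))) (hv : ∀ β ∈ B, MemLp (v β) 2 (volume : Measure (Cfg r)))
    (h1 : ∀ β ∈ B, S.wF ∅ β w (v β))
    (h2 : ∀ ζ, Setup.Tst ζ → ∑ β ∈ B, ∫ x, inner ℂ (S.FD β ζ x) (v β x) =
      ∫ x, inner ℂ (ζ x) ((c : ℂ) • (φ x - w x))) : nsq w ≤ nsq φ := by
  obtain ⟨z, hz, hzw, hzv⟩ := str S B w v hw hv h1
  have hd : MemLp (fun x => (c : ℂ) • (φ x - w x)) 2 (volume : Measure (Cfg r)) :=
    (hφ.sub hw).const_smul (c : ℂ)
  have l1 : Tendsto (fun n => ∑ β ∈ B, ∫ x, inner ℂ (S.FD β (z n) x) (v β x)) atTop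
      (𝓝 (∑ β ∈ B, ∫ x, inner ℂ (v β x) (v β x))) :=
    tendsto_finsetSum _ fun β hβ => (hzv β hβ).lim_inner (L2t_const (hv β hβ))
  have l2 : Tendsto (fun n => ∫ x, inner ℂ (z n x) ((c : ℂ) • (φ x - w x))) atTop
      (𝓝 (∫ x, inner ℂ (w x) ((c : ℂ) • (φ x - w x)))) := hzw.lim_inner (L2t_const hd)
  have e := tendsto_nhds_unique l1 (l2.congr fun n => (h2 _ (hz n)).symm)
  have e1 : (∑ β ∈ B, ∫ x, inner ℂ (v β x) (v β x)).re = ∑ β ∈ B, nsq (v β) := by
    rw [Complex.re_sum]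
    exact Finset.sum_congr rfl fun β hβ => re_int_self (v β)
  have e2 : (∫ x, inner ℂ (w x) ((c : ℂ) • (φ x - w x))).re =
      c * ((∫ x, inner ℂ (w x) (φ x)).re - nsq w) := by
    have e3 : ∀ x, inner ℂ (w x) ((c : ℂ) • (φ x - w x)) =
        (c : ℂ) * (inner ℂ (w x) (φ x) - inner ℂ (w x) (w x)) := fun x => by
      rw [inner_smul_right, inner_sub_right]
    simp only [e3]
    rw [integral_const_mul, integral_sub (integrable_inner_memLp hw hφ)
      (integrable_inner_memLp hw hw), Complex.re_ofReal_mul, Complex.sub_re, re_int_self w]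
  have e4 := congrArg Complex.re e
  rw [e1, e2] at e4
  have e5 : 0 ≤ c * ((∫ x, inner ℂ (w x) (φ x)).re - nsq w) := by
    rw [← e4]; exact Finset.sum_nonneg fun β _ => nsq_nonneg _
  have e6 : nsq w ≤ (∫ x, inner ℂ (w x) (φ x)).re := by
    have := nonneg_of_mul_nonneg_right e5 hc
    linarith
  have e7 : (∫ x, inner ℂ (w x) (φ x)).re ≤ Real.sqrt (nsq w) * Real.sqrt (nsq φ) :=
    (Complex.re_le_norm _).trans (cs_inner hw hφ)
  have e8 := e6.trans e7
  by_contra hcon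
  rw [not_le] at hcon
  have h0 := nsq_nonneg φ
  have h3 : Real.sqrt (nsq φ) < Real.sqrt (nsq w) := Real.sqrt_lt_sqrt h0 hcon
  have h4 : 0 < Real.sqrt (nsq w) := lt_of_le_of_lt (Real.sqrt_nonneg _) h3
  have h5 : Real.sqrt (nsq w) * Real.sqrt (nsq w) = nsq w :=
    Real.mul_self_sqrt (nsq_nonneg w)
  nlinarith

theorem rem_of_rem2 (S : Setup r K) (h : Rem2Stmt S) : RemStmt S := by
  classical
  intro L hL β u v hu hv hw ζ hζ
  have key := h L hL (fun b => if b = β then u else fun _ => 0) v (fun b => by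
    by_cases hb : b = β
    · simp only [hb, if_true]; exact hu
    · simp only [hb, if_false]; exact MemLp.zero) hv ?_ ζ (TstOff_empty.1 hζ)
  · rw [Finset.sum_eq_single β] at key
    · simpa using key
    · intro b _ hb
      simp [hb]
    · intro hb
      exact absurd (Finset.mem_univ _) hb
  · intro ζ hζ
    rw [Finset.sum_eq_single β]
    · simpa using hw ζ hζ
    · intro b _ hb
      simp [hb]
    · intro hb
      exact absurd (Finset.mem_univ _) hb

lemma wF_sub (S : Setup r K) {L : Finset (Fin r → ℝ)} {β : Fin 16} {u u' v v' : Cfg r → K}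
    (hu : MemLp u 2 (volume : Measure (Cfg r))) (hu' : MemLp u' 2 (volume : Measure (Cfg r)))
    (hv : MemLp v 2 (volume : Measure (Cfg r))) (hv' : MemLp v' 2 (volume : Measure (Cfg r)))
    (h : S.wF L β u v) (h' : S.wF L β u' v') :
    S.wF L β (fun x => u x - u' x) (fun x => v x - v' x) := by
  intro ζ hζ
  simp only [inner_sub_right]
  rw [integral_sub (integrable_inner_memLp (Tst_FD S hζ.1 β).memLp hu)
    (integrable_inner_memLp (Tst_FD S hζ.1 β).memLp hu'),
    integral_sub (integrable_inner_memLp hζ.1.memLp hv) (integrable_inner_memLp hζ.1.memLp hv'),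
    h ζ hζ, h' ζ hζ]

theorem res2 [CompleteSpace K] (S : Setup r K) (hrem : Rem2Stmt S) : Res2Stmt S := by
  intro L hL c φ φ₀ w v hc hφ hφ₀ hw hv h1 h2 h0
  have hrem1 := rem_of_rem2 S hrem
  have g1 : ∀ β, S.wF ∅ β (fun x => w x - φ₀ x) (v β) := by
    intro β
    have a1 := hrem1 L hL β w (v β) hw (hv β) (h1 β)
    have a2 := hrem1 L hL β φ₀ (fun _ => 0) hφ₀ MemLp.zero (h0 β)
    have := wF_sub S hw hφ₀ (hv β) MemLp.zero a1 a2
    simpa using this
  have g2 := hrem L hL v (fun x => (c : ℂ) • (φ x - w x)) hv ((hφ.sub hw).const_smul (c : ℂ)) h2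
  refine res_core S Finset.univ hc (φ := fun x => φ x - φ₀ x) (v := v) (hφ.sub hφ₀) (hw.sub hφ₀)
    (fun β _ => hv β) (fun β _ => g1 β) fun ζ hζ => ?_
  rw [g2 ζ hζ]
  refine integral_congr_ae (Eventually.of_forall fun x => ?_)
  simp only
  congr 2
  abel

theorem res [CompleteSpace K] (S : Setup r K) (hrem : Rem2Stmt S) : ResStmt S := by
  intro L hL β φ φ₀ w v hφ hφ₀ hw hv h1 h2 h0
  have hrem1 := rem_of_rem2 S hrem
  have g1 : S.wF ∅ β (fun x => w x - φ₀ x) v := by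
    have a1 := hrem1 L hL β w v hw hv h1
    have a2 := hrem1 L hL β φ₀ (fun _ => 0) hφ₀ MemLp.zero h0
    have := wF_sub S hw hφ₀ hv MemLp.zero a1 a2
    simpa using this
  have g2 := hrem1 L hL β v (fun x => φ x - w x) hv (hφ.sub hw) h2
  refine res_core S {β} one_pos (φ := fun x => φ x - φ₀ x) (v := fun _ => v) (hφ.sub hφ₀)
    (hw.sub hφ₀) (fun _ _ => hv) (fun b hb => ?_) fun ζ hζ => ?_
  · rw [Finset.mem_singleton] at hb
    rw [hb]; exact g1
  · rw [Finset.sum_singleton, g2 ζ (TstOff_empty.2 hζ)]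
    refine integral_congr_ae (Eventually.of_forall fun x => ?_)
    simp only [Complex.ofReal_one, one_smul]
    congr 1
    abel

end Vale.Agent.P353.Z.AF
end

section

/-! # P353, all `N`, block F: the Gaussian zero modes -/

open MeasureTheory Filter Topology
open scoped ContDiff

namespace Vale.Agent.P353.Z.AF

variable {r : ℕ} {K : Type*} [NormedAddCommGroup K] [InnerProductSpace ℂ K]

open Vale.Agent.P353.Z.Moll Vale.Agent.P353.Z.U.HB Vale.Agent.P353.Z.U.WS

lemma aw_ge (i : Fin 9) : 1 ≤ aw i := by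
  unfold aw; split_ifs <;> norm_num

lemma gss_pos (x : Cfg r) : 0 < gss x := Real.exp_pos _

lemma contDiff_q : ContDiff ℝ ∞ (fun x : Cfg r => -(1 / 2 : ℝ) * ∑ i, ∑ A, aw i * x (i, A) ^ 2) :=
  contDiff_const.mul (ContDiff.sum fun i _ => ContDiff.sum fun A _ =>
    contDiff_const.mul ((Setup.contDiff_coord (i, A)).pow 2))

lemma contDiff_gss : ContDiff ℝ ∞ (gss : Cfg r → ℝ) := contDiff_q.exp

lemma pdr_gss (i : Fin 9) (A : Fin r) (x : Cfg r) :
    pdr i A gss x = -(aw i * x (i, A)) * gss x := by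
  have hc : ∀ p : Fin 9 × Fin r, HasFDerivAt (fun y : Cfg r => y p)
      (EuclideanSpace.proj p : Cfg r →L[ℝ] ℝ) x := fun p =>
    (EuclideanSpace.proj p : Cfg r →L[ℝ] ℝ).hasFDerivAt
  have h1 : ∀ p : Fin 9 × Fin r, HasFDerivAt (fun y : Cfg r => aw p.1 * y p ^ 2)
      ((aw p.1 * (2 * x p)) • (EuclideanSpace.proj p : Cfg r →L[ℝ] ℝ)) x := by
    intro p
    have := ((hc p).pow 2).const_mul (aw p.1)
    refine this.congr_fderiv ?_
    ext v
    simp
    ring
  have h2 : HasFDerivAt (fun y : Cfg r => ∑ i, ∑ A, aw i * y (i, A) ^ 2)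
      (∑ i, ∑ A, (aw i * (2 * x (i, A))) • (EuclideanSpace.proj (i, A) : Cfg r →L[ℝ] ℝ)) x :=
    HasFDerivAt.fun_sum fun i _ => HasFDerivAt.fun_sum fun A _ => h1 (i, A)
  have h3 := (h2.const_mul (-(1 / 2 : ℝ))).exp
  have h4 : fderiv ℝ (gss : Cfg r → ℝ) x = _ := h3.fderiv
  unfold pdr
  rw [h4]
  have h5 : (∑ j, ∑ B, (aw j * (2 * x (j, B))) • (EuclideanSpace.proj (j, B) : Cfg r →L[ℝ] ℝ))
      (EuclideanSpace.single (i, A) (1 : ℝ)) = aw i * (2 * x (i, A)) := by
    simp only [_root_.sum_apply, _root_.smul_apply, smul_eq_mul]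
    rw [Finset.sum_eq_single i, Finset.sum_eq_single A]
    · simp
    · intro B _ hB
      simp [hB]
    · intro h; exact absurd (Finset.mem_univ _) h
    · intro j _ hj
      refine Finset.sum_eq_zero fun B _ => ?_
      simp [hj]
    · intro h; exact absurd (Finset.mem_univ _) h
  rw [_root_.smul_apply, _root_.smul_apply, h5]
  simp only [smul_eq_mul]
  unfold gss
  ring

/-- algebraic form of the vacuum condition -/
lemma vac_vec (S : Setup r K) {w : K} (hw : ∀ A α, S.amF A α w = 0) (i : Fin 9) (A : Fin r)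
    (β : Fin 16) : Complex.I • S.vec (S.g i) A β w + S.vec (S.g i * S.Gam) A β w = 0 := by
  have h1 : ∀ γ, S.vec S.Gam A γ w = -(Complex.I • S.th γ A w) := by
    intro γ
    have h2 := hw A γ
    rw [Setup.amF, _root_.sub_apply, _root_.smul_apply, sub_eq_zero] at h2
    rw [h2, smul_smul, Complex.I_mul_I, neg_one_smul, neg_neg]
  have h3 : S.vec (S.g i * S.Gam) A β w = ∑ γ, S.g i β γ • S.vec S.Gam A γ w := by
    simp only [CS.vec, _root_.sum_apply, _root_.smul_apply, Finset.smul_sum, Matrix.mul_apply,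
      Finset.sum_smul, smul_smul]
    rw [Finset.sum_comm]
  have h4 : S.vec (S.g i) A β w = ∑ γ, S.g i β γ • S.th γ A w := by
    simp only [CS.vec, _root_.sum_apply, _root_.smul_apply]
  rw [h3, h4, Finset.smul_sum, ← Finset.sum_add_distrib]
  simp only [h1]
  refine Finset.sum_eq_zero fun γ _ => ?_
  rw [smul_neg, smul_smul, smul_smul, mul_comm (S.g i β γ) Complex.I, add_neg_cancel]

lemma pd_gss (w : K) (i : Fin 9) (A : Fin r) (x : Cfg r) :
    pd i A (fun x : Cfg r => (gss x : ℂ) • w) x = ((-(aw i * x (i, A)) * gss x : ℝ) : ℂ) • w := by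
  have h1 : DifferentiableAt ℝ (gss : Cfg r → ℝ) x := contDiff_gss.differentiable (by simp) x
  have h6 := pd_rsmul (i := i) (A := A) (φ := (gss : Cfg r → ℝ)) (u := fun _ => w) (x := x)
    h1 (differentiableAt_const w)
  have h7 : pd i A (fun _ : (Cfg r) => w) x = 0 := by simp [pd]
  rw [h7, smul_zero, add_zero] at h6
  have h8 : pd i A (fun x : Cfg r => (gss x : ℂ) • w) x = _ := h6
  rw [h8]
  congr 2
  exact pdr_gss i A x

lemma FD_gss_eq (S : Setup r K) (w : K) (β : Fin 16) (x : Cfg r) :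
    S.FD β (fun x => (gss x : ℂ) • w) x = ∑ i, ∑ A, ((aw i * x (i, A) * gss x : ℝ) : ℂ) •
      (Complex.I • S.vec (S.g i) A β w + S.vec (S.g i * S.Gam) A β w) := by
  rw [Setup.FD, Setup.Q0, Setup.MM]
  simp only [pd_gss, map_smul, Finset.smul_sum, _root_.sum_apply, _root_.smul_apply]
  rw [← Finset.sum_add_distrib]
  refine Finset.sum_congr rfl fun i _ => ?_
  rw [← Finset.sum_add_distrib]
  refine Finset.sum_congr rfl fun A _ => ?_
  rw [smul_add, smul_smul, smul_smul, smul_smul]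
  congr 2 <;> push_cast <;> ring

lemma FD_gss (S : Setup r K) {w : K} (hw : ∀ A α, S.amF A α w = 0) (β : Fin 16) (x : Cfg r) :
    S.FD β (fun x => (gss x : ℂ) • w) x = 0 := by
  rw [FD_gss_eq]
  refine Finset.sum_eq_zero fun i _ => Finset.sum_eq_zero fun A _ => ?_
  rw [vac_vec S hw, smul_zero]

lemma sum_aw_ge (x : Cfg r) : ‖x‖ ^ 2 ≤ ∑ i, ∑ A, aw i * x (i, A) ^ 2 := by
  rw [EuclideanSpace.norm_sq_eq, Fintype.sum_prod_type]
  refine Finset.sum_le_sum fun i _ => Finset.sum_le_sum fun A _ => ?_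
  rw [Real.norm_eq_abs, sq_abs]
  nlinarith [aw_ge i, sq_nonneg (x (i, A))]

lemma int_exp {c : ℝ} (hc : 0 < c) : Integrable fun x : (Cfg r) => Real.exp (-(c * ‖x‖ ^ 2)) := by
  have := GaussianFourier.integrable_cexp_neg_mul_sq_norm_add (V := (Cfg r)) (b := (c : ℂ))
    (by simpa using hc) 0 0
  have h2 := this.re
  refine h2.congr (Eventually.of_forall fun x => ?_)
  simp only [inner_zero_left, Complex.ofReal_zero, mul_zero, add_zero]
  rw [show (-(c : ℂ) * (‖x‖ : ℂ) ^ 2) = ((-(c * ‖x‖ ^ 2) : ℝ) : ℂ) by push_cast; ring,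
    ← Complex.ofReal_exp]
  exact Complex.ofReal_re _

lemma memLp_gss (w : K) : MemLp (fun x : Cfg r => (gss x : ℂ) • w) 2 (volume : Measure (Cfg r)) := by
  have hm : AEStronglyMeasurable (fun x : Cfg r => (gss x : ℂ) • w) volume :=
    ((Complex.continuous_ofReal.comp contDiff_gss.continuous).smul
      continuous_const).aestronglyMeasurable
  refine (memLp_two_iff_integrable_sq_norm hm).mpr ?_
  refine ((int_exp (r := r) one_pos).mul_const (‖w‖ ^ 2)).mono' (hm.norm.pow 2)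
    (Eventually.of_forall fun x => ?_)
  rw [Real.norm_of_nonneg (by positivity), norm_smul, Complex.norm_real,
    Real.norm_of_nonneg (gss_pos x).le, mul_pow]
  refine mul_le_mul_of_nonneg_right ?_ (by positivity)
  unfold gss
  rw [← Real.exp_nat_mul]
  refine Real.exp_le_exp.2 ?_
  have := sum_aw_ge x
  push_cast
  linarith

theorem gssS (S : Setup r K) : GssStmt S := by
  intro w hw
  have hs : ContDiff ℝ ∞ (fun x : Cfg r => (gss x : ℂ) • w) :=
    (Setup.contDiff_ofReal contDiff_gss).smul contDiff_const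
  refine ⟨hs, memLp_gss w, FD_gss S hw, fun L β ζ hζ => ?_⟩
  rw [FD_symm S β ζ _ hζ.1 hs]
  simp only [FD_gss S hw, inner_zero_right]

end Vale.Agent.P353.Z.AF
end

section

/-! # P353, all `N`, block F: test functions off the collisions are dense in the graph norm -/

open MeasureTheory Filter Topology
open scoped ContDiff

namespace Vale.Agent.P353.Z.AF

variable {r : ℕ} {K : Type*} [NormedAddCommGroup K] [InnerProductSpace ℂ K]

open Vale.Agent.P353.Z.Moll Vale.Agent.P353.Z.U.HB Vale.Agent.P353.Z.U.WS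

lemma esaD_sq (S : Setup r K) (η : Cfg r → ℝ) (β : Fin 16) (x : Cfg r) (v : K) :
    ‖S.esaD η β x v‖ ^ 2 ≤ (∑ i, ∑ A, pdr i A η x ^ 2) *
      (∑ i, ∑ A, ‖S.vec (S.g i) A β‖ ^ 2) * ‖v‖ ^ 2 := by
  have h1 : ‖S.esaD η β x‖ ≤ ∑ p : Fin 9 × Fin r, |pdr p.1 p.2 η x| * ‖S.vec (S.g p.1) p.2 β‖ := by
    unfold Setup.esaD
    rw [norm_smul, Complex.norm_I, one_mul, Fintype.sum_prod_type]
    refine (norm_sum_le _ _).trans (Finset.sum_le_sum fun i _ => ?_)
    refine (norm_sum_le _ _).trans (Finset.sum_le_sum fun A _ => ?_)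
    rw [norm_smul, Complex.norm_real, Real.norm_eq_abs]
  have h2 : (∑ p : Fin 9 × Fin r, |pdr p.1 p.2 η x| * ‖S.vec (S.g p.1) p.2 β‖) ^ 2 ≤
      (∑ i, ∑ A, pdr i A η x ^ 2) * (∑ i, ∑ A, ‖S.vec (S.g i) A β‖ ^ 2) := by
    refine (Finset.sum_mul_sq_le_sq_mul_sq _ _ _).trans (le_of_eq ?_)
    simp only [sq_abs, Fintype.sum_prod_type]
  calc ‖S.esaD η β x v‖ ^ 2 ≤ (‖S.esaD η β x‖ * ‖v‖) ^ 2 :=
        pow_le_pow_left₀ (norm_nonneg _) ((S.esaD η β x).le_opNorm v) 2
    _ = ‖S.esaD η β x‖ ^ 2 * ‖v‖ ^ 2 := by ring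
    _ ≤ _ := by
        refine mul_le_mul_of_nonneg_right ?_ (sq_nonneg _)
        exact (pow_le_pow_left₀ (norm_nonneg _) h1 2).trans h2

/-- multiplication by functions `0 ≤ η_n ≤ 1` that tend to `1` almost everywhere -/
lemma eta_L2t {η : ℕ → Cfg r → ℝ} (hη : ∀ n, Continuous (η n)) (h01 : ∀ n y, 0 ≤ η n y ∧ η n y ≤ 1)
    (h1 : ∀ᵐ y ∂(volume : Measure (Cfg r)), ∀ᶠ n in atTop, η n y = 1) {f : Cfg r → K}
    (hf : MemLp f 2 (volume : Measure (Cfg r))) :
    L2t (fun n x => ((η n x : ℝ) : ℂ) • f x) f := by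
  have hm : ∀ n, AEStronglyMeasurable (fun x => ((η n x : ℝ) : ℂ) • f x) volume := fun n =>
    (Complex.continuous_ofReal.comp (hη n)).aestronglyMeasurable.smul hf.1
  refine ⟨fun n => ?_, hf, ?_⟩
  · refine MemLp.of_le hf (hm n) (Eventually.of_forall fun x => ?_)
    rw [norm_smul, Complex.norm_real, Real.norm_of_nonneg (h01 n x).1]
    exact mul_le_of_le_one_left (norm_nonneg _) (h01 n x).2
  · have h2 : ∀ n x, ‖((η n x : ℝ) : ℂ) • f x - f x‖ ^ 2 ≤ ‖f x‖ ^ 2 := by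
      intro n x
      have e : ((η n x : ℝ) : ℂ) • f x - f x = ((η n x - 1 : ℝ) : ℂ) • f x := by
        push_cast
        rw [sub_smul, one_smul]
      rw [e, norm_smul, Complex.norm_real, mul_pow, Real.norm_eq_abs, sq_abs]
      have h3 : (η n x - 1) ^ 2 ≤ 1 := by nlinarith [(h01 n x).1, (h01 n x).2]
      calc (η n x - 1) ^ 2 * ‖f x‖ ^ 2 ≤ 1 * ‖f x‖ ^ 2 := by gcongr
        _ = _ := one_mul _
    have h3 := tendsto_integral_of_dominated_convergence (μ := (volume : Measure (Cfg r)))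
      (F := fun n x => ‖((η n x : ℝ) : ℂ) • f x - f x‖ ^ 2) (f := fun _ => (0 : ℝ))
      (fun x => ‖f x‖ ^ 2) (fun n => (((hm n).sub hf.1).norm).pow 2) (memLp_norm_sq_int hf)
      (fun n => Eventually.of_forall fun x => by
        rw [Real.norm_of_nonneg (by positivity)]; exact h2 n x) ?_
    · simpa [nsq] using h3
    · filter_upwards [h1] with x hx
      refine tendsto_const_nhds.congr' ?_
      filter_upwards [hx] with n hn
      rw [hn]
      simp

/-- test functions supported off the collisions are dense in the graph norm -/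
theorem den (hcut : CutStmt r) (S : Setup r K) (L : Finset (Fin r → ℝ)) (hL : ∀ l ∈ L, l ≠ 0)
    {v : Cfg r → K} (hv : Setup.Tst v) : ∃ ζ : ℕ → Cfg r → K, (∀ n, TstOff L (ζ n)) ∧ L2t ζ v ∧
      ∀ β, L2t (fun n => S.FD β (ζ n)) (S.FD β v) := by
  obtain ⟨η, hη, h01, hd, h1, hae, hgr⟩ := hcut L hL
  have h1' : ∀ᵐ y ∂(volume : Measure (Cfg r)), ∀ᶠ n in atTop, η n y = 1 := by
    filter_upwards [hae] with y hy using h1 y hy
  have hT : ∀ n, Setup.Tst (fun x => ((η n x : ℝ) : ℂ) • v x) := fun n => hv.rsmul (hη n)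
  refine ⟨fun n x => ((η n x : ℝ) : ℂ) • v x, fun n => ⟨hT n, ?_⟩,
    eta_L2t (fun n => (hη n).continuous) h01 h1' hv.memLp, fun β => ?_⟩
  · refine (hd n).mono_left (closure_mono fun x hx => ?_)
    simp only [Function.mem_support] at hx ⊢
    intro h0
    exact hx (by simp [h0])
  · have e : ∀ n x, S.FD β (fun x => ((η n x : ℝ) : ℂ) • v x) x =
        ((η n x : ℝ) : ℂ) • S.FD β v x + -(S.esaD (η n) β x (v x)) := by
      intro n x
      rw [FD_smul S β (η n) v x ((hη n).differentiable (by simp) x) (hv.diff x), sub_eq_add_neg]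
    have a1 := eta_L2t (fun n => (hη n).continuous) h01 h1' (Tst_FD S hv β).memLp
    have hTe : ∀ n, Setup.Tst (fun x => -(S.esaD (η n) β x (v x))) := by
      intro n
      have h2 : Setup.Tst (fun x => (S.esaD (η n) β x) (v x)) :=
        Setup.Tst.clm (S.esa_contDiff_D (hη n) β) hv
      refine ⟨h2.1.neg, ?_⟩
      exact h2.2.neg
    have a2 : L2t (fun n x => -(S.esaD (η n) β x (v x))) (fun _ => 0) := by
      refine zero_L2t hTe ?_
      obtain ⟨s, hs⟩ := hv.2.isCompact.isBounded.subset_ball (0 : Cfg r)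
      obtain ⟨M, hM⟩ := hv.2.exists_bound_of_continuous hv.1.continuous
      set c : ℝ := (∑ i, ∑ A, ‖S.vec (S.g i) A β‖ ^ 2) * M ^ 2 with hc
      have hc0 : 0 ≤ c := by positivity
      set s' : ℝ := max s 1 with hs'
      have hs1 : 0 < s' := lt_of_lt_of_le one_pos (le_max_right _ _)
      have hv0 : ∀ x, x ∉ Metric.ball (0 : Cfg r) s' → v x = 0 := by
        intro x hx
        by_contra hne
        exact hx (Metric.ball_subset_ball (le_max_left _ _) (hs (subset_tsupport _ hne)))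
      have hb : ∀ n, ∫ x, ‖-(S.esaD (η n) β x (v x))‖ ^ 2 ≤
          c * ∑ i, ∑ A, ∫ y in Metric.ball (0 : Cfg r) s', pdr i A (η n) y ^ 2 := by
        intro n
        have hi : ∀ i A, IntegrableOn (fun y => pdr i A (η n) y ^ 2) (Metric.ball (0 : Cfg r) s') := by
          intro i A
          have hc2 : Continuous (fun y => pdr i A (η n) y ^ 2) :=
            (esa_pdr_smooth (hη n) i A).continuous.pow 2
          exact (hc2.locallyIntegrable.integrableOn_isCompact
            (isCompact_closedBall (0 : Cfg r) s')).mono_set Metric.ball_subset_closedBall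
        have e1 : ∑ i, ∑ A, ∫ y in Metric.ball (0 : Cfg r) s', pdr i A (η n) y ^ 2 =
            ∫ y in Metric.ball (0 : Cfg r) s', ∑ i, ∑ A, pdr i A (η n) y ^ 2 := by
          rw [integral_finsetSum _ fun i _ => integrable_finsetSum _ fun A _ => hi i A]
          exact Finset.sum_congr rfl fun i _ => (integral_finsetSum _ fun A _ => hi i A).symm
        rw [e1, ← integral_const_mul, ← integral_indicator Metric.isOpen_ball.measurableSet]
        refine integral_mono_of_nonneg (Eventually.of_forall fun x => by positivity) ?_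
          (Eventually.of_forall fun x => ?_)
        · refine (integrable_indicator_iff Metric.isOpen_ball.measurableSet).2 ?_
          exact (integrable_finsetSum _ fun i _ => integrable_finsetSum _ fun A _ => hi i A).const_mul c
        · simp only
          by_cases hx : x ∈ Metric.ball (0 : Cfg r) s'
          · rw [Set.indicator_of_mem hx, norm_neg]
            refine (esaD_sq S (η n) β x (v x)).trans ?_
            have h3 : ‖v x‖ ^ 2 ≤ M ^ 2 := pow_le_pow_left₀ (norm_nonneg _) (hM x) 2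
            have h4 : 0 ≤ ∑ i, ∑ A, pdr i A (η n) x ^ 2 := by positivity
            have h5 : 0 ≤ ∑ i, ∑ A, ‖S.vec (S.g i) A β‖ ^ 2 := by positivity
            calc (∑ i, ∑ A, pdr i A (η n) x ^ 2) * (∑ i, ∑ A, ‖S.vec (S.g i) A β‖ ^ 2) * ‖v x‖ ^ 2
                ≤ (∑ i, ∑ A, pdr i A (η n) x ^ 2) * (∑ i, ∑ A, ‖S.vec (S.g i) A β‖ ^ 2) * M ^ 2 :=
                  mul_le_mul_of_nonneg_left h3 (mul_nonneg h4 h5)
              _ = _ := by rw [hc]; ring
          · rw [Set.indicator_of_notMem hx, hv0 x hx]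
            simp
      refine squeeze_zero (fun n => integral_nonneg fun x => by positivity) hb ?_
      simpa using (hgr s' hs1).const_mul c
    have a3 := a1.add a2
    have e2 : (fun n => S.FD β (fun x => ((η n x : ℝ) : ℂ) • v x)) =
        fun n x => ((η n x : ℝ) : ℂ) • S.FD β v x + -(S.esaD (η n) β x (v x)) := by
      funext n x
      exact e n x
    rw [e2]
    simpa using a3

/-- **F-App** -/
theorem app (hcut : CutStmt r) (S : Setup r K) : AppStmt S := by
  intro L hL w hw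
  obtain ⟨κ, hκ0, hκ⟩ := exists_rc
  have hch : ∀ n : ℕ, ∃ h : ℝ → ℝ, IsRC κ ((n : ℝ) + 1) h := fun n => hκ _ (by positivity)
  choose h hh using hch
  set u : Cfg r → K := fun x => (gss x : ℂ) • w with hu
  have hus : ContDiff ℝ ∞ u := (Setup.contDiff_ofReal contDiff_gss).smul contDiff_const
  have hum : MemLp u 2 (volume : Measure (Cfg r)) := memLp_gss w
  set z : ℕ → Cfg r → K := fun n x => ((rad (h n) x : ℝ) : ℂ) • u x with hz
  have hT : ∀ n, Setup.Tst (z n) := by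
    intro n
    refine ⟨(Setup.contDiff_ofReal (contDiff_rad (hh n).contDiff)).smul hus, ?_⟩
    refine HasCompactSupport.intro (isCompact_closedBall (0 : Cfg r) ((n : ℝ) + 1)) fun x hx => ?_
    rw [Metric.mem_closedBall, dist_zero_right, not_le] at hx
    simp only [hz]
    rw [(hh n).zero x hx.le, Complex.ofReal_zero, zero_smul]
  have hd := fun n => den hcut S L hL (hT n)
  choose ζ hζ1 hζ2 hζ3 using hd
  have hpick : ∀ n : ℕ, ∃ k, nsq (fun x => ζ n k x - z n x) ≤ 1 / ((n : ℝ) + 1) ∧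
      ∀ β, nsq (fun x => S.FD β (ζ n k) x - S.FD β (z n) x) ≤ 1 / ((n : ℝ) + 1) := by
    intro n
    have hp : (0 : ℝ) < 1 / ((n : ℝ) + 1) := by positivity
    have e1 := (hζ2 n).lim.eventually (ge_mem_nhds hp)
    have e2 : ∀ β, ∀ᶠ k in atTop, nsq (fun x => S.FD β (ζ n k) x - S.FD β (z n) x) ≤
        1 / ((n : ℝ) + 1) := fun β => (hζ3 n β).lim.eventually (ge_mem_nhds hp)
    exact (e1.and (eventually_all.2 e2)).exists
  choose k hk1 hk2 using hpick
  have hlim1 : Tendsto (fun n : ℕ => 1 / ((n : ℝ) + 1)) atTop (𝓝 0) :=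
    tendsto_one_div_add_atTop_nhds_zero_nat
  refine ⟨fun n => ζ n (k n), fun n => hζ1 n (k n), ⟨fun n => (hζ1 n (k n)).1.memLp, hum, ?_⟩,
    fun β => ⟨fun n => (Tst_FD S (hζ1 n (k n)).1 β).memLp, MemLp.zero, ?_⟩⟩
  · have hb : ∀ n, nsq (fun x => ζ n (k n) x - u x) ≤ 2 * (1 / ((n : ℝ) + 1)) +
        2 * nsq (fun x => ((rad (h n) x : ℝ) : ℂ) • u x - u x) := by
      intro n
      have m1 : MemLp (fun x => ζ n (k n) x - z n x) 2 (volume : Measure (Cfg r)) :=
        (hζ1 n (k n)).1.memLp.sub (hT n).memLp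
      have m2 : MemLp (fun x => z n x - u x) 2 (volume : Measure (Cfg r)) := (hT n).memLp.sub hum
      have e1 := nsq_add_le m1 m2
      have e2 : (fun x => ζ n (k n) x - u x) = fun x => (ζ n (k n) x - z n x) + (z n x - u x) := by
        funext x; abel
      rw [e2]
      exact e1.trans (add_le_add (mul_le_mul_of_nonneg_left (hk1 n) (by norm_num)) le_rfl)
    refine squeeze_zero (fun n => nsq_nonneg _) hb ?_
    have := (hlim1.const_mul 2).add ((cut_tendsto hum hh).const_mul 2)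
    simpa using this
  · have hDc : ∀ n, Continuous (fun x => S.esaD (rad (h n)) β x) := fun n =>
      (S.esa_contDiff_D (contDiff_rad (hh n).contDiff) β).continuous
    have hDb : ∀ n x, ‖S.esaD (rad (h n)) β x‖ ≤ κ / ((n : ℝ) + 1) * S.esaC β := fun n x =>
      D_norm S (fun j A y => (hh n).grad j A y) β x
    have hFz : ∀ n x, S.FD β (z n) x = -(S.esaD (rad (h n)) β x (u x)) := by
      intro n x
      have e3 : S.FD β (z n) x = ((rad (h n) x : ℝ) : ℂ) • S.FD β u x -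
          S.esaD (rad (h n)) β x (u x) :=
        FD_smul S β (rad (h n)) u x ((contDiff_rad (hh n).contDiff).differentiable (by simp) x)
          (hus.differentiable (by simp) x)
      rw [e3, hu, FD_gss S hw, smul_zero, zero_sub]
    have hb : ∀ n, nsq (fun x => S.FD β (ζ n (k n)) x - 0) ≤ 2 * (1 / ((n : ℝ) + 1)) +
        2 * ((κ / ((n : ℝ) + 1) * S.esaC β) ^ 2 * nsq u) := by
      intro n
      have m1 : MemLp (fun x => S.FD β (ζ n (k n)) x - S.FD β (z n) x) 2 (volume : Measure (Cfg r)) :=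
        (Tst_FD S (hζ1 n (k n)).1 β).memLp.sub (Tst_FD S (hT n) β).memLp
      have e1 := nsq_add_le m1 (Tst_FD S (hT n) β).memLp
      have e2 : (fun x => S.FD β (ζ n (k n)) x - 0) =
          fun x => (S.FD β (ζ n (k n)) x - S.FD β (z n) x) + S.FD β (z n) x := by
        funext x; simp
      rw [e2]
      refine e1.trans (add_le_add (mul_le_mul_of_nonneg_left (hk2 n β) (by norm_num))
        (mul_le_mul_of_nonneg_left ?_ (by norm_num)))
      have e3 : nsq (S.FD β (z n)) = nsq (fun x => S.esaD (rad (h n)) β x (u x)) := by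
        unfold nsq
        refine integral_congr_ae (Eventually.of_forall fun x => ?_)
        simp only [hFz, norm_neg]
      rw [e3]
      exact nsq_op_le (hDb n) hum
    refine squeeze_zero (fun n => nsq_nonneg _) hb ?_
    have hl3 : Tendsto (fun n : ℕ => (κ / ((n : ℝ) + 1) * S.esaC β) ^ 2 * nsq u) atTop (𝓝 0) := by
      have h1 : ∀ n : ℕ, (κ / ((n : ℝ) + 1) * S.esaC β) ^ 2 * nsq u =
          (κ * S.esaC β * (1 / ((n : ℝ) + 1))) ^ 2 * nsq u := fun n => by ring
      simp only [h1]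
      have := ((hlim1.const_mul (κ * S.esaC β)).pow 2).mul_const (nsq u)
      simpa using this
    have := (hlim1.const_mul 2).add (hl3.const_mul 2)
    simpa using this

end Vale.Agent.P353.Z.AF
end

section

/-! # P353, all `N`, block F: cutoffs near the collision set (F-Cut, owner helper777) -/

open MeasureTheory Filter Topology
open scoped ContDiff

namespace Vale.Agent.P353.Z.AF

namespace CutAux

variable {r : ℕ}

/-- `y ↦ (∑_A l_A y_{iA})_{i<8}` -/
noncomputable def TL (l : Fin r → ℝ) : Cfg r →L[ℝ] EuclideanSpace ℝ (Fin 8) :=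
  LinearMap.toContinuousLinearMap
    { toFun := fun y => WithLp.toLp 2 (fun i => ∑ A, l A * y (i.castSucc, A))
      map_add' := by
        intro x y; ext i; simp [mul_add, Finset.sum_add_distrib]
      map_smul' := by
        intro c x; ext i; simp [Finset.mul_sum, mul_left_comm] }

lemma TL_apply (l : Fin r → ℝ) (y : Cfg r) (i : Fin 8) :
    TL l y i = ∑ A, l A * y (i.castSucc, A) := rfl

/-- the profile -/
noncomputable def psi (t : EuclideanSpace ℝ (Fin 8)) : ℝ := Real.smoothTransition (‖t‖ ^ 2 - 1)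

lemma psi_smooth : ContDiff ℝ ∞ psi :=
  Real.smoothTransition.contDiff.comp ((contDiff_norm_sq ℝ).sub contDiff_const)

lemma psi_nonneg (t : EuclideanSpace ℝ (Fin 8)) : 0 ≤ psi t := Real.smoothTransition.nonneg _

lemma psi_le_one (t : EuclideanSpace ℝ (Fin 8)) : psi t ≤ 1 := Real.smoothTransition.le_one _

lemma psi_eq_zero {t : EuclideanSpace ℝ (Fin 8)} (h : ‖t‖ ^ 2 ≤ 1) : psi t = 0 :=
  Real.smoothTransition.zero_of_nonpos (by linarith)

lemma psi_eq_one {t : EuclideanSpace ℝ (Fin 8)} (h : 2 ≤ ‖t‖ ^ 2) : psi t = 1 :=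
  Real.smoothTransition.one_of_one_le (by linarith)

lemma psi_lip : ∃ K : ℝ, 0 ≤ K ∧ ∀ x y, |psi x - psi y| ≤ K * ‖x - y‖ := by
  have h1 : ContDiff ℝ ∞ (fun t => psi t - 1) := psi_smooth.sub contDiff_const
  have h2 : HasCompactSupport (fun t => psi t - 1) := by
    refine HasCompactSupport.intro (isCompact_closedBall (0 : EuclideanSpace ℝ (Fin 8)) 2) ?_
    intro t ht
    have : 2 < ‖t‖ := by simpa using ht
    rw [psi_eq_one (by nlinarith), sub_self]
  obtain ⟨C, hC⟩ := ContDiff.lipschitzWith_of_hasCompactSupport h2 h1 (by simp)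
  refine ⟨C, C.2, fun x y => ?_⟩
  have := hC.dist_le_mul x y
  rwa [dist_sub_right, Real.dist_eq, dist_eq_norm] at this

lemma prod_lip {ι : Type*} (s : Finset ι) (a b : ι → ℝ) (ha : ∀ i ∈ s, 0 ≤ a i ∧ a i ≤ 1)
    (hb : ∀ i ∈ s, 0 ≤ b i ∧ b i ≤ 1) :
    |∏ i ∈ s, a i - ∏ i ∈ s, b i| ≤ ∑ i ∈ s, |a i - b i| := by
  classical
  induction s using Finset.induction_on with
  | empty => simp
  | insert i s his ih =>
    rw [Finset.prod_insert his, Finset.prod_insert his, Finset.sum_insert his]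
    have e : a i * ∏ j ∈ s, a j - b i * ∏ j ∈ s, b j =
        (a i - b i) * ∏ j ∈ s, a j + b i * (∏ j ∈ s, a j - ∏ j ∈ s, b j) := by ring
    have ha' : ∀ j ∈ s, 0 ≤ a j ∧ a j ≤ 1 := fun j hj => ha j (Finset.mem_insert_of_mem hj)
    have hb' : ∀ j ∈ s, 0 ≤ b j ∧ b j ≤ 1 := fun j hj => hb j (Finset.mem_insert_of_mem hj)
    rw [e]
    refine (abs_add_le _ _).trans (add_le_add ?_ ?_)
    · rw [abs_mul]
      refine mul_le_of_le_one_right (abs_nonneg _) ?_
      rw [abs_of_nonneg (Finset.prod_nonneg fun j hj => (ha' j hj).1)]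
      exact Finset.prod_le_one (fun j hj => (ha' j hj).1) (fun j hj => (ha' j hj).2)
    · rw [abs_mul]
      have h1 : |b i| ≤ 1 := by
        rw [abs_of_nonneg (hb i (Finset.mem_insert_self i s)).1]
        exact (hb i (Finset.mem_insert_self i s)).2
      exact (mul_le_of_le_one_left (abs_nonneg _) h1).trans (ih ha' hb')

/-- the cutoffs -/
noncomputable def eta (L : Finset (Fin r → ℝ)) (n : ℕ) (y : Cfg r) : ℝ :=
  ∏ l ∈ L, psi ((n : ℝ) • TL l y)

lemma eta_smooth (L : Finset (Fin r → ℝ)) (n : ℕ) : ContDiff ℝ ∞ (eta L n) := by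
  refine contDiff_prod fun l _ => ?_
  exact psi_smooth.comp ((TL l).contDiff.const_smul (n : ℝ))

lemma eta_mem (L : Finset (Fin r → ℝ)) (n : ℕ) (y : Cfg r) : 0 ≤ eta L n y ∧ eta L n y ≤ 1 :=
  ⟨Finset.prod_nonneg fun _ _ => psi_nonneg _,
    Finset.prod_le_one (fun _ _ => psi_nonneg _) fun _ _ => psi_le_one _⟩

lemma mem_Coll {L : Finset (Fin r → ℝ)} {y : Cfg r} : y ∈ Coll L ↔ ∃ l ∈ L, TL l y = 0 := by
  constructor
  · rintro ⟨l, hl, h⟩
    exact ⟨l, hl, by ext i; exact h i⟩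
  · rintro ⟨l, hl, h⟩
    refine ⟨l, hl, fun i => ?_⟩
    rw [← TL_apply, h]; rfl

lemma eta_disj (L : Finset (Fin r → ℝ)) (n : ℕ) : Disjoint (tsupport (eta L n)) (Coll L) := by
  rw [Set.disjoint_right]
  intro y hy
  obtain ⟨l, hl, h⟩ := mem_Coll.1 hy
  rw [notMem_tsupport_iff_eventuallyEq]
  have hc : Continuous fun z : Cfg r => ‖(n : ℝ) • TL l z‖ ^ 2 := by fun_prop
  have h0 : ‖(n : ℝ) • TL l y‖ ^ 2 < 1 := by rw [h]; simp
  filter_upwards [hc.continuousAt.eventually (gt_mem_nhds h0)] with z hz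
  exact Finset.prod_eq_zero hl (psi_eq_zero (le_of_lt hz))

lemma eta_ev (L : Finset (Fin r → ℝ)) {y : Cfg r} (hy : y ∉ Coll L) :
    ∀ᶠ n : ℕ in atTop, eta L n y = 1 := by
  have h : ∀ l ∈ L, ∀ᶠ n : ℕ in atTop, psi ((n : ℝ) • TL l y) = 1 := by
    intro l hl
    have h0 : TL l y ≠ 0 := fun h => hy (mem_Coll.2 ⟨l, hl, h⟩)
    have h1 : 0 < ‖TL l y‖ := norm_pos_iff.2 h0
    filter_upwards [tendsto_natCast_atTop_atTop.eventually_ge_atTop (2 / ‖TL l y‖)] with n hn
    apply psi_eq_one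
    have h2 : 2 ≤ (n : ℝ) * ‖TL l y‖ := by rwa [div_le_iff₀ h1] at hn
    rw [norm_smul, Real.norm_of_nonneg (Nat.cast_nonneg n)]
    nlinarith
  filter_upwards [(eventually_all_finset L).2 h] with n hn
  exact Finset.prod_eq_one fun l hl => hn l hl

lemma eta_lip (L : Finset (Fin r → ℝ)) : ∃ K : ℝ, 0 ≤ K ∧ ∀ (n : ℕ) (x y : Cfg r),
    |eta L n x - eta L n y| ≤ n * K * ‖x - y‖ := by
  obtain ⟨K, hK, hp⟩ := psi_lip
  refine ⟨K * ∑ l ∈ L, ‖TL l‖, by positivity, fun n x y => ?_⟩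
  refine (prod_lip L _ _ (fun _ _ => ⟨psi_nonneg _, psi_le_one _⟩)
    (fun _ _ => ⟨psi_nonneg _, psi_le_one _⟩)).trans ?_
  have : (n : ℝ) * (K * ∑ l ∈ L, ‖TL l‖) * ‖x - y‖ = ∑ l ∈ L, n * (K * ‖TL l‖) * ‖x - y‖ := by
    rw [Finset.mul_sum, Finset.mul_sum, Finset.sum_mul]
  rw [this]
  refine Finset.sum_le_sum fun l _ => (hp _ _).trans ?_
  rw [← smul_sub, ← map_sub, norm_smul, Real.norm_of_nonneg (Nat.cast_nonneg n)]
  have h1 := (TL l).le_opNorm (x - y)
  have h2 : (0 : ℝ) ≤ n := Nat.cast_nonneg n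
  calc K * (n * ‖TL l (x - y)‖) ≤ K * (n * (‖TL l‖ * ‖x - y‖)) := by gcongr
    _ = n * (K * ‖TL l‖) * ‖x - y‖ := by ring

/-- the bad set -/
def Bd (l : Fin r → ℝ) (n : ℕ) : Set (Cfg r) := {y | ‖(n : ℝ) • TL l y‖ ^ 2 ≤ 2}

lemma pdr_eta (L : Finset (Fin r → ℝ)) : ∃ K : ℝ, 0 ≤ K ∧ ∀ (n : ℕ) (i : Fin 9) (A : Fin r)
    (y : Cfg r), |pdr i A (eta L n) y| ≤ n * K := by
  obtain ⟨K, hK, h⟩ := eta_lip L
  refine ⟨K, hK, fun n i A y => ?_⟩
  have hl : LipschitzWith ⟨n * K, by positivity⟩ (eta L n) := by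
    refine LipschitzWith.of_dist_le_mul fun x y => ?_
    rw [Real.dist_eq, dist_eq_norm]
    exact h n x y
  have h1 : ‖fderiv ℝ (eta L n) y‖ ≤ n * K := norm_fderiv_le_of_lipschitz ℝ hl
  unfold pdr
  rw [← Real.norm_eq_abs]
  refine ((fderiv ℝ (eta L n) y).le_opNorm _).trans ?_
  rw [PiLp.norm_single, norm_one, mul_one]
  exact h1

lemma pdr_eta_zero (L : Finset (Fin r → ℝ)) (n : ℕ) (i : Fin 9) (A : Fin r)
    (y : Cfg r) (hy : ∀ l ∈ L, y ∉ Bd l n) : pdr i A (eta L n) y = 0 := by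
  have h : ∀ l ∈ L, ∀ᶠ z in 𝓝 y, psi ((n : ℝ) • TL l z) = 1 := by
    intro l hl
    have hc : Continuous fun z : Cfg r => ‖(n : ℝ) • TL l z‖ ^ 2 := by fun_prop
    have h0 : 2 < ‖(n : ℝ) • TL l y‖ ^ 2 := not_le.1 (hy l hl)
    filter_upwards [hc.continuousAt.eventually (lt_mem_nhds h0)] with z hz
    exact psi_eq_one (le_of_lt hz)
  have h2 : eta L n =ᶠ[𝓝 y] fun _ => (1 : ℝ) := by
    filter_upwards [(eventually_all_finset L).2 h] with z hz
    exact Finset.prod_eq_one fun l hl => hz l hl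
  unfold pdr
  rw [h2.fderiv_eq]
  simp

/-- replace the coordinates `(i, A0)`, `i < 8`, by `l(y_i)` -/
noncomputable def PhL (l : Fin r → ℝ) (A0 : Fin r) : Cfg r →ₗ[ℝ] Cfg r where
  toFun y := WithLp.toLp 2 (fun j => if j.2 = A0 ∧ j.1 ≠ Fin.last 8 then
    ∑ A, l A * y (j.1, A) else y j)
  map_add' x y := by
    ext j
    by_cases h : j.2 = A0 ∧ j.1 ≠ Fin.last 8
    · simp only [PiLp.add_apply, if_pos h, mul_add, Finset.sum_add_distrib]
    · simp only [PiLp.add_apply, if_neg h]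
  map_smul' c x := by
    ext j
    by_cases h : j.2 = A0 ∧ j.1 ≠ Fin.last 8
    · simp only [PiLp.smul_apply, if_pos h, smul_eq_mul, RingHom.id_apply, Finset.mul_sum]
      exact Finset.sum_congr rfl fun A _ => by ring
    · simp only [PiLp.smul_apply, if_neg h, RingHom.id_apply]

lemma PhL_apply (l : Fin r → ℝ) (A0 : Fin r) (y : Cfg r) (j : Fin 9 × Fin r) :
    PhL l A0 y j = if j.2 = A0 ∧ j.1 ≠ Fin.last 8 then ∑ A, l A * y (j.1, A) else y j := rfl

lemma PhL_det {l : Fin r → ℝ} {A0 : Fin r} (h : l A0 ≠ 0) : LinearMap.det (PhL l A0) ≠ 0 := by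
  have hinj : Function.Injective (PhL l A0) := by
    rw [injective_iff_map_eq_zero]
    intro y hy
    have h1 : ∀ i A, A ≠ A0 → y (i, A) = 0 := by
      intro i A hA
      have h2 : PhL l A0 y (i, A) = 0 := by rw [hy]; rfl
      rw [PhL_apply, if_neg (fun hh => hA hh.1)] at h2
      exact h2
    ext j
    obtain ⟨i, A⟩ := j
    by_cases hA : A = A0
    · subst hA
      have h2 : PhL l A y (i, A) = 0 := by rw [hy]; rfl
      by_cases hi : i = Fin.last 8
      · rw [PhL_apply, if_neg (fun hh => hh.2 hi)] at h2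
        exact h2
      · rw [PhL_apply, if_pos ⟨rfl, hi⟩, Finset.sum_eq_single A] at h2
        · exact (mul_eq_zero.1 h2).resolve_left h
        · intro B _ hB
          rw [h1 i B hB, mul_zero]
        · intro hh
          exact absurd (Finset.mem_univ A) hh
    · exact h1 i A hA
  have := LinearEquiv.isUnit_det' (LinearEquiv.ofInjectiveEndo (PhL l A0) hinj)
  have e : (LinearEquiv.ofInjectiveEndo (PhL l A0) hinj : Cfg r →ₗ[ℝ] Cfg r) = PhL l A0 := by
    ext; rfl
  rw [e] at this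
  exact this.ne_zero

lemma vol_Bd {l : Fin r → ℝ} (hl : l ≠ 0) {s : ℝ} (_hs : 0 < s) : ∃ C : ℝ, 0 ≤ C ∧ ∀ n : ℕ,
    1 ≤ n → (volume : Measure (Cfg r)).real (Metric.ball 0 s ∩ Bd l n) ≤ C * (1 / n) ^ 8 := by
  obtain ⟨A0, hA0⟩ := Function.ne_iff.1 hl
  have hA0' : l A0 ≠ 0 := by simpa using hA0
  have hdet := PhL_det (r := r) hA0'
  obtain ⟨s', hs'⟩ : ∃ s' : ℝ, s' = max s 2 := ⟨_, rfl⟩
  have hs1 : s ≤ s' := by rw [hs']; exact le_max_left _ _
  have hs2 : 2 ≤ s' := by rw [hs']; exact le_max_right _ _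
  refine ⟨|(LinearMap.det (PhL l A0))⁻¹| * ∏ _i : Fin 9, ∏ _A : Fin r, 2 * s', by positivity, ?_⟩
  intro n hn
  have hn0 : (0 : ℝ) < n := by exact_mod_cast hn
  let w : Fin 9 × Fin r → ℝ := fun j =>
    s' * (if j.2 = A0 then (if j.1 = Fin.last 8 then (1 : ℝ) else 1 / (n : ℝ)) else (1 : ℝ))
  have hw0 : ∀ j, 0 ≤ w j := fun j => by
    dsimp only [w]
    split_ifs <;> positivity
  let B : Set (Cfg r) := (@WithLp.ofLp 2 (Fin 9 × Fin r → ℝ)) ⁻¹' (Set.Icc (-w) w)
  have hsub : Metric.ball 0 s ∩ Bd l n ⊆ PhL l A0 ⁻¹' B := by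
    rintro y ⟨hy1, hy2⟩
    have hy3 : ‖y‖ < s := by simpa using hy1
    have hT : ‖TL l y‖ ≤ 2 / n := by
      have h1 : ‖(n : ℝ) • TL l y‖ ^ 2 ≤ 2 := hy2
      rw [norm_smul, Real.norm_of_nonneg hn0.le] at h1
      rw [le_div_iff₀ hn0]
      nlinarith [norm_nonneg (TL l y)]
    have hc : ∀ j, |PhL l A0 y j| ≤ w j := by
      rintro ⟨i, A⟩
      have hyj : |y (i, A)| ≤ s' := by
        have := PiLp.norm_apply_le y (i, A)
        rw [Real.norm_eq_abs] at this
        linarith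
      rw [PhL_apply]
      dsimp only [w]
      by_cases hA : A = A0
      · by_cases hi : i = Fin.last 8
        · rw [if_neg (fun hh => hh.2 hi), if_pos hA, if_pos hi, mul_one]
          exact hyj
        · rw [if_pos ⟨hA, hi⟩, if_pos hA, if_neg hi]
          obtain ⟨i', rfl⟩ := Fin.exists_castSucc_eq.2 hi
          rw [← TL_apply]
          have h1 := PiLp.norm_apply_le (TL l y) i'
          rw [Real.norm_eq_abs] at h1
          calc |TL l y i'| ≤ 2 / n := h1.trans hT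
            _ ≤ s' / n := by gcongr
            _ = s' * (1 / n) := by ring
      · rw [if_neg (fun hh => hA hh.1), if_neg hA, mul_one]
        exact hyj
    exact ⟨fun j => (abs_le.1 (hc j)).1, fun j => (abs_le.1 (hc j)).2⟩
  have hvB : (volume : Measure (Cfg r)) B = ENNReal.ofReal (∏ j, 2 * w j) := by
    rw [(PiLp.volume_preserving_ofLp (Fin 9 × Fin r)).measure_preimage
      measurableSet_Icc.nullMeasurableSet, Real.volume_Icc_pi,
      ENNReal.ofReal_prod_of_nonneg fun j _ => by have := hw0 j; positivity]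
    refine Finset.prod_congr rfl fun j _ => ?_
    rw [Pi.neg_apply, sub_neg_eq_add, ← two_mul]
  have hprod : ∏ j, 2 * w j = (∏ _i : Fin 9, ∏ _A : Fin r, 2 * s') * (1 / n) ^ 8 := by
    have h1 : ∀ j : Fin 9 × Fin r, 2 * w j =
        (2 * s') * (if j.2 = A0 then (if j.1 = Fin.last 8 then 1 else 1 / (n : ℝ)) else 1) := by
      intro j; simp only [w]; ring
    rw [Finset.prod_congr rfl fun j _ => h1 j, Finset.prod_mul_distrib, Fintype.prod_prod_type,
      Fintype.prod_prod_type]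
    congr 1
    have h2 : ∀ i : Fin 9, ∏ A : Fin r,
        (if A = A0 then (if i = Fin.last 8 then 1 else 1 / (n : ℝ)) else 1) =
        if i = Fin.last 8 then 1 else 1 / (n : ℝ) := by
      intro i
      rw [Finset.prod_ite_eq' Finset.univ A0 (fun _ => if i = Fin.last 8 then 1 else 1 / (n : ℝ)),
        if_pos (Finset.mem_univ _)]
    rw [Finset.prod_congr rfl fun i _ => h2 i, Fin.prod_univ_castSucc, if_pos rfl, mul_one,
      Finset.prod_congr rfl fun i _ => if_neg (Fin.castSucc_lt_last i).ne]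
    simp
  have hfin : (volume : Measure (Cfg r)) (PhL l A0 ⁻¹' B) = ENNReal.ofReal
      (|(LinearMap.det (PhL l A0))⁻¹| * ((∏ _i : Fin 9, ∏ _A : Fin r, 2 * s') * (1 / n) ^ 8)) := by
    rw [Measure.addHaar_preimage_linearMap _ hdet, hvB, hprod,
      ← ENNReal.ofReal_mul (abs_nonneg _)]
  have h0 : 0 ≤ |(LinearMap.det (PhL l A0))⁻¹| *
      ((∏ _i : Fin 9, ∏ _A : Fin r, 2 * s') * (1 / (n : ℝ)) ^ 8) := by positivity
  calc (volume : Measure (Cfg r)).real (Metric.ball 0 s ∩ Bd l n)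
      ≤ (volume : Measure (Cfg r)).real (PhL l A0 ⁻¹' B) :=
        measureReal_mono hsub (by rw [hfin]; exact ENNReal.ofReal_ne_top)
    _ = |(LinearMap.det (PhL l A0))⁻¹| *
      ((∏ _i : Fin 9, ∏ _A : Fin r, 2 * s') * (1 / n) ^ 8) := by
        rw [measureReal_def, hfin, ENNReal.toReal_ofReal h0]
    _ = _ := by ring

lemma ae_Coll {L : Finset (Fin r → ℝ)} (hL : ∀ l ∈ L, l ≠ 0) :
    ∀ᵐ y ∂(volume : Measure (Cfg r)), y ∉ Coll L := by
  have h : ∀ l ∈ L, ∀ᵐ y ∂(volume : Measure (Cfg r)), TL l y ≠ 0 := by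
    intro l hl
    have hk : LinearMap.ker (TL l).toLinearMap ≠ ⊤ := by
      intro hh
      apply hL l hl
      funext A
      have h1 : (EuclideanSpace.single ((0 : Fin 8).castSucc, A) (1 : ℝ) : Cfg r) ∈
          LinearMap.ker (TL l).toLinearMap := by rw [hh]; trivial
      have h2 : TL l (EuclideanSpace.single ((0 : Fin 8).castSucc, A) (1 : ℝ) : Cfg r) = 0 := h1
      have h3 := TL_apply l (EuclideanSpace.single ((0 : Fin 8).castSucc, A) (1 : ℝ) : Cfg r) 0
      rw [h2] at h3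
      rw [Finset.sum_eq_single A] at h3
      · simpa using h3.symm
      · intro B _ hB
        simp [hB]
      · intro hh
        exact absurd (Finset.mem_univ A) hh
    have := Measure.addHaar_submodule (volume : Measure (Cfg r)) _ hk
    rw [ae_iff]
    convert this using 2
    ext y
    simp
  filter_upwards [(ae_ball_iff L.countable_toSet).2 h] with y hy hc
  obtain ⟨l, hl, h0⟩ := mem_Coll.1 hc
  exact hy l hl h0

lemma energy (L : Finset (Fin r → ℝ)) (hL : ∀ l ∈ L, l ≠ 0) {s : ℝ} (hs : 0 < s) (i : Fin 9)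
    (A : Fin r) : Tendsto (fun n => ∫ y in Metric.ball (0 : Cfg r) s, pdr i A (eta L n) y ^ 2)
      atTop (𝓝 0) := by
  obtain ⟨K, hK, hb⟩ := pdr_eta L
  have hV : ∀ l : Fin r → ℝ, ∃ C : ℝ, l ≠ 0 → 0 ≤ C ∧ ∀ n : ℕ,
      1 ≤ n → (volume : Measure (Cfg r)).real (Metric.ball 0 s ∩ Bd l n) ≤ C * (1 / n) ^ 8 := by
    intro l
    by_cases h : l = 0
    · exact ⟨0, fun h' => absurd h h'⟩
    · obtain ⟨C, hC⟩ := vol_Bd h hs
      exact ⟨C, fun _ => hC⟩
  choose C hC using hV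
  have hbound : ∀ n : ℕ, 1 ≤ n → ∫ y in Metric.ball (0 : Cfg r) s, pdr i A (eta L n) y ^ 2 ≤
      (K ^ 2 * ∑ l ∈ L, C l) * (1 / n) ^ 6 := by
    intro n hn
    have hn0 : (0 : ℝ) < n := by exact_mod_cast hn
    have hG : ∫ y in Metric.ball (0 : Cfg r) s, pdr i A (eta L n) y ^ 2 =
        ∫ y in (⋃ l ∈ L, Metric.ball (0 : Cfg r) s ∩ Bd l n), pdr i A (eta L n) y ^ 2 := by
      refine setIntegral_eq_of_subset_of_forall_sdiff_eq_zero measurableSet_ball ?_ ?_
      · refine Set.iUnion₂_subset fun l _ => Set.inter_subset_left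
      · rintro y ⟨hy1, hy2⟩
        rw [pdr_eta_zero L n i A y, zero_pow two_ne_zero]
        intro l hl hy
        exact hy2 (Set.mem_iUnion₂.2 ⟨l, hl, hy1, hy⟩)
    have hfin : (volume : Measure (Cfg r)) (⋃ l ∈ L, Metric.ball (0 : Cfg r) s ∩ Bd l n) < ⊤ :=
      lt_of_le_of_lt (measure_mono (Set.iUnion₂_subset fun l _ => Set.inter_subset_left))
        measure_ball_lt_top
    have h1 : ‖∫ y in (⋃ l ∈ L, Metric.ball (0 : Cfg r) s ∩ Bd l n), pdr i A (eta L n) y ^ 2‖ ≤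
        (n * K) ^ 2 * (volume : Measure (Cfg r)).real
          (⋃ l ∈ L, Metric.ball (0 : Cfg r) s ∩ Bd l n) := by
      refine norm_setIntegral_le_of_norm_le_const hfin fun y _ => ?_
      rw [norm_pow, Real.norm_eq_abs]
      exact pow_le_pow_left₀ (abs_nonneg _) (hb n i A y) 2
    have h2 : (volume : Measure (Cfg r)).real (⋃ l ∈ L, Metric.ball (0 : Cfg r) s ∩ Bd l n) ≤
        ∑ l ∈ L, C l * (1 / n) ^ 8 :=
      (measureReal_biUnion_finset_le L _).trans
        (Finset.sum_le_sum fun l hl => (hC l (hL l hl)).2 n hn)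
    rw [hG]
    calc _ ≤ ‖∫ y in (⋃ l ∈ L, Metric.ball (0 : Cfg r) s ∩ Bd l n), pdr i A (eta L n) y ^ 2‖ :=
          le_trans (le_abs_self _) (le_of_eq (Real.norm_eq_abs _).symm)
      _ ≤ (n * K) ^ 2 * ∑ l ∈ L, C l * (1 / n) ^ 8 :=
          h1.trans (mul_le_mul_of_nonneg_left h2 (by positivity))
      _ = (K ^ 2 * ∑ l ∈ L, C l) * (1 / n) ^ 6 := by
          rw [← Finset.sum_mul]
          field_simp
  have hlim : Tendsto (fun n : ℕ => (K ^ 2 * ∑ l ∈ L, C l) * (1 / (n : ℝ)) ^ 6) atTop (𝓝 0) := by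
    have h1 : Tendsto (fun n : ℕ => (1 / (n : ℝ)) ^ 6) atTop (𝓝 (0 ^ 6)) :=
      tendsto_one_div_atTop_nhds_zero_nat.pow 6
    have h2 := h1.const_mul (K ^ 2 * ∑ l ∈ L, C l)
    simpa using h2
  refine squeeze_zero' (Eventually.of_forall fun n => ?_) ?_ hlim
  · exact integral_nonneg fun y => sq_nonneg _
  · filter_upwards [eventually_ge_atTop 1] with n hn
    exact hbound n hn

end CutAux

open CutAux in
/-- F-Cut -/
theorem cut (r : ℕ) : CutStmt r := by
  intro L hL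
  refine ⟨eta L, eta_smooth L, eta_mem L, eta_disj L, fun y hy => eta_ev L hy, ae_Coll hL, ?_⟩
  intro s hs
  have : Tendsto (fun n => ∑ i, ∑ A, ∫ y in Metric.ball (0 : Cfg r) s, pdr i A (eta L n) y ^ 2)
      atTop (𝓝 (∑ _i : Fin 9, ∑ _A : Fin r, (0 : ℝ))) :=
    tendsto_finsetSum _ fun i _ => tendsto_finsetSum _ fun A _ => energy L hL hs i A
  simpa using this

end Vale.Agent.P353.Z.AF
end

section

/-! # P353, all `N`, block F: the collision set is removable (F-Rem, owner helper777) -/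

open MeasureTheory Filter Topology
open scoped ContDiff

namespace Vale.Agent.P353.Z.AF

variable {r : ℕ} {K : Type*} [NormedAddCommGroup K] [InnerProductSpace ℂ K]

/-- multiplication by the cutoffs converges weakly -/
lemma cut_mul_tendsto {η : ℕ → Cfg r → ℝ} (hη : ∀ n, Continuous (η n))
    (h01 : ∀ n y, 0 ≤ η n y ∧ η n y ≤ 1)
    (hae : ∀ᵐ y ∂(volume : Measure (Cfg r)), ∀ᶠ n in atTop, η n y = 1) {f g : Cfg r → K}
    (hf : MemLp f 2 (volume : Measure (Cfg r))) (hg : MemLp g 2 (volume : Measure (Cfg r))) :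
    Tendsto (fun n => ∫ x, inner ℂ (((η n x : ℝ) : ℂ) • f x) (g x)) atTop
      (𝓝 (∫ x, inner ℂ (f x) (g x))) := by
  have e : ∀ n x, inner ℂ (((η n x : ℝ) : ℂ) • f x) (g x) =
      ((η n x : ℝ) : ℂ) * inner ℂ (f x) (g x) := by
    intro n x
    rw [inner_smul_left, Complex.conj_ofReal]
  simp only [e]
  have hi := integrable_inner_memLp hf hg
  refine tendsto_integral_of_dominated_convergence (fun x => ‖inner ℂ (f x) (g x)‖) ?_ hi.norm ?_ ?_
  · intro n
    exact ((Complex.continuous_ofReal.comp (hη n)).aestronglyMeasurable).mul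
      hi.aestronglyMeasurable
  · intro n
    filter_upwards with x
    rw [norm_mul, Complex.norm_real, Real.norm_of_nonneg (h01 n x).1]
    exact mul_le_of_le_one_left (norm_nonneg _) (h01 n x).2
  · filter_upwards [hae] with x hx
    refine tendsto_const_nhds.congr' ?_
    filter_upwards [hx] with n hn
    rw [hn]; simp

lemma D_norm_sq (S : Setup r K) (χ : Cfg r → ℝ) (β : Fin 16) (x : Cfg r) (w : K) :
    ‖S.esaD χ β x w‖ ^ 2 ≤ (∑ i, ∑ A, ‖S.vec (S.g i) A β‖ ^ 2) * ‖w‖ ^ 2 *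
      ∑ i, ∑ A, pdr i A χ x ^ 2 := by
  have h1 : ‖S.esaD χ β x w‖ ≤ (∑ i, ∑ A, ‖S.vec (S.g i) A β‖ * |pdr i A χ x|) * ‖w‖ := by
    refine ((S.esaD χ β x).le_opNorm w).trans (mul_le_mul_of_nonneg_right ?_ (norm_nonneg _))
    unfold Setup.esaD
    rw [norm_smul, Complex.norm_I, one_mul]
    refine (norm_sum_le _ _).trans (Finset.sum_le_sum fun i _ => ?_)
    refine (norm_sum_le _ _).trans (Finset.sum_le_sum fun A _ => ?_)
    rw [norm_smul, Complex.norm_real, Real.norm_eq_abs, mul_comm]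
  have h2 : (∑ i, ∑ A, ‖S.vec (S.g i) A β‖ * |pdr i A χ x|) ^ 2 ≤
      (∑ i, ∑ A, ‖S.vec (S.g i) A β‖ ^ 2) * ∑ i, ∑ A, pdr i A χ x ^ 2 := by
    have := Finset.sum_mul_sq_le_sq_mul_sq (Finset.univ : Finset (Fin 9 × Fin r))
      (fun p => ‖S.vec (S.g p.1) p.2 β‖) (fun p => |pdr p.1 p.2 χ x|)
    simp only [sq_abs, Fintype.sum_prod_type] at this
    exact this
  calc ‖S.esaD χ β x w‖ ^ 2 ≤ ((∑ i, ∑ A, ‖S.vec (S.g i) A β‖ * |pdr i A χ x|) * ‖w‖) ^ 2 :=
        pow_le_pow_left₀ (norm_nonneg _) h1 2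
    _ = (∑ i, ∑ A, ‖S.vec (S.g i) A β‖ * |pdr i A χ x|) ^ 2 * ‖w‖ ^ 2 := by ring
    _ ≤ ((∑ i, ∑ A, ‖S.vec (S.g i) A β‖ ^ 2) * ∑ i, ∑ A, pdr i A χ x ^ 2) * ‖w‖ ^ 2 :=
        mul_le_mul_of_nonneg_right h2 (sq_nonneg _)
    _ = _ := by ring

/-- the commutator term tends to `0` -/
lemma esaD_tendsto (S : Setup r K) {η : ℕ → Cfg r → ℝ} (hη : ∀ n, ContDiff ℝ ∞ (η n))
    (hE : ∀ s : ℝ, 0 < s → Tendsto (fun n => ∑ i, ∑ A,
      ∫ y in Metric.ball (0 : Cfg r) s, pdr i A (η n) y ^ 2) atTop (𝓝 0))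
    {ζ : Cfg r → K} (hζ : Setup.Tst ζ) (β : Fin 16) :
    (∀ n, MemLp (fun x => S.esaD (η n) β x (ζ x)) 2 (volume : Measure (Cfg r))) ∧
    Tendsto (fun n => nsq (fun x => S.esaD (η n) β x (ζ x))) atTop (𝓝 0) := by
  obtain ⟨C, ρ, hC0, hρ0, hC, hsupp⟩ := hζ.exists_bound
  have hcont : ∀ n, Continuous (fun x => S.esaD (η n) β x (ζ x)) := fun n =>
    ((S.esa_contDiff_D (hη n) β).continuous).clm_apply hζ.1.continuous
  have hz : ∀ n x, x ∉ Metric.ball (0 : Cfg r) (ρ + 1) → S.esaD (η n) β x (ζ x) = 0 := by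
    intro n x hx
    have h1 : ρ < ‖x‖ := by
      rw [Metric.mem_ball, dist_zero_right, not_lt] at hx
      linarith
    rw [hsupp x h1, map_zero]
  have hcs : ∀ n, HasCompactSupport (fun x => S.esaD (η n) β x (ζ x)) := fun n =>
    HasCompactSupport.intro (isCompact_closedBall (0 : Cfg r) (ρ + 1)) fun x hx =>
      hz n x fun h => hx (Metric.ball_subset_closedBall h)
  refine ⟨fun n => (hcont n).memLp_of_hasCompactSupport (hcs n), ?_⟩
  obtain ⟨M, hM⟩ : ∃ M : ℝ, M = (∑ i, ∑ A, ‖S.vec (S.g i) A β‖ ^ 2) * C ^ 2 := ⟨_, rfl⟩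
  have hM0 : 0 ≤ M := by rw [hM]; positivity
  have hio : ∀ n i A, IntegrableOn (fun y => pdr i A (η n) y ^ 2)
      (Metric.ball (0 : Cfg r) (ρ + 1)) := by
    intro n i A
    have h1 : Continuous (fun y => pdr i A (η n) y ^ 2) :=
      (esa_pdr_smooth (hη n) i A).continuous.pow 2
    exact (h1.locallyIntegrable.integrableOn_isCompact
      (isCompact_closedBall (0 : Cfg r) (ρ + 1))).mono_set Metric.ball_subset_closedBall
  have hb : ∀ n, nsq (fun x => S.esaD (η n) β x (ζ x)) ≤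
      M * ∑ i, ∑ A, ∫ y in Metric.ball (0 : Cfg r) (ρ + 1), pdr i A (η n) y ^ 2 := by
    intro n
    unfold nsq
    rw [← setIntegral_eq_integral_of_forall_compl_eq_zero (s := Metric.ball (0 : Cfg r) (ρ + 1))
      (fun x hx => by simp only [hz n x hx]; simp)]
    have e1 : M * ∑ i, ∑ A, ∫ y in Metric.ball (0 : Cfg r) (ρ + 1), pdr i A (η n) y ^ 2 =
        ∫ y in Metric.ball (0 : Cfg r) (ρ + 1), M * ∑ i, ∑ A, pdr i A (η n) y ^ 2 := by
      rw [integral_const_mul, integral_finsetSum _ fun i _ =>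
        integrable_finsetSum _ fun A _ => hio n i A]
      congr 1
      refine Finset.sum_congr rfl fun i _ => ?_
      rw [integral_finsetSum _ fun A _ => hio n i A]
    rw [e1]
    refine setIntegral_mono_on ?_ ?_ measurableSet_ball fun x _ => ?_
    · have h1 : Continuous (fun x => ‖S.esaD (η n) β x (ζ x)‖ ^ 2) := (hcont n).norm.pow 2
      exact (h1.locallyIntegrable.integrableOn_isCompact
        (isCompact_closedBall (0 : Cfg r) (ρ + 1))).mono_set Metric.ball_subset_closedBall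
    · exact (integrable_finsetSum _ fun i _ =>
        integrable_finsetSum _ fun A _ => hio n i A).const_mul M
    · refine (D_norm_sq S (η n) β x (ζ x)).trans ?_
      rw [hM]
      have h1 : ‖ζ x‖ ^ 2 ≤ C ^ 2 := pow_le_pow_left₀ (norm_nonneg _) (hC x) 2
      have h2 : 0 ≤ ∑ i, ∑ A, pdr i A (η n) x ^ 2 := by positivity
      have h3 : 0 ≤ ∑ i, ∑ A, ‖S.vec (S.g i) A β‖ ^ 2 := by positivity
      exact mul_le_mul_of_nonneg_right (mul_le_mul_of_nonneg_left h1 h3) h2
  refine squeeze_zero (fun n => nsq_nonneg _) hb ?_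
  have := (hE (ρ + 1) (by linarith)).const_mul M
  simpa using this

/-- **F-Rem2** -/
theorem rem2 (S : Setup r K) : Rem2Stmt S := by
  intro L hL v g hv hg h ζ hζ
  obtain ⟨η, hη, h01, hdis, hev, hae, hE⟩ := cut r L hL
  have hae' : ∀ᵐ y ∂(volume : Measure (Cfg r)), ∀ᶠ n in atTop, η n y = 1 := by
    filter_upwards [hae] with y hy using hev y hy
  have hoff : ∀ n, TstOff L (fun y => ((η n y : ℝ) : ℂ) • ζ y) := by
    intro n
    refine ⟨⟨(Setup.contDiff_ofReal (hη n)).smul hζ.1, hζ.2.smul_left⟩, ?_⟩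
    refine (hdis n).mono_left (closure_mono fun y hy => ?_)
    rw [Function.mem_support] at hy ⊢
    intro h0
    apply hy
    rw [h0]; simp
  have hFD : ∀ n β x, S.FD β (fun y => ((η n y : ℝ) : ℂ) • ζ y) x =
      ((η n x : ℝ) : ℂ) • S.FD β ζ x - S.esaD (η n) β x (ζ x) := fun n β x =>
    FD_smul S β (η n) ζ x ((hη n).differentiable (by simp) x) (hζ.1.differentiable (by simp) x)
  have hF : ∀ β, MemLp (S.FD β ζ) 2 (volume : Measure (Cfg r)) := fun β => (Tst_FD S hζ β).memLp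
  have hηF : ∀ n β, MemLp (fun x => ((η n x : ℝ) : ℂ) • S.FD β ζ x) 2
      (volume : Measure (Cfg r)) := by
    intro n β
    have h1 : Setup.Tst (fun x => ((η n x : ℝ) : ℂ) • S.FD β ζ x) :=
      ⟨(Setup.contDiff_ofReal (hη n)).smul (Tst_FD S hζ β).1, (Tst_FD S hζ β).2.smul_left⟩
    exact h1.memLp
  have hlim1 : Tendsto (fun n => ∑ β, ((∫ x, inner ℂ (((η n x : ℝ) : ℂ) • S.FD β ζ x) (v β x)) -
      ∫ x, inner ℂ (S.esaD (η n) β x (ζ x)) (v β x))) atTop
      (𝓝 (∑ β, ((∫ x, inner ℂ (S.FD β ζ x) (v β x)) - 0))) := by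
    refine tendsto_finsetSum _ fun β _ => Tendsto.sub ?_ ?_
    · exact cut_mul_tendsto (fun n => (hη n).continuous) h01 hae' (hF β) (hv β)
    · obtain ⟨hm, ht⟩ := esaD_tendsto S hη hE hζ β
      rw [tendsto_zero_iff_norm_tendsto_zero]
      have hsq : Tendsto (fun n => Real.sqrt (nsq (fun x => S.esaD (η n) β x (ζ x))) *
          Real.sqrt (∫ x, ‖v β x‖ ^ 2)) atTop (𝓝 0) := by
        have := (ht.sqrt).mul_const (Real.sqrt (∫ x, ‖v β x‖ ^ 2))
        simpa using this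
      exact squeeze_zero (fun n => norm_nonneg _) (fun n => cs_inner (hm n) (hv β)) hsq
  have hlim2 : Tendsto (fun n => ∫ x, inner ℂ (((η n x : ℝ) : ℂ) • ζ x) (g x)) atTop
      (𝓝 (∫ x, inner ℂ (ζ x) (g x))) :=
    cut_mul_tendsto (fun n => (hη n).continuous) h01 hae' hζ.memLp hg
  have heq : ∀ n, ∑ β, ((∫ x, inner ℂ (((η n x : ℝ) : ℂ) • S.FD β ζ x) (v β x)) -
      ∫ x, inner ℂ (S.esaD (η n) β x (ζ x)) (v β x)) =
      ∫ x, inner ℂ (((η n x : ℝ) : ℂ) • ζ x) (g x) := by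
    intro n
    rw [← h _ (hoff n)]
    refine Finset.sum_congr rfl fun β _ => ?_
    rw [← integral_sub (integrable_inner_memLp (hηF n β) (hv β))
      (integrable_inner_memLp ((esaD_tendsto S hη hE hζ β).1 n) (hv β))]
    refine integral_congr_ae (Eventually.of_forall fun x => ?_)
    simp only [hFD, inner_sub_left]
  have := tendsto_nhds_unique (hlim1.congr heq) hlim2
  simpa using this

/-- **F-Rem** -/
theorem rem (S : Setup r K) : RemStmt S := by
  classical
  intro L hL β u v hu hv h ζ hζ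
  have h1 := rem2 S L hL (fun γ => if γ = β then u else 0) v (fun γ => by
    by_cases hh : γ = β
    · simp only [if_pos hh]; exact hu
    · simp only [if_neg hh]; exact MemLp.zero') hv (fun ξ hξ => by
      rw [← h ξ hξ, Finset.sum_eq_single β]
      · simp
      · intro γ _ hγ
        simp [hγ]
      · intro hh
        exact absurd (Finset.mem_univ β) hh) ζ hζ.1
  rw [← h1, Finset.sum_eq_single β]
  · simp
  · intro γ _ hγ
    simp [hγ]
  · intro hh
    exact absurd (Finset.mem_univ β) hh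

end Vale.Agent.P353.Z.AF
end

section

/-! # P353, all `N`, block X: parallel transport (`ParStmt`) -/

open MeasureTheory Filter Topology Matrix
open scoped ContDiff

namespace Vale.Agent.P353.Z.AX

variable {d dh dm : ℕ} {F : Type*} [NormedAddCommGroup F] [InnerProductSpace ℂ F]

/-- the trace pairing of a symmetric with an antisymmetric matrix vanishes -/
private lemma xpar_pair (A N Kc : Matrix (Fin dm) (Fin dm) ℝ) (hA : Aᵀ = A) (hAN : (A * N)ᵀ = A * N)
    (hK : Kcᵀ = -Kc) : ∑ p, ∑ q, A p q * (N * Kc) p q = 0 := by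
  have h1 : ∑ p, ∑ q, A p q * (N * Kc) p q = (A * N * Kc).trace := by
    rw [Matrix.mul_assoc, Matrix.trace]
    simp only [Matrix.diag_apply, Matrix.mul_apply (M := A)]
    rw [Finset.sum_comm]
    refine Finset.sum_congr rfl fun q _ => Finset.sum_congr rfl fun p _ => ?_
    have : A p q = A q p := by
      conv_lhs => rw [← hA, Matrix.transpose_apply]
    rw [this]
  have h2 : (A * N * Kc).trace = -(A * N * Kc).trace := by
    conv_lhs => rw [← Matrix.trace_transpose, Matrix.transpose_mul, hAN, hK, Matrix.neg_mul,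
      Matrix.trace_neg, Matrix.trace_mul_comm]
  rw [h1]
  linarith

/-- the derivative of `bb` is antisymmetric -/
private lemma xpar_anti (S : Setup d F) (hSp : SpStmt) (E : Matrix (Fin dm) (Fin dm) ℝ) (hE : E * Eᵀ = 1)
    (c : Fin 8 → Fin dm → ℝ) :
    (Matrix.of fun p q : Fin 16 × Fin dm =>
      ∑ j : Fin 8, (S.g j.castSucc * S.g 8) p.1 q.1 * ((sp E (c j) p.2 q.2 : ℝ) : ℂ))ᵀ =
    -(Matrix.of fun p q : Fin 16 × Fin dm =>
      ∑ j : Fin 8, (S.g j.castSucc * S.g 8) p.1 q.1 * ((sp E (c j) p.2 q.2 : ℝ) : ℂ)) := by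
  obtain ⟨-, -, -, -, hsym, -⟩ := hSp dm E hE
  ext p q
  simp only [Matrix.transpose_apply, Matrix.of_apply, Matrix.neg_apply]
  rw [← Finset.sum_neg_distrib]
  refine Finset.sum_congr rfl fun j _ => ?_
  have h1 : (S.g j.castSucc * S.g 8) q.1 p.1 = -(S.g j.castSucc * S.g 8) p.1 q.1 := by
    have ha := S.g_anti j.castSucc 8
    have hne : (j.castSucc : Fin 9) ≠ 8 := by
      intro h
      have := congrArg Fin.val h
      have hj := j.isLt
      simp at this
      omega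
    rw [if_neg hne] at ha
    have ht : (S.g j.castSucc * S.g 8)ᵀ = S.g 8 * S.g j.castSucc := by
      rw [Matrix.transpose_mul, S.g_symm, S.g_symm]
    have h2 : (S.g j.castSucc * S.g 8) q.1 p.1 = (S.g 8 * S.g j.castSucc) p.1 q.1 := by
      rw [← ht, Matrix.transpose_apply]
    rw [h2, ← Matrix.neg_apply, eq_neg_of_add_eq_zero_right ha]
  have h2 : sp E (c j) q.2 p.2 = sp E (c j) p.2 q.2 := by
    conv_lhs => rw [← hsym, Matrix.transpose_apply]
  rw [h1, h2, neg_mul]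

/-- the pairing of the derivative of `bb` with `JJ` vanishes -/
private lemma xpar_zero (S : Setup d F) (hSp : SpStmt) (Kc E : Matrix (Fin dm) (Fin dm) ℝ) (hE : E * Eᵀ = 1)
    (hK : Kcᵀ = -Kc) (c : Fin 8 → Fin dm → ℝ) (n : Fin 9 → Fin dm → ℝ) :
    ∑ p : Fin 16 × Fin dm, ∑ q : Fin 16 × Fin dm,
      (∑ j : Fin 8, (S.g j.castSucc * S.g 8) p.1 q.1 * ((sp E (c j) p.2 q.2 : ℝ) : ℂ)) *
      (∑ i : Fin 9, S.g i p.1 q.1 * (((sp E (n i) * Kc) p.2 q.2 : ℝ) : ℂ)) = 0 := by
  obtain ⟨hmul, -, -, -, hsym, -⟩ := hSp dm E hE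
  have key : ∀ (j : Fin 8) (i : Fin 9),
      ∑ x : Fin dm, ∑ y : Fin dm, sp E (c j) x y * (sp E (n i) * Kc) x y = 0 := by
    intro j i
    refine xpar_pair _ _ _ (hsym _) ?_ hK
    rw [hmul, hsym]
  have h1 : ∀ p q : Fin 16 × Fin dm,
      (∑ j : Fin 8, (S.g j.castSucc * S.g 8) p.1 q.1 * ((sp E (c j) p.2 q.2 : ℝ) : ℂ)) *
      (∑ i : Fin 9, S.g i p.1 q.1 * (((sp E (n i) * Kc) p.2 q.2 : ℝ) : ℂ)) =
      ∑ j : Fin 8, ∑ i : Fin 9, ((S.g j.castSucc * S.g 8) p.1 q.1 * S.g i p.1 q.1) *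
        (((sp E (c j) p.2 q.2 * (sp E (n i) * Kc) p.2 q.2 : ℝ)) : ℂ) := by
    intro p q
    rw [Finset.sum_mul_sum]
    refine Finset.sum_congr rfl fun j _ => Finset.sum_congr rfl fun i _ => ?_
    push_cast
    ring
  simp_rw [h1]
  have h2 : ∀ (j : Fin 8) (i : Fin 9), ∑ p : Fin 16 × Fin dm, ∑ q : Fin 16 × Fin dm,
      ((S.g j.castSucc * S.g 8) p.1 q.1 * S.g i p.1 q.1) *
        (((sp E (c j) p.2 q.2 * (sp E (n i) * Kc) p.2 q.2 : ℝ)) : ℂ) = 0 := by
    intro j i
    simp only [Fintype.sum_prod_type]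
    refine Finset.sum_eq_zero fun α _ => ?_
    rw [Finset.sum_comm]
    refine Finset.sum_eq_zero fun β _ => ?_
    simp_rw [← Finset.mul_sum]
    have := key j i
    have h3 : (∑ x : Fin dm, ∑ y : Fin dm,
        (((sp E (c j) x y * (sp E (n i) * Kc) x y : ℝ)) : ℂ)) = 0 := by
      exact_mod_cast congrArg (fun r : ℝ => (r : ℂ)) this
    rw [h3, mul_zero]
  calc _ = ∑ j : Fin 8, ∑ i : Fin 9, ∑ p : Fin 16 × Fin dm, ∑ q : Fin 16 × Fin dm,
      ((S.g j.castSucc * S.g 8) p.1 q.1 * S.g i p.1 q.1) *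
        (((sp E (c j) p.2 q.2 * (sp E (n i) * Kc) p.2 q.2 : ℝ)) : ℂ) := by
        rw [Finset.sum_congr rfl fun p _ => Finset.sum_comm]
        rw [Finset.sum_comm]
        refine Finset.sum_congr rfl fun j _ => ?_
        rw [Finset.sum_congr rfl fun p _ => Finset.sum_comm]
        rw [Finset.sum_comm]
    _ = 0 := Finset.sum_eq_zero fun j _ => Finset.sum_eq_zero fun i _ => h2 j i

theorem par (S : Setup d F) (φ : Spl dh dm d) (hSp : SpStmt) (hP : PathStmt S) (hQ : QuStmt S φ)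
    (hT : TrStmt S φ) (hTwo : TwoStmt S φ) (hD : DuhStmt F) (hSm : SmStmt S φ) : ParStmt S φ := by
  intro hfin r M t Kc E l hRD η hη
  obtain ⟨hRA, hJ0, hpath⟩ := hP r dm M t Kc E l hRD
  obtain ⟨hcl, hcoll, hsmA, -, hder, -⟩ := hSm hfin r E l
  have hnz := (hcoll η).1 hη
  obtain ⟨hJ, hJz, hJd⟩ := hpath η hnz
  -- transport
  have htr : ∀ (τ : ℝ) (v : F), v ∈ S.Kr φ (1 - Complex.I • S.J0 Kc) ↔
      NormedSpace.exp (τ • S.Qu φ (S.bb E l η)) v ∈ S.Kr φ (1 - Complex.I • S.JJ Kc E l τ η) := by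
    intro τ v
    have h := hT hfin (S.bb E l η) (hRA η) (fun s => 1 - Complex.I • S.JJ Kc E l s η) ?_ τ v
    · simp only [hJz] at h
      exact h
    · intro τ' p q
      have h1 := ((hJd τ' p q).const_mul Complex.I).const_sub
        ((1 : Matrix (Fin 16 × Fin dm) (Fin 16 × Fin dm) ℂ) p q)
      have h2 : (S.bb E l η * (1 - Complex.I • S.JJ Kc E l τ' η) -
          (1 - Complex.I • S.JJ Kc E l τ' η) * S.bb E l η) =
          -(Complex.I • (S.bb E l η * S.JJ Kc E l τ' η - S.JJ Kc E l τ' η * S.bb E l η)) := by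
        rw [Matrix.mul_sub, Matrix.sub_mul, Matrix.mul_one, Matrix.one_mul, Matrix.mul_smul, Matrix.smul_mul,
          smul_sub]
        abel
      rw [h2]
      simpa [Matrix.sub_apply, Matrix.smul_apply, Matrix.neg_apply, smul_eq_mul] using h1
  refine ⟨fun v => ?_, ?_⟩
  · have h := htr 1 v
    rw [one_smul] at h
    exact h
  · intro v hv w hw ξ
    refine hD hfin r (fun η' => S.Qu φ (S.bb E l η')) (Coll (Finset.univ.image l))ᶜ η ξ hcl.isOpen_compl hη hsmA
      (fun η' a b => ?_) v w ?_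
    · exact (hQ hfin _ (hRA η')).2.1 a b
    · intro τ _ _
      obtain ⟨c, hc⟩ := hder η hη ξ
      rw [hc]
      have hv' := (htr τ v).1 hv
      have hw' := (htr τ w).1 hw
      have h2 := (hTwo _ (hJ τ) _ hv' _ hw').2 _ (xpar_anti S hSp E hRD.orth c)
      rw [h2]
      have h3 := xpar_zero S hSp Kc E hRD.orth hRD.anti c (fun i k => nn τ (zk (l k) η) i)
      have h4 : ∑ p : Fin 16 × Fin dm, ∑ q : Fin 16 × Fin dm,
          (Matrix.of fun p q : Fin 16 × Fin dm =>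
            ∑ j : Fin 8, (S.g j.castSucc * S.g 8) p.1 q.1 * ((sp E (c j) p.2 q.2 : ℝ) : ℂ)) p q *
            S.JJ Kc E l τ η p q = 0 := h3
      rw [h4]
      ring

end Vale.Agent.P353.Z.AX
end

section

/-! # P353, all `N`, block D, D10 (a), (b): the singular set (collisions and the origin) is removable -/

open MeasureTheory Filter Topology
open scoped ContDiff

namespace Vale.Agent.P353.Z.AD

variable {r : ℕ} {K : Type*} [NormedAddCommGroup K] [InnerProductSpace ℂ K]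

open Vale.Agent.P353.Z.U.WS Vale.Agent.P353.Z.AF

/-! ### the symbol -/

lemma lio_Q0_eq (S : Setup r K) (β : Fin 16) (u : Cfg r → K) (x : Cfg r) :
    S.Q0 β u x = S.Q β u x - S.W β x (u x) := by
  simp only [Setup.Q0, Setup.Q, add_sub_cancel_right]

lemma lio_Tst_Q0 (S : Setup r K) {u : Cfg r → K} (hu : Setup.Tst u) (β : Fin 16) :
    Setup.Tst (S.Q0 β u) := by
  have h := (hu.Q S β).sub (Setup.Tst.clm (S.contDiff_W β) hu)
  have e : S.Q0 β u = fun x => S.Q β u x - S.W β x (u x) := funext fun x => lio_Q0_eq S β u x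
  rw [e]
  exact h

lemma lio_Q0_smul (S : Setup r K) (β : Fin 16) (φ : Cfg r → ℝ) (u : Cfg r → K) (x : Cfg r)
    (hφ : DifferentiableAt ℝ φ x) (hu : DifferentiableAt ℝ u x) :
    S.Q0 β (fun y => ((φ y : ℝ) : ℂ) • u y) x =
      ((φ x : ℝ) : ℂ) • S.Q0 β u x - S.esaD φ β x (u x) := by
  rw [lio_Q0_eq, lio_Q0_eq, Q_smul S β φ u x hφ hu, map_smul, smul_sub, Setup.esaD]
  simp only [_root_.smul_apply, _root_.sum_apply]
  abel

lemma lio_esaD_one_sub (S : Setup r K) (χ : Cfg r → ℝ) (β : Fin 16) (x : Cfg r) :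
    S.esaD (fun y => 1 - χ y) β x = -S.esaD χ β x := by
  have h : ∀ i A, pdr i A (fun y => 1 - χ y) x = -pdr i A χ x := by
    intro i A
    unfold pdr
    rw [fderiv_const_sub]
    rfl
  unfold Setup.esaD
  simp only [h, Complex.ofReal_neg, neg_smul, Finset.sum_neg_distrib, smul_neg]

lemma lio_esaD_zero (S : Setup r K) {χ : Cfg r → ℝ} {β : Fin 16} {x : Cfg r}
    (h : ∀ i A, pdr i A χ x = 0) : S.esaD χ β x = 0 := by
  unfold Setup.esaD
  simp only [h, Complex.ofReal_zero, zero_smul, Finset.sum_const_zero, smul_zero]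

/-! ### shells -/

lemma lio_shl_open (s t : ℝ) : IsOpen (shl r s t) :=
  (isOpen_lt continuous_const continuous_norm).inter (isOpen_lt continuous_norm continuous_const)

lemma lio_shl_sub (s t : ℝ) : shl r s t ⊆ Metric.ball (0 : Cfg r) t := fun x hx => by
  rw [Metric.mem_ball, dist_zero_right]
  exact hx.2

lemma lio_shl_fin (s t : ℝ) : (volume : Measure (Cfg r)) (shl r s t) < ⊤ :=
  (measure_mono (lio_shl_sub s t)).trans_lt measure_ball_lt_top

omit [InnerProductSpace ℂ K] in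
lemma lio_int_shl {f : Cfg r → K} (hf : AEStronglyMeasurable f (volume : Measure (Cfg r))) {s t : ℝ}
    (hI : IntegrableOn (fun x => ‖f x‖ ^ 2) (shl r s t) (volume : Measure (Cfg r))) :
    IntegrableOn f (shl r s t) (volume : Measure (Cfg r)) := by
  have hc : IntegrableOn (fun _ : Cfg r => (1 : ℝ)) (shl r s t) (volume : Measure (Cfg r)) :=
    integrableOn_const (lio_shl_fin s t).ne
  refine Integrable.mono' (g := fun x => (1 : ℝ) + ‖f x‖ ^ 2) (Integrable.add hc hI) hf.restrict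
    (Eventually.of_forall fun x => ?_)
  nlinarith [sq_nonneg (‖f x‖ - 1), norm_nonneg (f x)]

lemma lio_rho (n : ℕ) : (2 : ℝ) ^ (-((n : ℤ) + 1)) = (1 / 2) ^ (n + 1) := by
  rw [zpow_neg, one_div, inv_pow]
  congr 1

lemma lio_rho2 (n : ℕ) : (2 : ℝ) ^ (-((n : ℤ) + 1) + 1) = 2 * (1 / 2) ^ (n + 1) := by
  rw [zpow_add₀ two_ne_zero, lio_rho, zpow_one, mul_comm]

lemma lio_rho3 (n : ℕ) : (2 : ℝ) ^ (3 * |(-((n : ℤ) + 1))|) = (((1 / 2 : ℝ) ^ (n + 1)) ^ 3)⁻¹ := by
  have h : |(-((n : ℤ) + 1))| = ((n + 1 : ℕ) : ℤ) := by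
    rw [abs_neg, abs_of_nonneg (by positivity)]
    push_cast
    ring
  rw [h, mul_comm, zpow_mul, zpow_natCast, one_div, inv_pow, inv_pow, inv_inv]
  norm_cast

lemma lio_dsh (n : ℕ) : dsh r (-((n : ℤ) + 1)) =
    {x : Cfg r | (1 / 2) ^ (n + 1) < ‖x‖ ∧ ‖x‖ < 2 * (1 / 2) ^ (n + 1)} := by
  unfold dsh shl
  rw [lio_rho, lio_rho2]

lemma lio_finrank : Module.finrank ℝ (Cfg r) = 9 * r := by
  simp [Cfg]

lemma lio_vol (hr : 0 < r) (n : ℕ) : ((volume : Measure (Cfg r)).real (dsh r (-((n : ℤ) + 1)))) ≤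
    512 * ((volume : Measure (Cfg r)).real (Metric.ball 0 1)) * ((1 / 2 : ℝ) ^ (n + 1)) ^ 9 := by
  set ρ : ℝ := (1 / 2) ^ (n + 1) with hρ
  have hρ0 : 0 < ρ := by positivity
  have hρ1 : 2 * ρ ≤ 1 := by
    rw [hρ, pow_succ]
    have : (1 / 2 : ℝ) ^ n ≤ 1 := pow_le_one₀ (by norm_num) (by norm_num)
    linarith
  have h1 : dsh r (-((n : ℤ) + 1)) ⊆ Metric.ball (0 : Cfg r) (2 * ρ) := by
    rw [lio_dsh]
    intro x hx
    rw [Metric.mem_ball, dist_zero_right]
    exact hx.2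
  have h2 : (volume : Measure (Cfg r)).real (Metric.ball 0 (2 * ρ)) =
      (2 * ρ) ^ (9 * r) * (volume : Measure (Cfg r)).real (Metric.ball 0 1) := by
    rw [Measure.real, Measure.addHaar_ball_of_pos _ _ (by positivity), ENNReal.toReal_mul,
      ENNReal.toReal_ofReal (by positivity), lio_finrank]
    rfl
  have h3 : (2 * ρ) ^ (9 * r) ≤ (2 * ρ) ^ 9 :=
    pow_le_pow_of_le_one (by positivity) hρ1 (by omega)
  calc (volume : Measure (Cfg r)).real (dsh r (-((n : ℤ) + 1)))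
      ≤ (volume : Measure (Cfg r)).real (Metric.ball 0 (2 * ρ)) :=
        measureReal_mono h1 measure_ball_lt_top.ne
    _ = (2 * ρ) ^ (9 * r) * (volume : Measure (Cfg r)).real (Metric.ball 0 1) := h2
    _ ≤ (2 * ρ) ^ 9 * (volume : Measure (Cfg r)).real (Metric.ball 0 1) :=
        mul_le_mul_of_nonneg_right h3 measureReal_nonneg
    _ = _ := by ring

omit [InnerProductSpace ℂ K] in
lemma lio_mass (hr : 0 < r) {f : Cfg r → K} (hf : AEStronglyMeasurable f (volume : Measure (Cfg r)))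
    (hI : ∀ s t : ℝ, 0 < s → s < t →
      IntegrableOn (fun x => ‖f x‖ ^ 2) (shl r s t) (volume : Measure (Cfg r)))
    {C : ℝ} (hC : ∀ k : ℤ, ∫ x in dsh r k, ‖f x‖ ^ 2 ≤ C * (2 : ℝ) ^ (3 * |k|)) :
    ∃ C₁ : ℝ, 0 ≤ C₁ ∧ ∀ n : ℕ, IntegrableOn f (dsh r (-((n : ℤ) + 1))) (volume : Measure (Cfg r)) ∧
      ∫ x in dsh r (-((n : ℤ) + 1)), ‖f x‖ ≤ C₁ * ((1 / 2 : ℝ) ^ (n + 1)) ^ 3 := by
  set c : ℝ := (volume : Measure (Cfg r)).real (Metric.ball 0 1) with hc
  have hc0 : 0 ≤ c := measureReal_nonneg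
  have hC0 : 0 ≤ C := by
    have h1 : (0 : ℝ) ≤ ∫ x in dsh r 0, ‖f x‖ ^ 2 := integral_nonneg fun x => by positivity
    have h2 := hC 0
    simp only [abs_zero, mul_zero, zpow_zero, mul_one] at h2
    exact h1.trans h2
  refine ⟨1 / 2 * (512 * c + C), by positivity, fun n => ?_⟩
  set ρ : ℝ := (1 / 2) ^ (n + 1) with hρ
  have hρ0 : 0 < ρ := by positivity
  have hI2 : IntegrableOn (fun x => ‖f x‖ ^ 2) (dsh r (-((n : ℤ) + 1))) (volume : Measure (Cfg r)) :=
    hI _ _ (by positivity) (zpow_lt_zpow_right₀ one_lt_two (by omega))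
  have hfi : IntegrableOn f (dsh r (-((n : ℤ) + 1))) (volume : Measure (Cfg r)) :=
    lio_int_shl hf hI2
  refine ⟨hfi, ?_⟩
  have hcI : IntegrableOn (fun _ : Cfg r => ρ⁻¹ ^ 6) (dsh r (-((n : ℤ) + 1)))
      (volume : Measure (Cfg r)) := integrableOn_const (lio_shl_fin _ _).ne
  have h1 : ∫ x in dsh r (-((n : ℤ) + 1)), ‖f x‖ ≤
      ∫ x in dsh r (-((n : ℤ) + 1)), 1 / 2 * (ρ⁻¹ ^ 6 + ρ ^ 6 * ‖f x‖ ^ 2) := by
    refine integral_mono hfi.norm ((hcI.add (hI2.const_mul _)).const_mul _) fun x => ?_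
    have h2 : 0 ≤ (ρ⁻¹ ^ 3 - ρ ^ 3 * ‖f x‖) ^ 2 := sq_nonneg _
    have h3 : ρ⁻¹ ^ 3 * ρ ^ 3 = 1 := by rw [← mul_pow, inv_mul_cancel₀ hρ0.ne', one_pow]
    have h4 : (ρ⁻¹ ^ 3 - ρ ^ 3 * ‖f x‖) ^ 2 =
        ρ⁻¹ ^ 6 + ρ ^ 6 * ‖f x‖ ^ 2 - 2 * (ρ⁻¹ ^ 3 * ρ ^ 3) * ‖f x‖ := by ring
    rw [h3] at h4
    simp only
    linarith
  have h2 : ∫ x in dsh r (-((n : ℤ) + 1)), 1 / 2 * (ρ⁻¹ ^ 6 + ρ ^ 6 * ‖f x‖ ^ 2) =
      1 / 2 * ((volume : Measure (Cfg r)).real (dsh r (-((n : ℤ) + 1))) * ρ⁻¹ ^ 6 +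
        ρ ^ 6 * ∫ x in dsh r (-((n : ℤ) + 1)), ‖f x‖ ^ 2) := by
    rw [integral_const_mul, integral_add hcI (hI2.const_mul _), integral_const_mul,
      setIntegral_const, smul_eq_mul]
  have h3 := lio_vol hr n
  rw [← hρ, ← hc] at h3
  have h4 := hC (-((n : ℤ) + 1))
  rw [lio_rho3, ← hρ] at h4
  have h5 : (volume : Measure (Cfg r)).real (dsh r (-((n : ℤ) + 1))) * ρ⁻¹ ^ 6 ≤
      512 * c * ρ ^ 3 := by
    calc (volume : Measure (Cfg r)).real (dsh r (-((n : ℤ) + 1))) * ρ⁻¹ ^ 6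
        ≤ (512 * c * ρ ^ 9) * ρ⁻¹ ^ 6 := mul_le_mul_of_nonneg_right h3 (by positivity)
      _ = 512 * c * ρ ^ 3 := by field_simp
  have h6 : ρ ^ 6 * ∫ x in dsh r (-((n : ℤ) + 1)), ‖f x‖ ^ 2 ≤ C * ρ ^ 3 := by
    calc ρ ^ 6 * ∫ x in dsh r (-((n : ℤ) + 1)), ‖f x‖ ^ 2 ≤ ρ ^ 6 * (C * (ρ ^ 3)⁻¹) :=
          mul_le_mul_of_nonneg_left h4 (by positivity)
      _ = C * ρ ^ 3 := by field_simp
  calc ∫ x in dsh r (-((n : ℤ) + 1)), ‖f x‖ ≤ _ := h1
    _ = _ := h2
    _ ≤ 1 / 2 * (512 * c * ρ ^ 3 + C * ρ ^ 3) := by linarith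
    _ = _ := by ring

/-! ### local integrability -/

lemma lio_ball_ae (hr : 0 < r) : (Metric.ball (0 : Cfg r) 1 : Set (Cfg r)) ≤ᵐ[volume]
    (⋃ n : ℕ, dsh r (-((n : ℤ) + 1)) : Set (Cfg r)) := by
  have : Nonempty (Fin r) := ⟨⟨0, hr⟩⟩
  have h0 : ∀ᵐ x ∂(volume : Measure (Cfg r)), x ≠ 0 := by
    rw [ae_iff]
    simp
  have h1 : ∀ᵐ x ∂(volume : Measure (Cfg r)), ∀ n : ℕ, ‖x‖ ≠ (1 / 2) ^ (n + 1) := by
    rw [ae_all_iff]
    intro n
    rw [ae_iff]
    have h2 : {x : Cfg r | ¬‖x‖ ≠ (1 / 2) ^ (n + 1)} = Metric.sphere 0 ((1 / 2) ^ (n + 1)) := by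
      ext x
      simp
    rw [h2]
    exact Measure.addHaar_sphere_of_ne_zero _ _ (by positivity)
  filter_upwards [h0, h1] with x hx hn hxb
  have hxb' : ‖x‖ < 1 := by
    have := Metric.mem_ball.1 hxb
    rwa [dist_zero_right] at this
  obtain ⟨k, hk1, hk2⟩ := exists_mem_Ico_zpow (norm_pos_iff.2 hx) (one_lt_two (α := ℝ))
  have hk : k < 0 := by
    by_contra hk
    have h3 : (1 : ℝ) ≤ 2 ^ k := one_le_zpow₀ one_le_two (not_lt.1 hk)
    linarith
  obtain ⟨n, hkn⟩ : ∃ n : ℕ, k = -((n : ℤ) + 1) := ⟨(-k - 1).toNat, by omega⟩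
  refine Set.mem_iUnion.2 ⟨n, ?_⟩
  rw [hkn] at hk1 hk2
  refine ⟨lt_of_le_of_ne hk1 fun h => hn n ?_, hk2⟩
  rw [← h, lio_rho]

omit [InnerProductSpace ℂ K] in
lemma lio_locInt (hr : 0 < r) {f : Cfg r → K}
    (hf : AEStronglyMeasurable f (volume : Measure (Cfg r)))
    (hI : ∀ s t : ℝ, 0 < s → s < t →
      IntegrableOn (fun x => ‖f x‖ ^ 2) (shl r s t) (volume : Measure (Cfg r)))
    {C₁ : ℝ} (hC : ∀ n : ℕ, IntegrableOn f (dsh r (-((n : ℤ) + 1))) (volume : Measure (Cfg r)) ∧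
      ∫ x in dsh r (-((n : ℤ) + 1)), ‖f x‖ ≤ C₁ * ((1 / 2 : ℝ) ^ (n + 1)) ^ 3) :
    LocallyIntegrable f (volume : Measure (Cfg r)) := by
  have hb : IntegrableOn f (Metric.ball (0 : Cfg r) 1) (volume : Measure (Cfg r)) := by
    refine IntegrableOn.mono_set_ae (t := ⋃ n : ℕ, dsh r (-((n : ℤ) + 1))) ?_ (lio_ball_ae hr)
    refine integrableOn_iUnion_of_summable_integral_norm (fun n => (hC n).1) ?_
    have hs : Summable fun n : ℕ => C₁ * ((1 / 2 : ℝ) ^ (n + 1)) ^ 3 := by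
      refine Summable.mul_left _ ?_
      have e : (fun n : ℕ => ((1 / 2 : ℝ) ^ (n + 1)) ^ 3) = fun n => (1 / 8) * (1 / 8 : ℝ) ^ n := by
        funext n
        rw [← pow_mul, mul_comm, pow_mul, pow_succ']
        norm_num
      rw [e]
      exact (summable_geometric_of_lt_one (by norm_num) (by norm_num)).mul_left _
    exact Summable.of_nonneg_of_le (fun n => integral_nonneg fun x => norm_nonneg _)
      (fun n => (hC n).2) hs
  intro x
  rcases eq_or_ne x 0 with rfl | hx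
  · exact ⟨_, Metric.ball_mem_nhds _ one_pos, hb⟩
  · have hx0 : 0 < ‖x‖ := norm_pos_iff.2 hx
    refine ⟨shl r (‖x‖ / 2) (2 * ‖x‖), (lio_shl_open _ _).mem_nhds ⟨by linarith, by linarith⟩, ?_⟩
    exact lio_int_shl hf (hI _ _ (by positivity) (by linarith))

/-! ### pairings with test functions -/

lemma lio_pair {f : Cfg r → K} (hf : LocallyIntegrable f (volume : Measure (Cfg r)))
    {w : Cfg r → K} (hw : Setup.Tst w) :
    Integrable (fun x => inner ℂ (w x) (f x)) (volume : Measure (Cfg r)) := by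
  obtain ⟨M, ρ, hM, hρ, hb, hz⟩ := hw.exists_bound
  have h1 : IntegrableOn f (Metric.closedBall (0 : Cfg r) ρ) (volume : Measure (Cfg r)) :=
    hf.integrableOn_isCompact (isCompact_closedBall _ _)
  refine Integrable.mono' (g := (Metric.closedBall (0 : Cfg r) ρ).indicator fun x => M * ‖f x‖)
    (IntegrableOn.integrable_indicator (h1.norm.const_mul M) measurableSet_closedBall)
    (hw.1.continuous.aestronglyMeasurable.inner hf.aestronglyMeasurable)
    (Eventually.of_forall fun x => ?_)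
  by_cases hx : x ∈ Metric.closedBall (0 : Cfg r) ρ
  · rw [Set.indicator_of_mem hx]
    exact (norm_inner_le_norm _ _).trans (mul_le_mul_of_nonneg_right (hb x) (norm_nonneg _))
  · rw [Set.indicator_of_notMem hx]
    rw [Metric.mem_closedBall, dist_zero_right, not_le] at hx
    rw [hz x hx, inner_zero_left, norm_zero]

/-- dominated convergence for the factors `φ_n → 1` -/
lemma lio_dct {f : Cfg r → K} (hf : LocallyIntegrable f (volume : Measure (Cfg r)))
    {w : Cfg r → K} (hw : Setup.Tst w) {φ : ℕ → Cfg r → ℝ} (hφ : ∀ n, Continuous (φ n))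
    (h01 : ∀ n y, 0 ≤ φ n y ∧ φ n y ≤ 1)
    (h1 : ∀ᵐ y ∂(volume : Measure (Cfg r)), ∀ᶠ n in atTop, φ n y = 1) :
    Tendsto (fun n => ∫ x, ((φ n x : ℝ) : ℂ) * inner ℂ (w x) (f x)) atTop
      (𝓝 (∫ x, inner ℂ (w x) (f x))) := by
  have hi := lio_pair hf hw
  refine tendsto_integral_of_dominated_convergence (fun x => ‖inner ℂ (w x) (f x)‖)
    (fun n => (Complex.continuous_ofReal.comp (hφ n)).aestronglyMeasurable.mul
      hi.aestronglyMeasurable) hi.norm (fun n => Eventually.of_forall fun x => ?_) ?_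
  · rw [norm_mul, Complex.norm_real, Real.norm_of_nonneg (h01 n x).1]
    exact mul_le_of_le_one_left (norm_nonneg _) (h01 n x).2
  · filter_upwards [h1] with x hx
    refine tendsto_const_nhds.congr' ?_
    filter_upwards [hx] with n hn
    rw [hn, Complex.ofReal_one, one_mul]

lemma lio_pair_smul (S : Setup r K) (β : Fin 16) {φ : Cfg r → ℝ} (hφ : ContDiff ℝ ∞ φ)
    {ζ : Cfg r → K} (hζ : Setup.Tst ζ) (v : K) (x : Cfg r) :
    inner ℂ (S.Q0 β (fun y => ((φ y : ℝ) : ℂ) • ζ y) x) v =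
      ((φ x : ℝ) : ℂ) * inner ℂ (S.Q0 β ζ x) v - inner ℂ (S.esaD φ β x (ζ x)) v := by
  rw [lio_Q0_smul S β φ ζ x (hφ.differentiable (by simp) x) (hζ.diff x), inner_sub_left,
    inner_smul_left, Complex.conj_ofReal]

/-- weak equation for `φ ζ` -/
lemma lio_split (S : Setup r K) (β : Fin 16) {f : Cfg r → K}
    (hf : LocallyIntegrable f (volume : Measure (Cfg r))) {φ : Cfg r → ℝ} (hφ : ContDiff ℝ ∞ φ)
    {ζ : Cfg r → K} (hζ : Setup.Tst ζ)
    (h0 : ∫ x, inner ℂ (S.Q0 β (fun y => ((φ y : ℝ) : ℂ) • ζ y) x) (f x) = 0) :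
    ∫ x, ((φ x : ℝ) : ℂ) * inner ℂ (S.Q0 β ζ x) (f x) =
      ∫ x, inner ℂ (S.esaD φ β x (ζ x)) (f x) := by
  have hT : Setup.Tst (fun x => S.esaD φ β x (ζ x)) := Setup.Tst.clm (S.esa_contDiff_D hφ β) hζ
  have i1 : Integrable (fun x => ((φ x : ℝ) : ℂ) * inner ℂ (S.Q0 β ζ x) (f x))
      (volume : Measure (Cfg r)) := by
    have h2 : Setup.Tst (fun x => ((φ x : ℝ) : ℂ) • S.Q0 β ζ x) :=
      Setup.Tst.rsmul hφ (lio_Tst_Q0 S hζ β)
    refine (lio_pair hf h2).congr (Eventually.of_forall fun x => ?_)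
    simp only
    rw [inner_smul_left, Complex.conj_ofReal]
  have i2 := lio_pair hf hT
  simp only [lio_pair_smul S β hφ hζ] at h0
  rw [integral_sub i1 i2] at h0
  exact sub_eq_zero.1 h0

/-! ### (a) the collisions -/

lemma lio_a (S : Setup r K) (hcut : CutStmt r) (L : Finset (Fin r → ℝ)) (hL : ∀ l ∈ L, l ≠ 0)
    {f : Cfg r → K} (hf : LocallyIntegrable f (volume : Measure (Cfg r)))
    (hI : ∀ s t : ℝ, 0 < s → s < t →
      IntegrableOn (fun x => ‖f x‖ ^ 2) (shl r s t) (volume : Measure (Cfg r)))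
    (β : Fin 16) (hw : ∀ ζ, TOff L ζ → ∫ x, inner ℂ (S.Q0 β ζ x) (f x) = 0)
    {ζ : Cfg r → K} (hζ : Setup.Tst ζ) (h0 : (0 : Cfg r) ∉ tsupport ζ) :
    ∫ x, inner ℂ (S.Q0 β ζ x) (f x) = 0 := by
  obtain ⟨η, hη, h01, hd, h1, hae, hgr⟩ := hcut L hL
  have h1' : ∀ᵐ y ∂(volume : Measure (Cfg r)), ∀ᶠ n in atTop, η n y = 1 := by
    filter_upwards [hae] with y hy using h1 y hy
  -- the weak equations
  have hT : ∀ n, TOff L (fun x => ((η n x : ℝ) : ℂ) • ζ x) := by
    intro n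
    have hs1 : tsupport (fun x => ((η n x : ℝ) : ℂ) • ζ x) ⊆ tsupport (η n) := by
      refine closure_mono fun x hx => ?_
      simp only [Function.mem_support] at hx ⊢
      intro h0
      exact hx (by simp [h0])
    have hs2 : tsupport (fun x => ((η n x : ℝ) : ℂ) • ζ x) ⊆ tsupport ζ := by
      refine closure_mono fun x hx => ?_
      simp only [Function.mem_support] at hx ⊢
      intro h0
      exact hx (by simp [h0])
    exact ⟨⟨hζ.rsmul (hη n), (hd n).mono_left hs1⟩, fun h => h0 (hs2 h)⟩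
  have he : ∀ n, ∫ x, ((η n x : ℝ) : ℂ) * inner ℂ (S.Q0 β ζ x) (f x) =
      ∫ x, inner ℂ (S.esaD (η n) β x (ζ x)) (f x) := fun n =>
    lio_split S β hf (hη n) hζ (hw _ (hT n))
  have hlim := lio_dct hf (lio_Tst_Q0 S hζ β) (fun n => (hη n).continuous) h01 h1'
  -- the support of `ζ` lies in a shell
  obtain ⟨M, s₂, hM0, hs2, hM, hz⟩ := hζ.exists_bound
  obtain ⟨s₁, hs1, hz1⟩ : ∃ s₁ : ℝ, 0 < s₁ ∧ ∀ x, ‖x‖ < s₁ → ζ x = 0 := by
    have h2 : (tsupport ζ)ᶜ ∈ 𝓝 (0 : Cfg r) := (isClosed_tsupport ζ).isOpen_compl.mem_nhds h0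
    obtain ⟨s, hs, hsub⟩ := Metric.mem_nhds_iff.1 h2
    refine ⟨s, hs, fun x hx => ?_⟩
    by_contra hne
    exact hsub (by rwa [Metric.mem_ball, dist_zero_right]) (subset_tsupport _ hne)
  set A : Set (Cfg r) := shl r (s₁ / 2) (max s₁ s₂ + 1) with hA
  have hAm : MeasurableSet A := (lio_shl_open _ _).measurableSet
  have hAI := hI (s₁ / 2) (max s₁ s₂ + 1) (by positivity)
    (by linarith [le_max_left s₁ s₂])
  have hzA : ∀ x, x ∉ A → ζ x = 0 := by
    intro x hx
    by_contra hne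
    apply hx
    constructor
    · have h3 : s₁ ≤ ‖x‖ := by
        by_contra h4
        exact hne (hz1 x (not_le.1 h4))
      linarith
    · have h3 : ‖x‖ ≤ s₂ := by
        by_contra h4
        exact hne (hz x (not_le.1 h4))
      linarith [le_max_right s₁ s₂]
  set g : Cfg r → K := A.indicator f with hg
  have hgm : MemLp g 2 (volume : Measure (Cfg r)) := by
    have hgs : AEStronglyMeasurable g (volume : Measure (Cfg r)) :=
      hf.aestronglyMeasurable.indicator hAm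
    rw [memLp_two_iff_integrable_sq_norm hgs]
    have h3 : (fun x => ‖g x‖ ^ 2) = A.indicator fun x => ‖f x‖ ^ 2 := by
      funext x
      by_cases hx : x ∈ A
      · rw [hg, Set.indicator_of_mem hx, Set.indicator_of_mem hx]
      · rw [hg, Set.indicator_of_notMem hx, Set.indicator_of_notMem hx]
        simp
    rw [h3]
    exact hAI.integrable_indicator hAm
  have hTe : ∀ n, Setup.Tst (fun x => S.esaD (η n) β x (ζ x)) := fun n =>
    Setup.Tst.clm (S.esa_contDiff_D (hη n) β) hζ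
  have hcs : ∀ n, ‖∫ x, inner ℂ (S.esaD (η n) β x (ζ x)) (f x)‖ ≤
      Real.sqrt (∫ x, ‖S.esaD (η n) β x (ζ x)‖ ^ 2) * Real.sqrt (∫ x, ‖g x‖ ^ 2) := by
    intro n
    have h3 : ∫ x, inner ℂ (S.esaD (η n) β x (ζ x)) (f x) =
        ∫ x, inner ℂ (S.esaD (η n) β x (ζ x)) (g x) := by
      refine integral_congr_ae (Eventually.of_forall fun x => ?_)
      simp only
      by_cases hx : x ∈ A
      · rw [hg, Set.indicator_of_mem hx]
      · rw [hzA x hx, map_zero, inner_zero_left, inner_zero_left]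
    rw [h3]
    exact cs_inner (hTe n).memLp hgm
  -- the gradient of the cutoffs
  have ha2 : Tendsto (fun n => ∫ x, ‖S.esaD (η n) β x (ζ x)‖ ^ 2) atTop (𝓝 0) := by
    set c : ℝ := (∑ i, ∑ A, ‖S.vec (S.g i) A β‖ ^ 2) * M ^ 2 with hc
    have hc0 : 0 ≤ c := by positivity
    set s' : ℝ := s₂ + 1 with hs'
    have hv0 : ∀ x, x ∉ Metric.ball (0 : Cfg r) s' → ζ x = 0 := by
      intro x hx
      rw [Metric.mem_ball, dist_zero_right, not_lt] at hx
      exact hz x (by linarith)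
    have hb : ∀ n, ∫ x, ‖S.esaD (η n) β x (ζ x)‖ ^ 2 ≤
        c * ∑ i, ∑ A, ∫ y in Metric.ball (0 : Cfg r) s', pdr i A (η n) y ^ 2 := by
      intro n
      have hi : ∀ i A, IntegrableOn (fun y => pdr i A (η n) y ^ 2) (Metric.ball (0 : Cfg r) s') := by
        intro i A
        have hc2 : Continuous (fun y => pdr i A (η n) y ^ 2) :=
          (esa_pdr_smooth (hη n) i A).continuous.pow 2
        exact (hc2.locallyIntegrable.integrableOn_isCompact
          (isCompact_closedBall (0 : Cfg r) s')).mono_set Metric.ball_subset_closedBall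
      have e1 : ∑ i, ∑ A, ∫ y in Metric.ball (0 : Cfg r) s', pdr i A (η n) y ^ 2 =
          ∫ y in Metric.ball (0 : Cfg r) s', ∑ i, ∑ A, pdr i A (η n) y ^ 2 := by
        rw [integral_finsetSum _ fun i _ => integrable_finsetSum _ fun A _ => hi i A]
        exact Finset.sum_congr rfl fun i _ => (integral_finsetSum _ fun A _ => hi i A).symm
      rw [e1, ← integral_const_mul, ← integral_indicator Metric.isOpen_ball.measurableSet]
      refine integral_mono_of_nonneg (Eventually.of_forall fun x => by positivity) ?_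
        (Eventually.of_forall fun x => ?_)
      · refine (integrable_indicator_iff Metric.isOpen_ball.measurableSet).2 ?_
        exact (integrable_finsetSum _ fun i _ => integrable_finsetSum _ fun A _ => hi i A).const_mul c
      · simp only
        by_cases hx : x ∈ Metric.ball (0 : Cfg r) s'
        · rw [Set.indicator_of_mem hx]
          refine (esaD_sq S (η n) β x (ζ x)).trans ?_
          have h3 : ‖ζ x‖ ^ 2 ≤ M ^ 2 := pow_le_pow_left₀ (norm_nonneg _) (hM x) 2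
          have h4 : 0 ≤ ∑ i, ∑ A, pdr i A (η n) x ^ 2 := by positivity
          have h5 : 0 ≤ ∑ i, ∑ A, ‖S.vec (S.g i) A β‖ ^ 2 := by positivity
          calc (∑ i, ∑ A, pdr i A (η n) x ^ 2) * (∑ i, ∑ A, ‖S.vec (S.g i) A β‖ ^ 2) * ‖ζ x‖ ^ 2
              ≤ (∑ i, ∑ A, pdr i A (η n) x ^ 2) * (∑ i, ∑ A, ‖S.vec (S.g i) A β‖ ^ 2) * M ^ 2 :=
                mul_le_mul_of_nonneg_left h3 (mul_nonneg h4 h5)
            _ = _ := by rw [hc]; ring
        · rw [Set.indicator_of_notMem hx, hv0 x hx]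
          simp
    refine squeeze_zero (fun n => integral_nonneg fun x => by positivity) hb ?_
    simpa using (hgr s' (by positivity)).const_mul c
  have hz0 : Tendsto (fun n => ∫ x, inner ℂ (S.esaD (η n) β x (ζ x)) (f x)) atTop (𝓝 0) := by
    rw [tendsto_zero_iff_norm_tendsto_zero]
    refine squeeze_zero (fun n => norm_nonneg _) hcs ?_
    have h3 := (ha2.sqrt).mul_const (Real.sqrt (∫ x, ‖g x‖ ^ 2))
    simpa using h3
  have hfin : Tendsto (fun n => ∫ x, ((η n x : ℝ) : ℂ) * inner ℂ (S.Q0 β ζ x) (f x)) atTop (𝓝 0) := by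
    simpa only [he] using hz0
  exact tendsto_nhds_unique hlim hfin

/-! ### (b) the origin -/

lemma lio_cut_grad {κ R : ℝ} (hκ : 0 ≤ κ) (hR : 0 < R) {χ : Cfg r → ℝ} (H : IsCut κ R χ) (j : Fin 9)
    (B : Fin r) (x : Cfg r) : |pdr j B χ x| ≤ κ / R := by
  obtain ⟨-, -, -, -, -, -, h1, h2⟩ := H
  rcases lt_or_ge ‖x‖ R with hx | hx
  · rw [h2 j B x hx, abs_zero]
    positivity
  · rw [le_div_iff₀ hR]
    exact (mul_le_mul_of_nonneg_left hx (abs_nonneg _)).trans (h1 j B x)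

lemma lio_cut_out {κ R : ℝ} {χ : Cfg r → ℝ} (H : IsCut κ R χ) (j : Fin 9)
    (B : Fin r) {x : Cfg r} (hx : 2 * R < ‖x‖) : pdr j B χ x = 0 := by
  obtain ⟨-, -, -, -, -, h0, -, -⟩ := H
  have h1 : χ =ᶠ[𝓝 x] fun _ => (0 : ℝ) := by
    have h2 : {y : Cfg r | 2 * R < ‖y‖} ∈ 𝓝 x :=
      (isOpen_lt continuous_const continuous_norm).mem_nhds hx
    filter_upwards [h2] with y hy
    exact h0 y (le_of_lt hy)
  rw [pdr, h1.fderiv_eq]
  simp

/-- `∫ |⟨(γθ∇χ)ζ, f⟩| ≤ C ρ^{-1} ∫_{dyadic shell} |f|` -/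
lemma lio_b_est (S : Setup r K) (β : Fin 16) {f : Cfg r → K}
    {κ M : ℝ} (hκ : 0 ≤ κ) {χ : Cfg r → ℝ} (n : ℕ)
    (H : IsCut κ ((1 / 2 : ℝ) ^ (n + 1)) χ)
    (hfi : IntegrableOn f (dsh r (-((n : ℤ) + 1))) (volume : Measure (Cfg r)))
    {ζ : Cfg r → K} (hM : ∀ x, ‖ζ x‖ ≤ M) :
    ‖∫ x, inner ℂ (S.esaD χ β x (ζ x)) (f x)‖ ≤
      κ / (1 / 2 : ℝ) ^ (n + 1) * S.esaC β * M * ∫ x in dsh r (-((n : ℤ) + 1)), ‖f x‖ := by
  set ρ : ℝ := (1 / 2) ^ (n + 1) with hρ
  have hρ0 : 0 < ρ := by positivity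
  set c : ℝ := κ / ρ * S.esaC β * M with hc
  have hm : MeasurableSet (dsh r (-((n : ℤ) + 1))) := (lio_shl_open _ _).measurableSet
  have h0 : ∀ᵐ x ∂(volume : Measure (Cfg r)), ‖x‖ ≠ ρ ∧ ‖x‖ ≠ 2 * ρ := by
    have h1 : ∀ t : ℝ, 0 < t → ∀ᵐ x ∂(volume : Measure (Cfg r)), ‖x‖ ≠ t := by
      intro t ht
      rw [ae_iff]
      have h2 : {x : Cfg r | ¬‖x‖ ≠ t} = Metric.sphere 0 t := by
        ext x
        simp
      rw [h2]
      exact Measure.addHaar_sphere_of_ne_zero _ _ ht.ne'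
    filter_upwards [h1 ρ hρ0, h1 (2 * ρ) (by positivity)] with x hx hy using ⟨hx, hy⟩
  have hbd : ∀ᵐ x ∂(volume : Measure (Cfg r)), ‖inner ℂ (S.esaD χ β x (ζ x)) (f x)‖ ≤
      (dsh r (-((n : ℤ) + 1))).indicator (fun x => c * ‖f x‖) x := by
    filter_upwards [h0] with x hx
    by_cases hxs : x ∈ dsh r (-((n : ℤ) + 1))
    · rw [Set.indicator_of_mem hxs]
      have h1 := D_norm S (fun j B y => lio_cut_grad hκ hρ0 H j B y) β x
      calc ‖inner ℂ (S.esaD χ β x (ζ x)) (f x)‖ ≤ ‖S.esaD χ β x (ζ x)‖ * ‖f x‖ :=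
            norm_inner_le_norm _ _
        _ ≤ (κ / ρ * S.esaC β * M) * ‖f x‖ := by
            refine mul_le_mul_of_nonneg_right ?_ (norm_nonneg _)
            refine ((S.esaD χ β x).le_opNorm (ζ x)).trans ?_
            exact mul_le_mul h1 (hM x) (norm_nonneg _) ((norm_nonneg _).trans h1)
    · rw [Set.indicator_of_notMem hxs]
      have h1 : ‖x‖ < ρ ∨ 2 * ρ < ‖x‖ := by
        by_contra h2
        rw [not_or, not_lt, not_lt] at h2
        apply hxs
        rw [lio_dsh]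
        exact ⟨lt_of_le_of_ne h2.1 (Ne.symm hx.1), lt_of_le_of_ne h2.2 hx.2⟩
      have h2 : ∀ i A, pdr i A χ x = 0 := by
        intro i A
        rcases h1 with h1 | h1
        · exact H.2.2.2.2.2.2.2 i A x h1
        · exact lio_cut_out H i A h1
      rw [lio_esaD_zero S h2, _root_.zero_apply, inner_zero_left, norm_zero]
  calc ‖∫ x, inner ℂ (S.esaD χ β x (ζ x)) (f x)‖
      ≤ ∫ x, (dsh r (-((n : ℤ) + 1))).indicator (fun x => c * ‖f x‖) x :=
        norm_integral_le_of_norm_le (IntegrableOn.integrable_indicator (hfi.norm.const_mul c) hm) hbd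
    _ = _ := by rw [integral_indicator hm, integral_const_mul]

/-- **D10 (a), (b)**: `f` is locally integrable and `Q0_β f = 0` weakly on the whole space -/
theorem liouA (S : Setup r K) (hcut : CutStmt r) (hr : 0 < r) (L : Finset (Fin r → ℝ))
    (hL : ∀ l ∈ L, l ≠ 0) (f : Cfg r → K)
    (hf : AEStronglyMeasurable f (volume : Measure (Cfg r)))
    (hI : ∀ s t : ℝ, 0 < s → s < t →
      IntegrableOn (fun x => ‖f x‖ ^ 2) (shl r s t) (volume : Measure (Cfg r)))
    (hC : ∃ C : ℝ, ∀ k : ℤ, ∫ x in dsh r k, ‖f x‖ ^ 2 ≤ C * (2 : ℝ) ^ (3 * |k|))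
    (hw : ∀ β, ∀ ζ, TOff L ζ → ∫ x, inner ℂ (S.Q0 β ζ x) (f x) = 0) :
    LocallyIntegrable f (volume : Measure (Cfg r)) ∧
      ∀ β, ∀ ζ, Setup.Tst ζ → ∫ x, inner ℂ (S.Q0 β ζ x) (f x) = 0 := by
  obtain ⟨C, hC⟩ := hC
  obtain ⟨C₁, hC1, hC2⟩ := lio_mass hr hf hI hC
  have hloc := lio_locInt hr hf hI hC2
  refine ⟨hloc, fun β ζ hζ => ?_⟩
  obtain ⟨κ, hκ, hex⟩ := exists_cut (d := r)
  have hch : ∀ n : ℕ, ∃ χ : Cfg r → ℝ, IsCut κ ((1 / 2 : ℝ) ^ (n + 1)) χ := fun n =>
    hex _ (by positivity)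
  choose χ hχ using hch
  set φ : ℕ → Cfg r → ℝ := fun n x => 1 - χ n x with hφ
  have hφs : ∀ n, ContDiff ℝ ∞ (φ n) := fun n => contDiff_const.sub (hχ n).1
  have h01 : ∀ n y, 0 ≤ φ n y ∧ φ n y ≤ 1 := fun n y =>
    ⟨sub_nonneg.2 ((hχ n).2.2.2.1 y), sub_le_self _ ((hχ n).2.2.1 y)⟩
  have hρlim : Tendsto (fun n : ℕ => (1 / 2 : ℝ) ^ (n + 1)) atTop (𝓝 0) :=
    (tendsto_pow_atTop_nhds_zero_of_lt_one (by norm_num) (by norm_num)).comp (tendsto_add_atTop_nat 1)
  have h1 : ∀ᵐ y ∂(volume : Measure (Cfg r)), ∀ᶠ n in atTop, φ n y = 1 := by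
    have : Nonempty (Fin r) := ⟨⟨0, hr⟩⟩
    have h0 : ∀ᵐ x ∂(volume : Measure (Cfg r)), x ≠ 0 := by
      rw [ae_iff]
      simp
    filter_upwards [h0] with y hy
    have h2 : Tendsto (fun n : ℕ => 2 * (1 / 2 : ℝ) ^ (n + 1)) atTop (𝓝 0) := by
      simpa using hρlim.const_mul 2
    filter_upwards [h2.eventually (gt_mem_nhds (norm_pos_iff.2 hy))] with n hn
    simp only [hφ]
    rw [(hχ n).2.2.2.2.2.1 y hn.le, sub_zero]
  -- the weak equations
  have h0s : ∀ n, (0 : Cfg r) ∉ tsupport (fun x => ((φ n x : ℝ) : ℂ) • ζ x) := by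
    intro n h
    have h3 : (fun x => ((φ n x : ℝ) : ℂ) • ζ x) =ᶠ[𝓝 0] 0 := by
      have h4 : Metric.ball (0 : Cfg r) ((1 / 2 : ℝ) ^ (n + 1)) ∈ 𝓝 0 :=
        Metric.ball_mem_nhds _ (by positivity)
      filter_upwards [h4] with x hx
      rw [Metric.mem_ball, dist_zero_right] at hx
      simp only [hφ]
      rw [(hχ n).2.2.2.2.1 x hx.le]
      simp
    exact (notMem_tsupport_iff_eventuallyEq.2 h3) h
  have he : ∀ n, ∫ x, ((φ n x : ℝ) : ℂ) * inner ℂ (S.Q0 β ζ x) (f x) =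
      ∫ x, inner ℂ (S.esaD (φ n) β x (ζ x)) (f x) := fun n =>
    lio_split S β hloc (hφs n) hζ
      (lio_a S hcut L hL hloc hI β (hw β) (hζ.rsmul (hφs n)) (h0s n))
  have hlim := lio_dct hloc (lio_Tst_Q0 S hζ β) (fun n => (hφs n).continuous) h01 h1
  obtain ⟨M, s₂, hM0, hs2, hM, hz⟩ := hζ.exists_bound
  have hb : ∀ n, ‖∫ x, inner ℂ (S.esaD (φ n) β x (ζ x)) (f x)‖ ≤
      κ * S.esaC β * M * C₁ * ((1 / 2 : ℝ) ^ (n + 1)) ^ 2 := by
    intro n
    have h3 : ∫ x, inner ℂ (S.esaD (φ n) β x (ζ x)) (f x) =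
        -∫ x, inner ℂ (S.esaD (χ n) β x (ζ x)) (f x) := by
      rw [← integral_neg]
      refine integral_congr_ae (Eventually.of_forall fun x => ?_)
      simp only [hφ]
      rw [lio_esaD_one_sub, _root_.neg_apply, inner_neg_left]
    rw [h3, norm_neg]
    refine (lio_b_est S β hκ n (hχ n) (hC2 n).1 hM).trans ?_
    have hρ0 : (0 : ℝ) < (1 / 2) ^ (n + 1) := by positivity
    have hE : 0 ≤ S.esaC β := by
      unfold Setup.esaC
      positivity
    calc κ / (1 / 2 : ℝ) ^ (n + 1) * S.esaC β * M * ∫ x in dsh r (-((n : ℤ) + 1)), ‖f x‖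
        ≤ κ / (1 / 2 : ℝ) ^ (n + 1) * S.esaC β * M * (C₁ * ((1 / 2 : ℝ) ^ (n + 1)) ^ 3) :=
          mul_le_mul_of_nonneg_left (hC2 n).2 (by positivity)
      _ = _ := by
          generalize (1 / 2 : ℝ) ^ (n + 1) = ρ at hρ0 ⊢
          field_simp
  have hz0 : Tendsto (fun n => ∫ x, inner ℂ (S.esaD (φ n) β x (ζ x)) (f x)) atTop (𝓝 0) := by
    rw [tendsto_zero_iff_norm_tendsto_zero]
    refine squeeze_zero (fun n => norm_nonneg _) hb ?_
    have h3 := (hρlim.pow 2).const_mul (κ * S.esaC β * M * C₁)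
    simpa using h3
  have hfin : Tendsto (fun n => ∫ x, ((φ n x : ℝ) : ℂ) * inner ℂ (S.Q0 β ζ x) (f x)) atTop (𝓝 0) := by
    simpa only [he] using hz0
  exact tendsto_nhds_unique hlim hfin

end Vale.Agent.P353.Z.AD
end

section

/-! # P353, all `N`, block D: Liouville theorem, second half (mollification, Caccioppoli, growth) -/

open MeasureTheory Filter Topology
open scoped ContDiff

namespace Vale.Agent.P353.Z.AD

open Vale.Agent.P353.Z.Moll Vale.Agent.P353.Z.U.HB Vale.Agent.P353.Z.U.WS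

variable {r : ℕ} {K : Type*} [NormedAddCommGroup K] [InnerProductSpace ℂ K]
  (S : Setup r K)

lemma lb_Q (β : Fin 16) (u : Cfg r → K) : (AF.flat S).Q β u = S.Q0 β u := by
  funext x
  have hW : (AF.flat S).W β x = 0 := by
    simp [Setup.W, Setup.FF, AF.flat]
  unfold Setup.Q Setup.Q0
  rw [hW]
  simp only [_root_.zero_apply, add_zero]
  rfl

lemma lb_W (β : Fin 16) : (AF.flat S).W β = fun _ => 0 := by
  funext x
  simp [Setup.W, Setup.FF, AF.flat]

lemma lb_energy {u : Cfg r → K} (hu : Setup.Tst u) :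
    ∑ β, ∫ x, ‖S.Q0 β u x‖ ^ 2 = 8 * ∑ i, ∑ A, ∫ x, ‖pd i A u x‖ ^ 2 := by
  have h := energy_formula (AF.flat S) u hu
  have hV : ∀ x, (AF.flat S).V x = 0 := fun x => by simp [Setup.V, Setup.FF, AF.flat]
  have hF : ∀ x, (AF.flat S).Fx x = 0 := fun x => by simp [Setup.Fx, AF.flat]
  simp only [lb_Q, hV, hF, zero_mul, integral_zero, _root_.zero_apply, inner_zero_right,
    Complex.zero_re, add_zero] at h
  linarith

lemma lb_pd_Q0 (β : Fin 16) {u : Cfg r → K} (hu : ContDiff ℝ ∞ u) (j : Fin 9) (B : Fin r)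
    (x : Cfg r) : pd j B (S.Q0 β u) x = S.Q0 β (pd j B u) x := by
  have h := (AF.flat S).pd_Q β hu j B x
  rw [lb_Q, lb_W] at h
  rw [h]
  simp only [_root_.zero_apply, add_zero, fderiv_fun_const, Pi.zero_apply]
  unfold Setup.Q0
  congr 1
  refine Finset.sum_congr rfl fun i _ => Finset.sum_congr rfl fun A _ => ?_
  rw [pd_comm hu i j A B x]
  rfl

lemma lb_Q0_smul (β : Fin 16) (φ : Cfg r → ℝ) (u : Cfg r → K) (x : Cfg r)
    (hφ : DifferentiableAt ℝ φ x) (hu : DifferentiableAt ℝ u x) :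
    S.Q0 β (fun y => ((φ y : ℝ) : ℂ) • u y) x = ((φ x : ℝ) : ℂ) • S.Q0 β u x -
      S.esaD φ β x (u x) := by
  rw [← lb_Q, ← lb_Q, Q_smul (AF.flat S) β φ u x hφ hu, Setup.esaD]
  simp only [_root_.smul_apply, _root_.sum_apply]
  rfl

omit [InnerProductSpace ℂ K] in
lemma lb_int {g : Cfg r → K} (hg : Continuous g) (s : ℝ) :
    IntegrableOn (fun x => ‖g x‖ ^ 2) (Metric.ball (0 : Cfg r) s) volume :=
  (((hg.norm.pow 2).locallyIntegrable (μ := volume)).integrableOn_isCompact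
    (isCompact_closedBall (0 : Cfg r) s)).mono_set Metric.ball_subset_closedBall

/-- Caccioppoli inequality -/
lemma lb_cacc : ∃ C : ℝ, 0 ≤ C ∧ ∀ g : Cfg r → K, ContDiff ℝ ∞ g → (∀ β x, S.Q0 β g x = 0) →
    ∀ s : ℝ, 0 < s → ∀ i A, mas (pd i A g) (Metric.ball 0 s) ≤
      C / s ^ 2 * mas g (Metric.ball 0 (4 * s)) := by
  obtain ⟨κ, hκ0, hκ⟩ := exists_rc
  refine ⟨(1 / 8) * ∑ β, (κ * S.esaC β) ^ 2, by positivity, fun g hg h0 s hs i A => ?_⟩
  obtain ⟨h, hh⟩ := hκ (2 * s) (by positivity)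
  set χ : Cfg r → ℝ := rad h with hχ
  have hχs : ContDiff ℝ ∞ χ := contDiff_rad hh.contDiff
  set u : Cfg r → K := fun y => ((χ y : ℝ) : ℂ) • g y with hu
  have huT : Setup.Tst u := by
    refine ⟨(Setup.contDiff_ofReal hχs).smul hg, ?_⟩
    refine HasCompactSupport.intro (isCompact_closedBall (0 : Cfg r) (2 * s)) fun x hx => ?_
    rw [Metric.mem_closedBall, dist_zero_right, not_le] at hx
    simp only [hu, hχ]
    rw [hh.zero x hx.le, Complex.ofReal_zero, zero_smul]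
  have hQ : ∀ β x, S.Q0 β u x = -S.esaD χ β x (g x) := by
    intro β x
    rw [hu, lb_Q0_smul S β χ g x (hχs.differentiable (by simp) x) (hg.differentiable (by simp) x),
      h0, smul_zero, zero_sub]
  have hgr : ∀ j B (x : Cfg r), |pdr j B χ x| ≤ κ / (2 * s) := fun j B x => hh.grad j B x
  have hgr' : ∀ j B (x : Cfg r), |pdr j B χ x| ≤ κ / s := fun j B x => by
    refine (hgr j B x).trans ?_
    exact div_le_div_of_nonneg_left hκ0 hs (by linarith)
  have hout : ∀ j B (x : Cfg r), 4 * s ≤ ‖x‖ → pdr j B χ x = 0 := by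
    intro j B x hx
    have h1 : χ =ᶠ[𝓝 x] fun _ => 0 := by
      have : {y : Cfg r | 2 * s < ‖y‖} ∈ 𝓝 x :=
        (isOpen_lt continuous_const continuous_norm).mem_nhds (by
          change 2 * s < ‖x‖
          linarith)
      filter_upwards [this] with y hy
      exact hh.zero y (le_of_lt hy)
    rw [pdr, h1.fderiv_eq]
    simp
  have hb : ∀ β (x : Cfg r), ‖S.Q0 β u x‖ ^ 2 ≤ (Metric.ball (0 : Cfg r) (4 * s)).indicator
      (fun x => (κ / s * S.esaC β) ^ 2 * ‖g x‖ ^ 2) x := by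
    intro β x
    rw [hQ, norm_neg]
    by_cases hx : x ∈ Metric.ball (0 : Cfg r) (4 * s)
    · rw [Set.indicator_of_mem hx, ← mul_pow]
      refine pow_le_pow_left₀ (norm_nonneg _) ?_ 2
      refine ((S.esaD χ β x).le_opNorm _).trans (mul_le_mul_of_nonneg_right ?_ (norm_nonneg _))
      exact D_norm S hgr' β x
    · rw [Set.indicator_of_notMem hx]
      rw [Metric.mem_ball, dist_zero_right, not_lt] at hx
      have : S.esaD χ β x = 0 := by
        unfold Setup.esaD
        simp only [hout _ _ x hx, Complex.ofReal_zero, zero_smul, Finset.sum_const_zero, smul_zero]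
      rw [this]
      simp
  have hI : ∀ β, ∫ x, ‖S.Q0 β u x‖ ^ 2 ≤ (κ / s * S.esaC β) ^ 2 * mas g (Metric.ball 0 (4 * s)) := by
    intro β
    have hi : Integrable ((Metric.ball (0 : Cfg r) (4 * s)).indicator
        (fun x => (κ / s * S.esaC β) ^ 2 * ‖g x‖ ^ 2)) := by
      rw [integrable_indicator_iff Metric.isOpen_ball.measurableSet]
      exact (lb_int hg.continuous (4 * s)).const_mul _
    refine (integral_mono_of_nonneg (Eventually.of_forall fun x => by positivity) hi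
      (Eventually.of_forall (hb β))).trans ?_
    rw [integral_indicator Metric.isOpen_ball.measurableSet, integral_const_mul]
    rfl
  have hE := lb_energy S huT
  have h1 : mas (pd i A g) (Metric.ball 0 s) ≤ ∫ x, ‖pd i A u x‖ ^ 2 := by
    unfold mas
    have e : ∫ x in Metric.ball (0 : Cfg r) s, ‖pd i A g x‖ ^ 2 =
        ∫ x in Metric.ball (0 : Cfg r) s, ‖pd i A u x‖ ^ 2 := by
      refine setIntegral_congr_fun Metric.isOpen_ball.measurableSet fun x hx => ?_
      have h2 : u =ᶠ[𝓝 x] g := by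
        filter_upwards [Metric.isOpen_ball.mem_nhds hx] with y hy
        rw [Metric.mem_ball, dist_zero_right] at hy
        simp only [hu, hχ]
        rw [hh.one y (by linarith), Complex.ofReal_one, one_smul]
      have h3 : pd i A u x = pd i A g x := by
        unfold pd
        rw [h2.fderiv_eq]
      simp only [h3]
    rw [e]
    exact setIntegral_le_integral (huT.pd i A).norm_sq_int (Eventually.of_forall fun x => by
      positivity)
  have h2 : ∫ x, ‖pd i A u x‖ ^ 2 ≤ ∑ i, ∑ A, ∫ x, ‖pd i A u x‖ ^ 2 := by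
    refine (Finset.single_le_sum (f := fun A => ∫ x, ‖pd i A u x‖ ^ 2)
      (fun A _ => integral_nonneg fun x => by positivity) (Finset.mem_univ A)).trans ?_
    exact Finset.single_le_sum (f := fun i => ∑ A, ∫ x, ‖pd i A u x‖ ^ 2)
      (fun i _ => Finset.sum_nonneg fun A _ => integral_nonneg fun x => by positivity)
      (Finset.mem_univ i)
  have h3 : ∑ β, ∫ x, ‖S.Q0 β u x‖ ^ 2 ≤
      ∑ β, (κ / s * S.esaC β) ^ 2 * mas g (Metric.ball 0 (4 * s)) :=
    Finset.sum_le_sum fun β _ => hI β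
  have h4 : ∑ β, (κ / s * S.esaC β) ^ 2 * mas g (Metric.ball 0 (4 * s)) =
      (∑ β, (κ * S.esaC β) ^ 2) / s ^ 2 * mas g (Metric.ball 0 (4 * s)) := by
    rw [← Finset.sum_mul, Finset.sum_div]
    congr 1
    refine Finset.sum_congr rfl fun β _ => ?_
    field_simp
  have h5 : (1 / 8) * (∑ β, (κ * S.esaC β) ^ 2) / s ^ 2 * mas g (Metric.ball 0 (4 * s)) =
      1 / 8 * ((∑ β, (κ * S.esaC β) ^ 2) / s ^ 2 * mas g (Metric.ball 0 (4 * s))) := by ring
  rw [h5]
  linarith

/-- growth at most like `a^n` on balls of radius `2^n` -/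
def Gro (g : Cfg r → K) (a : ℝ) : Prop :=
  ∃ C : ℝ, ∀ n : ℕ, mas g (Metric.ball 0 ((2 : ℝ) ^ n)) ≤ C * a ^ n

omit [InnerProductSpace ℂ K] in
lemma lb_mas_nonneg (g : Cfg r → K) (A : Set (Cfg r)) : 0 ≤ mas g A :=
  integral_nonneg fun _ => by positivity

lemma lb_step {g : Cfg r → K} (hg : ContDiff ℝ ∞ g) (h0 : ∀ β x, S.Q0 β g x = 0) {a : ℝ}
    (h : Gro g a) (i : Fin 9) (A : Fin r) : Gro (pd i A g) (a / 4) := by
  obtain ⟨C, hC0, hC⟩ := lb_cacc S
  obtain ⟨D, hD⟩ := h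
  refine ⟨C * D * a ^ 2, fun n => ?_⟩
  have h1 := hC g hg h0 ((2 : ℝ) ^ n) (by positivity) i A
  have h2 := hD (n + 2)
  have e : (4 : ℝ) * 2 ^ n = 2 ^ (n + 2) := by rw [pow_add]; ring
  rw [e] at h1
  refine h1.trans ((mul_le_mul_of_nonneg_left h2 (by positivity)).trans (le_of_eq ?_))
  have e2 : ((2 : ℝ) ^ n) ^ 2 = 4 ^ n := by
    rw [← pow_mul, mul_comm, pow_mul]; norm_num
  rw [e2, div_pow, pow_add]
  field_simp

omit [InnerProductSpace ℂ K] in
lemma lb_zero {g : Cfg r → K} (hg : Continuous g)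
    (h : ∀ n : ℕ, mas g (Metric.ball 0 ((2 : ℝ) ^ n)) = 0) (x : Cfg r) : g x = 0 := by
  obtain ⟨n, hn⟩ := pow_unbounded_of_one_lt ‖x‖ (one_lt_two : (1 : ℝ) < 2)
  have h1 := h n
  unfold mas at h1
  rw [setIntegral_eq_zero_iff_of_nonneg_ae (Eventually.of_forall fun x => by positivity)
    (lb_int hg _)] at h1
  have h2 := Measure.eqOn_open_of_ae_eq h1 Metric.isOpen_ball
    (hg.norm.pow 2).continuousOn continuousOn_const
  have h3 := h2 (show x ∈ Metric.ball (0 : Cfg r) ((2 : ℝ) ^ n) by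
    rw [Metric.mem_ball, dist_zero_right]; exact hn)
  simpa using h3

omit [InnerProductSpace ℂ K] in
lemma lb_small {g : Cfg r → K} (hg : Continuous g) {a : ℝ} (ha0 : 0 ≤ a) (ha : a < 1)
    (h : Gro g a) (x : Cfg r) : g x = 0 := by
  obtain ⟨C, hC⟩ := h
  refine lb_zero hg (fun n => le_antisymm ?_ (lb_mas_nonneg _ _)) x
  have h1 : ∀ k, n ≤ k → mas g (Metric.ball 0 ((2 : ℝ) ^ n)) ≤ C * a ^ k := by
    intro k hk
    refine le_trans ?_ (hC k)
    refine setIntegral_mono_set (lb_int hg _) (Eventually.of_forall fun x => by positivity) ?_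
    exact (Metric.ball_subset_ball (pow_le_pow_right₀ one_le_two hk)).eventuallyLE
  have h2 : Tendsto (fun k : ℕ => C * a ^ k) atTop (𝓝 (C * 0)) :=
    (tendsto_pow_atTop_nhds_zero_of_lt_one ha0 ha).const_mul C
  rw [mul_zero] at h2
  exact ge_of_tendsto h2 (eventually_atTop.2 ⟨n, h1⟩)

lemma lb_const {g : Cfg r → K} (hg : ContDiff ℝ ∞ g) (h : ∀ i A x, pd i A g x = 0) (x : Cfg r) :
    g x = g 0 := by
  refine is_const_of_fderiv_eq_zero (𝕜 := ℝ) (hg.differentiable (by simp)) (fun y => ?_) x 0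
  refine ContinuousLinearMap.coe_injective
    ((EuclideanSpace.basisFun (Fin 9 × Fin r) ℝ).toBasis.ext fun p => ?_)
  have := h p.1 p.2 y
  simpa [pd] using this

omit [InnerProductSpace ℂ K] in
lemma lb_const_zero (hr : 0 < r) {c : K} {a : ℝ} (ha0 : 0 ≤ a) (ha : a < 2 ^ 9)
    (h : Gro (fun _ : Cfg r => c) a) : c = 0 := by
  obtain ⟨C, hC⟩ := h
  have hv : 0 < (volume (Metric.ball (0 : Cfg r) 1)).toReal :=
    ENNReal.toReal_pos (Metric.measure_ball_pos volume _ one_pos).ne' measure_ball_lt_top.ne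
  have hm : ∀ n : ℕ, mas (fun _ : Cfg r => c) (Metric.ball 0 ((2 : ℝ) ^ n)) =
      ((2 : ℝ) ^ n) ^ (9 * r) * (volume (Metric.ball (0 : Cfg r) 1)).toReal * ‖c‖ ^ 2 := by
    intro n
    unfold mas
    rw [setIntegral_const, smul_eq_mul, Measure.real,
      Measure.addHaar_ball_of_pos (volume : Measure (Cfg r)) 0 (by positivity), ENNReal.toReal_mul,
      ENNReal.toReal_ofReal (by positivity)]
    congr 3
    simp
  have hk : ∀ n : ℕ, (volume (Metric.ball (0 : Cfg r) 1)).toReal * ‖c‖ ^ 2 ≤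
      C * (a / 2 ^ 9) ^ n := by
    intro n
    have h1 := hC n
    rw [hm] at h1
    have h2 : ((2 : ℝ) ^ 9) ^ n ≤ ((2 : ℝ) ^ n) ^ (9 * r) := by
      rw [← pow_mul, ← pow_mul]
      refine pow_le_pow_right₀ one_le_two ?_
      have : 9 * n * 1 ≤ 9 * n * r := Nat.mul_le_mul_left _ hr
      calc 9 * n = 9 * n * 1 := (mul_one _).symm
        _ ≤ 9 * n * r := this
        _ = n * (9 * r) := by ring
    have h3 : ((2 : ℝ) ^ 9) ^ n * ((volume (Metric.ball (0 : Cfg r) 1)).toReal * ‖c‖ ^ 2) ≤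
        C * a ^ n := by
      refine le_trans ?_ h1
      rw [mul_assoc]
      exact mul_le_mul_of_nonneg_right h2 (by positivity)
    rw [div_pow, mul_div_assoc', le_div_iff₀ (by positivity)]
    linarith
  have h2 : Tendsto (fun k : ℕ => C * (a / 2 ^ 9) ^ k) atTop (𝓝 (C * 0)) :=
    (tendsto_pow_atTop_nhds_zero_of_lt_one (by positivity) (by
      rw [div_lt_one (by positivity)]; exact ha)).const_mul C
  rw [mul_zero] at h2
  have h3 := ge_of_tendsto' h2 hk
  have h4 : ‖c‖ ^ 2 ≤ 0 := by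
    by_contra hcon
    rw [not_le] at hcon
    have := mul_pos hv hcon
    linarith
  have h5 : ‖c‖ = 0 := by
    have := le_antisymm h4 (by positivity)
    exact pow_eq_zero_iff (two_ne_zero) |>.1 this
  exact norm_eq_zero.1 h5

/-- Liouville theorem for smooth functions -/
lemma lb_smooth (hr : 0 < r) {g : Cfg r → K} (hg : ContDiff ℝ ∞ g)
    (h0 : ∀ β x, S.Q0 β g x = 0) (h : Gro g 8) (x : Cfg r) : g x = 0 := by
  have c1 : ∀ i A, ContDiff ℝ ∞ (pd i A g) := fun i A => contDiff_pd hg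
  have q1 : ∀ i A β x, S.Q0 β (pd i A g) x = 0 := by
    intro i A β x
    rw [← lb_pd_Q0 S β hg i A x]
    have : S.Q0 β g = fun _ => 0 := funext (h0 β)
    rw [this]
    simp [pd]
  have g1 : ∀ i A, Gro (pd i A g) 2 := fun i A => by
    have := lb_step S hg h0 h i A
    norm_num at this
    exact this
  have z2 : ∀ i A j B x, pd j B (pd i A g) x = 0 := by
    intro i A j B x
    have := lb_step S (c1 i A) (q1 i A) (g1 i A) j B
    exact lb_small (contDiff_pd (c1 i A)).continuous (by norm_num) (by norm_num) this x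
  have z1 : ∀ i A x, pd i A g x = 0 := by
    intro i A x
    have e : ∀ x, pd i A g x = pd i A g 0 := lb_const (c1 i A) (z2 i A)
    have e' : pd i A g = fun _ => pd i A g 0 := funext e
    have h1 := g1 i A
    rw [e'] at h1
    rw [e x]
    exact lb_const_zero hr (by norm_num) (by norm_num) h1
  have e : ∀ x, g x = g 0 := lb_const hg z1
  have e' : g = fun _ => g 0 := funext e
  rw [e x]
  rw [e'] at h
  exact lb_const_zero hr (by norm_num) (by norm_num) h

/-- the mollified equation -/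
lemma lb_Q0_mo [CompleteSpace K] {ρ : Cfg r → ℝ} (hρ : ContDiff ℝ ∞ ρ) (hc : HasCompactSupport ρ)
    (β : Fin 16) {u : Cfg r → K} (hu : LocallyIntegrable u volume)
    (hw : ∀ ζ, Setup.Tst ζ → ∫ x, inner ℂ (S.Q0 β ζ x) (u x) = 0) (x : Cfg r) :
    S.Q0 β (mo ρ u) x = 0 := by
  have i1 : ∀ i A, Integrable (fun y => pdr i A ρ (x - y) • u y) := fun i A =>
    integrable_mo (esa_pdr_smooth hρ i A).continuous
      (hc.fderiv_apply (𝕜 := ℝ) (EuclideanSpace.single (i, A) (1 : ℝ) : (Cfg r))) hu x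
  have i5 : Integrable (fun y => (-Complex.I) • ∑ i, ∑ A, S.vec (S.g i) A β (pdr i A ρ (x - y) • u y)) :=
    (integrable_finsetSum _ fun i _ => integrable_finsetSum _ fun A _ =>
      (S.vec (S.g i) A β).integrable_comp (i1 i A)).smul (-Complex.I)
  have eL : S.Q0 β (mo ρ u) x =
      ∫ y, (-Complex.I) • ∑ i, ∑ A, S.vec (S.g i) A β (pdr i A ρ (x - y) • u y) := by
    rw [integral_smul, integral_finsetSum _ fun i _ => integrable_finsetSum _ fun A _ =>
      (S.vec (S.g i) A β).integrable_comp (i1 i A), Setup.Q0]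
    congr 1
    refine Finset.sum_congr rfl fun i _ => ?_
    rw [integral_finsetSum _ fun A _ => (S.vec (S.g i) A β).integrable_comp (i1 i A)]
    refine Finset.sum_congr rfl fun A _ => ?_
    rw [(S.vec (S.g i) A β).integral_comp_comm (i1 i A), Moll.pd_mo hρ hc hu]
    rfl
  rw [eL]
  refine ext_inner_left ℂ fun w => ?_
  rw [← integral_inner i5, inner_zero_right, ← hw (tz ρ x w) (Tst_tz hρ hc x w)]
  refine integral_congr_ae (Eventually.of_forall fun y => ?_)
  have e1 : ∀ i A, pd i A (tz ρ x w) y = -((((pdr i A ρ (x - y)) : ℝ) : ℂ) • w) :=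
    fun i A => pd_tz hρ x w i A y
  simp only [Setup.Q0, e1, ← Complex.coe_smul (E := K), map_smul, map_neg,
    inner_smul_left, inner_smul_right, sum_inner, inner_sum,
    inner_neg_left, Complex.conj_ofReal, Complex.conj_I, AF.vec_symm]
  simp only [Finset.mul_sum, neg_neg, mul_neg, neg_mul]

lemma lb_shl_meas (s t : ℝ) : MeasurableSet (shl r s t) :=
  (isOpen_lt continuous_const continuous_norm).measurableSet.inter
    (isOpen_lt continuous_norm continuous_const).measurableSet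

omit [InnerProductSpace ℂ K] in
/-- growth of the mass of dyadic shells -/
lemma lb_dy {f : Cfg r → K} (hr : 0 < r)
    (h1 : ∀ s t : ℝ, 0 < s → s < t → IntegrableOn (fun x => ‖f x‖ ^ 2) (shl r s t) (volume : Measure (Cfg r)))
    (h2 : ∃ C : ℝ, ∀ k : ℤ, ∫ x in dsh r k, ‖f x‖ ^ 2 ≤ C * (2 : ℝ) ^ (3 * |k|)) :
    ∃ C : ℝ, 0 ≤ C ∧ ∀ n : ℕ, ∫ x in shl r (1 / 2) ((2 : ℝ) ^ (n + 1)), ‖f x‖ ^ 2 ≤ C * 8 ^ n := by
  obtain ⟨C, hC⟩ := h2
  have hC0 : 0 ≤ C := by
    have h := hC 0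
    have h' : (0 : ℝ) ≤ ∫ x in dsh r 0, ‖f x‖ ^ 2 := integral_nonneg fun _ => by positivity
    simp at h
    linarith
  -- splitting a shell
  have hsplit : ∀ a b c : ℝ, 0 < a → a < b → b < c → ∫ x in shl r a c, ‖f x‖ ^ 2 ≤
      (∫ x in shl r a b, ‖f x‖ ^ 2) + ∫ x in shl r b c, ‖f x‖ ^ 2 := by
    intro a b c ha hab hbc
    have hfin : Nonempty (Fin r) := ⟨⟨0, hr⟩⟩
    have hsph : volume (Metric.sphere (0 : Cfg r) b) = 0 :=
      Measure.addHaar_sphere_of_ne_zero volume 0 (by linarith : b ≠ 0).symm.symm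
    have hd : Disjoint (shl r a b) (shl r b c) := by
      rw [Set.disjoint_left]
      intro x hx hx'
      exact absurd hx.2 (not_lt.2 hx'.1.le)
    have he : (shl r a c : Set (Cfg r)) ≤ᵐ[volume] (shl r a b ∪ shl r b c : Set (Cfg r)) := by
      have : ∀ᵐ x ∂(volume : Measure (Cfg r)), x ∉ Metric.sphere (0 : Cfg r) b :=
        measure_eq_zero_iff_ae_notMem.1 hsph
      filter_upwards [this] with x hx h
      rw [Metric.mem_sphere, dist_zero_right] at hx
      rcases lt_or_gt_of_ne hx with h' | h'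
      · exact Or.inl ⟨h.1, h'⟩
      · exact Or.inr ⟨h', h.2⟩
    rw [← setIntegral_union hd (lb_shl_meas b c) (h1 a b ha hab) (h1 b c (ha.trans hab) hbc)]
    exact setIntegral_mono_set ((h1 a b ha hab).union (h1 b c (ha.trans hab) hbc))
      (Eventually.of_forall fun x => by positivity) he
  refine ⟨16 * C, by positivity, fun n => ?_⟩
  induction n with
  | zero =>
    have e1 := hsplit (1 / 2) 1 2 (by norm_num) (by norm_num) (by norm_num)
    have e2 := hC (-1)
    have e3 := hC 0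
    have d1 : dsh r (-1) = shl r (1 / 2) 1 := by
      unfold dsh; norm_num
    have d2 : dsh r 0 = shl r 1 2 := by
      unfold dsh; norm_num
    rw [d1] at e2
    rw [d2] at e3
    norm_num at e1 e2 e3 ⊢
    linarith
  | succ n ih =>
    have e1 := hsplit (1 / 2) ((2 : ℝ) ^ (n + 1)) ((2 : ℝ) ^ (n + 1 + 1)) (by norm_num)
      (by
        have : (1 : ℝ) ≤ 2 ^ (n + 1) := one_le_pow₀ one_le_two
        linarith)
      (pow_lt_pow_right₀ one_lt_two (Nat.lt_succ_self _))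
    have e2 := hC ((n : ℤ) + 1)
    have d1 : dsh r ((n : ℤ) + 1) = shl r ((2 : ℝ) ^ (n + 1)) ((2 : ℝ) ^ (n + 1 + 1)) := by
      unfold dsh
      norm_cast
    have d2 : (2 : ℝ) ^ (3 * |(n : ℤ) + 1|) = 8 ^ (n + 1) := by
      rw [abs_of_nonneg (by positivity)]
      have : (3 * ((n : ℤ) + 1)) = ((3 * (n + 1) : ℕ) : ℤ) := by push_cast; ring
      rw [this, zpow_natCast, pow_mul]
      norm_num
    rw [d1, d2] at e2
    have e3 : 16 * C * 8 ^ (n + 1) = 128 * (C * 8 ^ n) := by ring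
    have e4 : C * 8 ^ (n + 1) = 8 * (C * 8 ^ n) := by ring
    have e5 : 16 * C * 8 ^ n = 16 * (C * 8 ^ n) := by ring
    have e6 : 0 ≤ C * 8 ^ n := by positivity
    linarith

omit [InnerProductSpace ℂ K] in
/-- truncation to a shell -/
lemma lb_memLp {f : Cfg r → K} (hm : AEStronglyMeasurable f (volume : Measure (Cfg r)))
    (h1 : ∀ s t : ℝ, 0 < s → s < t → IntegrableOn (fun x => ‖f x‖ ^ 2) (shl r s t) (volume : Measure (Cfg r)))
    {s t : ℝ} (hs : 0 < s) (hst : s < t) :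
    MemLp ((shl r s t).indicator f) 2 (volume : Measure (Cfg r)) ∧
      nsq ((shl r s t).indicator f) = ∫ x in shl r s t, ‖f x‖ ^ 2 := by
  have e : (fun x => ‖(shl r s t).indicator f x‖ ^ 2) = (shl r s t).indicator (fun x => ‖f x‖ ^ 2) := by
    funext x
    by_cases hx : x ∈ shl r s t
    · simp [hx]
    · simp [hx]
  constructor
  · refine (memLp_two_iff_integrable_sq_norm (hm.indicator (lb_shl_meas s t))).mpr ?_
    rw [e, integrable_indicator_iff (lb_shl_meas s t)]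
    exact h1 s t hs hst
  · unfold nsq
    rw [e, integral_indicator (lb_shl_meas s t)]

omit [InnerProductSpace ℂ K] in
lemma lb_mo_ind [NormedSpace ℝ K] {ε : ℝ} {ρ : Cfg r → ℝ} (h : IsMol ε ρ) (f : Cfg r → K) {s t : ℝ} {x : Cfg r}
    (hs : s + ε ≤ ‖x‖) (ht : ‖x‖ + ε ≤ t) : mo ρ f x = mo ρ ((shl r s t).indicator f) x := by
  unfold mo
  refine integral_congr_ae (Eventually.of_forall fun y => ?_)
  by_cases hy : y ∈ shl r s t
  · simp only [Set.indicator_of_mem hy]
  · have hz : ρ (x - y) = 0 := by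
      refine h.supp _ ?_
      by_contra hcon
      rw [not_le] at hcon
      refine hy ⟨?_, ?_⟩
      · have := norm_sub_norm_le x y
        linarith
      · have := norm_sub_norm_le y x
        rw [norm_sub_rev] at this
        linarith
    simp only [hz, zero_smul]

/-- second half of the Liouville theorem -/
theorem liouB [CompleteSpace K] (hr : 0 < r) {f : Cfg r → K}
    (hf : LocallyIntegrable f (volume : Measure (Cfg r)))
    (h1 : ∀ s t : ℝ, 0 < s → s < t → IntegrableOn (fun x => ‖f x‖ ^ 2) (shl r s t) (volume : Measure (Cfg r)))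
    (h2 : ∃ C : ℝ, ∀ k : ℤ, ∫ x in dsh r k, ‖f x‖ ^ 2 ≤ C * (2 : ℝ) ^ (3 * |k|))
    (h3 : ∀ β, ∀ ζ, Setup.Tst ζ → ∫ x, inner ℂ (S.Q0 β ζ x) (f x) = 0) :
    ∀ᵐ x ∂(volume : Measure (Cfg r)), f x = 0 := by
  have hm := hf.aestronglyMeasurable
  -- all mollifications vanish
  have hz : ∀ ε : ℝ, 0 < ε → ε ≤ 1 / 2 → ∀ ρ : Cfg r → ℝ, IsMol ε ρ → ∀ x, mo ρ f x = 0 := by
    intro ε hε hε2 ρ hρ
    have hs : ContDiff ℝ ∞ (mo ρ f) := contDiff_mo hρ.contDiff hρ.hcs hf
    refine lb_smooth S hr hs (fun β x => lb_Q0_mo S hρ.contDiff hρ.hcs β hf (h3 β) x) ?_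
    obtain ⟨C, hC0, hC⟩ := lb_dy hr h1 h2
    refine ⟨mas (mo ρ f) (Metric.ball 0 1) + C, fun n => ?_⟩
    have hn1 : (1 : ℝ) ≤ 2 ^ n := one_le_pow₀ one_le_two
    have hlt : (1 / 2 : ℝ) < 2 ^ (n + 1) := by
      have : (1 : ℝ) ≤ 2 ^ (n + 1) := one_le_pow₀ one_le_two
      linarith
    obtain ⟨m1, m2⟩ := lb_memLp hm h1 (by norm_num : (0 : ℝ) < 1 / 2) hlt
    obtain ⟨m3, m4⟩ := nsq_mo_le hρ m1
    set F : Cfg r → K := (shl r (1 / 2) ((2 : ℝ) ^ (n + 1))).indicator f with hF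
    have e1 : ∀ x : Cfg r, x ∈ Metric.ball (0 : Cfg r) ((2 : ℝ) ^ n) → x ∉ Metric.ball (0 : Cfg r) 1 →
        mo ρ f x = mo ρ F x := by
      intro x hx hx'
      rw [Metric.mem_ball, dist_zero_right] at hx hx'
      rw [not_lt] at hx'
      refine lb_mo_ind hρ f (by linarith) ?_
      rw [pow_succ]
      linarith
    have e2 : mas (mo ρ f) (Metric.ball 0 ((2 : ℝ) ^ n)) ≤
        mas (mo ρ f) (Metric.ball 0 1) + nsq (mo ρ F) := by
      unfold mas nsq
      have i1 := lb_int hs.continuous (1 : ℝ)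
      have i2 := memLp_norm_sq_int m3
      rw [← integral_indicator Metric.isOpen_ball.measurableSet,
        ← integral_indicator Metric.isOpen_ball.measurableSet,
        ← integral_add ((integrable_indicator_iff Metric.isOpen_ball.measurableSet).2 i1) i2]
      refine integral_mono ((integrable_indicator_iff Metric.isOpen_ball.measurableSet).2
        (lb_int hs.continuous _))
        (((integrable_indicator_iff Metric.isOpen_ball.measurableSet).2 i1).add i2) fun x => ?_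
      by_cases hx : x ∈ Metric.ball (0 : Cfg r) ((2 : ℝ) ^ n)
      · by_cases hx' : x ∈ Metric.ball (0 : Cfg r) 1
        · simp only [Set.indicator_of_mem hx, Set.indicator_of_mem hx']
          have : 0 ≤ ‖mo ρ F x‖ ^ 2 := by positivity
          linarith
        · simp only [Set.indicator_of_mem hx, Set.indicator_of_notMem hx', e1 x hx hx']
          linarith
      · have hx' : x ∉ Metric.ball (0 : Cfg r) 1 := fun h => hx (Metric.ball_subset_ball hn1 h)
        simp only [Set.indicator_of_notMem hx, Set.indicator_of_notMem hx']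
        positivity
    have e3 := hC n
    rw [← m2] at e3
    have e4 : (1 : ℝ) ≤ 8 ^ n := one_le_pow₀ (by norm_num)
    have e5 := lb_mas_nonneg (mo ρ f) (Metric.ball 0 1)
    have e6 : mas (mo ρ f) (Metric.ball 0 1) ≤ mas (mo ρ f) (Metric.ball 0 1) * 8 ^ n :=
      le_mul_of_one_le_right e5 e4
    rw [add_mul]
    linarith
  -- conclusion in every shell
  have hsh : ∀ n : ℕ, ∀ᵐ x ∂(volume : Measure (Cfg r)),
      x ∈ shl r (1 / ((n : ℝ) + 1)) ((n : ℝ) + 1) → f x = 0 := by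
    intro n
    have hn : (0 : ℝ) < (n : ℝ) + 1 := by positivity
    obtain ⟨a, ha⟩ : ∃ a : ℝ, a = 1 / ((n : ℝ) + 1) := ⟨_, rfl⟩
    have ha0 : 0 < a := by rw [ha]; positivity
    have ha1 : a ≤ 1 := by
      rw [ha, div_le_one hn]
      have : (0 : ℝ) ≤ n := Nat.cast_nonneg n
      linarith
    rw [← ha]
    obtain ⟨m1, m2⟩ := lb_memLp hm h1 (show (0 : ℝ) < a / 2 by positivity)
      (show a / 2 < (n : ℝ) + 2 by linarith)
    set F : Cfg r → K := (shl r (a / 2) ((n : ℝ) + 2)).indicator f with hF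
    have hint : IntegrableOn (fun x => ‖f x‖ ^ 2) (shl r a ((n : ℝ) + 1)) volume := by
      refine (h1 (a / 2) ((n : ℝ) + 2) (by positivity) (by linarith)).mono_set ?_
      intro x hx
      exact ⟨by linarith [hx.1], by linarith [hx.2]⟩
    have hle : ∀ δ : ℝ, 0 < δ → ∫ x in shl r a ((n : ℝ) + 1), ‖f x‖ ^ 2 ≤ δ := by
      intro δ hδ
      obtain ⟨ε₀, hε₀, happ⟩ := mo_approx m1 hδ
      obtain ⟨ε, hε⟩ : ∃ ε : ℝ, ε = min ε₀ (a / 2) := ⟨_, rfl⟩
      have hε0 : 0 < ε := hε ▸ lt_min hε₀ (by positivity)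
      have hεa : ε ≤ a / 2 := hε ▸ min_le_right _ _
      obtain ⟨g, -, hg⟩ := exists_mol (dc := r) hε0
      have h4 := happ ε (hε ▸ min_le_left _ _) _ hg
      have h5 := hz ε hε0 (by linarith) _ hg
      refine le_trans ?_ h4
      unfold nsq
      rw [← integral_indicator (lb_shl_meas _ _)]
      refine integral_mono ((integrable_indicator_iff (lb_shl_meas _ _)).2 hint)
        (memLp_norm_sq_int ((nsq_mo_le hg m1).1.sub m1)) fun x => ?_
      by_cases hx : x ∈ shl r a ((n : ℝ) + 1)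
      · have hx2 : x ∈ shl r (a / 2) ((n : ℝ) + 2) := ⟨by linarith [hx.1], by linarith [hx.2]⟩
        have h6 : mo (rad g) F x = 0 := by
          rw [hF, ← lb_mo_ind hg f (by linarith [hx.1]) (by linarith [hx.2])]
          exact h5 x
        have h8 : F x = f x := by rw [hF, Set.indicator_of_mem hx2]
        change (shl r a ((n : ℝ) + 1)).indicator (fun x => ‖f x‖ ^ 2) x ≤ ‖mo (rad g) F x - F x‖ ^ 2
        rw [Set.indicator_of_mem hx, h6, h8, zero_sub, norm_neg]
      · simp only [Set.indicator_of_notMem hx]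
        positivity
    have h0 : ∫ x in shl r a ((n : ℝ) + 1), ‖f x‖ ^ 2 = 0 :=
      le_antisymm (le_of_forall_pos_le_add fun δ hδ => by
        rw [zero_add]; exact hle δ hδ) (integral_nonneg fun _ => by positivity)
    rw [setIntegral_eq_zero_iff_of_nonneg_ae (Eventually.of_forall fun x => by positivity) hint] at h0
    rw [Filter.EventuallyEq, ae_restrict_iff' (lb_shl_meas _ _)] at h0
    filter_upwards [h0] with x hx hx'
    have := hx hx'
    simpa using this
  have h0 : ∀ᵐ x ∂(volume : Measure (Cfg r)), x ≠ 0 := by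
    have hfin : Nonempty (Fin r) := ⟨⟨0, hr⟩⟩
    have : volume ({0} : Set (Cfg r)) = 0 := measure_singleton 0
    filter_upwards [measure_eq_zero_iff_ae_notMem.1 this] with x hx
    simpa using hx
  filter_upwards [ae_all_iff.2 hsh, h0] with x hx hx0
  have hp : 0 < ‖x‖ := norm_pos_iff.2 hx0
  obtain ⟨n1, hn1⟩ := exists_nat_gt (1 / ‖x‖)
  obtain ⟨n2, hn2⟩ := exists_nat_gt ‖x‖
  refine hx (max n1 n2) ⟨?_, ?_⟩
  · rw [div_lt_iff₀ (by positivity)]
    have h7 : (n1 : ℝ) ≤ ((max n1 n2 : ℕ) : ℝ) := by exact_mod_cast le_max_left _ _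
    rw [div_lt_iff₀ hp] at hn1
    nlinarith
  · have h7 : (n2 : ℝ) ≤ ((max n1 n2 : ℕ) : ℝ) := by exact_mod_cast le_max_right _ _
    linarith

end Vale.Agent.P353.Z.AD
end
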