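import Mathlib
import Vale.Agent.P353.BdA.B1
import Vale.Agent.P353.BdA.B23
import Vale.Agent.P353.BdA.B2
import Vale.Agent.P353.BdA.B5
import Vale.Agent.P353.BdA.B21
import Vale.Agent.P353.BdA.B22
import Vale.Agent.P353.BdA.B4
import Vale.Agent.P353.BdA.B19

set_option linter.all false

section

/-! # P353, all `N`, block D: the discrete lemma D5 -/

open Filter Topology

namespace Vale.Agent.P353.Z.AD

namespace DiscAux

theorem key (w f a b : ℤ → ℝ) (hf : ∀ j, 0 ≤ f j) (hw : ∀ j, 0 < w j) (ha : ∀ k, 0 ≤ a k)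
    (hab : ∀ i k, a k * w i ≤ b k * w (i + k)) (hb0 : ∀ k, 0 ≤ b k) (hb : Summable b)
    (hs : Summable fun j => w j * f j) :
    (Summable fun j => w j * ∑' k, a k * f (j + k)) ∧
    ∑' j, w j * ∑' k, a k * f (j + k) ≤ (∑' k, b k) * ∑' j, w j * f j := by
  have hG0 : Summable (fun x : ℤ × ℤ => b x.1 * (w x.2 * f x.2)) :=
    hb.mul_of_nonneg hs hb0 (fun j => mul_nonneg (hw j).le (hf j))
  let φ : ℤ × ℤ ≃ ℤ × ℤ := ⟨fun x => (x.2, x.1 + x.2), fun x => (x.2 - x.1, x.1),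
    by intro x; simp, by intro x; simp⟩
  have hG : Summable (fun x : ℤ × ℤ => b x.2 * (w (x.1 + x.2) * f (x.1 + x.2))) :=
    φ.summable_iff.mpr hG0
  have hH0 : ∀ x : ℤ × ℤ, 0 ≤ w x.1 * (a x.2 * f (x.1 + x.2)) := fun x =>
    mul_nonneg (hw _).le (mul_nonneg (ha _) (hf _))
  have hHG : ∀ x : ℤ × ℤ, w x.1 * (a x.2 * f (x.1 + x.2)) ≤ b x.2 * (w (x.1 + x.2) * f (x.1 + x.2)) := by
    intro x
    have := mul_le_mul_of_nonneg_right (hab x.1 x.2) (hf (x.1 + x.2))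
    nlinarith [this]
  have hH : Summable (fun x : ℤ × ℤ => w x.1 * (a x.2 * f (x.1 + x.2))) :=
    Summable.of_nonneg_of_le hH0 hHG hG
  have e1 : ∀ j, w j * ∑' k, a k * f (j + k) = ∑' k, w j * (a k * f (j + k)) := fun j =>
    (tsum_mul_left).symm
  constructor
  · simp_rw [e1]
    exact hH.prod
  · simp_rw [e1]
    rw [← hH.tsum_prod]
    refine (hH.tsum_le_tsum hHG hG).trans_eq ?_
    have e2 : ∑' x : ℤ × ℤ, b x.2 * (w (x.1 + x.2) * f (x.1 + x.2)) = ∑' x : ℤ × ℤ, b x.1 * (w x.2 * f x.2) :=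
      φ.tsum_eq (fun x : ℤ × ℤ => b x.1 * (w x.2 * f x.2))
    rw [e2]
    exact (hb.tsum_mul_tsum hs hG0).symm

theorem hs3 : HasSum (fun k : ℤ => (2 : ℝ) ^ (-|k|)) 3 := by
  have e1 : (fun n : ℕ => (2 : ℝ) ^ (-|(n : ℤ)|)) = fun n : ℕ => (1 / 2 : ℝ) ^ n := by
    funext n
    rw [Nat.abs_cast, zpow_neg, zpow_natCast, one_div, inv_pow]
  have h1 : HasSum (fun n : ℕ => (2 : ℝ) ^ (-|(n : ℤ)|)) 2 := by
    rw [e1]
    exact hasSum_geometric_two
  have e2 : (fun n : ℕ => (2 : ℝ) ^ (-|(-((n : ℤ) + 1))|)) = fun n : ℕ => (1 / 2 : ℝ) * (1 / 2 : ℝ) ^ n := by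
    funext n
    have : |(-((n : ℤ) + 1))| = ((n + 1 : ℕ) : ℤ) := by
      rw [abs_neg, abs_of_nonneg (by positivity)]
      push_cast
      ring
    rw [this, zpow_neg, zpow_natCast, one_div, inv_pow, pow_succ, mul_inv, mul_comm]
  have h2 : HasSum (fun n : ℕ => (2 : ℝ) ^ (-|(-((n : ℤ) + 1))|)) 1 := by
    rw [e2]
    have := hasSum_geometric_two.mul_left (1 / 2 : ℝ)
    norm_num at this ⊢
    exact this
  have h3 : (3 : ℝ) = 2 + 1 := by norm_num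
  rw [h3]
  exact HasSum.of_nat_of_neg_add_one h1 h2

end DiscAux

open DiscAux in
theorem disc : DiscStmt := by
  intro M e w j₀ C hC hM he hw hww hsM hse hin
  have hab : ∀ i k : ℤ, (2 : ℝ) ^ (-(3 * |k|)) * w i ≤ (2 : ℝ) ^ (-|k|) * w (i + k) := by
    intro i k
    have h := hww (i + k) (-k)
    rw [add_neg_cancel_right, abs_neg] at h
    calc (2 : ℝ) ^ (-(3 * |k|)) * w i ≤ (2 : ℝ) ^ (-(3 * |k|)) * ((2 : ℝ) ^ (2 * |k|) * w (i + k)) :=
          mul_le_mul_of_nonneg_left h (by positivity)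
      _ = (2 : ℝ) ^ (-|k|) * w (i + k) := by
          rw [← mul_assoc, ← zpow_add₀ (by norm_num : (2 : ℝ) ≠ 0)]
          congr 2
          ring
  obtain ⟨s1, t1⟩ := key w M (fun k => if k = 0 then 0 else (2 : ℝ) ^ (-(3 * |k|)))
    (fun k => if k = 0 then 0 else (2 : ℝ) ^ (-|k|)) hM hw
    (fun k => by split_ifs <;> positivity)
    (fun i k => by
      split_ifs
      · simp
      · exact hab i k)
    (fun k => by split_ifs <;> positivity)
    (hasSum_ite_sub_hasSum hs3 0).summable hsM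
  obtain ⟨s2, t2⟩ := key w e (fun k => (2 : ℝ) ^ (-(3 * |k|)))
    (fun k => (2 : ℝ) ^ (-|k|)) he hw (fun k => by positivity) hab (fun k => by positivity) hs3.summable hse
  rw [(hasSum_ite_sub_hasSum hs3 0).tsum_eq] at t1
  rw [hs3.tsum_eq] at t2
  have eM : ∀ j : ℤ, (∑' k : ℤ, if k = 0 then 0 else (2 : ℝ) ^ (-(3 * |k|)) * M (j + k)) =
      ∑' k : ℤ, (if k = 0 then 0 else (2 : ℝ) ^ (-(3 * |k|))) * M (j + k) := by
    intro j
    refine tsum_congr fun k => ?_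
    split_ifs <;> simp
  simp_rw [eM] at hin
  have hA : Summable (fun j : ℤ => if j₀ ≤ j then w j * M j else 0) := by
    refine Summable.of_nonneg_of_le (fun j => ?_) (fun j => ?_) hsM
    · split_ifs
      · exact mul_nonneg (hw j).le (hM j)
      · exact le_rfl
    · split_ifs
      · exact le_rfl
      · exact mul_nonneg (hw j).le (hM j)
  have hB : Summable (fun j : ℤ => if j₀ ≤ j then 0 else w j * M j) := by
    refine Summable.of_nonneg_of_le (fun j => ?_) (fun j => ?_) hsM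
    · split_ifs
      · exact le_rfl
      · exact mul_nonneg (hw j).le (hM j)
    · split_ifs
      · exact mul_nonneg (hw j).le (hM j)
      · exact le_rfl
  have hAB : ∑' j, w j * M j = (∑' j : ℤ, if j₀ ≤ j then w j * M j else 0) + ∑' j : ℤ, if j₀ ≤ j then 0 else w j * M j := by
    rw [← hA.tsum_add hB]
    refine tsum_congr fun j => ?_
    split_ifs <;> simp
  have hle : (∑' j : ℤ, if j₀ ≤ j then w j * M j else 0) ≤
      ∑' j, (1 / 4 * (w j * ∑' k : ℤ, (if k = 0 then 0 else (2 : ℝ) ^ (-(3 * |k|))) * M (j + k)) +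
        C * (w j * ∑' k : ℤ, (2 : ℝ) ^ (-(3 * |k|)) * e (j + k))) := by
    refine hA.tsum_le_tsum (fun j => ?_) ((s1.mul_left _).add (s2.mul_left _))
    have p1 : 0 ≤ ∑' k : ℤ, (if k = 0 then 0 else (2 : ℝ) ^ (-(3 * |k|))) * M (j + k) :=
      tsum_nonneg fun k => mul_nonneg (by split_ifs <;> positivity) (hM _)
    have p2 : 0 ≤ ∑' k : ℤ, (2 : ℝ) ^ (-(3 * |k|)) * e (j + k) :=
      tsum_nonneg fun k => mul_nonneg (by positivity) (he _)
    have hwj := (hw j).le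
    split_ifs with h
    · have := mul_le_mul_of_nonneg_left (hin j h) hwj
      nlinarith [this]
    · positivity
  rw [(s1.mul_left _).tsum_add (s2.mul_left _), tsum_mul_left, tsum_mul_left] at hle
  have t3 := mul_le_mul_of_nonneg_left t2 hC
  have e32 : (3 : ℝ) - 2 ^ (-|(0 : ℤ)|) = 2 := by norm_num
  rw [e32, hAB] at t1
  linarith

end Vale.Agent.P353.Z.AD
end

section

/-! # P353, all `N`, block LOW: lower bound for Haar averages of the trial functions — definitions (helper858)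

`x ∈ Cfg d` in coordinates `(x^z, x^s, x^m)`; scaled coordinates `sc R x = (x^z/R, x^s, √R x^m)`, so `Zb φ ψ b R x = R^{3dm-9r/2} b(sc R x)`. -/

open MeasureTheory Filter Topology
open scoped ContDiff

namespace Vale.Agent.P353.AN.LW

open Vale.Agent.P353.Z Vale.Agent.P353.Z.U Vale.Agent.P353.Z.AN Vale.Agent.P353.AN.G

variable {N d dh dm r ds : ℕ} {F : Type*} [NormedAddCommGroup F] [InnerProductSpace ℂ F]

/-- the point of `Cfg d` with coordinates `η ∈ z^9`, `s ∈ s^9` and no `m`-part -/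
noncomputable def ezs (φ : Spl dh dm d) (ψ : Spz r ds dh) (η : Cfg r) (s : Cfg ds) : Cfg d := emb φ (Vale.Agent.P353.Z.AN.cmb ψ η s) 0

/-- scaled coordinates -/
noncomputable def sc (φ : Spl dh dm d) (ψ : Spz r ds dh) (R : ℝ) (x : Cfg d) : Cfg r × Cfg ds × Cfg dm :=
  (R⁻¹ • hz ψ (zy φ x), hs ψ (zy φ x), Real.sqrt R • pm φ x)

/-- product Lebesgue measure -/
noncomputable def v3 (r ds dm : ℕ) : Measure (Cfg r × Cfg ds × Cfg dm) :=
  (volume : Measure (Cfg r)).prod ((volume : Measure (Cfg ds)).prod (volume : Measure (Cfg dm)))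

/-- the box in scaled coordinates -/
def bx (ds dm : ℕ) (z₀ : Cfg r) (r₁ : ℝ) : Set (Cfg r × Cfg ds × Cfg dm) :=
  {q | ‖q.1 - z₀‖ ≤ r₁ ∧ ‖q.2.1‖ ≤ r₁ ∧ ‖q.2.2‖ ≤ r₁}

/-- the orbit of the box at scale `R` -/
def GB (M : BFSS.Model N d F) (φ : Spl dh dm d) (ψ : Spz r ds dh) (z₀ : Cfg r) (r₁ R : ℝ) : Set (Cfg d) :=
  {x | ∃ U, sc φ ψ R (M.act U x) ∈ bx ds dm z₀ r₁}

/-- covariant direction field on the compact set `K` -/
structure Dir (M : BFSS.Model N d F) (φ : Spl dh dm d) (ψ : Spz r ds dh) (K : Set (Cfg r × Cfg ds))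
    (Om : Cfg r × Cfg ds → F) : Prop where
  cpt : IsCompact K
  cont : ContinuousOn Om K
  unit : ∀ q ∈ K, ‖Om q‖ = 1
  cov : ∀ U, Nrm M φ ψ U → ∀ q ∈ K, ∀ q' ∈ K, M.act U (ezs φ ψ q.1 q.2) = ezs φ ψ q'.1 q'.2 → M.S U (Om q) = Om q'

/-- ground state data on the stratum: `Lc` = roots, `V(η)` = bundle unitaries, `w₀` = internal ground state (values in `F`), `Ωm(η)` = frequency matrices; `cov` =
covariance under the normaliser (block SGN, helper679) -/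
structure Gsd (M : BFSS.Model N d F) (S : Setup d F) (φ : Spl dh dm d) (ψ : Spz r ds dh) (Lc : Finset (Fin r → ℝ))
    (V : Cfg r → F →L[ℂ] F) (w₀ : Cfg ds → F) (Ωm : Cfg r → Matrix (Fin dm) (Fin dm) ℝ) : Prop where
  ne : ∀ l ∈ Lc, l ≠ 0
  closed : IsClosed (Coll Lc)
  reg : ∀ η, η ∉ Coll Lc → η ∈ Reg S φ ψ
  V_iso : ∀ η v, ‖V η v‖ = ‖v‖
  V_cont : ContinuousOn V (Coll Lc)ᶜ
  V_surj : ∀ η v, ∃ u, V η u = v
  om_sym : ∀ η, η ∉ Coll Lc → (Ωm η).transpose = Ωm η ∧ ∀ u : Fin dm → ℝ, u ≠ 0 → 0 < u ⬝ᵥ ((Ωm η).mulVec u)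
  om_cont : ContinuousOn Ωm (Coll Lc)ᶜ
  w_mem : MemLp w₀ 2 (volume : Measure (Cfg ds))
  w_one : ∫ s, ‖w₀ s‖ ^ 2 = 1
  cov : ∀ U, Nrm M φ ψ U → ∀ η η', η ∉ Coll Lc → η' ∉ Coll Lc → M.act U (ezs φ ψ η 0) = ezs φ ψ η' 0 →
    ∀ᵐ s : Cfg ds, M.S U (V η (w₀ s)) = V η' (w₀ (hs ψ (zy φ (M.act U (ezs φ ψ 0 s)))))

end Vale.Agent.P353.AN.LW
end

section

/-! # P353, all `N`, block LOW: lower bound for Haar averages of the trial functions — statements (helper858)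

A prover delivers the theorem named in the task in `Vale/Agent/P353/AN/LOW/<File>.lean`, importing this file and landed files, with other
statements only as hypotheses. `ActStmt M` is proved (`AN/G/Act.lean`, `act_stmt`). Powers of `R` are real powers. The geometric input
`GeoStmt`, `GoodStmt`, `GoodAStmt`, `SUniStmt` is in `AN/LOW/StmtH.lean` (helper847). -/

open MeasureTheory Filter Topology
open scoped ContDiff

namespace Vale.Agent.P353.AN.LW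

open Vale.Agent.P353.Z Vale.Agent.P353.Z.U Vale.Agent.P353.Z.AN Vale.Agent.P353.AN.G

variable {N d dh dm r ds : ℕ} {F : Type*} [NormedAddCommGroup F] [InnerProductSpace ℂ F]

/-- **LOW1 POS** positivity of correlations. PROOF. Otherwise `R_n → ∞`, `U_n`, `x_n` violating it, `q_n = (sc x_n) ∈ K`, `q'_n = (sc (act U_n x_n)) ∈ K`. `GeoStmt` with the compact set
`fst '' K` and `L' = max(L, bound of snd on K, 1)`: `U_n = UN_nV_n`, `Nrm UN_n`, `V_n → 1`, `‖act V_n x_n - x_n‖ ≤ C/√R_n`. Subsequence (`SU(N)`, `K` compact): `UN_n → U₀`, so `U_n → U₀`,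
`q_n → q`, `q'_n → q'`; `Nrm U₀` (closed condition). `act V_nx_n` has scaled `(z,s)`-coordinates `→ q`, `UN_n` is block diagonal: `act UN_n (ezs (..)) = ezs (..)`, in the limit
`act U₀ (ezs q.1 q.2) = ezs q'.1 q'.2` (for the `z`-part divide by `R_n`). So `S(U₀)Om(q) = Om(q')` (`Dir.cov`) and `Re⟨Om(q'_n), S(U_n)Om(q_n)⟩ → ‖Om(q')‖² = 1` (joint continuity of
`S`: `AvgG.S_cont`). -/
def PosStmt (M : BFSS.Model N d F) (S : Setup d F) (φ : Spl dh dm d) (ψ : Spz r ds dh) : Prop :=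
  FiniteDimensional ℂ F → Rep M S → S.IsSub φ → IsZ S φ ψ → Less S φ ψ → ActStmt M → GeoStmt M →
  ∀ (K : Set (Cfg r × Cfg ds)) (Om : Cfg r × Cfg ds → F), Dir M φ ψ K Om → (∀ q ∈ K, q.1 ∈ Reg S φ ψ) →
  ∀ L : ℝ, ∃ R₀ : ℝ, 1 ≤ R₀ ∧ ∀ R : ℝ, R₀ ≤ R → ∀ (U : BFSS.SU N) (x : Cfg d),
    ((sc φ ψ R x).1, (sc φ ψ R x).2.1) ∈ K → ((sc φ ψ R (M.act U x)).1, (sc φ ψ R (M.act U x)).2.1) ∈ K →
    ‖(sc φ ψ R x).2.2‖ ≤ L → ‖(sc φ ψ R (M.act U x)).2.2‖ ≤ L →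
    1 / 2 ≤ (inner ℂ (Om ((sc φ ψ R (M.act U x)).1, (sc φ ψ R (M.act U x)).2.1))
      (M.S U (Om ((sc φ ψ R x).1, (sc φ ψ R x).2.1)))).re

/-- **LOW2 SCL** scaled coordinates. PROOF: permutation of the coordinates (measure preserving linear equivalence `Cfg d ≃ Cfg r × Cfg ds × Cfg dm`, cf. `AN/A/Coo.lean`) and
scaling of the factors (`x ↦ c • x` on `Cfg r` and `Cfg dm`). -/
def SclStmt : Prop := ∀ (d dh dm r ds : ℕ) (φ : Spl dh dm d) (ψ : Spz r ds dh) (R : ℝ), 0 < R →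
  (Continuous (sc φ ψ R : Cfg d → _)) ∧
  (∀ g : Cfg r × Cfg ds × Cfg dm → ENNReal, Measurable g →
    ∫⁻ x : Cfg d, g (sc φ ψ R x) = ENNReal.ofReal (R ^ (9 * (r : ℝ) - 9 * (dm : ℝ) / 2)) * ∫⁻ q, g q ∂(v3 r ds dm)) ∧
  ∃ e : Cfg d ≃ₜ Cfg r × Cfg ds × Cfg dm, ∀ x, e x = sc φ ψ R x

/-- **LOW3 VOL** volume of the orbit of the box. PROOF. `GB` is closed: projection of a closed set along the compact `SU(N)`. Let `K = {‖η - z₀‖ ≤ r₁}`, `L = r₁` in `GoodAStmt` (`ρ`, `C`), `ρ' ≤ ρ`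
as in `GoodStmt`, `δ = R^{-3/2}`, `E_R` the good set, `hm(E_R) ≥ cR^{-3dm/2}`. If `x ∈ GB`, `act U₀ x ∈ Box_R`, then `act (VU₀) x ∈ Box²_R` for `V ∈ E_R`, `Box² = bx z₀ r₂`, `r₂ = r₁ + 2C + C`
(for the `z`-part divide by `R ≥ 1`). So `hm{U : act U x ∈ Box²_R} ≥ hm(E_RU₀) = hm(E_R)` (right invariance) on `GB`; integrate: `|GB|·cR^{-3dm/2} ≤ ∫_x hm{U : act U x ∈ Box²_R} = ∫_U|{x : act U x ∈ Box²_R}|
= |Box²_R| = R^{9r-9dm/2}·|bx z₀ r₂|` (Tonelli; `act U` preserves Lebesgue measure; SCL). -/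
def VolStmt (M : BFSS.Model N d F) (S : Setup d F) (φ : Spl dh dm d) (ψ : Spz r ds dh) : Prop :=
  Rep M S → S.IsSub φ → IsZ S φ ψ → ActStmt M → GoodStmt M → GoodAStmt M → SclStmt →
  ∀ (z₀ : Cfg r) (r₁ : ℝ), 0 < r₁ → ∃ C : ℝ, 0 < C ∧ ∀ R : ℝ, 1 ≤ R →
    IsClosed (GB M φ ψ z₀ r₁ R) ∧ volume (GB M φ ψ z₀ r₁ R) ≤ ENNReal.ofReal (C * R ^ (9 * (r : ℝ) - 3 * (dm : ℝ)))

/-- **LOW4 AVB** averages with a direction field. PROOF. `Z = φ₁Om`. Pointwise as `AvgBStmt` (2) (`AN/G/AvgB.lean`): if `φ₁(act U₀⁻¹x) ≠ 0` then `‖avg Z(x)‖ ≥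
Re⟨S(U₀)Om(act U₀⁻¹x), avg Z(x)⟩ = ∫φ₁(act U⁻¹x)Re⟨Om(act U₀⁻¹x), S(U₀⁻¹U)Om(act U⁻¹x)⟩dU ≥ ½avs φ₁(x)`. Then `‖avg Z‖² ≥ ¼∫_G(avs φ₁)² ≥ ¼(∫_G avs φ₁)²/|G|` (Cauchy–Schwarz) and
`∫_G avs φ₁ = ∫_G φ₁` (`G` invariant, Fubini, `act U` preserves Lebesgue measure). -/
def AvbStmt (M : BFSS.Model N d F) : Prop := FiniteDimensional ℂ F → ActStmt M →
  ∀ (φ₁ : Cfg d → ℝ) (Om : Cfg d → F), Continuous φ₁ → HasCompactSupport φ₁ → (∀ x, 0 ≤ φ₁ x) →
    Continuous (fun x => ((φ₁ x : ℝ) : ℂ) • Om x) → (∀ x, φ₁ x ≠ 0 → ‖Om x‖ = 1) →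
    (∀ U x, φ₁ x ≠ 0 → φ₁ (M.act U x) ≠ 0 → 1 / 2 ≤ (inner ℂ (Om (M.act U x)) (M.S U (Om x))).re) →
    ∀ G : Set (Cfg d), MeasurableSet G → (∀ U x, x ∈ G ↔ M.act U x ∈ G) → volume G ≠ ⊤ →
      (∫ x in G, φ₁ x) ^ 2 ≤ 4 * (volume G).toReal * nsq (avg M (fun x => ((φ₁ x : ℝ) : ℂ) • Om x))

/-- **LOW5 CORE** main estimate; `c` does not depend on `β`, `Om`, `K`. PROOF. `Z_R = Zb φ ψ b R = φ_R·Om_R`, `φ_R(x) = R^{3dm-9r/2}β(sc R x)`, `Om_R = Om ∘ sc`. LOW1 (`L` = bound of the support of `β`) and LOW4 with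
`G = GB` (invariant, closed, LOW3; contains the box): `nsq(avg Z_R) ≥ (∫_Gφ_R)²/(4|G|) ≥ (∫_{Box_R}φ_R)²/(4CR^{9r-3dm})`, and by LOW2 `∫_{Box_R}φ_R = R^{3dm-9r/2}·R^{9r-9dm/2}·∫_{bx}β`; all powers of
`R` cancel, `c = 1/(4C)`. -/
def CoreStmt (M : BFSS.Model N d F) (S : Setup d F) (φ : Spl dh dm d) (ψ : Spz r ds dh) : Prop :=
  FiniteDimensional ℂ F → Rep M S → S.IsSub φ → IsZ S φ ψ → Less S φ ψ → ActStmt M → GeoStmt M → GoodStmt M → GoodAStmt M →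
  PosStmt M S φ ψ → VolStmt M S φ ψ → SclStmt → AvbStmt M →
  ∀ (z₀ : Cfg r) (r₁ : ℝ), 0 < r₁ → ∃ c : ℝ, 0 < c ∧
  ∀ (K : Set (Cfg r × Cfg ds)) (Om : Cfg r × Cfg ds → F), Dir M φ ψ K Om → (∀ q ∈ K, q.1 ∈ Reg S φ ψ) →
  ∀ β : Cfg r × Cfg ds × Cfg dm → ℝ, Continuous β → HasCompactSupport β → (∀ q, 0 ≤ β q) →
    (∀ q, β q ≠ 0 → (q.1, q.2.1) ∈ K) → Continuous (fun q : Cfg r × Cfg ds × Cfg dm => ((β q : ℝ) : ℂ) • Om (q.1, q.2.1)) →
    ∃ R₀ : ℝ, 1 ≤ R₀ ∧ ∀ R : ℝ, R₀ ≤ R →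
      c * (∫ q in bx ds dm z₀ r₁, β q ∂(v3 r ds dm)) ^ 2 ≤
        nsq (avg M (Zb φ ψ (fun q => ((β q : ℝ) : ℂ) • Om (q.1, q.2.1)) R))

/-- **LOW6 MOL** covariant regularisation of the ground state. PROOF. For `U` (`Nrm`), `η`, `η'` as in `cov`: `O s = hs(zy(act U (ezs 0 s)))` is a linear isometry of `Cfg ds` (block diagonal
orthogonal matrix), and `T = V(η')⁻¹S(U)V(η)` (linear isometry) satisfies `T w₀(s) = w₀(Os)` a.e. Radial mollifier `ρ_δ` (`Z/U/MollRad.lean`, `Z/U/Moll.lean`): `T(ρ_δ*w₀)(s) = (ρ_δ*w₀)(Os)` for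
ALL `s`; `w₁(s) = c(‖s‖²/L²)(ρ_δ*w₀)(s)` the same, continuous, compactly supported, close to `w₀` in `L²`. `β₁(s) = max(‖w₁(s)‖-κ,0)`, `om(s) = ‖w₁(s)‖⁻¹w₁(s)` (on `tsupport β₁ ⊆ {‖w₁‖ ≥ κ}`),
`‖w₁ - β₁om‖ ≤ κ`, supported in a fixed ball: `κ` small. Last part: `act U (ezs η s) = ezs η' s'` and `Nrm U` give `act U (ezs η 0) = ezs η' 0` and `s' = O s`. -/
def MolStmt (M : BFSS.Model N d F) (S : Setup d F) (φ : Spl dh dm d) (ψ : Spz r ds dh) : Prop :=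
  FiniteDimensional ℂ F → Rep M S → ActStmt M →
  ∀ (Lc : Finset (Fin r → ℝ)) (V : Cfg r → F →L[ℂ] F) (w₀ : Cfg ds → F) (Ωm : Cfg r → Matrix (Fin dm) (Fin dm) ℝ),
  Gsd M S φ ψ Lc V w₀ Ωm → ∀ ε : ℝ, 0 < ε → ∃ (β₁ : Cfg ds → ℝ) (om : Cfg ds → F), Continuous β₁ ∧ HasCompactSupport β₁ ∧
    (∀ s, 0 ≤ β₁ s) ∧ ContinuousOn om (tsupport β₁) ∧ (∀ s ∈ tsupport β₁, ‖om s‖ = 1) ∧
    Continuous (fun s => ((β₁ s : ℝ) : ℂ) • om s) ∧ (∫ s, ‖w₀ s - ((β₁ s : ℝ) : ℂ) • om s‖ ^ 2) ≤ ε ∧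
    ∀ U, Nrm M φ ψ U → ∀ η η', η ∉ Coll Lc → η' ∉ Coll Lc → ∀ s ∈ tsupport β₁, ∀ s' ∈ tsupport β₁,
      M.act U (ezs φ ψ η s) = ezs φ ψ η' s' → M.S U (V η (om s)) = V η' (om s')

/-- **LOW7 NRM** the Gaussian normalisation depends continuously on a positive definite matrix; uniform weighted moments. PROOF: as `MomStmt` (GL9, same proof; it uses only positivity and
continuity of `Ωm` on a compact set): on the compact set the smallest eigenvalue of `Ωm(η)` is bounded below and `‖Ωm‖` above, Gaussian domination, `continuousOn_of_dominated`. -/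
def NrmStmt : Prop := ∀ (r dm : ℕ) (κ : ℝ) (K : Set (Cfg r)) (Ωm : Cfg r → Matrix (Fin dm) (Fin dm) ℝ), 0 < κ → IsCompact K →
  (∀ η ∈ K, (Ωm η).transpose = Ωm η ∧ ∀ u : Fin dm → ℝ, u ≠ 0 → 0 < u ⬝ᵥ ((Ωm η).mulVec u)) → ContinuousOn Ωm K →
  ContinuousOn (fun η => Nf κ (Ωm η)) K ∧ (∀ η ∈ K, 0 < Nf κ (Ωm η)) ∧
  ∀ ε : ℝ, 0 < ε → ∃ C L : ℝ, 0 < C ∧ 0 < L ∧ ∀ η ∈ K,
    ∫⁻ X : Cfg dm, ENNReal.ofReal ((1 + ‖X‖ ^ 2) ^ (dm + 1) * (Nf κ (Ωm η) * Real.exp (-(1 / 2) * qX (Ωm η) X)) ^ 2) ≤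
      ENNReal.ofReal C ∧
    ∫⁻ X in {X : Cfg dm | L ≤ ‖X‖},
      ENNReal.ofReal ((1 + ‖X‖ ^ 2) ^ (dm + 1) * (Nf κ (Ωm η) * Real.exp (-(1 / 2) * qX (Ωm η) X)) ^ 2) ≤ ENNReal.ofReal ε

/-- **LOW8 CHI** cutoffs in `η`. PROOF. `AF.CutStmt` (proved, `AN/F/Cut.lean`): `η_n ∈ [0,1]` smooth, `tsupport` disjoint from `Coll Lc`, `→ 1` off `Coll Lc` (a null set); `χ = η_n·c(‖η‖²/k²)`; dominated
convergence for `∫(1-χ)²gss²`; on the compact ball `{‖η - z₀‖ ≤ r₁}` (disjoint from `Coll Lc`) multiply out: replace `χ` by `1 - (1-χ)(1-χ₀)` with a bump `χ₀ = 1` on that ball, supported off `Coll Lc`. -/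
def ChiStmt (r : ℕ) : Prop := AF.CutStmt r → ∀ Lc : Finset (Fin r → ℝ), (∀ l ∈ Lc, l ≠ 0) → IsClosed (Coll Lc) →
  ∀ (z₀ : Cfg r) (r₁ : ℝ), 0 < r₁ → (∀ η, ‖η - z₀‖ ≤ r₁ → η ∉ Coll Lc) → ∀ ε : ℝ, 0 < ε → ∃ χ : Cfg r → ℝ, ContDiff ℝ ∞ χ ∧
    HasCompactSupport χ ∧ Disjoint (tsupport χ) (Coll Lc) ∧ (∀ η, 0 ≤ χ η ∧ χ η ≤ 1) ∧ (∀ η, ‖η - z₀‖ ≤ r₁ → χ η = 1) ∧
    (∫ η : Cfg r, (1 - χ η) ^ 2 * gss η ^ 2) ≤ ε

/-- **LOW9 OUT** output. `χ gss V w₀` is the truncated ground state, `b` a compactly supported continuous approximation of its Gaussian profile in the weighted norm (`c₀` independent of `ε`,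
`χ`, `ε'`). PROOF. `r₁` with `I₀ = ∫_{‖s‖ ≤ r₁}‖w₀‖ > 0`, `r₀ ≤ r₁` with `{‖η - z₀‖ ≤ r₀}` off `Coll Lc` (closed). LOW5 with `(z₀, r₁)` gives `c`; `A₀ = ∫_{‖η-z₀‖≤r₀,‖X‖≤r₁} gss(η)Nf(Ωm η)exp(-½qX) > 0`,
`c₀ = c(A₀I₀/2)²`. `χ` from LOW8 with `(z₀, r₀)`. `β = χ(η)gss(η)Nf(Ωm η)exp(-½qX(Ωm η)X)·cut(‖X‖²/L²)·β₁(s)` (`L ≥ r₁`, `cut = 1` on `[0,1]`), `Om(η,s) = V(η)om(s)`, `K = tsupport χ × tsupport β₁`,
`b = β Om` (LOW6 and LOW7 on `tsupport χ`; `Dir.cov` from the last part of LOW6). Weighted error: `≤ C_χ(∫‖w₀ - β₁om‖² + tail_L)`. `∫_{bx}β ≥ A₀∫_{‖s‖≤r₁}β₁ ≥ A₀(I₀ - √(vol·∫‖w₀-β₁om‖²)) ≥ A₀I₀/2`. -/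
def OutStmt (M : BFSS.Model N d F) (S : Setup d F) (φ : Spl dh dm d) (ψ : Spz r ds dh) : Prop :=
  FiniteDimensional ℂ F →
  (∀ (z₀ : Cfg r) (r₁ : ℝ), 0 < r₁ → ∃ c : ℝ, 0 < c ∧
    ∀ (K : Set (Cfg r × Cfg ds)) (Om : Cfg r × Cfg ds → F), Dir M φ ψ K Om → (∀ q ∈ K, q.1 ∈ Reg S φ ψ) →
    ∀ β : Cfg r × Cfg ds × Cfg dm → ℝ, Continuous β → HasCompactSupport β → (∀ q, 0 ≤ β q) →
      (∀ q, β q ≠ 0 → (q.1, q.2.1) ∈ K) → Continuous (fun q : Cfg r × Cfg ds × Cfg dm => ((β q : ℝ) : ℂ) • Om (q.1, q.2.1)) →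
      ∃ R₀ : ℝ, 1 ≤ R₀ ∧ ∀ R : ℝ, R₀ ≤ R →
        c * (∫ q in bx ds dm z₀ r₁, β q ∂(v3 r ds dm)) ^ 2 ≤
          nsq (avg M (Zb φ ψ (fun q => ((β q : ℝ) : ℂ) • Om (q.1, q.2.1)) R))) →
  ∀ (Lc : Finset (Fin r → ℝ)) (V : Cfg r → F →L[ℂ] F) (w₀ : Cfg ds → F) (Ωm : Cfg r → Matrix (Fin dm) (Fin dm) ℝ),
  Gsd M S φ ψ Lc V w₀ Ωm →
  (∀ ε : ℝ, 0 < ε → ∃ (β₁ : Cfg ds → ℝ) (om : Cfg ds → F), Continuous β₁ ∧ HasCompactSupport β₁ ∧
    (∀ s, 0 ≤ β₁ s) ∧ ContinuousOn om (tsupport β₁) ∧ (∀ s ∈ tsupport β₁, ‖om s‖ = 1) ∧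
    Continuous (fun s => ((β₁ s : ℝ) : ℂ) • om s) ∧ (∫ s, ‖w₀ s - ((β₁ s : ℝ) : ℂ) • om s‖ ^ 2) ≤ ε ∧
    ∀ U, Nrm M φ ψ U → ∀ η η', η ∉ Coll Lc → η' ∉ Coll Lc → ∀ s ∈ tsupport β₁, ∀ s' ∈ tsupport β₁,
      M.act U (ezs φ ψ η s) = ezs φ ψ η' s' → M.S U (V η (om s)) = V η' (om s')) →
  NrmStmt → ChiStmt r → AF.CutStmt r → ∀ z₀ : Cfg r, z₀ ∉ Coll Lc →
  ∃ c₀ : ℝ, 0 < c₀ ∧ ∀ ε : ℝ, 0 < ε → ∃ χ : Cfg r → ℝ, ContDiff ℝ ∞ χ ∧ HasCompactSupport χ ∧ Disjoint (tsupport χ) (Coll Lc) ∧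
    (∀ η, 0 ≤ χ η ∧ χ η ≤ 1) ∧ (∫ η : Cfg r, (1 - χ η) ^ 2 * gss η ^ 2) ≤ ε ∧
    ∀ ε' : ℝ, 0 < ε' → ∃ b : Cfg r × Cfg ds × Cfg dm → F, Continuous b ∧ HasCompactSupport b ∧
      (∀ q, b q ≠ 0 → q.1 ∈ tsupport χ) ∧
      eLpNorm (fun q => b q - bG S.κ Ωm (fun η s => ((χ η * gss η : ℝ) : ℂ) • V η (w₀ s)) q) 2 (wM r ds dm) ≤ ENNReal.ofReal ε' ∧
      ∃ R₀ : ℝ, 1 ≤ R₀ ∧ ∀ R : ℝ, R₀ ≤ R → c₀ ≤ nsq (avg M (Zb φ ψ b R))

end Vale.Agent.P353.AN.LW
end

section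

/-! # P353, all `N`, block LOW2: scaled coordinates (prover helper655) -/

open MeasureTheory Filter Topology
open scoped ContDiff ENNReal

namespace Vale.Agent.P353.AN.LW

open Vale.Agent.P353.Z Vale.Agent.P353.Z.U Vale.Agent.P353.Z.AN Vale.Agent.P353.AN.G

variable {d dh dm r ds : ℕ}

/-- the scaled coordinates are a linear homeomorphism -/
theorem sc655_homeo (φ : Spl dh dm d) (ψ : Spz r ds dh) (R : ℝ) (hR : 0 < R) :
    ∃ e : Cfg d ≃ₜ Cfg r × Cfg ds × Cfg dm, ∀ x, e x = sc φ ψ R x := by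
  let f : Cfg d →ₗ[ℝ] Cfg r × Cfg ds × Cfg dm :=
    { toFun := fun x => sc φ ψ R x
      map_add' := fun x y => by
        have h1 : hz ψ (zy φ (x + y)) = hz ψ (zy φ x) + hz ψ (zy φ y) := rfl
        have h2 : hs ψ (zy φ (x + y)) = hs ψ (zy φ x) + hs ψ (zy φ y) := rfl
        have h3 : pm φ (x + y) = pm φ x + pm φ y := rfl
        simp only [sc, h1, h2, h3, smul_add, Prod.mk_add_mk]
      map_smul' := fun c x => by
        have h1 : hz ψ (zy φ (c • x)) = c • hz ψ (zy φ x) := rfl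
        have h2 : hs ψ (zy φ (c • x)) = c • hs ψ (zy φ x) := rfl
        have h3 : pm φ (c • x) = c • pm φ x := rfl
        simp only [sc, h1, h2, h3, RingHom.id_apply, Prod.smul_mk, smul_comm c] }
  have hinj : Function.Injective f := by
    intro x y h
    have h1 : R⁻¹ • hz ψ (zy φ x) = R⁻¹ • hz ψ (zy φ y) := congrArg Prod.fst h
    have h2 : hs ψ (zy φ x) = hs ψ (zy φ y) := congrArg (fun t => t.2.1) h
    have h3 : Real.sqrt R • pm φ x = Real.sqrt R • pm φ y := congrArg (fun t => t.2.2) h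
    have h1' := smul_right_injective (Cfg r) (inv_ne_zero hR.ne') h1
    have h3' := smul_right_injective (Cfg dm) (Real.sqrt_pos.2 hR).ne' h3
    ext p
    obtain ⟨s, rfl⟩ := (wgtIdx_bijective φ ψ).2 p
    rcases s with p | p | p
    · exact congrArg (fun t : Cfg r => t p) h1'
    · exact congrArg (fun t : Cfg ds => t p) h2
    · exact congrArg (fun t : Cfg dm => t p) h3'
  have hdim : Module.finrank ℝ (Cfg d) = Module.finrank ℝ (Cfg r × Cfg ds × Cfg dm) := by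
    rw [Module.finrank_prod, Module.finrank_prod, finrank_euclideanSpace, finrank_euclideanSpace,
      finrank_euclideanSpace, finrank_euclideanSpace, ← Fintype.card_congr (wgtEquiv φ ψ),
      Fintype.card_sum, Fintype.card_sum]
  exact ⟨(f.linearEquivOfInjective hinj hdim).toContinuousLinearEquiv.toHomeomorph, fun x => rfl⟩

theorem sc655_pow (R : ℝ) (hR : 0 < R) (r dm : ℕ) :
    ENNReal.ofReal |(R⁻¹ ^ (9 * r))⁻¹| * ENNReal.ofReal |(Real.sqrt R ^ (9 * dm))⁻¹| =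
      ENNReal.ofReal (R ^ (9 * (r : ℝ) - 9 * (dm : ℝ) / 2)) := by
  rw [← ENNReal.ofReal_mul (abs_nonneg _)]
  congr 1
  have hs := Real.sqrt_pos.2 hR
  rw [abs_of_pos (by positivity), abs_of_pos (by positivity), inv_pow, inv_inv, Real.rpow_sub hR, div_eq_mul_inv]
  congr 1
  · rw [← Real.rpow_natCast]
    push_cast
    rfl
  · congr 1
    rw [Real.sqrt_eq_rpow, ← Real.rpow_natCast, ← Real.rpow_mul hR.le]
    congr 1
    push_cast
    ring

/-- **LOW2** -/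
theorem scl : SclStmt := by
  intro d dh dm r ds φ ψ R hR
  obtain ⟨e, he⟩ := sc655_homeo φ ψ R hR
  have hfun : (sc φ ψ R : Cfg d → _) = e := (funext he).symm
  refine ⟨hfun ▸ e.continuous, fun g hg => ?_, e, he⟩
  have h1 := wgt_scale (r := r) (ds := ds) (dm := dm) R⁻¹ (Real.sqrt R) (inv_ne_zero hR.ne') (Real.sqrt_pos.2 hR).ne' g hg
  have hm : Measurable fun q : Cfg r × Cfg ds × Cfg dm => g (R⁻¹ • q.1, q.2.1, Real.sqrt R • q.2.2) :=
    hg.comp (by fun_prop)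
  have h2 := (wgt_mp φ ψ).lintegral_comp hm
  rw [sc655_pow R hR] at h1
  exact h2.trans h1

end Vale.Agent.P353.AN.LW
end

section

/-! # P353, all `N`, block LOW: LOW6, the normaliser acts blockwise (helper535) -/

open MeasureTheory Filter Topology
open scoped ContDiff

namespace Vale.Agent.P353.AN.LW

open Vale.Agent.P353.Z Vale.Agent.P353.Z.U Vale.Agent.P353.Z.AN Vale.Agent.P353.AN.G

variable {N d dh dm r ds : ℕ} {F : Type*} [NormedAddCommGroup F] [InnerProductSpace ℂ F]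

lemma mo_last (i : Fin 9) : Fin.lastCases (motive := fun _ => ℝ) 0 (fun _ : Fin 8 => (0 : ℝ)) i = 0 := by
  refine Fin.lastCases ?_ (fun j => ?_) i
  · rw [Fin.lastCases_last]
  · rw [Fin.lastCases_castSucc]

lemma ezs_z (φ : Spl dh dm d) (ψ : Spz r ds dh) (η : Cfg r) (s : Cfg ds) (i : Fin 9) (a : Fin r) :
    ezs φ ψ η s (i, φ (Sum.inl (ψ (Sum.inl a)))) = η (i, a) := by
  simp [ezs, emb, Vale.Agent.P353.Z.AN.cmb]

lemma ezs_s (φ : Spl dh dm d) (ψ : Spz r ds dh) (η : Cfg r) (s : Cfg ds) (i : Fin 9) (a : Fin ds) :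
    ezs φ ψ η s (i, φ (Sum.inl (ψ (Sum.inr a)))) = s (i, a) := by
  simp [ezs, emb, Vale.Agent.P353.Z.AN.cmb]

lemma ezs_m (φ : Spl dh dm d) (ψ : Spz r ds dh) (η : Cfg r) (s : Cfg ds) (i : Fin 9) (a : Fin dm) :
    ezs φ ψ η s (i, φ (Sum.inr a)) = 0 := by
  have h1 : ezs φ ψ η s (i, φ (Sum.inr a)) =
      Fin.lastCases (motive := fun _ => ℝ) 0 (fun _ : Fin 8 => (0 : ℝ)) i := by
    simp [ezs, emb]
  rw [h1, mo_last]

/-- every colour index is of one of the three types -/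
lemma bl_cases (φ : Spl dh dm d) (ψ : Spz r ds dh) (A : Fin d) :
    (∃ a, A = φ (Sum.inl (ψ (Sum.inl a))) ∧ bl φ ψ A = 0) ∨ (∃ a, A = φ (Sum.inl (ψ (Sum.inr a))) ∧ bl φ ψ A = 1) ∨
      ∃ a, A = φ (Sum.inr a) ∧ bl φ ψ A = 2 := by
  obtain ⟨b, rfl⟩ := φ.surjective A
  rcases b with b | b
  · obtain ⟨c, rfl⟩ := ψ.surjective b
    rcases c with c | c
    · exact Or.inl ⟨c, rfl, by simp [bl]⟩
    · exact Or.inr (Or.inl ⟨c, rfl, by simp [bl]⟩)
  · exact Or.inr (Or.inr ⟨b, rfl, by simp [bl]⟩)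

lemma hz_ezs (φ : Spl dh dm d) (ψ : Spz r ds dh) (η : Cfg r) (s : Cfg ds) : hz ψ (zy φ (ezs φ ψ η s)) = η := by
  ext ⟨i, a⟩
  exact ezs_z φ ψ η s i a

lemma hs_ezs (φ : Spl dh dm d) (ψ : Spz r ds dh) (η : Cfg r) (s : Cfg ds) : hs ψ (zy φ (ezs φ ψ η s)) = s := by
  ext ⟨i, a⟩
  exact ezs_s φ ψ η s i a

lemma pm_ezs (φ : Spl dh dm d) (ψ : Spz r ds dh) (η : Cfg r) (s : Cfg ds) : pm φ (ezs φ ψ η s) = 0 := by
  ext ⟨i, a⟩
  exact ezs_m φ ψ η s i a

lemma norm_ezs (φ : Spl dh dm d) (ψ : Spz r ds dh) (η : Cfg r) (s : Cfg ds) :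
    ‖ezs φ ψ η s‖ ^ 2 = ‖η‖ ^ 2 + ‖s‖ ^ 2 := by
  rw [sup_norm_sq φ ψ, hz_ezs, hs_ezs, pm_ezs, norm_zero]
  ring

lemma ezs_add (φ : Spl dh dm d) (ψ : Spz r ds dh) (η η' : Cfg r) (s s' : Cfg ds) :
    ezs φ ψ (η + η') (s + s') = ezs φ ψ η s + ezs φ ψ η' s' := by
  ext ⟨i, A⟩
  rw [PiLp.add_apply]
  rcases bl_cases φ ψ A with ⟨a, rfl, -⟩ | ⟨a, rfl, -⟩ | ⟨a, rfl, -⟩
  · simp only [ezs_z, PiLp.add_apply]
  · simp only [ezs_s, PiLp.add_apply]
  · simp only [ezs_m, add_zero]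

lemma ezs_smul (φ : Spl dh dm d) (ψ : Spz r ds dh) (c : ℝ) (η : Cfg r) (s : Cfg ds) :
    ezs φ ψ (c • η) (c • s) = c • ezs φ ψ η s := by
  ext ⟨i, A⟩
  rw [PiLp.smul_apply]
  rcases bl_cases φ ψ A with ⟨a, rfl, -⟩ | ⟨a, rfl, -⟩ | ⟨a, rfl, -⟩
  · simp only [ezs_z, PiLp.smul_apply]
  · simp only [ezs_s, PiLp.smul_apply]
  · simp only [ezs_m, smul_zero]

/-- configurations in one block -/
def InBl (φ : Spl dh dm d) (ψ : Spz r ds dh) (b : Fin 3) (x : Cfg d) : Prop :=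
  ∀ i A, bl φ ψ A ≠ b → x (i, A) = 0

lemma inBl_z (φ : Spl dh dm d) (ψ : Spz r ds dh) (η : Cfg r) : InBl φ ψ 0 (ezs φ ψ η 0) := by
  intro i A hA
  rcases bl_cases φ ψ A with ⟨a, rfl, h⟩ | ⟨a, rfl, h⟩ | ⟨a, rfl, h⟩
  · exact absurd h hA
  · rw [ezs_s]; rfl
  · rw [ezs_m]

lemma inBl_s (φ : Spl dh dm d) (ψ : Spz r ds dh) (s : Cfg ds) : InBl φ ψ 1 (ezs φ ψ 0 s) := by
  intro i A hA
  rcases bl_cases φ ψ A with ⟨a, rfl, h⟩ | ⟨a, rfl, h⟩ | ⟨a, rfl, h⟩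
  · rw [ezs_z]; rfl
  · exact absurd h hA
  · rw [ezs_m]

lemma act_inBl {M : BFSS.Model N d F} {φ : Spl dh dm d} {ψ : Spz r ds dh} {U : BFSS.SU N} (hU : Nrm M φ ψ U) {b : Fin 3}
    {x : Cfg d} (hx : InBl φ ψ b x) : InBl φ ψ b (M.act U x) := by
  intro i B hB
  show ∑ A, BFSS.adCoeff M.T U B A * x (i, A) = 0
  refine Finset.sum_eq_zero fun A _ => ?_
  by_cases hA : bl φ ψ A = b
  · rw [hU B A (by rw [hA]; exact hB), zero_mul]
  · rw [hx i A hA, mul_zero]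

lemma inBl_z_eq {φ : Spl dh dm d} {ψ : Spz r ds dh} {x : Cfg d} (hx : InBl φ ψ 0 x) :
    x = ezs φ ψ (hz ψ (zy φ x)) 0 := by
  ext ⟨i, A⟩
  rcases bl_cases φ ψ A with ⟨a, rfl, h⟩ | ⟨a, rfl, h⟩ | ⟨a, rfl, h⟩
  · rw [ezs_z]; rfl
  · rw [ezs_s, hx i _ (by rw [h]; decide)]; rfl
  · rw [ezs_m, hx i _ (by rw [h]; decide)]

lemma inBl_s_eq {φ : Spl dh dm d} {ψ : Spz r ds dh} {x : Cfg d} (hx : InBl φ ψ 1 x) :
    x = ezs φ ψ 0 (hs ψ (zy φ x)) := by
  ext ⟨i, A⟩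
  rcases bl_cases φ ψ A with ⟨a, rfl, h⟩ | ⟨a, rfl, h⟩ | ⟨a, rfl, h⟩
  · rw [ezs_z, hx i _ (by rw [h]; decide)]; rfl
  · rw [ezs_s]; rfl
  · rw [ezs_m, hx i _ (by rw [h]; decide)]

/-- the action of the normaliser on the `s`-coordinates -/
noncomputable def Os (M : BFSS.Model N d F) (φ : Spl dh dm d) (ψ : Spz r ds dh) (U : BFSS.SU N) (s : Cfg ds) : Cfg ds :=
  hs ψ (zy φ (M.act U (ezs φ ψ 0 s)))

lemma act_s {M : BFSS.Model N d F} {φ : Spl dh dm d} {ψ : Spz r ds dh} {U : BFSS.SU N} (hU : Nrm M φ ψ U) (s : Cfg ds) :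
    M.act U (ezs φ ψ 0 s) = ezs φ ψ 0 (Os M φ ψ U s) := inBl_s_eq (act_inBl hU (inBl_s φ ψ s))

lemma act_z {M : BFSS.Model N d F} {φ : Spl dh dm d} {ψ : Spz r ds dh} {U : BFSS.SU N} (hU : Nrm M φ ψ U) (η : Cfg r) :
    M.act U (ezs φ ψ η 0) = ezs φ ψ (hz ψ (zy φ (M.act U (ezs φ ψ η 0)))) 0 :=
  inBl_z_eq (act_inBl hU (inBl_z φ ψ η))

/-- splitting of an orbit relation -/
lemma act_split {M : BFSS.Model N d F} (hA : ActStmt M) {φ : Spl dh dm d} {ψ : Spz r ds dh} {U : BFSS.SU N}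
    (hU : Nrm M φ ψ U) {η η' : Cfg r} {s s' : Cfg ds} (h : M.act U (ezs φ ψ η s) = ezs φ ψ η' s') :
    M.act U (ezs φ ψ η 0) = ezs φ ψ η' 0 ∧ Os M φ ψ U s = s' := by
  have h1 : ezs φ ψ η s = ezs φ ψ η 0 + ezs φ ψ 0 s := by
    rw [← ezs_add, add_zero, zero_add]
  rw [h1, hA.2.2.1, act_z hU η, act_s hU s, ← ezs_add, add_zero, zero_add] at h
  have h2 := congrArg (fun x => hz ψ (zy φ x)) h
  have h3 := congrArg (fun x => hs ψ (zy φ x)) h
  simp only [hz_ezs, hs_ezs] at h2 h3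
  refine ⟨?_, h3⟩
  rw [act_z hU η, h2]

/-- `Os` as a linear isometry -/
noncomputable def OsI {M : BFSS.Model N d F} (hA : ActStmt M) {φ : Spl dh dm d} {ψ : Spz r ds dh} {U : BFSS.SU N}
    (hU : Nrm M φ ψ U) : Cfg ds ≃ₗᵢ[ℝ] Cfg ds :=
  LinearIsometry.toLinearIsometryEquiv
    { toFun := Os M φ ψ U
      map_add' := by
        intro s s'
        have h : ezs φ ψ 0 (s + s') = ezs φ ψ 0 s + ezs φ ψ 0 s' := by
          rw [← ezs_add, add_zero]
        unfold Os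
        rw [h, hA.2.2.1]
        rfl
      map_smul' := by
        intro c s
        have h : ezs φ ψ 0 (c • s) = c • ezs φ ψ 0 s := by
          rw [← ezs_smul, smul_zero]
        unfold Os
        rw [h, hA.2.2.2.1]
        rfl
      norm_map' := by
        intro s
        have h1 : ‖ezs φ ψ 0 (Os M φ ψ U s)‖ = ‖ezs φ ψ 0 s‖ := by
          rw [← act_s hU s, hA.2.2.2.2.1]
        have h2 := norm_ezs φ ψ 0 (Os M φ ψ U s)
        have h3 := norm_ezs φ ψ 0 s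
        rw [h1, h3, norm_zero] at h2
        have h4 : ‖Os M φ ψ U s‖ ^ 2 = ‖s‖ ^ 2 := by linarith
        exact (pow_left_inj₀ (norm_nonneg _) (norm_nonneg _) two_ne_zero).1 h4 } rfl

lemma OsI_apply {M : BFSS.Model N d F} (hA : ActStmt M) {φ : Spl dh dm d} {ψ : Spz r ds dh} {U : BFSS.SU N}
    (hU : Nrm M φ ψ U) (s : Cfg ds) : OsI hA hU s = Os M φ ψ U s := rfl

end Vale.Agent.P353.AN.LW
end

section

/-! # P353, all `N`, block LOW: ground state data from the vacuum bundle -/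

open MeasureTheory Filter Topology
open scoped ContDiff

namespace Vale.Agent.P353.AN.LW

open Vale.Agent.P353.Z Vale.Agent.P353.Z.U Vale.Agent.P353.Z.AN Vale.Agent.P353.AN.G

variable {N d dh dm dz ds : ℕ} {F : Type*} [NormedAddCommGroup F] [InnerProductSpace ℂ F]

lemma gs_bl_z (φ : Spl dh dm d) (ψ : Spl ds dz dh) (a : Fin dz) : bl φ (spsw ψ) (φ (Sum.inl (ψ (Sum.inr a)))) = 0 := by
  have h : φ (Sum.inl (ψ (Sum.inr a))) = φ (Sum.inl (spsw ψ (Sum.inl a))) := rfl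
  rw [h]
  simp [bl]

lemma gs_bl_s (φ : Spl dh dm d) (ψ : Spl ds dz dh) (a : Fin ds) : bl φ (spsw ψ) (φ (Sum.inl (ψ (Sum.inl a)))) = 1 := by
  have h : φ (Sum.inl (ψ (Sum.inl a))) = φ (Sum.inl (spsw ψ (Sum.inr a))) := rfl
  rw [h]
  simp [bl]

lemma gs_bl_m (φ : Spl dh dm d) (ψ : Spl ds dz dh) (a : Fin dm) : bl φ (spsw ψ) (φ (Sum.inr a)) = 2 := by
  simp [bl]

lemma gs_bl_h (φ : Spl dh dm d) (ψ : Spl ds dz dh) (a : Fin dh) : bl φ (spsw ψ) (φ (Sum.inl a)) ≠ 2 := by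
  obtain ⟨c, rfl⟩ := ψ.surjective a
  rcases c with c | c
  · rw [gs_bl_s]
    decide
  · rw [gs_bl_z]
    decide

/-- normaliser elements respect the splitting -/
theorem gs_blk {M : BFSS.Model N d F} {φ : Spl dh dm d} {ψ : Spl ds dz dh} {U : BFSS.SU N} (h : Nrm M φ (spsw ψ) U) :
    Blk φ ψ (adO M.T U) := by
  refine ⟨fun A B => h _ _ ?_, fun A B => h _ _ ?_, fun A B => h _ _ ?_, fun A B => h _ _ ?_⟩
  · rw [gs_bl_m]
    exact gs_bl_h φ ψ A
  · rw [gs_bl_m]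
    exact (gs_bl_h φ ψ A).symm
  · rw [gs_bl_s, gs_bl_z]
    decide
  · rw [gs_bl_s, gs_bl_z]
    decide

lemma gs_sum (φ : Spl dh dm d) (ψ : Spl ds dz dh) (g : Fin d → ℝ) : ∑ A, g A =
    (∑ a, g (φ (Sum.inl (ψ (Sum.inl a)))) + ∑ b, g (φ (Sum.inl (ψ (Sum.inr b))))) + ∑ c, g (φ (Sum.inr c)) := by
  rw [← φ.sum_comp, Fintype.sum_sum_type]
  congr 1
  rw [← ψ.sum_comp (fun B => g (φ (Sum.inl B))), Fintype.sum_sum_type]

/-- the action on the `z`-part -/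
theorem gs_z {M : BFSS.Model N d F} {φ : Spl dh dm d} {ψ : Spl ds dz dh} {U : BFSS.SU N} {η η' : Cfg dz}
    (h : M.act U (ezs φ (spsw ψ) η 0) = ezs φ (spsw ψ) η' 0) : η' = ro (zO φ ψ (adO M.T U)) η := by
  ext ⟨i, a⟩
  have h1 : η' (i, a) = M.act U (ezs φ (spsw ψ) η 0) (i, φ (Sum.inl (spsw ψ (Sum.inl a)))) := by
    rw [h, ezs_z]
  rw [h1]
  show ∑ A, BFSS.adCoeff M.T U (φ (Sum.inl (spsw ψ (Sum.inl a)))) A * ezs φ (spsw ψ) η 0 (i, A) =
    ∑ B, zO φ ψ (adO M.T U) a B * η (i, B)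
  rw [gs_sum φ ψ]
  have e1 : ∀ b : Fin ds, ezs φ (spsw ψ) η 0 (i, φ (Sum.inl (ψ (Sum.inl b)))) = 0 := fun b =>
    (ezs_s φ (spsw ψ) η 0 i b).trans rfl
  have e2 : ∀ b : Fin dz, ezs φ (spsw ψ) η 0 (i, φ (Sum.inl (ψ (Sum.inr b)))) = η (i, b) := fun b =>
    ezs_z φ (spsw ψ) η 0 i b
  have e3 : ∀ b : Fin dm, ezs φ (spsw ψ) η 0 (i, φ (Sum.inr b)) = 0 := fun b => ezs_m φ (spsw ψ) η 0 i b
  simp only [e1, e2, e3, mul_zero, Finset.sum_const_zero, zero_add, add_zero]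
  rfl

/-- the action on the `s`-part -/
theorem gs_s (M : BFSS.Model N d F) (φ : Spl dh dm d) (ψ : Spl ds dz dh) (U : BFSS.SU N) (s : Cfg ds) :
    hs (spsw ψ) (zy φ (M.act U (ezs φ (spsw ψ) 0 s))) = ro (sO φ ψ (adO M.T U)) s := by
  ext ⟨i, a⟩
  show ∑ A, BFSS.adCoeff M.T U (φ (Sum.inl (spsw ψ (Sum.inr a)))) A * ezs φ (spsw ψ) 0 s (i, A) =
    ∑ B, sO φ ψ (adO M.T U) a B * s (i, B)
  rw [gs_sum φ ψ]
  have e1 : ∀ b : Fin ds, ezs φ (spsw ψ) 0 s (i, φ (Sum.inl (ψ (Sum.inl b)))) = s (i, b) := fun b =>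
    ezs_s φ (spsw ψ) 0 s i b
  have e2 : ∀ b : Fin dz, ezs φ (spsw ψ) 0 s (i, φ (Sum.inl (ψ (Sum.inr b)))) = 0 := fun b =>
    (ezs_z φ (spsw ψ) 0 s i b).trans rfl
  have e3 : ∀ b : Fin dm, ezs φ (spsw ψ) 0 s (i, φ (Sum.inr b)) = 0 := fun b => ezs_m φ (spsw ψ) 0 s i b
  simp only [e1, e2, e3, mul_zero, Finset.sum_const_zero, zero_add, add_zero]
  rfl

/-- **ground state data from the vacuum bundle** -/
theorem gsd_of {M : BFSS.Model N d F} (hA : ActStmt M) {S : Setup d F} {φ : Spl dh dm d} {ψ : Spl ds dz dh}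
    {L : Finset (Fin dz → ℝ)} {Om : Cfg dz → Matrix (Fin dm) (Fin dm) ℝ} {K : Submodule ℂ F} {V : Cfg dz → F →L[ℂ] F}
    (hB : AX.Bun S φ (AX.Mz S φ (spsw (spsw ψ))) L Om K V) {w₀ : Cfg ds → F}
    (hw : MemLp w₀ 2 (volume : Measure (Cfg ds))) (hw1 : ∫ s, ‖w₀ s‖ ^ 2 = 1)
    (hcov : ∀ U : BFSS.SU N, Blk φ ψ (adO M.T U) → ∀ η ∉ Coll L, ∀ᵐ s ∂(volume : Measure (Cfg ds)),
      M.S U (V η (hw.toLp w₀ s)) = V (ro (zO φ ψ (adO M.T U)) η) (hw.toLp w₀ (ro (sO φ ψ (adO M.T U)) s))) :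
    Gsd M S φ (spsw ψ) L V w₀ Om := by
  have hrg : ∀ η, η ∉ Coll L → η ∈ Reg S φ (spsw ψ) := by
    intro η hη x hx
    have h := hB.det η hη
    rw [AX.DM_Dz] at h
    refine Matrix.eq_zero_of_mulVec_eq_zero h ?_
    rw [Matrix.sum_mulVec]
    refine Finset.sum_eq_zero fun i _ => ?_
    have h1 : (Setup.Dz S φ (spsw ψ) η i).mulVec x = 0 := hx i
    rw [← Matrix.mulVec_mulVec, h1, Matrix.mulVec_zero]
  have hdet : ∀ η, η ∉ Coll L → (∑ i, DM (AX.Mz S φ (spsw (spsw ψ))) η i * DM (AX.Mz S φ (spsw (spsw ψ))) η i).det ≠ 0 :=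
    fun η hη => hB.det η hη
  refine ⟨hB.L_ne, hB.closed, hrg, fun η v => ?_, hB.U_smooth.continuousOn,
    hB.U_surj, fun η hη => ?_, ?_, hw, hw1, ?_⟩
  · have h := hB.U_inner η v v
    rw [inner_self_eq_norm_sq_to_K, inner_self_eq_norm_sq_to_K] at h
    have h2 : ‖V η v‖ ^ 2 = ‖v‖ ^ 2 := by exact_mod_cast h
    exact (pow_left_inj₀ (norm_nonneg _) (norm_nonneg _) two_ne_zero).1 h2
  · have h := hB.om η (hdet η hη)
    exact ⟨h.symm, h.pos⟩
  · refine continuousOn_pi.2 fun A => continuousOn_pi.2 fun B => ?_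
    exact (hB.om_smooth A B).continuousOn.mono fun η hη => hdet η hη
  · intro U hU η η' hη hη' h
    have h1 := gs_z h
    have hc := hcov U (gs_blk hU) η hη
    have hO : ∀ s, Os M φ (spsw ψ) U s = ro (sO φ ψ (adO M.T U)) s := fun s => gs_s M φ ψ U s
    have hae := hw.coeFn_toLp
    have hmp : MeasurePreserving (OsI hA hU : Cfg ds → Cfg ds) volume volume := (OsI hA hU).measurePreserving
    have hae2 := hmp.quasiMeasurePreserving.ae hae
    filter_upwards [hc, hae, hae2] with s k1 k2 k3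
    rw [OsI_apply, hO] at k3
    rw [k2, k3, ← h1] at k1
    rw [k1, gs_s]

end Vale.Agent.P353.AN.LW
end

section

/-! # P353, all `N`, block LOW: the main lower bound -/

open MeasureTheory Filter Topology
open scoped ContDiff

namespace Vale.Agent.P353.AN.LW

open Vale.Agent.P353.Z Vale.Agent.P353.Z.U Vale.Agent.P353.Z.AN Vale.Agent.P353.AN.G

variable {N d dh dm r ds : ℕ} {F : Type*} [NormedAddCommGroup F] [InnerProductSpace ℂ F]

lemma GB_inv (M : BFSS.Model N d F) (hA : ActStmt M) (φ : Spl dh dm d) (ψ : Spz r ds dh) (z₀ : Cfg r) (r₁ R : ℝ)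
    (U : BFSS.SU N) (x : Cfg d) : x ∈ GB M φ ψ z₀ r₁ R ↔ M.act U x ∈ GB M φ ψ z₀ r₁ R := by
  constructor
  · rintro ⟨V, hV⟩
    refine ⟨V * U⁻¹, ?_⟩
    rw [← hA.1, mul_assoc, inv_mul_cancel, mul_one]
    exact hV
  · rintro ⟨V, hV⟩
    refine ⟨V * U, ?_⟩
    rw [hA.1]
    exact hV

lemma bx_closed (ds dm : ℕ) (z₀ : Cfg r) (r₁ : ℝ) : IsClosed (bx ds dm z₀ r₁) := by
  have h1 : IsClosed {q : Cfg r × Cfg ds × Cfg dm | ‖q.1 - z₀‖ ≤ r₁} := isClosed_le (by fun_prop) continuous_const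
  have h2 : IsClosed {q : Cfg r × Cfg ds × Cfg dm | ‖q.2.1‖ ≤ r₁} := isClosed_le (by fun_prop) continuous_const
  have h3 : IsClosed {q : Cfg r × Cfg ds × Cfg dm | ‖q.2.2‖ ≤ r₁} := isClosed_le (by fun_prop) continuous_const
  exact h1.inter (h2.inter h3)

/-- the integral over the box in scaled coordinates -/
lemma int_box (φ : Spl dh dm d) (ψ : Spz r ds dh) (hS : SclStmt) {R : ℝ} (hR : 0 < R) {β : Cfg r × Cfg ds × Cfg dm → ℝ}
    (hβ : Continuous β) (hβc : HasCompactSupport β) (hβ0 : ∀ q, 0 ≤ β q) {E : Set (Cfg r × Cfg ds × Cfg dm)}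
    (hE : MeasurableSet E) :
    ∫ x in {x | sc φ ψ R x ∈ E}, β (sc φ ψ R x) =
      R ^ (9 * (r : ℝ) - 9 * (dm : ℝ) / 2) * ∫ q in E, β q ∂(v3 r ds dm) := by
  obtain ⟨hsc, hlin, e, he⟩ := hS d dh dm r ds φ ψ R hR
  have hm : MeasurableSet {x : Cfg d | sc φ ψ R x ∈ E} := hsc.measurable hE
  have hc : HasCompactSupport fun x : Cfg d => β (sc φ ψ R x) := by
    have h := hβc.comp_homeomorph e
    have h2 : (fun x : Cfg d => β (sc φ ψ R x)) = β ∘ e := by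
      funext x
      simp [he]
    rw [h2]
    exact h
  have hi : Integrable (fun x : Cfg d => β (sc φ ψ R x)) := (hβ.comp hsc).integrable_of_hasCompactSupport hc
  have hi2 : Integrable β (v3 r ds dm) := by
    unfold v3
    exact hβ.integrable_of_hasCompactSupport hβc
  have h1 : ENNReal.ofReal (∫ x in {x | sc φ ψ R x ∈ E}, β (sc φ ψ R x)) =
      ∫⁻ x : Cfg d, E.indicator (fun q => ENNReal.ofReal (β q)) (sc φ ψ R x) := by
    rw [ofReal_integral_eq_lintegral_ofReal hi.integrableOn (ae_of_all _ fun x => hβ0 _), ← lintegral_indicator hm]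
    rfl
  have h2 : ENNReal.ofReal (∫ q in E, β q ∂(v3 r ds dm)) =
      ∫⁻ q, E.indicator (fun q => ENNReal.ofReal (β q)) q ∂(v3 r ds dm) := by
    rw [ofReal_integral_eq_lintegral_ofReal hi2.integrableOn (ae_of_all _ fun x => hβ0 _), ← lintegral_indicator hE]
  rw [hlin _ ((hβ.measurable.ennreal_ofReal).indicator hE), ← h2, ← ENNReal.ofReal_mul (Real.rpow_nonneg hR.le _)] at h1
  have p1 : 0 ≤ ∫ x in {x | sc φ ψ R x ∈ E}, β (sc φ ψ R x) := integral_nonneg fun x => hβ0 _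
  have p2 : 0 ≤ R ^ (9 * (r : ℝ) - 9 * (dm : ℝ) / 2) * ∫ q in E, β q ∂(v3 r ds dm) :=
    mul_nonneg (Real.rpow_nonneg hR.le _) (integral_nonneg fun x => hβ0 _)
  exact (ENNReal.ofReal_eq_ofReal_iff p1 p2).1 h1

theorem core (M : BFSS.Model N d F) (S : Setup d F) (φ : Spl dh dm d) (ψ : Spz r ds dh) : CoreStmt M S φ ψ := by
  intro hfd hRep hsub hz hless hA hGeo hGood hGoodA hPos hVol hScl hAvb z₀ r₁ hr₁
  obtain ⟨C, hC, hV⟩ := hVol hRep hsub hz hA hGood hGoodA hScl z₀ r₁ hr₁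
  refine ⟨1 / (4 * C), by positivity, ?_⟩
  intro K Om hD hK β hβ hβc hβ0 hβK hcont
  obtain ⟨L, hL⟩ : ∃ L : ℝ, ∀ q, β q ≠ 0 → ‖q.2.2‖ ≤ L := by
    obtain ⟨L, hL⟩ := (hβc.isCompact.image (continuous_snd.comp continuous_snd)).isBounded.exists_norm_le
    exact ⟨L, fun q hq => hL _ ⟨q, subset_tsupport β (Function.mem_support.2 hq), rfl⟩⟩
  obtain ⟨R₀, hR₀, hP⟩ := hPos hfd hRep hsub hz hless hA hGeo K Om hD hK L
  refine ⟨R₀, hR₀, ?_⟩
  intro R hR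
  have hR1 : 1 ≤ R := hR₀.trans hR
  have hR0 : 0 < R := by linarith
  obtain ⟨hsc, hlin, e, he⟩ := hScl d dh dm r ds φ ψ R hR0
  obtain ⟨hcl, hvol⟩ := hV R hR1
  set k : ℝ := R ^ (3 * (dm : ℝ) - 9 * (r : ℝ) / 2) with hk
  have hk0 : 0 < k := Real.rpow_pos_of_pos hR0 _
  set φ₁ : Cfg d → ℝ := fun x => k * β (sc φ ψ R x) with hφ₁
  set Om₁ : Cfg d → F := fun x => Om ((sc φ ψ R x).1, (sc φ ψ R x).2.1) with hOm₁
  have hZ : Zb φ ψ (fun q => ((β q : ℝ) : ℂ) • Om (q.1, q.2.1)) R = fun x => ((φ₁ x : ℝ) : ℂ) • Om₁ x := by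
    funext x
    simp only [Zb, hφ₁, hOm₁, sc, Complex.ofReal_mul, mul_smul, hk]
  rw [hZ]
  have hcβ : HasCompactSupport fun x : Cfg d => β (sc φ ψ R x) := by
    have h := hβc.comp_homeomorph e
    have h2 : (fun x : Cfg d => β (sc φ ψ R x)) = β ∘ e := by
      funext x
      simp [he]
    rw [h2]
    exact h
  have hφc : Continuous φ₁ := continuous_const.mul (hβ.comp hsc)
  have hφs : HasCompactSupport φ₁ := hcβ.mul_left
  have hφ0 : ∀ x, 0 ≤ φ₁ x := fun x => mul_nonneg hk0.le (hβ0 _)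
  have hne : ∀ x, φ₁ x ≠ 0 → β (sc φ ψ R x) ≠ 0 := fun x hx h => hx (by simp [hφ₁, h])
  have hc1 : Continuous fun x => ((φ₁ x : ℝ) : ℂ) • Om₁ x := by
    have h := (hcont.comp hsc).const_smul ((k : ℝ) : ℂ)
    refine h.congr fun x => ?_
    simp only [hφ₁, hOm₁, Complex.ofReal_mul, mul_smul]
    rfl
  have hvt : volume (GB M φ ψ z₀ r₁ R) ≠ ⊤ := ne_top_of_le_ne_top ENNReal.ofReal_ne_top hvol
  have key := hAvb hfd hA φ₁ Om₁ hφc hφs hφ0 hc1 (fun x hx => hD.unit _ (hβK _ (hne x hx)))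
    (fun U x hx hx' => hP R hR U x (hβK _ (hne x hx)) (hβK _ (hne _ hx')) (hL _ (hne x hx)) (hL _ (hne _ hx')))
    (GB M φ ψ z₀ r₁ R) hcl.measurableSet (fun U x => GB_inv M hA φ ψ z₀ r₁ R U x) hvt
  have hint : Integrable φ₁ := hφc.integrable_of_hasCompactSupport hφs
  have hsubs : {x | sc φ ψ R x ∈ bx ds dm z₀ r₁} ⊆ GB M φ ψ z₀ r₁ R := fun x hx => ⟨1, by rw [hA.2.1]; exact hx⟩
  have hmono : ∫ x in {x | sc φ ψ R x ∈ bx ds dm z₀ r₁}, φ₁ x ≤ ∫ x in GB M φ ψ z₀ r₁ R, φ₁ x :=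
    setIntegral_mono_set hint.integrableOn (ae_of_all _ hφ0) (LE.le.eventuallyLE hsubs)
  set I : ℝ := ∫ q in bx ds dm z₀ r₁, β q ∂(v3 r ds dm) with hI
  have hI0 : 0 ≤ I := integral_nonneg fun x => hβ0 _
  have hbox : ∫ x in {x | sc φ ψ R x ∈ bx ds dm z₀ r₁}, φ₁ x = k * (R ^ (9 * (r : ℝ) - 9 * (dm : ℝ) / 2) * I) := by
    rw [hI, ← int_box φ ψ hScl hR0 hβ hβc hβ0 (bx_closed ds dm z₀ r₁).measurableSet, ← integral_const_mul]
  rw [hbox] at hmono
  have hpow : (k * (R ^ (9 * (r : ℝ) - 9 * (dm : ℝ) / 2) * I)) ^ 2 = R ^ (9 * (r : ℝ) - 3 * (dm : ℝ)) * I ^ 2 := by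
    have h1 : k * R ^ (9 * (r : ℝ) - 9 * (dm : ℝ) / 2) * (k * R ^ (9 * (r : ℝ) - 9 * (dm : ℝ) / 2)) =
        R ^ (9 * (r : ℝ) - 3 * (dm : ℝ)) := by
      rw [hk, ← Real.rpow_add hR0, ← Real.rpow_add hR0]
      congr 1
      ring
    calc (k * (R ^ (9 * (r : ℝ) - 9 * (dm : ℝ) / 2) * I)) ^ 2
        = k * R ^ (9 * (r : ℝ) - 9 * (dm : ℝ) / 2) * (k * R ^ (9 * (r : ℝ) - 9 * (dm : ℝ) / 2)) * I ^ 2 := by ring
      _ = _ := by rw [h1]
  set P : ℝ := R ^ (9 * (r : ℝ) - 3 * (dm : ℝ)) with hPd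
  have hP0 : 0 < P := Real.rpow_pos_of_pos hR0 _
  have hb0 : 0 ≤ k * (R ^ (9 * (r : ℝ) - 9 * (dm : ℝ) / 2) * I) :=
    mul_nonneg hk0.le (mul_nonneg (Real.rpow_nonneg hR0.le _) hI0)
  have hsq : P * I ^ 2 ≤ (∫ x in GB M φ ψ z₀ r₁ R, φ₁ x) ^ 2 := by
    rw [← hpow]
    exact pow_le_pow_left₀ hb0 hmono 2
  have hvr : (volume (GB M φ ψ z₀ r₁ R)).toReal ≤ C * P := by
    refine ENNReal.toReal_le_of_le_ofReal (by positivity) hvol
  set X : ℝ := nsq (avg M fun x => ((φ₁ x : ℝ) : ℂ) • Om₁ x) with hX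
  have hX0 : 0 ≤ X := nsq_nonneg _
  have h3 : P * I ^ 2 ≤ 4 * (C * P) * X := by
    refine hsq.trans (key.trans ?_)
    exact mul_le_mul_of_nonneg_right (by linarith) hX0
  have h4 : P * I ^ 2 ≤ P * (4 * C * X) := by linarith
  have h5 : I ^ 2 ≤ 4 * C * X := le_of_mul_le_mul_left h4 hP0
  rw [div_mul_eq_mul_div, one_mul, div_le_iff₀ (by positivity)]
  linarith

end Vale.Agent.P353.AN.LW
end

section

/-! # P353, all `N`, block LOW: `OutStmt` (LOW9, helper459) -/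

open MeasureTheory Filter Topology
open scoped ContDiff

namespace Vale.Agent.P353.AN.LW

open Vale.Agent.P353.Z Vale.Agent.P353.Z.U Vale.Agent.P353.Z.AN Vale.Agent.P353.AN.G

section out459

variable {N d dh dm r ds : ℕ} {F : Type*} [NormedAddCommGroup F] [InnerProductSpace ℂ F]

/-- the mass of `w₀` in a large ball is positive -/
private theorem out459_ball (w₀ : Cfg ds → F) (hw : MemLp w₀ 2 (volume : Measure (Cfg ds)))
    (h1 : ∫ s, ‖w₀ s‖ ^ 2 = 1) :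
    ∃ r₁ : ℝ, 0 < r₁ ∧ 0 < ∫ s in Metric.closedBall (0 : Cfg ds) r₁, ‖w₀ s‖ := by
  by_contra hcon
  push Not at hcon
  have hae : ∀ n : ℕ, ∀ᵐ s ∂(volume.restrict (Metric.closedBall (0 : Cfg ds) ((n : ℝ) + 1))), w₀ s = 0 := by
    intro n
    have hpos : (0 : ℝ) < (n : ℝ) + 1 := by positivity
    have hi : IntegrableOn (fun s => ‖w₀ s‖) (Metric.closedBall (0 : Cfg ds) ((n : ℝ) + 1)) volume := by
      have : MemLp w₀ 1 (volume.restrict (Metric.closedBall (0 : Cfg ds) ((n : ℝ) + 1))) := by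
        have : IsFiniteMeasure (volume.restrict (Metric.closedBall (0 : Cfg ds) ((n : ℝ) + 1))) :=
          ⟨by rw [Measure.restrict_apply_univ]; exact measure_closedBall_lt_top⟩
        exact (hw.restrict _).mono_exponent (by norm_num)
      exact (memLp_one_iff_integrable.1 this).norm
    have h0 : ∫ s in Metric.closedBall (0 : Cfg ds) ((n : ℝ) + 1), ‖w₀ s‖ = 0 :=
      le_antisymm (hcon _ hpos) (integral_nonneg fun s => norm_nonneg _)
    have h2 := (integral_eq_zero_iff_of_nonneg (fun s => norm_nonneg (w₀ s)) hi).1 h0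
    filter_upwards [h2] with s hs
    exact norm_eq_zero.1 hs
  have hall : ∀ᵐ s : Cfg ds, w₀ s = 0 := by
    have h3 : ∀ᵐ s : Cfg ds, ∀ n : ℕ, s ∈ Metric.closedBall (0 : Cfg ds) ((n : ℝ) + 1) → w₀ s = 0 := by
      rw [ae_all_iff]
      intro n
      exact (ae_restrict_iff' Metric.isClosed_closedBall.measurableSet).1 (hae n)
    filter_upwards [h3] with s hs
    obtain ⟨n, hn⟩ := exists_nat_ge ‖s‖
    exact hs n (by rw [mem_closedBall_zero_iff]; linarith)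
  have h4 : ∫ s, ‖w₀ s‖ ^ 2 = 0 := by
    rw [integral_congr_ae (g := fun _ => (0 : ℝ))]
    · simp
    · filter_upwards [hall] with s hs
      simp [hs]
  rw [h4] at h1
  exact zero_ne_one h1

/-- lower bound of `∫β₁` -/
private theorem out459_beta (w₀ g : Cfg ds → F) (β₁ : Cfg ds → ℝ) (hw : MemLp w₀ 2 (volume : Measure (Cfg ds)))
    (hg : Continuous g) (hgs : HasCompactSupport g) (hb : ∀ s, ‖g s‖ = β₁ s) (hbc : Continuous β₁) (r₁ I₀ v : ℝ)
    (hI : 0 < I₀) (hv : 0 < v) (hv' : v = (volume : Measure (Cfg ds)).real (Metric.closedBall (0 : Cfg ds) r₁))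
    (hI' : I₀ = ∫ s in Metric.closedBall (0 : Cfg ds) r₁, ‖w₀ s‖)
    (he : ∫ s, ‖w₀ s - g s‖ ^ 2 ≤ I₀ ^ 2 / (4 * v)) :
    I₀ / 2 ≤ ∫ s in Metric.closedBall (0 : Cfg ds) r₁, β₁ s := by
  have hfin : IsFiniteMeasure (volume.restrict (Metric.closedBall (0 : Cfg ds) r₁)) :=
    ⟨by rw [Measure.restrict_apply_univ]; exact measure_closedBall_lt_top⟩
  have hgm : MemLp g 2 (volume : Measure (Cfg ds)) := hg.memLp_of_hasCompactSupport hgs
  have hdm : MemLp (fun s => w₀ s - g s) 2 (volume : Measure (Cfg ds)) := hw.sub hgm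
  have hwi : IntegrableOn (fun s => ‖w₀ s‖) (Metric.closedBall (0 : Cfg ds) r₁) volume :=
    (memLp_one_iff_integrable.1 ((hw.restrict _).mono_exponent (by norm_num))).norm
  have hdi : IntegrableOn (fun s => ‖w₀ s - g s‖) (Metric.closedBall (0 : Cfg ds) r₁) volume :=
    (memLp_one_iff_integrable.1 ((hdm.restrict _).mono_exponent (by norm_num))).norm
  have hd2 : Integrable (fun s => ‖w₀ s - g s‖ ^ 2) (volume : Measure (Cfg ds)) := hdm.integrable_norm_pow (by norm_num)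
  have hbi : IntegrableOn β₁ (Metric.closedBall (0 : Cfg ds) r₁) volume :=
    hbc.continuousOn.integrableOn_compact (isCompact_closedBall _ _)
  have h1 : I₀ ≤ (∫ s in Metric.closedBall (0 : Cfg ds) r₁, ‖w₀ s - g s‖) + ∫ s in Metric.closedBall (0 : Cfg ds) r₁, β₁ s := by
    rw [hI', ← integral_add hdi hbi]
    refine integral_mono hwi (hdi.add hbi) fun s => ?_
    have h := norm_sub_norm_le (w₀ s) (g s)
    have h' := hb s
    simp only
    linarith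
  have hδ : 0 < I₀ / (2 * v) := by positivity
  have h2 : (∫ s in Metric.closedBall (0 : Cfg ds) r₁, ‖w₀ s - g s‖) ≤
      ∫ s in Metric.closedBall (0 : Cfg ds) r₁, (I₀ / (2 * v) / 2 + ‖w₀ s - g s‖ ^ 2 / (2 * (I₀ / (2 * v)))) := by
    refine integral_mono hdi ((integrable_const _).add (hd2.integrableOn.div_const _)) fun s => ?_
    have h : ‖w₀ s - g s‖ ≤ I₀ / (2 * v) / 2 + ‖w₀ s - g s‖ ^ 2 / (2 * (I₀ / (2 * v))) := by
      have h3 : 0 ≤ (‖w₀ s - g s‖ - I₀ / (2 * v)) ^ 2 := sq_nonneg _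
      have h4 : I₀ / (2 * v) / 2 + ‖w₀ s - g s‖ ^ 2 / (2 * (I₀ / (2 * v))) - ‖w₀ s - g s‖ =
        (‖w₀ s - g s‖ - I₀ / (2 * v)) ^ 2 / (2 * (I₀ / (2 * v))) := by
        generalize ‖w₀ s - g s‖ = t at *
        generalize I₀ / (2 * v) = e at *
        field_simp
        ring
      have h5 : 0 ≤ (‖w₀ s - g s‖ - I₀ / (2 * v)) ^ 2 / (2 * (I₀ / (2 * v))) := by positivity
      linarith
    exact h
  have h3 : (∫ s in Metric.closedBall (0 : Cfg ds) r₁, (I₀ / (2 * v) / 2 + ‖w₀ s - g s‖ ^ 2 / (2 * (I₀ / (2 * v))))) =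
      v * (I₀ / (2 * v) / 2) + (∫ s in Metric.closedBall (0 : Cfg ds) r₁, ‖w₀ s - g s‖ ^ 2) / (2 * (I₀ / (2 * v))) := by
    rw [integral_add (integrable_const _) (hd2.integrableOn.div_const _)]
    rw [integral_div (2 * (I₀ / (2 * v))) (fun s => ‖w₀ s - g s‖ ^ 2), integral_const]
    congr 1
    rw [smul_eq_mul, Measure.real, Measure.restrict_apply_univ, hv']
    rfl
  have h4 : (∫ s in Metric.closedBall (0 : Cfg ds) r₁, ‖w₀ s - g s‖ ^ 2) ≤ I₀ ^ 2 / (4 * v) :=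
    (setIntegral_le_integral hd2 (Eventually.of_forall fun s => by positivity)).trans he
  have h5 : (∫ s in Metric.closedBall (0 : Cfg ds) r₁, ‖w₀ s - g s‖ ^ 2) / (2 * (I₀ / (2 * v))) ≤
      (I₀ ^ 2 / (4 * v)) / (2 * (I₀ / (2 * v))) := by gcongr
  have h6 : v * (I₀ / (2 * v) / 2) + (I₀ ^ 2 / (4 * v)) / (2 * (I₀ / (2 * v))) = I₀ / 2 := by
    field_simp
    ring
  rw [h3] at h2
  linarith

/-- lower bound of the box integral -/
private theorem out459_box (z₀ : Cfg r) (r₀ r₁ m₀ : ℝ) (hr : r₀ ≤ r₁)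
    (β : Cfg r × Cfg ds × Cfg dm → ℝ) (β₁ : Cfg ds → ℝ) (hβ : Continuous β) (hβs : HasCompactSupport β)
    (hβ0 : ∀ q, 0 ≤ β q) (hβ1 : Continuous β₁)
    (hle : ∀ q : Cfg r × Cfg ds × Cfg dm, ‖q.1 - z₀‖ ≤ r₀ → ‖q.2.1‖ ≤ r₁ → ‖q.2.2‖ ≤ r₁ → m₀ * β₁ q.2.1 ≤ β q) :
    m₀ * ((volume : Measure (Cfg r)).real (Metric.closedBall z₀ r₀) *
      ((∫ s in Metric.closedBall (0 : Cfg ds) r₁, β₁ s) *
        (volume : Measure (Cfg dm)).real (Metric.closedBall (0 : Cfg dm) r₁))) ≤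
      ∫ q in bx ds dm z₀ r₁, β q ∂(v3 r ds dm) := by
  have hfc : IsFiniteMeasureOnCompacts (v3 r ds dm) := by unfold v3; infer_instance
  have hint : Integrable β (v3 r ds dm) := hβ.integrable_of_hasCompactSupport hβs
  have hsub : Metric.closedBall z₀ r₀ ×ˢ (Metric.closedBall (0 : Cfg ds) r₁ ×ˢ Metric.closedBall (0 : Cfg dm) r₁) ⊆
      bx ds dm z₀ r₁ := by
    rintro ⟨η, s, X⟩ ⟨h1, h2, h3⟩
    simp only [Metric.mem_closedBall, dist_eq_norm, sub_zero] at h1 h2 h3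
    exact ⟨h1.trans hr, h2, h3⟩
  have h1 : ∫ q in Metric.closedBall z₀ r₀ ×ˢ (Metric.closedBall (0 : Cfg ds) r₁ ×ˢ Metric.closedBall (0 : Cfg dm) r₁), β q ∂(v3 r ds dm) ≤
      ∫ q in bx ds dm z₀ r₁, β q ∂(v3 r ds dm) :=
    setIntegral_mono_set hint.integrableOn (Eventually.of_forall hβ0) hsub.eventuallyLE
  refine le_trans ?_ h1
  have hms : MeasurableSet (Metric.closedBall z₀ r₀ ×ˢ (Metric.closedBall (0 : Cfg ds) r₁ ×ˢ Metric.closedBall (0 : Cfg dm) r₁)) :=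
    measurableSet_closedBall.prod (measurableSet_closedBall.prod measurableSet_closedBall)
  have hcpt : IsCompact (Metric.closedBall z₀ r₀ ×ˢ (Metric.closedBall (0 : Cfg ds) r₁ ×ˢ Metric.closedBall (0 : Cfg dm) r₁)) :=
    (isCompact_closedBall _ _).prod ((isCompact_closedBall _ _).prod (isCompact_closedBall _ _))
  have h2 : ∫ q in Metric.closedBall z₀ r₀ ×ˢ (Metric.closedBall (0 : Cfg ds) r₁ ×ˢ Metric.closedBall (0 : Cfg dm) r₁),
      m₀ * β₁ q.2.1 ∂(v3 r ds dm) ≤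
      ∫ q in Metric.closedBall z₀ r₀ ×ˢ (Metric.closedBall (0 : Cfg ds) r₁ ×ˢ Metric.closedBall (0 : Cfg dm) r₁), β q ∂(v3 r ds dm) := by
    refine setIntegral_mono_on ?_ hint.integrableOn hms ?_
    · have : Continuous fun q : Cfg r × Cfg ds × Cfg dm => m₀ * β₁ q.2.1 := by fun_prop
      exact this.continuousOn.integrableOn_compact hcpt
    · rintro ⟨η, s, X⟩ ⟨h1, h2, h3⟩
      simp only [Metric.mem_closedBall, dist_eq_norm, sub_zero] at h1 h2 h3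
      exact hle _ h1 h2 h3
  refine le_trans (le_of_eq ?_) h2
  rw [integral_const_mul]
  congr 1
  have h3 : ∫ q in Metric.closedBall z₀ r₀ ×ˢ (Metric.closedBall (0 : Cfg ds) r₁ ×ˢ Metric.closedBall (0 : Cfg dm) r₁),
      β₁ q.2.1 ∂(v3 r ds dm) =
      ∫ q in Metric.closedBall z₀ r₀ ×ˢ (Metric.closedBall (0 : Cfg ds) r₁ ×ˢ Metric.closedBall (0 : Cfg dm) r₁),
      (fun _ : Cfg r => (1 : ℝ)) q.1 * (fun p : Cfg ds × Cfg dm => β₁ p.1 * 1) q.2
        ∂((volume : Measure (Cfg r)).prod ((volume : Measure (Cfg ds)).prod (volume : Measure (Cfg dm)))) := by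
    simp only [one_mul, mul_one]
    rfl
  rw [h3]
  rw [setIntegral_prod_mul (μ := (volume : Measure (Cfg r))) (ν := (volume : Measure (Cfg ds)).prod (volume : Measure (Cfg dm)))
    (fun _ : Cfg r => (1 : ℝ)) (fun p : Cfg ds × Cfg dm => β₁ p.1 * 1) (Metric.closedBall z₀ r₀)
    (Metric.closedBall (0 : Cfg ds) r₁ ×ˢ Metric.closedBall (0 : Cfg dm) r₁)]
  rw [setIntegral_prod_mul (μ := (volume : Measure (Cfg ds))) (ν := (volume : Measure (Cfg dm)))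
    (fun s : Cfg ds => β₁ s) (fun _ : Cfg dm => (1 : ℝ))]
  simp

/-- continuity of the Gaussian profile off the collisions -/
private theorem out459_prof (κ : ℝ) (hκ : 0 < κ) (Lc : Finset (Fin r → ℝ)) (hcl : IsClosed (Coll Lc))
    (Ωm : Cfg r → Matrix (Fin dm) (Fin dm) ℝ)
    (hs : ∀ η, η ∉ Coll Lc → (Ωm η).transpose = Ωm η ∧ ∀ u : Fin dm → ℝ, u ≠ 0 → 0 < u ⬝ᵥ ((Ωm η).mulVec u))
    (hc : ContinuousOn Ωm (Coll Lc)ᶜ) (hN : NrmStmt) :
    ContinuousOn (fun q : Cfg r × Cfg dm => gss q.1 * (Nf κ (Ωm q.1) * Real.exp (-(1 / 2) * qX (Ωm q.1) q.2)))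
      {q | q.1 ∉ Coll Lc} ∧ ∀ η, η ∉ Coll Lc → 0 < Nf κ (Ωm η) := by
  have hNc : ContinuousOn (fun η => Nf κ (Ωm η)) (Coll Lc)ᶜ := by
    intro η hη
    obtain ⟨ρ, hρ, hρ'⟩ := Metric.nhds_basis_closedBall.mem_iff.1 (hcl.isOpen_compl.mem_nhds hη)
    have h := (hN r dm κ (Metric.closedBall η ρ) Ωm hκ (isCompact_closedBall _ _) (fun η' h' => hs η' (hρ' h'))
      (hc.mono hρ')).1
    exact (h.continuousAt (Metric.closedBall_mem_nhds η hρ)).continuousWithinAt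
  refine ⟨?_, fun η hη => ?_⟩
  · have hmap : Set.MapsTo (fun q : Cfg r × Cfg dm => q.1) {q | q.1 ∉ Coll Lc} (Coll Lc)ᶜ := fun q hq => hq
    have hent : ∀ B C, ContinuousOn (fun q : Cfg r × Cfg dm => Ωm q.1 B C) {q | q.1 ∉ Coll Lc} := fun B C =>
      ((continuous_apply_apply B C).comp_continuousOn (hc.comp continuous_fst.continuousOn hmap))
    have hq : ContinuousOn (fun q : Cfg r × Cfg dm => qX (Ωm q.1) q.2) {q | q.1 ∉ Coll Lc} := by
      unfold qX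
      refine continuousOn_finsetSum _ fun i _ => continuousOn_finsetSum _ fun B _ => continuousOn_finsetSum _ fun C _ => ?_
      refine ContinuousOn.mul (ContinuousOn.mul ?_ (hent B C)) ?_
      · exact Continuous.continuousOn (by fun_prop)
      · exact Continuous.continuousOn (by fun_prop)
    have hg : Continuous (fun q : Cfg r × Cfg dm => gss q.1) := by
      unfold gss
      fun_prop
    refine hg.continuousOn.mul ((hNc.comp continuous_fst.continuousOn hmap).mul ?_)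
    exact Real.continuous_exp.comp_continuousOn (continuousOn_const.mul hq)
  · exact (hN r dm κ {η} Ωm hκ isCompact_singleton (fun η' h' => by rw [Set.mem_singleton_iff.1 h']; exact hs η hη)
      (hc.mono (by rintro η' h'; rw [Set.mem_singleton_iff.1 h']; exact hη))).2.1 η rfl

/-- the profile is bounded below on the small box -/
private theorem out459_min (f : Cfg r × Cfg dm → ℝ) (s : Set (Cfg r)) (h : ContinuousOn f {q | q.1 ∉ s})
    (hp : ∀ q : Cfg r × Cfg dm, q.1 ∉ s → 0 < f q) (z₀ : Cfg r) (r₀ r₁ : ℝ) (h0 : 0 < r₀) (h1 : 0 < r₁)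
    (hb : ∀ η, ‖η - z₀‖ ≤ r₀ → η ∉ s) :
    ∃ m₀ : ℝ, 0 < m₀ ∧ ∀ q : Cfg r × Cfg dm, ‖q.1 - z₀‖ ≤ r₀ → ‖q.2‖ ≤ r₁ → m₀ ≤ f q := by
  have hcpt : IsCompact (Metric.closedBall z₀ r₀ ×ˢ Metric.closedBall (0 : Cfg dm) r₁) :=
    (isCompact_closedBall _ _).prod (isCompact_closedBall _ _)
  have hne : (Metric.closedBall z₀ r₀ ×ˢ Metric.closedBall (0 : Cfg dm) r₁).Nonempty :=
    ⟨(z₀, 0), Metric.mem_closedBall_self h0.le, Metric.mem_closedBall_self h1.le⟩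
  have hsub : Metric.closedBall z₀ r₀ ×ˢ Metric.closedBall (0 : Cfg dm) r₁ ⊆ {q : Cfg r × Cfg dm | q.1 ∉ s} := by
    rintro ⟨η, X⟩ ⟨hη, _⟩
    exact hb η (by simpa [dist_eq_norm] using hη)
  obtain ⟨q₀, hq₀, hmin⟩ := hcpt.exists_isMinOn hne (h.mono hsub)
  refine ⟨f q₀, hp _ (hsub hq₀), fun q hη hX => ?_⟩
  have hq : q ∈ Metric.closedBall z₀ r₀ ×ˢ Metric.closedBall (0 : Cfg dm) r₁ := by
    refine ⟨?_, ?_⟩
    · rw [Metric.mem_closedBall, dist_eq_norm]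
      exact hη
    · rw [mem_closedBall_zero_iff]
      exact hX
  exact (isMinOn_iff.1 hmin) q hq

/-- extension by zero off the support of the cutoff -/
private theorem out459_ext {E : Type*} [TopologicalSpace E] [Zero E] (χ : Cfg r → ℝ) (s : Set (Cfg r)) (hs : IsClosed s)
    (hd : Disjoint (tsupport χ) s) (f : Cfg r × Cfg ds × Cfg dm → E) (hf : ContinuousOn f {q | q.1 ∉ s})
    (h0 : ∀ q, f q ≠ 0 → χ q.1 ≠ 0) : Continuous f := by
  refine hf.continuous_of_tsupport_subset (hs.isOpen_compl.preimage continuous_fst) ?_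
  have h : tsupport f ⊆ {q | q.1 ∈ tsupport χ} :=
    closure_minimal (fun q hq => subset_tsupport _ (h0 q hq)) ((isClosed_tsupport χ).preimage continuous_fst)
  exact fun q hq => Set.disjoint_left.1 hd (h hq)

/-- cutoff in `X` -/
private noncomputable def ct459 (L : ℝ) (X : Cfg dm) : ℝ := max 0 (min 1 (L + 1 - ‖X‖))

private theorem ct459_cont (L : ℝ) : Continuous (ct459 (dm := dm) L) := by
  unfold ct459
  fun_prop

private theorem ct459_nn (L : ℝ) (X : Cfg dm) : 0 ≤ ct459 L X ∧ ct459 L X ≤ 1 :=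
  ⟨le_max_left _ _, max_le zero_le_one (min_le_left _ _)⟩

private theorem ct459_one (L : ℝ) (X : Cfg dm) (h : ‖X‖ ≤ L) : ct459 L X = 1 := by
  unfold ct459
  rw [min_eq_left (by linarith), max_eq_right zero_le_one]

private theorem ct459_zero (L : ℝ) (X : Cfg dm) (h : ct459 L X ≠ 0) : ‖X‖ ≤ L + 1 := by
  by_contra hc
  push Not at hc
  exact h (by unfold ct459; rw [max_eq_left]; exact (min_le_right _ _).trans (by linarith))

theorem out (M : BFSS.Model N d F) (S : Setup d F) (φ : Spl dh dm d) (ψ : Spz r ds dh) : OutStmt M S φ ψ := by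
  intro hF hcore Lc V w₀ Ωm hG hmol hN hCh hCut z₀ hz₀
  obtain ⟨r₁, hr₁, hI⟩ := out459_ball w₀ hG.w_mem hG.w_one
  obtain ⟨ρ, hρ, hρ'⟩ := Metric.nhds_basis_closedBall.mem_iff.1 (hG.closed.isOpen_compl.mem_nhds hz₀)
  obtain ⟨r₀, hr₀, hr₀₁, hr₀ρ⟩ : ∃ r₀ : ℝ, 0 < r₀ ∧ r₀ ≤ r₁ ∧ r₀ ≤ ρ :=
    ⟨min ρ r₁, lt_min hρ hr₁, min_le_right _ _, min_le_left _ _⟩
  have hoff : ∀ η, ‖η - z₀‖ ≤ r₀ → η ∉ Coll Lc := fun η hη =>
    hρ' (by rw [Metric.mem_closedBall, dist_eq_norm]; exact hη.trans hr₀ρ)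
  obtain ⟨hprof, hNpos⟩ := out459_prof S.κ S.κ_pos Lc hG.closed Ωm hG.om_sym hG.om_cont hN
  obtain ⟨m₀, hm₀, hmin⟩ := out459_min (fun q : Cfg r × Cfg dm => gss q.1 * (Nf S.κ (Ωm q.1) *
    Real.exp (-(1 / 2) * qX (Ωm q.1) q.2))) (Coll Lc) hprof
    (fun q hq => mul_pos (Real.exp_pos _) (mul_pos (hNpos _ hq) (Real.exp_pos _))) z₀ r₀ r₁ hr₀ hr₁ hoff
  obtain ⟨c, hc, hcore⟩ := hcore z₀ r₁ hr₁
  obtain ⟨I₀, hI₀⟩ : ∃ I₀ : ℝ, I₀ = ∫ s in Metric.closedBall (0 : Cfg ds) r₁, ‖w₀ s‖ := ⟨_, rfl⟩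
  rw [← hI₀] at hI
  obtain ⟨v, hv⟩ : ∃ v : ℝ, v = (volume : Measure (Cfg ds)).real (Metric.closedBall (0 : Cfg ds) r₁) := ⟨_, rfl⟩
  have hv0 : 0 < v := by
    rw [hv]
    exact ENNReal.toReal_pos (Metric.measure_closedBall_pos _ _ hr₁).ne' measure_closedBall_lt_top.ne
  have ha0 : 0 < (volume : Measure (Cfg r)).real (Metric.closedBall z₀ r₀) :=
    ENNReal.toReal_pos (Metric.measure_closedBall_pos _ _ hr₀).ne' measure_closedBall_lt_top.ne
  have ha1 : 0 < (volume : Measure (Cfg dm)).real (Metric.closedBall (0 : Cfg dm) r₁) :=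
    ENNReal.toReal_pos (Metric.measure_closedBall_pos _ _ hr₁).ne' measure_closedBall_lt_top.ne
  refine ⟨c * (m₀ * ((volume : Measure (Cfg r)).real (Metric.closedBall z₀ r₀) * (I₀ / 2 *
    (volume : Measure (Cfg dm)).real (Metric.closedBall (0 : Cfg dm) r₁)))) ^ 2, by positivity, fun ε hε => ?_⟩
  obtain ⟨χ, hχ1, hχ2, hχ3, hχ4, hχ5, hχ6⟩ := hCh hCut Lc hG.ne hG.closed z₀ r₀ hr₀ hoff ε hε
  refine ⟨χ, hχ1, hχ2, hχ3, hχ4, hχ6, fun ε' hε' => ?_⟩
  have hχc : Continuous χ := hχ1.continuous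
  have hoffχ : ∀ η ∈ tsupport χ, η ∉ Coll Lc := fun η hη => Set.disjoint_left.1 hχ3 hη
  obtain ⟨A, hA⟩ : ∃ A : ℝ, A = ∫ η, (χ η * gss η) ^ 2 := ⟨_, rfl⟩
  have hA0 : 0 ≤ A := by rw [hA]; exact integral_nonneg fun η => sq_nonneg _
  obtain ⟨C, L, hC, hL, hCL⟩ := (hN r dm S.κ (tsupport χ) Ωm S.κ_pos hχ2 (fun η hη => hG.om_sym η (hoffχ η hη))
    (hG.om_cont.mono hoffχ)).2.2 (ε' ^ 2 / (4 * (A + 1))) (by positivity)
  obtain ⟨β₁, om, hβ1, hβ2, hβ3, hβ4, hβ5, hβ6, hβ7, hβ8⟩ :=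
    hmol (min (I₀ ^ 2 / (4 * v)) (ε' ^ 2 / (4 * (A + 1) * C))) (by positivity)
  obtain ⟨g, hg⟩ : ∃ g : Cfg ds → F, g = fun s => ((β₁ s : ℝ) : ℂ) • om s := ⟨_, rfl⟩
  have hgc : Continuous g := by rw [hg]; exact hβ6
  have hgs : HasCompactSupport g := by
    refine hβ2.mono fun s hs => ?_
    rw [Function.mem_support] at hs ⊢
    intro h0
    exact hs (by rw [hg]; simp [h0])
  have hgn : ∀ s, ‖g s‖ = β₁ s := by
    intro s
    rw [hg]
    simp only [norm_smul, Complex.norm_real, Real.norm_eq_abs, abs_of_nonneg (hβ3 s)]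
    by_cases h0 : β₁ s = 0
    · rw [h0, zero_mul]
    · rw [hβ5 s (subset_tsupport _ h0), mul_one]
  have hge : ∫ s, ‖w₀ s - g s‖ ^ 2 ≤ min (I₀ ^ 2 / (4 * v)) (ε' ^ 2 / (4 * (A + 1) * C)) := by
    rw [hg]
    exact hβ7
  have hIb : I₀ / 2 ≤ ∫ s in Metric.closedBall (0 : Cfg ds) r₁, β₁ s :=
    out459_beta w₀ g β₁ hG.w_mem hgc hgs hgn hβ1 r₁ I₀ v hI hv0 hv hI₀ (hge.trans (min_le_left _ _))
  obtain ⟨L', hL', hL'₁⟩ : ∃ L' : ℝ, L ≤ L' ∧ r₁ ≤ L' := ⟨max L r₁, le_max_left _ _, le_max_right _ _⟩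
  obtain ⟨β, hβ⟩ : ∃ β : Cfg r × Cfg ds × Cfg dm → ℝ, β = fun q => χ q.1 * (gss q.1 * (Nf S.κ (Ωm q.1) *
    Real.exp (-(1 / 2) * qX (Ωm q.1) q.2.2))) * ct459 L' q.2.2 * β₁ q.2.1 := ⟨_, rfl⟩
  have hmap : Set.MapsTo (fun q : Cfg r × Cfg ds × Cfg dm => (q.1, q.2.2)) {q | q.1 ∉ Coll Lc} {q | q.1 ∉ Coll Lc} :=
    fun q hq => hq
  have hpc : ContinuousOn (fun q : Cfg r × Cfg ds × Cfg dm => gss q.1 * (Nf S.κ (Ωm q.1) *
      Real.exp (-(1 / 2) * qX (Ωm q.1) q.2.2))) {q | q.1 ∉ Coll Lc} :=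
    hprof.comp (f := fun q : Cfg r × Cfg ds × Cfg dm => (q.1, q.2.2))
      (by fun_prop : Continuous fun q : Cfg r × Cfg ds × Cfg dm => (q.1, q.2.2)).continuousOn hmap
  have hβc : Continuous β := by
    refine out459_ext χ (Coll Lc) hG.closed hχ3 β ?_ ?_
    · rw [hβ]
      refine ContinuousOn.mul (ContinuousOn.mul (ContinuousOn.mul ?_ hpc) ?_) ?_
      · exact (hχc.comp continuous_fst).continuousOn
      · exact ((ct459_cont L').comp (continuous_snd.comp continuous_snd)).continuousOn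
      · exact (hβ1.comp (continuous_fst.comp continuous_snd)).continuousOn
    · intro q hq h0
      exact hq (by rw [hβ]; simp [h0])
  have hβs : HasCompactSupport β := by
    refine HasCompactSupport.intro (K := tsupport χ ×ˢ (tsupport β₁ ×ˢ Metric.closedBall (0 : Cfg dm) (L' + 1)))
      (hχ2.isCompact.prod (hβ2.isCompact.prod (isCompact_closedBall _ _))) ?_
    intro q hq
    by_contra h0
    rw [hβ] at h0
    simp only [mul_eq_zero, not_or] at h0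
    exact hq ⟨subset_tsupport _ h0.1.1.1, subset_tsupport _ h0.2, by
      rw [mem_closedBall_zero_iff]; exact ct459_zero L' _ h0.1.2⟩
  have hβ0 : ∀ q, 0 ≤ β q := by
    intro q
    by_cases h0 : χ q.1 = 0
    · rw [hβ]
      simp [h0]
    · have hq : q.1 ∉ Coll Lc := hoffχ _ (subset_tsupport _ h0)
      rw [hβ]
      exact mul_nonneg (mul_nonneg (mul_nonneg (hχ4 q.1).1 (mul_nonneg (Real.exp_pos _).le
        (mul_nonneg (hNpos _ hq).le (Real.exp_pos _).le))) (ct459_nn L' q.2.2).1) (hβ3 q.2.1)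
  have hβK : ∀ q, β q ≠ 0 → (q.1, q.2.1) ∈ tsupport χ ×ˢ tsupport β₁ := by
    intro q h0
    rw [hβ] at h0
    simp only [ne_eq, mul_eq_zero, not_or] at h0
    exact ⟨subset_tsupport _ h0.1.1.1, subset_tsupport _ h0.2⟩
  have hDir : Dir M φ ψ (tsupport χ ×ˢ tsupport β₁) (fun p => V p.1 (om p.2)) := by
    refine ⟨hχ2.isCompact.prod hβ2.isCompact, ?_, ?_, ?_⟩
    · refine ContinuousOn.clm_apply (f := fun p : Cfg r × Cfg ds => V p.1) (g := fun p : Cfg r × Cfg ds => om p.2) ?_ ?_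
      · exact hG.V_cont.comp continuous_fst.continuousOn (fun p hp => hoffχ _ hp.1)
      · exact hβ4.comp continuous_snd.continuousOn (fun p hp => hp.2)
    · intro q hq
      rw [hG.V_iso]
      exact hβ5 _ hq.2
    · intro U hU q hq q' hq' h
      exact hβ8 U hU q.1 q'.1 (hoffχ _ hq.1) (hoffχ _ hq'.1) q.2 hq.2 q'.2 hq'.2 h
  have hbeq : ∀ q : Cfg r × Cfg ds × Cfg dm, ((β q : ℝ) : ℂ) • (fun p : Cfg r × Cfg ds => V p.1 (om p.2)) (q.1, q.2.1) =
      ((χ q.1 * gss q.1 * (Nf S.κ (Ωm q.1) * Real.exp (-(1 / 2) * qX (Ωm q.1) q.2.2)) * ct459 L' q.2.2 : ℝ) : ℂ) •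
        V q.1 (g q.2.1) := by
    intro q
    rw [hβ, hg]
    simp only [map_smul, smul_smul, ← Complex.ofReal_mul]
    congr 2
    ring
  have hbc : Continuous (fun q : Cfg r × Cfg ds × Cfg dm =>
      ((β q : ℝ) : ℂ) • (fun p : Cfg r × Cfg ds => V p.1 (om p.2)) (q.1, q.2.1)) := by
    refine out459_ext χ (Coll Lc) hG.closed hχ3 _ ?_ ?_
    · refine ContinuousOn.congr (f := fun q : Cfg r × Cfg ds × Cfg dm => ((χ q.1 * (gss q.1 * (Nf S.κ (Ωm q.1) *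
        Real.exp (-(1 / 2) * qX (Ωm q.1) q.2.2))) * ct459 L' q.2.2 : ℝ) : ℂ) • V q.1 (g q.2.1)) ?_ ?_
      · refine ContinuousOn.smul (Complex.continuous_ofReal.comp_continuousOn (ContinuousOn.mul (ContinuousOn.mul ?_ hpc) ?_))
          (ContinuousOn.clm_apply ?_ ?_)
        · exact (hχc.comp continuous_fst).continuousOn
        · exact ((ct459_cont L').comp (continuous_snd.comp continuous_snd)).continuousOn
        · exact hG.V_cont.comp continuous_fst.continuousOn (fun p hp => hp)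
        · exact (hgc.comp (continuous_fst.comp continuous_snd)).continuousOn
      · intro q _
        refine (hbeq q).trans ?_
        simp only
        congr 2
        ring
    · intro q hq h0
      exact hq (by rw [hβ]; simp [h0])
  refine ⟨fun q => ((β q : ℝ) : ℂ) • (fun p : Cfg r × Cfg ds => V p.1 (om p.2)) (q.1, q.2.1), hbc, ?_, ?_, ?_, ?_⟩
  · refine hβs.mono fun q hq => ?_
    rw [Function.mem_support] at hq ⊢
    intro h0
    exact hq (by simp [h0])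
  · intro q hq
    refine (hβK q fun h0 => hq (by simp [h0])).1
  · have h := oute_err S.κ χ V w₀ g Ωm hG.V_iso hG.w_mem hG.w_one hχc hχ2 hgc hgs C (ε' ^ 2 / (4 * (A + 1) * C))
      (ε' ^ 2 / (4 * (A + 1))) L hC.le (by positivity) (fun η hη => (hCL η hη).1) (fun η hη => (hCL η hη).2) (ct459 L')
      (ct459_nn L') (fun X hX => ct459_one L' X (hX.trans hL')) (hge.trans (min_le_right _ _))
    have h2 : 2 * (∫ η, (χ η * gss η) ^ 2) * (C * (ε' ^ 2 / (4 * (A + 1) * C)) + ε' ^ 2 / (4 * (A + 1))) ≤ ε' ^ 2 := by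
      rw [← hA]
      have h3 : 2 * A * (C * (ε' ^ 2 / (4 * (A + 1) * C)) + ε' ^ 2 / (4 * (A + 1))) = A / (A + 1) * ε' ^ 2 := by
        field_simp
        ring
      rw [h3]
      have h4 : A / (A + 1) ≤ 1 := by
        rw [div_le_one (by linarith)]
        linarith
      nlinarith [sq_nonneg ε']
    have h5 : (fun q : Cfg r × Cfg ds × Cfg dm => ((β q : ℝ) : ℂ) • (fun p : Cfg r × Cfg ds => V p.1 (om p.2)) (q.1, q.2.1) -
        bG S.κ Ωm (fun η s => ((χ η * gss η : ℝ) : ℂ) • V η (w₀ s)) q) = (fun q : Cfg r × Cfg ds × Cfg dm =>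
        ((χ q.1 * gss q.1 * (Nf S.κ (Ωm q.1) * Real.exp (-(1 / 2) * qX (Ωm q.1) q.2.2)) * ct459 L' q.2.2 : ℝ) : ℂ) •
        V q.1 (g q.2.1) - bG S.κ Ωm (fun η s => ((χ η * gss η : ℝ) : ℂ) • V η (w₀ s)) q) := by
      funext q
      rw [hbeq q]
    rw [h5]
    have h6 := h.trans (ENNReal.ofReal_le_ofReal h2)
    rw [ENNReal.ofReal_pow hε'.le] at h6
    exact (ENNReal.pow_le_pow_left_iff two_ne_zero).1 h6
  · obtain ⟨R₀, hR₀, hR⟩ := hcore (tsupport χ ×ˢ tsupport β₁) (fun p => V p.1 (om p.2)) hDir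
      (fun q hq => hG.reg _ (hoffχ _ hq.1)) β hβc hβs hβ0 hβK hbc
    refine ⟨R₀, hR₀, fun R hR' => le_trans ?_ (hR R hR')⟩
    have hbox := out459_box z₀ r₀ r₁ m₀ hr₀₁ β β₁ hβc hβs hβ0 hβ1 (by
      intro q h1 h2 h3
      rw [hβ]
      simp only
      rw [hχ5 _ h1, ct459_one L' _ (h3.trans hL'₁), one_mul, mul_one]
      exact mul_le_mul_of_nonneg_right (hmin (q.1, q.2.2) h1 h3) (hβ3 _))
    refine mul_le_mul_of_nonneg_left (pow_le_pow_left₀ (by positivity) (le_trans ?_ hbox) 2) hc.le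
    gcongr

end out459

end Vale.Agent.P353.AN.LW
end

section

/-! # P353, all `N`, block LOW: `ChiStmt` (LOW8), cutoffs in `η` (helper593) -/

open MeasureTheory Filter Topology
open scoped ContDiff

namespace Vale.Agent.P353.AN.LW

open Vale.Agent.P353.Z Vale.Agent.P353.Z.U Vale.Agent.P353.Z.AN Vale.Agent.P353.AN.G Vale.Agent.P353.Z.AF

namespace Chi

lemma integrable_gss_sq (r : ℕ) : Integrable (fun η : Cfg r => gss η ^ 2) := by
  have h := (memLp_gss (r := r) (K := ℂ) 1).integrable_norm_pow (p := 2) (by norm_num)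
  refine h.congr (Eventually.of_forall fun x => ?_)
  simp [Complex.norm_real, abs_of_pos (gss_pos x)]

end Chi

theorem chi (r : ℕ) : ChiStmt r := by
  intro hCut Lc hLc hclosed z₀ r₁ hr₁ hball ε hε
  obtain ⟨η, hηs, hη01, hηd, hη1, hae, -⟩ := hCut Lc hLc
  -- the bump around `z₀`
  have hsub : Metric.closedBall z₀ r₁ ⊆ (Coll Lc)ᶜ := fun x hx => hball x (by
    rwa [Metric.mem_closedBall, dist_eq_norm] at hx)
  obtain ⟨δ, hδ, hδs⟩ := (isCompact_closedBall z₀ r₁).exists_cthickening_subset_open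
    hclosed.isOpen_compl hsub
  have hthick : Metric.closedBall z₀ (r₁ + δ) ⊆ (Coll Lc)ᶜ := by
    intro x hx
    apply hδs
    rw [cthickening_closedBall hδ.le hr₁.le]
    rwa [add_comm] at hx
  let B0 : ContDiffBump z₀ := ⟨r₁, r₁ + δ, hr₁, by linarith⟩
  let c : ℕ → ContDiffBump (0 : Cfg r) := fun n =>
    ⟨(n : ℝ) + 1, (n : ℝ) + 2, by positivity, by linarith⟩
  let χ : ℕ → Cfg r → ℝ := fun n y => 1 - (1 - η n y * c n y) * (1 - B0 y)
  have hχs : ∀ n, ContDiff ℝ ∞ (χ n) := fun n =>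
    contDiff_const.sub ((contDiff_const.sub ((hηs n).mul (c n).contDiff)).mul
      (contDiff_const.sub B0.contDiff))
  have hsupp : ∀ n y, χ n y ≠ 0 → y ∈ tsupport (η n) ∩ Metric.closedBall 0 ((n : ℝ) + 2) ∪
      Metric.closedBall z₀ (r₁ + δ) := by
    intro n y hy
    by_contra hcon
    apply hy
    rw [Set.mem_union, not_or] at hcon
    have h1 : B0 y = 0 := by
      by_contra h
      apply hcon.2
      have : y ∈ Function.support B0 := h
      rw [B0.support_eq] at this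
      exact Metric.ball_subset_closedBall this
    have h2 : η n y * c n y = 0 := by
      by_contra h
      apply hcon.1
      refine ⟨subset_tsupport _ (left_ne_zero_of_mul h), ?_⟩
      have : y ∈ Function.support (c n) := right_ne_zero_of_mul h
      rw [(c n).support_eq] at this
      exact Metric.ball_subset_closedBall this
    simp only [χ, h1, h2]
    ring
  have htsupp : ∀ n, tsupport (χ n) ⊆ tsupport (η n) ∩ Metric.closedBall 0 ((n : ℝ) + 2) ∪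
      Metric.closedBall z₀ (r₁ + δ) := by
    intro n
    refine closure_minimal (fun y hy => hsupp n y hy) ?_
    exact ((isClosed_tsupport _).inter Metric.isClosed_closedBall).union
      Metric.isClosed_closedBall
  have hcpt : ∀ n, HasCompactSupport (χ n) := by
    intro n
    refine IsCompact.of_isClosed_subset ?_ (isClosed_tsupport _) (htsupp n)
    exact ((isCompact_closedBall (0 : Cfg r) ((n : ℝ) + 2)).inter_left
      (isClosed_tsupport _)).union (isCompact_closedBall _ _)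
  have hdisj : ∀ n, Disjoint (tsupport (χ n)) (Coll Lc) := by
    intro n
    rw [Set.disjoint_left]
    intro y hy hyL
    rcases htsupp n hy with h | h
    · exact Set.disjoint_left.1 (hηd n) h.1 hyL
    · exact hthick h hyL
  have h01 : ∀ n y, 0 ≤ χ n y ∧ χ n y ≤ 1 := by
    intro n y
    have a1 := hη01 n y
    have a2 : 0 ≤ c n y := (c n).nonneg
    have a3 : c n y ≤ 1 := (c n).le_one
    have a4 : 0 ≤ B0 y := B0.nonneg
    have a5 : B0 y ≤ 1 := B0.le_one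
    have a6 : 0 ≤ η n y * c n y := mul_nonneg a1.1 a2
    have a7 : η n y * c n y ≤ 1 := mul_le_one₀ a1.2 a2 a3
    have a8 : 0 ≤ (1 - η n y * c n y) * (1 - B0 y) :=
      mul_nonneg (by linarith) (by linarith)
    have a9 : (1 - η n y * c n y) * (1 - B0 y) ≤ 1 :=
      mul_le_one₀ (by linarith) (by linarith) (by linarith)
    simp only [χ]
    constructor <;> linarith
  have hone : ∀ n y, ‖y - z₀‖ ≤ r₁ → χ n y = 1 := by
    intro n y hy
    have : B0 y = 1 := B0.one_of_mem_closedBall (by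
      rwa [Metric.mem_closedBall, dist_eq_norm])
    simp only [χ, this]
    ring
  have hlim : Tendsto (fun n => ∫ y : Cfg r, (1 - χ n y) ^ 2 * gss y ^ 2) atTop (𝓝 0) := by
    have h0 : (0 : ℝ) = ∫ _ : Cfg r, (0 : ℝ) := by simp
    rw [h0]
    refine tendsto_integral_of_dominated_convergence (fun y => gss y ^ 2) ?_
      (Chi.integrable_gss_sq r) ?_ ?_
    · intro n
      refine (Continuous.mul ?_ ?_).aestronglyMeasurable
      · exact (continuous_const.sub (hχs n).continuous).pow 2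
      · exact (contDiff_gss.continuous).pow 2
    · intro n
      refine Eventually.of_forall fun y => ?_
      have a1 := h01 n y
      rw [Real.norm_eq_abs, abs_of_nonneg (by positivity)]
      have a2 : (1 - χ n y) ^ 2 ≤ 1 := by
        apply pow_le_one₀ <;> linarith
      calc (1 - χ n y) ^ 2 * gss y ^ 2 ≤ 1 * gss y ^ 2 :=
            mul_le_mul_of_nonneg_right a2 (sq_nonneg _)
        _ = gss y ^ 2 := one_mul _
    · filter_upwards [hae] with y hy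
      refine tendsto_const_nhds.congr' ?_
      have e1 := hη1 y hy
      have e2 : ∀ᶠ n : ℕ in atTop, ‖y‖ ≤ (n : ℝ) + 1 := by
        filter_upwards [eventually_ge_atTop ⌈‖y‖⌉₊] with n hn
        have : ‖y‖ ≤ (n : ℝ) := Nat.ceil_le.1 hn
        linarith
      filter_upwards [e1, e2] with n h1 h2
      have h3 : c n y = 1 := (c n).one_of_mem_closedBall (by
        rwa [mem_closedBall_zero_iff])
      simp only [χ, h1, h3]
      ring
  obtain ⟨n, hn⟩ := (hlim.eventually (ge_mem_nhds hε)).exists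
  exact ⟨χ n, hχs n, hcpt n, hdisj n, h01 n, hone n, hn⟩

end Vale.Agent.P353.AN.LW
end

section

/-! # P353, all `N`, block LOW: LOW6, covariant regularisation of the ground state (helper535) -/

open MeasureTheory Filter Topology
open scoped ContDiff

namespace Vale.Agent.P353.AN.LW

open Vale.Agent.P353.Z Vale.Agent.P353.Z.U Vale.Agent.P353.Z.AN Vale.Agent.P353.AN.G Vale.Agent.P353.Z.Moll

variable {N d dh dm r ds : ℕ} {F : Type*} [NormedAddCommGroup F] [InnerProductSpace ℂ F]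

/-- radial mollification commutes with isometries -/
lemma mo_cov [CompleteSpace F] {δ : ℝ} {g : ℝ → ℝ} (hρ : IsMol δ (rad (dc := ds) g)) {f : Cfg ds → F}
    (hf : MemLp f 2 (volume : Measure (Cfg ds))) (A B : F →L[ℂ] F) (O : Cfg ds ≃ₗᵢ[ℝ] Cfg ds)
    (h : ∀ᵐ s, A (f s) = B (f (O s))) (s : Cfg ds) : A (mo (rad g) f s) = B (mo (rad g) f (O s)) := by
  have hi : ∀ x, Integrable (fun y => rad g (x - y) • f y) := fun x =>
    integrable_mo hρ.contDiff.continuous hρ.hcs (locInt hf) x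
  have e1 : A (mo (rad g) f s) = ∫ y, A (rad g (s - y) • f y) := by
    have := (A.restrictScalars ℝ).integral_comp_comm (hi s)
    exact this.symm
  have e2 : B (mo (rad g) f (O s)) = ∫ y, B (rad g (O s - y) • f y) := by
    have := (B.restrictScalars ℝ).integral_comp_comm (hi (O s))
    exact this.symm
  have e3 : ∫ y, B (rad g (O s - y) • f y) = ∫ y, B (rad g (O s - O y) • f (O y)) :=
    (O.measurePreserving.integral_comp O.toHomeomorph.measurableEmbedding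
      (fun y => B (rad g (O s - y) • f y))).symm
  rw [e1, e2, e3]
  refine integral_congr_ae ?_
  filter_upwards [h] with y hy
  have h1 : rad g (O s - O y) = rad g (s - y) := by
    unfold rad
    rw [← map_sub, O.norm_map]
  rw [h1]
  have h2 : ∀ (L : F →L[ℂ] F) (c : ℝ) (v : F), L (c • v) = c • L v := fun L c v =>
    (L.restrictScalars ℝ).map_smul c v
  rw [h2, h2, hy]

/-- a function bounded by `κ` on a ball and zero outside -/
lemma nsq_ball {w : Cfg ds → F} {κ R : ℝ} (h1 : ∀ s, ‖w s‖ ≤ κ) (h2 : ∀ s, R < ‖s‖ → w s = 0) :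
    nsq w ≤ κ ^ 2 * (volume : Measure (Cfg ds)).real (Metric.closedBall 0 R) := by
  have hfin : (volume : Measure (Cfg ds)) (Metric.closedBall 0 R) < ⊤ := measure_closedBall_lt_top
  have hi : Integrable ((Metric.closedBall (0 : Cfg ds) R).indicator fun _ => κ ^ 2) volume :=
    (integrable_indicator_iff Metric.isClosed_closedBall.measurableSet).2
      (integrableOn_const hfin.ne)
  have h3 : nsq w ≤ ∫ s, (Metric.closedBall (0 : Cfg ds) R).indicator (fun _ => κ ^ 2) s := by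
    refine integral_mono_of_nonneg (Eventually.of_forall fun s => sq_nonneg _) hi (Eventually.of_forall fun s => ?_)
    simp only
    by_cases hs : s ∈ Metric.closedBall (0 : Cfg ds) R
    · rw [Set.indicator_of_mem hs]
      exact pow_le_pow_left₀ (norm_nonneg _) (h1 s) 2
    · rw [Set.indicator_of_notMem hs]
      rw [mem_closedBall_zero_iff, not_le] at hs
      rw [h2 s hs, norm_zero]
      norm_num
  refine h3.trans (le_of_eq ?_)
  rw [integral_indicator Metric.isClosed_closedBall.measurableSet, setIntegral_const, smul_eq_mul, mul_comm]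

/-- **LOW6 MOL** -/
theorem mol (M : BFSS.Model N d F) (S : Setup d F) (φ : Spl dh dm d) (ψ : Spz r ds dh) : MolStmt M S φ ψ := by
  intro hF _ hA Lc V w₀ Ωm H ε hε
  have hcs : CompleteSpace F := FiniteDimensional.complete ℂ F
  obtain ⟨ε₁, hε₁, hm⟩ := mo_approx H.w_mem (δ := ε / 16) (by positivity)
  obtain ⟨g, hg, hρ⟩ := exists_mol (dc := ds) hε₁
  have hm' := hm ε₁ le_rfl _ hρ
  obtain ⟨K, -, hrc⟩ := exists_rc
  obtain ⟨R, hR1, hR2⟩ : ∃ R : ℝ, 1 ≤ R ∧ ∫ x, (if R / 4 ≤ ‖x‖ then ‖w₀ x‖ ^ 2 else 0) ≤ ε / 16 := by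
    have h1 := (small_tail H.w_mem).eventually (Iic_mem_nhds (show (0 : ℝ) < ε / 16 by positivity))
    obtain ⟨R, h2, h3⟩ := (h1.and (eventually_ge_atTop (1 : ℝ))).exists
    exact ⟨R, h3, h2⟩
  have hR0 : 0 < R := by linarith
  obtain ⟨h, hh⟩ := hrc R hR0
  have hmo : MemLp (mo (rad g) w₀) 2 (volume : Measure (Cfg ds)) := (nsq_mo_le hρ H.w_mem).1
  have hmc : Continuous (mo (rad g) w₀) := (contDiff_mo hρ.contDiff hρ.hcs (locInt H.w_mem)).continuous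
  obtain ⟨w₁, hw₁⟩ : ∃ w₁ : Cfg ds → F, w₁ = fun s => ((rad h s : ℝ) : ℂ) • mo (rad g) w₀ s := ⟨_, rfl⟩
  have hd : nsq (fun s => w₁ s - w₀ s) ≤ ε / 4 := by
    have h1 := InvL.nsq_cut_sub hh hR0 H.w_mem hmo
    rw [hw₁]
    linarith
  have hc : Continuous w₁ := by
    rw [hw₁]
    exact ((Setup.contDiff_ofReal (contDiff_rad hh.contDiff)).continuous).smul hmc
  have hz : ∀ s, R ≤ ‖s‖ → w₁ s = 0 := by
    intro s hs
    rw [hw₁]
    simp only
    rw [hh.zero s hs, Complex.ofReal_zero, zero_smul]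
  have hcomp : HasCompactSupport w₁ := by
    refine HasCompactSupport.intro (isCompact_closedBall (0 : Cfg ds) R) fun s hs => ?_
    rw [mem_closedBall_zero_iff, not_le] at hs
    exact hz s hs.le
  have hw1m : MemLp w₁ 2 (volume : Measure (Cfg ds)) := hc.memLp_of_hasCompactSupport hcomp
  obtain ⟨v, hv⟩ : ∃ v : ℝ, v = (volume : Measure (Cfg ds)).real (Metric.closedBall 0 R) := ⟨_, rfl⟩
  have hv0 : 0 ≤ v := hv ▸ measureReal_nonneg
  obtain ⟨κ, hκ⟩ : ∃ κ : ℝ, κ = Real.sqrt (ε / (4 * (v + 1))) := ⟨_, rfl⟩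
  have hκ0 : 0 < κ := hκ ▸ Real.sqrt_pos.2 (by positivity)
  have hκ2 : κ ^ 2 * v ≤ ε / 4 := by
    rw [hκ, Real.sq_sqrt (by positivity), div_mul_eq_mul_div, div_le_div_iff₀ (by positivity) (by norm_num)]
    nlinarith
  -- the scalar part and the direction
  obtain ⟨β₁, hβ⟩ : ∃ β₁ : Cfg ds → ℝ, β₁ = fun s => max (‖w₁ s‖ - κ) 0 := ⟨_, rfl⟩
  obtain ⟨om, hom⟩ : ∃ om : Cfg ds → F, om = fun s => ((‖w₁ s‖⁻¹ : ℝ) : ℂ) • w₁ s := ⟨_, rfl⟩
  have hβc : Continuous β₁ := by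
    rw [hβ]
    exact (hc.norm.sub continuous_const).max continuous_const
  have hβz : ∀ s, w₁ s = 0 → β₁ s = 0 := by
    intro s hs
    rw [hβ]
    simp only
    rw [hs, norm_zero, max_eq_right]
    linarith
  have hts : ∀ s ∈ tsupport β₁, κ ≤ ‖w₁ s‖ := by
    have h1 : tsupport β₁ ⊆ {s | κ ≤ ‖w₁ s‖} := by
      refine closure_minimal (fun s hs => ?_) (isClosed_le continuous_const hc.norm)
      by_contra h2
      apply hs
      have h3 : ‖w₁ s‖ < κ := not_le.1 h2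
      rw [hβ]
      simp only
      rw [max_eq_right]
      linarith
    exact fun s hs => h1 hs
  have hprod : (fun s => ((β₁ s : ℝ) : ℂ) • om s) = fun s =>
      ((max (‖w₁ s‖ - κ) 0 / max ‖w₁ s‖ κ : ℝ) : ℂ) • w₁ s := by
    funext s
    rw [hβ, hom]
    simp only
    rw [smul_smul, ← Complex.ofReal_mul]
    by_cases hs : κ ≤ ‖w₁ s‖
    · rw [max_eq_left hs, div_eq_mul_inv]
    · rw [max_eq_right (a := ‖w₁ s‖ - κ) (by linarith), zero_mul, zero_div]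
  have hpc : Continuous fun s => ((β₁ s : ℝ) : ℂ) • om s := by
    rw [hprod]
    refine Continuous.smul (Complex.continuous_ofReal.comp ?_) hc
    refine ((hc.norm.sub continuous_const).max continuous_const).div (hc.norm.max continuous_const) fun s => ?_
    exact (lt_of_lt_of_le hκ0 (le_max_right _ _)).ne'
  have hdiff : ∀ s, ‖w₁ s - ((β₁ s : ℝ) : ℂ) • om s‖ ≤ κ := by
    intro s
    have e1 : w₁ s - ((β₁ s : ℝ) : ℂ) • om s =
        ((1 - max (‖w₁ s‖ - κ) 0 / max ‖w₁ s‖ κ : ℝ) : ℂ) • w₁ s := by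
      rw [congrFun hprod s, Complex.ofReal_sub, Complex.ofReal_one, sub_smul, one_smul]
    rw [e1, norm_smul, Complex.norm_real, Real.norm_eq_abs]
    by_cases hs : κ ≤ ‖w₁ s‖
    · have hp : 0 < ‖w₁ s‖ := lt_of_lt_of_le hκ0 hs
      rw [max_eq_left hs, max_eq_left (by linarith : (0 : ℝ) ≤ ‖w₁ s‖ - κ)]
      have e2 : 1 - (‖w₁ s‖ - κ) / ‖w₁ s‖ = κ / ‖w₁ s‖ := by
        field_simp
        ring
      rw [e2, abs_of_nonneg (by positivity), div_mul_cancel₀ _ hp.ne']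
    · rw [max_eq_right (a := ‖w₁ s‖ - κ) (by linarith), zero_div, sub_zero, abs_one, one_mul]
      linarith
  have hdz : ∀ s, R < ‖s‖ → w₁ s - ((β₁ s : ℝ) : ℂ) • om s = 0 := by
    intro s hs
    have h1 := hz s hs.le
    rw [hβz s h1, h1, Complex.ofReal_zero, zero_smul, sub_zero]
  have hdm : MemLp (fun s => w₁ s - ((β₁ s : ℝ) : ℂ) • om s) 2 (volume : Measure (Cfg ds)) := by
    refine (hc.sub hpc).memLp_of_hasCompactSupport ?_
    refine HasCompactSupport.intro (isCompact_closedBall (0 : Cfg ds) R) fun s hs => ?_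
    rw [mem_closedBall_zero_iff, not_le] at hs
    exact hdz s hs
  have hcov : ∀ U, Nrm M φ ψ U → ∀ η η', η ∉ Coll Lc → η' ∉ Coll Lc → M.act U (ezs φ ψ η 0) = ezs φ ψ η' 0 →
      ∀ s, M.S U (V η (w₁ s)) = V η' (w₁ (Os M φ ψ U s)) := by
    intro U hU η η' hη hη' hact s
    have h1 := H.cov U hU η η' hη hη' hact
    have h2 := mo_cov hρ H.w_mem ((M.S U).comp (V η)) (V η') (OsI hA hU) h1 s
    rw [OsI_apply] at h2
    have h3 : rad h (Os M φ ψ U s) = rad h s := by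
      unfold rad
      rw [← OsI_apply hA hU, (OsI hA hU).norm_map]
    rw [hw₁]
    simp only
    rw [h3, map_smul, map_smul, map_smul]
    congr 1
  refine ⟨β₁, om, hβc, ?_, fun s => ?_, ?_, ?_, hpc, ?_, ?_⟩
  · refine HasCompactSupport.intro (isCompact_closedBall (0 : Cfg ds) R) fun s hs => ?_
    rw [mem_closedBall_zero_iff, not_le] at hs
    exact hβz s (hz s hs.le)
  · rw [hβ]
    exact le_max_right _ _
  · rw [hom]
    refine ContinuousOn.smul ?_ hc.continuousOn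
    refine Complex.continuous_ofReal.comp_continuousOn (hc.norm.continuousOn.inv₀ fun s hs => ?_)
    exact (lt_of_lt_of_le hκ0 (hts s hs)).ne'
  · intro s hs
    have hp : 0 < ‖w₁ s‖ := lt_of_lt_of_le hκ0 (hts s hs)
    rw [hom]
    simp only
    rw [norm_smul, Complex.norm_real, Real.norm_of_nonneg (by positivity), inv_mul_cancel₀ hp.ne']
  · have e1 : (∫ s, ‖w₀ s - ((β₁ s : ℝ) : ℂ) • om s‖ ^ 2) =
        nsq (fun s => (w₀ s - w₁ s) + (w₁ s - ((β₁ s : ℝ) : ℂ) • om s)) := by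
      unfold nsq
      refine integral_congr_ae (Eventually.of_forall fun s => ?_)
      simp only
      congr 2
      abel
    have e2 : nsq (fun s => w₀ s - w₁ s) = nsq (fun s => w₁ s - w₀ s) := by
      unfold nsq
      refine integral_congr_ae (Eventually.of_forall fun s => ?_)
      simp only
      rw [norm_sub_rev]
    rw [e1]
    refine (nsq_add_le (H.w_mem.sub hw1m) hdm).trans ?_
    have h1 := nsq_ball hdiff hdz
    rw [← hv] at h1
    change 2 * nsq (fun s => w₀ s - w₁ s) + _ ≤ _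
    rw [e2]
    linarith
  · intro U hU η η' hη hη' s hs s' hs' hact
    obtain ⟨h1, h2⟩ := act_split hA hU hact
    have h3 := hcov U hU η η' hη hη' h1 s
    rw [h2] at h3
    have h4 : ‖w₁ s‖ = ‖w₁ s'‖ := by
      have h5 := congrArg norm h3
      rwa [M.S_isometry, H.V_iso, H.V_iso] at h5
    rw [hom]
    simp only
    rw [map_smul, map_smul, map_smul, h3, h4]

end Vale.Agent.P353.AN.LW
end

section

/-! # P353, all `N`, block LOW: LOW7 NRM (Gaussian normalisation and weighted moments on a compact set) -/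

open MeasureTheory Filter Topology
open scoped ContDiff

namespace Vale.Agent.P353.AN.LW

open Vale.Agent.P353.Z Vale.Agent.P353.Z.U Vale.Agent.P353.Z.AN Vale.Agent.P353.AN.G

/-- quadratic form of a matrix -/
private theorem nr_qf {n : ℕ} (A : Matrix (Fin n) (Fin n) ℝ) (u : Fin n → ℝ) :
    ∑ B, ∑ C, u B * A B C * u C = u ⬝ᵥ (A.mulVec u) := by
  simp only [dotProduct, Matrix.mulVec, Finset.mul_sum, mul_assoc]

/-- uniform lower bound -/
private theorem nr_lower {r n : ℕ} (K : Set (Cfg r)) (Ωm : Cfg r → Matrix (Fin n) (Fin n) ℝ) (hK : IsCompact K)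
    (hpos : ∀ η ∈ K, ∀ u : Fin n → ℝ, u ≠ 0 → 0 < u ⬝ᵥ ((Ωm η).mulVec u)) (hc : ContinuousOn Ωm K) :
    ∃ c : ℝ, 0 < c ∧ ∀ η ∈ K, ∀ u : Fin n → ℝ, c * (u ⬝ᵥ u) ≤ u ⬝ᵥ ((Ωm η).mulVec u) := by
  set T : Set (Cfg r × EuclideanSpace ℝ (Fin n)) := K ×ˢ Metric.sphere 0 1 with hT
  have hTc : IsCompact T := hK.prod (isCompact_sphere 0 1)
  have hent : ∀ B C, ContinuousOn (fun η => Ωm η B C) K := fun B C =>
    (continuous_id.matrix_elem B C).comp_continuousOn hc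
  have hf : ContinuousOn (fun p : Cfg r × EuclideanSpace ℝ (Fin n) => ∑ B, ∑ C, p.2 B * Ωm p.1 B C * p.2 C) T := by
    refine continuousOn_finsetSum _ fun B _ => continuousOn_finsetSum _ fun C _ => ?_
    refine ContinuousOn.mul (ContinuousOn.mul ?_ ?_) ?_
    · exact (((EuclideanSpace.proj (𝕜 := ℝ) B).continuous).comp continuous_snd).continuousOn
    · exact (hent B C).comp continuous_fst.continuousOn fun p hp => hp.1
    · exact (((EuclideanSpace.proj (𝕜 := ℝ) C).continuous).comp continuous_snd).continuousOn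
  have hn : ∀ u : EuclideanSpace ℝ (Fin n), (u.ofLp ⬝ᵥ u.ofLp) = ‖u‖ ^ 2 := by
    intro u
    rw [EuclideanSpace.real_norm_sq_eq]
    simp only [dotProduct, sq]
  have key : ∀ c : ℝ, (∀ p ∈ T, c ≤ ∑ B, ∑ C, p.2 B * Ωm p.1 B C * p.2 C) →
      ∀ η ∈ K, ∀ u : Fin n → ℝ, c * (u ⬝ᵥ u) ≤ u ⬝ᵥ ((Ωm η).mulVec u) := by
    intro c hcT η hη u
    by_cases hu : u = 0
    · rw [hu]
      simp
    set w : EuclideanSpace ℝ (Fin n) := WithLp.toLp 2 u with hw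
    have hw0 : w ≠ 0 := by
      intro h
      apply hu
      have := congrArg WithLp.ofLp h
      simpa [hw] using this
    have hwn : 0 < ‖w‖ := norm_pos_iff.2 hw0
    have h1 := hcT (η, ‖w‖⁻¹ • w) ⟨hη, by
      rw [mem_sphere_zero_iff_norm, norm_smul, norm_inv, norm_norm, inv_mul_cancel₀ hwn.ne']⟩
    have h2 : ∑ B, ∑ C, (‖w‖⁻¹ • w) B * Ωm η B C * (‖w‖⁻¹ • w) C =
        (‖w‖⁻¹) ^ 2 * (u ⬝ᵥ ((Ωm η).mulVec u)) := by
      rw [← nr_qf]
      simp only [Finset.mul_sum]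
      refine Finset.sum_congr rfl fun B _ => Finset.sum_congr rfl fun C _ => ?_
      simp only [PiLp.smul_apply, smul_eq_mul, hw]
      ring
    simp only [h2] at h1
    have h3 : u ⬝ᵥ u = ‖w‖ ^ 2 := by
      rw [← hn w]
    rw [h3]
    calc c * ‖w‖ ^ 2 ≤ ((‖w‖⁻¹) ^ 2 * (u ⬝ᵥ ((Ωm η).mulVec u))) * ‖w‖ ^ 2 :=
          mul_le_mul_of_nonneg_right h1 (by positivity)
      _ = u ⬝ᵥ ((Ωm η).mulVec u) := by field_simp
  rcases T.eq_empty_or_nonempty with hE | hne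
  · exact ⟨1, one_pos, key 1 fun p hp => by rw [hE] at hp; exact absurd hp (Set.notMem_empty _)⟩
  · obtain ⟨p0, hp0, hmin⟩ := hTc.exists_isMinOn hne hf
    refine ⟨∑ B, ∑ C, p0.2 B * Ωm p0.1 B C * p0.2 C, ?_, key _ fun p hp => hmin hp⟩
    rw [nr_qf (Ωm p0.1) p0.2.ofLp]
    refine hpos _ hp0.1 _ fun h => ?_
    have h1 : ‖p0.2‖ = 1 := mem_sphere_zero_iff_norm.1 hp0.2
    have h2 := hn p0.2
    rw [h, h1] at h2
    simp at h2

/-- lower bound for the cube -/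
private theorem nr_cube {n : ℕ} (A : Matrix (Fin n) (Fin n) ℝ) (hA : A.transpose = A) {c : ℝ} (hc : 0 < c)
    (h : ∀ u : Fin n → ℝ, c * (u ⬝ᵥ u) ≤ u ⬝ᵥ (A.mulVec u)) (a : Fin n → ℝ) :
    c ^ 3 * (a ⬝ᵥ a) ≤ a ⬝ᵥ ((A * A * A).mulVec a) := by
  have hs : ∀ x y : Fin n → ℝ, x ⬝ᵥ (A.mulVec y) = (A.mulVec x) ⬝ᵥ y := by
    intro x y
    rw [Matrix.dotProduct_mulVec, ← Matrix.mulVec_transpose, hA]
  have h1 : a ⬝ᵥ ((A * A * A).mulVec a) = (A.mulVec a) ⬝ᵥ (A.mulVec (A.mulVec a)) := by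
    rw [← Matrix.mulVec_mulVec, ← Matrix.mulVec_mulVec, hs]
  have h2 := h (A.mulVec a)
  have h3 : 0 ≤ (A.mulVec a - c • a) ⬝ᵥ (A.mulVec a - c • a) :=
    Finset.sum_nonneg fun i _ => mul_self_nonneg _
  have h4 : (A.mulVec a - c • a) ⬝ᵥ (A.mulVec a - c • a) =
      (A.mulVec a) ⬝ᵥ (A.mulVec a) - 2 * c * (a ⬝ᵥ (A.mulVec a)) + c ^ 2 * (a ⬝ᵥ a) := by
    rw [sub_dotProduct, dotProduct_sub, dotProduct_sub, smul_dotProduct, dotProduct_smul, smul_dotProduct,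
      dotProduct_smul, dotProduct_comm (A.mulVec a) a]
    simp only [smul_eq_mul]
    ring
  have h5 := h a
  rw [h1]
  have h6 : c ^ 2 * (a ⬝ᵥ a) ≤ (A.mulVec a) ⬝ᵥ (A.mulVec a) := by nlinarith
  calc c ^ 3 * (a ⬝ᵥ a) = c * (c ^ 2 * (a ⬝ᵥ a)) := by ring
    _ ≤ c * ((A.mulVec a) ⬝ᵥ (A.mulVec a)) := mul_le_mul_of_nonneg_left h6 hc.le
    _ ≤ _ := h2

/-- Gaussian integrals depending on a parameter -/
private theorem nr_int {r : ℕ} {E : Type*} [NormedAddCommGroup E] [InnerProductSpace ℝ E] [FiniteDimensional ℝ E]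
    [MeasurableSpace E] [BorelSpace E] (K : Set (Cfg r)) (Q : Cfg r → E → ℝ) {b : ℝ} (hb : 0 < b)
    (h1 : ∀ η ∈ K, ∀ x, b * ‖x‖ ^ 2 ≤ Q η x) (h2 : ∀ x, ContinuousOn (fun η => Q η x) K)
    (h3 : ∀ η, Continuous (Q η)) :
    ContinuousOn (fun η => ∫ x, Real.exp (-Q η x)) K ∧ ∀ η ∈ K, 0 < ∫ x, Real.exp (-Q η x) := by
  have hi := Poi.int_gauss (E := E) hb
  have hle : ∀ η ∈ K, ∀ x, ‖Real.exp (-Q η x)‖ ≤ Real.exp (-b * ‖x‖ ^ 2) := by
    intro η hη x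
    rw [Real.norm_of_nonneg (Real.exp_pos _).le]
    exact Real.exp_le_exp.2 (by have := h1 η hη x; linarith)
  refine ⟨continuousOn_of_dominated (bound := fun x => Real.exp (-b * ‖x‖ ^ 2))
    (fun η _ => (h3 η).neg.rexp.aestronglyMeasurable) (fun η hη => Eventually.of_forall (hle η hη)) hi
    (Eventually.of_forall fun x => (h2 x).neg.rexp), fun η hη => ?_⟩
  exact integral_exp_pos (hi.mono' (h3 η).neg.rexp.aestronglyMeasurable (Eventually.of_forall (hle η hη)))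

private theorem nr_Gs {r dm : ℕ} {κ : ℝ} (hκ : 0 < κ) (K : Set (Cfg r)) (Ωm : Cfg r → Matrix (Fin dm) (Fin dm) ℝ)
    (hs : ∀ η ∈ K, (Ωm η).transpose = Ωm η) {c : ℝ} (hc : 0 < c)
    (hlow : ∀ η ∈ K, ∀ u : Fin dm → ℝ, c * (u ⬝ᵥ u) ≤ u ⬝ᵥ ((Ωm η).mulVec u)) (hcont : ContinuousOn Ωm K)
    {s : ℝ} (hs0 : 0 < s) :
    ContinuousOn (fun η => Gs κ (Ωm η) s) K ∧ ∀ η ∈ K, 0 < Gs κ (Ωm η) s := by
  have h3 : ContinuousOn (fun η => Ωm η * Ωm η * Ωm η) K := (hcont.mul hcont).mul hcont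
  have hb : 0 < s * (κ ^ 2)⁻¹ * c ^ 3 := by positivity
  refine nr_int K (fun η (a : EuclideanSpace ℝ (Fin dm)) => s * (κ ^ 2)⁻¹ *
    ∑ B, ∑ C, a B * (Ωm η * Ωm η * Ωm η) B C * a C) hb ?_ ?_ ?_
  · intro η hη a
    have h1 := nr_cube (Ωm η) (hs η hη) hc (hlow η hη) a.ofLp
    have h2 : (a.ofLp ⬝ᵥ a.ofLp) = ‖a‖ ^ 2 := by
      rw [EuclideanSpace.real_norm_sq_eq]
      simp only [dotProduct, sq]
    rw [h2] at h1
    rw [nr_qf (Ωm η * Ωm η * Ωm η) a.ofLp, mul_assoc (s * (κ ^ 2)⁻¹)]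
    exact mul_le_mul_of_nonneg_left h1 (by positivity)
  · intro a
    refine continuousOn_const.mul (continuousOn_finsetSum _ fun B _ => continuousOn_finsetSum _ fun C _ => ?_)
    exact (continuousOn_const.mul ((continuous_id.matrix_elem B C).comp_continuousOn h3)).mul continuousOn_const
  · intro η
    refine continuous_const.mul (continuous_finsetSum _ fun B _ => continuous_finsetSum _ fun C _ => ?_)
    exact (((EuclideanSpace.proj (𝕜 := ℝ) B).continuous).mul continuous_const).mul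
      (EuclideanSpace.proj (𝕜 := ℝ) C).continuous

private theorem nr_qX {r dm : ℕ} (K : Set (Cfg r)) (Ωm : Cfg r → Matrix (Fin dm) (Fin dm) ℝ) {c : ℝ}
    (hlow : ∀ η ∈ K, ∀ u : Fin dm → ℝ, c * (u ⬝ᵥ u) ≤ u ⬝ᵥ ((Ωm η).mulVec u)) :
    ∀ η ∈ K, ∀ X : Cfg dm, c * ‖X‖ ^ 2 ≤ qX (Ωm η) X := by
  intro η hη X
  rw [EuclideanSpace.real_norm_sq_eq, Fintype.sum_prod_type, qX, Finset.mul_sum]
  refine Finset.sum_le_sum fun i _ => ?_
  have h1 := hlow η hη (fun B => X (i, B))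
  rw [← nr_qf] at h1
  refine le_trans (le_of_eq ?_) h1
  simp only [dotProduct, sq]

private theorem nr_qXc {dm : ℕ} (A : Matrix (Fin dm) (Fin dm) ℝ) : Continuous (qX A) := by
  unfold qX
  refine continuous_finsetSum _ fun i _ => continuous_finsetSum _ fun B _ => continuous_finsetSum _ fun C _ => ?_
  exact (((EuclideanSpace.proj (𝕜 := ℝ) (i, B)).continuous).mul continuous_const).mul
      (EuclideanSpace.proj (𝕜 := ℝ) (i, C)).continuous

private theorem nr_Kx {r dm : ℕ} (K : Set (Cfg r)) (Ωm : Cfg r → Matrix (Fin dm) (Fin dm) ℝ)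
    {c : ℝ} (hc : 0 < c)
    (hlow : ∀ η ∈ K, ∀ u : Fin dm → ℝ, c * (u ⬝ᵥ u) ≤ u ⬝ᵥ ((Ωm η).mulVec u)) (hcont : ContinuousOn Ωm K) :
    ContinuousOn (fun η => Kx (Ωm η)) K ∧ ∀ η ∈ K, 0 < Kx (Ωm η) := by
  refine nr_int K (fun η (X : Cfg dm) => qX (Ωm η) X) hc (nr_qX K Ωm hlow) ?_ fun η => nr_qXc _
  intro X
  unfold qX
  refine continuousOn_finsetSum _ fun i _ => continuousOn_finsetSum _ fun B _ => continuousOn_finsetSum _ fun C _ => ?_
  exact (continuousOn_const.mul ((continuous_id.matrix_elem B C).comp_continuousOn hcont)).mul continuousOn_const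

/-- elementary bound: polynomial times exponential -/
private theorem nr_poly {c : ℝ} (hc : 0 < c) (n : ℕ) : ∃ D : ℝ, 0 < D ∧ ∀ t : ℝ, 0 ≤ t →
    (1 + t) ^ n * Real.exp (-(c * t)) ≤ D * Real.exp (-(c / 2) * t) := by
  refine ⟨(n.factorial : ℝ) * (2 / c) ^ n * Real.exp (c / 2), by positivity, fun t ht => ?_⟩
  have h1 := Real.pow_div_factorial_le_exp (c / 2 * (1 + t)) (by positivity) n
  have h2 : (1 + t) ^ n ≤ (n.factorial : ℝ) * (2 / c) ^ n * Real.exp (c / 2 * (1 + t)) := by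
    rw [div_le_iff₀ (by positivity)] at h1
    calc (1 + t) ^ n = (2 / c) ^ n * (c / 2 * (1 + t)) ^ n := by
          rw [← mul_pow]
          congr 1
          field_simp
      _ ≤ (2 / c) ^ n * (Real.exp (c / 2 * (1 + t)) * (n.factorial : ℝ)) :=
          mul_le_mul_of_nonneg_left h1 (by positivity)
      _ = _ := by ring
  calc (1 + t) ^ n * Real.exp (-(c * t))
      ≤ ((n.factorial : ℝ) * (2 / c) ^ n * Real.exp (c / 2 * (1 + t))) * Real.exp (-(c * t)) :=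
        mul_le_mul_of_nonneg_right h2 (Real.exp_pos _).le
    _ = (n.factorial : ℝ) * (2 / c) ^ n * (Real.exp (c / 2 * (1 + t)) * Real.exp (-(c * t))) := by ring
    _ = (n.factorial : ℝ) * (2 / c) ^ n * (Real.exp (c / 2) * Real.exp (-(c / 2) * t)) := by
        rw [← Real.exp_add, ← Real.exp_add]
        congr 2
        ring
    _ = _ := by ring

/-- **LOW7 NRM** -/
theorem nrm : NrmStmt := by
  intro r dm κ K Ωm hκ hK hpd hcont
  obtain ⟨c, hc, hlow⟩ := nr_lower K Ωm hK (fun η hη => (hpd η hη).2) hcont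
  have hG1 := nr_Gs hκ K Ωm (fun η hη => (hpd η hη).1) hc hlow hcont one_pos
  have hG2 := nr_Gs hκ K Ωm (fun η hη => (hpd η hη).1) hc hlow hcont (s := 1 / 2) (by norm_num)
  have hK1 := nr_Kx K Ωm hc hlow hcont
  have hden : ∀ η ∈ K, 0 < Gs κ (Ωm η) (1 / 2) ^ 2 * Kx (Ωm η) := fun η hη =>
    mul_pos (pow_pos (hG2.2 η hη) 2) (hK1.2 η hη)
  have hNc : ContinuousOn (fun η => Nf κ (Ωm η)) K := by
    unfold Nf
    exact (hG1.1.div ((hG2.1.pow 2).mul hK1.1) fun η hη => (hden η hη).ne').sqrt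
  have hNp : ∀ η ∈ K, 0 < Nf κ (Ωm η) := fun η hη =>
    Real.sqrt_pos.2 (div_pos (hG1.2 η hη) (hden η hη))
  refine ⟨hNc, hNp, fun ε hε => ?_⟩
  obtain ⟨Nm, hNm⟩ : ∃ Nm : ℝ, ∀ η ∈ K, Nf κ (Ωm η) ≤ Nm := by
    obtain ⟨Nm, h⟩ := hK.bddAbove_image hNc
    exact ⟨Nm, fun η hη => h ⟨η, hη, rfl⟩⟩
  obtain ⟨D, hD, hpoly⟩ := nr_poly hc (dm + 1)
  set D' : ℝ := (|Nm| + 1) ^ 2 * D with hD'
  have hD'p : 0 < D' := by positivity
  have hpt : ∀ η ∈ K, ∀ X : Cfg dm, (1 + ‖X‖ ^ 2) ^ (dm + 1) *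
      (Nf κ (Ωm η) * Real.exp (-(1 / 2) * qX (Ωm η) X)) ^ 2 ≤ D' * Real.exp (-(c / 2) * ‖X‖ ^ 2) := by
    intro η hη X
    have h1 : Nf κ (Ωm η) ^ 2 ≤ (|Nm| + 1) ^ 2 := by
      refine pow_le_pow_left₀ (hNp η hη).le ?_ 2
      have := hNm η hη
      have := le_abs_self Nm
      linarith
    have h2 : Real.exp (-(1 / 2) * qX (Ωm η) X) ^ 2 ≤ Real.exp (-(c * ‖X‖ ^ 2)) := by
      rw [← Real.exp_nat_mul]
      refine Real.exp_le_exp.2 ?_
      have := nr_qX K Ωm hlow η hη X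
      push_cast
      linarith
    calc (1 + ‖X‖ ^ 2) ^ (dm + 1) * (Nf κ (Ωm η) * Real.exp (-(1 / 2) * qX (Ωm η) X)) ^ 2
        = Nf κ (Ωm η) ^ 2 * ((1 + ‖X‖ ^ 2) ^ (dm + 1) * Real.exp (-(1 / 2) * qX (Ωm η) X) ^ 2) := by ring
      _ ≤ (|Nm| + 1) ^ 2 * ((1 + ‖X‖ ^ 2) ^ (dm + 1) * Real.exp (-(c * ‖X‖ ^ 2))) :=
          mul_le_mul h1 (mul_le_mul_of_nonneg_left h2 (by positivity)) (by positivity) (by positivity)
      _ ≤ (|Nm| + 1) ^ 2 * (D * Real.exp (-(c / 2) * ‖X‖ ^ 2)) :=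
          mul_le_mul_of_nonneg_left (hpoly _ (by positivity)) (by positivity)
      _ = _ := by rw [hD']; ring
  have hi2 : Integrable (fun X : Cfg dm => Real.exp (-(c / 2) * ‖X‖ ^ 2)) := Poi.int_gauss (half_pos hc)
  have hi4 : Integrable (fun X : Cfg dm => Real.exp (-(c / 4) * ‖X‖ ^ 2)) := Poi.int_gauss (by positivity)
  set I2 : ℝ := ∫ X : Cfg dm, Real.exp (-(c / 2) * ‖X‖ ^ 2) with hI2
  set I4 : ℝ := ∫ X : Cfg dm, Real.exp (-(c / 4) * ‖X‖ ^ 2) with hI4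
  have hI2p : 0 ≤ I2 := integral_nonneg fun X => (Real.exp_pos _).le
  have hI4p : 0 ≤ I4 := integral_nonneg fun X => (Real.exp_pos _).le
  set x0 : ℝ := D' * I4 / ε + 1 with hx0
  have hx0p : 0 < x0 := by positivity
  refine ⟨D' * I2 + 1, Real.sqrt (4 * x0 / c), by positivity, Real.sqrt_pos.2 (by positivity), fun η hη => ⟨?_, ?_⟩⟩
  · calc ∫⁻ X : Cfg dm, ENNReal.ofReal ((1 + ‖X‖ ^ 2) ^ (dm + 1) *
          (Nf κ (Ωm η) * Real.exp (-(1 / 2) * qX (Ωm η) X)) ^ 2)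
        ≤ ∫⁻ X : Cfg dm, ENNReal.ofReal (D' * Real.exp (-(c / 2) * ‖X‖ ^ 2)) :=
          lintegral_mono fun X => ENNReal.ofReal_le_ofReal (hpt η hη X)
      _ = ENNReal.ofReal (∫ X : Cfg dm, D' * Real.exp (-(c / 2) * ‖X‖ ^ 2)) :=
          (ofReal_integral_eq_lintegral_ofReal (hi2.const_mul _) (Eventually.of_forall fun X => by positivity)).symm
      _ ≤ ENNReal.ofReal (D' * I2 + 1) := by
          refine ENNReal.ofReal_le_ofReal ?_
          rw [integral_const_mul]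
          linarith
  · have htail : ∀ X : Cfg dm, Real.sqrt (4 * x0 / c) ≤ ‖X‖ →
        D' * Real.exp (-(c / 2) * ‖X‖ ^ 2) ≤ D' * Real.exp (-x0) * Real.exp (-(c / 4) * ‖X‖ ^ 2) := by
      intro X hX
      have h1 : 4 * x0 / c ≤ ‖X‖ ^ 2 := by
        have := pow_le_pow_left₀ (Real.sqrt_nonneg _) hX 2
        rwa [Real.sq_sqrt (by positivity)] at this
      have h2 : 4 * x0 ≤ c * ‖X‖ ^ 2 := by
        rw [div_le_iff₀ hc] at h1
        linarith
      have h3 : D' * Real.exp (-x0) * Real.exp (-(c / 4) * ‖X‖ ^ 2) =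
          D' * Real.exp (-x0 + -(c / 4) * ‖X‖ ^ 2) := by
        rw [Real.exp_add]
        ring
      rw [h3]
      refine mul_le_mul_of_nonneg_left (Real.exp_le_exp.2 ?_) hD'p.le
      linarith
    have hm : MeasurableSet {X : Cfg dm | Real.sqrt (4 * x0 / c) ≤ ‖X‖} :=
      (isClosed_le continuous_const continuous_norm).measurableSet
    calc ∫⁻ X in {X : Cfg dm | Real.sqrt (4 * x0 / c) ≤ ‖X‖}, ENNReal.ofReal ((1 + ‖X‖ ^ 2) ^ (dm + 1) *
          (Nf κ (Ωm η) * Real.exp (-(1 / 2) * qX (Ωm η) X)) ^ 2)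
        ≤ ∫⁻ X in {X : Cfg dm | Real.sqrt (4 * x0 / c) ≤ ‖X‖},
            ENNReal.ofReal (D' * Real.exp (-x0) * Real.exp (-(c / 4) * ‖X‖ ^ 2)) :=
          setLIntegral_mono' hm fun X hX => ENNReal.ofReal_le_ofReal ((hpt η hη X).trans (htail X hX))
      _ ≤ ∫⁻ X : Cfg dm, ENNReal.ofReal (D' * Real.exp (-x0) * Real.exp (-(c / 4) * ‖X‖ ^ 2)) :=
          setLIntegral_le_lintegral _ _
      _ = ENNReal.ofReal (∫ X : Cfg dm, D' * Real.exp (-x0) * Real.exp (-(c / 4) * ‖X‖ ^ 2)) :=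
          (ofReal_integral_eq_lintegral_ofReal (hi4.const_mul _) (Eventually.of_forall fun X => by positivity)).symm
      _ ≤ ENNReal.ofReal ε := by
          refine ENNReal.ofReal_le_ofReal ?_
          rw [integral_const_mul, ← hI4]
          have h1 : Real.exp (-x0) ≤ 1 / x0 := by
            rw [Real.exp_neg, inv_eq_one_div]
            refine one_div_le_one_div_of_le hx0p ?_
            have := Real.add_one_le_exp x0
            linarith
          have h2 : D' * I4 ≤ ε * x0 := by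
            rw [hx0]
            have : ε * (D' * I4 / ε + 1) = D' * I4 + ε := by field_simp
            rw [this]
            linarith
          calc D' * Real.exp (-x0) * I4 = (D' * I4) * Real.exp (-x0) := by ring
            _ ≤ (D' * I4) * (1 / x0) := mul_le_mul_of_nonneg_left h1 (by positivity)
            _ ≤ (ε * x0) * (1 / x0) := mul_le_mul_of_nonneg_right h2 (by positivity)
            _ = ε := by field_simp

end Vale.Agent.P353.AN.LW
end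

section

/-! # P353, all `N`, block LOW: positivity of correlations (LOW1, helper275) -/

open MeasureTheory Filter Topology
open scoped ContDiff

namespace Vale.Agent.P353.AN.LW

open Vale.Agent.P353.Z Vale.Agent.P353.Z.U Vale.Agent.P353.Z.AN Vale.Agent.P353.AN.G

universe w

variable {N d dh dm r ds : ℕ} {F : Type w} [NormedAddCommGroup F] [InnerProductSpace ℂ F]

/-- multiplication by constants on the three blocks of colours -/
noncomputable def posD (φ : Spl dh dm d) (ψ : Spz r ds dh) (c : Fin 3 → ℝ) (x : Cfg d) : Cfg d :=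
  WithLp.toLp 2 fun p => c (bl φ ψ p.2) * x p

lemma posD_apply (φ : Spl dh dm d) (ψ : Spz r ds dh) (c : Fin 3 → ℝ) (x : Cfg d) (p : Fin 9 × Fin d) :
    posD φ ψ c x p = c (bl φ ψ p.2) * x p := rfl

lemma pos_comm (M : BFSS.Model N d F) (φ : Spl dh dm d) (ψ : Spz r ds dh) {U : BFSS.SU N} (hU : Nrm M φ ψ U)
    (c : Fin 3 → ℝ) (x : Cfg d) : M.act U (posD φ ψ c x) = posD φ ψ c (M.act U x) := by
  ext p
  rw [posD_apply]
  change ∑ A, BFSS.adCoeff M.T U p.2 A * (posD φ ψ c x) (p.1, A) =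
    c (bl φ ψ p.2) * ∑ A, BFSS.adCoeff M.T U p.2 A * x (p.1, A)
  rw [Finset.mul_sum]
  refine Finset.sum_congr rfl fun A _ => ?_
  rw [posD_apply]
  by_cases h : bl φ ψ p.2 = bl φ ψ A
  · rw [h]
    ring
  · rw [hU p.2 A h]
    ring

lemma pos_sub (φ : Spl dh dm d) (ψ : Spz r ds dh) (c : Fin 3 → ℝ) (x y : Cfg d) :
    posD φ ψ c (x - y) = posD φ ψ c x - posD φ ψ c y := by
  ext p
  rw [PiLp.sub_apply, posD_apply, posD_apply, posD_apply, PiLp.sub_apply, mul_sub]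

lemma pos_norm (φ : Spl dh dm d) (ψ : Spz r ds dh) {c : Fin 3 → ℝ} (hc : ∀ k, |c k| ≤ 1) (x : Cfg d) :
    ‖posD φ ψ c x‖ ≤ ‖x‖ := by
  rw [EuclideanSpace.norm_eq, EuclideanSpace.norm_eq]
  refine Real.sqrt_le_sqrt (Finset.sum_le_sum fun p _ => ?_)
  rw [posD_apply, norm_mul]
  refine pow_le_pow_left₀ (by positivity) ?_ 2
  exact mul_le_of_le_one_left (norm_nonneg _) (hc _)

lemma pos_ezs (φ : Spl dh dm d) (ψ : Spz r ds dh) (a : ℝ) (x : Cfg d) :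
    ezs φ ψ (a • hz ψ (zy φ x)) (hs ψ (zy φ x)) = posD φ ψ ![a, 1, 0] x := by
  ext p
  obtain ⟨i, A⟩ := p
  rw [posD_apply]
  change Sum.elim (fun A => (Vale.Agent.P353.Z.AN.cmb ψ (a • hz ψ (zy φ x)) (hs ψ (zy φ x))) (i, A))
    (fun B => Fin.lastCases (motive := fun _ => ℝ) 0 (fun j => (0 : Wsp dm) (j, B)) i) (φ.symm A) =
    (![a, 1, 0] : Fin 3 → ℝ) (Sum.elim (fun B => Sum.elim (fun _ => 0) (fun _ => 1) (ψ.symm B)) (fun _ => 2) (φ.symm A)) *
      x (i, A)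
  rcases h : φ.symm A with B | B
  · have hA : A = φ (Sum.inl B) := by rw [← h, Equiv.apply_symm_apply]
    rw [Sum.elim_inl, Sum.elim_inl]
    change Sum.elim (fun b => (a • hz ψ (zy φ x)) (i, b)) (fun b => (hs ψ (zy φ x)) (i, b)) (ψ.symm B) = _
    rcases h2 : ψ.symm B with b | b
    · have hB : B = ψ (Sum.inl b) := by rw [← h2, Equiv.apply_symm_apply]
      rw [Sum.elim_inl, Sum.elim_inl, hA, hB]
      rfl
    · have hB : B = ψ (Sum.inr b) := by rw [← h2, Equiv.apply_symm_apply]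
      rw [Sum.elim_inr, Sum.elim_inr, hA, hB]
      exact (one_mul _).symm
  · rw [Sum.elim_inr, Sum.elim_inr]
    have e : (![a, 1, 0] : Fin 3 → ℝ) 2 = 0 := rfl
    rw [e, zero_mul]
    refine Fin.lastCases ?_ (fun j => ?_) i
    · rw [Fin.lastCases_last]
    · rw [Fin.lastCases_castSucc]
      rfl

lemma pos_ezs_cont (φ : Spl dh dm d) (ψ : Spz r ds dh) :
    Continuous fun q : Cfg r × Cfg ds => ezs φ ψ q.1 q.2 := by
  refine (PiLp.continuous_toLp 2 _).comp (continuous_pi fun p => ?_)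
  rcases h : φ.symm p.2 with B | B
  · simp only [Sum.elim_inl]
    change Continuous fun q : Cfg r × Cfg ds =>
      Sum.elim (fun b => q.1 (p.1, b)) (fun b => q.2 (p.1, b)) (ψ.symm B)
    rcases h2 : ψ.symm B with b | b
    · simp only [Sum.elim_inl]
      fun_prop
    · simp only [Sum.elim_inr]
      fun_prop
  · simp only [Sum.elim_inr]
    exact continuous_const

lemma pos_coeff_cont (M : BFSS.Model N d F) (B A : Fin d) :
    Continuous fun U : BFSS.SU N => BFSS.adCoeff M.T U B A := by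
  unfold BFSS.adCoeff
  refine Complex.continuous_re.comp (Continuous.matrix_trace ?_)
  have hv : Continuous fun U : BFSS.SU N => U.val := continuous_subtype_val
  exact continuous_const.mul ((hv.mul continuous_const).mul hv.star)

lemma pos_fn (X : Matrix (Fin N) (Fin N) ℂ) (j k : Fin N) : ‖X j k‖ ≤ fn X := by
  unfold fn
  refine Real.le_sqrt_of_sq_le ?_
  refine (Finset.single_le_sum (f := fun k => ‖X j k‖ ^ 2) (fun k _ => sq_nonneg _) (Finset.mem_univ k)).trans ?_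
  exact Finset.single_le_sum (f := fun j => ∑ k, ‖X j k‖ ^ 2) (fun j _ => Finset.sum_nonneg fun k _ => sq_nonneg _)
    (Finset.mem_univ j)

lemma pos_lim_one {V : ℕ → BFSS.SU N} (h : Tendsto (fun n => fn ((V n).val - 1)) atTop (𝓝 0)) :
    Tendsto V atTop (𝓝 1) := by
  refine tendsto_subtype_rng.2 (tendsto_pi_nhds.2 fun j => tendsto_pi_nhds.2 fun k => ?_)
  rw [tendsto_iff_norm_sub_tendsto_zero]
  exact squeeze_zero (fun n => norm_nonneg _) (fun n => pos_fn ((V n).val - 1) j k) h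

/-- **LOW1 POS** -/
theorem pos (M : BFSS.Model N d F) (S : Setup d F) (φ : Spl dh dm d) (ψ : Spz r ds dh) : PosStmt M S φ ψ := by
  intro hfd hRep hsub hZ hLess hact hgeo K Om hD hreg L
  have hK1 : IsCompact (Prod.fst '' K) := hD.cpt.image continuous_fst
  obtain ⟨B, hB⟩ : ∃ B : ℝ, ∀ q ∈ K, ‖q.2‖ ≤ B := by
    obtain ⟨B, hB⟩ := (hD.cpt.image (continuous_norm.comp continuous_snd)).bddAbove
    exact ⟨B, fun q hq => hB ⟨q, hq, rfl⟩⟩
  obtain ⟨L', hL'⟩ : ∃ L' : ℝ, L' = max (max L B) 1 := ⟨_, rfl⟩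
  have hLL : L ≤ L' := by rw [hL']; exact (le_max_left _ _).trans (le_max_left _ _)
  have hBL : B ≤ L' := by rw [hL']; exact (le_max_right _ _).trans (le_max_left _ _)
  have h1L : 1 ≤ L' := by rw [hL']; exact le_max_right _ _
  obtain ⟨R₁, C, hR₁, hC, hG⟩ := hgeo S hRep dh dm r ds φ ψ hsub hZ hLess (Prod.fst '' K) hK1
    (by rintro η ⟨q, hq, rfl⟩; exact hreg q hq) L' (one_pos.trans_le h1L)
  by_contra hcon
  push Not at hcon
  have h1 : ∀ n : ℕ, 1 ≤ R₁ + n := fun n => by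
    have : (0 : ℝ) ≤ n := Nat.cast_nonneg n
    linarith
  choose R hR U x hx1 hx2 hx3 hx4 hlt using fun n : ℕ => hcon (R₁ + n) (h1 n)
  have hR1 : ∀ n, 1 ≤ R n := fun n => (h1 n).trans (hR n)
  have hR0 : ∀ n, 0 < R n := fun n => one_pos.trans_le (hR1 n)
  have hRR : ∀ n, R₁ ≤ R n := fun n => by
    have : (0 : ℝ) ≤ n := Nat.cast_nonneg n
    linarith [hR n]
  choose UN V hUV hNrm hV hmv using fun n : ℕ => hG (R n) (hRR n) (U n) (x n)
    ⟨⟨_, hx1 n, rfl⟩, (hB _ (hx1 n)).trans hBL, (hx3 n).trans hLL⟩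
    ⟨⟨_, hx2 n, rfl⟩, (hB _ (hx2 n)).trans hBL, (hx4 n).trans hLL⟩
  obtain ⟨q, hq⟩ : ∃ q : ℕ → Cfg r × Cfg ds, q = fun n => ((sc φ ψ (R n) (x n)).1, (sc φ ψ (R n) (x n)).2.1) := ⟨_, rfl⟩
  obtain ⟨q', hq'⟩ : ∃ q' : ℕ → Cfg r × Cfg ds,
      q' = fun n => ((sc φ ψ (R n) (M.act (U n) (x n))).1, (sc φ ψ (R n) (M.act (U n) (x n))).2.1) := ⟨_, rfl⟩
  have hqK : ∀ n, q n ∈ K := fun n => by rw [hq]; exact hx1 n
  have hqK' : ∀ n, q' n ∈ K := fun n => by rw [hq']; exact hx2 n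
  obtain ⟨⟨U₀, p, p'⟩, ⟨-, hpK, hpK'⟩, σ, hσ, hlim⟩ :=
    (isCompact_univ.prod (hD.cpt.prod hD.cpt)).tendsto_subseq (x := fun n => ((UN n, q n, q' n) : BFSS.SU N × _ × _))
      (fun n => ⟨Set.mem_univ _, hqK n, hqK' n⟩)
  have hσt : Tendsto σ atTop atTop := hσ.tendsto_atTop
  have lUN : Tendsto (fun n => UN (σ n)) atTop (𝓝 U₀) := (continuous_fst.tendsto _).comp hlim
  have lq : Tendsto (fun n => q (σ n)) atTop (𝓝 p) :=
    ((continuous_fst.comp continuous_snd).tendsto _).comp hlim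
  have lq' : Tendsto (fun n => q' (σ n)) atTop (𝓝 p') :=
    ((continuous_snd.comp continuous_snd).tendsto _).comp hlim
  have lR : Tendsto (fun n => R (σ n)) atTop atTop := by
    refine Tendsto.comp ?_ hσt
    refine tendsto_atTop_mono (fun n => ?_) (tendsto_natCast_atTop_atTop (R := ℝ))
    linarith [hR n]
  have ls : Tendsto (fun n => C / Real.sqrt (R (σ n))) atTop (𝓝 0) :=
    (Real.tendsto_sqrt_atTop.comp lR).const_div_atTop C
  have lV : Tendsto (fun n => V (σ n)) atTop (𝓝 1) := by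
    refine pos_lim_one (squeeze_zero (fun n => Real.sqrt_nonneg _) (fun n => (hV (σ n)).trans ?_) ls)
    have hs : 0 < Real.sqrt (R (σ n)) := Real.sqrt_pos.2 (hR0 _)
    exact div_le_div_of_nonneg_left hC.le hs (le_mul_of_one_le_left hs.le (hR1 _))
  have lU : Tendsto (fun n => U (σ n)) atTop (𝓝 U₀) := by
    have h2 := lUN.mul lV
    rw [mul_one] at h2
    refine h2.congr fun n => ?_
    exact (hUV (σ n)).symm
  -- the limit normalises the splitting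
  have hN0 : Nrm M φ ψ U₀ := by
    intro A B' hne
    have h2 := ((pos_coeff_cont M A B').tendsto U₀).comp lUN
    refine tendsto_nhds_unique h2 ?_
    refine tendsto_const_nhds.congr fun n => ?_
    exact (hNrm (σ n) A B' hne).symm
  -- the limit of the action
  have hcb : ∀ n, ∀ k, |(![(R n)⁻¹, 1, 0] : Fin 3 → ℝ) k| ≤ 1 := by
    intro n k
    fin_cases k
    · change |(R n)⁻¹| ≤ 1
      rw [abs_of_pos (inv_pos.2 (hR0 n))]
      exact inv_le_one_of_one_le₀ (hR1 n)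
    · change |(1 : ℝ)| ≤ 1
      rw [abs_one]
    · change |(0 : ℝ)| ≤ 1
      rw [abs_zero]
      exact zero_le_one
  have e1 : ∀ n, ezs φ ψ (q n).1 (q n).2 = posD φ ψ ![(R n)⁻¹, 1, 0] (x n) := by
    intro n
    rw [hq, ← pos_ezs]
    rfl
  have e2 : ∀ n, ezs φ ψ (q' n).1 (q' n).2 = M.act (UN n) (posD φ ψ ![(R n)⁻¹, 1, 0] (M.act (V n) (x n))) := by
    intro n
    rw [pos_comm M φ ψ (hNrm n), ← hact.1, ← hUV, ← pos_ezs, hq']
    rfl
  have l1 : Tendsto (fun n => posD φ ψ ![(R (σ n))⁻¹, 1, 0] (M.act (V (σ n)) (x (σ n)))) atTop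
      (𝓝 (ezs φ ψ p.1 p.2)) := by
    have h2 : Tendsto (fun n => ezs φ ψ (q (σ n)).1 (q (σ n)).2) atTop (𝓝 (ezs φ ψ p.1 p.2)) :=
      ((pos_ezs_cont φ ψ).tendsto p).comp lq
    have h3 : Tendsto (fun n => posD φ ψ ![(R (σ n))⁻¹, 1, 0] (M.act (V (σ n)) (x (σ n)) - x (σ n))) atTop (𝓝 0) := by
      refine squeeze_zero_norm (fun n => ?_) ls
      exact (pos_norm φ ψ (hcb (σ n)) _).trans (hmv (σ n))
    have h4 := h3.add h2
    rw [zero_add] at h4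
    refine h4.congr fun n => ?_
    rw [e1, pos_sub, sub_add_cancel]
  have l2 : Tendsto (fun n => ezs φ ψ (q' (σ n)).1 (q' (σ n)).2) atTop (𝓝 (ezs φ ψ p'.1 p'.2)) :=
    ((pos_ezs_cont φ ψ).tendsto p').comp lq'
  have l3 : Tendsto (fun n => ezs φ ψ (q' (σ n)).1 (q' (σ n)).2) atTop (𝓝 (M.act U₀ (ezs φ ψ p.1 p.2))) := by
    have h2 := (hact.2.2.2.2.2.1.tendsto (U₀, ezs φ ψ p.1 p.2)).comp (lUN.prodMk_nhds l1)
    refine h2.congr fun n => ?_
    rw [e2]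
    rfl
  have hfin : M.act U₀ (ezs φ ψ p.1 p.2) = ezs φ ψ p'.1 p'.2 := tendsto_nhds_unique l3 l2
  have hOm := hD.cov U₀ hN0 p hpK p' hpK' hfin
  -- continuity of `Om`
  have lO : Tendsto (fun n => Om (q (σ n))) atTop (𝓝 (Om p)) :=
    (hD.cont p hpK).tendsto.comp (tendsto_nhdsWithin_iff.2 ⟨lq, Eventually.of_forall fun n => hqK _⟩)
  have lO' : Tendsto (fun n => Om (q' (σ n))) atTop (𝓝 (Om p')) :=
    (hD.cont p' hpK').tendsto.comp (tendsto_nhdsWithin_iff.2 ⟨lq', Eventually.of_forall fun n => hqK' _⟩)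
  have lS : Tendsto (fun n => M.S (U (σ n)) (Om (q (σ n)))) atTop (𝓝 (M.S U₀ (Om p))) :=
    ((AvgG.S_cont M).tendsto (U₀, Om p)).comp (lU.prodMk_nhds lO)
  have lI : Tendsto (fun n => (inner ℂ (Om (q' (σ n))) (M.S (U (σ n)) (Om (q (σ n))))).re) atTop
      (𝓝 (inner ℂ (Om p') (M.S U₀ (Om p))).re) :=
    (Complex.continuous_re.tendsto _).comp (lO'.inner lS)
  have h5 : (inner ℂ (Om p') (M.S U₀ (Om p))).re = 1 := by
    rw [hOm, inner_self_eq_norm_sq_to_K, hD.unit p' hpK']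
    norm_num
  rw [h5] at lI
  have h6 : (1 : ℝ) ≤ 1 / 2 := by
    refine le_of_tendsto lI (Eventually.of_forall fun n => ?_)
    have h7 := (hlt (σ n)).le
    rw [hq, hq']
    exact h7
  linarith

end Vale.Agent.P353.AN.LW
end

section

/-! # P353, all `N`, block LOW: volume of the orbit of the box (LOW3, helper275) -/

open MeasureTheory Filter Topology
open scoped ContDiff ENNReal

namespace Vale.Agent.P353.AN.LW

open Vale.Agent.P353.Z Vale.Agent.P353.Z.U Vale.Agent.P353.Z.AN Vale.Agent.P353.AN.G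

variable {N d dh dm r ds : ℕ} {F : Type*} [NormedAddCommGroup F] [InnerProductSpace ℂ F]

/-- `act U` as a linear isometry equivalence -/
noncomputable def volE (M : BFSS.Model N d F) (h : ActStmt M) (U : BFSS.SU N) : Cfg d ≃ₗᵢ[ℝ] Cfg d where
  toFun := M.act U
  map_add' := h.2.2.1 U
  map_smul' := fun c x => h.2.2.2.1 U c x
  invFun := M.act U⁻¹
  left_inv := fun x => by rw [← h.1, inv_mul_cancel, h.2.1]
  right_inv := fun x => by rw [← h.1, mul_inv_cancel, h.2.1]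
  norm_map' := h.2.2.2.2.1 U

/-- the box is closed -/
lemma vol_bx_closed (ds dm : ℕ) (z₀ : Cfg r) (r₁ : ℝ) : IsClosed (bx ds dm z₀ r₁) := by
  have h1 : Continuous fun q : Cfg r × Cfg ds × Cfg dm => ‖q.1 - z₀‖ := by fun_prop
  have h2 : Continuous fun q : Cfg r × Cfg ds × Cfg dm => ‖q.2.1‖ := by fun_prop
  have h3 : Continuous fun q : Cfg r × Cfg ds × Cfg dm => ‖q.2.2‖ := by fun_prop
  exact (isClosed_le h1 continuous_const).inter
    ((isClosed_le h2 continuous_const).inter (isClosed_le h3 continuous_const))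

/-- the box has finite volume -/
lemma vol_bx_fin (ds dm : ℕ) (z₀ : Cfg r) (r₁ : ℝ) : v3 r ds dm (bx ds dm z₀ r₁) ≠ ⊤ := by
  have h1 : bx ds dm z₀ r₁ ⊆ Metric.closedBall z₀ r₁ ×ˢ (Metric.closedBall (0 : Cfg ds) r₁ ×ˢ
      Metric.closedBall (0 : Cfg dm) r₁) := by
    rintro q ⟨h1, h2, h3⟩
    exact ⟨mem_closedBall_iff_norm.2 h1, mem_closedBall_zero_iff.2 h2, mem_closedBall_zero_iff.2 h3⟩
  refine ((measure_mono h1).trans_lt ?_).ne
  unfold v3
  rw [Measure.prod_prod, Measure.prod_prod]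
  exact ENNReal.mul_lt_top measure_closedBall_lt_top
    (ENNReal.mul_lt_top measure_closedBall_lt_top measure_closedBall_lt_top)

/-- the good set of LH4 -/
def volG (M : BFSS.Model N d F) (φ : Spl dh dm d) (ρ δ : ℝ) : Set (BFSS.SU N) :=
  {U | ∃ ξ : EuclideanSpace ℝ (Fin d), ‖ξ‖ ≤ ρ ∧ (∀ B : Fin dm, |ξ (φ (Sum.inr B))| ≤ δ) ∧ U.val = eT M ξ}

/-- **LOW3 VOL** -/
theorem vol (M : BFSS.Model N d F) (S : Setup d F) (φ : Spl dh dm d) (ψ : Spz r ds dh) : VolStmt M S φ ψ := by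
  intro hRep hsub hZ hact hgood hgoodA hscl z₀ r₁ hr₁
  obtain ⟨ρ₁, C₁, hρ₁, hC₁, hA⟩ := hgoodA S hRep dh dm r ds φ ψ hsub hZ (Metric.closedBall z₀ r₁)
    (isCompact_closedBall z₀ r₁) r₁ hr₁
  obtain ⟨ρ₂, hρ₂, hG⟩ := hgood dh dm φ
  obtain ⟨ρ, hρ⟩ : ∃ ρ : ℝ, ρ = min (min ρ₁ ρ₂) 1 := ⟨_, rfl⟩
  have hρ0 : 0 < ρ := by rw [hρ]; exact lt_min (lt_min hρ₁ hρ₂) one_pos
  have hρρ₁ : ρ ≤ ρ₁ := by rw [hρ]; exact (min_le_left _ _).trans (min_le_left _ _)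
  have hρρ₂ : ρ ≤ ρ₂ := by rw [hρ]; exact (min_le_left _ _).trans (min_le_right _ _)
  have hρ1 : ρ ≤ 1 := by rw [hρ]; exact min_le_right _ _
  obtain ⟨c₀, hc₀, hE⟩ := hG ρ hρ0 hρρ₂
  obtain ⟨r₂, hr₂⟩ : ∃ r₂ : ℝ, r₂ = r₁ + 2 * C₁ := ⟨_, rfl⟩
  obtain ⟨V₂, hV₂⟩ : ∃ V₂ : ℝ, V₂ = (v3 r ds dm (bx ds dm z₀ r₂)).toReal := ⟨_, rfl⟩
  have hV₂0 : 0 ≤ V₂ := by rw [hV₂]; exact ENNReal.toReal_nonneg
  have hV₂' : v3 r ds dm (bx ds dm z₀ r₂) = ENNReal.ofReal V₂ := by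
    rw [hV₂, ENNReal.ofReal_toReal (vol_bx_fin ds dm z₀ r₂)]
  have hp : 0 < c₀ * ρ ^ dm := mul_pos hc₀ (pow_pos hρ0 _)
  refine ⟨V₂ / (c₀ * ρ ^ dm) + 1, by positivity, fun R hR => ?_⟩
  have hR0 : 0 < R := one_pos.trans_le hR
  have hs1 : 1 ≤ Real.sqrt R := Real.one_le_sqrt.2 hR
  have hs0 : 0 < Real.sqrt R := one_pos.trans_le hs1
  obtain ⟨hscc, hsci, -⟩ := hscl d dh dm r ds φ ψ R hR0
  have hjc : Continuous fun p : BFSS.SU N × Cfg d => sc φ ψ R (M.act p.1 p.2) := hscc.comp hact.2.2.2.2.2.1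
  have hcl : ∀ r' : ℝ, IsClosed {p : BFSS.SU N × Cfg d | sc φ ψ R (M.act p.1 p.2) ∈ bx ds dm z₀ r'} :=
    fun r' => (vol_bx_closed ds dm z₀ r').preimage hjc
  have hGB : IsClosed (GB M φ ψ z₀ r₁ R) := by
    have h1 := isClosedMap_snd_of_compactSpace (X := BFSS.SU N) (Y := Cfg d) _ (hcl r₁)
    have h2 : GB M φ ψ z₀ r₁ R = Prod.snd '' {p : BFSS.SU N × Cfg d | sc φ ψ R (M.act p.1 p.2) ∈ bx ds dm z₀ r₁} := by
      ext x
      constructor
      · rintro ⟨U, hU⟩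
        exact ⟨(U, x), hU, rfl⟩
      · rintro ⟨⟨U, y⟩, hU, rfl⟩
        exact ⟨U, hU⟩
    rw [h2]
    exact h1
  refine ⟨hGB, ?_⟩
  -- the good set
  obtain ⟨δ, hδ⟩ : ∃ δ : ℝ, δ = ρ * (R * Real.sqrt R)⁻¹ := ⟨_, rfl⟩
  have hRs : 1 ≤ R * Real.sqrt R := one_le_mul_of_one_le_of_one_le hR hs1
  have hRs0 : 0 < R * Real.sqrt R := one_pos.trans_le hRs
  have hinv1 : (R * Real.sqrt R)⁻¹ ≤ 1 := inv_le_one_of_one_le₀ hRs
  have hinv0 : 0 < (R * Real.sqrt R)⁻¹ := inv_pos.2 hRs0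
  have hδ0 : 0 < δ := by rw [hδ]; exact mul_pos hρ0 hinv0
  have hδρ : δ ≤ ρ := by rw [hδ]; exact mul_le_of_le_one_right hρ0.le hinv1
  have hδR : δ ≤ (R * Real.sqrt R)⁻¹ := by rw [hδ]; exact mul_le_of_le_one_left hinv0.le hρ1
  obtain ⟨hE1, hE2⟩ := hE δ hδ0 hδρ
  have hE1' : c₀ * δ ^ dm ≤ (hm N).real (volG M φ ρ δ) := hE1
  have hE2' : MeasurableSet (volG M φ ρ δ) := hE2
  obtain ⟨P, hP⟩ : ∃ P : Set (BFSS.SU N × Cfg d),
      P = {p : BFSS.SU N × Cfg d | sc φ ψ R (M.act p.1 p.2) ∈ bx ds dm z₀ r₂} := ⟨_, rfl⟩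
  have hPm : MeasurableSet P := by rw [hP]; exact (hcl r₂).measurableSet
  -- lower bound on `GB`
  have hlow : ∀ x ∈ GB M φ ψ z₀ r₁ R, ENNReal.ofReal (c₀ * δ ^ dm) ≤ hm N ((fun U => (U, x)) ⁻¹' P) := by
    rintro x ⟨U₀, hU₀⟩
    have h1 : (fun U => U * U₀⁻¹) ⁻¹' volG M φ ρ δ ⊆ (fun U => (U, x)) ⁻¹' P := by
      intro U hU
      obtain ⟨ξ, h1, h2, h3⟩ : ∃ ξ : EuclideanSpace ℝ (Fin d), ‖ξ‖ ≤ ρ ∧ (∀ B : Fin dm, |ξ (φ (Sum.inr B))| ≤ δ) ∧
        (U * U₀⁻¹).val = eT M ξ := hU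
      have hB : InB φ ψ (Metric.closedBall z₀ r₁) r₁ R (M.act U₀ x) :=
        ⟨mem_closedBall_iff_norm.2 hU₀.1, hU₀.2.1, hU₀.2.2⟩
      obtain ⟨e1, e2, e3⟩ := hA R hR (U * U₀⁻¹) ξ (h1.trans hρρ₁) (fun B => (h2 B).trans hδR) h3 (M.act U₀ x) hB
      have e0 : M.act (U * U₀⁻¹) (M.act U₀ x) = M.act U x := by
        rw [← hact.1, mul_assoc, inv_mul_cancel, mul_one]
      rw [e0] at e1 e2 e3
      have e4 : C₁ * (‖ξ‖ + (Real.sqrt R)⁻¹) ≤ 2 * C₁ := by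
        have h4 : (Real.sqrt R)⁻¹ ≤ 1 := inv_le_one_of_one_le₀ hs1
        nlinarith [h1.trans hρ1]
      have e5 : sc φ ψ R (M.act U x) ∈ bx ds dm z₀ r₂ := by
        refine ⟨?_, ?_, ?_⟩
        · have h5 : R⁻¹ • hz ψ (zy φ (M.act U x)) - z₀ = (R⁻¹ • hz ψ (zy φ (M.act U₀ x)) - z₀) +
              R⁻¹ • (hz ψ (zy φ (M.act U x)) - hz ψ (zy φ (M.act U₀ x))) := by
            rw [smul_sub]
            abel
          have h6 : ‖R⁻¹ • (hz ψ (zy φ (M.act U x)) - hz ψ (zy φ (M.act U₀ x)))‖ ≤ 2 * C₁ := by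
            rw [norm_smul, Real.norm_of_nonneg (inv_nonneg.2 hR0.le)]
            have h7 : R⁻¹ ≤ 1 := inv_le_one_of_one_le₀ hR
            have h8 := e1.trans e4
            calc R⁻¹ * ‖hz ψ (zy φ (M.act U x)) - hz ψ (zy φ (M.act U₀ x))‖
                ≤ 1 * ‖hz ψ (zy φ (M.act U x)) - hz ψ (zy φ (M.act U₀ x))‖ :=
                  mul_le_mul_of_nonneg_right h7 (norm_nonneg _)
              _ ≤ 2 * C₁ := by rw [one_mul]; exact h8
          change ‖R⁻¹ • hz ψ (zy φ (M.act U x)) - z₀‖ ≤ r₂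
          rw [h5, hr₂]
          exact (norm_add_le _ _).trans (add_le_add hU₀.1 h6)
        · change ‖hs ψ (zy φ (M.act U x))‖ ≤ r₂
          have h5 : hs ψ (zy φ (M.act U x)) = hs ψ (zy φ (M.act U₀ x)) +
              (hs ψ (zy φ (M.act U x)) - hs ψ (zy φ (M.act U₀ x))) := by abel
          rw [h5, hr₂]
          exact (norm_add_le _ _).trans (add_le_add hU₀.2.1 (e2.trans e4))
        · change ‖Real.sqrt R • pm φ (M.act U x)‖ ≤ r₂
          rw [hr₂]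
          linarith
      change (U, x) ∈ P
      rw [hP]
      exact e5
    have h2 : hm N ((fun U => U * U₀⁻¹) ⁻¹' volG M φ ρ δ) = hm N (volG M φ ρ δ) :=
      measure_preimage_mul_right (hm N) U₀⁻¹ (volG M φ ρ δ)
    calc ENNReal.ofReal (c₀ * δ ^ dm) ≤ ENNReal.ofReal ((hm N).real (volG M φ ρ δ)) := ENNReal.ofReal_le_ofReal hE1'
      _ = hm N (volG M φ ρ δ) := by
        rw [Measure.real, ENNReal.ofReal_toReal (measure_ne_top _ _)]
      _ ≤ hm N ((fun U => (U, x)) ⁻¹' P) := by rw [← h2]; exact measure_mono h1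
  -- Tonelli
  have hton : ∫⁻ x, hm N ((fun U => (U, x)) ⁻¹' P) = ∫⁻ U, volume (Prod.mk U ⁻¹' P) ∂(hm N) := by
    rw [← Measure.prod_apply_symm hPm, ← Measure.prod_apply hPm]
  have hslice : ∀ U : BFSS.SU N, volume (Prod.mk U ⁻¹' P) =
      ENNReal.ofReal (R ^ (9 * (r : ℝ) - 9 * (dm : ℝ) / 2) * V₂) := by
    intro U
    have h1 : Prod.mk U ⁻¹' P = (volE M hact U) ⁻¹' (sc φ ψ R ⁻¹' bx ds dm z₀ r₂) := by
      rw [hP]; rfl
    have h2 : MeasurableSet (sc φ ψ R ⁻¹' bx ds dm z₀ r₂) := ((vol_bx_closed ds dm z₀ r₂).preimage hscc).measurableSet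
    rw [h1, (volE M hact U).measurePreserving.measure_preimage h2.nullMeasurableSet]
    have h3 := hsci ((bx ds dm z₀ r₂).indicator fun _ => 1)
      (measurable_const.indicator (vol_bx_closed ds dm z₀ r₂).measurableSet)
    have h4 : ∀ x : Cfg d, (bx ds dm z₀ r₂).indicator (fun _ => (1 : ℝ≥0∞)) (sc φ ψ R x) =
        (sc φ ψ R ⁻¹' bx ds dm z₀ r₂).indicator (fun _ => 1) x := fun x => rfl
    simp only [h4] at h3
    rw [lintegral_indicator_const h2, one_mul,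
      lintegral_indicator_const (vol_bx_closed ds dm z₀ r₂).measurableSet, one_mul, hV₂',
      ← ENNReal.ofReal_mul (by positivity)] at h3
    exact h3
  have hup : ∫⁻ U, volume (Prod.mk U ⁻¹' P) ∂(hm N) = ENNReal.ofReal (R ^ (9 * (r : ℝ) - 9 * (dm : ℝ) / 2) * V₂) := by
    simp only [hslice, lintegral_const, measure_univ, mul_one]
  have hmain : ENNReal.ofReal (c₀ * δ ^ dm) * volume (GB M φ ψ z₀ r₁ R) ≤
      ENNReal.ofReal (R ^ (9 * (r : ℝ) - 9 * (dm : ℝ) / 2) * V₂) := by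
    rw [← hup, ← hton, ← setLIntegral_const]
    exact (setLIntegral_mono' hGB.measurableSet hlow).trans (setLIntegral_le_lintegral _ _)
  -- powers of `R`
  have hpow : (R * Real.sqrt R) ^ dm * R ^ (9 * (r : ℝ) - 9 * (dm : ℝ) / 2) = R ^ (9 * (r : ℝ) - 3 * (dm : ℝ)) := by
    have h1 : R * Real.sqrt R = R ^ (3 / 2 : ℝ) := by
      rw [Real.sqrt_eq_rpow]
      nth_rewrite 1 [← Real.rpow_one R]
      rw [← Real.rpow_add hR0]
      norm_num
    rw [h1, ← Real.rpow_natCast, ← Real.rpow_mul hR0.le, ← Real.rpow_add hR0]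
    congr 1
    ring
  have hq : 0 < c₀ * δ ^ dm := mul_pos hc₀ (pow_pos hδ0 _)
  have h1 : volume (GB M φ ψ z₀ r₁ R) ≤
      ENNReal.ofReal (R ^ (9 * (r : ℝ) - 9 * (dm : ℝ) / 2) * V₂ / (c₀ * δ ^ dm)) := by
    rw [ENNReal.ofReal_div_of_pos hq, ENNReal.le_div_iff_mul_le (Or.inl (ENNReal.ofReal_pos.2 hq).ne')
      (Or.inl ENNReal.ofReal_ne_top), mul_comm]
    exact hmain
  refine h1.trans (ENNReal.ofReal_le_ofReal ?_)
  have h2 : R ^ (9 * (r : ℝ) - 9 * (dm : ℝ) / 2) * V₂ / (c₀ * δ ^ dm) =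
      V₂ / (c₀ * ρ ^ dm) * R ^ (9 * (r : ℝ) - 3 * (dm : ℝ)) := by
    rw [← hpow, hδ, mul_pow, inv_pow]
    field_simp
  rw [h2, add_mul]
  have h3 : 0 ≤ R ^ (9 * (r : ℝ) - 3 * (dm : ℝ)) := Real.rpow_nonneg hR0.le _
  linarith

end Vale.Agent.P353.AN.LW
end

section

/-! # P353, all `N`, block LOW, LOW4: averages with a direction field -/

open MeasureTheory Filter Topology
open scoped ContDiff

namespace Vale.Agent.P353.AN.LW

open Vale.Agent.P353.Z Vale.Agent.P353.Z.U Vale.Agent.P353.AN.G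

universe w

variable {N d : ℕ} {F : Type w} [NormedAddCommGroup F] [InnerProductSpace ℂ F]

/-- Cauchy–Schwarz on a space of finite measure -/
theorem avb_cs {α : Type*} [MeasurableSpace α] (μ : Measure α) [IsFiniteMeasure μ] (f : α → ℝ)
    (hf : Integrable f μ) (hf2 : Integrable (fun x => f x ^ 2) μ) :
    (∫ x, f x ∂μ) ^ 2 ≤ μ.real Set.univ * ∫ x, f x ^ 2 ∂μ := by
  have hq : ∀ t : ℝ, 0 ≤ (∫ x, f x ^ 2 ∂μ) - 2 * t * (∫ x, f x ∂μ) + t ^ 2 * μ.real Set.univ := by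
    intro t
    have h1 : 0 ≤ ∫ x, (f x - t) ^ 2 ∂μ := integral_nonneg fun x => sq_nonneg _
    have h2 : ∫ x, (f x - t) ^ 2 ∂μ =
        (∫ x, f x ^ 2 ∂μ) - 2 * t * (∫ x, f x ∂μ) + t ^ 2 * μ.real Set.univ := by
      have e1 : (fun x => (f x - t) ^ 2) = fun x => (f x ^ 2 - 2 * t * f x) + t ^ 2 := by
        funext x
        ring
      have i1 : Integrable (fun x => f x ^ 2 - 2 * t * f x) μ := hf2.sub (hf.const_mul _)
      have e2 : ∫ x, ((f x ^ 2 - 2 * t * f x) + t ^ 2) ∂μ =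
          (∫ x, (f x ^ 2 - 2 * t * f x) ∂μ) + ∫ _x, t ^ 2 ∂μ := integral_add i1 (integrable_const _)
      have e3 : ∫ x, (f x ^ 2 - 2 * t * f x) ∂μ = (∫ x, f x ^ 2 ∂μ) - ∫ x, 2 * t * f x ∂μ :=
        integral_sub hf2 (hf.const_mul _)
      rw [e1, e2, e3, integral_const_mul, integral_const, smul_eq_mul,
        mul_comm (μ.real Set.univ)]
    rwa [h2] at h1
  rcases eq_or_lt_of_le (measureReal_nonneg (μ := μ) (s := Set.univ)) with h0 | h0
  · have h1 : μ = 0 := by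
      have h2 : μ Set.univ = 0 := by
        rcases (ENNReal.toReal_eq_zero_iff _).1 h0.symm with h | h
        · exact h
        · exact absurd h (measure_ne_top _ _)
      exact Measure.measure_univ_eq_zero.1 h2
    rw [h1]
    simp
  · have h1 := hq ((∫ x, f x ∂μ) / μ.real Set.univ)
    have h2 : (∫ x, f x ^ 2 ∂μ) - 2 * ((∫ x, f x ∂μ) / μ.real Set.univ) * (∫ x, f x ∂μ) +
        ((∫ x, f x ∂μ) / μ.real Set.univ) ^ 2 * μ.real Set.univ =
        (∫ x, f x ^ 2 ∂μ) - (∫ x, f x ∂μ) ^ 2 / μ.real Set.univ := by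
      field_simp
      ring
    rw [h2, sub_nonneg, div_le_iff₀ h0] at h1
    rwa [mul_comm]

/-- pointwise lower bound -/
theorem avb_pt [FiniteDimensional ℂ F] (M : BFSS.Model N d F) (h22 : ActStmt M)
    (φ : Cfg d → ℝ) (Om Z : Cfg d → F) (hφ : Continuous φ) (h0 : ∀ x, 0 ≤ φ x)
    (hZe : ∀ x, Z x = ((φ x : ℝ) : ℂ) • Om x) (hZ : Continuous Z) (hone : ∀ x, φ x ≠ 0 → ‖Om x‖ = 1)
    (hhalf : ∀ U x, φ x ≠ 0 → φ (M.act U x) ≠ 0 →
      1 / 2 ≤ (inner ℂ (Om (M.act U x)) (M.S U (Om x))).re) (x : Cfg d) :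
    1 / 2 * avs M φ x ≤ ‖avg M Z x‖ := by
  have hc : Continuous fun U : BFSS.SU N => φ (M.act U⁻¹ x) := by
    have h1 := (AvgG.act_cont M h22).comp
      ((continuous_id.prodMk continuous_const : Continuous fun U : BFSS.SU N => (U, x)))
    exact hφ.comp h1
  by_cases hex : ∃ U₀, φ (M.act U₀⁻¹ x) ≠ 0
  · obtain ⟨U₀, hU₀⟩ := hex
    set w : F := M.S U₀ (Om (M.act U₀⁻¹ x)) with hw
    have hkey : ∀ U, 1 / 2 * φ (M.act U⁻¹ x) ≤ (inner ℂ w (M.S U (Z (M.act U⁻¹ x)))).re := by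
      intro U
      have e1 : (inner ℂ w (M.S U (Z (M.act U⁻¹ x)))).re =
          φ (M.act U⁻¹ x) * (inner ℂ w (M.S U (Om (M.act U⁻¹ x)))).re := by
        rw [hZe, map_smul, inner_smul_right, Complex.re_ofReal_mul]
      rw [e1]
      rcases eq_or_ne (φ (M.act U⁻¹ x)) 0 with h | h
      · rw [h]
        simp
      · have h1 : M.act (U₀⁻¹ * U) (M.act U⁻¹ x) = M.act U₀⁻¹ x := by
          rw [← h22.1, mul_assoc, mul_inv_cancel, mul_one]
        have h1' : φ (M.act (U₀⁻¹ * U) (M.act U⁻¹ x)) ≠ 0 := by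
          rw [h1]
          exact hU₀
        have h2 := hhalf (U₀⁻¹ * U) (M.act U⁻¹ x) h h1'
        rw [h1] at h2
        have h3 : inner ℂ (Om (M.act U₀⁻¹ x)) (M.S (U₀⁻¹ * U) (Om (M.act U⁻¹ x))) =
            inner ℂ w (M.S U (Om (M.act U⁻¹ x))) := by
          rw [hw, ← AvgG.inner_S M U₀, ← M.S_mul, ← mul_assoc, mul_inv_cancel, one_mul]
        rw [h3] at h2
        nlinarith [h0 (M.act U⁻¹ x)]
    have hir : Integrable (fun U : BFSS.SU N => 1 / 2 * φ (M.act U⁻¹ x)) (hm N) :=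
      (continuous_const.mul hc).integrable_of_hasCompactSupport
        (HasCompactSupport.of_compactSpace _)
    have hci : Continuous fun U : BFSS.SU N => (inner ℂ w (M.S U (Z (M.act U⁻¹ x))) : ℂ) :=
      continuous_const.inner (AvgG.tr_cont_left M h22 hZ x)
    have hii : Integrable (fun U : BFSS.SU N => (inner ℂ w (M.S U (Z (M.act U⁻¹ x))) : ℂ))
        (hm N) := hci.integrable_of_hasCompactSupport (HasCompactSupport.of_compactSpace _)
    have h2 : (inner ℂ w (avg M Z x)).re =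
        ∫ U, (inner ℂ w (M.S U (Z (M.act U⁻¹ x)))).re ∂(hm N) := by
      rw [AvgG.self_eq M h22 hZ x w]
      exact (integral_re hii).symm
    have h3 : 1 / 2 * avs M φ x ≤ (inner ℂ w (avg M Z x)).re := by
      rw [h2]
      unfold avs
      rw [← integral_const_mul]
      exact integral_mono hir hii.re hkey
    refine h3.trans ((Complex.re_le_norm _).trans ((norm_inner_le_norm _ _).trans ?_))
    rw [hw, M.S_isometry, hone _ hU₀, one_mul]
  · push Not at hex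
    have : avs M φ x = 0 := by
      unfold avs
      simp only [hex, integral_zero]
    rw [this, mul_zero]
    exact norm_nonneg _

/-- joint integrability -/
theorem avb_int (M : BFSS.Model N d F) (h22 : ActStmt M)
    (φ : Cfg d → ℝ) (hφ : Continuous φ) (R : ℝ) (hR : ∀ x, R < ‖x‖ → φ x = 0) :
    Integrable (fun p : BFSS.SU N × Cfg d => φ (M.act p.1⁻¹ p.2))
      ((hm N).prod (volume : Measure (Cfg d))) := by
  have h2 : Continuous fun p : BFSS.SU N × Cfg d => φ (M.act p.1⁻¹ p.2) :=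
    hφ.comp (AvgG.act_cont M h22)
  refine h2.integrable_of_hasCompactSupport ?_
  refine HasCompactSupport.intro (isCompact_univ.prod (isCompact_closedBall (0 : Cfg d) R))
    fun p hp => ?_
  refine hR _ ?_
  rw [h22.2.2.2.2.1]
  by_contra hcon
  exact hp ⟨Set.mem_univ _, by simpa using not_lt.1 hcon⟩

/-- `∫_G avs φ = ∫_G φ` for an invariant set `G` -/
theorem avb_fub (M : BFSS.Model N d F) (h22 : ActStmt M)
    (φ : Cfg d → ℝ) (hφ : Continuous φ) (R : ℝ) (hR : ∀ x, R < ‖x‖ → φ x = 0)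
    (G : Set (Cfg d)) (hG : MeasurableSet G) (hGi : ∀ U x, x ∈ G ↔ M.act U x ∈ G) :
    ∫ x in G, avs M φ x = ∫ x in G, φ x := by
  have hI := avb_int M h22 φ hφ R hR
  have hI2 : Integrable (fun p : BFSS.SU N × Cfg d => G.indicator (fun x => φ (M.act p.1⁻¹ x)) p.2)
      ((hm N).prod (volume : Measure (Cfg d))) := by
    have h1 := hI.indicator (s := Prod.snd ⁻¹' G) (measurable_snd hG)
    refine h1.congr (ae_of_all _ fun p => ?_)
    beta_reduce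
    by_cases hp : p.2 ∈ G
    · have h2 : p ∈ (Prod.snd ⁻¹' G : Set (BFSS.SU N × Cfg d)) := hp
      rw [Set.indicator_of_mem h2, Set.indicator_of_mem hp]
    · have h2 : p ∉ (Prod.snd ⁻¹' G : Set (BFSS.SU N × Cfg d)) := hp
      rw [Set.indicator_of_notMem h2, Set.indicator_of_notMem hp]
  have hsw := integral_integral_swap (f := fun (U : BFSS.SU N) (x : Cfg d) =>
    G.indicator (fun x => φ (M.act U⁻¹ x)) x) hI2
  have hL : ∫ x in G, avs M φ x = ∫ x, ∫ U, G.indicator (fun x => φ (M.act U⁻¹ x)) x ∂(hm N) := by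
    rw [← integral_indicator hG]
    refine integral_congr_ae (ae_of_all _ fun x => ?_)
    by_cases hx : x ∈ G
    · simp only [Set.indicator_of_mem hx]
      rfl
    · simp only [Set.indicator_of_notMem hx, integral_zero]
  have hRr : ∀ U : BFSS.SU N, ∫ x, G.indicator (fun x => φ (M.act U⁻¹ x)) x = ∫ x in G, φ x := by
    intro U
    rw [← integral_indicator hG]
    have h1 : (fun x => G.indicator (fun x => φ (M.act U⁻¹ x)) x) =
        fun x => (G.indicator φ) (AvgG.actE M h22 U⁻¹ x) := by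
      funext x
      show G.indicator (fun x => φ (M.act U⁻¹ x)) x = G.indicator φ (M.act U⁻¹ x)
      by_cases hx : x ∈ G
      · rw [Set.indicator_of_mem hx, Set.indicator_of_mem ((hGi U⁻¹ x).1 hx)]
      · rw [Set.indicator_of_notMem hx, Set.indicator_of_notMem fun h => hx ((hGi U⁻¹ x).2 h)]
    rw [h1]
    exact (AvgG.actE M h22 U⁻¹).measurePreserving.integral_comp
      (AvgG.actE M h22 U⁻¹).toHomeomorph.measurableEmbedding (G.indicator φ)
  rw [hL, ← hsw]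
  simp only [hRr]
  simp

/-- **LOW4 AVB** -/
theorem avb (M : BFSS.Model N d F) : AvbStmt M := by
  intro hfd h22 φ Om hφ hcs h0 hZ hone hhalf G hG hGi hvol
  have hcF : CompleteSpace F := FiniteDimensional.complete ℂ F
  obtain ⟨R, hR⟩ := hcs.isCompact.isBounded.exists_norm_le
  have hR' : ∀ x, R < ‖x‖ → φ x = 0 := fun x hx =>
    image_eq_zero_of_notMem_tsupport fun h => absurd (hR x h) (not_le.2 hx)
  obtain ⟨B, hB⟩ := hφ.bounded_above_of_compact_support hcs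
  have hB0 : 0 ≤ B := (norm_nonneg _).trans (hB 0)
  set Z : Cfg d → F := fun x => ((φ x : ℝ) : ℂ) • Om x with hZdef
  have hZn : ∀ x, ‖Z x‖ = φ x := by
    intro x
    simp only [hZdef]
    rw [norm_smul, Complex.norm_real, Real.norm_of_nonneg (h0 x)]
    rcases eq_or_ne (φ x) 0 with h | h
    · rw [h, zero_mul]
    · rw [hone x h, mul_one]
  have hpt := avb_pt M h22 φ Om Z hφ h0 (fun _ => rfl) hZ hone hhalf
  have hav0 : ∀ x, 0 ≤ avs M φ x := fun x => integral_nonneg fun U => h0 _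
  -- integrability of `avs φ`
  have hI := avb_int M h22 φ hφ R hR'
  have hIs : Integrable (avs M φ) (volume : Measure (Cfg d)) := hI.integral_prod_right
  have havB : ∀ x, avs M φ x ≤ B := by
    intro x
    unfold avs
    have h1 : ‖∫ U, φ (M.act U⁻¹ x) ∂(hm N)‖ ≤ B * (hm N).real Set.univ :=
      norm_integral_le_of_norm_le_const (ae_of_all _ fun U => hB _)
    rw [probReal_univ, mul_one] at h1
    exact (le_abs_self _).trans h1
  have hIs2 : Integrable (fun x => avs M φ x ^ 2) (volume : Measure (Cfg d)) := by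
    refine Integrable.mono' (hIs.const_mul B) (hIs.aestronglyMeasurable.pow 2)
      (ae_of_all _ fun x => ?_)
    rw [Real.norm_of_nonneg (sq_nonneg _), sq]
    exact mul_le_mul_of_nonneg_right (havB x) (hav0 x)
  -- integrability of `‖avg Z‖²`
  have hsm : StronglyMeasurable (avg M Z) := by
    have h1 : StronglyMeasurable fun p : Cfg d × BFSS.SU N => M.S p.2 (Z (M.act p.2⁻¹ p.1)) :=
      ((AvgG.tr_cont M h22 hZ).comp continuous_swap).stronglyMeasurable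
    exact h1.integral_prod_right
  have hnle : ∀ x, ‖avg M Z x‖ ≤ avs M φ x := by
    intro x
    refine (norm_integral_le_integral_norm _).trans (le_of_eq ?_)
    unfold avs
    refine integral_congr_ae (ae_of_all _ fun U => ?_)
    show ‖M.S U (Z (M.act U⁻¹ x))‖ = φ (M.act U⁻¹ x)
    rw [M.S_isometry, hZn]
  have hIn : Integrable (fun x => ‖avg M Z x‖ ^ 2) (volume : Measure (Cfg d)) := by
    refine Integrable.mono' hIs2 ((hsm.norm.aestronglyMeasurable).pow 2) (ae_of_all _ fun x => ?_)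
    rw [Real.norm_of_nonneg (sq_nonneg _)]
    exact pow_le_pow_left₀ (norm_nonneg _) (hnle x) 2
  have : IsFiniteMeasure ((volume : Measure (Cfg d)).restrict G) :=
    ⟨by rw [Measure.restrict_apply_univ]; exact lt_top_iff_ne_top.2 hvol⟩
  have hcsw := avb_cs ((volume : Measure (Cfg d)).restrict G) (avs M φ) hIs.integrableOn
    hIs2.integrableOn
  rw [avb_fub M h22 φ hφ R hR' G hG hGi] at hcsw
  have hreal : ((volume : Measure (Cfg d)).restrict G).real Set.univ = (volume G).toReal := by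
    rw [measureReal_def, Measure.restrict_apply_univ]
  rw [hreal] at hcsw
  refine hcsw.trans ?_
  have h1 : ∫ x in G, avs M φ x ^ 2 ≤ 4 * nsq (avg M Z) := by
    have h2 : ∫ x in G, avs M φ x ^ 2 ≤ ∫ x, avs M φ x ^ 2 :=
      setIntegral_le_integral hIs2 (ae_of_all _ fun x => sq_nonneg _)
    have h3 : ∫ x, avs M φ x ^ 2 ≤ ∫ x, 4 * ‖avg M Z x‖ ^ 2 := by
      refine integral_mono hIs2 (hIn.const_mul 4) fun x => ?_
      have h4 := hpt x
      have h5 := hav0 x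
      show avs M φ x ^ 2 ≤ 4 * ‖avg M Z x‖ ^ 2
      nlinarith [norm_nonneg (avg M Z x)]
    refine h2.trans (h3.trans (le_of_eq ?_))
    rw [integral_const_mul]
    rfl
  calc (volume G).toReal * ∫ x in G, avs M φ x ^ 2 ≤ (volume G).toReal * (4 * nsq (avg M Z)) :=
        mul_le_mul_of_nonneg_left h1 ENNReal.toReal_nonneg
    _ = _ := by ring

end Vale.Agent.P353.AN.LW
end
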