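import Mathlib
import Vale.Agent.P353.BdA.B1
import Vale.Agent.P353.BdA.B13

set_option linter.all false

section

/-! # P353, all `N`, block C: energy identity for a multiplier given by smooth real matrices -/

open MeasureTheory Filter Topology
open scoped ContDiff Matrix

namespace Vale.Agent.P353.Z.AN.GenPf

variable {dc : ℕ}

variable {F : Type*} [NormedAddCommGroup F] [InnerProductSpace ℂ F]

/-- multiplier `∑ (t^A θ^A)_β` -/
noncomputable def TT (S : Setup dc F) (t : Fin dc → Cfg dc → Matrix (Fin 16) (Fin 16) ℂ)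
    (β : Fin 16) (x : (Cfg dc)) : F →L[ℂ] F :=
  ∑ A, S.vec (t A x) A β

/-- derivative of the matrices -/
noncomputable def dt (t : Fin dc → Cfg dc → Matrix (Fin 16) (Fin 16) ℂ) (j : Fin 9) (B A : Fin dc)
    (x : Cfg dc) : Matrix (Fin 16) (Fin 16) ℂ :=
  Matrix.of fun α α' => fderiv ℝ (fun z => t A z α α') x (EuclideanSpace.single (j, B) 1)

/-- the supercharge with a multiplier -/
noncomputable def QT (S : Setup dc F) (t : Fin dc → Cfg dc → Matrix (Fin 16) (Fin 16) ℂ)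
    (β : Fin 16) (u : (Cfg dc) → F) (x : (Cfg dc)) : F := S.Q0 β u x + TT S t β x (u x)

variable (S : Setup dc F) (t : Fin dc → Cfg dc → Matrix (Fin 16) (Fin 16) ℂ)
  (ht : ∀ A α β, ContDiff ℝ ∞ (fun x => t A x α β))

lemma TT_eq (β : Fin 16) (x : (Cfg dc)) : TT S t β x = ∑ A, S.vec (t A x) A β := rfl

include ht in
lemma contDiff_TT (β : Fin 16) : ContDiff ℝ ∞ (TT S t β) := by
  unfold TT CS.vec
  refine ContDiff.sum fun A _ => ContDiff.sum fun γ _ => ?_
  exact (ht A β γ).smul contDiff_const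

include ht in
lemma fderiv_TT (β : Fin 16) (x : (Cfg dc)) (j : Fin 9) (B : Fin dc) :
    fderiv ℝ (TT S t β) x (EuclideanSpace.single (j, B) (1 : ℝ)) =
      ∑ A, S.vec (dt t j B A x) A β := by
  have hd : HasFDerivAt (TT S t β) (∑ A, ∑ γ,
      (fderiv ℝ (fun z => t A z β γ) x).smulRight (S.th γ A)) x := by
    unfold TT CS.vec
    refine HasFDerivAt.fun_sum fun A _ => HasFDerivAt.fun_sum fun γ _ => ?_
    have h1 : HasFDerivAt (fun z => t A z β γ) (fderiv ℝ (fun z => t A z β γ) x) x :=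
      ((ht A β γ).differentiable (by simp) x).hasFDerivAt
    exact h1.smul_const (S.th γ A)
  rw [hd.fderiv]
  simp only [_root_.sum_apply, ContinuousLinearMap.smulRight_apply, CS.vec, dt, Matrix.of_apply]

variable (hN : ∀ A x α β, (t A x α β).im = 0)

include hN in
lemma TT_symm (β : Fin 16) (x : (Cfg dc)) (v w : F) :
    inner ℂ (TT S t β x v) w = inner ℂ v (TT S t β x w) := by
  rw [TT_eq]
  simp only [_root_.sum_apply, sum_inner, inner_sum, S.vec_symm _ (hN _ x)]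

include ht in
lemma contDiff_QT (β : Fin 16) {u : (Cfg dc) → F} (hu : ContDiff ℝ ∞ u) :
    ContDiff ℝ ∞ (QT S t β u) := by
  unfold QT Setup.Q0
  refine ContDiff.add (contDiff_const.smul (ContDiff.sum fun i _ => ContDiff.sum fun A _ => ?_))
    (Setup.contDiff_clm_apply' (contDiff_TT S t ht β) hu)
  exact Setup.contDiff_clm_apply' contDiff_const (contDiff_pd hu)

lemma hasCompactSupport_QT (β : Fin 16) {u : (Cfg dc) → F} (hu : HasCompactSupport u) :
    HasCompactSupport (QT S t β u) := by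
  refine HasCompactSupport.intro' (K := tsupport u) hu (isClosed_tsupport u) ?_
  intro x hx
  have h0 : u x = 0 := image_eq_zero_of_notMem_tsupport hx
  have h1 : ∀ i A, pd i A u x = 0 := by
    intro i A
    have : fderiv ℝ u x = 0 := by
      have h := (tsupport_fderiv_subset ℝ (f := u))
      by_contra hne
      exact hx (h (subset_tsupport _ hne))
    simp [pd, this]
  simp [QT, Setup.Q0, h0, h1]

include ht in
lemma tst_QT {u : (Cfg dc) → F} (hu : Setup.Tst u) (β : Fin 16) : Setup.Tst (QT S t β u) :=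
  ⟨contDiff_QT S t ht β hu.1, hasCompactSupport_QT S t β hu.2⟩

include ht hN in
theorem QT_symm (β : Fin 16) (u v : (Cfg dc) → F)
    (hu : Setup.Tst u) (hv : ContDiff ℝ ∞ v) :
    ∫ x, inner ℂ (QT S t β u x) (v x) = ∫ x, inner ℂ (u x) (QT S t β v x) := by
  have hv1 : ContDiff ℝ 1 v := hv.of_le (by simp)
  have hu1 : ContDiff ℝ 1 u := hu.1.of_le (by simp)
  have hpt : ∀ x, inner ℂ (QT S t β u x) (v x) - inner ℂ (u x) (QT S t β v x) =
      ∑ i, ∑ A, Complex.I * (fderiv ℝ (fun y => inner ℂ (u y) (S.vec (S.g i) A β (v y))) x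
        (EuclideanSpace.single (i, A) (1 : ℝ))) := by
    intro x
    have hd : ∀ i A, fderiv ℝ (fun y => inner ℂ (u y) (S.vec (S.g i) A β (v y))) x
        (EuclideanSpace.single (i, A) (1 : ℝ)) =
        inner ℂ (u x) (S.vec (S.g i) A β (pd i A v x)) +
          inner ℂ (pd i A u x) (S.vec (S.g i) A β (v x)) := by
      intro i A
      have hdv : DifferentiableAt ℝ v x := (hv1.differentiable (by simp)) x
      have hdT : DifferentiableAt ℝ (fun y => S.vec (S.g i) A β (v y)) x :=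
        ((S.vec (S.g i) A β).restrictScalars ℝ).differentiableAt.comp x hdv
      rw [fderiv_inner_apply ℂ ((hu1.differentiable (by simp)) x) hdT]
      have := pd_clm (i := i) (A := A) (S.vec (S.g i) A β) hdv
      unfold pd at this ⊢
      rw [this]
    simp only [hd, QT, Setup.Q0, inner_add_left, inner_add_right, inner_smul_left, inner_smul_right,
      sum_inner, inner_sum, TT_symm S t hN, S.vec_symm _ (S.g_im _)]
    simp only [map_neg, Complex.conj_I, neg_neg]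
    simp only [mul_add, Finset.sum_add_distrib, Finset.mul_sum]
    simp only [neg_mul, Finset.sum_neg_distrib]
    ring
  have hI : ∫ x, (inner ℂ (QT S t β u x) (v x) - inner ℂ (u x) (QT S t β v x)) = 0 := by
    simp only [hpt]
    have hw : ∀ i A, ContDiff ℝ 1 (fun y => inner ℂ (u y) (S.vec (S.g i) A β (v y))) := by
      intro i A
      exact hu1.inner ℂ ((S.vec (S.g i) A β).restrictScalars ℝ |>.contDiff.comp hv1)
    have hcs : ∀ i A, HasCompactSupport (fun y => inner ℂ (u y) (S.vec (S.g i) A β (v y))) :=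
      fun i A => hu.inner_cs
    have hint : ∀ i A, Integrable (fun x => fderiv ℝ (fun y => inner ℂ (u y)
        (S.vec (S.g i) A β (v y))) x (EuclideanSpace.single (i, A) (1 : ℝ))) := by
      intro i A
      exact (((hw i A).continuous_fderiv (by simp)).clm_apply
        continuous_const).integrable_of_hasCompactSupport ((hcs i A).fderiv_apply (𝕜 := ℝ) _)
    rw [integral_finsetSum _ fun i _ => integrable_finsetSum _ fun A _ => (hint i A).const_mul _]
    refine Finset.sum_eq_zero fun i _ => ?_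
    rw [integral_finsetSum _ fun A _ => (hint i A).const_mul _]
    refine Finset.sum_eq_zero fun A _ => ?_
    rw [integral_const_mul, integral_fderiv_eq_zero _ (hw i A) (hcs i A), mul_zero]
  rw [integral_sub ((tst_QT S t ht hu β).inner_int hv.continuous)
    (hu.inner_int (contDiff_QT S t ht β hv).continuous)] at hI
  exact sub_eq_zero.mp hI

include ht in
lemma pd_QT (b : Fin 16) {u : (Cfg dc) → F} (hu : ContDiff ℝ ∞ u) (j : Fin 9) (B : Fin dc) (x : (Cfg dc)) :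
    pd j B (QT S t b u) x = (-Complex.I) • ∑ i, ∑ A, S.vec (S.g i) A b (pd j B (pd i A u) x)
      + (∑ A, S.vec (dt t j B A x) A b) (u x) + TT S t b x (pd j B u x) := by
  have hd : ∀ i A, DifferentiableAt ℝ (pd i A u) x := fun i A =>
    (contDiff_pd hu).differentiable (by simp) x
  have hdv : ∀ i A, DifferentiableAt ℝ (fun y => S.vec (S.g i) A b (pd i A u y)) x := fun i A =>
    ((S.vec (S.g i) A b).restrictScalars ℝ).differentiableAt.comp x (hd i A)
  have hWd : DifferentiableAt ℝ (TT S t b) x := (contDiff_TT S t ht b).differentiable (by simp) x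
  have hud : DifferentiableAt ℝ u x := hu.differentiable (by simp) x
  have h1 : DifferentiableAt ℝ (fun y => (-Complex.I) • ∑ i, ∑ A,
      S.vec (S.g i) A b (pd i A u y)) x := by
    refine DifferentiableAt.const_smul ?_ _
    refine DifferentiableAt.fun_sum fun i _ => DifferentiableAt.fun_sum fun A _ => hdv i A
  have h2 : DifferentiableAt ℝ (fun y => TT S t b y (u y)) x :=
    (Setup.contDiff_clm_apply' (contDiff_TT S t ht b) hu).differentiable (by simp) x
  have e : QT S t b u = fun y => (-Complex.I) • ∑ i, ∑ A, S.vec (S.g i) A b (pd i A u y)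
      + TT S t b y (u y) := rfl
  rw [e, pd_add h1 h2, pd_clm_apply hWd hud, ← add_assoc, fderiv_TT S t ht]
  congr 2
  have h3 : pd j B (fun y => (-Complex.I) • ∑ i, ∑ A, S.vec (S.g i) A b (pd i A u y)) x =
      (-Complex.I) • pd j B (fun y => ∑ i, ∑ A, S.vec (S.g i) A b (pd i A u y)) x := by
    unfold pd
    rw [fderiv_fun_const_smul]
    · rfl
    · exact DifferentiableAt.fun_sum fun i _ => DifferentiableAt.fun_sum fun A _ => hdv i A
  rw [h3]
  congr 1
  rw [pd_sum _ (fun i _ => DifferentiableAt.fun_sum fun A _ => hdv i A)]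
  refine Finset.sum_congr rfl fun i _ => ?_
  rw [pd_sum _ (fun A _ => hdv i A)]
  refine Finset.sum_congr rfl fun A _ => ?_
  rw [pd_clm _ (hd i A)]

/-- first order terms vanish -/
lemma first_order_TT (h1 : ∀ i A x, (S.g i * (t A x)ᵀ).trace = 0) (j : Fin 9) (B : Fin dc)
    (x : (Cfg dc)) :
    ∑ b, (S.vec (S.g j) B b * TT S t b x + TT S t b x * S.vec (S.g j) B b) = 0 := by
  have h : ∀ b, S.vec (S.g j) B b * TT S t b x + TT S t b x * S.vec (S.g j) B b =
      ∑ A, (if B = A then ((S.g j * (t A x)ᵀ) b b) • (1 : F →L[ℂ] F) else 0) := by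
    intro b
    rw [TT_eq, Finset.mul_sum, Finset.sum_mul, ← Finset.sum_add_distrib]
    simp only [S.vec_anti]
  simp only [h]
  rw [Finset.sum_comm]
  refine Finset.sum_eq_zero fun A _ => ?_
  by_cases hA : B = A
  · simp only [hA, if_true, ← Finset.sum_smul]
    have h3 : ∑ b, (S.g j * (t A x)ᵀ) b b = (S.g j * (t A x)ᵀ).trace := rfl
    have h4 : (S.g j * (t A x)ᵀ).trace = 0 := h1 j A x
    rw [h3, h4, zero_smul]
  · simp [hA]

/-- the square of the multiplier -/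
lemma zero_order_TT (x : (Cfg dc)) :
    ∑ b, TT S t b x * TT S t b x =
      ((1 / 2 : ℂ) * ∑ A, (t A x * (t A x)ᵀ).trace) • (1 : F →L[ℂ] F) := by
  have h : ∀ b, (2 : ℂ) • (TT S t b x * TT S t b x) =
      ∑ A, ((t A x * (t A x)ᵀ) b b) • (1 : F →L[ℂ] F) := by
    intro b
    have e1 : TT S t b x * TT S t b x = ∑ A, ∑ B, S.vec (t A x) A b * S.vec (t B x) B b := by
      rw [TT_eq, Finset.sum_mul_sum]
    have e2 : TT S t b x * TT S t b x = ∑ A, ∑ B, S.vec (t B x) B b * S.vec (t A x) A b := by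
      rw [e1, Finset.sum_comm]
    rw [two_smul]
    nth_rewrite 1 [e1]
    rw [e2, ← Finset.sum_add_distrib]
    simp only [← Finset.sum_add_distrib, S.vec_anti]
    simp
  have h2 : (2 : ℂ) • ∑ b, TT S t b x * TT S t b x =
      (∑ A, (t A x * (t A x)ᵀ).trace) • (1 : F →L[ℂ] F) := by
    rw [Finset.smul_sum]
    simp only [h]
    rw [Finset.sum_comm, Finset.sum_smul]
    refine Finset.sum_congr rfl fun A _ => ?_
    rw [← Finset.sum_smul]
    rfl
  rw [mul_smul, ← h2, smul_smul]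
  norm_num

/-- the zeroth order term with the derivatives of the matrices -/
noncomputable def KT (x : Cfg dc) : F →L[ℂ] F :=
  (-Complex.I) • ∑ b, ∑ j, ∑ B, S.vec (S.g j) B b * (∑ A, S.vec (dt t j B A x) A b)

lemma KT_apply (x : Cfg dc) (v : F) : KT S t x v = (-Complex.I) • ∑ β, ∑ j, ∑ B,
    S.vec (S.g j) B β (∑ A, S.vec (dt t j B A x) A β v) := by
  unfold KT
  simp only [_root_.smul_apply, _root_.sum_apply, mul_apply_eq_comp]

include ht in
lemma cont_KT : Continuous (KT S t) := by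
  have hc : ∀ j B A b, Continuous (fun x => S.vec (dt t j B A x) A b) := by
    intro j B A b
    unfold CS.vec
    refine continuous_finsetSum _ fun γ _ => ?_
    have h1 : Continuous (fun x => dt t j B A x b γ) :=
      ((ht A b γ).continuous_fderiv (by simp)).clm_apply continuous_const
    exact h1.smul continuous_const
  have hc2 : Continuous (fun x => ∑ b, ∑ j, ∑ B, S.vec (S.g j) B b *
      (∑ A, S.vec (dt t j B A x) A b)) :=
    continuous_finsetSum _ fun b _ => continuous_finsetSum _ fun j _ =>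
      continuous_finsetSum _ fun B _ => continuous_const.mul
        (continuous_finsetSum _ fun A _ => hc j B A b)
  exact hc2.const_smul (-Complex.I)

include ht in
/-- `∑_b Q_b Q_b u` -/
theorem sum_QTQT (h1 : ∀ i A x, (S.g i * (t A x)ᵀ).trace = 0) {u : (Cfg dc) → F}
    (hu : ContDiff ℝ ∞ u) (x : (Cfg dc)) :
    ∑ b, QT S t b (QT S t b u) x = -((8 : ℂ) • ∑ i, ∑ A, pd i A (pd i A u) x) +
      ((1 / 2 : ℂ) * ∑ A, (t A x * (t A x)ᵀ).trace) • u x + KT S t x (u x) := by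
  have h0 : ∀ b, QT S t b (QT S t b u) x =
      -(∑ j, ∑ B, ∑ i, ∑ A, S.vec (S.g j) B b (S.vec (S.g i) A b (pd j B (pd i A u) x)))
      + ((-Complex.I) • ∑ j, ∑ B, S.vec (S.g j) B b * (∑ A, S.vec (dt t j B A x) A b)) (u x)
      + (-Complex.I) • ∑ j, ∑ B, (S.vec (S.g j) B b * TT S t b x + TT S t b x * S.vec (S.g j) B b)
          (pd j B u x)
      + (TT S t b x * TT S t b x) (u x) := by
    intro b
    conv_lhs => rw [QT, Setup.Q0]
    simp only [pd_QT S t ht b hu]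
    rw [QT, Setup.Q0]
    simp only [map_add, map_smul, map_sum, Finset.sum_add_distrib, smul_add,
      _root_.smul_apply, _root_.sum_apply, _root_.add_apply, mul_apply_eq_comp,
      ← Finset.smul_sum, smul_smul]
    have hI : (-Complex.I) * (-Complex.I) = -1 := by
      rw [neg_mul_neg, Complex.I_mul_I]
    rw [hI, neg_one_smul]
    abel
  simp only [h0, Finset.sum_add_distrib, Finset.sum_neg_distrib]
  rw [S.second_order (fun j B i A => pd j B (pd i A u) x)
    (fun i A j B => pd_comm hu i j A B x)]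
  have h2 : ∑ b, ((-Complex.I) • ∑ j, ∑ B, S.vec (S.g j) B b *
      (∑ A, S.vec (dt t j B A x) A b)) (u x) = KT S t x (u x) := by
    rw [← _root_.sum_apply, ← Finset.smul_sum]
    rfl
  have h3 : ∑ b, (-Complex.I) • ∑ j, ∑ B, (S.vec (S.g j) B b * TT S t b x +
      TT S t b x * S.vec (S.g j) B b) (pd j B u x) = 0 := by
    rw [← Finset.smul_sum, Finset.sum_comm]
    have : ∀ j, ∑ b, ∑ B, (S.vec (S.g j) B b * TT S t b x +
      TT S t b x * S.vec (S.g j) B b) (pd j B u x) = 0 := by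
      intro j
      rw [Finset.sum_comm]
      refine Finset.sum_eq_zero fun B _ => ?_
      rw [← _root_.sum_apply, first_order_TT S t h1]
      rfl
    simp only [this, Finset.sum_const_zero, smul_zero]
  have h4 : ∑ b, (TT S t b x * TT S t b x) (u x) =
      ((1 / 2 : ℂ) * ∑ A, (t A x * (t A x)ᵀ).trace) • u x := by
    rw [← _root_.sum_apply, zero_order_TT]
    rfl
  rw [h2, h3, h4]
  abel

include ht hN in
/-- the energy identity -/
theorem energy_QT (h1 : ∀ i A x, (S.g i * (t A x)ᵀ).trace = 0) (q : (Cfg dc) → ℝ)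
    (hq : Continuous q)
    (h2 : ∀ x, (1 / 2 : ℂ) * ∑ A, (t A x * (t A x)ᵀ).trace = ((q x : ℝ) : ℂ))
    (u : (Cfg dc) → F) (hu : Setup.Tst u) :
    ∑ β, nsq (QT S t β u) = 8 * (∑ i, ∑ A, nsq (pd i A u)) + (∫ x, q x * ‖u x‖ ^ 2)
        + (∫ x, inner ℂ (u x) (KT S t x (u x))).re := by
  have hI : ∀ v : (Cfg dc) → F, Setup.Tst v → ((nsq v : ℝ) : ℂ) = ∫ x, inner ℂ (v x) (v x) := by
    intro v _
    rw [nsq, ← integral_complex_ofReal]
    congr 1
    ext x
    rw [inner_self_eq_norm_sq_to_K]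
    norm_cast
  have h3 : ((∑ β, nsq (QT S t β u) : ℝ) : ℂ) =
      ∫ x, inner ℂ (u x) (∑ b, QT S t b (QT S t b u) x) := by
    push_cast
    simp only [inner_sum]
    rw [integral_finsetSum]
    · refine Finset.sum_congr rfl fun b _ => ?_
      rw [hI _ (tst_QT S t ht hu b), QT_symm S t ht hN b u _ hu (contDiff_QT S t ht b hu.1)]
    · intro b _
      exact hu.inner_int (contDiff_QT S t ht b (contDiff_QT S t ht b hu.1)).continuous
  have hF : Continuous (fun x => KT S t x (u x)) := (cont_KT S t ht).clm_apply hu.1.continuous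
  have h4 : ∀ x, inner ℂ (u x) (∑ b, QT S t b (QT S t b u) x) =
      -(8 : ℂ) * ∑ i, ∑ A, inner ℂ (u x) (pd i A (pd i A u) x) +
      ((q x * ‖u x‖ ^ 2 : ℝ) : ℂ) + inner ℂ (u x) (KT S t x (u x)) := by
    intro x
    rw [sum_QTQT S t ht h1 hu.1, h2, inner_add_right, inner_add_right, inner_neg_right,
      inner_smul_right, inner_smul_right]
    simp only [inner_sum, inner_self_eq_norm_sq_to_K]
    push_cast
    simp only [Complex.coe_algebraMap]
    ring
  have h5 : (∫ x, inner ℂ (u x) (∑ b, QT S t b (QT S t b u) x)) =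
      (8 : ℂ) * ∑ i, ∑ A, ((nsq (pd i A u) : ℝ) : ℂ) +
      ((∫ x, q x * ‖u x‖ ^ 2 : ℝ) : ℂ) +
      ∫ x, inner ℂ (u x) (KT S t x (u x)) := by
    simp only [h4]
    have i1 : ∀ i A, Integrable (fun x => inner ℂ (u x) (pd i A (pd i A u) x)) := fun i A =>
      hu.inner_int (contDiff_pd (contDiff_pd hu.1)).continuous
    have i1' : Integrable (fun x => -(8 : ℂ) * ∑ i, ∑ A, inner ℂ (u x) (pd i A (pd i A u) x)) :=
      (integrable_finsetSum _ fun i _ => integrable_finsetSum _ fun A _ => i1 i A).const_mul _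
    have i2 : Integrable (fun x => ((q x * ‖u x‖ ^ 2 : ℝ) : ℂ)) :=
      (hu.mul_norm_sq_int hq).ofReal
    have i3 : Integrable (fun x => inner ℂ (u x) (KT S t x (u x))) :=
      (hu.inner_int hF)
    have i12 : Integrable (fun x => -(8 : ℂ) * ∑ i, ∑ A, inner ℂ (u x) (pd i A (pd i A u) x) +
        ((q x * ‖u x‖ ^ 2 : ℝ) : ℂ)) := i1'.add i2
    rw [integral_add i12 i3, integral_add i1' i2, integral_const_mul, integral_complex_ofReal]
    congr 2
    rw [integral_finsetSum _ fun i _ => integrable_finsetSum _ fun A _ => i1 i A, neg_mul,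
      ← mul_neg, ← Finset.sum_neg_distrib]
    congr 1
    refine Finset.sum_congr rfl fun i _ => ?_
    rw [integral_finsetSum _ fun A _ => i1 i A, ← Finset.sum_neg_distrib]
    refine Finset.sum_congr rfl fun A _ => ?_
    rw [← integral_inner_pd u (pd i A u) (hu.1.of_le (by simp)) ((contDiff_pd hu.1).of_le (by simp))
      hu.2 i A, hI _ (hu.pd i A)]
  have h6 := h3.trans h5
  have h7 := congrArg Complex.re h6
  rw [Complex.ofReal_re] at h7
  rw [h7]
  simp only [Complex.add_re, Complex.ofReal_re, ← Complex.ofReal_sum]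
  congr 2
  simp

end Vale.Agent.P353.Z.AN.GenPf

namespace Vale.Agent.P353.Z.AN

variable {d : ℕ} {F : Type*} [NormedAddCommGroup F] [InnerProductSpace ℂ F]

theorem gen_stmt (S : Setup d F) : GenStmt S := by
  intro t ht hN h1 u hu
  have hre : ∀ x, ((1 / 2 : ℂ) * ∑ A, (t A x * (t A x).transpose).trace) =
      (((1 / 2) * (∑ A, (t A x * (t A x).transpose).trace).re : ℝ) : ℂ) := by
    intro x
    have him : (∑ A, (t A x * (t A x).transpose).trace).im = 0 := by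
      rw [Complex.im_sum]
      refine Finset.sum_eq_zero fun A _ => ?_
      rw [Matrix.trace, Complex.im_sum]
      refine Finset.sum_eq_zero fun α _ => ?_
      rw [Matrix.diag_apply, Matrix.mul_apply, Complex.im_sum]
      refine Finset.sum_eq_zero fun β _ => ?_
      rw [Matrix.transpose_apply, Complex.mul_im, hN]
      ring
    apply Complex.ext
    · simp [Complex.mul_re]
    · simp [Complex.mul_im, him]
  have hq : Continuous (fun x => (1 / 2) * (∑ A, (t A x * (t A x).transpose).trace).re) := by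
    refine continuous_const.mul (Complex.continuous_re.comp ?_)
    refine continuous_finsetSum _ fun A _ => ?_
    unfold Matrix.trace
    refine continuous_finsetSum _ fun α _ => ?_
    simp only [Matrix.diag_apply, Matrix.mul_apply, Matrix.transpose_apply]
    exact continuous_finsetSum _ fun β _ => (ht A α β).continuous.mul (ht A α β).continuous
  have key := GenPf.energy_QT S t ht hN h1 _ hq hre u hu
  have e1 : ∀ β, nsq (fun x => S.Q0 β u x + ∑ A, S.vec (t A x) A β (u x)) =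
      nsq (GenPf.QT S t β u) := by
    intro β
    congr 1
    funext x
    rw [GenPf.QT, GenPf.TT, _root_.sum_apply]
  simp only [e1]
  rw [key]
  have e2 : ∫ x, (1 / 2) * (∑ A, (t A x * (t A x).transpose).trace).re * ‖u x‖ ^ 2 =
      (1 / 2) * ∫ x, (∑ A, (t A x * (t A x).transpose).trace).re * ‖u x‖ ^ 2 := by
    rw [← integral_const_mul]
    congr 1
    funext x
    ring
  rw [e2]
  simp only [GenPf.KT_apply, GenPf.dt]

end Vale.Agent.P353.Z.AN
end

section

/-! # P353, all `N`, block D: L11, the zero mode coefficients tend to zero -/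

open MeasureTheory Filter Topology Matrix
open scoped ContDiff

namespace Vale.Agent.P353.Z.AD.Rel

variable {d dh dm ds dz : ℕ} {F : Type*} [NormedAddCommGroup F] [InnerProductSpace ℂ F]

/-- inner product as a real bilinear map -/
noncomputable def ipL (F : Type*) [NormedAddCommGroup F] [InnerProductSpace ℂ F] : F →L[ℝ] F →L[ℝ] ℂ :=
  IsBoundedBilinearMap.toContinuousLinearMap (𝕜 := ℝ) (f := fun p : F × F => inner ℂ p.1 p.2) isBoundedBilinearMap_inner

lemma ipL_apply (a b : F) : ipL F a b = inner ℂ a b := rfl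

/-- smoothness of the pairing -/
lemma pair_smooth {o : Cfg ds → F} (ho : LocallyIntegrable o volume) {g : Cfg dz × Cfg ds → F}
    (hg : ContDiff ℝ ∞ g) (hc : HasCompactSupport g) :
    ContDiff ℝ ∞ (fun yz => ∫ ys, inner ℂ (o ys) (g (yz, ys))) := by
  have hk : IsCompact ((fun p : Cfg dz × Cfg ds => -p.2) '' tsupport g) :=
    hc.isCompact.image (by fun_prop)
  have h1 := contDiffOn_convolution_right_with_param (𝕜 := ℝ) (μ := (volume : Measure (Cfg ds))) (n := ⊤) (f := o) (ipL F)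
    (g := fun (p : Cfg dz) (x : Cfg ds) => g (p, -x)) (s := Set.univ)
    (k := (fun p : Cfg dz × Cfg ds => -p.2) '' tsupport g) isOpen_univ hk ?_ ho ?_
  · have h2 : ContDiff ℝ ∞ (fun yz : Cfg dz => ((yz, 0) : Cfg dz × Cfg ds)) := by fun_prop
    have h3 := h1.comp (s := Set.univ) h2.contDiffOn (fun x _ => by simp)
    rw [contDiffOn_univ] at h3
    have h4 : (fun yz => ∫ ys, inner ℂ (o ys) (g (yz, ys))) =
        ((fun q : Cfg dz × Cfg ds => convolution o (fun x => g (q.1, -x)) (ipL F) volume q.2) ∘ fun yz => (yz, 0)) := by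
      funext yz
      simp only [Function.comp, MeasureTheory.convolution, ipL_apply]
      refine integral_congr_ae (Eventually.of_forall fun t => ?_)
      simp
    rw [h4]
    exact h3
  · intro p x _ hx
    by_contra hne
    exact hx ⟨(p, -x), subset_tsupport _ hne, by simp⟩
  · refine ContDiff.contDiffOn ?_
    have : (↿fun (p : Cfg dz) (x : Cfg ds) => g (p, -x)) = fun q : Cfg dz × Cfg ds => g (q.1, -q.2) := rfl
    rw [this]
    exact hg.comp (by fun_prop)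

/-- `o` times a bounded continuous function with compact support in `ys` -/
lemma pair_int {o : Cfg ds → F} (ho : LocallyIntegrable o volume) {q : Cfg ds → F} (hq : Continuous q)
    (hc : HasCompactSupport q) : Integrable (fun ys => inner ℂ (o ys) (q ys)) volume := by
  obtain ⟨C, hC⟩ := hc.exists_bound_of_continuous hq
  have h1 : IntegrableOn o (tsupport q) volume := ho.integrableOn_isCompact hc.isCompact
  have h2 : Integrable (fun ys => (tsupport q).indicator (fun ys => C * ‖o ys‖) ys) volume := by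
    rw [integrable_indicator_iff (isClosed_tsupport q).measurableSet]
    exact h1.norm.const_mul C
  refine h2.mono' (ho.aestronglyMeasurable.inner hq.aestronglyMeasurable) (Eventually.of_forall fun ys => ?_)
  by_cases h : ys ∈ tsupport q
  · rw [Set.indicator_of_mem h]
    refine (norm_inner_le_norm _ _).trans ?_
    rw [mul_comm]
    exact mul_le_mul_of_nonneg_right (hC ys) (norm_nonneg _)
  · rw [Set.indicator_of_notMem h, image_eq_zero_of_notMem_tsupport h]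
    simp

/-- derivative of the pairing -/
lemma pair_pd {o : Cfg ds → F} (ho : LocallyIntegrable o volume) {g : Cfg dz × Cfg ds → F}
    (hg : ContDiff ℝ ∞ g) (hc : HasCompactSupport g) (i : Fin 9) (A : Fin dz) (yz : Cfg dz) :
    pd i A (fun yz => ∫ ys, inner ℂ (o ys) (g (yz, ys))) yz =
      ∫ ys, inner ℂ (o ys) (pd i A (fun z => g (z, ys)) yz) := by
  set e : Cfg dz := EuclideanSpace.single (i, A) 1 with he
  have hd : Differentiable ℝ g := hg.differentiable (by simp)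
  have hsm := pair_smooth ho hg hc
  have hdf : DifferentiableAt ℝ (fun yz => ∫ ys, inner ℂ (o ys) (g (yz, ys))) yz :=
    (hsm.differentiable (by simp)) yz
  -- derivative of g in the direction (e, 0)
  have hg' : Continuous (fun p => fderiv ℝ g p (e, 0)) :=
    (hg.continuous_fderiv (by simp)).clm_apply continuous_const
  have hc' : HasCompactSupport (fun p => fderiv ℝ g p (e, 0)) := by
    refine (hc.fderiv (𝕜 := ℝ)).mono fun p hp => ?_
    intro h
    simp only [Function.mem_support] at hp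
    apply hp
    rw [h]
    rfl
  obtain ⟨C, hC⟩ := hc'.exists_bound_of_continuous hg'
  have hpd : ∀ z ys, pd i A (fun z => g (z, ys)) z = fderiv ℝ g (z, ys) (e, 0) := by
    intro z ys
    have h1 : HasFDerivAt (fun z => g (z, ys)) ((fderiv ℝ g (z, ys)).comp (ContinuousLinearMap.inl ℝ (Cfg dz) (Cfg ds))) z := by
      have h0 : HasFDerivAt (fun x : Cfg dz => ((x, ys) : Cfg dz × Cfg ds)) ((ContinuousLinearMap.id ℝ (Cfg dz)).prod 0) z :=
        (hasFDerivAt_id z).prodMk (hasFDerivAt_const ys z)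
      have h1 : HasFDerivAt g (fderiv ℝ g (z, ys)) (z, ys) := (hd (z, ys)).hasFDerivAt
      have := h1.comp z h0
      refine this.congr_fderiv ?_
      ext v
      simp
    unfold pd
    rw [h1.fderiv]
    simp [he]
  set T : Set (Cfg ds) := Prod.snd '' tsupport g with hT
  have hTc : IsCompact T := hc.isCompact.image continuous_snd
  have hline : ∀ (ys : Cfg ds) (t : ℝ), HasDerivAt (fun t : ℝ => inner ℂ (o ys) (g (yz + t • e, ys)))
      (inner ℂ (o ys) (fderiv ℝ g (yz + t • e, ys) (e, 0))) t := by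
    intro ys t
    have h1 : HasDerivAt (fun t : ℝ => ((yz + t • e, ys) : Cfg dz × Cfg ds)) (e, 0) t := by
      refine HasDerivAt.prodMk ?_ (hasDerivAt_const t ys)
      simpa using ((hasDerivAt_id t).smul_const e).const_add yz
    have h2 := (hd (yz + t • e, ys)).hasFDerivAt.comp_hasDerivAt t h1
    exact (ipL F (o ys)).hasFDerivAt.comp_hasDerivAt t h2
  have hmain := hasDerivAt_integral_of_dominated_loc_of_deriv_le (𝕜 := ℝ) (μ := (volume : Measure (Cfg ds)))
    (F := fun (t : ℝ) ys => inner ℂ (o ys) (g (yz + t • e, ys)))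
    (F' := fun (t : ℝ) ys => inner ℂ (o ys) (fderiv ℝ g (yz + t • e, ys) (e, 0)))
    (x₀ := (0 : ℝ)) (s := Set.univ) (bound := fun ys => T.indicator (fun ys => C * ‖o ys‖) ys) Filter.univ_mem ?_ ?_ ?_ ?_ ?_ ?_
  · have h1 := hmain.2
    have h2 : HasDerivAt (fun t : ℝ => ∫ ys, inner ℂ (o ys) (g (yz + t • e, ys)))
        (fderiv ℝ (fun yz => ∫ ys, inner ℂ (o ys) (g (yz, ys))) yz e) 0 := by
      have h3 : HasDerivAt (fun t : ℝ => yz + t • e) e 0 := by
        simpa using ((hasDerivAt_id (0 : ℝ)).smul_const e).const_add yz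
      have h4 : HasFDerivAt (fun yz => ∫ ys, inner ℂ (o ys) (g (yz, ys)))
          (fderiv ℝ (fun yz => ∫ ys, inner ℂ (o ys) (g (yz, ys))) yz) (yz + (0 : ℝ) • e) := by
        rw [zero_smul, add_zero]
        exact hdf.hasFDerivAt
      exact h4.comp_hasDerivAt (0 : ℝ) h3
    have h5 := h2.unique h1
    unfold pd at *
    rw [h5]
    refine integral_congr_ae (Eventually.of_forall fun ys => ?_)
    simp only [zero_smul, add_zero]
    rw [← hpd]
  · refine Eventually.of_forall fun t => ho.aestronglyMeasurable.inner ?_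
    exact (hg.continuous.comp (by fun_prop)).aestronglyMeasurable
  · refine pair_int ho (q := fun ys => g (yz + (0 : ℝ) • e, ys)) (hg.continuous.comp (by fun_prop)) ?_
    refine HasCompactSupport.intro hTc fun ys hys => ?_
    by_contra hne
    exact hys ⟨(yz + (0 : ℝ) • e, ys), subset_tsupport _ hne, rfl⟩
  · refine ho.aestronglyMeasurable.inner ?_
    exact (hg'.comp (by fun_prop : Continuous fun ys : Cfg ds => ((yz + (0 : ℝ) • e, ys) : Cfg dz × Cfg ds))).aestronglyMeasurable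
  · refine Eventually.of_forall fun ys t _ => ?_
    by_cases h : ys ∈ T
    · rw [Set.indicator_of_mem h]
      refine (norm_inner_le_norm _ _).trans ?_
      rw [mul_comm]
      exact mul_le_mul_of_nonneg_right (hC _) (norm_nonneg _)
    · rw [Set.indicator_of_notMem h]
      have : fderiv ℝ g (yz + t • e, ys) = 0 := by
        by_contra hne
        exact h ⟨(yz + t • e, ys), support_fderiv_subset ℝ (f := g) hne, rfl⟩
      simp [this]
  · rw [integrable_indicator_iff hTc.isClosed.measurableSet]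
    exact (ho.integrableOn_isCompact hTc).norm.const_mul C
  · exact Eventually.of_forall fun ys t _ => hline ys t

/-- tails of integrable functions -/
lemma tail_zero {E : Type*} [NormedAddCommGroup E] [MeasurableSpace E] [BorelSpace E] {μ : Measure E} {f : E → ℝ}
    (hf : Integrable f μ) {a : ℕ → ℝ} (ha : Tendsto a atTop atTop) :
    Tendsto (fun n => ∫ x, Set.indicator {x | a n ≤ ‖x‖} f x ∂μ) atTop (𝓝 0) := by
  have h := tendsto_integral_of_dominated_convergence (μ := μ) (F := fun n x => Set.indicator {x | a n ≤ ‖x‖} f x)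
    (f := fun _ => (0 : ℝ)) (fun x => ‖f x‖) ?_ hf.norm ?_ ?_
  · simpa using h
  · intro n
    exact hf.aestronglyMeasurable.indicator (measurableSet_le measurable_const measurable_norm)
  · intro n
    exact Eventually.of_forall fun x => norm_indicator_le_norm_self f x
  · refine Eventually.of_forall fun x => ?_
    refine tendsto_const_nhds.congr' ?_
    filter_upwards [ha.eventually_gt_atTop ‖x‖] with n hn
    rw [Set.indicator_of_notMem]
    simpa using hn

lemma finrank_w : Module.finrank ℝ (Wsp dm) = 8 * dm := by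
  rw [finrank_euclideanSpace]
  simp

lemma finrank_c : Module.finrank ℝ (Cfg dz) = 9 * dz := by
  rw [finrank_euclideanSpace]
  simp

/-- scaling of the Gaussian bound -/
lemma gauss_scale (C c R a : ℝ) (hR : 0 < R) :
    ∫ w : Wsp dm, Set.indicator {w | a ≤ ‖w‖} (fun w => (C * R ^ (2 * dm) * Real.exp (-(c * R * ‖w‖ ^ 2))) ^ 2) w =
      C ^ 2 * ∫ w : Wsp dm, Set.indicator {w | Real.sqrt R * a ≤ ‖w‖} (fun w => Real.exp (-(2 * c * ‖w‖ ^ 2))) w := by
  have hs : 0 < Real.sqrt R := Real.sqrt_pos.2 hR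
  have h1 := Measure.integral_comp_smul (volume : Measure (Wsp dm))
    (fun w => Set.indicator {w | Real.sqrt R * a ≤ ‖w‖} (fun w => Real.exp (-(2 * c * ‖w‖ ^ 2))) w) (Real.sqrt R)
  have h2 : ∀ w : Wsp dm, Set.indicator {w | a ≤ ‖w‖} (fun w => (C * R ^ (2 * dm) * Real.exp (-(c * R * ‖w‖ ^ 2))) ^ 2) w =
      (C ^ 2 * Real.sqrt R ^ (8 * dm)) * Set.indicator {w | Real.sqrt R * a ≤ ‖w‖} (fun w => Real.exp (-(2 * c * ‖w‖ ^ 2)))
        (Real.sqrt R • w) := by
    intro w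
    have h3 : (Real.sqrt R * a ≤ ‖Real.sqrt R • w‖) ↔ a ≤ ‖w‖ := by
      rw [norm_smul, Real.norm_eq_abs, abs_of_pos hs]
      exact mul_le_mul_iff_right₀ hs
    by_cases h : a ≤ ‖w‖
    · rw [Set.indicator_of_mem (show w ∈ {w : Wsp dm | a ≤ ‖w‖} from h), Set.indicator_of_mem
        (show Real.sqrt R • w ∈ {w : Wsp dm | Real.sqrt R * a ≤ ‖w‖} from h3.2 h)]
      rw [norm_smul, Real.norm_eq_abs, abs_of_pos hs, mul_pow, mul_pow, mul_pow, Real.sq_sqrt hR.le, ← Real.exp_nat_mul]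
      have h4 : Real.sqrt R ^ (8 * dm) = (R ^ (2 * dm)) ^ 2 := by
        have : Real.sqrt R ^ (8 * dm) = (Real.sqrt R ^ 2) ^ (4 * dm) := by
          rw [← pow_mul]; congr 1; ring
        rw [this, Real.sq_sqrt hR.le, ← pow_mul]; congr 1; ring
      rw [h4]
      congr 2
      push_cast
      ring
    · rw [Set.indicator_of_notMem (show w ∉ {w : Wsp dm | a ≤ ‖w‖} from h), Set.indicator_of_notMem
        (show Real.sqrt R • w ∉ {w : Wsp dm | Real.sqrt R * a ≤ ‖w‖} from fun h' => h (h3.1 h')), mul_zero]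
  rw [integral_congr_ae (Eventually.of_forall h2), integral_const_mul, h1, finrank_w]
  have h5 : 0 < Real.sqrt R ^ (8 * dm) := by positivity
  rw [abs_of_pos (inv_pos.2 h5), smul_eq_mul]
  field_simp

lemma gauss_int (b : ℝ) (hb : 0 < b) : Integrable (fun w : Wsp dm => Real.exp (-(b * ‖w‖ ^ 2))) := by
  have h := GaussianFourier.integrable_cexp_neg_mul_sq_norm_add (V := Wsp dm) (b := (b : ℂ)) (by simpa using hb) 0 0
  have h2 := h.norm
  refine h2.congr (Eventually.of_forall fun w => ?_)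
  simp only [Complex.norm_exp]
  congr 1
  simp [← Complex.ofReal_pow]

lemma tends_of {X δ : ℕ → ℝ} {C1 C2 : ℝ} (h2 : 0 ≤ C2) (hδ : Tendsto δ atTop (𝓝 0)) (hX : ∀ n, 0 ≤ X n)
    (h : ∀ η : ℝ, 0 < η → ∀ n, X n ≤ C1 * δ n / η + C2 * η) : Tendsto X atTop (𝓝 0) := by
  rw [Metric.tendsto_atTop]
  intro e he
  set η := e / (2 * (C2 + 1)) with hη
  have hη0 : 0 < η := by positivity
  have h3 : Tendsto (fun n => C1 * δ n / η + C2 * η) atTop (𝓝 (C1 * 0 / η + C2 * η)) :=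
    ((hδ.const_mul C1).div_const η).add_const _
  have h4 : C1 * 0 / η + C2 * η < e := by
    rw [hη, mul_zero, zero_div, zero_add, ← mul_div_assoc, div_lt_iff₀ (by positivity)]
    nlinarith
  obtain ⟨N, hN⟩ := (eventually_atTop.1 (h3.eventually (gt_mem_nhds h4)))
  refine ⟨N, fun n hn => ?_⟩
  rw [Real.dist_eq, sub_zero, abs_of_nonneg (hX n)]
  exact (h η hη0 n).trans_lt (hN n hn)

/-- Lebesgue measure on the product of two balls -/
noncomputable def mB (ds dm : ℕ) (ρ : ℝ) : Measure (Cfg ds × Wsp dm) :=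
  (volume.restrict (Metric.ball (0 : Cfg ds) ρ)).prod (volume.restrict (Metric.ball (0 : Wsp dm) ρ))

lemma mB_eq (ρ : ℝ) : mB ds dm ρ = ((volume : Measure (Cfg ds)).prod (volume : Measure (Wsp dm))).restrict
    (Metric.ball (0 : Cfg ds) ρ ×ˢ Metric.ball (0 : Wsp dm) ρ) := Measure.prod_restrict _ _

instance mB_fin (ρ : ℝ) : IsFiniteMeasure (mB ds dm ρ) := by
  have h1 : IsFiniteMeasure (volume.restrict (Metric.ball (0 : Cfg ds) ρ)) := ⟨by
    rw [Measure.restrict_apply_univ]; exact measure_ball_lt_top⟩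
  have h2 : IsFiniteMeasure (volume.restrict (Metric.ball (0 : Wsp dm) ρ)) := ⟨by
    rw [Measure.restrict_apply_univ]; exact measure_ball_lt_top⟩
  unfold mB
  infer_instance

lemma mB_ae (ρ : ℝ) : ∀ᵐ p ∂(mB ds dm ρ), ‖p.1‖ < ρ ∧ ‖p.2‖ < ρ := by
  rw [mB_eq]
  filter_upwards [ae_restrict_mem (Metric.isOpen_ball.measurableSet.prod Metric.isOpen_ball.measurableSet)] with p hp
  simpa using hp

/-- continuous functions are bounded on the product of the balls -/
lemma mB_bd {E : Type*} [NormedAddCommGroup E] {Q : Cfg ds × Wsp dm → E} (hQ : Continuous Q) (ρ : ℝ) :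
    ∃ C : ℝ, 0 ≤ C ∧ ∀ p : Cfg ds × Wsp dm, ‖p.1‖ ≤ ρ → ‖p.2‖ ≤ ρ → ‖Q p‖ ≤ C := by
  obtain ⟨C, hC⟩ := ((isCompact_closedBall (0 : Cfg ds) ρ).prod (isCompact_closedBall (0 : Wsp dm) ρ)).exists_bound_of_continuousOn
    hQ.continuousOn
  refine ⟨max C 0, le_max_right _ _, fun p h1 h2 => (hC p ⟨?_, ?_⟩).trans (le_max_left _ _)⟩
  · simpa using h1
  · simpa using h2

omit [InnerProductSpace ℂ F] in
lemma mB_o {o : Cfg ds → F} (ho : LocallyIntegrable o volume) (ρ : ℝ) :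
    Integrable (fun p => o p.1) (mB ds dm ρ) := by
  have h2 : IsFiniteMeasure (volume.restrict (Metric.ball (0 : Wsp dm) ρ)) := ⟨by
    rw [Measure.restrict_apply_univ]; exact measure_ball_lt_top⟩
  have h1 : IntegrableOn o (Metric.ball (0 : Cfg ds) ρ) volume :=
    (ho.integrableOn_isCompact (isCompact_closedBall (0 : Cfg ds) ρ)).mono_set Metric.ball_subset_closedBall
  exact Integrable.comp_fst h1 _

lemma mB_int {o : Cfg ds → F} (ho : LocallyIntegrable o volume) (ρ : ℝ) {Q : Cfg ds × Wsp dm → F} (hQ : Continuous Q) :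
    Integrable (fun p => inner ℂ (o p.1) (Q p)) (mB ds dm ρ) := by
  obtain ⟨C, hC0, hC⟩ := mB_bd hQ ρ
  have h1 : Integrable (fun p => C * ‖o p.1‖) (mB ds dm ρ) := (mB_o ho ρ).norm.const_mul C
  refine h1.mono' ((mB_o ho ρ).aestronglyMeasurable.inner hQ.aestronglyMeasurable) ?_
  filter_upwards [mB_ae ρ] with p hp
  refine (norm_inner_le_norm _ _).trans ?_
  rw [mul_comm]
  exact mul_le_mul_of_nonneg_right (hC p hp.1.le hp.2.le) (norm_nonneg _)

omit [InnerProductSpace ℂ F] in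
lemma mB_sq (ρ : ℝ) {Q : Cfg ds × Wsp dm → F} (hQ : Continuous Q) :
    Integrable (fun p => ‖Q p‖ ^ 2) (mB ds dm ρ) := by
  obtain ⟨C, hC0, hC⟩ := mB_bd hQ ρ
  refine (integrable_const (C ^ 2)).mono' (hQ.norm.pow 2).aestronglyMeasurable ?_
  filter_upwards [mB_ae ρ] with p hp
  rw [Real.norm_eq_abs, abs_of_nonneg (by positivity)]
  exact pow_le_pow_left₀ (norm_nonneg _) (hC p hp.1.le hp.2.le) 2

/-- the coefficient as an integral over the product of the balls -/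
lemma partA [FiniteDimensional ℂ F] {o : Cfg ds → F} (ho : LocallyIntegrable o volume) (ρ : ℝ) {g : Wsp dm → ℝ} (hg : Continuous g)
    (P : F →L[ℂ] F) {q : Cfg ds × Wsp dm → F} (hq : Continuous q) (hs : ∀ p, q p ≠ 0 → ‖p.1‖ < ρ ∧ ‖p.2‖ < ρ) :
    ∫ ys, inner ℂ (o ys) (∫ w, ((g w : ℝ) : ℂ) • P (q (ys, w))) =
      ∫ p, inner ℂ (o p.1) (((g p.2 : ℝ) : ℂ) • P (q p)) ∂(mB ds dm ρ) := by
  have : CompleteSpace F := FiniteDimensional.complete ℂ F
  have hQ : Continuous fun p : Cfg ds × Wsp dm => ((g p.2 : ℝ) : ℂ) • P (q p) :=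
    (Complex.continuous_ofReal.comp (hg.comp continuous_snd)).smul (P.continuous.comp hq)
  have hz : ∀ ys w, ¬(‖ys‖ < ρ ∧ ‖w‖ < ρ) → q (ys, w) = 0 := by
    intro ys w h
    by_contra hne
    exact h (hs (ys, w) hne)
  unfold mB
  rw [integral_prod _ (mB_int ho ρ hQ), ← setIntegral_eq_integral_of_forall_compl_eq_zero (s := Metric.ball (0 : Cfg ds) ρ)]
  · refine integral_congr_ae (Eventually.of_forall fun ys => ?_)
    change inner ℂ (o ys) (∫ w, ((g w : ℝ) : ℂ) • P (q (ys, w))) = ∫ w in Metric.ball 0 ρ, inner ℂ (o ys) (((g w : ℝ) : ℂ) • P (q (ys, w)))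
    rw [← integral_inner]
    · rw [← setIntegral_eq_integral_of_forall_compl_eq_zero (s := Metric.ball (0 : Wsp dm) ρ)]
      intro w hw
      rw [hz ys w (fun h => hw (by simpa using h.2))]
      simp
    · refine Continuous.integrable_of_hasCompactSupport (hQ.comp (by fun_prop : Continuous fun w : Wsp dm => ((ys, w) : Cfg ds × Wsp dm))) ?_
      refine HasCompactSupport.intro (isCompact_closedBall (0 : Wsp dm) ρ) fun w hw => ?_
      rw [hz ys w (fun h => hw (by simpa using h.2.le))]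
      simp
  · intro ys hys
    have : ∀ w, ((g w : ℝ) : ℂ) • P (q (ys, w)) = 0 := by
      intro w
      rw [hz ys w (fun h => hys (by simpa using h.1))]
      simp
    simp [this]

/-- the slice functional as an integral over the product of the balls -/
lemma partB {o : Cfg ds → F} (ho : LocallyIntegrable o volume) (ρ : ℝ) {g : Wsp dm → ℝ} (hg : Continuous g)
    (P : F →L[ℂ] F) (hP : ∀ a b, inner ℂ (P a) b = inner ℂ a (P b)) {q : Cfg ds × Wsp dm → F} (hq : Continuous q) :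
    ∫ ys in Metric.ball (0 : Cfg ds) ρ, ∫ w in Metric.ball (0 : Wsp dm) ρ, inner ℂ (((g w : ℝ) : ℂ) • P (o ys)) (q (ys, w)) =
      ∫ p, inner ℂ (o p.1) (((g p.2 : ℝ) : ℂ) • P (q p)) ∂(mB ds dm ρ) := by
  have hQ : Continuous fun p : Cfg ds × Wsp dm => ((g p.2 : ℝ) : ℂ) • P (q p) :=
    (Complex.continuous_ofReal.comp (hg.comp continuous_snd)).smul (P.continuous.comp hq)
  unfold mB
  rw [integral_prod _ (mB_int ho ρ hQ)]
  refine integral_congr_ae (Eventually.of_forall fun ys => integral_congr_ae (Eventually.of_forall fun w => ?_))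
  simp only [inner_smul_left, inner_smul_right, Complex.conj_ofReal, hP]

/-- the error at a fixed scalar point -/
lemma fib_err [FiniteDimensional ℂ F] (ρ : ℝ) {o : Cfg ds → F} (ho : MemLp o 2 volume) {g G : Wsp dm → ℝ}
    (hg : Continuous g) (hG : Integrable (fun w => G w ^ 2)) (hgG : ∀ w, |g w| ≤ G w)
    (P : F →L[ℂ] F) (hPn : ∀ v, ‖P v‖ ≤ ‖v‖) (hP : ∀ a b, inner ℂ (P a) b = inner ℂ a (P b))
    {q1 q2 : Cfg ds × Wsp dm → F} (h1 : Continuous q1) (h2 : Continuous q2) (hs : ∀ p, q1 p ≠ 0 → ‖p.1‖ < ρ ∧ ‖p.2‖ < ρ)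
    {c M : ℝ} (hc : |c| ≤ M) (h12 : ∀ p, ‖q1 p‖ ≤ ‖q2 p‖)
    (h12' : ∀ p, ‖p.1‖ ≤ ρ / 4 → ‖p.2‖ ≤ ρ / 4 → q1 p = (c : ℂ) • q2 p) {t : ℝ} (ht : 0 < t) :
    ‖(∫ ys, inner ℂ (o ys) (∫ w, ((g w : ℝ) : ℂ) • P (q1 (ys, w)))) - (c : ℂ) * ∫ ys in Metric.ball (0 : Cfg ds) ρ,
        ∫ w in Metric.ball (0 : Wsp dm) ρ, inner ℂ (((g w : ℝ) : ℂ) • P (o ys)) (q2 (ys, w))‖ ≤
      (1 + M) * (t * ((∫ ys, Set.indicator {ys : Cfg ds | ρ / 4 ≤ ‖ys‖} (fun ys => ‖o ys‖ ^ 2) ys) * (∫ w, G w ^ 2) +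
        (∫ ys, ‖o ys‖ ^ 2) * ∫ w, Set.indicator {w : Wsp dm | ρ / 4 ≤ ‖w‖} (fun w => G w ^ 2) w) +
        t⁻¹ * ∫ p, ‖q2 p‖ ^ 2 ∂(mB ds dm ρ)) := by
  have hM : 0 ≤ M := (abs_nonneg c).trans hc
  have hol : LocallyIntegrable o volume := ho.locallyIntegrable (by norm_num)
  have ho2 : Integrable (fun ys => ‖o ys‖ ^ 2) := memLp_norm_sq_int ho
  have hQ : ∀ {q : Cfg ds × Wsp dm → F}, Continuous q → Continuous fun p : Cfg ds × Wsp dm => ((g p.2 : ℝ) : ℂ) • P (q p) :=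
    fun hq => (Complex.continuous_ofReal.comp (hg.comp continuous_snd)).smul (P.continuous.comp hq)
  rw [partA hol ρ hg P h1 hs, partB hol ρ hg P hP h2, ← integral_const_mul, ← integral_sub (mB_int hol ρ (hQ h1))
    ((mB_int hol ρ (hQ h2)).const_mul _)]
  set T1 : Cfg ds → ℝ := fun ys => Set.indicator {ys : Cfg ds | ρ / 4 ≤ ‖ys‖} (fun ys => ‖o ys‖ ^ 2) ys with hT1
  set T2 : Wsp dm → ℝ := fun w => Set.indicator {w : Wsp dm | ρ / 4 ≤ ‖w‖} (fun w => G w ^ 2) w with hT2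
  have iT1 : Integrable T1 := ho2.indicator (measurableSet_le measurable_const measurable_norm)
  have iT2 : Integrable T2 := hG.indicator (measurableSet_le measurable_const measurable_norm)
  have nT1 : ∀ x, 0 ≤ T1 x := fun x => Set.indicator_nonneg (fun _ _ => by positivity) _
  have nT2 : ∀ x, 0 ≤ T2 x := fun x => Set.indicator_nonneg (fun _ _ => by positivity) _
  have i1 : Integrable (fun p : Cfg ds × Wsp dm => T1 p.1 * G p.2 ^ 2) (mB ds dm ρ) :=
    Integrable.mul_prod (f := T1) (g := fun w => G w ^ 2) iT1.restrict hG.restrict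
  have i2 : Integrable (fun p : Cfg ds × Wsp dm => ‖o p.1‖ ^ 2 * T2 p.2) (mB ds dm ρ) :=
    Integrable.mul_prod (f := fun ys => ‖o ys‖ ^ 2) (g := T2) ho2.restrict iT2.restrict
  have i3 := mB_sq (F := F) ρ h2
  have iB : Integrable (fun p : Cfg ds × Wsp dm => (1 + M) * (t * (T1 p.1 * G p.2 ^ 2 + ‖o p.1‖ ^ 2 * T2 p.2) +
      t⁻¹ * ‖q2 p‖ ^ 2)) (mB ds dm ρ) := (((i1.add i2).const_mul t).add (i3.const_mul t⁻¹)).const_mul (1 + M)
  have hpt : ∀ p : Cfg ds × Wsp dm, ‖inner ℂ (o p.1) (((g p.2 : ℝ) : ℂ) • P (q1 p)) -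
      (c : ℂ) * inner ℂ (o p.1) (((g p.2 : ℝ) : ℂ) • P (q2 p))‖ ≤
      (1 + M) * (t * (T1 p.1 * G p.2 ^ 2 + ‖o p.1‖ ^ 2 * T2 p.2) + t⁻¹ * ‖q2 p‖ ^ 2) := by
    intro p
    have e1 : inner ℂ (o p.1) (((g p.2 : ℝ) : ℂ) • P (q1 p)) - (c : ℂ) * inner ℂ (o p.1) (((g p.2 : ℝ) : ℂ) • P (q2 p)) =
        ((g p.2 : ℝ) : ℂ) * inner ℂ (o p.1) (P (q1 p - (c : ℂ) • q2 p)) := by
      rw [map_sub, inner_sub_right, map_smul, inner_smul_right, inner_smul_right, inner_smul_right]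
      ring
    have n0 : 0 ≤ (1 + M) * (t * (T1 p.1 * G p.2 ^ 2 + ‖o p.1‖ ^ 2 * T2 p.2) + t⁻¹ * ‖q2 p‖ ^ 2) := by
      have := nT1 p.1
      have := nT2 p.2
      positivity
    rw [e1]
    by_cases h : ‖p.1‖ ≤ ρ / 4 ∧ ‖p.2‖ ≤ ρ / 4
    · rw [h12' p h.1 h.2, sub_self, map_zero, inner_zero_right, mul_zero, norm_zero]
      exact n0
    · have hG0 : 0 ≤ G p.2 := (abs_nonneg _).trans (hgG p.2)
      have b1 : ‖((g p.2 : ℝ) : ℂ) * inner ℂ (o p.1) (P (q1 p - (c : ℂ) • q2 p))‖ ≤ G p.2 * (‖o p.1‖ * ((1 + M) * ‖q2 p‖)) := by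
        rw [norm_mul, Complex.norm_real, Real.norm_eq_abs]
        refine mul_le_mul (hgG p.2) ?_ (norm_nonneg _) hG0
        refine (norm_inner_le_norm _ _).trans (mul_le_mul_of_nonneg_left ((hPn _).trans ((norm_sub_le _ _).trans ?_)) (norm_nonneg _))
        rw [norm_smul, Complex.norm_real, Real.norm_eq_abs, add_mul, one_mul]
        exact add_le_add (h12 p) (mul_le_mul_of_nonneg_right hc (norm_nonneg _))
      have b2 : G p.2 ^ 2 * ‖o p.1‖ ^ 2 ≤ T1 p.1 * G p.2 ^ 2 + ‖o p.1‖ ^ 2 * T2 p.2 := by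
        rw [not_and_or, not_le, not_le] at h
        rcases h with h | h
        · have : T1 p.1 = ‖o p.1‖ ^ 2 := Set.indicator_of_mem (show p.1 ∈ {ys : Cfg ds | ρ / 4 ≤ ‖ys‖} from h.le) _
          rw [this]
          have := nT2 p.2
          nlinarith [mul_nonneg (sq_nonneg ‖o p.1‖) this]
        · have : T2 p.2 = G p.2 ^ 2 := Set.indicator_of_mem (show p.2 ∈ {w : Wsp dm | ρ / 4 ≤ ‖w‖} from h.le) _
          rw [this]
          have := nT1 p.1
          nlinarith [mul_nonneg this (sq_nonneg (G p.2))]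
      refine b1.trans ?_
      have b3 : G p.2 * ‖o p.1‖ * ‖q2 p‖ ≤ t * (G p.2 ^ 2 * ‖o p.1‖ ^ 2) + t⁻¹ * ‖q2 p‖ ^ 2 := by
        have hs : 0 < Real.sqrt t := Real.sqrt_pos.2 ht
        have hst : Real.sqrt t ^ 2 = t := Real.sq_sqrt ht.le
        have h5 : 0 ≤ (Real.sqrt t * (G p.2 * ‖o p.1‖) - (Real.sqrt t)⁻¹ * ‖q2 p‖) ^ 2 := sq_nonneg _
        have h6 : (Real.sqrt t * (G p.2 * ‖o p.1‖) - (Real.sqrt t)⁻¹ * ‖q2 p‖) ^ 2 =
            t * (G p.2 ^ 2 * ‖o p.1‖ ^ 2) + t⁻¹ * ‖q2 p‖ ^ 2 - 2 * (G p.2 * ‖o p.1‖ * ‖q2 p‖) := by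
          have h7 : Real.sqrt t * (Real.sqrt t)⁻¹ = 1 := mul_inv_cancel₀ hs.ne'
          have h8 : (Real.sqrt t)⁻¹ ^ 2 = t⁻¹ := by rw [inv_pow, hst]
          calc _ = Real.sqrt t ^ 2 * (G p.2 ^ 2 * ‖o p.1‖ ^ 2) + (Real.sqrt t)⁻¹ ^ 2 * ‖q2 p‖ ^ 2 -
                2 * (G p.2 * ‖o p.1‖ * ‖q2 p‖) * (Real.sqrt t * (Real.sqrt t)⁻¹) := by ring
            _ = _ := by rw [h7, h8, hst, mul_one]
        have h9 : 0 ≤ G p.2 * ‖o p.1‖ * ‖q2 p‖ := by positivity
        linarith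
      have b4 : t * (G p.2 ^ 2 * ‖o p.1‖ ^ 2) ≤ t * (T1 p.1 * G p.2 ^ 2 + ‖o p.1‖ ^ 2 * T2 p.2) :=
        mul_le_mul_of_nonneg_left b2 ht.le
      calc G p.2 * (‖o p.1‖ * ((1 + M) * ‖q2 p‖)) = (1 + M) * (G p.2 * ‖o p.1‖ * ‖q2 p‖) := by ring
        _ ≤ _ := mul_le_mul_of_nonneg_left (by linarith) (by linarith)
  have i4 : Integrable (fun p : Cfg ds × Wsp dm => T1 p.1 * G p.2 ^ 2 + ‖o p.1‖ ^ 2 * T2 p.2) (mB ds dm ρ) := i1.add i2
  have i5 : Integrable (fun p : Cfg ds × Wsp dm => t * (T1 p.1 * G p.2 ^ 2 + ‖o p.1‖ ^ 2 * T2 p.2)) (mB ds dm ρ) := i4.const_mul t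
  refine (norm_integral_le_of_norm_le iB (Eventually.of_forall hpt)).trans ?_
  rw [integral_const_mul, integral_add i5 (i3.const_mul t⁻¹), integral_const_mul, integral_const_mul, integral_add i1 i2]
  refine mul_le_mul_of_nonneg_left (add_le_add_left (mul_le_mul_of_nonneg_left (add_le_add ?_ ?_) ht.le) _) (by linarith)
  · unfold mB
    rw [integral_prod_mul T1 (fun w => G w ^ 2)]
    exact mul_le_mul (setIntegral_le_integral iT1 (Eventually.of_forall nT1))
      (setIntegral_le_integral hG (Eventually.of_forall fun _ => by positivity)) (integral_nonneg fun _ => by positivity)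
      (integral_nonneg nT1)
  · unfold mB
    rw [integral_prod_mul (fun ys => ‖o ys‖ ^ 2) T2]
    exact mul_le_mul (setIntegral_le_integral ho2 (Eventually.of_forall fun _ => by positivity))
      (setIntegral_le_integral iT2 (Eventually.of_forall nT2)) (integral_nonneg nT2) (integral_nonneg fun _ => by positivity)


lemma cmb_cont (ψ : Spl ds dz dh) : Continuous fun p : Cfg ds × Cfg dz => cmb ψ p.1 p.2 := by
  unfold cmb
  refine (PiLp.continuous_toLp 2 _).comp (continuous_pi fun q => ?_)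
  rcases h : ψ.symm q.2 with A | B
  · simp only [Sum.elim_inl]
    fun_prop
  · simp only [Sum.elim_inr]
    fun_prop

lemma res_cont (S : Setup d F) (φ : Spl dh dm d) {u : Cfg d → F} (hu : Continuous u) :
    Continuous fun p : Cfg dh × Wsp dm => S.res φ u p.1 p.2 := by
  unfold Setup.res Setup.Jd
  refine Continuous.smul ?_ (hu.comp (AN.nrm_continuous_emb φ))
  refine Complex.continuous_ofReal.comp (Real.continuous_sqrt.comp ?_)
  exact ((AN.nrm_continuous_det S φ).comp continuous_fst).abs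

/-- coordinates `(yz, (ys, w))` on the slice -/
noncomputable def Phi (ψ : Spl ds dz dh) (dm : ℕ) (p : Cfg dz × (Cfg ds × Wsp dm)) : Cfg dh × Wsp dm := (cmb ψ p.2.1 p.1, p.2.2)

lemma Phi_cont (ψ : Spl ds dz dh) : Continuous (Phi ψ dm) := by
  unfold Phi
  exact ((cmb_cont ψ).comp (by fun_prop : Continuous fun p : Cfg dz × (Cfg ds × Wsp dm) => (p.2.1, p.1))).prodMk (by fun_prop)

lemma Phi_mp {ψ : Spl ds dz dh} (h : MeasurePreserving (fun p : Cfg ds × Cfg dz => cmb ψ p.1 p.2) (volume.prod volume) volume) :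
    MeasurePreserving (Phi ψ dm) ((volume : Measure (Cfg dz)).prod ((volume : Measure (Cfg ds)).prod (volume : Measure (Wsp dm))))
      ((volume : Measure (Cfg dh)).prod (volume : Measure (Wsp dm))) := by
  have h1 := (measurePreserving_prodAssoc (volume : Measure (Cfg dz)) (volume : Measure (Cfg ds)) (volume : Measure (Wsp dm))).symm
  have h2 : MeasurePreserving (Prod.map (Prod.swap : Cfg dz × Cfg ds → Cfg ds × Cfg dz) (id : Wsp dm → Wsp dm))
    (((volume : Measure (Cfg dz)).prod (volume : Measure (Cfg ds))).prod (volume : Measure (Wsp dm)))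
    (((volume : Measure (Cfg ds)).prod (volume : Measure (Cfg dz))).prod (volume : Measure (Wsp dm))) :=
    (Measure.measurePreserving_swap).prod (MeasurePreserving.id _)
  have h3 : MeasurePreserving (Prod.map (fun p : Cfg ds × Cfg dz => cmb ψ p.1 p.2) (id : Wsp dm → Wsp dm))
    (((volume : Measure (Cfg ds)).prod (volume : Measure (Cfg dz))).prod (volume : Measure (Wsp dm)))
    ((volume : Measure (Cfg dh)).prod (volume : Measure (Wsp dm))) := h.prod (MeasurePreserving.id _)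
  exact h3.comp (h2.comp h1)

/-- Fubini in the coordinates `(yz, ys, w)` -/
lemma Phi_int {ψ : Spl ds dz dh} (h : MeasurePreserving (fun p : Cfg ds × Cfg dz => cmb ψ p.1 p.2) (volume.prod volume) volume)
    (hn : ∀ ys yz, ‖cmb ψ ys yz‖ ^ 2 = ‖ys‖ ^ 2 + ‖yz‖ ^ 2) {f : Cfg dh × Wsp dm → ℝ} (hf : Continuous f) (hc : HasCompactSupport f) :
    Integrable (fun yz => ∫ ys, ∫ w, f (cmb ψ ys yz, w)) ∧
      ∫ p, f p ∂((volume : Measure (Cfg dh)).prod (volume : Measure (Wsp dm))) = ∫ yz, ∫ ys, ∫ w, f (cmb ψ ys yz, w) := by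
  obtain ⟨B, hB⟩ := hc.isCompact.isBounded.subset_closedBall (0 : Cfg dh × Wsp dm)
  have hz : ∀ yz ys w, f (cmb ψ ys yz, w) ≠ 0 → ‖yz‖ ≤ B ∧ ‖ys‖ ≤ B ∧ ‖w‖ ≤ B := by
    intro yz ys w hne
    have h1 := hB (subset_tsupport _ hne)
    rw [mem_closedBall_zero_iff, Prod.norm_def, max_le_iff] at h1
    have h2 := hn ys yz
    have h3 : 0 ≤ B := (norm_nonneg _).trans h1.2
    have h4 : ‖cmb ψ ys yz‖ ^ 2 ≤ B ^ 2 := pow_le_pow_left₀ (norm_nonneg _) h1.1 2
    exact ⟨abs_le_of_sq_le_sq' (by nlinarith [sq_nonneg ‖ys‖]) h3 |>.2, abs_le_of_sq_le_sq' (by nlinarith [sq_nonneg ‖yz‖]) h3 |>.2, h1.2⟩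
  have hfc : Continuous (fun p => f (Phi ψ dm p)) := hf.comp (Phi_cont ψ)
  have hcs : HasCompactSupport (fun p => f (Phi ψ dm p)) := by
    refine HasCompactSupport.intro ((isCompact_closedBall (0 : Cfg dz) B).prod
      ((isCompact_closedBall (0 : Cfg ds) B).prod (isCompact_closedBall (0 : Wsp dm) B))) fun p hp => ?_
    by_contra hne
    refine hp ?_
    have h1 := hz p.1 p.2.1 p.2.2 hne
    exact ⟨by simpa using h1.1, by simpa using h1.2.1, by simpa using h1.2.2⟩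
  have hi : Integrable (fun p => f (Phi ψ dm p)) ((volume : Measure (Cfg dz)).prod ((volume : Measure (Cfg ds)).prod
      (volume : Measure (Wsp dm)))) := hfc.integrable_of_hasCompactSupport hcs
  have hin : ∀ yz, ∫ q : Cfg ds × Wsp dm, f (Phi ψ dm (yz, q)) ∂((volume : Measure (Cfg ds)).prod (volume : Measure (Wsp dm))) =
      ∫ ys, ∫ w, f (cmb ψ ys yz, w) := by
    intro yz
    have h1 : Integrable (fun q : Cfg ds × Wsp dm => f (Phi ψ dm (yz, q))) ((volume : Measure (Cfg ds)).prod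
      (volume : Measure (Wsp dm))) := by
      refine (hfc.comp (by fun_prop : Continuous fun q : Cfg ds × Wsp dm => (yz, q))).integrable_of_hasCompactSupport ?_
      refine HasCompactSupport.intro ((isCompact_closedBall (0 : Cfg ds) B).prod (isCompact_closedBall (0 : Wsp dm) B)) fun p hp => ?_
      by_contra hne
      refine hp ?_
      have h1 := hz yz p.1 p.2 hne
      exact ⟨by simpa using h1.2.1, by simpa using h1.2.2⟩
    rw [integral_prod _ h1]
    rfl
  have hmp := Phi_mp (dm := dm) h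
  constructor
  · refine hi.integral_prod_left.congr (Eventually.of_forall fun yz => ?_)
    exact hin yz
  · rw [← hmp.map_eq, integral_map hmp.measurable.aemeasurable hf.aestronglyMeasurable, integral_prod _ hi]
    exact integral_congr_ae (Eventually.of_forall hin)

lemma Nb_open (y₀ : Cfg dh) (R ε : ℝ) : IsOpen (AN.Nb y₀ dm R ε) := by
  unfold AN.Nb
  have h1 : Continuous fun p : Cfg dh × Wsp dm => ‖p.1 - R • y₀‖ := by fun_prop
  have h2 : Continuous fun p : Cfg dh × Wsp dm => ‖p.2‖ := by fun_prop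
  exact IsOpen.inter (isOpen_lt h1 continuous_const) (isOpen_lt h2 continuous_const)

/-- the region of integration lies in the neighbourhood `Nb` -/
lemma reg_le {ψ : Spl ds dz dh} (h : MeasurePreserving (fun p : Cfg ds × Cfg dz => cmb ψ p.1 p.2) (volume.prod volume) volume)
    (hn : ∀ ys yz, ‖cmb ψ ys yz‖ ^ 2 = ‖ys‖ ^ 2 + ‖yz‖ ^ 2)
    (hsub : ∀ ys yz ys' yz', cmb ψ ys yz - cmb ψ ys' yz' = cmb ψ (ys - ys') (yz - yz'))
    (hsm : ∀ (c : ℝ) ys yz, c • cmb ψ ys yz = cmb ψ (c • ys) (c • yz))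
    {f : Cfg dh × Wsp dm → ℝ} (hf : Continuous f) (h0 : ∀ p, 0 ≤ f p) (z₀ : Cfg dz) {R ε : ℝ} (hR : 0 < R) (hε : 0 < ε) :
    IntegrableOn (fun yz => ∫ p, f (cmb ψ p.1 yz, p.2) ∂(mB ds dm (2 * ε * R))) (Metric.closedBall (R • z₀) (ε * R)) ∧
    ∫ yz in Metric.closedBall (R • z₀) (ε * R), ∫ p, f (cmb ψ p.1 yz, p.2) ∂(mB ds dm (2 * ε * R)) ≤
      ∫ p in AN.Nb (cmb ψ 0 z₀) dm R (4 * ε), f p ∂((volume : Measure (Cfg dh)).prod (volume : Measure (Wsp dm))) := by
  have hεR : 0 < ε * R := mul_pos hε hR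
  have hfc : Continuous (fun p => f (Phi ψ dm p)) := hf.comp (Phi_cont ψ)
  have hdist : ∀ ys yz, ‖cmb ψ ys yz - R • cmb ψ 0 z₀‖ ^ 2 = ‖ys‖ ^ 2 + ‖yz - R • z₀‖ ^ 2 := by
    intro ys yz
    rw [hsm, hsub, hn, smul_zero, sub_zero]
  set U := Metric.closedBall (R • z₀) (ε * R) ×ˢ (Metric.ball (0 : Cfg ds) (2 * ε * R) ×ˢ Metric.ball (0 : Wsp dm) (2 * ε * R)) with hU
  have hUsub : U ⊆ (Phi ψ dm) ⁻¹' (AN.Nb (cmb ψ 0 z₀) dm R (4 * ε)) := by
    rintro ⟨yz, ys, w⟩ ⟨h1, h2, h3⟩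
    simp only [Metric.mem_closedBall, dist_eq_norm, mem_ball_zero_iff] at h1 h2 h3
    refine ⟨?_, ?_⟩
    · have h4 := hdist ys yz
      have h5 : ‖cmb ψ ys yz - R • cmb ψ 0 z₀‖ ^ 2 < (4 * ε * R) ^ 2 := by
        rw [h4]
        nlinarith [norm_nonneg ys, norm_nonneg (yz - R • z₀)]
      exact lt_of_pow_lt_pow_left₀ 2 (by positivity) h5
    · change ‖w‖ < 4 * ε * R
      linarith
  have hpre : (Phi ψ dm) ⁻¹' (AN.Nb (cmb ψ 0 z₀) dm R (4 * ε)) ⊆ Metric.closedBall (R • z₀) (4 * ε * R) ×ˢ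
      (Metric.closedBall (0 : Cfg ds) (4 * ε * R) ×ˢ Metric.closedBall (0 : Wsp dm) (4 * ε * R)) := by
    rintro ⟨yz, ys, w⟩ ⟨h1, h2⟩
    change ‖cmb ψ ys yz - R • cmb ψ 0 z₀‖ < 4 * ε * R at h1
    change ‖w‖ < 4 * ε * R at h2
    have h4 := hdist ys yz
    have h5 : ‖cmb ψ ys yz - R • cmb ψ 0 z₀‖ ^ 2 ≤ (4 * ε * R) ^ 2 := pow_le_pow_left₀ (norm_nonneg _) h1.le 2
    have h6 : 0 ≤ 4 * ε * R := by positivity
    refine ⟨?_, ?_, ?_⟩
    · rw [Metric.mem_closedBall, dist_eq_norm]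
      exact (abs_le_of_sq_le_sq' (by nlinarith [sq_nonneg ‖ys‖]) h6).2
    · rw [mem_closedBall_zero_iff]
      exact (abs_le_of_sq_le_sq' (by nlinarith [sq_nonneg ‖yz - R • z₀‖]) h6).2
    · rw [mem_closedBall_zero_iff]
      exact h2.le
  have hio : IntegrableOn (fun p => f (Phi ψ dm p)) ((Phi ψ dm) ⁻¹' (AN.Nb (cmb ψ 0 z₀) dm R (4 * ε)))
      ((volume : Measure (Cfg dz)).prod ((volume : Measure (Cfg ds)).prod (volume : Measure (Wsp dm)))) :=
    (hfc.continuousOn.integrableOn_compact ((isCompact_closedBall _ _).prod ((isCompact_closedBall _ _).prod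
      (isCompact_closedBall _ _)))).mono_set hpre
  have hiU : IntegrableOn (fun p => f (Phi ψ dm p)) U
      ((volume : Measure (Cfg dz)).prod ((volume : Measure (Cfg ds)).prod (volume : Measure (Wsp dm)))) := hio.mono_set hUsub
  have hmp := Phi_mp (dm := dm) h
  constructor
  · have h1 : Integrable (fun p => f (Phi ψ dm p)) ((volume.restrict (Metric.closedBall (R • z₀) (ε * R))).prod (mB ds dm (2 * ε * R))) := by
      rw [mB_eq, Measure.prod_restrict]
      exact hiU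
    exact h1.integral_prod_left
  · have h1 : ∫ yz in Metric.closedBall (R • z₀) (ε * R), ∫ p, f (cmb ψ p.1 yz, p.2) ∂(mB ds dm (2 * ε * R)) =
        ∫ p in U, f (Phi ψ dm p) ∂((volume : Measure (Cfg dz)).prod ((volume : Measure (Cfg ds)).prod (volume : Measure (Wsp dm)))) := by
      rw [hU, setIntegral_prod _ hiU, mB_eq]
      rfl
    rw [h1, ← hmp.map_eq, setIntegral_map (Nb_open _ _ _).measurableSet hf.aestronglyMeasurable hmp.measurable.aemeasurable]
    exact setIntegral_mono_set hio (Eventually.of_forall fun p => h0 _) (Eventually.of_forall hUsub)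

/-- continuity in the scalar point -/
lemma B_cont {o : Cfg ds → F} (ho : LocallyIntegrable o volume) (ρ : ℝ) {K : Set (Cfg dz)} (hK : IsCompact K)
    {g : Cfg dz → Wsp dm → ℝ} (hg : ContinuousOn (fun p : Cfg dz × Wsp dm => g p.1 p.2) (K ×ˢ Set.univ))
    {P : Cfg dz → F →L[ℂ] F} (hP : ContinuousOn P K) {q : Cfg dz × (Cfg ds × Wsp dm) → F} (hq : Continuous q) :
    ContinuousOn (fun yz => ∫ p, inner ℂ (o p.1) (((g yz p.2 : ℝ) : ℂ) • P yz (q (yz, p))) ∂(mB ds dm ρ)) K := by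
  have hQ : ContinuousOn (fun x : Cfg dz × (Cfg ds × Wsp dm) => ((g x.1 x.2.2 : ℝ) : ℂ) • P x.1 (q x)) (K ×ˢ Set.univ) := by
    refine ContinuousOn.smul ?_ ?_
    · refine Complex.continuous_ofReal.comp_continuousOn ?_
      exact hg.comp (f := fun x : Cfg dz × (Cfg ds × Wsp dm) => (x.1, x.2.2)) (by fun_prop) (fun x hx => ⟨hx.1, trivial⟩)
    · exact (hP.comp continuous_fst.continuousOn (fun x hx => hx.1)).clm_apply hq.continuousOn
  obtain ⟨C, hC⟩ := (hK.prod ((isCompact_closedBall (0 : Cfg ds) ρ).prod (isCompact_closedBall (0 : Wsp dm) ρ))).exists_bound_of_continuousOn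
    (hQ.mono (Set.prod_mono subset_rfl (Set.subset_univ _)))
  refine continuousOn_of_dominated (bound := fun p => C * ‖o p.1‖) ?_ ?_ ((mB_o ho ρ).norm.const_mul C) ?_
  · intro yz hyz
    refine (mB_o ho ρ).aestronglyMeasurable.inner (Continuous.aestronglyMeasurable ?_)
    rw [← continuousOn_univ]
    exact hQ.comp (f := fun p : Cfg ds × Wsp dm => (yz, p)) (by fun_prop) (fun x _ => ⟨hyz, trivial⟩)
  · intro yz hyz
    filter_upwards [mB_ae ρ] with p hp
    refine (norm_inner_le_norm _ _).trans ?_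
    rw [mul_comm]
    exact mul_le_mul_of_nonneg_right (hC (yz, p) ⟨hyz, by simpa using hp.1.le, by simpa using hp.2.le⟩) (norm_nonneg _)
  · refine Eventually.of_forall fun p => ?_
    have h1 : ContinuousOn (fun yz : Cfg dz => ((g yz p.2 : ℝ) : ℂ) • P yz (q (yz, p))) K :=
      hQ.comp (f := fun yz : Cfg dz => (yz, p)) (by fun_prop) (fun x hx => ⟨hx, trivial⟩)
    exact continuousOn_const.inner h1


/-- integration of the pointwise error -/
lemma fin_err {Kb : Set (Cfg dz)} (hKc : IsCompact Kb) {α Bf : Cfg dz → ℂ} {m χ θ : Cfg dz → ℝ} (hα : Continuous α)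
    (hout : ∀ yz, yz ∉ Kb → α yz = 0) (hθ0 : ∀ yz, yz ∉ Kb → θ yz = 0) (hθ : Continuous θ) (hχ : Continuous χ)
    {Mχ : ℝ} (hMχ : ∀ yz, |χ yz| ≤ Mχ) (hBc : ContinuousOn Bf Kb) (i3 : IntegrableOn m Kb volume) {A B : ℝ}
    (hpt : ∀ yz ∈ Kb, ‖α yz - ((θ yz : ℝ) : ℂ) * Bf yz‖ ≤ A + B * m yz) :
    ‖(∫ yz, ((χ yz : ℝ) : ℂ) * α yz) - ∫ yz, ((χ yz * θ yz : ℝ) : ℂ) * Bf yz‖ ≤
      Mχ * (A * volume.real Kb + B * ∫ yz in Kb, m yz) := by
  have e1 : ∫ yz, ((χ yz : ℝ) : ℂ) * α yz = ∫ yz in Kb, ((χ yz : ℝ) : ℂ) * α yz := by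
    rw [setIntegral_eq_integral_of_forall_compl_eq_zero]
    intro yz hyz
    rw [hout yz hyz, mul_zero]
  have e2 : ∫ yz, ((χ yz * θ yz : ℝ) : ℂ) * Bf yz = ∫ yz in Kb, ((χ yz * θ yz : ℝ) : ℂ) * Bf yz := by
    rw [setIntegral_eq_integral_of_forall_compl_eq_zero]
    intro yz hyz
    rw [hθ0 yz hyz, mul_zero, Complex.ofReal_zero, zero_mul]
  have hχc : Continuous fun yz => ((χ yz : ℝ) : ℂ) := Complex.continuous_ofReal.comp hχ
  have hθc : Continuous fun yz => ((χ yz * θ yz : ℝ) : ℂ) := Complex.continuous_ofReal.comp (hχ.mul hθ)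
  have i1 : IntegrableOn (fun yz => ((χ yz : ℝ) : ℂ) * α yz) Kb volume :=
    ContinuousOn.integrableOn_compact hKc (hχc.mul hα).continuousOn
  have i2 : IntegrableOn (fun yz => ((χ yz * θ yz : ℝ) : ℂ) * Bf yz) Kb volume :=
    ContinuousOn.integrableOn_compact hKc (hθc.continuousOn.mul hBc)
  have i0 : IntegrableOn (fun _ : Cfg dz => A) Kb volume := ContinuousOn.integrableOn_compact hKc continuousOn_const
  have i4 : IntegrableOn (fun yz => Mχ * (A + B * m yz)) Kb volume :=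
    Integrable.const_mul (Integrable.add i0 (Integrable.const_mul i3 B)) Mχ
  rw [e1, e2, ← integral_sub i1 i2]
  have hb : ∀ᵐ yz ∂(volume.restrict Kb), ‖((χ yz : ℝ) : ℂ) * α yz - ((χ yz * θ yz : ℝ) : ℂ) * Bf yz‖ ≤ Mχ * (A + B * m yz) := by
    filter_upwards [ae_restrict_mem hKc.measurableSet] with yz hyz
    have h1 : ((χ yz : ℝ) : ℂ) * α yz - ((χ yz * θ yz : ℝ) : ℂ) * Bf yz = ((χ yz : ℝ) : ℂ) * (α yz - ((θ yz : ℝ) : ℂ) * Bf yz) := by
      push_cast
      ring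
    rw [h1, norm_mul, Complex.norm_real, Real.norm_eq_abs]
    exact mul_le_mul (hMχ yz) (hpt yz hyz) (norm_nonneg _) ((abs_nonneg _).trans (hMχ yz))
  refine (norm_integral_le_of_norm_le i4 hb).trans (le_of_eq ?_)
  rw [integral_const_mul, integral_add i0 (Integrable.const_mul i3 B), integral_const_mul, setIntegral_const, smul_eq_mul]
  ring

/-- the error term -/
noncomputable def dl (o : Cfg ds → F) (G : Wsp dm → ℝ) (a : ℝ) : ℝ :=
  (∫ ys, Set.indicator {ys : Cfg ds | a / 4 ≤ ‖ys‖} (fun ys => ‖o ys‖ ^ 2) ys) * (∫ w, G w ^ 2) +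
    (∫ ys, ‖o ys‖ ^ 2) * ∫ w, Set.indicator {w : Wsp dm | a / 4 ≤ ‖w‖} (fun w => G w ^ 2) w

lemma Pz_symm [FiniteDimensional ℂ F] (S : Setup d F) (φ : Spl dh dm d) (ψ : Spl ds dz dh) (yz : Cfg dz) (a b : F) :
    inner ℂ (Pz S φ ψ yz a) b = inner ℂ a (Pz S φ ψ yz b) := by
  unfold Pz
  exact Submodule.inner_starProjection_left_eq_right _ _ _

lemma Pz_norm [FiniteDimensional ℂ F] (S : Setup d F) (φ : Spl dh dm d) (ψ : Spl ds dz dh) (yz : Cfg dz) (a : F) :
    ‖Pz S φ ψ yz a‖ ≤ ‖a‖ := by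
  unfold Pz
  exact Submodule.norm_starProjection_apply_le _ _

lemma slc_cont {E : Type*} [TopologicalSpace E] (ψ : Spl ds dz dh) {q : Cfg dh × Wsp dm → E} (hq : Continuous q) (yz : Cfg dz) :
    Continuous fun p : Cfg ds × Wsp dm => q (cmb ψ p.1 yz, p.2) := by
  have h1 : Continuous fun p : Cfg ds × Wsp dm => (p.1, yz) := by fun_prop
  have h2 : Continuous fun p : Cfg ds × Wsp dm => cmb ψ p.1 yz := (cmb_cont ψ).comp h1
  exact hq.comp (h2.prodMk continuous_snd)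

lemma slc_cont3 {E : Type*} [TopologicalSpace E] (ψ : Spl ds dz dh) {q : Cfg dh × Wsp dm → E} (hq : Continuous q) :
    Continuous fun p : Cfg dz × (Cfg ds × Wsp dm) => q (cmb ψ p.2.1 p.1, p.2.2) := hq.comp (Phi_cont ψ)

lemma gn_cont {K : Set (Cfg dz)} {g : Cfg dz → Wsp dm → ℝ}
    (hgC : ContinuousOn (fun p : Cfg dz × Wsp dm => g p.1 p.2) (K ×ˢ Set.univ)) {yz : Cfg dz} (hyz : yz ∈ K) :
    Continuous (fun w => g yz w) := by
  rw [← continuousOn_univ]
  exact hgC.comp (f := fun w : Wsp dm => (yz, w)) (by fun_prop) (fun w _ => ⟨hyz, trivial⟩)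

/-- the slice functional is continuous in the scalar point -/
lemma B_cont2 [FiniteDimensional ℂ F] (S : Setup d F) (φ : Spl dh dm d) (ψ : Spl ds dz dh) {K : Set (Cfg dz)} (hKc : IsCompact K)
    (hgC : ContinuousOn (fun p : Cfg dz × Wsp dm => gn S φ ψ p.1 p.2) (K ×ˢ Set.univ))
    (hPC : ContinuousOn (fun yz => Pz S φ ψ yz) K) {o : Cfg ds → F} (hol : LocallyIntegrable o volume) {q : Cfg dh × Wsp dm → F}
    (hq : Continuous q) (ρ : ℝ) :
    ContinuousOn (fun yz => ∫ ys in Metric.ball (0 : Cfg ds) ρ, ∫ w in Metric.ball (0 : Wsp dm) ρ,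
        inner ℂ (((gn S φ ψ yz w : ℝ) : ℂ) • Pz S φ ψ yz (o ys)) (q (cmb ψ ys yz, w))) K := by
  have h1 := B_cont (F := F) hol ρ hKc hgC hPC (slc_cont3 ψ hq)
  refine h1.congr fun yz hyz => ?_
  exact partB hol ρ (gn_cont hgC hyz) (Pz S φ ψ yz) (Pz_symm S φ ψ yz) (slc_cont ψ hq yz)

/-- the coefficient vanishes outside the ball -/
lemma al_out [FiniteDimensional ℂ F] (S : Setup d F) (φ : Spl dh dm d) (ψ : Spl ds dz dh) (c2 : ∀ ys yz, zp ψ (cmb ψ ys yz) = yz)
    {z : Cfg dz} {a : ℝ} {V : Cfg dh → Wsp dm → F} (hsup : ∀ y w, V y w ≠ 0 → ‖zp ψ y - z‖ ≤ a) (o : Cfg ds → F) (yz : Cfg dz)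
    (hyz : yz ∉ Metric.closedBall z a) : ∫ ys, inner ℂ (o ys) (sec S φ ψ V yz ys) = 0 := by
  have h1 : ∀ ys w, V (cmb ψ ys yz) w = 0 := by
    intro ys w
    by_contra hne
    refine hyz ?_
    have := hsup _ _ hne
    rw [c2] at this
    rw [Metric.mem_closedBall, dist_eq_norm]
    exact this
  have h2 : ∀ ys, sec S φ ψ V yz ys = 0 := by
    intro ys
    unfold sec
    simp only [h1, map_zero, smul_zero, integral_zero]
  simp only [h2, inner_zero_right, integral_zero]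

/-- the coefficient and the slice functional differ by little -/
lemma main_err [FiniteDimensional ℂ F] (S : Setup d F) (φ : Spl dh dm d) (ψ : Spl ds dz dh) (hCmb : CmbStmt) (z₀ : Cfg dz)
    {R ε : ℝ} (hR : 0 < R) (hε : 0 < ε)
    (hgC : ContinuousOn (fun p : Cfg dz × Wsp dm => gn S φ ψ p.1 p.2) (Metric.closedBall (R • z₀) (ε * R) ×ˢ Set.univ))
    (hPC : ContinuousOn (fun yz => Pz S φ ψ yz) (Metric.closedBall (R • z₀) (ε * R)))
    {G : Wsp dm → ℝ} (hG : Integrable (fun w => G w ^ 2))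
    (hgG : ∀ yz ∈ Metric.closedBall (R • z₀) (ε * R), ∀ w, |gn S φ ψ yz w| ≤ G w)
    {o : Cfg ds → F} (ho : MemLp o 2 (volume : Measure (Cfg ds))) {V : Cfg dh → Wsp dm → F} (hV : Tst2 V) {u : Cfg d → F}
    (hu : Continuous u) (hle : ∀ y w, ‖V y w‖ ≤ ‖S.res φ u y w‖)
    (hsup : ∀ y w, V y w ≠ 0 → ‖zp ψ y - R • z₀‖ ≤ ε * R ∧ ‖sp ψ y‖ ≤ ε * R ∧ ‖w‖ ≤ ε * R)
    {θ : Cfg dz → ℝ} (hθ : Continuous θ) (hθ0 : ∀ yz, yz ∉ Metric.closedBall (R • z₀) (ε * R) → θ yz = 0) {M : ℝ}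
    (hM : ∀ yz, |θ yz| ≤ M)
    (hc : ∀ y w, ‖sp ψ y‖ ≤ ε / 2 * R → ‖w‖ ≤ ε / 2 * R → V y w = ((θ (zp ψ y) : ℝ) : ℂ) • S.res φ u y w)
    {χ : Cfg dz → ℝ} (hχ : Continuous χ) {Mχ : ℝ} (hMχ : ∀ yz, |χ yz| ≤ Mχ)
    (hα : Continuous (fun yz => ∫ ys, inner ℂ (o ys) (sec S φ ψ V yz ys))) {t : ℝ} (ht : 0 < t) :
    ‖(∫ yz, ((χ yz : ℝ) : ℂ) * ∫ ys, inner ℂ (o ys) (sec S φ ψ V yz ys)) -
      ∫ yz, ((χ yz * θ yz : ℝ) : ℂ) * ∫ ys in Metric.ball (0 : Cfg ds) (2 * ε * R), ∫ w in Metric.ball (0 : Wsp dm) (2 * ε * R),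
        inner ℂ (vcz S φ ψ yz (o ys) w) (S.res φ u (cmb ψ ys yz) w)‖ ≤
    Mχ * ((1 + M) * (t * dl o G (2 * ε * R)) * volume.real (Metric.closedBall (R • z₀) (ε * R)) + (1 + M) * t⁻¹ *
      ∫ p in AN.Nb (cmb ψ 0 z₀) dm R (4 * ε), ‖S.res φ u p.1 p.2‖ ^ 2
        ∂((volume : Measure (Cfg dh)).prod (volume : Measure (Wsp dm)))) := by
  obtain ⟨c1, c2, c3, c4, c5, c6, c7⟩ := hCmb ds dz dh ψ
  have hM0 : 0 ≤ M := (abs_nonneg _).trans (hM 0)
  have hMχ0 : 0 ≤ Mχ := (abs_nonneg _).trans (hMχ 0)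
  have hεR : 0 < ε * R := mul_pos hε hR
  have hol : LocallyIntegrable o volume := ho.locallyIntegrable (by norm_num)
  have hrc : Continuous fun p : Cfg dh × Wsp dm => S.res φ u p.1 p.2 := res_cont S φ hu
  have hKc : IsCompact (Metric.closedBall (R • z₀) (ε * R)) := isCompact_closedBall _ _
  -- pointwise estimate
  have hpt : ∀ yz ∈ Metric.closedBall (R • z₀) (ε * R), ‖(∫ ys, inner ℂ (o ys) (sec S φ ψ V yz ys)) - ((θ yz : ℝ) : ℂ) *
      (∫ ys in Metric.ball (0 : Cfg ds) (2 * ε * R), ∫ w in Metric.ball (0 : Wsp dm) (2 * ε * R),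
        inner ℂ (vcz S φ ψ yz (o ys) w) (S.res φ u (cmb ψ ys yz) w))‖ ≤ (1 + M) * (t * dl o G (2 * ε * R)) +
      (1 + M) * t⁻¹ * ∫ p, ‖S.res φ u (cmb ψ p.1 yz) p.2‖ ^ 2 ∂(mB ds dm (2 * ε * R)) := by
    intro yz hyz
    rw [mul_assoc (1 + M), ← mul_add]
    refine fib_err (2 * ε * R) ho (gn_cont hgC hyz) hG (hgG yz hyz) (Pz S φ ψ yz) (Pz_norm S φ ψ yz) (Pz_symm S φ ψ yz)
      (slc_cont ψ hV.1.continuous yz) (slc_cont ψ hrc yz) ?_ (hM yz) ?_ ?_ ht
    · intro p hp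
      have h1 := hsup _ _ hp
      rw [c1] at h1
      exact ⟨by linarith [h1.2.1], by linarith [h1.2.2]⟩
    · exact fun p => hle _ _
    · intro p hp1 hp2
      have h1 := hc (cmb ψ p.1 yz) p.2 (by rw [c1]; linarith) (by linarith)
      rw [c2] at h1
      exact h1
  have hout := al_out S φ ψ c2 (fun y w h => (hsup y w h).1) o
  have hBc := B_cont2 S φ ψ hKc hgC hPC hol hrc (2 * ε * R)
  obtain ⟨i3, e3⟩ := reg_le (f := fun p : Cfg dh × Wsp dm => ‖S.res φ u p.1 p.2‖ ^ 2) c7 c4 c5 c6 (hrc.norm.pow 2)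
    (fun p => by positivity) z₀ hR hε
  refine (fin_err hKc hα hout hθ0 hθ hχ hMχ hBc i3 hpt).trans ?_
  refine mul_le_mul_of_nonneg_left (add_le_add_right (mul_le_mul_of_nonneg_left e3 ?_) _) hMχ0
  positivity

/-- Cauchy-Schwarz for the pairing -/
lemma al_sq {o : Cfg ds → F} (ho : MemLp o 2 (volume : Measure (Cfg ds))) {G : Cfg dz × Cfg ds → F} (hG : Continuous G)
    (hc : HasCompactSupport G) :
    Integrable (fun yz => nsq (fun ys => G (yz, ys))) ∧
      ∀ yz, ‖∫ ys, inner ℂ (o ys) (G (yz, ys))‖ ^ 2 ≤ nsq o * nsq (fun ys => G (yz, ys)) := by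
  constructor
  · have h1 : Integrable (fun p : Cfg dz × Cfg ds => ‖G p‖ ^ 2) ((volume : Measure (Cfg dz)).prod volume) := by
      refine (hG.norm.pow 2).integrable_of_hasCompactSupport ?_
      refine hc.mono fun p hp => ?_
      rw [Function.mem_support] at hp ⊢
      intro h
      apply hp
      simp [h]
    exact h1.integral_prod_left
  · intro yz
    have hm : MemLp (fun ys => G (yz, ys)) 2 (volume : Measure (Cfg ds)) := by
      refine (hG.comp (by fun_prop : Continuous fun ys : Cfg ds => ((yz, ys) : Cfg dz × Cfg ds))).memLp_of_hasCompactSupport ?_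
      refine HasCompactSupport.intro (hc.isCompact.image continuous_snd) fun ys hys => ?_
      by_contra hne
      exact hys ⟨(yz, ys), subset_tsupport _ hne, rfl⟩
    have h1 := cs_inner ho hm
    have h2 : ‖∫ ys, inner ℂ (o ys) (G (yz, ys))‖ ^ 2 ≤ (Real.sqrt (∫ x, ‖o x‖ ^ 2) * Real.sqrt (∫ x, ‖G (yz, x)‖ ^ 2)) ^ 2 :=
      pow_le_pow_left₀ (norm_nonneg _) h1 2
    rw [mul_pow, Real.sq_sqrt (integral_nonneg fun _ => by positivity), Real.sq_sqrt (integral_nonneg fun _ => by positivity)] at h2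
    exact h2

/-- the partial derivative in the first variable -/
lemma pd_fst {g : Cfg dz × Cfg ds → F} (hg : ContDiff ℝ ∞ g) (hc : HasCompactSupport g) (i : Fin 9) (A : Fin dz) :
    Continuous (fun p : Cfg dz × Cfg ds => pd i A (fun z => g (z, p.2)) p.1) ∧
      HasCompactSupport (fun p : Cfg dz × Cfg ds => pd i A (fun z => g (z, p.2)) p.1) := by
  set e : Cfg dz := EuclideanSpace.single (i, A) 1 with he
  have hd : Differentiable ℝ g := hg.differentiable (by simp)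
  have hpd : (fun p : Cfg dz × Cfg ds => pd i A (fun z => g (z, p.2)) p.1) = fun p => fderiv ℝ g p (e, 0) := by
    funext p
    have h0 : HasFDerivAt (fun x : Cfg dz => ((x, p.2) : Cfg dz × Cfg ds)) ((ContinuousLinearMap.id ℝ (Cfg dz)).prod 0) p.1 :=
      (hasFDerivAt_id p.1).prodMk (hasFDerivAt_const p.2 p.1)
    have h1 : HasFDerivAt g (fderiv ℝ g (p.1, p.2)) (p.1, p.2) := (hd (p.1, p.2)).hasFDerivAt
    have h2 := h1.comp p.1 h0
    unfold pd
    change (fderiv ℝ (g ∘ fun x => (x, p.2)) p.1) e = _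
    rw [h2.fderiv]
    simp
  rw [hpd]
  constructor
  · exact (hg.continuous_fderiv (by simp)).clm_apply continuous_const
  · refine (hc.fderiv (𝕜 := ℝ)).mono fun p hp => ?_
    intro h
    simp only [Function.mem_support] at hp
    apply hp
    rw [h]
    rfl

lemma sc_int {E : Type*} [NormedAddCommGroup E] [NormedSpace ℝ E] {R : ℝ} (hR : 0 < R) (f : Cfg dz → E) :
    ∫ z, f (R • z) = (R ^ (9 * dz))⁻¹ • ∫ z, f z := by
  rw [Measure.integral_comp_smul, finrank_c, abs_of_pos (by positivity)]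

lemma kk {R : ℝ} (hR : 0 < R) : (R ^ (-(9 * (dz : ℝ) / 2))) ^ 2 * R ^ (9 * dz) = 1 := by
  rw [← Real.rpow_natCast (R ^ (-(9 * (dz : ℝ) / 2))) 2, ← Real.rpow_mul hR.le, ← Real.rpow_natCast R (9 * dz), ← Real.rpow_add hR]
  have : -(9 * (dz : ℝ) / 2) * ((2 : ℕ) : ℝ) + ((9 * dz : ℕ) : ℝ) = 0 := by push_cast; ring
  rw [this, Real.rpow_zero]

/-- rescaled function -/
noncomputable def hN (k R : ℝ) (α : Cfg dz → ℂ) (z : Cfg dz) : ℂ := ((k⁻¹ : ℝ) : ℂ) * α (R • z)

lemma hN_smooth (k R : ℝ) {α : Cfg dz → ℂ} (hα : ContDiff ℝ ∞ α) : ContDiff ℝ ∞ (hN k R α) := by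
  unfold hN
  exact contDiff_const.mul (hα.comp (contDiff_const_smul R))

lemma hN_pd (k R : ℝ) {α : Cfg dz → ℂ} (hα : ContDiff ℝ ∞ α) (i : Fin 9) (A : Fin dz) (z : Cfg dz) :
    pd i A (hN k R α) z = (R : ℂ) * hN k R (pd i A α) z := by
  have h1 : HasFDerivAt α (fderiv ℝ α (R • z)) (R • z) := ((hα.differentiable (by simp)) (R • z)).hasFDerivAt
  have h2 : HasFDerivAt (fun z : Cfg dz => R • z) (R • ContinuousLinearMap.id ℝ (Cfg dz)) z := (hasFDerivAt_id z).const_smul R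
  have h3 := (h1.comp z h2).const_mul ((k⁻¹ : ℝ) : ℂ)
  unfold pd
  change (fderiv ℝ (fun z => ((k⁻¹ : ℝ) : ℂ) * (α ∘ fun z => R • z) z) z) _ = _
  rw [h3.fderiv]
  simp only [hN, _root_.smul_apply, ContinuousLinearMap.comp_apply, ContinuousLinearMap.id_apply, map_smul,
    smul_eq_mul, Complex.real_smul]
  ring

lemma hN_sq {k R : ℝ} (hR : 0 < R) (hkk : k ^ 2 * R ^ (9 * dz) = 1) (α : Cfg dz → ℂ) :
    ∫ z, ‖hN k R α z‖ ^ 2 = ∫ z, ‖α z‖ ^ 2 := by
  have h1 : ∀ z, ‖hN k R α z‖ ^ 2 = (k⁻¹) ^ 2 * (fun y => ‖α y‖ ^ 2) (R • z) := by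
    intro z
    unfold hN
    rw [norm_mul, Complex.norm_real, Real.norm_eq_abs, mul_pow, sq_abs]
  have h3 : ∫ z : Cfg dz, (fun y => ‖α y‖ ^ 2) (R • z) = (R ^ (9 * dz))⁻¹ • ∫ z, ‖α z‖ ^ 2 := sc_int hR (fun y => ‖α y‖ ^ 2)
  rw [integral_congr_ae (Eventually.of_forall h1), integral_const_mul, h3, smul_eq_mul, ← mul_assoc]
  have h2 : k⁻¹ ^ 2 * (R ^ (9 * dz))⁻¹ = 1 := by
    rw [inv_pow, ← mul_inv, hkk, inv_one]
  rw [h2, one_mul]

lemma hN_pair {k R : ℝ} (hR : 0 < R) (hk : 0 < k) (hkk : k ^ 2 * R ^ (9 * dz) = 1) (α : Cfg dz → ℂ) (χ : Cfg dz → ℝ) :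
    ∫ z, ((χ z : ℝ) : ℂ) * hN k R α z = ((k : ℝ) : ℂ) * ∫ y, ((χ (R⁻¹ • y) : ℝ) : ℂ) * α y := by
  have h1 : ∀ z, ((χ z : ℝ) : ℂ) * hN k R α z = ((k⁻¹ : ℝ) : ℂ) * (fun y => ((χ (R⁻¹ • y) : ℝ) : ℂ) * α y) (R • z) := by
    intro z
    simp only [hN, smul_smul, inv_mul_cancel₀ hR.ne', one_smul]
    ring
  have h3 : ∫ z : Cfg dz, (fun y => ((χ (R⁻¹ • y) : ℝ) : ℂ) * α y) (R • z) = (R ^ (9 * dz))⁻¹ • ∫ y, ((χ (R⁻¹ • y) : ℝ) : ℂ) * α y :=
    sc_int hR (fun y => ((χ (R⁻¹ • y) : ℝ) : ℂ) * α y)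
  rw [integral_congr_ae (Eventually.of_forall h1), integral_const_mul, h3, Complex.real_smul, ← mul_assoc]
  congr 1
  rw [← Complex.ofReal_mul]
  congr 1
  have h2 : (R ^ (9 * dz))⁻¹ = k ^ 2 := by
    rw [inv_eq_iff_eq_inv]
    exact eq_inv_of_mul_eq_one_right hkk
  rw [h2]
  field_simp

/-- compactness: bounded in `H¹`, weak limit zero, fixed compact support -/
lemma cpt {z₀ : Cfg dz} {ε : ℝ} (hε : 0 < ε) (hLR : U.LRStmt dz ℂ) {h : ℕ → Cfg dz → ℂ} (hs : ∀ n, ContDiff ℝ ∞ (h n))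
    (hsup : ∀ n z, z ∉ Metric.closedBall z₀ ε → h n z = 0) {K : ℝ} (hK : ∀ n, ∫ z, ‖h n z‖ ^ 2 ≤ K)
    (hK' : ∀ n i A, ∫ z, ‖pd i A (h n) z‖ ^ 2 ≤ K)
    (hw : ∀ χ : Cfg dz → ℝ, ContDiff ℝ ∞ χ → HasCompactSupport χ → tsupport χ ⊆ Metric.ball z₀ (2 * ε) →
      Tendsto (fun n => ∫ z, ((χ z : ℝ) : ℂ) * h n z) atTop (𝓝 0)) :
    Tendsto (fun n => ∫ z, ‖h n z‖ ^ 2) atTop (𝓝 0) := by
  have hcs : ∀ n, HasCompactSupport (h n) := fun n => HasCompactSupport.intro (isCompact_closedBall z₀ ε) (hsup n)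
  have hint : ∀ n, Integrable (fun z => ‖h n z‖ ^ 2) := fun n => Setup.Tst.norm_sq_int ⟨hs n, hcs n⟩
  have hint' : ∀ n i A, Integrable (fun z => ‖pd i A (h n) z‖ ^ 2) := fun n i A =>
    Setup.Tst.norm_sq_int (Setup.Tst.pd ⟨hs n, hcs n⟩ i A)
  refine tendsto_of_subseq_tendsto fun ns hns => ?_
  obtain ⟨φ, hφ, Ψ, hΨm, hΨi, hΨ⟩ := hLR (fun n => h (ns n)) (fun n => hs _) (fun s _ => by
    refine ⟨K + ∑ _i : Fin 9, ∑ _A : Fin dz, K, fun n => add_le_add ?_ (Finset.sum_le_sum fun i _ => Finset.sum_le_sum fun A _ => ?_)⟩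
    · exact (setIntegral_le_integral (hint _) (Eventually.of_forall fun _ => by positivity)).trans (hK _)
    · exact (setIntegral_le_integral (hint' _ i A) (Eventually.of_forall fun _ => by positivity)).trans (hK' _ i A))
  refine ⟨φ, ?_⟩
  set s : ℝ := ‖z₀‖ + 2 * ε + 1 with hsdef
  have hs0 : 0 < s := by positivity
  have hbs : Metric.ball z₀ (2 * ε) ⊆ Metric.ball (0 : Cfg dz) s := by
    intro z hz
    rw [Metric.mem_ball, dist_eq_norm] at hz
    rw [mem_ball_zero_iff]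
    calc ‖z‖ = ‖(z - z₀) + z₀‖ := by rw [sub_add_cancel]
      _ ≤ ‖z - z₀‖ + ‖z₀‖ := norm_add_le _ _
      _ < s := by rw [hsdef]; linarith
  have hcbs : Metric.closedBall z₀ ε ⊆ Metric.ball z₀ (2 * ε) := Metric.closedBall_subset_ball (by linarith)
  have hΨL : MemLp Ψ 2 (volume.restrict (Metric.ball (0 : Cfg dz) s)) :=
    (memLp_two_iff_integrable_sq_norm hΨm.aestronglyMeasurable).2 (hΨi s hs0)
  have hhL : ∀ n, MemLp (h n) 2 (volume : Measure (Cfg dz)) := fun n => Setup.Tst.memLp ⟨hs n, hcs n⟩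
  have hdL : ∀ n, MemLp (fun z => h n z - Ψ z) 2 (volume.restrict (Metric.ball (0 : Cfg dz) s)) := fun n =>
    ((hhL n).restrict _).sub hΨL
  have hdi : ∀ n, IntegrableOn (fun z => ‖h n z - Ψ z‖ ^ 2) (Metric.ball (0 : Cfg dz) s) volume := fun n =>
    (memLp_two_iff_integrable_sq_norm (hdL n).1).1 (hdL n)
  -- the weak limit is zero
  have hzero : ∀ᵐ x ∂(volume : Measure (Cfg dz)), x ∈ Metric.ball z₀ (2 * ε) → Ψ x = 0 := by
    refine Metric.isOpen_ball.ae_eq_zero_of_integral_contDiff_smul_eq_zero ?_ fun χ hχ hχc hχs => ?_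
    · refine LocallyIntegrableOn.mono_set ?_ hbs
      have : IsFiniteMeasure (volume.restrict (Metric.ball (0 : Cfg dz) s)) := ⟨by
        rw [Measure.restrict_apply_univ]; exact measure_ball_lt_top⟩
      have h1 : IntegrableOn Ψ (Metric.ball (0 : Cfg dz) s) volume := hΨL.integrable (by norm_num)
      exact h1.locallyIntegrableOn
    · have h1 := (hw χ hχ hχc hχs).comp (hns.comp hφ.tendsto_atTop)
      have hχL : MemLp (fun x => ((χ x : ℝ) : ℂ)) 2 (volume : Measure (Cfg dz)) := by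
        refine (Complex.continuous_ofReal.comp hχ.continuous).memLp_of_hasCompactSupport ?_
        exact hχc.comp_left (g := fun x : ℝ => (x : ℂ)) Complex.ofReal_zero
      have hne : ∀ x, χ x ≠ 0 → x ∈ Metric.ball (0 : Cfg dz) s := fun x hx => hbs (hχs (subset_tsupport _ hx))
      have h2 : ∀ n, ‖(∫ z, ((χ z : ℝ) : ℂ) * h n z) - ∫ z, χ z • Ψ z‖ ≤
          Real.sqrt (∫ x, ‖((χ x : ℝ) : ℂ)‖ ^ 2) * Real.sqrt (∫ z in Metric.ball (0 : Cfg dz) s, ‖h n z - Ψ z‖ ^ 2) := by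
        intro n
        have hiL : MemLp ((Metric.ball (0 : Cfg dz) s).indicator (fun z => h n z - Ψ z)) 2 (volume : Measure (Cfg dz)) :=
          (memLp_indicator_iff_restrict Metric.isOpen_ball.measurableSet).2 (hdL n)
        have h3 := cs_inner hχL hiL
        have h4 : ∫ x, ‖(Metric.ball (0 : Cfg dz) s).indicator (fun z => h n z - Ψ z) x‖ ^ 2 =
            ∫ z in Metric.ball (0 : Cfg dz) s, ‖h n z - Ψ z‖ ^ 2 := by
          rw [← integral_indicator Metric.isOpen_ball.measurableSet]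
          refine integral_congr_ae (Eventually.of_forall fun x => ?_)
          by_cases hx : x ∈ Metric.ball (0 : Cfg dz) s
          · simp [Set.indicator_of_mem hx]
          · simp [Set.indicator_of_notMem hx]
        rw [h4] at h3
        have iχh : Integrable (fun z => ((χ z : ℝ) : ℂ) * h n z) := by
          refine Continuous.integrable_of_hasCompactSupport ((Complex.continuous_ofReal.comp hχ.continuous).mul (hs n).continuous) ?_
          exact (hcs n).mul_left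
        have iχΨ : Integrable (fun z => χ z • Ψ z) := by
          have e1 : (fun z => χ z • Ψ z) = fun z => χ z • (Metric.ball (0 : Cfg dz) s).indicator Ψ z := by
            funext z
            by_cases hz : χ z = 0
            · rw [hz, zero_smul, zero_smul]
            · rw [Set.indicator_of_mem (hne z hz)]
          rw [e1]
          have h5 : MemLp ((Metric.ball (0 : Cfg dz) s).indicator Ψ) 2 (volume : Measure (Cfg dz)) :=
            (memLp_indicator_iff_restrict Metric.isOpen_ball.measurableSet).2 hΨL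
          have h6 := integrable_inner_memLp hχL h5
          refine h6.congr (Eventually.of_forall fun x => ?_)
          simp [mul_comm]
        have h7 : (∫ z, ((χ z : ℝ) : ℂ) * h n z) - ∫ z, χ z • Ψ z =
            ∫ x, inner ℂ (((χ x : ℝ) : ℂ)) ((Metric.ball (0 : Cfg dz) s).indicator (fun z => h n z - Ψ z) x) := by
          rw [← integral_sub iχh iχΨ]
          refine integral_congr_ae (Eventually.of_forall fun x => ?_)
          by_cases hz : χ x = 0
          · simp [hz]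
          · simp only [Set.indicator_of_mem (hne x hz), Complex.real_smul, RCLike.inner_apply, Complex.conj_ofReal]
            ring
        rw [h7]
        exact h3
      have h8 : Tendsto (fun n => (∫ z, ((χ z : ℝ) : ℂ) * h (ns (φ n)) z) - ∫ z, χ z • Ψ z) atTop (𝓝 0) := by
        rw [tendsto_zero_iff_norm_tendsto_zero]
        refine squeeze_zero (fun _ => norm_nonneg _) (fun n => h2 (ns (φ n))) ?_
        have h9 := ((Real.continuous_sqrt.tendsto 0).comp (hΨ s hs0)).const_mul (Real.sqrt (∫ x, ‖((χ x : ℝ) : ℂ)‖ ^ 2))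
        rw [Real.sqrt_zero, mul_zero] at h9
        exact h9
      have h10 := h1.sub h8
      have h11 : Tendsto (fun _ : ℕ => ∫ z, χ z • Ψ z) atTop (𝓝 (0 - 0)) := by
        refine h10.congr fun n => ?_
        simp
      rw [sub_zero] at h11
      exact tendsto_nhds_unique tendsto_const_nhds h11
  have hfin : ∀ n, ∫ z, ‖h n z‖ ^ 2 ≤ ∫ z in Metric.ball (0 : Cfg dz) s, ‖h n z - Ψ z‖ ^ 2 := by
    intro n
    have h1 : ∫ z, ‖h n z‖ ^ 2 = ∫ z in Metric.ball z₀ (2 * ε), ‖h n z‖ ^ 2 := by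
      rw [setIntegral_eq_integral_of_forall_compl_eq_zero]
      intro z hz
      rw [hsup n z fun h => hz (hcbs h)]
      simp
    have h2 : ∫ z in Metric.ball z₀ (2 * ε), ‖h n z‖ ^ 2 = ∫ z in Metric.ball z₀ (2 * ε), ‖h n z - Ψ z‖ ^ 2 := by
      refine setIntegral_congr_ae Metric.isOpen_ball.measurableSet ?_
      filter_upwards [hzero] with z hz hzb
      rw [hz hzb, sub_zero]
    rw [h1, h2]
    exact setIntegral_mono_set (hdi n) (Eventually.of_forall fun _ => by positivity) (Eventually.of_forall hbs)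
  exact squeeze_zero (fun n => integral_nonneg fun _ => by positivity) (fun n => hfin (ns (φ n))) (hΨ s hs0)

lemma G_int (C : ℝ) {c R : ℝ} (hc : 0 < c) (hR : 0 < R) :
    Integrable (fun w : Wsp dm => (C * R ^ (2 * dm) * Real.exp (-(c * R * ‖w‖ ^ 2))) ^ 2) := by
  have h1 := (gauss_int (dm := dm) (2 * (c * R)) (by positivity)).const_mul ((C * R ^ (2 * dm)) ^ 2)
  refine h1.congr (Eventually.of_forall fun w => ?_)
  simp only
  rw [mul_pow _ (Real.exp _), ← Real.exp_nat_mul]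
  congr 2
  push_cast
  ring

/-- the error term tends to zero -/
lemma dl_lim {o : Cfg ds → F} (ho : MemLp o 2 (volume : Measure (Cfg ds))) {R : ℕ → ℝ} (hR : Tendsto R atTop atTop)
    (hR1 : ∀ n, 1 ≤ R n) {ε : ℝ} (hε : 0 < ε) (C : ℝ) {c : ℝ} (hc : 0 < c) :
    Tendsto (fun n => dl o (fun w : Wsp dm => C * R n ^ (2 * dm) * Real.exp (-(c * R n * ‖w‖ ^ 2))) (2 * ε * R n))
      atTop (𝓝 0) := by
  have hR0 : ∀ n, 0 < R n := fun n => lt_of_lt_of_le one_pos (hR1 n)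
  have ha : Tendsto (fun n => 2 * ε * R n / 4) atTop atTop := by
    have : (fun n => 2 * ε * R n / 4) = fun n => (ε / 2) * R n := by funext n; ring
    rw [this]
    exact hR.const_mul_atTop (by positivity)
  have hb : Tendsto (fun n => Real.sqrt (R n) * (2 * ε * R n / 4)) atTop atTop := by
    refine tendsto_atTop_mono (fun n => ?_) ha
    have h1 : 1 ≤ Real.sqrt (R n) := Real.one_le_sqrt.2 (hR1 n)
    have h2 : 0 ≤ 2 * ε * R n / 4 := by have := hR0 n; positivity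
    nlinarith
  have t1 := tail_zero (μ := (volume : Measure (Cfg ds))) (memLp_norm_sq_int ho) ha
  have t2 := tail_zero (μ := (volume : Measure (Wsp dm))) (gauss_int (dm := dm) (2 * c) (by positivity)) hb
  have e1 : ∀ n, ∫ w : Wsp dm, (C * R n ^ (2 * dm) * Real.exp (-(c * R n * ‖w‖ ^ 2))) ^ 2 =
      C ^ 2 * ∫ w : Wsp dm, Real.exp (-(2 * c * ‖w‖ ^ 2)) := by
    intro n
    have h1 := gauss_scale (dm := dm) C c (R n) 0 (hR0 n)
    simpa using h1
  have t3 := (t1.mul_const (C ^ 2 * ∫ w : Wsp dm, Real.exp (-(2 * c * ‖w‖ ^ 2)))).add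
    ((t2.const_mul (C ^ 2)).const_mul (∫ ys, ‖o ys‖ ^ 2))
  rw [zero_mul, mul_zero, mul_zero, add_zero] at t3
  refine t3.congr fun n => ?_
  unfold dl
  rw [e1 n, gauss_scale C c (R n) (2 * ε * R n / 4) (hR0 n)]

/-- the estimate at scale `R` -/
lemma step_err [FiniteDimensional ℂ F] (S : Setup d F) (φ : Spl dh dm d) (ψ : Spl ds dz dh) (hCmb : CmbStmt) (z₀ : Cfg dz)
    {R ε : ℝ} (hR : 0 < R) (hε : 0 < ε)
    (hgC : ContinuousOn (fun p : Cfg dz × Wsp dm => gn S φ ψ p.1 p.2) (Metric.closedBall (R • z₀) (ε * R) ×ˢ Set.univ))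
    (hPC : ContinuousOn (fun yz => Pz S φ ψ yz) (Metric.closedBall (R • z₀) (ε * R)))
    {G : Wsp dm → ℝ} (hG : Integrable (fun w => G w ^ 2))
    (hgG : ∀ yz ∈ Metric.closedBall (R • z₀) (ε * R), ∀ w, |gn S φ ψ yz w| ≤ G w)
    {o : Cfg ds → F} (ho : MemLp o 2 (volume : Measure (Cfg ds))) {V : Cfg dh → Wsp dm → F} (hV : Tst2 V) {u : Cfg d → F}
    (hu : Continuous u) (hle : ∀ y w, ‖V y w‖ ≤ ‖S.res φ u y w‖)
    (hsup : ∀ y w, V y w ≠ 0 → ‖zp ψ y - R • z₀‖ ≤ ε * R ∧ ‖sp ψ y‖ ≤ ε * R ∧ ‖w‖ ≤ ε * R)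
    {θ : Cfg dz → ℝ} (hθ : Continuous θ) (hθ0 : ∀ z, z ∉ Metric.closedBall z₀ ε → θ z = 0) {M : ℝ}
    (hM : ∀ z, |θ z| ≤ M)
    (hc : ∀ y w, ‖sp ψ y‖ ≤ ε / 2 * R → ‖w‖ ≤ ε / 2 * R → V y w = ((θ (R⁻¹ • zp ψ y) : ℝ) : ℂ) • S.res φ u y w)
    {χ : Cfg dz → ℝ} (hχ : Continuous χ) {Mχ : ℝ} (hMχ : ∀ z, |χ z| ≤ Mχ) {K : ℝ}
    (hK : (∫ p in AN.Nb (cmb ψ 0 z₀) dm R (4 * ε), ‖S.res φ u p.1 p.2‖ ^ 2
        ∂((volume : Measure (Cfg dh)).prod (volume : Measure (Wsp dm)))) ≤ K)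
    (hα : Continuous (fun yz => ∫ ys, inner ℂ (o ys) (sec S φ ψ V yz ys))) {η : ℝ} (hη : 0 < η) :
    ‖((R ^ (-(9 * (dz : ℝ) / 2)) : ℝ) : ℂ) * (∫ yz, ((χ (R⁻¹ • yz) : ℝ) : ℂ) * ∫ ys, inner ℂ (o ys) (sec S φ ψ V yz ys)) -
      sfun S φ ψ (2 * ε) R (fun z => χ z * θ z) o u‖ ≤
    Mχ * (1 + M) * ε ^ (9 * dz) * volume.real (Metric.ball (0 : Cfg dz) 1) * dl o G (2 * ε * R) / η + Mχ * (1 + M) * K * η := by
  have hM0 : 0 ≤ M := (abs_nonneg _).trans (hM 0)
  have hMχ0 : 0 ≤ Mχ := (abs_nonneg _).trans (hMχ 0)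
  set k : ℝ := R ^ (-(9 * (dz : ℝ) / 2)) with hk
  have hk0 : 0 < k := Real.rpow_pos_of_pos hR _
  have hkk : k ^ 2 * R ^ (9 * dz) = 1 := kk hR
  have h1 := main_err S φ ψ hCmb z₀ hR hε hgC hPC hG hgG ho hV hu hle hsup (θ := fun yz => θ (R⁻¹ • yz))
    (hθ.comp (continuous_const_smul R⁻¹)) (fun yz hyz => hθ0 _ (fun h => hyz ?_)) (M := M) (fun yz => hM _) hc
    (χ := fun yz => χ (R⁻¹ • yz)) (hχ.comp (continuous_const_smul R⁻¹)) (Mχ := Mχ) (fun yz => hMχ _) hα (t := k / η) (by positivity)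
  · have e1 : sfun S φ ψ (2 * ε) R (fun z => χ z * θ z) o u = ((k : ℝ) : ℂ) *
        ∫ yz, ((χ (R⁻¹ • yz) * θ (R⁻¹ • yz) : ℝ) : ℂ) * ∫ ys in Metric.ball (0 : Cfg ds) (2 * ε * R),
          ∫ w in Metric.ball (0 : Wsp dm) (2 * ε * R), inner ℂ (vcz S φ ψ yz (o ys) w) (S.res φ u (cmb ψ ys yz) w) := rfl
    rw [e1, ← mul_sub, norm_mul, Complex.norm_real, Real.norm_eq_abs, abs_of_pos hk0]
    refine (mul_le_mul_of_nonneg_left h1 hk0.le).trans ?_
    rw [Measure.addHaar_real_closedBall _ _ (by positivity), finrank_c]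
    have h2 : k * (Mχ * ((1 + M) * (k / η * dl o G (2 * ε * R)) * ((ε * R) ^ (9 * dz) * volume.real (Metric.ball (0 : Cfg dz) 1)) +
        (1 + M) * (k / η)⁻¹ * ∫ p in AN.Nb (cmb ψ 0 z₀) dm R (4 * ε), ‖S.res φ u p.1 p.2‖ ^ 2
        ∂((volume : Measure (Cfg dh)).prod (volume : Measure (Wsp dm))))) =
        (k ^ 2 * R ^ (9 * dz)) * (Mχ * (1 + M) * ε ^ (9 * dz) * volume.real (Metric.ball (0 : Cfg dz) 1) * dl o G (2 * ε * R) / η) +
        (k * k⁻¹) * (Mχ * (1 + M) * η) * ∫ p in AN.Nb (cmb ψ 0 z₀) dm R (4 * ε), ‖S.res φ u p.1 p.2‖ ^ 2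
        ∂((volume : Measure (Cfg dh)).prod (volume : Measure (Wsp dm))) := by
      rw [mul_pow, inv_div]
      ring
    rw [h2, hkk, mul_inv_cancel₀ hk0.ne', one_mul, one_mul]
    refine add_le_add le_rfl ?_
    calc _ ≤ Mχ * (1 + M) * η * K := mul_le_mul_of_nonneg_left hK (by positivity)
      _ = Mχ * (1 + M) * K * η := by ring
  · rw [Metric.mem_closedBall, dist_eq_norm] at h ⊢
    have h3 : yz - R • z₀ = R • (R⁻¹ • yz - z₀) := by
      rw [smul_sub, smul_smul, mul_inv_cancel₀ hR.ne', one_smul]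
    rw [h3, norm_smul, Real.norm_eq_abs, abs_of_pos hR, mul_comm ε]
    exact mul_le_mul_of_nonneg_left h hR.le

/-- `L²` bound of the coefficient -/
lemma al_bd1 [FiniteDimensional ℂ F] (S : Setup d F) (φ : Spl dh dm d) (ψ : Spl ds dz dh) (hCmb : CmbStmt)
    {o : Cfg ds → F} (ho : MemLp o 2 (volume : Measure (Cfg ds))) {V : Cfg dh → Wsp dm → F} (hV : Tst2 V)
    (sm : ContDiff ℝ ∞ (fun p : Cfg dz × Cfg ds => sec S φ ψ V p.1 p.2))
    (cs : HasCompactSupport (fun p : Cfg dz × Cfg ds => sec S φ ψ V p.1 p.2))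
    (n1 : ∀ yz, nsq (sec S φ ψ V yz) ≤ ∫ ys, nsf (V (cmb ψ ys yz))) :
    ∫ yz, ‖∫ ys, inner ℂ (o ys) (sec S φ ψ V yz ys)‖ ^ 2 ≤ nsq o * ns2 V := by
  obtain ⟨c1, c2, c3, c4, c5, c6, c7⟩ := hCmb ds dz dh ψ
  have hcV : HasCompactSupport (fun p : Cfg dh × Wsp dm => ‖V p.1 p.2‖ ^ 2) := by
    refine hV.2.mono fun p hp => ?_
    rw [Function.mem_support] at hp ⊢
    intro h
    apply hp
    simp [h]
  obtain ⟨i1, e1⟩ := Phi_int c7 c4 (f := fun p : Cfg dh × Wsp dm => ‖V p.1 p.2‖ ^ 2) (hV.1.continuous.norm.pow 2) hcV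
  have e2 : ns2 V = ∫ yz, ∫ ys, nsf (V (cmb ψ ys yz)) := e1
  have i2 : Integrable (fun yz => nsq o * ∫ ys, nsf (V (cmb ψ ys yz))) := i1.const_mul (nsq o)
  rw [e2, ← integral_const_mul]
  refine integral_mono_of_nonneg (Eventually.of_forall fun _ => by positivity) i2 (Eventually.of_forall fun yz => ?_)
  exact ((al_sq ho sm.continuous cs).2 yz).trans (mul_le_mul_of_nonneg_left (n1 yz) (nsq_nonneg o))

/-- `L²` bound of the derivative of the coefficient -/
lemma al_bd2 [FiniteDimensional ℂ F] (S : Setup d F) (φ : Spl dh dm d) (ψ : Spl ds dz dh)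
    {o : Cfg ds → F} (ho : MemLp o 2 (volume : Measure (Cfg ds))) {V : Cfg dh → Wsp dm → F}
    (sm : ContDiff ℝ ∞ (fun p : Cfg dz × Cfg ds => sec S φ ψ V p.1 p.2))
    (cs : HasCompactSupport (fun p : Cfg dz × Cfg ds => sec S φ ψ V p.1 p.2)) (i : Fin 9) (A : Fin dz) :
    ∫ yz, ‖pd i A (fun yz => ∫ ys, inner ℂ (o ys) (sec S φ ψ V yz ys)) yz‖ ^ 2 ≤
      nsq o * ∫ yz, nsq (fun ys => pd i A (fun z => sec S φ ψ V z ys) yz) := by
  have hol : LocallyIntegrable o volume := ho.locallyIntegrable (by norm_num)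
  obtain ⟨p1, p2⟩ := pd_fst sm cs i A
  obtain ⟨q1, q2⟩ := al_sq ho p1 p2
  rw [← integral_const_mul]
  refine integral_mono_of_nonneg (Eventually.of_forall fun _ => by positivity) (q1.const_mul (nsq o))
    (Eventually.of_forall fun yz => ?_)
  have h1 := pair_pd hol sm cs i A yz
  simp only at h1 ⊢
  rw [h1]
  exact q2 yz

/-- the mass of the cut-off function -/
lemma ns2_le (S : Setup d F) (φ : Spl dh dm d) (ψ : Spl ds dz dh) (hCmb : CmbStmt) (z₀ : Cfg dz) {R ε : ℝ} (hR : 0 < R) (hε : 0 < ε)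
    {V : Cfg dh → Wsp dm → F} (hV : Tst2 V) {u : Cfg d → F} (hu : Continuous u) (hle : ∀ y w, ‖V y w‖ ≤ ‖S.res φ u y w‖)
    (hsup : ∀ y w, V y w ≠ 0 → ‖zp ψ y - R • z₀‖ ≤ ε * R ∧ ‖sp ψ y‖ ≤ ε * R ∧ ‖w‖ ≤ ε * R) :
    Sup2 (cmb ψ 0 z₀) (2 * ε) R V ∧
    ns2 V ≤ ∫ p in AN.Nb (cmb ψ 0 z₀) dm R (4 * ε), ‖S.res φ u p.1 p.2‖ ^ 2
        ∂((volume : Measure (Cfg dh)).prod (volume : Measure (Wsp dm))) := by
  obtain ⟨c1, c2, c3, c4, c5, c6, c7⟩ := hCmb ds dz dh ψ
  have hεR : 0 < ε * R := mul_pos hε hR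
  have hS : Sup2 (cmb ψ 0 z₀) (2 * ε) R V := by
    intro y w hne
    obtain ⟨h1, h2, h3⟩ := hsup y w hne
    refine ⟨?_, by linarith⟩
    have h4 : ‖y - R • cmb ψ 0 z₀‖ ^ 2 = ‖sp ψ y‖ ^ 2 + ‖zp ψ y - R • z₀‖ ^ 2 := by
      conv_lhs => rw [← c3 y]
      rw [c6, c5, c4, smul_zero, sub_zero]
    refine (abs_le_of_sq_le_sq' ?_ (by positivity)).2
    rw [h4]
    nlinarith [norm_nonneg (sp ψ y), norm_nonneg (zp ψ y - R • z₀)]
  refine ⟨hS, ?_⟩
  have hrc : Continuous fun p : Cfg dh × Wsp dm => S.res φ u p.1 p.2 := res_cont S φ hu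
  have hNb : AN.Nb (cmb ψ 0 z₀) dm R (4 * ε) ⊆ Metric.closedBall (R • cmb ψ 0 z₀) (4 * ε * R) ×ˢ Metric.closedBall (0 : Wsp dm) (4 * ε * R) := by
    rintro ⟨y, w⟩ ⟨h1, h2⟩
    exact ⟨by rw [Metric.mem_closedBall, dist_eq_norm]; exact h1.le, by rw [mem_closedBall_zero_iff]; exact h2.le⟩
  have hcpt : IsCompact (Metric.closedBall (R • cmb ψ 0 z₀) (4 * ε * R) ×ˢ Metric.closedBall (0 : Wsp dm) (4 * ε * R)) :=
    (isCompact_closedBall _ _).prod (isCompact_closedBall _ _)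
  have j1 : IntegrableOn (fun p : Cfg dh × Wsp dm => ‖S.res φ u p.1 p.2‖ ^ 2) (AN.Nb (cmb ψ 0 z₀) dm R (4 * ε))
      ((volume : Measure (Cfg dh)).prod (volume : Measure (Wsp dm))) :=
    (ContinuousOn.integrableOn_compact hcpt (hrc.norm.pow 2).continuousOn).mono_set hNb
  have j2 : IntegrableOn (fun p : Cfg dh × Wsp dm => ‖V p.1 p.2‖ ^ 2) (AN.Nb (cmb ψ 0 z₀) dm R (4 * ε))
      ((volume : Measure (Cfg dh)).prod (volume : Measure (Wsp dm))) :=
    (ContinuousOn.integrableOn_compact hcpt (hV.1.continuous.norm.pow 2).continuousOn).mono_set hNb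
  unfold ns2
  rw [← setIntegral_eq_integral_of_forall_compl_eq_zero (s := AN.Nb (cmb ψ 0 z₀) dm R (4 * ε))]
  · refine setIntegral_mono_on j2 j1 (Nb_open _ _ _).measurableSet fun p _ => ?_
    exact pow_le_pow_left₀ (norm_nonneg _) (hle _ _) 2
  · intro p hp
    have h1 : V p.1 p.2 = 0 := by
      by_contra hne
      obtain ⟨h2, h3⟩ := hS p.1 p.2 hne
      exact hp ⟨by linarith, by linarith⟩
    rw [h1]
    simp

/-- the determinant does not vanish near `R z₀` -/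
lemma det_ne (S : Setup d F) (φ : Spl dh dm d) (ψ : Spl ds dz dh) (hCmb : CmbStmt) (z₀ : Cfg dz) {R ε εg : ℝ} (hR : 0 < R)
    (hε : ε ≤ εg) (hεg : 0 < εg) (hdet : ∀ y : Cfg dh, ‖y - cmb ψ 0 z₀‖ ≤ 4 * εg → (S.Dy φ 8 y).det ≠ 0) (yz : Cfg dz)
    (hyz : yz ∈ Metric.closedBall (R • z₀) (ε * R)) : (S.Dy φ 8 (cmb ψ 0 yz)).det ≠ 0 := by
  obtain ⟨c1, c2, c3, c4, c5, c6, c7⟩ := hCmb ds dz dh ψ
  rw [Metric.mem_closedBall, dist_eq_norm] at hyz
  have h1 : cmb ψ 0 yz = R • cmb ψ (0 : Cfg ds) (R⁻¹ • yz) := by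
    rw [c6, smul_zero, smul_smul, mul_inv_cancel₀ hR.ne', one_smul]
  rw [h1, AN.nrm_det_smul]
  refine mul_ne_zero (pow_ne_zero _ hR.ne') (hdet _ ?_)
  have h2 : ‖cmb ψ (0 : Cfg ds) (R⁻¹ • yz) - cmb ψ 0 z₀‖ ^ 2 = ‖R⁻¹ • yz - z₀‖ ^ 2 := by
    rw [c5, c4, sub_zero, norm_zero]
    ring
  have h3 : ‖R⁻¹ • yz - z₀‖ ≤ ε := by
    have h4 : yz - R • z₀ = R • (R⁻¹ • yz - z₀) := by
      rw [smul_sub, smul_smul, mul_inv_cancel₀ hR.ne', one_smul]
    rw [h4, norm_smul, Real.norm_eq_abs, abs_of_pos hR, mul_comm ε] at hyz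
    exact le_of_mul_le_mul_left hyz hR
  have h5 : ‖cmb ψ (0 : Cfg ds) (R⁻¹ • yz) - cmb ψ 0 z₀‖ = ‖R⁻¹ • yz - z₀‖ := by
    rw [← abs_of_nonneg (norm_nonneg (cmb ψ (0 : Cfg ds) (R⁻¹ • yz) - cmb ψ 0 z₀)), ← abs_of_nonneg (norm_nonneg (R⁻¹ • yz - z₀))]
    exact sq_eq_sq_iff_abs_eq_abs _ _ |>.1 h2
  rw [h5]
  linarith

end Vale.Agent.P353.Z.AD.Rel

namespace Vale.Agent.P353.Z.AD

variable {d dh dm ds dz : ℕ} {F : Type*} [NormedAddCommGroup F] [InnerProductSpace ℂ F]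

open Vale.Agent.P353.Z.AD.Rel in
/-- **L11** zero mode coefficients tend to zero -/
theorem relOf (S : Setup d F) : RelOfStmt S := by
  intro hSec hGn hScal hCmb hLR hF dh dm ds dz φ ψ z₀ h
  obtain ⟨εs, Cs, hεs, hCs, hsec⟩ := hSec hF dh dm ds dz φ ψ z₀ h
  obtain ⟨εg, c, Cg, hεg, hc, hCg, hdet, hgnsm, hgn⟩ := hGn dh dm ds dz φ ψ z₀ h
  obtain ⟨-, -, -, hPz⟩ := hScal hF dh dm ds dz φ ψ z₀ h
  refine ⟨min (εs / 2) εg, lt_min (by positivity) hεg, ?_⟩
  intro ε hε hεle R u Θ θ₁ K hRlim hR1 hinv hΘ hθ₁ hθs hΘs hΘc hTst hK1 hK2 hSPZ o ho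
  have hεs2 : 2 * ε ≤ εs := by linarith [hεle.trans (min_le_left _ _)]
  have hεg2 : ε ≤ εg := hεle.trans (min_le_right _ _)
  obtain ⟨uo, huo, hL2, hEn⟩ := ho
  have hoL : MemLp o 2 (volume : Measure (Cfg ds)) := hL2.mem'
  have hol : LocallyIntegrable o volume := hoL.locallyIntegrable (by norm_num)
  have hR0 : ∀ n, 0 < R n := fun n => lt_of_lt_of_le one_pos (hR1 n)
  have huc : ∀ n, Continuous (u n) := fun n => (hinv n).1.1.continuous
  have hle : ∀ n y w, ‖mul2 (Θ n) (S.res φ (u n)) y w‖ ≤ ‖S.res φ (u n) y w‖ := by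
    intro n y w
    unfold mul2
    rw [norm_smul, Complex.norm_real, Real.norm_eq_abs, abs_of_nonneg (hΘ n y w).1]
    exact mul_le_of_le_one_left (norm_nonneg _) (hΘ n y w).2
  have hsup : ∀ n y w, mul2 (Θ n) (S.res φ (u n)) y w ≠ 0 →
      ‖zp ψ y - R n • z₀‖ ≤ ε * R n ∧ ‖sp ψ y‖ ≤ ε * R n ∧ ‖w‖ ≤ ε * R n := by
    intro n y w hne
    refine hΘs n y w fun h0 => hne ?_
    unfold mul2
    rw [h0, Complex.ofReal_zero, zero_smul]
  have hns := fun n => ns2_le S φ ψ hCmb z₀ (hR0 n) hε (hTst n) (huc n) (hle n) (hsup n)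
  have hns2K : ∀ n, ns2 (mul2 (Θ n) (S.res φ (u n))) ≤ K := fun n => (hns n).2.trans (hK1 n)
  have hsecn := fun n => hsec (R n) (hR1 n) (mul2 (Θ n) (S.res φ (u n))) (hTst n) (fun y w hne => by
    obtain ⟨h1, h2⟩ := (hns n).1 y w hne
    exact ⟨h1.trans (mul_le_mul_of_nonneg_right hεs2 (hR0 n).le), h2.trans (mul_le_mul_of_nonneg_right hεs2 (hR0 n).le)⟩)
  -- smoothness of the coefficient
  have hαs : ∀ n, ContDiff ℝ ∞ (fun yz => ∫ ys, inner ℂ (o ys) (sec S φ ψ (mul2 (Θ n) (S.res φ (u n))) yz ys)) := fun n =>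
    pair_smooth hol (hsecn n).1 (hsecn n).2.1
  have hb1 : ∀ n, ∫ yz, ‖∫ ys, inner ℂ (o ys) (sec S φ ψ (mul2 (Θ n) (S.res φ (u n))) yz ys)‖ ^ 2 ≤ nsq o * K := fun n =>
    (al_bd1 S φ ψ hCmb hoL (hTst n) (hsecn n).1 (hsecn n).2.1 (hsecn n).2.2.2.1).trans
      (mul_le_mul_of_nonneg_left (hns2K n) (nsq_nonneg o))
  have hb2 : ∀ n i A, R n ^ 2 * ∫ yz, ‖pd i A (fun yz => ∫ ys, inner ℂ (o ys) (sec S φ ψ (mul2 (Θ n) (S.res φ (u n))) yz ys)) yz‖ ^ 2 ≤
      nsq o * (Cs * (K + K)) := by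
    intro n i A
    have h1 := al_bd2 S φ ψ hoL (hsecn n).1 (hsecn n).2.1 i A
    have h2 := (hsecn n).2.2.2.2.2 i A
    have h3 := mul_le_mul_of_nonneg_left (h1.trans (mul_le_mul_of_nonneg_left h2 (nsq_nonneg o))) (sq_nonneg (R n))
    refine h3.trans ?_
    have h4 : R n ^ 2 * (nsq o * (Cs * (ns2 (py i (ψ (Sum.inr A)) (mul2 (Θ n) (S.res φ (u n)))) +
        1 / R n ^ 2 * ns2 (mul2 (Θ n) (S.res φ (u n)))))) =
        nsq o * (Cs * (R n ^ 2 * ns2 (py i (ψ (Sum.inr A)) (mul2 (Θ n) (S.res φ (u n)))) +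
          (R n ^ 2 * (1 / R n ^ 2)) * ns2 (mul2 (Θ n) (S.res φ (u n))))) := by ring
    rw [h4, mul_one_div_cancel (pow_ne_zero 2 (hR0 n).ne'), one_mul]
    exact mul_le_mul_of_nonneg_left (mul_le_mul_of_nonneg_left (add_le_add (hK2 n i A) (hns2K n)) hCs.le) (nsq_nonneg o)
  have hout := fun n => al_out S φ ψ (hCmb ds dz dh ψ).2.1 (fun y w hne => (hsup n y w hne).1) o
  -- rescaling
  have hkk : ∀ n, (R n ^ (-(9 * (dz : ℝ) / 2))) ^ 2 * R n ^ (9 * dz) = 1 := fun n => kk (hR0 n)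
  have key := cpt (dz := dz) (z₀ := z₀) hε (hLR dz)
    (h := fun n => hN (R n ^ (-(9 * (dz : ℝ) / 2))) (R n)
      (fun yz => ∫ ys, inner ℂ (o ys) (sec S φ ψ (mul2 (Θ n) (S.res φ (u n))) yz ys)))
    (fun n => hN_smooth _ _ (hαs n)) ?_ (K := max (nsq o * K) (nsq o * (Cs * (K + K)))) ?_ ?_ ?_
  · refine key.congr fun n => ?_
    exact hN_sq (hR0 n) (hkk n) _
  · intro n z hz
    have h2 : R n • z ∉ Metric.closedBall (R n • z₀) (ε * R n) := ?_
    · simp only [hN]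
      rw [hout n (R n • z) h2, mul_zero]
    intro h1
    apply hz
    rw [Metric.mem_closedBall, dist_eq_norm, ← smul_sub, norm_smul, Real.norm_eq_abs, abs_of_pos (hR0 n), mul_comm] at h1
    rw [Metric.mem_closedBall, dist_eq_norm]
    exact le_of_mul_le_mul_right h1 (hR0 n)
  · intro n
    rw [hN_sq (hR0 n) (hkk n)]
    exact (hb1 n).trans (le_max_left _ _)
  · intro n i A
    refine le_trans (le_of_eq ?_) ((hb2 n i A).trans (le_max_right _ _))
    rw [← hN_sq (hR0 n) (hkk n) (pd i A (fun yz => ∫ ys, inner ℂ (o ys) (sec S φ ψ (mul2 (Θ n) (S.res φ (u n))) yz ys))),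
      ← integral_const_mul]
    refine integral_congr_ae (Eventually.of_forall fun z => ?_)
    simp only
    rw [hN_pd _ _ (hαs n), norm_mul, Complex.norm_real, Real.norm_eq_abs, mul_pow, sq_abs]
  · intro χ hχ hχc hχs
    obtain ⟨Mχ, hMχ⟩ := hχc.exists_bound_of_continuous hχ.continuous
    have hθc : HasCompactSupport θ₁ := (isCompact_closedBall z₀ ε).of_isClosed_subset (isClosed_tsupport θ₁) hθs
    obtain ⟨M, hM⟩ := hθc.exists_bound_of_continuous hθ₁.continuous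
    have hM' : ∀ z, |θ₁ z| ≤ M := fun z => hM z
    have hMχ' : ∀ z, |χ z| ≤ Mχ := fun z => hMχ z
    have hM0 : 0 ≤ M := (abs_nonneg _).trans (hM' 0)
    have hMχ0 : 0 ≤ Mχ := (abs_nonneg _).trans (hMχ' 0)
    have hK0 : 0 ≤ K := (integral_nonneg fun _ => by positivity).trans (hK1 0)
    have hdl := dl_lim (dm := dm) hoL hRlim hR1 hε Cg hc
    have hX : Tendsto (fun n => ‖((R n ^ (-(9 * (dz : ℝ) / 2)) : ℝ) : ℂ) * (∫ yz, ((χ ((R n)⁻¹ • yz) : ℝ) : ℂ) *
        ∫ ys, inner ℂ (o ys) (sec S φ ψ (mul2 (Θ n) (S.res φ (u n))) yz ys)) -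
        sfun S φ ψ (2 * ε) (R n) (fun z => χ z * θ₁ z) o (u n)‖) atTop (𝓝 0) := by
      refine tends_of (C1 := Mχ * (1 + M) * ε ^ (9 * dz) * volume.real (Metric.ball (0 : Cfg dz) 1)) (C2 := Mχ * (1 + M) * K)
        (by positivity) hdl (fun n => norm_nonneg _) fun η hη n => ?_
      have hsub : ∀ yz ∈ Metric.closedBall (R n • z₀) (ε * R n), (S.Dy φ 8 (cmb ψ 0 yz)).det ≠ 0 := fun yz hyz =>
        det_ne S φ ψ hCmb z₀ (hR0 n) hεg2 hεg hdet yz hyz
      refine step_err S φ ψ hCmb z₀ (hR0 n) hε (hgnsm.continuousOn.mono fun p hp => hsub p.1 hp.1)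
        (hPz.continuousOn.mono fun yz hyz => hsub yz hyz) (G_int Cg hc (hR0 n)) (fun yz hyz w => ?_) hoL (hTst n) (huc n) (hle n)
        (hsup n) hθ₁.continuous (fun z hz => ?_) hM' (fun y w hy hw => ?_) hχ.continuous hMχ' (hK1 n) (hαs n).continuous hη
      · rw [Metric.mem_closedBall, dist_eq_norm] at hyz
        have h1 := (hgn (R n) yz (hR0 n) (hyz.trans (mul_le_mul_of_nonneg_right hεg2 (hR0 n).le))).2.2.1 w
        rw [abs_of_nonneg h1.1]
        exact h1.2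
      · by_contra hne
        exact hz (hθs (subset_tsupport _ hne))
      · unfold mul2
        rw [hΘc n y w hy hw]
    have hS : Tendsto (fun n => sfun S φ ψ (2 * ε) (R n) (fun z => χ z * θ₁ z) o (u n)) atTop (𝓝 0) :=
      hSPZ (fun z => χ z * θ₁ z) (hχ.mul hθ₁) ((tsupport_mul_subset_left).trans hχs) o ⟨uo, huo, hL2, hEn⟩
    have hX2 := (tendsto_zero_iff_norm_tendsto_zero.2 hX).add hS
    rw [add_zero] at hX2
    refine hX2.congr fun n => ?_
    rw [sub_add_cancel]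
    exact (hN_pair (hR0 n) (Real.rpow_pos_of_pos (hR0 n) _) (hkk n) _ χ).symm

end Vale.Agent.P353.Z.AD
end

section

/-! # P353, all `N`, block E: Wick formulas in the fermionic vacuum (task E-Wick) -/

open Matrix

namespace Vale.Agent.P353.Z.AE

variable {d dh dm : ℕ} {F : Type*} [NormedAddCommGroup F] [InnerProductSpace ℂ F]

private lemma wick_Lth (S : Setup d F) (φ : Spl dh dm d) (D : Fin 9 → Matrix (Fin dm) (Fin dm) ℝ)
    (Om : Matrix (Fin dm) (Fin dm) ℝ) (p : Fin 16 × Fin dm) (u : F) :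
    S.Lth φ D Om p u = ∑ q : Fin 16 × Fin dm, S.Lam D Om p q • S.th q.1 (φ (Sum.inr q.2)) u := by
  simp only [Setup.Lth, _root_.sum_apply, _root_.smul_apply]

private lemma wick_anti (S : Setup d F) (φ : Spl dh dm d) (p q : Fin 16 × Fin dm) (u : F) :
    S.th p.1 (φ (Sum.inr p.2)) (S.th q.1 (φ (Sum.inr q.2)) u) =
      (if p = q then (1 : ℂ) else 0) • u - S.th q.1 (φ (Sum.inr q.2)) (S.th p.1 (φ (Sum.inr p.2)) u) := by
  have h := S.th_anti p.1 (φ (Sum.inr p.2)) q.1 (φ (Sum.inr q.2))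
  have h2 := congrArg (fun T : F →L[ℂ] F => T u) h
  have h3 : (p.1 = q.1 ∧ φ (Sum.inr p.2) = φ (Sum.inr q.2)) ↔ p = q := by
    rw [φ.injective.eq_iff, Sum.inr.injEq, Prod.ext_iff]
  rw [eq_sub_iff_add_eq]
  refine (show _ = _ from h2).trans ?_
  by_cases hpq : p = q
  · rw [if_pos (h3.2 hpq), if_pos hpq, one_smul]; rfl
  · rw [if_neg (fun h => hpq (h3.1 h)), if_neg hpq, zero_smul]; rfl

/-- `(Λθ)_p θ_q u = Λ_{pq} u - θ_q (Λθ)_p u` -/
private lemma wick_comm (S : Setup d F) (φ : Spl dh dm d) (D : Fin 9 → Matrix (Fin dm) (Fin dm) ℝ)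
    (Om : Matrix (Fin dm) (Fin dm) ℝ) (p q : Fin 16 × Fin dm) (u : F) :
    S.Lth φ D Om p (S.th q.1 (φ (Sum.inr q.2)) u) =
      S.Lam D Om p q • u - S.th q.1 (φ (Sum.inr q.2)) (S.Lth φ D Om p u) := by
  rw [wick_Lth, wick_Lth, map_sum]
  simp only [map_smul]
  have h1 : ∀ r : Fin 16 × Fin dm, S.Lam D Om p r • S.th r.1 (φ (Sum.inr r.2)) (S.th q.1 (φ (Sum.inr q.2)) u) =
      (S.Lam D Om p r * (if r = q then (1 : ℂ) else 0)) • u -
        S.Lam D Om p r • S.th q.1 (φ (Sum.inr q.2)) (S.th r.1 (φ (Sum.inr r.2)) u) := by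
    intro r
    rw [wick_anti, smul_sub, smul_smul]
  rw [Finset.sum_congr rfl fun r _ => h1 r, Finset.sum_sub_distrib, ← Finset.sum_smul]
  congr 2
  simp

private lemma wick_conj (S : Setup d F) (D : Fin 9 → Matrix (Fin dm) (Fin dm) ℝ)
    (Om : Matrix (Fin dm) (Fin dm) ℝ) (p q : Fin 16 × Fin dm) :
    S.Lam D Om p q + (starRingEnd ℂ) (S.Lam D Om p q) = if p.1 = q.1 then ((Om p.2 q.2 : ℝ) : ℂ) else 0 := by
  have hg : ∀ i, (starRingEnd ℂ) (S.g i p.1 q.1) = S.g i p.1 q.1 := fun i => Complex.conj_eq_iff_im.2 (S.g_real i _ _)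
  have hP : (starRingEnd ℂ) (S.PP D p q) = S.PP D p q := by
    simp only [Setup.PP, Matrix.of_apply, map_mul, map_sum, Complex.conj_ofReal, hg]
  simp only [Setup.Lam, Matrix.of_apply, map_mul, map_sub, hP, Complex.conj_I]
  have h2 : (starRingEnd ℂ) (1 / 2 : ℂ) = 1 / 2 := by
    rw [map_div₀, map_one, map_ofNat]
  rw [h2]
  split_ifs
  · rw [Complex.conj_ofReal]; ring
  · rw [map_zero]; ring

/-- the general one-step reduction -/
private lemma wick_red (S : Setup d F) (φ : Spl dh dm d) (D : Fin 9 → Matrix (Fin dm) (Fin dm) ℝ)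
    (Om : Matrix (Fin dm) (Fin dm) ℝ) (hOm : Om.det ≠ 0) {v' : F} (hv' : v' ∈ S.F0 φ D Om)
    (p : Fin 16 × Fin dm) (u : F) :
    inner ℂ v' (S.th p.1 (φ (Sum.inr p.2)) u) =
      ∑ B, ((Om⁻¹ p.2 B : ℝ) : ℂ) * inner ℂ v' (S.Lth φ D Om (p.1, B) u) := by
  have h1 : ∀ p : Fin 16 × Fin dm, ∑ q : Fin 16 × Fin dm, (starRingEnd ℂ) (S.Lam D Om p q) *
      inner ℂ v' (S.th q.1 (φ (Sum.inr q.2)) u) = 0 := by
    intro p
    have h2 : inner ℂ (S.Lth φ D Om p v') u = 0 := by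
      rw [show S.Lth φ D Om p v' = 0 from hv' p, inner_zero_left]
    rw [wick_Lth, sum_inner] at h2
    rw [← h2]
    refine Finset.sum_congr rfl fun q _ => ?_
    rw [inner_smul_left, S.th_sa]
  have h3 : ∀ p : Fin 16 × Fin dm, inner ℂ v' (S.Lth φ D Om p u) =
      ∑ C, ((Om p.2 C : ℝ) : ℂ) * inner ℂ v' (S.th p.1 (φ (Sum.inr C)) u) := by
    intro p
    have h4 : inner ℂ v' (S.Lth φ D Om p u) = ∑ q : Fin 16 × Fin dm,
        (S.Lam D Om p q + (starRingEnd ℂ) (S.Lam D Om p q)) * inner ℂ v' (S.th q.1 (φ (Sum.inr q.2)) u) := by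
      simp only [add_mul, Finset.sum_add_distrib, h1 p, add_zero]
      rw [wick_Lth, inner_sum]
      exact Finset.sum_congr rfl fun q _ => by rw [inner_smul_right]
    rw [h4]
    simp only [wick_conj]
    rw [Fintype.sum_prod_type]
    rw [Finset.sum_eq_single p.1]
    · simp
    · intro b _ hb
      refine Finset.sum_eq_zero fun C _ => ?_
      rw [if_neg (by simpa using fun h => hb h.symm), zero_mul]
    · intro h; exact absurd (Finset.mem_univ _) h
  have h5 : (Om⁻¹ * Om) = 1 := Matrix.nonsing_inv_mul _ (isUnit_iff_ne_zero.2 hOm)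
  simp only [h3, Finset.mul_sum]
  rw [Finset.sum_comm]
  have h6 : ∀ C, ∑ B, ((Om⁻¹ p.2 B : ℝ) : ℂ) * (((Om B C : ℝ) : ℂ) * inner ℂ v' (S.th p.1 (φ (Sum.inr C)) u)) =
      (if p.2 = C then (1 : ℂ) else 0) * inner ℂ v' (S.th p.1 (φ (Sum.inr C)) u) := by
    intro C
    have h7 : ∑ B, ((Om⁻¹ p.2 B : ℝ) : ℂ) * ((Om B C : ℝ) : ℂ) = (if p.2 = C then (1 : ℂ) else 0) := by
      have h8 := congrFun (congrFun h5 p.2) C
      rw [Matrix.mul_apply, Matrix.one_apply] at h8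
      rw [← Complex.ofReal_one, ← Complex.ofReal_zero, ← apply_ite Complex.ofReal, ← h8]
      push_cast
      rfl
    rw [← h7, Finset.sum_mul]
    exact Finset.sum_congr rfl fun B _ => by ring
  rw [Finset.sum_congr rfl fun C _ => h6 C]
  simp

/-- **E-Wick** -/
theorem wick (S : Setup d F) (φ : Spl dh dm d) : WickStmt S φ := by
  intro D Om _ hOm v hv v' hv' p q t
  have hdet : Om.det ≠ 0 := by
    intro h0
    obtain ⟨w, hw, hw0⟩ := Matrix.exists_mulVec_eq_zero_iff.2 h0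
    have := hOm.pos w hw
    rw [hw0, dotProduct_zero] at this
    exact lt_irrefl _ this
  have hL : ∀ r, S.Lth φ D Om r v = 0 := hv
  have h1 : ∀ p : Fin 16 × Fin dm, inner ℂ v' (S.th p.1 (φ (Sum.inr p.2)) v) = 0 := by
    intro p
    rw [wick_red S φ D Om hdet hv' p v]
    exact Finset.sum_eq_zero fun B _ => by rw [hL, inner_zero_right, mul_zero]
  refine ⟨h1 p, ?_, ?_⟩
  · rw [wick_red S φ D Om hdet hv' p]
    simp only [wick_comm, hL, map_zero, sub_zero, inner_smul_right]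
    rw [← Finset.sum_congr rfl fun B _ => (mul_assoc _ _ _), ← Finset.sum_mul]
    congr 1
    simp only [Setup.Lam, Matrix.of_apply]
    have h5 : (Om⁻¹ * Om) = 1 := Matrix.nonsing_inv_mul _ (isUnit_iff_ne_zero.2 hdet)
    have h8 := congrFun (congrFun h5 p.2) q.2
    rw [Matrix.mul_apply, Matrix.one_apply] at h8
    have h7 : ∑ B, ((Om⁻¹ p.2 B : ℝ) : ℂ) * ((Om B q.2 : ℝ) : ℂ) = (if p.2 = q.2 then (1 : ℂ) else 0) := by
      rw [← Complex.ofReal_one, ← Complex.ofReal_zero, ← apply_ite Complex.ofReal, ← h8]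
      push_cast
      rfl
    have h9 : (if p = q then (1 : ℂ) else 0) = ∑ B, ((Om⁻¹ p.2 B : ℝ) : ℂ) * (if p.1 = q.1 then ((Om B q.2 : ℝ) : ℂ) else 0) := by
      by_cases h : p.1 = q.1
      · simp only [if_pos h, h7]
        by_cases h' : p.2 = q.2
        · rw [if_pos h', if_pos (Prod.ext h h')]
        · rw [if_neg h', if_neg (fun e => h' (congrArg Prod.snd e))]
      · simp only [if_neg h, mul_zero, Finset.sum_const_zero]
        rw [if_neg (fun e => h (congrArg Prod.fst e))]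
    rw [h9, Finset.mul_sum, mul_sub, Finset.mul_sum, Finset.mul_sum, ← Finset.sum_sub_distrib]
    exact Finset.sum_congr rfl fun B _ => by ring
  · rw [wick_red S φ D Om hdet hv' p]
    refine Finset.sum_eq_zero fun B _ => ?_
    rw [wick_comm, wick_comm, hL, map_zero, sub_zero, map_smul, inner_sub_right, inner_smul_right,
      inner_smul_right, h1, h1, mul_zero, mul_zero, sub_zero, mul_zero]

end Vale.Agent.P353.Z.AE
end
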