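import Mathlib
import Vale.Agent.P353.BdA.B1
import Vale.Agent.P353.BdA.B5
import Vale.Agent.P353.BdA.B13
import Vale.Agent.P353.BdZ.B6
import Vale.Agent.P353.BdZ.B13
import Vale.Agent.P353.BdA.B22

set_option linter.all false

section

/-! # P353, all `N`, block D, L9: invariance of the boson vacuum under `ad C` and integration by parts (helper207) -/

open MeasureTheory Filter Topology Matrix
open scoped ContDiff

set_option linter.unusedSectionVars false

namespace Vale.Agent.P353.Z.AD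

variable {d dh dm ds dz : ℕ} {F : Type*} [NormedAddCommGroup F] [InnerProductSpace ℂ F]

/-- `ad c` on `m` -/
noncomputable def swX (S : Setup d F) (φ : Spl dh dm d) (C : Fin dh) : Matrix (Fin dm) (Fin dm) ℝ :=
  Matrix.of fun A B => S.f (φ (Sum.inl C)) (φ (Sum.inr A)) (φ (Sum.inr B))

lemma swX_anti (S : Setup d F) (φ : Spl dh dm d) (C : Fin dh) : (swX S φ C)ᵀ = -swX S φ C := by
  ext A B
  simp only [swX, transpose_apply, of_apply, Matrix.neg_apply]
  exact S.f_swap' _ _ _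

lemma swX_comm {S : Setup d F} {φ : Spl dh dm d} {ψ : Spl ds dz dh} {z₀ : Cfg dz} (h : Std2 S φ ψ z₀)
    (C : Fin dh) (yz : Cfg dz) (i : Fin 9) : swX S φ C * Dz S φ ψ yz i = Dz S φ ψ yz i * swX S φ C := by
  have hsub := h.std.sub
  -- Jacobi for one central element
  have key : ∀ (z : Fin dz) (A D : Fin dm),
      ∑ B, S.f (φ (Sum.inl C)) (φ (Sum.inr A)) (φ (Sum.inr B)) *
        S.f (φ (Sum.inr B)) (φ (Sum.inl (ψ (Sum.inr z)))) (φ (Sum.inr D)) =
      ∑ B, S.f (φ (Sum.inr A)) (φ (Sum.inl (ψ (Sum.inr z)))) (φ (Sum.inr B)) *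
        S.f (φ (Sum.inl C)) (φ (Sum.inr B)) (φ (Sum.inr D)) := by
    intro z A D
    have h1 := S.f_jac (φ (Sum.inl C)) (φ (Sum.inr A)) (φ (Sum.inl (ψ (Sum.inr z)))) (φ (Sum.inr D))
    rw [← φ.sum_comp, Fintype.sum_sum_type] at h1
    have e1 : ∀ E : Fin dh, S.f (φ (Sum.inl C)) (φ (Sum.inr A)) (φ (Sum.inl E)) = 0 := by
      intro E
      rw [S.f_swap', hsub, neg_zero]
    have e2 : ∀ E : Fin dh, S.f (φ (Sum.inr A)) (φ (Sum.inl (ψ (Sum.inr z)))) (φ (Sum.inl E)) = 0 := by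
      intro E
      rw [S.f_cyc, hsub]
    have e3 : ∀ E : Fin dh, S.f (φ (Sum.inl (ψ (Sum.inr z)))) (φ (Sum.inl C)) (φ (Sum.inl E)) = 0 := fun E =>
      h.cen _ _ _
    have e4 : ∀ E : Fin dm, S.f (φ (Sum.inl (ψ (Sum.inr z)))) (φ (Sum.inl C)) (φ (Sum.inr E)) = 0 := fun E =>
      hsub _ _ _
    simp only [e1, e2, e3, e4, zero_mul, add_zero, Finset.sum_const_zero, zero_add] at h1
    rw [Finset.sum_add_distrib] at h1
    have h2 : ∑ B, S.f (φ (Sum.inr A)) (φ (Sum.inl (ψ (Sum.inr z)))) (φ (Sum.inr B)) *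
        S.f (φ (Sum.inr B)) (φ (Sum.inl C)) (φ (Sum.inr D)) =
        -∑ B, S.f (φ (Sum.inr A)) (φ (Sum.inl (ψ (Sum.inr z)))) (φ (Sum.inr B)) *
        S.f (φ (Sum.inl C)) (φ (Sum.inr B)) (φ (Sum.inr D)) := by
      rw [← Finset.sum_neg_distrib]
      refine Finset.sum_congr rfl fun B _ => ?_
      rw [S.f_swap (φ (Sum.inr B)) (φ (Sum.inl C)) (φ (Sum.inr D))]
      ring
    rw [h2] at h1
    linarith
  ext A D
  simp only [Matrix.mul_apply, swX, Dz, Setup.Dy, Setup.Dm, of_apply]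
  have s1 : ∀ B E : Fin dm, (∑ a : Fin dh, S.f (φ (Sum.inr B)) (φ (Sum.inl a)) (φ (Sum.inr E)) *
      (cmb ψ 0 yz) (i, a)) = ∑ z : Fin dz, S.f (φ (Sum.inr B)) (φ (Sum.inl (ψ (Sum.inr z)))) (φ (Sum.inr E)) *
      yz (i, z) := by
    intro B E
    rw [← ψ.sum_comp, Fintype.sum_sum_type]
    simp [cmb]
  simp only [s1, Finset.mul_sum, Finset.sum_mul]
  rw [Finset.sum_comm]
  conv_rhs => rw [Finset.sum_comm]
  refine Finset.sum_congr rfl fun z _ => ?_
  have h3 := key z A D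
  calc ∑ B, S.f (φ (Sum.inl C)) (φ (Sum.inr A)) (φ (Sum.inr B)) *
        (S.f (φ (Sum.inr B)) (φ (Sum.inl (ψ (Sum.inr z)))) (φ (Sum.inr D)) * yz (i, z))
      = (∑ B, S.f (φ (Sum.inl C)) (φ (Sum.inr A)) (φ (Sum.inr B)) *
        S.f (φ (Sum.inr B)) (φ (Sum.inl (ψ (Sum.inr z)))) (φ (Sum.inr D))) * yz (i, z) := by
        rw [Finset.sum_mul]
        exact Finset.sum_congr rfl fun B _ => by ring
    _ = (∑ B, S.f (φ (Sum.inr A)) (φ (Sum.inl (ψ (Sum.inr z)))) (φ (Sum.inr B)) *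
        S.f (φ (Sum.inl C)) (φ (Sum.inr B)) (φ (Sum.inr D))) * yz (i, z) := by rw [h3]
    _ = _ := by
        rw [Finset.sum_mul]
        exact Finset.sum_congr rfl fun B _ => by ring

/-- the rotation field `(Xw)_j = Xᵀ w_j` -/
noncomputable def swR (X : Matrix (Fin dm) (Fin dm) ℝ) (w : Wsp dm) : Wsp dm :=
  WithLp.toLp 2 fun p => ∑ A, X A p.2 * w (p.1, A)

lemma swt_last (w : Wsp dm) : wt w (Fin.last 8) = 0 := by
  funext B
  exact Fin.lastCases_last ..

lemma swt_cast (w : Wsp dm) (j : Fin 8) : wt w j.castSucc = fun B => w (j, B) := by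
  funext B
  exact Fin.lastCases_castSucc ..

lemma wt_swR (X : Matrix (Fin dm) (Fin dm) ℝ) (w : Wsp dm) (i : Fin 9) : wt (swR X w) i = Xᵀ *ᵥ wt w i := by
  refine Fin.lastCases ?_ (fun j => ?_) i
  · rw [swt_last, swt_last, mulVec_zero]
  · rw [swt_cast, swt_cast]
    funext B
    simp [mulVec, dotProduct, swR]

lemma wt_add' (w w' : Wsp dm) (t : ℝ) (i : Fin 9) : wt (w + t • w') i = wt w i + t • wt w' i := by
  refine Fin.lastCases ?_ (fun j => ?_) i
  · rw [swt_last, swt_last, swt_last, smul_zero, add_zero]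
  · rw [swt_cast, swt_cast, swt_cast]
    funext B
    simp

section quad

variable {D : Fin 9 → Matrix (Fin dm) (Fin dm) ℝ} {X : Matrix (Fin dm) (Fin dm) ℝ}

lemma tI_comm (hX : ∀ i, X * D i = D i * X) (hinv : IsUnit (D 8).det) (i : Fin 9) : X * tI D i = tI D i * X := by
  have h1 : X * (D 8)⁻¹ = (D 8)⁻¹ * X := by
    calc X * (D 8)⁻¹ = (D 8)⁻¹ * (D 8) * X * (D 8)⁻¹ := by rw [nonsing_inv_mul _ hinv, one_mul]
      _ = (D 8)⁻¹ * (D 8 * X) * (D 8)⁻¹ := by rw [mul_assoc (D 8)⁻¹]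
      _ = (D 8)⁻¹ * (X * D 8) * (D 8)⁻¹ := by rw [hX]
      _ = (D 8)⁻¹ * X * (D 8 * (D 8)⁻¹) := by simp only [mul_assoc]
      _ = (D 8)⁻¹ * X := by rw [mul_nonsing_inv _ hinv, mul_one]
  unfold tI
  rw [← mul_assoc, h1, mul_assoc, hX, ← mul_assoc]

lemma t2_comm (hX : ∀ i, X * tI D i = tI D i * X) : X * t2 D = t2 D * X := by
  unfold t2
  rw [Finset.mul_sum, Finset.sum_mul]
  refine Finset.sum_congr rfl fun i _ => ?_
  rw [← mul_assoc, hX, mul_assoc, hX, ← mul_assoc]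

lemma inv_comm' {M : Matrix (Fin dm) (Fin dm) ℝ} (h : X * M = M * X) : X * M⁻¹ = M⁻¹ * X := by
  by_cases hu : IsUnit M.det
  · calc X * M⁻¹ = M⁻¹ * M * X * M⁻¹ := by rw [nonsing_inv_mul _ hu, one_mul]
      _ = M⁻¹ * (M * X) * M⁻¹ := by rw [mul_assoc M⁻¹]
      _ = M⁻¹ * (X * M) * M⁻¹ := by rw [h]
      _ = M⁻¹ * X * (M * M⁻¹) := by simp only [mul_assoc]
      _ = M⁻¹ * X := by rw [mul_nonsing_inv _ hu, mul_one]
  · rw [nonsing_inv_apply_not_isUnit _ hu, mul_zero, zero_mul]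

lemma sV_swR (hX : ∀ i, Xᵀ * tI D i = tI D i * Xᵀ) (w : Wsp dm) : sV D (swR X w) = Xᵀ *ᵥ sV D w := by
  unfold sV
  rw [mulVec_mulVec, inv_comm' (t2_comm hX), ← mulVec_mulVec]
  congr 1
  rw [mulVec_sum]
  refine Finset.sum_congr rfl fun i _ => ?_
  rw [wt_swR, mulVec_mulVec, mulVec_mulVec, hX]

lemma VV_swR (hX : ∀ i, Xᵀ * tI D i = tI D i * Xᵀ) (w : Wsp dm) (i : Fin 9) : VV D (swR X w) i = Xᵀ *ᵥ VV D w i := by
  unfold VV
  rw [sV_swR hX, wt_swR, mulVec_sub, mulVec_mulVec, mulVec_mulVec, hX]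

lemma sV_lin (w w' : Wsp dm) (t : ℝ) : sV D (w + t • w') = sV D w + t • sV D w' := by
  unfold sV
  rw [← mulVec_smul, ← mulVec_add]
  congr 1
  rw [Finset.smul_sum, ← Finset.sum_add_distrib]
  refine Finset.sum_congr rfl fun i _ => ?_
  rw [wt_add', mulVec_add, mulVec_smul]

lemma VV_lin (w w' : Wsp dm) (t : ℝ) (i : Fin 9) : VV D (w + t • w') i = VV D w i + t • VV D w' i := by
  unfold VV
  rw [sV_lin, wt_add', mulVec_add, mulVec_smul, smul_sub]
  abel

/-- `qf` is stationary along the rotation -/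
lemma qf_swR {Om : Matrix (Fin dm) (Fin dm) ℝ} (hX : ∀ i, Xᵀ * tI D i = tI D i * Xᵀ) (ha : Xᵀ = -X)
    (hO : X * Om = Om * X) (w : Wsp dm) (t : ℝ) :
    qf D Om (w + t • swR X w) = qf D Om w + t ^ 2 * qf D Om (swR X w) := by
  unfold qf
  rw [Finset.mul_sum, ← Finset.sum_add_distrib]
  refine Finset.sum_congr rfl fun i _ => ?_
  rw [VV_lin]
  set V := VV D w i with hV
  have h1 : VV D (swR X w) i = Xᵀ *ᵥ V := VV_swR hX w i
  rw [h1]
  have h2 : (Xᵀ *ᵥ V) ⬝ᵥ (Om *ᵥ V) + V ⬝ᵥ (Om *ᵥ (Xᵀ *ᵥ V)) = 0 := by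
    have h3 : (Xᵀ *ᵥ V) ⬝ᵥ (Om *ᵥ V) = V ⬝ᵥ (X *ᵥ (Om *ᵥ V)) := by
      rw [dotProduct_comm, dotProduct_mulVec, vecMul_transpose, dotProduct_comm]
    rw [h3, mulVec_mulVec, mulVec_mulVec, ha, hO, mul_neg, neg_mulVec, dotProduct_neg]
    ring
  rw [mulVec_add, mulVec_smul, add_dotProduct, dotProduct_add, dotProduct_add, smul_dotProduct, smul_dotProduct,
    dotProduct_smul, dotProduct_smul]
  simp only [smul_eq_mul]
  linear_combination t * h2

end quad

/-- integration by parts in the fibre -/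
lemma sw_ibp {k : Wsp dm → ℝ} (hk : ContDiff ℝ ∞ k) {f : Wsp dm → F} (hf : FT f) (j : Fin 8) (B : Fin dm) :
    Integrable (fun w => ((k w : ℝ) : ℂ) • pf j B f w) ∧
    Integrable (fun w => ((fderiv ℝ k w (EuclideanSpace.single (j, B) 1) : ℝ) : ℂ) • f w) ∧
    ∫ w, ((k w : ℝ) : ℂ) • pf j B f w =
      -∫ w, ((fderiv ℝ k w (EuclideanSpace.single (j, B) 1) : ℝ) : ℂ) • f w := by
  have hk1 : Continuous (fderiv ℝ k) := hk.continuous_fderiv (by simp)
  have hf1 : Continuous (fderiv ℝ f) := hf.1.continuous_fderiv (by simp)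
  have i1 : Integrable (fun w => k w • fderiv ℝ f w (EuclideanSpace.single (j, B) 1)) := by
    have c1 : Continuous (fun w => k w • fderiv ℝ f w (EuclideanSpace.single (j, B) 1)) :=
      hk.continuous.smul (hf1.clm_apply continuous_const)
    refine c1.integrable_of_hasCompactSupport ?_
    exact (hf.2.fderiv_apply (𝕜 := ℝ) _).smul_left
  have i2 : Integrable (fun w => fderiv ℝ k w (EuclideanSpace.single (j, B) 1) • f w) := by
    have c1 : Continuous (fun w => fderiv ℝ k w (EuclideanSpace.single (j, B) 1) • f w) :=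
      (hk1.clm_apply continuous_const).smul hf.1.continuous
    exact c1.integrable_of_hasCompactSupport hf.2.smul_left
  have i3 : Integrable (fun w => k w • f w) :=
    (hk.continuous.smul hf.1.continuous).integrable_of_hasCompactSupport hf.2.smul_left
  have h := integral_smul_fderiv_eq_neg_fderiv_smul_of_integrable (μ := (volume : Measure (Wsp dm)))
    (f := k) (g := f) (v := EuclideanSpace.single (j, B) 1) i2 i1 i3
    (fun x _ => (hk.differentiable (by simp)) x) (fun x _ => (hf.1.differentiable (by simp)) x)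
  simp only [Complex.coe_smul]
  exact ⟨i1, i2, h⟩

lemma swR_sum (X : Matrix (Fin dm) (Fin dm) ℝ) (w : Wsp dm) :
    swR X w = ∑ j, ∑ A, ∑ B, (X A B * w (j, A)) • EuclideanSpace.single (j, B) (1 : ℝ) := by
  have h1 : swR X w = ∑ p : Fin 8 × Fin dm, (swR X w p) • EuclideanSpace.single p (1 : ℝ) := by
    ext q
    simp [Pi.single_apply]
  rw [h1, Fintype.sum_prod_type]
  refine Finset.sum_congr rfl fun j _ => ?_
  rw [Finset.sum_comm]
  refine Finset.sum_congr rfl fun B _ => ?_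
  rw [← Finset.sum_smul]
  rfl

/-- `gn` is stationary along the rotation -/
lemma gn_stat {S : Setup d F} {φ : Spl dh dm d} {ψ : Spl ds dz dh} {z₀ : Cfg dz} (h : Std2 S φ ψ z₀) {yz : Cfg dz}
    (hD : Frz (Dz S φ ψ yz)) (hO : IsOm S.κ (Dz S φ ψ yz) (omc S.κ (Dz S φ ψ yz))) (C : Fin dh)
    (hg : ContDiff ℝ ∞ (fun w => gn S φ ψ yz w)) (w : Wsp dm) :
    fderiv ℝ (fun w => gn S φ ψ yz w) w (swR (swX S φ C) w) = 0 := by
  set X := swX S φ C with hX
  set D := Dz S φ ψ yz with hDd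
  set Om := omc S.κ D with hOm
  have ha : Xᵀ = -X := swX_anti S φ C
  have hc : ∀ i, X * D i = D i * X := fun i => swX_comm h C yz i
  have hc2 : ∀ i, X * tI D i = tI D i * X := tI_comm hc (isUnit_iff_ne_zero.2 hD.inv)
  have hc3 : ∀ i, Xᵀ * tI D i = tI D i * Xᵀ := by
    intro i
    rw [ha, neg_mul, mul_neg, hc2]
  have hc4 : X * Om = Om * X := by
    refine hO.comm X ?_
    rw [Finset.mul_sum, Finset.sum_mul]
    refine Finset.sum_congr rfl fun i _ => ?_
    rw [← mul_assoc, hc, mul_assoc, hc, ← mul_assoc]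
  have h1 : HasDerivAt (fun t : ℝ => gn S φ ψ yz (w + t • swR X w))
      (fderiv ℝ (fun w => gn S φ ψ yz w) w (swR X w)) 0 := by
    have h2 := ((hg.differentiable (by simp)) w).hasFDerivAt.hasLineDerivAt (swR X w)
    exact h2
  have h3 : HasDerivAt (fun t : ℝ => gn S φ ψ yz (w + t • swR X w)) 0 0 := by
    have e : (fun t : ℝ => gn S φ ψ yz (w + t • swR X w)) = fun t : ℝ =>
        Real.exp (-(1 / 2) * (qf D Om w + t ^ 2 * qf D Om (swR X w))) /
          Real.sqrt (∫ w', gR D Om 1 w' ^ 2) := by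
      funext t
      unfold gn gR
      rw [← hDd, ← hOm, qf_swR hc3 ha hc4]
    rw [e]
    have h4 : HasDerivAt (fun t : ℝ => -(1 / 2) * (qf D Om w + t ^ 2 * qf D Om (swR X w))) 0 0 := by
      have h5 : HasDerivAt (fun t : ℝ => -(1 / 2) * (qf D Om w + t ^ 2 * qf D Om (swR X w)))
          (-(1 / 2) * ((2 : ℕ) * (0 : ℝ) ^ (2 - 1) * qf D Om (swR X w))) 0 :=
        (((hasDerivAt_pow 2 (0 : ℝ)).mul_const (qf D Om (swR X w))).const_add (qf D Om w)).const_mul _
      simpa using h5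
    have h6 := h4.exp.div_const (Real.sqrt (∫ w', gR D Om 1 w' ^ 2))
    simpa using h6
  exact h1.unique h3

/-- **rotation part of the Gauss law**: the vacuum coefficient of the `w`-rotation vanishes -/
theorem gn_rot (S : Setup d F) (φ : Spl dh dm d) (ψ : Spl ds dz dh) {z₀ : Cfg dz} (h : Std2 S φ ψ z₀) {yz : Cfg dz}
    (hD : Frz (Dz S φ ψ yz)) (hO : IsOm S.κ (Dz S φ ψ yz) (omc S.κ (Dz S φ ψ yz))) (C : Fin dh)
    (hg : ContDiff ℝ ∞ (fun w => gn S φ ψ yz w)) {f : Wsp dm → F} (hf : FT f) :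
    ∫ w, ((gn S φ ψ yz w : ℝ) : ℂ) • ∑ j, ∑ A, ∑ B,
      ((S.f (φ (Sum.inl C)) (φ (Sum.inr A)) (φ (Sum.inr B)) * w (j, A) : ℝ) : ℂ) • pf j B f w = 0 := by
  set X := swX S φ C with hX
  have hXA : ∀ A, X A A = 0 := by
    intro A
    have h1 := congrFun (congrFun (swX_anti S φ C) A) A
    rw [transpose_apply, Matrix.neg_apply] at h1
    linarith
  set k : Fin 8 → Fin dm → Fin dm → Wsp dm → ℝ := fun j A B w => gn S φ ψ yz w * (X A B * w (j, A)) with hk
  have hc : ∀ (j : Fin 8) (A : Fin dm), ContDiff ℝ ∞ (fun w : Wsp dm => w (j, A)) := fun j A => by fun_prop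
  have hks : ∀ j A B, ContDiff ℝ ∞ (k j A B) := fun j A B => hg.mul (contDiff_const.mul (hc j A))
  have hkd : ∀ j A B (w : Wsp dm), fderiv ℝ (k j A B) w (EuclideanSpace.single (j, B) 1) =
      gn S φ ψ yz w * (X A B * if A = B then 1 else 0) + (X A B * w (j, A)) *
        fderiv ℝ (fun w => gn S φ ψ yz w) w (EuclideanSpace.single (j, B) 1) := by
    intro j A B w
    have a1 : HasFDerivAt (fun w => gn S φ ψ yz w) (fderiv ℝ (fun w => gn S φ ψ yz w) w) w :=
      ((hg.differentiable (by simp)) w).hasFDerivAt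
    have a2 : HasFDerivAt (fun w : Wsp dm => w (j, A)) (EuclideanSpace.proj (𝕜 := ℝ) (j, A) : Wsp dm →L[ℝ] ℝ) w :=
      (EuclideanSpace.proj (𝕜 := ℝ) (j, A) : Wsp dm →L[ℝ] ℝ).hasFDerivAt
    have a3 := a1.mul (a2.const_mul (X A B))
    have a4 : HasFDerivAt (k j A B) _ w := a3
    rw [a4.fderiv]
    simp
  have h0 : ∀ w : Wsp dm, ∑ j, ∑ A, ∑ B, fderiv ℝ (k j A B) w (EuclideanSpace.single (j, B) 1) = 0 := by
    intro w
    simp only [hkd, Finset.sum_add_distrib]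
    have b1 : ∑ j : Fin 8, ∑ A, ∑ B, gn S φ ψ yz w * (X A B * if A = B then 1 else 0) = 0 := by
      refine Finset.sum_eq_zero fun j _ => Finset.sum_eq_zero fun A _ => Finset.sum_eq_zero fun B _ => ?_
      by_cases hAB : A = B
      · subst hAB
        rw [hXA]
        ring
      · rw [if_neg hAB]
        ring
    have b2 : ∑ j, ∑ A, ∑ B, (X A B * w (j, A)) *
        fderiv ℝ (fun w => gn S φ ψ yz w) w (EuclideanSpace.single (j, B) 1) = 0 := by
      have b3 := gn_stat h hD hO C hg w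
      rw [← hX, swR_sum] at b3
      simp only [map_sum, map_smul, smul_eq_mul] at b3
      exact b3
    rw [b1, b2, add_zero]
  have e1 : ∀ w : Wsp dm, ((gn S φ ψ yz w : ℝ) : ℂ) • ∑ j, ∑ A, ∑ B,
      ((S.f (φ (Sum.inl C)) (φ (Sum.inr A)) (φ (Sum.inr B)) * w (j, A) : ℝ) : ℂ) • pf j B f w =
      ∑ j, ∑ A, ∑ B, ((k j A B w : ℝ) : ℂ) • pf j B f w := by
    intro w
    simp only [Finset.smul_sum]
    refine Finset.sum_congr rfl fun j _ => Finset.sum_congr rfl fun A _ => Finset.sum_congr rfl fun B _ => ?_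
    rw [smul_smul, ← Complex.ofReal_mul]
    rfl
  simp only [e1]
  rw [integral_finsetSum _ fun j _ => integrable_finsetSum _ fun A _ => integrable_finsetSum _ fun B _ =>
    (sw_ibp (hks j A B) hf j B).1]
  have e2 : ∀ j, ∫ w, ∑ A, ∑ B, ((k j A B w : ℝ) : ℂ) • pf j B f w =
      -∫ w, ∑ A, ∑ B, ((fderiv ℝ (k j A B) w (EuclideanSpace.single (j, B) 1) : ℝ) : ℂ) • f w := by
    intro j
    rw [integral_finsetSum _ fun A _ => integrable_finsetSum _ fun B _ => (sw_ibp (hks j A B) hf j B).1,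
      integral_finsetSum _ fun A _ => integrable_finsetSum _ fun B _ => (sw_ibp (hks j A B) hf j B).2.1,
      ← Finset.sum_neg_distrib]
    refine Finset.sum_congr rfl fun A _ => ?_
    rw [integral_finsetSum _ fun B _ => (sw_ibp (hks j A B) hf j B).1,
      integral_finsetSum _ fun B _ => (sw_ibp (hks j A B) hf j B).2.1, ← Finset.sum_neg_distrib]
    exact Finset.sum_congr rfl fun B _ => (sw_ibp (hks j A B) hf j B).2.2
  simp only [e2]
  rw [Finset.sum_neg_distrib, ← integral_finsetSum _ fun j _ => integrable_finsetSum _ fun A _ =>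
    integrable_finsetSum _ fun B _ => (sw_ibp (hks j A B) hf j B).2.1, neg_eq_zero]
  have e3 : ∀ w : Wsp dm, ∑ j, ∑ A, ∑ B, ((fderiv ℝ (k j A B) w (EuclideanSpace.single (j, B) 1) : ℝ) : ℂ) • f w = 0 := by
    intro w
    have h1 := h0 w
    have h2 : (((∑ j, ∑ A, ∑ B, fderiv ℝ (k j A B) w (EuclideanSpace.single (j, B) 1) : ℝ)) : ℂ) • f w = 0 := by
      rw [h1, Complex.ofReal_zero, zero_smul]
    rw [← h2]
    push_cast
    simp only [Finset.sum_smul]
  simp only [e3, integral_zero]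

end Vale.Agent.P353.Z.AD
end

section

/-! # P353, all `N`, block A5d: the tube coordinates are injective and open near the base point -/

open MeasureTheory Filter Topology
open scoped ContDiff

namespace Vale.Agent.P353.Z.AN

variable {d dh dm : ℕ} {F : Type*} [NormedAddCommGroup F] [InnerProductSpace ℂ F]

theorem ij_exm_zero (φ : Spl dh dm d) : exm φ (0 : EuclideanSpace ℝ (Fin dm)) = 0 := by
  funext A
  rcases h : φ.symm A with a | b <;> simp [exm, h]

theorem ij_adm_zero (S : Setup d F) : S.adm 0 = 0 := by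
  ext A C
  simp [Setup.adm]

theorem ij_ro_one (x : Cfg d) : ro 1 x = x := by
  ext p
  simp [ro, Matrix.one_apply]

theorem ij_tub_zero (S : Setup d F) (φ : Spl dh dm d) (p : Cfg dh × Wsp dm) :
    tub S φ 0 p = emb φ p.1 p.2 := by
  rw [tub, ij_exm_zero, ij_adm_zero, NormedSpace.exp_zero, ij_ro_one]

theorem inj_stmt (S : Setup d F) (h : DetStmt S) (hc : CooStmt) : InjStmt S := by
  intro dh dm φ y₀ hS
  obtain ⟨hsm, j, hj, hj0, hdet⟩ := h dh dm φ hS.sub
  obtain ⟨e, he, -⟩ := hc d dh dm φ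
  have hz : ∀ b, (zm φ (e.symm b), (zy φ (e.symm b), zw φ (e.symm b))) = b := fun b => by
    rw [← he, e.apply_symm_apply]
  have htub : ∀ a p, tub S φ a p = tz S φ (e.symm (a, p)) := by
    intro a p
    have h1 := hz (a, p)
    obtain ⟨p1, p2⟩ := p
    simp only [Prod.mk.injEq] at h1
    rw [tz, h1.1, h1.2.1, h1.2.2]
  have hd : (fderiv ℝ (tz S φ) (e.symm (0, (y₀, 0)))).det ≠ 0 := by
    intro h0
    have h1 := hdet (e.symm (0, (y₀, 0)))
    have h2 := hz (0, (y₀, 0))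
    simp only [Prod.mk.injEq] at h2
    rw [h0, abs_zero, h2.1, h2.2.1, hj0, abs_one, mul_one] at h1
    exact hS.inv (abs_eq_zero.1 h1.symm)
  have hf' : HasFDerivAt (tz S φ) (((fderiv ℝ (tz S φ)
      (e.symm (0, (y₀, 0)))).toContinuousLinearEquivOfDetNeZero hd : Cfg d ≃L[ℝ] Cfg d) :
        Cfg d →L[ℝ] Cfg d) (e.symm (0, (y₀, 0))) := by
    rw [ContinuousLinearMap.coe_toContinuousLinearEquivOfDetNeZero]
    exact ((hsm.differentiable (by simp)) _).hasFDerivAt
  have hsm' : ContDiffAt ℝ ∞ (tz S φ) (e.symm (0, (y₀, 0))) := hsm.contDiffAt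
  obtain ⟨G, hG, hz₀⟩ : ∃ G : OpenPartialHomeomorph (Cfg d) (Cfg d), (∀ z, G z = tz S φ z) ∧
      e.symm (0, (y₀, 0)) ∈ G.source :=
    ⟨hsm'.toOpenPartialHomeomorph (tz S φ) hf' (by simp), fun z => rfl,
      hsm'.mem_toOpenPartialHomeomorph_source hf' (by simp)⟩
  have hU : e.symm ⁻¹' G.source ∈ 𝓝 ((0, (y₀, 0)) : EuclideanSpace ℝ (Fin dm) × (Cfg dh × Wsp dm)) :=
    e.symm.continuous.continuousAt.preimage_mem_nhds (G.open_source.mem_nhds hz₀)
  obtain ⟨r, hr, hball⟩ := Metric.mem_nhds_iff.1 hU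
  refine ⟨r, r, hr, hr, fun ε ρ hε hεr hρ hρr => ?_⟩
  have hB : IsOpen {b : EuclideanSpace ℝ (Fin dm) × (Cfg dh × Wsp dm) |
      ‖b.1‖ < ρ ∧ b.2 ∈ Nb y₀ dm 1 ε} := by
    have h1 : IsOpen {b : EuclideanSpace ℝ (Fin dm) × (Cfg dh × Wsp dm) | ‖b.1‖ < ρ} :=
      isOpen_lt (by fun_prop) (by fun_prop)
    have h2 : IsOpen {b : EuclideanSpace ℝ (Fin dm) × (Cfg dh × Wsp dm) |
        ‖b.2.1 - (1 : ℝ) • y₀‖ < ε * 1} :=
      isOpen_lt (by fun_prop) (by fun_prop)
    have h3 : IsOpen {b : EuclideanSpace ℝ (Fin dm) × (Cfg dh × Wsp dm) | ‖b.2.2‖ < ε * 1} :=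
      isOpen_lt (by fun_prop) (by fun_prop)
    exact h1.inter (h2.inter h3)
  have hBs : ∀ b ∈ {b : EuclideanSpace ℝ (Fin dm) × (Cfg dh × Wsp dm) |
      ‖b.1‖ < ρ ∧ b.2 ∈ Nb y₀ dm 1 ε}, e.symm b ∈ G.source := by
    rintro ⟨a, y, w⟩ ⟨h1, h2, h3⟩
    refine hball ?_
    simp only at h1 h2 h3
    rw [one_smul, mul_one] at h2
    rw [mul_one] at h3
    rw [Metric.mem_ball, Prod.dist_eq, Prod.dist_eq, max_lt_iff, max_lt_iff]
    refine ⟨?_, ?_, ?_⟩
    · simpa [dist_eq_norm] using h1.trans_le hρr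
    · simpa [dist_eq_norm] using h2.trans_le hεr
    · simpa [dist_eq_norm] using h3.trans_le hεr
  have hT : Tube S φ y₀ 1 ε ρ = G '' (e.symm '' {b : EuclideanSpace ℝ (Fin dm) × (Cfg dh × Wsp dm) |
      ‖b.1‖ < ρ ∧ b.2 ∈ Nb y₀ dm 1 ε}) := by
    ext x
    constructor
    · rintro ⟨a, ha, p, hp, rfl⟩
      exact ⟨_, ⟨(a, p), ⟨ha, hp⟩, rfl⟩, by rw [hG, htub]⟩
    · rintro ⟨_, ⟨⟨a, p⟩, ⟨ha, hp⟩, rfl⟩, rfl⟩
      exact ⟨a, ha, p, hp, by rw [hG, htub]⟩
  have hTo : IsOpen (Tube S φ y₀ 1 ε ρ) := by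
    rw [hT]
    refine G.isOpen_image_of_subset_source (e.symm.toHomeomorph.isOpenMap _ hB) ?_
    rintro _ ⟨b, hb, rfl⟩
    exact hBs b hb
  have hmem : emb φ y₀ 0 ∈ Tube S φ y₀ 1 ε ρ := by
    refine ⟨0, by simpa using hρ, (y₀, 0), ⟨by simpa using hε, by simpa using hε⟩, ?_⟩
    rw [ij_tub_zero]
  obtain ⟨δ, hδ, hδb⟩ := Metric.isOpen_iff.1 hTo _ hmem
  refine ⟨δ, hδ, hTo, hδb, ?_⟩
  intro a a' p p' ha ha' hp hp' heq
  rw [htub, htub] at heq
  have h1 := G.injOn (hBs (a, p) ⟨ha, hp⟩) (hBs (a', p') ⟨ha', hp'⟩) (by rw [hG, hG]; exact heq)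
  have h2 := e.symm.injective h1
  exact ⟨congrArg Prod.fst h2, congrArg Prod.snd h2⟩

end Vale.Agent.P353.Z.AN
end

section

/-! # P353, all `N`, block D: the far part of the slice (L3) -/

open MeasureTheory Filter Topology Matrix
open scoped ContDiff

namespace Vale.Agent.P353.Z.AD

variable {d dh dm ds dz : ℕ} {F : Type*} [NormedAddCommGroup F] [InnerProductSpace ℂ F]

theorem far_cont_exm (φ : Spl dh dm d) : Continuous (AN.exm φ) := by
  unfold AN.exm
  refine continuous_pi fun A => ?_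
  rcases φ.symm A with a | b
  · simp only [Sum.elim_inl]
    exact continuous_const
  · simp only [Sum.elim_inr]
    fun_prop

theorem far_cont_tub (S : Setup d F) (φ : Spl dh dm d) :
    Continuous fun q : EuclideanSpace ℝ (Fin dm) × (Cfg dh × Wsp dm) => AN.tub S φ q.1 q.2 := by
  have h1 := (AN.dexp_stmt S).2.1.continuous
  exact h1.comp (((far_cont_exm φ).comp continuous_fst).prodMk
    ((AN.tbf_continuous_emb φ).comp continuous_snd))

theorem far_cont_sp (ψ : Spl ds dz dh) : Continuous (sp ψ) := by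
  unfold sp
  exact (PiLp.continuous_toLp 2 _).comp (continuous_pi fun p => by fun_prop)

theorem far_sp_smul (ψ : Spl ds dz dh) (c : ℝ) (y : Cfg dh) : sp ψ (c • y) = c • sp ψ y := by
  ext p
  rfl

theorem far_emb_ne (φ : Spl dh dm d) (ψ : Spl ds dz dh) (y : Cfg dh) (w : Wsp dm) (h : sp ψ y ≠ 0) :
    emb φ y w ≠ 0 := by
  intro h0
  apply h
  ext p
  have h1 : (emb φ y w) (p.1, φ (Sum.inl (ψ (Sum.inl p.2)))) = y (p.1, ψ (Sum.inl p.2)) := by
    simp [emb]
  rw [h0] at h1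
  show y (p.1, ψ (Sum.inl p.2)) = 0
  rw [← h1]
  rfl

omit [InnerProductSpace ℂ F] in
/-- finite cover of a compact set of null points -/
theorem far_cover {R : ℕ → ℝ} {u : ℕ → Cfg d → F} {K : Set (Cfg d)} (hK : IsCompact K)
    (hN : ∀ x ∈ K, Nul R u x) : ∃ (t : Finset (Cfg d)) (e : Cfg d → ℝ),
      (∀ x ∈ t, NulE R u x (e x)) ∧ K ⊆ ⋃ x ∈ t, Metric.ball x (e x) := by
  classical
  choose! e he1 he2 using hN
  obtain ⟨t, ht1, ht2⟩ := hK.elim_nhds_subcover (fun x => Metric.ball x (e x))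
    (fun x hx => Metric.ball_mem_nhds x (he1 x hx))
  exact ⟨t, e, fun x hx => he2 x (ht1 x hx), ht2⟩

theorem far_mas_eq {u : Cfg d → F} (hu : Setup.Tst u) (A : Set (Cfg d)) :
    mas u A = (∫⁻ x in A, ENNReal.ofReal (‖u x‖ ^ 2)).toReal := by
  unfold mas
  rw [integral_eq_lintegral_of_nonneg_ae (Eventually.of_forall fun x => sq_nonneg _)
      (hu.1.continuous.norm.pow 2).aestronglyMeasurable]

theorem far_fin {u : Cfg d → F} (hu : Setup.Tst u) (A : Set (Cfg d)) :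
    ∫⁻ x in A, ENNReal.ofReal (‖u x‖ ^ 2) ≠ ⊤ := by
  have hc : Continuous fun x => ‖u x‖ ^ 2 := hu.1.continuous.norm.pow 2
  have hs : HasCompactSupport fun x => ‖u x‖ ^ 2 := by
    have h1 : HasCompactSupport fun x => ‖u x‖ := hu.2.norm
    simpa [Function.comp_def] using h1.comp_left (g := fun t : ℝ => t ^ 2) (by norm_num)
  have hi : Integrable (fun x => ‖u x‖ ^ 2) := hc.integrable_of_hasCompactSupport hs
  have h1 := (hi.restrict (s := A)).lintegral_lt_top
  exact h1.ne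

/-- the estimate at one scale -/
theorem far_est (S : Setup d F) (φ : Spl dh dm d) (ψ : Spl ds dz dh) (y₀ : Cfg dh)
    {R ε ρ η c : ℝ} (hR : 0 < R) (hρ : 0 < ρ) (hc : 0 < c)
    (hinj : ∀ a a' p p', ‖a‖ < ρ → ‖a'‖ < ρ → p ∈ AN.Nb y₀ dm R ε → p' ∈ AN.Nb y₀ dm R ε →
        AN.tub S φ a p = AN.tub S φ a' p' → a = a' ∧ p = p')
    (hint : ∀ f : Cfg d → ENNReal, Measurable f →
      (∀ a p, ‖a‖ < ρ → p ∈ AN.Nb y₀ dm R ε → f (AN.tub S φ a p) = f (emb φ p.1 p.2)) →
        ∫⁻ x in AN.Tube S φ y₀ R ε ρ, f x =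
          ENNReal.ofReal c * ∫⁻ p in AN.Nb y₀ dm R ε, f (emb φ p.1 p.2) *
            ENNReal.ofReal (S.Jd φ p.1) ∂(volume.prod volume))
    {u : Cfg d → F} (hu : Setup.Tst u) (hG : ∀ C x, S.G C u x = 0)
    (t : Finset (Cfg d)) (e : Cfg d → ℝ)
    (hcov : ∀ (a : EuclideanSpace ℝ (Fin dm)) (p : Cfg dh × Wsp dm), ‖a‖ < ρ → p ∈ AN.Nb y₀ dm 1 ε →
      η ≤ ‖sp ψ p.1‖ → AN.tub S φ a p ∈ ⋃ x ∈ t, Metric.ball x (e x)) :
    c * ∫ p in AN.Nb y₀ dm R ε ∩ {p | η * R ≤ ‖sp ψ p.1‖},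
      ‖S.res φ u p.1 p.2‖ ^ 2 ∂((volume : Measure (Cfg dh)).prod (volume : Measure (Wsp dm))) ≤
      ∑ x ∈ t, mas u (Metric.ball (R • x) (e x * R)) := by
  classical
  have hcu : Continuous u := hu.1.continuous
  have hmu : Measurable fun x => ENNReal.ofReal (‖u x‖ ^ 2) :=
    (ENNReal.continuous_ofReal.comp (hcu.norm.pow 2)).measurable
  set far : Set (Cfg dh × Wsp dm) := {p | η * R ≤ ‖sp ψ p.1‖} with hfar
  have hfm : MeasurableSet far :=
    (isClosed_le continuous_const ((far_cont_sp ψ).comp continuous_fst).norm).measurableSet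
  have hNm : MeasurableSet (AN.Nb y₀ dm R ε) := by
    have e1 : IsOpen {p : Cfg dh × Wsp dm | ‖p.1 - R • y₀‖ < ε * R} :=
      isOpen_lt (continuous_fst.sub continuous_const).norm continuous_const
    have e2 : IsOpen {p : Cfg dh × Wsp dm | ‖p.2‖ < ε * R} :=
      isOpen_lt continuous_snd.norm continuous_const
    exact (e1.inter e2).measurableSet
  set B : Set (EuclideanSpace ℝ (Fin dm) × (Cfg dh × Wsp dm)) :=
    Metric.ball 0 ρ ×ˢ (AN.Nb y₀ dm R ε ∩ far) with hB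
  have hBm : MeasurableSet B := measurableSet_ball.prod (hNm.inter hfm)
  set T : Set (Cfg d) := (fun q : EuclideanSpace ℝ (Fin dm) × (Cfg dh × Wsp dm) =>
    AN.tub S φ q.1 q.2) '' B with hT
  have hTm : MeasurableSet T := by
    refine hBm.image_of_continuousOn_injOn (far_cont_tub S φ).continuousOn ?_
    rintro ⟨a, p⟩ ⟨ha, hp⟩ ⟨a', p'⟩ ⟨ha', hp'⟩ h
    obtain ⟨h1, h2⟩ := hinj a a' p p' (by simpa using ha) (by simpa using ha') hp.1 hp'.1 h
    rw [h1, h2]
  have hTmem : ∀ a p, ‖a‖ < ρ → p ∈ AN.Nb y₀ dm R ε → (AN.tub S φ a p ∈ T ↔ p ∈ far) := by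
    intro a p ha hp
    constructor
    · rintro ⟨⟨a', p'⟩, ⟨ha', hp'⟩, h⟩
      obtain ⟨-, h2⟩ := hinj a' a p' p (by simpa using ha') ha hp'.1 hp h
      rw [← h2]
      exact hp'.2
    · intro h
      exact ⟨(a, p), ⟨by simpa using ha, hp, h⟩, rfl⟩
  set f : Cfg d → ENNReal := T.indicator fun x => ENNReal.ofReal (‖u x‖ ^ 2) with hf
  have hfmeas : Measurable f := hmu.indicator hTm
  have hemb : ∀ p, p ∈ AN.Nb y₀ dm R ε → (emb φ p.1 p.2 ∈ T ↔ p ∈ far) := by
    intro p hp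
    rw [← AN.ij_tub_zero S φ p]
    exact hTmem 0 p (by simpa using hρ) hp
  have h1 := hint f hfmeas (by
    intro a p ha hp
    have h := U.gx983_norm S hu hG (AN.exm φ a) 1 (emb φ p.1 p.2)
    rw [one_smul] at h
    by_cases hpf : p ∈ far
    · rw [hf, Set.indicator_of_mem ((hTmem a p ha hp).2 hpf),
        Set.indicator_of_mem ((hemb p hp).2 hpf)]
      show ENNReal.ofReal (‖u (ro (NormedSpace.exp (S.adm (AN.exm φ a))) (emb φ p.1 p.2))‖ ^ 2) = _
      rw [h]
    · rw [hf, Set.indicator_of_notMem fun hh => hpf ((hTmem a p ha hp).1 hh),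
        Set.indicator_of_notMem fun hh => hpf ((hemb p hp).1 hh)])
  -- right-hand side
  have h2 : ∫⁻ p in AN.Nb y₀ dm R ε, f (emb φ p.1 p.2) *
      ENNReal.ofReal (S.Jd φ p.1) ∂((volume : Measure (Cfg dh)).prod (volume : Measure (Wsp dm))) =
      ∫⁻ p in AN.Nb y₀ dm R ε ∩ far, ENNReal.ofReal (‖S.res φ u p.1 p.2‖ ^ 2)
        ∂((volume : Measure (Cfg dh)).prod (volume : Measure (Wsp dm))) := by
    rw [Set.inter_comm, ← setLIntegral_indicator hfm]
    refine setLIntegral_congr_fun hNm fun p hp => ?_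
    by_cases hpf : p ∈ far
    · simp only [hf]
      rw [Set.indicator_of_mem ((hemb p hp).2 hpf), Set.indicator_of_mem hpf, AN.nrm_res_sq,
        ENNReal.ofReal_mul (sq_nonneg _)]
    · simp only [hf]
      rw [Set.indicator_of_notMem fun hh => hpf ((hemb p hp).1 hh), Set.indicator_of_notMem hpf,
        zero_mul]
  -- left-hand side
  have h3 : ∫⁻ x in AN.Tube S φ y₀ R ε ρ, f x ≤
      ∑ x ∈ t, ∫⁻ z in Metric.ball (R • x) (e x * R), ENNReal.ofReal (‖u z‖ ^ 2) := by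
    refine (setLIntegral_le_lintegral _ _).trans ?_
    have h4 : ∀ z, f z ≤ ∑ x ∈ t, (Metric.ball (R • x) (e x * R)).indicator
        (fun z => ENNReal.ofReal (‖u z‖ ^ 2)) z := by
      intro z
      by_cases hz : z ∈ T
      · obtain ⟨⟨a, p⟩, ⟨ha, hp⟩, hq⟩ := hz
        have ha' : ‖a‖ < ρ := by simpa using ha
        have hp1 : R⁻¹ • p ∈ AN.Nb y₀ dm 1 ε := by
          rw [← AN.tbf_nb hR, smul_inv_smul₀ hR.ne']
          exact hp.1
        have hp2 : η ≤ ‖sp ψ (R⁻¹ • p).1‖ := by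
          rw [Prod.smul_fst, far_sp_smul, norm_smul, Real.norm_of_nonneg (inv_pos.2 hR).le]
          have h5 : η * R ≤ ‖sp ψ p.1‖ := hp.2
          rw [inv_mul_eq_div, le_div_iff₀ hR]
          exact h5
        have h6 := hcov a (R⁻¹ • p) ha' hp1 hp2
        obtain ⟨x, hx, hxb⟩ := Set.mem_iUnion₂.1 h6
        have h7 : z ∈ Metric.ball (R • x) (e x * R) := by
          have h8 : z = R • AN.tub S φ a (R⁻¹ • p) := by
            rw [← AN.tbf_tub_smul, smul_inv_smul₀ hR.ne']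
            exact hq.symm
          rw [h8, Metric.mem_ball, dist_smul₀, Real.norm_of_nonneg hR.le, mul_comm (e x)]
          exact mul_lt_mul_of_pos_left hxb hR
        calc f z ≤ ENNReal.ofReal (‖u z‖ ^ 2) := Set.indicator_le_self _ _ _
          _ = (Metric.ball (R • x) (e x * R)).indicator
              (fun z => ENNReal.ofReal (‖u z‖ ^ 2)) z := by rw [Set.indicator_of_mem h7]
          _ ≤ _ := Finset.single_le_sum (f := fun x => (Metric.ball (R • x) (e x * R)).indicator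
              (fun z => ENNReal.ofReal (‖u z‖ ^ 2)) z) (fun _ _ => zero_le) hx
      · rw [hf, Set.indicator_of_notMem hz]
        exact zero_le
    refine (lintegral_mono h4).trans ?_
    rw [lintegral_finsetSum t fun x _ => hmu.indicator measurableSet_ball]
    refine Finset.sum_le_sum fun x _ => ?_
    rw [lintegral_indicator measurableSet_ball]
  rw [h1, h2] at h3
  have hsum : ∑ x ∈ t, ∫⁻ z in Metric.ball (R • x) (e x * R), ENNReal.ofReal (‖u z‖ ^ 2) ≠ ⊤ :=
    (ENNReal.sum_lt_top.2 fun x _ => (far_fin hu _).lt_top).ne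
  have h5 := ENNReal.toReal_mono hsum h3
  rw [ENNReal.toReal_mul, ENNReal.toReal_ofReal hc.le,
    ENNReal.toReal_sum fun x _ => far_fin hu _] at h5
  have hce : Continuous fun p : Cfg dh × Wsp dm => ‖S.res φ u p.1 p.2‖ ^ 2 := by
    simp only [AN.nrm_res_sq]
    exact ((hcu.comp (AN.tbf_continuous_emb φ)).norm.pow 2).mul
      ((AN.tbf_continuous_Jd S φ).comp continuous_fst)
  rw [integral_eq_lintegral_of_nonneg_ae (Eventually.of_forall fun p => sq_nonneg _)
    hce.aestronglyMeasurable]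
  refine h5.trans (le_of_eq ?_)
  exact Finset.sum_congr rfl fun x _ => (far_mas_eq hu _).symm

/-- **L3** -/
theorem farOf (S : Setup d F) : FarOfStmt S := by
  intro hGeo hTube _ dh dm ds dz φ ψ z₀ hstd
  obtain ⟨-, hless, hexp⟩ := hGeo dh dm ds dz φ ψ z₀ hstd
  obtain ⟨ε₁, ρ, hε₁, hρ, hT⟩ := hTube dh dm φ (cmb ψ 0 z₀) hstd.std
  obtain ⟨ε₂, hε₂, hdet⟩ := AN.nrm_det_ne S φ (cmb ψ 0 z₀) hstd.std.inv
  refine ⟨min ε₁ (ε₂ / 2), lt_min hε₁ (half_pos hε₂), ?_⟩
  intro ε hε hεle η hη R u hSq hV hcd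
  obtain ⟨c, δ, hc, -, hR⟩ := hT ε ρ hε (hεle.trans (min_le_left _ _)) hρ le_rfl
  -- the compact set
  set C : Set (EuclideanSpace ℝ (Fin dm) × (Cfg dh × Wsp dm)) :=
    Metric.closedBall 0 ρ ×ˢ ((Metric.closedBall (cmb ψ 0 z₀) ε ∩ {y | η ≤ ‖sp ψ y‖}) ×ˢ
      Metric.closedBall 0 ε) with hC
  have hCc : IsCompact C := by
    refine (isCompact_closedBall _ _).prod (IsCompact.prod ?_ (isCompact_closedBall _ _))
    exact (isCompact_closedBall _ _).inter_right
      (isClosed_le continuous_const (far_cont_sp ψ).norm)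
  have hK := hCc.image (far_cont_tub S φ)
  have hNul : ∀ x ∈ (fun q : EuclideanSpace ℝ (Fin dm) × (Cfg dh × Wsp dm) =>
      AN.tub S φ q.1 q.2) '' C, Nul R u x := by
    rintro x ⟨⟨a, y, w⟩, ⟨-, ⟨hy1, hy2⟩, -⟩, rfl⟩
    have hsp : sp ψ y ≠ 0 := by
      intro h0
      have h1 : η ≤ ‖sp ψ y‖ := hy2
      rw [h0, norm_zero] at h1
      linarith
    obtain ⟨e1, e2, e3⟩ := hexp (AN.exm φ a) (emb φ y w)
    have hne : AN.tub S φ a (y, w) ≠ 0 := by
      intro h0
      have h1 : ‖ro (NormedSpace.exp (S.adm (AN.exm φ a))) (emb φ y w)‖ = 0 := by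
        show ‖AN.tub S φ a (y, w)‖ = 0
        rw [h0, norm_zero]
      rw [e3] at h1
      exact far_emb_ne φ ψ y w hsp (norm_eq_zero.1 h1)
    by_cases hVx : S.V (AN.tub S φ a (y, w)) = 0
    · refine hcd _ hne hVx ?_
      have h1 : S.V (emb φ y w) = 0 := by
        rw [← e1]
        exact hVx
      have h2 : (S.Dy φ 8 y).det ≠ 0 := by
        refine hdet 1 y one_pos ?_
        have h3 : dist y (cmb ψ 0 z₀) ≤ ε := hy1
        rw [dist_eq_norm] at h3
        rw [one_smul, mul_one]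
        have h4 : ε ≤ ε₂ / 2 := hεle.trans (min_le_right _ _)
        linarith
      have h3 := hless y w h2 h1 hsp
      show cd S (ro (NormedSpace.exp (S.adm (AN.exm φ a))) (emb φ y w)) < dh
      rw [e2]
      exact h3
    · exact hV _ hVx
  obtain ⟨t, e, ht, hcov⟩ := far_cover hK hNul
  have hcov' : ∀ (a : EuclideanSpace ℝ (Fin dm)) (p : Cfg dh × Wsp dm), ‖a‖ < ρ →
      p ∈ AN.Nb (cmb ψ 0 z₀) dm 1 ε → η ≤ ‖sp ψ p.1‖ →
      AN.tub S φ a p ∈ ⋃ x ∈ t, Metric.ball x (e x) := by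
    intro a p ha hp hs
    refine hcov ⟨(a, p), ⟨?_, ⟨?_, hs⟩, ?_⟩, rfl⟩
    · simpa using ha.le
    · have h1 : ‖p.1 - (1 : ℝ) • cmb ψ 0 z₀‖ < ε * 1 := hp.1
      rw [one_smul, mul_one] at h1
      show dist p.1 (cmb ψ 0 z₀) ≤ ε
      rw [dist_eq_norm]
      exact h1.le
    · have h1 : ‖p.2‖ < ε * 1 := hp.2
      rw [mul_one] at h1
      simpa using h1.le
  have hlim : Tendsto (fun n => c⁻¹ * ∑ x ∈ t, mas (u n) (Metric.ball (R n • x) (e x * R n))) atTop
      (𝓝 0) := by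
    have h1 : Tendsto (fun n => ∑ x ∈ t, mas (u n) (Metric.ball (R n • x) (e x * R n))) atTop
        (𝓝 (∑ x ∈ t, (0 : ℝ))) := tendsto_finsetSum t fun x hx => ht x hx
    have h2 := h1.const_mul c⁻¹
    simpa using h2
  refine squeeze_zero (fun n => integral_nonneg fun p => sq_nonneg _) (fun n => ?_) hlim
  obtain ⟨-, -, hinj, hint⟩ := hR (R n) (hSq.pos n)
  have h1 := far_est S φ ψ (cmb ψ 0 z₀) (hSq.pos n) hρ hc hinj hint (hSq.inv n).1 (hSq.inv n).2 t e
    hcov'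
  rw [inv_mul_eq_div, le_div_iff₀ hc, mul_comm]
  exact h1

end Vale.Agent.P353.Z.AD
end

section

/-! # P353, all `N`, block E, global part: approximants for `K`-valued zero modes -/

open MeasureTheory Filter Topology Matrix
open scoped ContDiff

namespace Vale.Agent.P353.Z.AE

open Vale.Agent.P353.Z.Moll Vale.Agent.P353.Z.U Vale.Agent.P353.Z.U.InvL Vale.Agent.P353.Z.U.CoerZ

variable {ds : ℕ} {F : Type*} [NormedAddCommGroup F] [InnerProductSpace ℂ F]

private lemma zm489_comm (T : Setup ds F) (K : Submodule ℂ F) [K.HasOrthogonalProjection]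
    (hK : ∀ α A, ∀ v ∈ K, T.th α A v ∈ K) (α : Fin 16) (A : Fin ds) (v : F) :
    K.starProjection (T.th α A v) = T.th α A (K.starProjection v) := by
  refine Submodule.eq_starProjection_of_mem_orthogonal
    (hK α A _ (Submodule.starProjection_apply_mem _ _)) ?_
  rw [← map_sub, Submodule.mem_orthogonal]
  intro w hw
  rw [← T.th_sa]
  have h1 : v - K.starProjection v ∈ Kᗮ := Submodule.sub_starProjection_mem_orthogonal v
  exact (Submodule.mem_orthogonal K _).1 h1 _ (hK α A w hw)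

private lemma zm489_Q (T : Setup ds F) (X : F →L[ℂ] F) (hX : ∀ α A v, X (T.th α A v) = T.th α A (X v))
    {u : Cfg ds → F} (hu : Differentiable ℝ u) (β : Fin 16) (x : Cfg ds) :
    T.Q β (fun y => X (u y)) x = X (T.Q β u x) := by
  have hv : ∀ (N : Matrix (Fin 16) (Fin 16) ℂ) A β v, X (T.vec N A β v) = T.vec N A β (X v) := by
    intro N A β v
    simp only [CS.vec, _root_.sum_apply, _root_.smul_apply, map_sum, map_smul, hX]
  have hp : ∀ i A, pd i A (fun y => X (u y)) x = X (pd i A u x) := by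
    intro i A
    unfold pd
    have h1 : HasFDerivAt (fun y => X (u y)) ((X.restrictScalars ℝ).comp (fderiv ℝ u x)) x :=
      (X.restrictScalars ℝ).hasFDerivAt.comp x (hu x).hasFDerivAt
    rw [h1.fderiv]
    rfl
  simp only [Setup.Q, Setup.W, hp, map_add, map_smul, map_sum, hv, _root_.smul_apply,
    _root_.sum_apply]

private lemma zm489_grad [CompleteSpace F] (T : Setup ds F) {Φ : Cfg ds → F} (hΦ : Setup.Tst Φ) {ρ : ℝ}
    (hρ : ∀ s, Φ s ≠ 0 → ‖s‖ ≤ ρ) :
    ∑ i, ∑ A, nsq (pd i A Φ) ≤ 1 / 8 * ∑ β, nsq (T.Q β Φ) + 2 * (CF T * ρ) * nsq Φ := by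
  have h := energy_formula T Φ hΦ
  have hV : 0 ≤ ∫ x, T.V x * ‖Φ x‖ ^ 2 := by
    refine integral_nonneg fun x => mul_nonneg ?_ (sq_nonneg _)
    unfold Setup.V
    positivity
  have hC := CF_nonneg T
  have hF : |∫ x, (inner ℂ (Φ x) (T.Fx x (Φ x))).re| ≤ ∫ x, CF T * ρ * ‖Φ x‖ ^ 2 := by
    rw [← Real.norm_eq_abs]
    refine norm_integral_le_of_norm_le (hΦ.norm_sq_int.const_mul _) (Eventually.of_forall fun x => ?_)
    rw [Real.norm_eq_abs]
    refine (Complex.abs_re_le_norm _).trans ((norm_inner_le_norm _ _).trans ?_)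
    by_cases hx : Φ x = 0
    · simp [hx]
    · have h1 := ((T.Fx x).le_opNorm (Φ x)).trans (mul_le_mul_of_nonneg_right
        ((norm_Fx_le T x).trans (mul_le_mul_of_nonneg_left (hρ x hx) hC)) (norm_nonneg _))
      calc ‖Φ x‖ * ‖(T.Fx x) (Φ x)‖ ≤ ‖Φ x‖ * (CF T * ρ * ‖Φ x‖) :=
            mul_le_mul_of_nonneg_left h1 (norm_nonneg _)
        _ = _ := by ring
  rw [integral_const_mul] at hF
  have h2 := neg_le_of_abs_le hF
  change (1 / 16 : ℝ) * ∑ β, nsq (T.Q β Φ) = (1 / 2) * (∑ i, ∑ A, nsq (pd i A Φ)) + _ + _ at h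
  change _ ≤ _ + 2 * (CF T * ρ) * ∫ x, ‖Φ x‖ ^ 2
  linarith

/-- **EG-Zm** -/
theorem zmApp (T : Setup ds F) : ZmStmt T := by
  intro hfd K hK o hZM ho hoK
  have : CompleteSpace F := FiniteDimensional.complete ℂ F
  have : FiniteDimensional ℂ K := inferInstance
  refine ⟨ho, fun R hR hRlim => ?_⟩
  obtain ⟨u, hu, hL, hEn⟩ := hZM
  obtain ⟨Kc, hKc, hrc⟩ := exists_rc
  have hR0 : ∀ n, 0 < R n := fun n => lt_of_lt_of_le one_pos (hR n)
  have hk : ∀ n, ∃ k, nsq (fun x => u k x - o x) ≤ 1 / R n ^ 4 ∧ AD.En T (u k) ≤ 1 / R n ^ 4 := by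
    intro n
    have hp : 0 < 1 / R n ^ 4 := by
      have := hR0 n
      positivity
    exact ((hL.lim.eventually_le_const hp).and (hEn.eventually_le_const hp)).exists
  choose k hk1 hk2 using hk
  obtain ⟨t, ht⟩ : ∃ t : ℕ → ℝ, ∀ n, t n =
      ∫ x, (if Real.sqrt (R n) / 4 ≤ ‖x‖ then ‖o x‖ ^ 2 else 0) := ⟨_, fun _ => rfl⟩
  have ht0 : ∀ n, 0 ≤ t n := fun n => by rw [ht]; exact tail_nonneg o _
  have htl : Tendsto t atTop (𝓝 0) := by
    have := (small_tail ho).comp (Real.tendsto_sqrt_atTop.comp hRlim)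
    refine this.congr fun n => ?_
    rw [ht]
    rfl
  have hst : Tendsto (fun n => Real.sqrt (t n)) atTop (𝓝 0) := by
    have := (Real.continuous_sqrt.tendsto 0).comp htl
    rw [Real.sqrt_zero] at this
    exact this
  have hsst : Tendsto (fun n => Real.sqrt (Real.sqrt (t n))) atTop (𝓝 0) := by
    have := (Real.continuous_sqrt.tendsto 0).comp hst
    rw [Real.sqrt_zero] at this
    exact this
  have hRi : Tendsto (fun n => 1 / R n) atTop (𝓝 0) := by
    simp only [one_div]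
    exact tendsto_inv_atTop_zero.comp hRlim
  have hsRi : Tendsto (fun n => 1 / Real.sqrt (R n)) atTop (𝓝 0) := by
    simp only [one_div]
    exact tendsto_inv_atTop_zero.comp (Real.tendsto_sqrt_atTop.comp hRlim)
  obtain ⟨η, hη⟩ : ∃ η : ℕ → ℝ, ∀ n, η n = 1 / Real.sqrt (R n) + Real.sqrt (Real.sqrt (t n)) :=
    ⟨_, fun _ => rfl⟩
  have hsR : ∀ n, 0 < Real.sqrt (R n) := fun n => Real.sqrt_pos.2 (hR0 n)
  have hη1 : ∀ n, 1 / Real.sqrt (R n) ≤ η n := fun n => by
    rw [hη]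
    have := Real.sqrt_nonneg (Real.sqrt (t n))
    linarith
  have hη2 : ∀ n, Real.sqrt (Real.sqrt (t n)) ≤ η n := fun n => by
    rw [hη]
    have : 0 ≤ 1 / Real.sqrt (R n) := (one_div_pos.2 (hsR n)).le
    linarith
  have hη0 : ∀ n, 0 < η n := fun n => (one_div_pos.2 (hsR n)).trans_le (hη1 n)
  have hηl : Tendsto η atTop (𝓝 0) := by
    have := hsRi.add hsst
    rw [add_zero] at this
    exact this.congr fun n => (hη n).symm
  -- the two key facts on `η`
  have hη3 : ∀ n, 1 / η n ^ 2 ≤ R n := fun n => by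
    rw [div_le_iff₀ (pow_pos (hη0 n) 2)]
    have h1 : (1 / Real.sqrt (R n)) ^ 2 ≤ η n ^ 2 := pow_le_pow_left₀ (one_div_pos.2 (hsR n)).le (hη1 n) 2
    rw [div_pow, one_pow, Real.sq_sqrt (hR0 n).le] at h1
    calc (1 : ℝ) = R n * (1 / R n) := by
          have := (hR0 n).ne'
          field_simp
      _ ≤ R n * η n ^ 2 := mul_le_mul_of_nonneg_left h1 (hR0 n).le
  have hη4 : ∀ n, t n / η n ^ 2 ≤ Real.sqrt (t n) := fun n => by
    rw [div_le_iff₀ (pow_pos (hη0 n) 2)]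
    have h1 : (Real.sqrt (Real.sqrt (t n))) ^ 2 ≤ η n ^ 2 :=
      pow_le_pow_left₀ (Real.sqrt_nonneg _) (hη2 n) 2
    rw [Real.sq_sqrt (Real.sqrt_nonneg _)] at h1
    calc t n = Real.sqrt (t n) * Real.sqrt (t n) := (Real.mul_self_sqrt (ht0 n)).symm
      _ ≤ Real.sqrt (t n) * η n ^ 2 := mul_le_mul_of_nonneg_left h1 (Real.sqrt_nonneg _)
  obtain ⟨ρ, hρ⟩ : ∃ ρ : ℕ → ℝ, ∀ n, ρ n = η n * R n := ⟨_, fun _ => rfl⟩
  have hρ0 : ∀ n, 0 < ρ n := fun n => by rw [hρ]; exact mul_pos (hη0 n) (hR0 n)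
  have hρs : ∀ n, Real.sqrt (R n) ≤ ρ n := fun n => by
    rw [hρ]
    calc Real.sqrt (R n) = 1 / Real.sqrt (R n) * R n := by
          have h1 := (hsR n).ne'
          rw [div_mul_eq_mul_div, one_mul, eq_div_iff h1]
          exact Real.mul_self_sqrt (hR0 n).le
      _ ≤ η n * R n := mul_le_mul_of_nonneg_right (hη1 n) (hR0 n).le
  choose h hh using fun n => hrc (ρ n) (hρ0 n)
  set P := K.starProjection with hP
  have hcom : ∀ α A v, P (T.th α A v) = T.th α A (P v) := fun α A v => zm489_comm T K hK α A v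
  obtain ⟨w, hw⟩ : ∃ w : ℕ → Cfg ds → F, ∀ n x, w n x = P (u (k n) x) := ⟨_, fun _ _ => rfl⟩
  have hwf : ∀ n, w n = fun x => P (u (k n) x) := fun n => funext (hw n)
  have hwT : ∀ n, Setup.Tst (w n) := fun n => by
    rw [hwf]
    exact Setup.Tst.clm (T := fun _ => P) contDiff_const (hu (k n)).1
  have hPn : ∀ v, ‖P v‖ ≤ ‖v‖ := fun v => Submodule.norm_starProjection_apply_le K v
  have hwo : ∀ n, nsq (fun x => w n x - o x) ≤ 1 / R n ^ 4 := by
    intro n
    refine le_trans ?_ (hk1 n)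
    refine integral_mono_of_nonneg (Eventually.of_forall fun x => by positivity)
      (memLp_norm_sq_int ((hL.mem (k n)).sub ho)) ?_
    filter_upwards [hoK] with x hx
    have h1 : P (o x) = o x := Submodule.starProjection_eq_self_iff.2 hx
    have h2 : w n x - o x = P (u (k n) x - o x) := by rw [map_sub, h1, hw]
    rw [h2]
    exact pow_le_pow_left₀ (norm_nonneg _) (hPn _) 2
  have hwo0 : ∀ n, 0 ≤ nsq (fun x => w n x - o x) := fun n => nsq_nonneg _
  have hwm : ∀ n, MemLp (w n) 2 (volume : Measure (Cfg ds)) := fun n => (hwT n).memLp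
  have hdm : ∀ n, MemLp (fun x => w n x - o x) 2 (volume : Measure (Cfg ds)) := fun n => (hwm n).sub ho
  have hwQ : ∀ n β, nsq (T.Q β (w n)) ≤ nsq (T.Q β (u (k n))) := by
    intro n β
    have h1 : T.Q β (w n) = fun x => P (T.Q β (u (k n)) x) := by
      funext x
      rw [hwf]
      exact zm489_Q T P hcom ((hu (k n)).1.1.differentiable (by simp)) β x
    rw [h1]
    have h2 := nsq_le_of (f := fun x => P (T.Q β (u (k n)) x)) (c := 1)
      ((hu (k n)).1.Q T β).memLp (fun x => by rw [one_mul]; exact hPn _)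
    rwa [one_pow, one_mul] at h2
  have htail : ∀ n, (∫ x, (if ρ n / 4 ≤ ‖x‖ then ‖o x‖ ^ 2 else 0)) ≤ t n := by
    intro n
    rw [ht]
    refine integral_mono_of_nonneg (Eventually.of_forall fun x => ?_) ?_ (Eventually.of_forall fun x => ?_)
    · simp only [Pi.zero_apply]
      split_ifs <;> positivity
    · have h1 := (memLp_norm_sq_int ho).indicator
        (measurableSet_le measurable_const measurable_norm :
          MeasurableSet {x : Cfg ds | Real.sqrt (R n) / 4 ≤ ‖x‖})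
      refine h1.congr (Eventually.of_forall fun x => ?_)
      simp only [Set.indicator_apply, Set.mem_ofPred_eq]
    · simp only
      have := hρs n
      by_cases h1 : ρ n / 4 ≤ ‖x‖
      · rw [if_pos h1, if_pos (by linarith)]
      · rw [if_neg h1]
        split_ifs <;> positivity
  obtain ⟨Φ, hΦ⟩ : ∃ Φ : ℕ → Cfg ds → F, ∀ n x, Φ n x = ((rad (h n) x : ℝ) : ℂ) • w n x :=
    ⟨_, fun _ _ => rfl⟩
  have hΦf : ∀ n, Φ n = fun x => ((rad (h n) x : ℝ) : ℂ) • w n x := fun n => funext (hΦ n)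
  have hΦT : ∀ n, Setup.Tst (Φ n) := fun n => by
    rw [hΦf]
    exact Setup.Tst.rsmul (contDiff_rad (hh n).contDiff) (hwT n)
  have hΦs : ∀ n s, Φ n s ≠ 0 → ‖s‖ ≤ ρ n := by
    intro n s hs
    by_contra hc
    push Not at hc
    apply hs
    rw [hΦ, (hh n).zero s hc.le, Complex.ofReal_zero, zero_smul]
  -- L² limit
  have hb1 : ∀ n, nsq (fun s => Φ n s - o s) ≤ 2 * (1 / R n) + 2 * t n := by
    intro n
    have h1 := nsq_cut_sub (hh n) (hρ0 n) ho (hwm n)
    have h2 : nsq (fun s => Φ n s - o s) = nsq (fun x => ((rad (h n) x : ℝ) : ℂ) • w n x - o x) := by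
      rw [hΦf]
    have h3 : 1 / R n ^ 4 ≤ 1 / R n := by
      refine one_div_le_one_div_of_le (hR0 n) ?_
      calc R n = R n ^ 1 := (pow_one _).symm
        _ ≤ R n ^ 4 := pow_le_pow_right₀ (hR n) (by norm_num)
    rw [h2]
    have h4 := hwo n
    have h5 := htail n
    linarith
  have hlim : Tendsto (fun n => nsq (fun s => Φ n s - o s)) atTop (𝓝 0) := by
    refine squeeze_zero (fun n => nsq_nonneg _) hb1 ?_
    simpa using (hRi.const_mul 2).add (htl.const_mul 2)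
  -- energy
  have hVc := Vc_nonneg T
  set Lc : ℝ := Kc * Vc T with hLc
  have hLc0 : 0 ≤ Lc := mul_nonneg hKc hVc
  have hbQ : ∀ n β, nsq (T.Q β (Φ n)) ≤ 2 * nsq (T.Q β (u (k n))) +
      4 * ((Lc / ρ n) ^ 2 * (1 / R n ^ 4 + t n)) := by
    intro n β
    have m1 : MemLp (fun x => ((rad (h n) x : ℝ) : ℂ) • T.Q β (w n) x) 2 (volume : Measure (Cfg ds)) :=
      (Setup.Tst.rsmul (contDiff_rad (hh n).contDiff) ((hwT n).Q T β)).memLp
    have hgc : Continuous (T.gradOp (rad (h n)) β) := continuous_gradOp T (hh n).contDiff β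
    have hgb : ∀ x, ‖T.gradOp (rad (h n)) β x‖ ≤ Lc / ρ n := gradOp_le T hKc (hρ0 n) (hh n) β
    have m2 : MemLp (fun x => T.gradOp (rad (h n)) β x (w n x)) 2 (volume : Measure (Cfg ds)) :=
      memLp_op hgc hgb (hwm n)
    have m3 : MemLp (fun x => T.gradOp (rad (h n)) β x (w n x - o x)) 2 (volume : Measure (Cfg ds)) :=
      memLp_op hgc hgb (hdm n)
    have m4 : MemLp (fun x => T.gradOp (rad (h n)) β x (o x)) 2 (volume : Measure (Cfg ds)) :=
      memLp_op hgc hgb ho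
    have e1 : T.Q β (Φ n) = fun x => ((rad (h n) x : ℝ) : ℂ) • T.Q β (w n) x +
        T.gradOp (rad (h n)) β x (w n x) := by
      funext x
      rw [hΦf]
      exact T.Q_cut (rad (h n)) β (w n) x
        ((contDiff_rad (hh n).contDiff).differentiable (by simp) x) ((hwT n).diff x)
    have b1 : nsq (fun x => ((rad (h n) x : ℝ) : ℂ) • T.Q β (w n) x) ≤ nsq (T.Q β (u (k n))) := by
      have := nsq_le_of (f := fun x => ((rad (h n) x : ℝ) : ℂ) • T.Q β (w n) x) (c := 1)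
        ((hwT n).Q T β).memLp (fun x => norm_cut_le (hh n) x _)
      rw [one_pow, one_mul] at this
      exact this.trans (hwQ n β)
    have b3 : nsq (fun x => T.gradOp (rad (h n)) β x (w n x - o x)) ≤ (Lc / ρ n) ^ 2 * (1 / R n ^ 4) :=
      (nsq_op_le hgb (hdm n)).trans (mul_le_mul_of_nonneg_left (hwo n) (sq_nonneg _))
    have b4 : nsq (fun x => T.gradOp (rad (h n)) β x (o x)) ≤ (Lc / ρ n) ^ 2 * t n := by
      have : nsq (fun x => T.gradOp (rad (h n)) β x (o x)) ≤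
          (Lc / ρ n) ^ 2 * ∫ x, (if ρ n / 4 ≤ ‖x‖ then ‖o x‖ ^ 2 else 0) := by
        refine nsq_tail ho fun x => ?_
        by_cases hx : ‖x‖ < ρ n / 2
        · rw [gradOp_zero T (hh n) β hx]
          simp only [_root_.zero_apply, norm_zero]
          have h1 : (0 : ℝ) ≤ if ρ n / 4 ≤ ‖x‖ then ‖o x‖ else 0 := by split_ifs <;> positivity
          have h2 := (hρ0 n).le
          positivity
        · push Not at hx
          rw [if_pos (by have := hρ0 n; linarith)]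
          exact ((T.gradOp (rad (h n)) β x).le_opNorm _).trans
            (mul_le_mul_of_nonneg_right (hgb x) (norm_nonneg _))
      exact this.trans (mul_le_mul_of_nonneg_left (htail n) (sq_nonneg _))
    have e2 : (fun x => T.gradOp (rad (h n)) β x (w n x)) = fun x =>
        T.gradOp (rad (h n)) β x (w n x - o x) + T.gradOp (rad (h n)) β x (o x) := by
      funext x
      rw [map_sub, sub_add_cancel]
    have b2 := nsq_add_le m3 m4
    rw [← e2] at b2
    rw [e1]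
    have b5 := nsq_add_le m1 m2
    nlinarith [b1, b2, b3, b4, b5]
  have hbE : ∀ n, R n ^ 2 * ∑ β, nsq (T.Q β (Φ n)) ≤
      2 * (1 / R n) + 64 * Lc ^ 2 * (1 / R n + Real.sqrt (t n)) := by
    intro n
    have hRn := hR0 n
    have s1 : ∑ β, nsq (T.Q β (Φ n)) ≤ 2 * AD.En T (u (k n)) +
        64 * ((Lc / ρ n) ^ 2 * (1 / R n ^ 4 + t n)) := by
      have : ∑ β : Fin 16, (2 * nsq (T.Q β (u (k n))) + 4 * ((Lc / ρ n) ^ 2 * (1 / R n ^ 4 + t n))) =
          2 * AD.En T (u (k n)) + 64 * ((Lc / ρ n) ^ 2 * (1 / R n ^ 4 + t n)) := by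
        rw [Finset.sum_add_distrib, ← Finset.mul_sum, Finset.sum_const, Finset.card_univ, Fintype.card_fin,
          nsmul_eq_mul]
        unfold AD.En
        push_cast
        ring
      rw [← this]
      exact Finset.sum_le_sum fun β _ => hbQ n β
    have s2 : R n ^ 2 * AD.En T (u (k n)) ≤ 1 / R n := by
      calc R n ^ 2 * AD.En T (u (k n)) ≤ R n ^ 2 * (1 / R n ^ 4) :=
            mul_le_mul_of_nonneg_left (hk2 n) (by positivity)
        _ = 1 / R n ^ 2 := by field_simp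
        _ ≤ 1 / R n := by
            refine one_div_le_one_div_of_le hRn ?_
            calc R n = R n ^ 1 := (pow_one _).symm
              _ ≤ R n ^ 2 := pow_le_pow_right₀ (hR n) (by norm_num)
    have s3 : R n ^ 2 * ((Lc / ρ n) ^ 2 * (1 / R n ^ 4 + t n)) =
        Lc ^ 2 * (1 / η n ^ 2 * (1 / R n ^ 4) + t n / η n ^ 2) := by
      have h1 := (hη0 n).ne'
      rw [hρ]
      field_simp
    have s4 : 1 / η n ^ 2 * (1 / R n ^ 4) ≤ 1 / R n := by
      calc 1 / η n ^ 2 * (1 / R n ^ 4) ≤ R n * (1 / R n ^ 4) :=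
            mul_le_mul_of_nonneg_right (hη3 n) (by positivity)
        _ = 1 / R n ^ 3 := by field_simp
        _ ≤ 1 / R n := by
            refine one_div_le_one_div_of_le hRn ?_
            calc R n = R n ^ 1 := (pow_one _).symm
              _ ≤ R n ^ 3 := pow_le_pow_right₀ (hR n) (by norm_num)
    have s5 : R n ^ 2 * ∑ β, nsq (T.Q β (Φ n)) ≤ 2 * (R n ^ 2 * AD.En T (u (k n))) +
        64 * (R n ^ 2 * ((Lc / ρ n) ^ 2 * (1 / R n ^ 4 + t n))) := by
      have := mul_le_mul_of_nonneg_left s1 (sq_nonneg (R n))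
      linarith
    rw [s3] at s5
    have s6 := mul_le_mul_of_nonneg_left (add_le_add s4 (hη4 n)) (sq_nonneg Lc)
    linarith
  have hen : Tendsto (fun n => R n ^ 2 * ∑ β, nsq (T.Q β (Φ n))) atTop (𝓝 0) := by
    refine squeeze_zero (fun n => mul_nonneg (sq_nonneg _) (Finset.sum_nonneg fun β _ => nsq_nonneg _)) hbE ?_
    simpa using (hRi.const_mul 2).add ((hRi.add hst).const_mul (64 * Lc ^ 2))
  refine ⟨η, Φ, ⟨hη0, hηl, fun n => ⟨hΦT n, fun s => ?_, fun s hs => ?_⟩, hlim, ?_, hen⟩⟩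
  · rw [hΦ, hw]
    exact K.smul_mem _ (Submodule.starProjection_apply_mem _ _)
  · rw [← hρ]
    exact hΦs n s hs
  · -- gradient
    have hCF := CF_nonneg T
    have hg : ∀ n, (∑ i, ∑ A, nsq (pd i A (Φ n))) / R n ≤
        1 / 8 * (R n ^ 2 * ∑ β, nsq (T.Q β (Φ n))) +
          2 * CF T * η n * (2 * nsq (fun s => Φ n s - o s) + 2 * nsq o) := by
      intro n
      have hRn := hR0 n
      have g1 := zm489_grad T (hΦT n) (hΦs n)
      have g2 : nsq (Φ n) ≤ 2 * nsq (fun s => Φ n s - o s) + 2 * nsq o := by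
        have := nsq_add_le ((hΦT n).memLp.sub ho) ho
        have e : (fun x => (Φ n - o) x + o x) = Φ n := by
          funext x
          simp
        rw [e] at this
        exact this
      have hS : 0 ≤ ∑ β, nsq (T.Q β (Φ n)) := Finset.sum_nonneg fun β _ => nsq_nonneg _
      rw [div_le_iff₀ hRn]
      have g3 : ∑ β, nsq (T.Q β (Φ n)) ≤ (R n ^ 2 * ∑ β, nsq (T.Q β (Φ n))) * R n := by
        have : 1 ≤ R n ^ 2 * R n := by
          have h1 := one_le_pow₀ (hR n) (n := 2)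
          nlinarith [hR n]
        nlinarith
      have g4 : 2 * (CF T * ρ n) * nsq (Φ n) ≤
          2 * CF T * η n * (2 * nsq (fun s => Φ n s - o s) + 2 * nsq o) * R n := by
        rw [hρ]
        have h1 : 0 ≤ 2 * (CF T * (η n * R n)) := by
          have := (hη0 n).le
          positivity
        have := mul_le_mul_of_nonneg_left g2 h1
        linarith
      linarith
    refine squeeze_zero (fun n => div_nonneg (Finset.sum_nonneg fun i _ =>
      Finset.sum_nonneg fun A _ => nsq_nonneg _) (hR0 n).le) hg ?_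
    have l1 := hen.const_mul (1 / 8)
    have l2 := (hηl.const_mul (2 * CF T)).mul ((hlim.const_mul 2).add_const (2 * nsq o))
    have := l1.add l2
    simpa using this

end Vale.Agent.P353.Z.AE
end

section

/-! # P353, all `N`, block SGN: task S3 ImpT (implementers map vacuum spaces to vacuum spaces) (helper516) -/

open Matrix

namespace Vale.Agent.P353.Z.AS

variable {d : ℕ} {F : Type*} [NormedAddCommGroup F] [InnerProductSpace ℂ F]

/-- **S3 ImpT** -/
theorem impT_stmt (S : Setup d F) : ImpTStmt S := by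
  intro T J M hT hM v hv
  have hv' : ∀ p, ∑ q : Fin 16 × Fin d,
      ((1 : Matrix (Fin 16 × Fin d) (Fin 16 × Fin d) ℂ) - Complex.I • J) p q • S.th q.1 q.2 v = 0 := hv
  have hM' : ∀ q : Fin 16 × Fin d, M (S.th q.1 q.2 v) = ∑ p : Fin 16 × Fin d, T p q • S.th p.1 p.2 (M v) := by
    intro q
    have h := congrArg (fun A : F →L[ℂ] F => A v) (hM q)
    simp only [_root_.sum_apply, _root_.smul_apply] at h
    exact h
  have h1 : ∀ p, ∑ r : Fin 16 × Fin d,
      (((1 : Matrix (Fin 16 × Fin d) (Fin 16 × Fin d) ℂ) - Complex.I • J) * Tᵀ) p r • S.th r.1 r.2 (M v) = 0 := by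
    intro p
    have h2 := congrArg M (hv' p)
    rw [map_zero, map_sum] at h2
    rw [← h2]
    have h3 : ∀ q : Fin 16 × Fin d,
        M ((((1 : Matrix (Fin 16 × Fin d) (Fin 16 × Fin d) ℂ) - Complex.I • J) p q) • S.th q.1 q.2 v) =
        ∑ r : Fin 16 × Fin d, ((((1 : Matrix (Fin 16 × Fin d) (Fin 16 × Fin d) ℂ) - Complex.I • J) p q) *
          Tᵀ q r) • S.th r.1 r.2 (M v) := by
      intro q
      rw [map_smul, hM' q, Finset.smul_sum]
      exact Finset.sum_congr rfl fun r _ => by rw [smul_smul, transpose_apply]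
    rw [Finset.sum_congr rfl fun q _ => h3 q, Finset.sum_comm]
    refine Finset.sum_congr rfl fun r _ => ?_
    rw [Matrix.mul_apply, Finset.sum_smul]
  have hE : (1 : Matrix (Fin 16 × Fin d) (Fin 16 × Fin d) ℂ) - Complex.I • (T * J * Tᵀ) =
      T * (((1 : Matrix (Fin 16 × Fin d) (Fin 16 × Fin d) ℂ) - Complex.I • J) * Tᵀ) := by
    rw [sub_mul, one_mul, mul_sub, hT, smul_mul_assoc, mul_smul_comm, Matrix.mul_assoc]
  change ∀ s, ∑ r : Fin 16 × Fin d,
      ((1 : Matrix (Fin 16 × Fin d) (Fin 16 × Fin d) ℂ) - Complex.I • (T * J * Tᵀ)) s r • S.th r.1 r.2 (M v) = 0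
  intro s
  rw [hE]
  have h4 : ∀ r : Fin 16 × Fin d,
      (T * (((1 : Matrix (Fin 16 × Fin d) (Fin 16 × Fin d) ℂ) - Complex.I • J) * Tᵀ)) s r • S.th r.1 r.2 (M v) =
      ∑ p : Fin 16 × Fin d, T s p •
        ((((1 : Matrix (Fin 16 × Fin d) (Fin 16 × Fin d) ℂ) - Complex.I • J) * Tᵀ) p r • S.th r.1 r.2 (M v)) := by
    intro r
    rw [Matrix.mul_apply, Finset.sum_smul]
    exact Finset.sum_congr rfl fun p _ => by rw [smul_smul]
  rw [Finset.sum_congr rfl fun r _ => h4 r, Finset.sum_comm]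
  refine Finset.sum_eq_zero fun p _ => ?_
  rw [← Finset.smul_sum, h1 p, smul_zero]

end Vale.Agent.P353.Z.AS
end
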