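import Mathlib
import Vale.Agent.P353.BdA.B1
import Vale.Agent.P353.BdA.B5
import Vale.Agent.P353.BdA.B13
import Vale.Agent.P353.BdA.B18
import Vale.Agent.P353.BdZ.B4
import Vale.Agent.P353.BdA.B21
import Vale.Agent.P353.BdA.B22

set_option linter.all false

section

/-! # P353, all `N`, block C: the crude bound (S3) -/

open MeasureTheory Filter Topology
open scoped ContDiff

namespace Vale.Agent.P353.Z.AN

set_option linter.unusedSectionVars false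

variable {d dh dm : ℕ} {F : Type*} [NormedAddCommGroup F] [InnerProductSpace ℂ F]

/-- enlarging the tube -/
private theorem h459_sup {Y : Cfg dh} {e e' R : ℝ} {v : Cfg dh → Wsp dm → F} (h : Sup2 Y e' R v) (hR : 0 < R)
    (he : e' ≤ e) : Sup2 Y e R v := by
  intro y w hv
  have key : e' * R ≤ e * R := mul_le_mul_of_nonneg_right he hR.le
  exact ⟨(h y w hv).1.trans key, (h y w hv).2.trans key⟩

/-- lower bound of `∑|Qv|²` by the square of `Q^h + Q¹` and the remainder -/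
private theorem h459_low {S : Setup d F} {φ : Spl dh dm d} (hA : CalcA dh dm F) (hB : CalcB dh dm F)
    {N : Fin 9 → Matrix (Fin 16) (Fin 16) ℂ} {Y : Cfg dh} {ε0 : ℝ} (hO : OpFacts S φ N Y ε0)
    {R : ℝ} (hR : 0 < R) (m : ℝ) {v : Cfg dh → Wsp dm → F} (hv : Tst2 v) (hs : Sup2 Y ε0 R v) :
    (1 / 2) * (S.EH φ N m v + S.E1 φ v + 2 * ∑ β, (ip2 (S.Qhm φ N m β v) (S.Q1 φ β v)).re) -
      ∑ β, ns2 (fun y w => S.Qr φ β v y w + (m : ℂ) • S.Mw φ N β w (v y w)) ≤ S.ES φ N m v := by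
  have key : ∀ β : Fin 16, (1 / 2) * (ns2 (S.Qhm φ N m β v) + ns2 (S.Q1 φ β v) +
      2 * (ip2 (S.Qhm φ N m β v) (S.Q1 φ β v)).re) -
      ns2 (fun y w => S.Qr φ β v y w + (m : ℂ) • S.Mw φ N β w (v y w)) ≤ ns2 (S.QS φ N m β v) := by
    intro β
    have hth := hO.th v hv m β
    have ht1 := hO.t1 R hR v hv hs β
    have htr : Tst2 (fun y w => S.Qr φ β v y w + (m : ℂ) • S.Mw φ N β w (v y w)) :=
      hA.add _ _ (hO.tr R hR v hv hs β) (hA.smul _ _ (hO.tm v hv β))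
    have h1 := hB.ns_add _ _ hth ht1
    have h2 := hB.ns_add_ge _ _ (hA.add _ _ hth ht1) htr
    rw [h1] at h2
    exact h2
  have hsum := Finset.sum_le_sum fun β (_ : β ∈ Finset.univ) => key β
  rw [Finset.sum_sub_distrib, ← Finset.mul_sum, Finset.sum_add_distrib, Finset.sum_add_distrib,
    ← Finset.mul_sum] at hsum
  exact hsum

/-- constants for the cross term -/
private theorem h459_cross {Cc M A R n K X a w : ℝ} (hCc0 : 0 ≤ Cc) (hA0 : 0 < A) (hK0 : 0 ≤ K)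
    (hCcM : Cc * M ≤ A / 4) (hR : 0 < R) (ha : a ≤ n) {D W : ℝ} (hw : w = D + R ^ 2 * W) (hwb : w ≤ M * K)
    (hX : |X| ≤ Cc * (A / R ^ 2 * a + (A / R ^ 2)⁻¹ * (1 / R ^ 2 * D + W))) :
    |X| ≤ Cc * A * (1 / R ^ 2) * n + (1 / 4) * K := by
  have e1 : (A / R ^ 2)⁻¹ * (1 / R ^ 2 * D + W) = (1 / A) * w := by
    rw [hw]
    field_simp
  rw [e1] at hX
  have e2 : Cc * ((1 / A) * w) ≤ (1 / 4) * K := by
    have h0 : (0 : ℝ) ≤ 1 / A := by positivity
    have h1 : Cc * ((1 / A) * w) ≤ Cc * ((1 / A) * (M * K)) :=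
      mul_le_mul_of_nonneg_left (mul_le_mul_of_nonneg_left hwb h0) hCc0
    have h2 : Cc * ((1 / A) * (M * K)) = (1 / A) * ((Cc * M) * K) := by ring
    have h3 : (1 / A) * ((Cc * M) * K) ≤ (1 / A) * ((A / 4) * K) :=
      mul_le_mul_of_nonneg_left (mul_le_mul_of_nonneg_right hCcM hK0) h0
    have h4 : (1 / A) * ((A / 4) * K) = (1 / 4) * K := by field_simp
    linarith
  have e3 : Cc * (A / R ^ 2 * a) ≤ Cc * A * (1 / R ^ 2) * n := by
    have h0 : (0 : ℝ) ≤ A / R ^ 2 := by positivity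
    have h1 : Cc * (A / R ^ 2 * a) ≤ Cc * (A / R ^ 2 * n) :=
      mul_le_mul_of_nonneg_left (mul_le_mul_of_nonneg_left ha h0) hCc0
    have h2 : Cc * (A / R ^ 2 * n) = Cc * A * (1 / R ^ 2) * n := by ring
    linarith
  have e4 : Cc * (A / R ^ 2 * a + (1 / A) * w) = Cc * (A / R ^ 2 * a) + Cc * ((1 / A) * w) := by ring
  linarith

/-- smallness of the constants of the remainder -/
private theorem h459_small {Cr e R : ℝ} (hCr : 0 ≤ Cr) (he0 : 0 ≤ e) (he : e ≤ 1 / (4 * (Cr + 1)))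
    (hR : 4 * (Cr + 1) ≤ R) : Cr * (e ^ 2 + 1 / R ^ 2) ≤ 1 / 8 := by
  have hc1 : (0 : ℝ) < Cr + 1 := by linarith
  have h2 : e ^ 2 ≤ (1 / (4 * (Cr + 1))) ^ 2 := by gcongr
  have h3 : 1 / R ^ 2 ≤ (1 / (4 * (Cr + 1))) ^ 2 := by
    rw [div_pow, one_pow]
    gcongr
  have h4 : Cr * (1 / (4 * (Cr + 1))) ^ 2 ≤ 1 / 16 := by
    rw [div_pow, one_pow, mul_one_div, div_le_div_iff₀ (by positivity) (by norm_num)]
    nlinarith
  calc Cr * (e ^ 2 + 1 / R ^ 2) ≤ Cr * ((1 / (4 * (Cr + 1))) ^ 2 + (1 / (4 * (Cr + 1))) ^ 2) := by gcongr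
    _ = 2 * (Cr * (1 / (4 * (Cr + 1))) ^ 2) := by ring
    _ ≤ 2 * (1 / 16) := by gcongr
    _ = 1 / 8 := by norm_num

/-- final arithmetic -/
private theorem h459_fin {Cc Cr A R m n K H X Rm ES e : ℝ} (hCc0 : 0 ≤ Cc) (hCr0 : 0 ≤ Cr) (hA0 : 0 < A)
    (hR : 0 < R) (hn0 : 0 ≤ n) (hK0 : 0 ≤ K) (hH0 : 0 ≤ H) (hES0 : 0 ≤ ES)
    (hsmall : Cr * (e ^ 2 + 1 / R ^ 2) ≤ 1 / 8)
    (hX : |X| ≤ Cc * A * (1 / R ^ 2) * n + (1 / 4) * K)
    (hlow : (1 / 2) * (H + K + 2 * X) - Rm ≤ ES)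
    (hrem : Rm ≤ Cr * (e ^ 2 + 1 / R ^ 2) * (H + K) + Cr * (1 / R ^ 2 + m ^ 2 / R) * n) :
    H + K ≤ 8 * (1 + Cc * A + Cr) * (ES + (1 / R ^ 2 + m ^ 2 / R) * n) := by
  have hmR : 0 ≤ m ^ 2 / R := by positivity
  have hRR : 0 ≤ 1 / R ^ 2 := by positivity
  have hCA : 0 ≤ Cc * A := mul_nonneg hCc0 hA0.le
  have h1 : Cr * (e ^ 2 + 1 / R ^ 2) * (H + K) ≤ (1 / 8) * (H + K) :=
    mul_le_mul_of_nonneg_right hsmall (by linarith)
  generalize hq : 1 / R ^ 2 + m ^ 2 / R = q at *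
  have hqn : (1 / R ^ 2) * n ≤ q * n := mul_le_mul_of_nonneg_right (by linarith) hn0
  have hqn0 : 0 ≤ q * n := mul_nonneg (by linarith) hn0
  have h2 : Cc * A * (1 / R ^ 2) * n ≤ Cc * A * (q * n) := by
    have := mul_le_mul_of_nonneg_left hqn hCA
    linarith
  have h3 : Cr * q * n = Cr * (q * n) := by ring
  have h4 : -X ≤ Cc * A * (q * n) + (1 / 4) * K := (neg_le_abs X).trans (by linarith)
  have h5 : (1 / 8) * (H + K) ≤ ES + (Cc * A * (q * n) + Cr * (q * n)) := by linarith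
  have h6 : 0 ≤ (Cc * A + Cr) * ES := mul_nonneg (add_nonneg hCA hCr0) hES0
  have h7 : 8 * (1 + Cc * A + Cr) * (ES + q * n) = 8 * (ES + (Cc * A * (q * n) + Cr * (q * n))) +
      8 * ((Cc * A + Cr) * ES) + 8 * (q * n) := by ring
  linarith

theorem crude_stmt (S : Setup d F) (φ : Spl dh dm d) : CalcA dh dm F → CalcB dh dm F → OpStmt S φ →
    FIntStmt S φ → CrossStmt S φ → ParStmt S φ → RemStmt S φ → CrudeStmt S φ := by
  intro hA hB hOp hFI hCr hPa hRe _ N hN Y ε0 C0 C1 hY hε0 hC0 hCo hFF hC1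
  have hO := hOp N hN.real Y ε0 C0 hε0 hCo
  obtain ⟨Cc, hCc0, hCc⟩ := hCr N hN.real Y ε0 C0 hε0 hC0 hCo
  obtain ⟨Cr, hCr0, hCrr⟩ := hRe hY.sub N hN Y ε0 C0 C1 hε0 hC0 hCo hFF hC1
  -- constants
  obtain ⟨M, hM⟩ : ∃ M : ℝ, M = C1 * (1 + C1) := ⟨_, rfl⟩
  have hM0 : 0 ≤ M := by rw [hM]; positivity
  obtain ⟨A, hAdef⟩ : ∃ A : ℝ, A = 4 * (Cc + 1) * (M + 1) := ⟨_, rfl⟩
  have hA0 : 0 < A := by rw [hAdef]; positivity
  have hCcM : Cc * M ≤ A / 4 := by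
    rw [hAdef]
    nlinarith [mul_nonneg hCc0 hM0]
  refine ⟨min ε0 (1 / (4 * (Cr + 1))), 4 * (Cr + 1), 8 * (1 + Cc * A + Cr), ?_, min_le_left _ _, ?_, ?_, ?_⟩
  · exact lt_min hε0 (by positivity)
  · linarith
  · positivity
  intro R hR m hm hm1 v hv hsv
  have hε1pos : 0 < min ε0 (1 / (4 * (Cr + 1))) := lt_min hε0 (by positivity)
  have hR1 : 1 ≤ R := by linarith
  have hRpos : 0 < R := by linarith
  have hs : Sup2 Y ε0 R v := h459_sup hsv hRpos (min_le_left _ _)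
  -- parity
  obtain ⟨te, tod, se, so, hodd, hn, hK, hX⟩ := hPa N hN.real Y ε0 C0 hε0 hCo R hRpos m v hv hs
  -- fibre facts for the odd part
  obtain ⟨f1, f3⟩ := hFI Y ε0 C0 C1 hε0 hCo hFF hC1 R hRpos (odp v) tod so
  have f3' := f3 hodd
  have hn0 : 0 ≤ ns2 v := hB.nonneg v
  have hne : ns2 (evp v) ≤ ns2 v := by
    have := hB.nonneg (odp v)
    linarith
  have hKe : 0 ≤ S.E1 φ (evp v) := Finset.sum_nonneg fun β _ => hB.nonneg _
  have hKo : 0 ≤ S.E1 φ (odp v) := Finset.sum_nonneg fun β _ => hB.nonneg _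
  have hH0 : 0 ≤ S.EH φ N m v := Finset.sum_nonneg fun β _ => hB.nonneg _
  have hK0 : 0 ≤ S.E1 φ v := Finset.sum_nonneg fun β _ => hB.nonneg _
  have hES0 : 0 ≤ S.ES φ N m v := Finset.sum_nonneg fun β _ => hB.nonneg _
  have hKole : S.E1 φ (odp v) ≤ S.E1 φ v := by linarith
  have hodd2 : D2w (odp v) + R ^ 2 * W2 (odp v) ≤ M * S.E1 φ v := by
    have h1 : C1 * (S.E1 φ (odp v) + R * ns2 (odp v)) ≤ C1 * (S.E1 φ (odp v) + C1 * S.E1 φ (odp v)) :=
      mul_le_mul_of_nonneg_left (by linarith) hC1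
    have h2 : C1 * (S.E1 φ (odp v) + C1 * S.E1 φ (odp v)) = M * S.E1 φ (odp v) := by rw [hM]; ring
    have h3 : M * S.E1 φ (odp v) ≤ M * S.E1 φ v := mul_le_mul_of_nonneg_left hKole hM0
    linarith
  -- the cross term
  have hcross := hCc R hR1 m (evp v) (odp v) te tod se so (A / R ^ 2) (by positivity)
  rw [← hX] at hcross
  have hXb := h459_cross hCc0 hA0 hK0 hCcM hRpos hne rfl hodd2 hcross
  -- the remainder
  have hrem := hCrr _ hε1pos (min_le_left _ _) R hR1 m hm hm1 v hv hsv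
  exact h459_fin hCc0 hCr0 hA0 hRpos hn0 hK0 hH0 hES0
    (h459_small hCr0 hε1pos.le (min_le_right _ _) hR) hXb (h459_low hA hB hO hRpos m hv hs) hrem

end Vale.Agent.P353.Z.AN
end

section

/-! # P353, all `N`, block GL6, part B: scaled tube estimates -/

open MeasureTheory Filter Topology
open scoped ContDiff

namespace Vale.Agent.P353.Z.AN

variable {d dh dm r ds : ℕ} {F : Type*} [NormedAddCommGroup F] [InnerProductSpace ℂ F]

theorem cnvB_Dy_smul (S : Setup d F) (φ : Spl dh dm d) (i : Fin 9) (c : ℝ) (y : Cfg dh) (B C : Fin dm) :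
    S.Dy φ i (c • y) B C = c * S.Dy φ i y B C := by
  simp only [Setup.Dy, Setup.Dm, Matrix.of_apply, PiLp.smul_apply, smul_eq_mul, Finset.mul_sum]
  exact Finset.sum_congr rfl fun A _ => by ring

theorem cnvB_cmb_smul (ψ : Spz r ds dh) (c : ℝ) (η : Cfg r) (s : Cfg ds) :
    c • cmb ψ η s = cmb ψ (c • η) (c • s) := by
  ext p
  simp only [cmb, PiLp.smul_apply, smul_eq_mul]
  rcases ψ.symm p.2 with a | b <;> simp

theorem cnvB_hz_cmb (ψ : Spz r ds dh) (η : Cfg r) (s : Cfg ds) : hz ψ (cmb ψ η s) = η := by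
  ext p
  simp [hz, cmb]

theorem cnvB_hs_cmb (ψ : Spz r ds dh) (η : Cfg r) (s : Cfg ds) : hs ψ (cmb ψ η s) = s := by
  ext p
  simp [hs, cmb]

theorem cnvB_hz_sub (ψ : Spz r ds dh) (y y' : Cfg dh) : hz ψ (y - y') = hz ψ y - hz ψ y' := by
  ext p
  simp [hz]

theorem cnvB_hs_sub (ψ : Spz r ds dh) (y y' : Cfg dh) : hs ψ (y - y') = hs ψ y - hs ψ y' := by
  ext p
  simp [hs]

theorem cnvB_norm (ψ : Spz r ds dh) (y : Cfg dh) : ‖y‖ ^ 2 = ‖hz ψ y‖ ^ 2 + ‖hs ψ y‖ ^ 2 := by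
  rw [EuclideanSpace.norm_sq_eq, EuclideanSpace.norm_sq_eq, EuclideanSpace.norm_sq_eq]
  rw [Fintype.sum_prod_type, Fintype.sum_prod_type, Fintype.sum_prod_type, ← Finset.sum_add_distrib]
  refine Finset.sum_congr rfl fun i _ => ?_
  rw [← ψ.sum_comp, Fintype.sum_sum_type]
  simp [hz, hs]

theorem cnvB_hz_le (ψ : Spz r ds dh) (y : Cfg dh) : ‖hz ψ y‖ ≤ ‖y‖ := by
  have h := cnvB_norm ψ y
  nlinarith [norm_nonneg (hz ψ y), norm_nonneg (hs ψ y), norm_nonneg y]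

theorem cnvB_hs_le (ψ : Spz r ds dh) (y : Cfg dh) : ‖hs ψ y‖ ≤ ‖y‖ := by
  have h := cnvB_norm ψ y
  nlinarith [norm_nonneg (hz ψ y), norm_nonneg (hs ψ y), norm_nonneg y]

theorem cnvB_wt_smul (c : ℝ) (w : Wsp dm) (i : Fin 9) (B : Fin dm) : wt (c • w) i B = c * wt w i B := by
  unfold wt
  refine Fin.lastCases ?_ (fun j => ?_) i
  · simp only [Fin.lastCases_last, mul_zero]
  · simp only [Fin.lastCases_castSucc, PiLp.smul_apply, smul_eq_mul]

theorem cnvB_xi (S : Setup d F) (φ : Spl dh dm d) (y : Cfg dh) (w : Wsp dm) (a : EuclideanSpace ℝ (Fin dm)) (t k : ℝ)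
    (ht : t ≠ 0) :
    t • xi (fun i => S.Dy φ i y) (t⁻¹ • w) (k • a) = xi (fun i => S.Dy φ i ((t * k) • y)) w a := by
  ext p
  simp only [xi, PiLp.smul_apply, smul_eq_mul, cnvB_wt_smul, cnvB_Dy_smul, mul_sub, Finset.mul_sum]
  congr 1
  · rw [← mul_assoc, mul_inv_cancel₀ ht, one_mul]
  · exact Finset.sum_congr rfl fun C _ => by ring

theorem cnvB_est (S : Setup d F) (φ : Spl dh dm d) (ψ : Spz r ds dh) (z₀ : Cfg r) (ε₀ ρ₀ c C : ℝ) (hC : 0 < C)
    (hT : ∀ R : ℝ, 0 < R → ∀ a p, ‖a‖ < ρ₀ → p ∈ Nb (cmb ψ z₀ 0) dm R ε₀ →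
      c * (R * ‖a‖ + ‖p.2‖) ≤ ‖pm φ (tub S φ a p)‖ ∧ ‖zy φ (tub S φ a p) - p.1‖ ≤ C * ‖a‖ * (R * ‖a‖ + ‖p.2‖) ∧
      ‖pm φ (tub S φ a p) - xi (fun i => S.Dy φ i p.1) p.2 a‖ ≤ C * ‖a‖ * (R * ‖a‖ + ‖p.2‖))
    (R : ℝ) (hR : 1 ≤ R) (η : Cfg r) (s : Cfg ds) (v : Wsp dm) (α : EuclideanSpace ℝ (Fin dm)) (x : Cfg d)
    (hx : x = tub S φ ((R * Real.sqrt R)⁻¹ • α) (cmb ψ (R • η) s, (Real.sqrt R)⁻¹ • v))
    (ha : ‖(R * Real.sqrt R)⁻¹ • α‖ < ρ₀) (hp : (cmb ψ (R • η) s, (Real.sqrt R)⁻¹ • v) ∈ Nb (cmb ψ z₀ 0) dm R ε₀) :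
    c * (‖α‖ + ‖v‖) ≤ ‖Real.sqrt R • pm φ x‖ ∧
    ‖R⁻¹ • hz ψ (zy φ x) - η‖ ≤ C * ‖α‖ * (‖α‖ + ‖v‖) / R ∧
    ‖hs ψ (zy φ x) - s‖ ≤ C * ‖α‖ * (‖α‖ + ‖v‖) / R ∧
    ‖Real.sqrt R • pm φ x - xi (fun i => S.Dy φ i (cmb ψ η (R⁻¹ • s))) v α‖ ≤ C * ‖α‖ * (‖α‖ + ‖v‖) / R := by
  have hR0 : 0 < R := by linarith
  have hq0 : 0 < Real.sqrt R := Real.sqrt_pos.2 hR0
  have hq1 : 1 ≤ Real.sqrt R := Real.one_le_sqrt.2 hR
  have hqq : Real.sqrt R * Real.sqrt R = R := Real.mul_self_sqrt hR0.le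
  set q := Real.sqrt R with hq
  obtain ⟨h1, h2, h3⟩ := hT R hR0 _ _ ha hp
  rw [← hx] at h1 h2 h3
  have na : ‖(R * q)⁻¹ • α‖ = (R * q)⁻¹ * ‖α‖ := by
    rw [norm_smul, Real.norm_of_nonneg (by positivity)]
  have nw : ‖q⁻¹ • v‖ = q⁻¹ * ‖v‖ := by
    rw [norm_smul, Real.norm_of_nonneg (by positivity)]
  have e0 : R * ((R * q)⁻¹ * ‖α‖) + q⁻¹ * ‖v‖ = q⁻¹ * (‖α‖ + ‖v‖) := by
    field_simp
  simp only [na, nw, e0] at h1 h2 h3
  have e1 : C * ((R * q)⁻¹ * ‖α‖) * (q⁻¹ * (‖α‖ + ‖v‖)) = C * ‖α‖ * (‖α‖ + ‖v‖) / R / R := by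
    have : (R * q)⁻¹ * q⁻¹ = 1 / R / R := by
      rw [← mul_inv, mul_assoc, hqq, one_div, mul_inv, div_eq_mul_inv]
    calc C * ((R * q)⁻¹ * ‖α‖) * (q⁻¹ * (‖α‖ + ‖v‖)) = C * ‖α‖ * (‖α‖ + ‖v‖) * ((R * q)⁻¹ * q⁻¹) := by ring
      _ = _ := by rw [this]; ring
  rw [e1] at h2 h3
  set M := C * ‖α‖ * (‖α‖ + ‖v‖) / R with hM
  have hM0 : 0 ≤ M := by positivity
  have hMR : M / R ≤ M := div_le_self hM0 hR
  refine ⟨?_, ?_, ?_, ?_⟩
  · rw [norm_smul, Real.norm_of_nonneg hq0.le]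
    calc c * (‖α‖ + ‖v‖) = q * (c * (q⁻¹ * (‖α‖ + ‖v‖))) := by field_simp
      _ ≤ q * ‖pm φ x‖ := mul_le_mul_of_nonneg_left h1 hq0.le
  · have k1 : hz ψ (zy φ x) - R • η = hz ψ (zy φ x - cmb ψ (R • η) s) := by
      rw [cnvB_hz_sub, cnvB_hz_cmb]
    have k2 : R⁻¹ • hz ψ (zy φ x) - η = R⁻¹ • (hz ψ (zy φ x) - R • η) := by
      rw [smul_sub, smul_smul, inv_mul_cancel₀ hR0.ne', one_smul]
    rw [k2, k1, norm_smul, Real.norm_of_nonneg (by positivity)]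
    calc R⁻¹ * ‖hz ψ (zy φ x - cmb ψ (R • η) s)‖ ≤ 1 * ‖hz ψ (zy φ x - cmb ψ (R • η) s)‖ :=
          mul_le_mul_of_nonneg_right (inv_le_one_of_one_le₀ hR) (norm_nonneg _)
      _ ≤ ‖zy φ x - cmb ψ (R • η) s‖ := by rw [one_mul]; exact cnvB_hz_le ψ _
      _ ≤ M := h2.trans hMR
  · have k1 : hs ψ (zy φ x) - s = hs ψ (zy φ x - cmb ψ (R • η) s) := by
      rw [cnvB_hs_sub, cnvB_hs_cmb]
    rw [k1]
    exact (cnvB_hs_le ψ _).trans (h2.trans hMR)
  · have k1 : q • xi (fun i => S.Dy φ i (cmb ψ (R • η) s)) (q⁻¹ • v) ((R * q)⁻¹ • α) =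
        xi (fun i => S.Dy φ i (cmb ψ η (R⁻¹ • s))) v α := by
      rw [cnvB_xi S φ _ v α q (R * q)⁻¹ hq0.ne']
      have : (q * (R * q)⁻¹) • cmb ψ (R • η) s = cmb ψ η (R⁻¹ • s) := by
        have e : q * (R * q)⁻¹ = R⁻¹ := by field_simp
        rw [e, cnvB_cmb_smul, smul_smul, inv_mul_cancel₀ hR0.ne', one_smul]
      rw [this]
    rw [← k1, ← smul_sub, norm_smul, Real.norm_of_nonneg hq0.le]
    have hqR : q ≤ R := by nlinarith
    calc q * ‖pm φ x - xi (fun i => S.Dy φ i (cmb ψ (R • η) s)) (q⁻¹ • v) ((R * q)⁻¹ • α)‖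
        ≤ R * (M / R) := mul_le_mul hqR h3 (norm_nonneg _) hR0.le
      _ = M := by field_simp

end Vale.Agent.P353.Z.AN
end

section

/-! # P353, all `N`, block GL6: convergence of the orbit average -/

open MeasureTheory Filter Topology
open scoped ContDiff

namespace Vale.Agent.P353.Z.AN

variable {d dh dm r ds : ℕ} {F : Type*} [NormedAddCommGroup F] [InnerProductSpace ℂ F]

lemma cnv_hz_cmb (ψ : Spz r ds dh) (η : Cfg r) (s : Cfg ds) : hz ψ (cmb ψ η s) = η := by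
  ext p
  simp [hz, cmb]

lemma cnv_hs_cmb (ψ : Spz r ds dh) (η : Cfg r) (s : Cfg ds) : hs ψ (cmb ψ η s) = s := by
  ext p
  simp [hs, cmb]

lemma cnv_cmb (ψ : Spz r ds dh) (y : Cfg dh) : cmb ψ (hz ψ y) (hs ψ y) = y := by
  ext p
  obtain ⟨i, A⟩ := p
  obtain ⟨q, rfl⟩ := ψ.surjective A
  rcases q with a | b <;> simp [cmb, hz, hs]

lemma cnv_norm_sq (ψ : Spz r ds dh) (y : Cfg dh) : ‖y‖ ^ 2 = ‖hz ψ y‖ ^ 2 + ‖hs ψ y‖ ^ 2 := by
  rw [EuclideanSpace.norm_sq_eq, EuclideanSpace.norm_sq_eq, EuclideanSpace.norm_sq_eq,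
    Fintype.sum_prod_type, Fintype.sum_prod_type, Fintype.sum_prod_type, ← Finset.sum_add_distrib]
  refine Finset.sum_congr rfl fun i _ => ?_
  rw [← ψ.sum_comp, Fintype.sum_sum_type]
  rfl

lemma cnv_hz_le (ψ : Spz r ds dh) (y : Cfg dh) : ‖hz ψ y‖ ≤ ‖y‖ := by
  refine le_of_sq_le_sq ?_ (norm_nonneg _)
  rw [cnv_norm_sq ψ y]
  nlinarith [sq_nonneg ‖hs ψ y‖]

lemma cnv_hs_le (ψ : Spz r ds dh) (y : Cfg dh) : ‖hs ψ y‖ ≤ ‖y‖ := by
  refine le_of_sq_le_sq ?_ (norm_nonneg _)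
  rw [cnv_norm_sq ψ y]
  nlinarith [sq_nonneg ‖hz ψ y‖]

lemma cnv_cmb_le (ψ : Spz r ds dh) (η : Cfg r) (s : Cfg ds) : ‖cmb ψ η s‖ ≤ ‖η‖ + ‖s‖ := by
  refine le_of_sq_le_sq ?_ (by positivity)
  rw [cnv_norm_sq ψ, cnv_hz_cmb, cnv_hs_cmb]
  nlinarith [mul_nonneg (norm_nonneg η) (norm_nonneg s)]

lemma cnv_hz_sub (ψ : Spz r ds dh) (y y' : Cfg dh) : hz ψ (y - y') = hz ψ y - hz ψ y' := rfl

lemma cnv_hs_sub (ψ : Spz r ds dh) (y y' : Cfg dh) : hs ψ (y - y') = hs ψ y - hs ψ y' := rfl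

lemma cnv_hz_smul (ψ : Spz r ds dh) (t : ℝ) (y : Cfg dh) : hz ψ (t • y) = t • hz ψ y := rfl

lemma cnv_cmb_smul (ψ : Spz r ds dh) (t : ℝ) (η : Cfg r) (s : Cfg ds) :
    cmb ψ (t • η) (t • s) = t • cmb ψ η s := by
  ext p
  obtain ⟨i, A⟩ := p
  obtain ⟨q, rfl⟩ := ψ.surjective A
  rcases q with a | b <;> simp [cmb]

lemma cnv_cmb_sub (ψ : Spz r ds dh) (η η' : Cfg r) (s s' : Cfg ds) :
    cmb ψ η s - cmb ψ η' s' = cmb ψ (η - η') (s - s') := by
  ext p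
  obtain ⟨i, A⟩ := p
  obtain ⟨q, rfl⟩ := ψ.surjective A
  rcases q with a | b <;> simp [cmb]

lemma cnv_cont_cmb (ψ : Spz r ds dh) : Continuous fun q : Cfg r × Cfg ds => cmb ψ q.1 q.2 := by
  unfold cmb
  refine (PiLp.continuous_toLp 2 _).comp (continuous_pi fun p => ?_)
  rcases h : ψ.symm p.2 with A | B
  · simp only [Sum.elim_inl]
    fun_prop
  · simp only [Sum.elim_inr]
    fun_prop

lemma cnv_cont_hz (ψ : Spz r ds dh) : Continuous (hz ψ) := by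
  unfold hz
  exact (PiLp.continuous_toLp 2 _).comp (continuous_pi fun p => by fun_prop)

lemma cnv_cont_hs (ψ : Spz r ds dh) : Continuous (hs ψ) := by
  unfold hs
  exact (PiLp.continuous_toLp 2 _).comp (continuous_pi fun p => by fun_prop)

lemma cnv_cont_pm (φ : Spl dh dm d) : Continuous (pm φ) := by
  unfold pm
  exact (PiLp.continuous_toLp 2 _).comp (continuous_pi fun p => by fun_prop)

lemma cnv_cont_zy (φ : Spl dh dm d) : Continuous (zy φ) := by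
  unfold zy
  exact (PiLp.continuous_toLp 2 _).comp (continuous_pi fun p => by fun_prop)

lemma cnv_cont_exm (φ : Spl dh dm d) : Continuous (exm φ) := by
  unfold exm
  refine continuous_pi fun A => ?_
  rcases h : φ.symm A with a | b
  · simp only [Sum.elim_inl]
    exact continuous_const
  · simp only [Sum.elim_inr]
    fun_prop

lemma cnv_cont_tub (S : Setup d F) (φ : Spl dh dm d) :
    Continuous fun p : EuclideanSpace ℝ (Fin dm) × (Cfg dh × Wsp dm) => tub S φ p.1 p.2 := by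
  have h1 := (dexp_stmt S).2.1.continuous
  exact h1.comp (((cnv_cont_exm φ).comp continuous_fst).prodMk ((nrm_continuous_emb φ).comp continuous_snd))

lemma cnv_cont_xi (S : Setup d F) (φ : Spl dh dm d) :
    Continuous fun p : Cfg dh × Wsp dm × EuclideanSpace ℝ (Fin dm) => xi (fun i => S.Dy φ i p.1) p.2.1 p.2.2 := by
  unfold xi
  refine (PiLp.continuous_toLp 2 _).comp (continuous_pi fun q => ?_)
  obtain ⟨i, B⟩ := q
  refine Continuous.sub ?_ ?_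
  · unfold wt
    refine Fin.lastCases ?_ (fun j => ?_) i
    · simp only [Fin.lastCases_last]
      exact continuous_const
    · simp only [Fin.lastCases_castSucc]
      fun_prop
  · refine continuous_finsetSum _ fun C _ => Continuous.mul ?_ (by fun_prop)
    show Continuous fun p : Cfg dh × Wsp dm × EuclideanSpace ℝ (Fin dm) =>
      ∑ A, S.f (φ (Sum.inr B)) (φ (Sum.inl A)) (φ (Sum.inr C)) * p.1 (i, A)
    fun_prop

/-- scaling of `xi` -/
lemma cnv_xi_smul (S : Setup d F) (φ : Spl dh dm d) (t k : ℝ) (ht : 0 < t) (y : Cfg dh) (w : Wsp dm)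
    (a : EuclideanSpace ℝ (Fin dm)) :
    t • xi (fun i => S.Dy φ i y) (t⁻¹ • w) (k • a) = xi (fun i => S.Dy φ i ((t * k) • y)) w a := by
  have hD : ∀ i B C, S.Dy φ i ((t * k) • y) B C = (t * k) * S.Dy φ i y B C := by
    intro i B C
    show ∑ A, S.f (φ (Sum.inr B)) (φ (Sum.inl A)) (φ (Sum.inr C)) * ((t * k) • y) (i, A) =
      (t * k) * ∑ A, S.f (φ (Sum.inr B)) (φ (Sum.inl A)) (φ (Sum.inr C)) * y (i, A)
    rw [Finset.mul_sum]
    refine Finset.sum_congr rfl fun A _ => ?_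
    rw [PiLp.smul_apply, smul_eq_mul]
    ring
  have hw : ∀ i B, t * wt (t⁻¹ • w) i B = wt w i B := by
    intro i B
    unfold wt
    refine Fin.lastCases ?_ (fun j => ?_) i
    · simp only [Fin.lastCases_last, mul_zero]
    · simp only [Fin.lastCases_castSucc, PiLp.smul_apply, smul_eq_mul]
      field_simp
  ext p
  obtain ⟨i, B⟩ := p
  show t * (wt (t⁻¹ • w) i B - ∑ C, S.Dy φ i y B C * (k • a) C) =
    wt w i B - ∑ C, S.Dy φ i ((t * k) • y) B C * a C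
  rw [mul_sub, hw, Finset.mul_sum]
  congr 1
  refine Finset.sum_congr rfl fun C _ => ?_
  rw [hD, PiLp.smul_apply, smul_eq_mul]
  ring

/-! ### the rescaled integrand -/

/-- slice point with scaled coordinates -/
noncomputable def cnvP (ψ : Spz r ds dh) (R : ℝ) (q : Cfg r × Cfg ds × Wsp dm) : Cfg dh × Wsp dm :=
  (cmb ψ (R • q.1) q.2.1, (Real.sqrt R)⁻¹ • q.2.2)

/-- point of the tube -/
noncomputable def cnvX (S : Setup d F) (φ : Spl dh dm d) (ψ : Spz r ds dh) (R : ℝ) (q : Cfg r × Cfg ds × Wsp dm)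
    (α : EuclideanSpace ℝ (Fin dm)) : Cfg d :=
  tub S φ ((R * Real.sqrt R)⁻¹ • α) (cnvP ψ R q)

/-- argument of `b` -/
noncomputable def cnvA (S : Setup d F) (φ : Spl dh dm d) (ψ : Spz r ds dh) (R : ℝ) (q : Cfg r × Cfg ds × Wsp dm)
    (α : EuclideanSpace ℝ (Fin dm)) : Cfg r × Cfg ds × Cfg dm :=
  (R⁻¹ • hz ψ (zy φ (cnvX S φ ψ R q α)), hs ψ (zy φ (cnvX S φ ψ R q α)), Real.sqrt R • pm φ (cnvX S φ ψ R q α))

/-- first integrand, without the cutoff -/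
noncomputable def cnvT (S : Setup d F) (φ : Spl dh dm d) (j : EuclideanSpace ℝ (Fin dm) → ℝ) (R : ℝ)
    (α : EuclideanSpace ℝ (Fin dm)) (v : F) : F :=
  ((j ((R * Real.sqrt R)⁻¹ • α) : ℝ) : ℂ) • spn S (-(exm φ ((R * Real.sqrt R)⁻¹ • α))) v

noncomputable def cnvG1 (S : Setup d F) (φ : Spl dh dm d) (ψ : Spz r ds dh) (j : EuclideanSpace ℝ (Fin dm) → ℝ)
    (ρ : ℝ) (b : Cfg r × Cfg ds × Cfg dm → F) (R : ℝ) (q : Cfg r × Cfg ds × Wsp dm)
    (α : EuclideanSpace ℝ (Fin dm)) : F :=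
  ((Real.sqrt |(S.Dy φ 8 (cmb ψ q.1 (R⁻¹ • q.2.1))).det| : ℝ) : ℂ) •
    (Metric.ball (0 : EuclideanSpace ℝ (Fin dm)) (ρ * (R * Real.sqrt R))).indicator
      (fun α => cnvT S φ j R α (b (cnvA S φ ψ R q α))) α

noncomputable def cnvG2 (S : Setup d F) (φ : Spl dh dm d) (ψ : Spz r ds dh)
    (b : Cfg r × Cfg ds × Cfg dm → F) (q : Cfg r × Cfg ds × Wsp dm)
    (α : EuclideanSpace ℝ (Fin dm)) : F :=
  ((Real.sqrt |(Dz S φ ψ q.1 8).det| : ℝ) : ℂ) • b (q.1, q.2.1, xi (Dz S φ ψ q.1) q.2.2 α)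

/-- the estimates of the tube coordinates in scaled form -/
def cnvE (S : Setup d F) (φ : Spl dh dm d) (ψ : Spz r ds dh) (z₀ : Cfg r) (ε₀ ρ₀ c C : ℝ) : Prop :=
  ∀ (R : ℝ), 1 ≤ R → ∀ (q : Cfg r × Cfg ds × Wsp dm) (α : EuclideanSpace ℝ (Fin dm)),
    ‖(R * Real.sqrt R)⁻¹ • α‖ < ρ₀ → cnvP ψ R q ∈ Nb (cmb ψ z₀ 0) dm R ε₀ →
    c * (‖α‖ + ‖q.2.2‖) ≤ ‖Real.sqrt R • pm φ (cnvX S φ ψ R q α)‖ ∧
    ‖R⁻¹ • hz ψ (zy φ (cnvX S φ ψ R q α)) - q.1‖ ≤ C * ‖α‖ * (‖α‖ + ‖q.2.2‖) / R ∧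
    ‖hs ψ (zy φ (cnvX S φ ψ R q α)) - q.2.1‖ ≤ C * ‖α‖ * (‖α‖ + ‖q.2.2‖) / R ∧
    ‖Real.sqrt R • pm φ (cnvX S φ ψ R q α) - xi (fun i => S.Dy φ i (cmb ψ q.1 (R⁻¹ • q.2.1))) q.2.2 α‖ ≤
      C * ‖α‖ * (‖α‖ + ‖q.2.2‖) / R

lemma cnv_kto : Tendsto (fun R : ℝ => (R * Real.sqrt R)⁻¹) atTop (𝓝 0) := by
  refine Tendsto.inv_tendsto_atTop ?_
  exact tendsto_id.atTop_mul_atTop₀ Real.tendsto_sqrt_atTop

lemma cnv_mem (ψ : Spz r ds dh) (z₀ : Cfg r) (ε : ℝ) (hε : 0 < ε) (q : Cfg r × Cfg ds × Wsp dm)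
    (hq : ‖q.1 - z₀‖ < ε) : ∀ᶠ R : ℝ in atTop, cnvP ψ R q ∈ Nb (cmb ψ z₀ 0) dm R ε := by
  have h1 : Tendsto (fun R : ℝ => (ε - ‖q.1 - z₀‖) * R) atTop atTop :=
    tendsto_id.const_mul_atTop (sub_pos.2 hq)
  have h2 : Tendsto (fun R : ℝ => ε * R * Real.sqrt R) atTop atTop :=
    (tendsto_id.const_mul_atTop hε).atTop_mul_atTop₀ Real.tendsto_sqrt_atTop
  filter_upwards [h1.eventually_gt_atTop ‖q.2.1‖, h2.eventually_gt_atTop ‖q.2.2‖, eventually_gt_atTop (0 : ℝ)]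
    with R h3 h4 h5
  refine ⟨?_, ?_⟩
  · have h6 : cmb ψ (R • q.1) q.2.1 - R • cmb ψ z₀ 0 = cmb ψ (R • (q.1 - z₀)) q.2.1 := by
      rw [← cnv_cmb_smul, cnv_cmb_sub, smul_zero, sub_zero, smul_sub]
    show ‖cmb ψ (R • q.1) q.2.1 - R • cmb ψ z₀ 0‖ < ε * R
    rw [h6]
    refine (cnv_cmb_le _ _ _).trans_lt ?_
    rw [norm_smul, Real.norm_of_nonneg h5.le]
    nlinarith
  · show ‖(Real.sqrt R)⁻¹ • q.2.2‖ < ε * R
    have hs : 0 < Real.sqrt R := Real.sqrt_pos.2 h5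
    rw [norm_smul, norm_inv, Real.norm_of_nonneg hs.le, inv_mul_lt_iff₀ hs]
    linarith

/-- lower bound for `xi` -/
lemma cnv_lb (S : Setup d F) (φ : Spl dh dm d) (ψ : Spz r ds dh) (z₀ : Cfg r) (ε₀ ρ₀ c C : ℝ) (hρ₀ : 0 < ρ₀)
    (hε₀ : 0 < ε₀) (hE : cnvE S φ ψ z₀ ε₀ ρ₀ c C) (q : Cfg r × Cfg ds × Wsp dm) (hq : ‖q.1 - z₀‖ < ε₀)
    (α : EuclideanSpace ℝ (Fin dm)) :
    c * (‖α‖ + ‖q.2.2‖) ≤ ‖xi (Dz S φ ψ q.1) q.2.2 α‖ := by
  set K := C * ‖α‖ * (‖α‖ + ‖q.2.2‖) with hK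
  have h1 : Tendsto (fun R : ℝ => ‖xi (Dz S φ ψ q.1) q.2.2 α‖ + K / R) atTop
      (𝓝 (‖xi (Dz S φ ψ q.1) q.2.2 α‖ + 0)) :=
    tendsto_const_nhds.add (tendsto_const_nhds.div_atTop tendsto_id)
  rw [add_zero] at h1
  refine ge_of_tendsto h1 ?_
  have h2 : ∀ᶠ R : ℝ in atTop, ‖(R * Real.sqrt R)⁻¹ • α‖ < ρ₀ := by
    have : Tendsto (fun R : ℝ => ‖(R * Real.sqrt R)⁻¹ • α‖) atTop (𝓝 ‖(0 : ℝ) • α‖) :=
      (cnv_kto.smul_const α).norm
    rw [zero_smul, norm_zero] at this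
    exact this.eventually_lt_const hρ₀
  have h3 := cnv_mem ψ z₀ ε₀ hε₀ ((q.1, 0, q.2.2) : Cfg r × Cfg ds × Wsp dm) hq
  filter_upwards [h2, h3, eventually_ge_atTop (1 : ℝ)] with R h4 h5 h6
  obtain ⟨e1, -, -, e4⟩ := hE R h6 (q.1, 0, q.2.2) α h4 h5
  simp only [smul_zero] at e1 e4
  have h7 : (fun i => S.Dy φ i (cmb ψ q.1 0)) = Dz S φ ψ q.1 := rfl
  rw [h7] at e4
  refine e1.trans ?_
  have h8 := norm_le_norm_add_norm_sub' (Real.sqrt R • pm φ (cnvX S φ ψ R (q.1, 0, q.2.2) α))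
    (xi (Dz S φ ψ q.1) q.2.2 α)
  linarith

lemma cnv_G1 (S : Setup d F) (φ : Spl dh dm d) (ψ : Spz r ds dh) (z₀ : Cfg r) (ε₀ ρ₀ c C : ℝ) (hc : 0 < c)
    (hC : 0 < C) (hE : cnvE S φ ψ z₀ ε₀ ρ₀ c C) (hEq : ∀ a v, ‖spn S a v‖ = ‖v‖) (ε ρ : ℝ) (hεε₀ : ε ≤ ε₀)
    (hρρ₀ : ρ ≤ ρ₀) (j : EuclideanSpace ℝ (Fin dm) → ℝ) (Jm : ℝ) (hJ0 : 0 ≤ Jm) (hJ : ∀ a, ‖a‖ ≤ ρ → |j a| ≤ Jm)
    (b : Cfg r × Cfg ds × Cfg dm → F) (L Bb : ℝ) (hL0 : 0 ≤ L) (hL : ∀ q, b q ≠ 0 → ‖q‖ ≤ L) (hB0 : 0 ≤ Bb)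
    (hB : ∀ q, ‖b q‖ ≤ Bb) (M Dm : ℝ) (hM : M = L + L / c + C * (L / c) * (L / c)) (hD0 : 0 ≤ Dm)
    (hD : ∀ y : Cfg dh, ‖y‖ ≤ 2 * M → Real.sqrt |(S.Dy φ 8 y).det| ≤ Dm) (R : ℝ) (hR : 1 ≤ R)
    (q : Cfg r × Cfg ds × Wsp dm) (α : EuclideanSpace ℝ (Fin dm))
    (hq : cnvP ψ R q ∈ Nb (cmb ψ z₀ 0) dm R ε) :
    (cnvG1 S φ ψ j ρ b R q α ≠ 0 → ‖α‖ ≤ M ∧ ‖q‖ ≤ M) ∧ ‖cnvG1 S φ ψ j ρ b R q α‖ ≤ Dm * (Jm * Bb) := by
  have hR0 : 0 < R := by linarith
  have hs0 : 0 < Real.sqrt R := Real.sqrt_pos.2 hR0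
  have hk0 : 0 < R * Real.sqrt R := mul_pos hR0 hs0
  have hLc : 0 ≤ L / c := div_nonneg hL0 hc.le
  have hq' : cnvP ψ R q ∈ Nb (cmb ψ z₀ 0) dm R ε₀ :=
    ⟨hq.1.trans_le (mul_le_mul_of_nonneg_right hεε₀ hR0.le), hq.2.trans_le (mul_le_mul_of_nonneg_right hεε₀ hR0.le)⟩
  have key : cnvG1 S φ ψ j ρ b R q α ≠ 0 → ‖(R * Real.sqrt R)⁻¹ • α‖ < ρ ∧ ‖α‖ ≤ M ∧ ‖q‖ ≤ M := by
    intro h
    have h1 : α ∈ Metric.ball (0 : EuclideanSpace ℝ (Fin dm)) (ρ * (R * Real.sqrt R)) := by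
      by_contra hcon
      apply h
      unfold cnvG1
      rw [Set.indicator_of_notMem hcon, smul_zero]
    have h2 : b (cnvA S φ ψ R q α) ≠ 0 := by
      intro hcon
      apply h
      unfold cnvG1
      rw [Set.indicator_of_mem h1]
      unfold cnvT
      rw [hcon, map_zero, smul_zero, smul_zero]
    have h3 : ‖(R * Real.sqrt R)⁻¹ • α‖ < ρ := by
      rw [norm_smul, norm_inv, Real.norm_of_nonneg hk0.le, inv_mul_lt_iff₀ hk0, mul_comm]
      rw [Metric.mem_ball, dist_zero_right] at h1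
      linarith
    obtain ⟨e1, e2, e3, -⟩ := hE R hR q α (h3.trans_le hρρ₀) hq'
    have h4 := hL _ h2
    rw [Prod.norm_def, Prod.norm_def] at h4
    have h5 : ‖R⁻¹ • hz ψ (zy φ (cnvX S φ ψ R q α))‖ ≤ L := (le_max_left _ _).trans h4
    have h6 : ‖hs ψ (zy φ (cnvX S φ ψ R q α))‖ ≤ L :=
      (le_max_left _ _).trans ((le_max_right _ _).trans h4)
    have h7 : ‖Real.sqrt R • pm φ (cnvX S φ ψ R q α)‖ ≤ L :=
      (le_max_right _ _).trans ((le_max_right _ _).trans h4)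
    have h8 : ‖α‖ + ‖q.2.2‖ ≤ L / c := by
      rw [le_div_iff₀ hc]
      linarith
    have hα : ‖α‖ ≤ L / c := by linarith [norm_nonneg q.2.2]
    have hω : ‖q.2.2‖ ≤ L / c := by linarith [norm_nonneg α]
    have h9 : C * ‖α‖ * (‖α‖ + ‖q.2.2‖) / R ≤ C * (L / c) * (L / c) := by
      rw [div_le_iff₀ hR0]
      have i1 : C * ‖α‖ * (‖α‖ + ‖q.2.2‖) ≤ C * (L / c) * (L / c) := by gcongr
      have i2 : 0 ≤ C * (L / c) * (L / c) := by positivity
      nlinarith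
    have h10 : 0 ≤ C * (L / c) * (L / c) := by positivity
    refine ⟨h3, by rw [hM]; linarith, ?_⟩
    rw [Prod.norm_def, Prod.norm_def]
    refine max_le ?_ (max_le ?_ ?_)
    · have := norm_le_norm_add_norm_sub' q.1 (R⁻¹ • hz ψ (zy φ (cnvX S φ ψ R q α)))
      rw [norm_sub_rev] at this
      rw [hM]; linarith
    · have := norm_le_norm_add_norm_sub' q.2.1 (hs ψ (zy φ (cnvX S φ ψ R q α)))
      rw [norm_sub_rev] at this
      rw [hM]; linarith
    · rw [hM]; linarith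
  refine ⟨fun h => (key h).2, ?_⟩
  by_cases h : cnvG1 S φ ψ j ρ b R q α = 0
  · rw [h, norm_zero]; positivity
  · obtain ⟨k1, k2, k3⟩ := key h
    unfold cnvG1
    have hn : ‖(Metric.ball (0 : EuclideanSpace ℝ (Fin dm)) (ρ * (R * Real.sqrt R))).indicator
        (fun α => cnvT S φ j R α (b (cnvA S φ ψ R q α))) α‖ ≤ Jm * Bb := by
      refine (norm_indicator_le_norm_self _ _).trans ?_
      unfold cnvT
      rw [norm_smul, hEq, Complex.norm_real, Real.norm_eq_abs]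
      exact mul_le_mul (hJ _ k1.le) (hB _) (norm_nonneg _) hJ0
    rw [norm_smul, Complex.norm_real, Real.norm_of_nonneg (Real.sqrt_nonneg _)]
    refine mul_le_mul (hD _ ?_) hn (norm_nonneg _) hD0
    rw [Prod.norm_def, Prod.norm_def] at k3
    have m1 : ‖q.1‖ ≤ M := (le_max_left _ _).trans k3
    have m2 : ‖q.2.1‖ ≤ M := (le_max_left _ _).trans ((le_max_right _ _).trans k3)
    refine (cnv_cmb_le _ _ _).trans ?_
    have m3 : ‖R⁻¹ • q.2.1‖ ≤ ‖q.2.1‖ := by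
      rw [norm_smul, norm_inv, Real.norm_of_nonneg hR0.le]
      exact mul_le_of_le_one_left (norm_nonneg _) (inv_le_one_of_one_le₀ hR)
    linarith

lemma cnv_G2 (S : Setup d F) (φ : Spl dh dm d) (ψ : Spz r ds dh) (z₀ : Cfg r) (ε₀ ρ₀ c C : ℝ) (hc : 0 < c)
    (hC : 0 < C) (hρ₀ : 0 < ρ₀) (hE : cnvE S φ ψ z₀ ε₀ ρ₀ c C) (ε : ℝ) (hε : 0 < ε) (hεε₀ : ε ≤ ε₀)
    (b : Cfg r × Cfg ds × Cfg dm → F) (L Bb : ℝ) (hL0 : 0 ≤ L) (hL : ∀ q, b q ≠ 0 → ‖q‖ ≤ L) (hB0 : 0 ≤ Bb)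
    (hB : ∀ q, ‖b q‖ ≤ Bb) (hbz : ∀ q, b q ≠ 0 → ‖q.1 - z₀‖ ≤ ε / 2)
    (M Dm : ℝ) (hM : M = L + L / c + C * (L / c) * (L / c)) (hD0 : 0 ≤ Dm)
    (hD : ∀ y : Cfg dh, ‖y‖ ≤ 2 * M → Real.sqrt |(S.Dy φ 8 y).det| ≤ Dm)
    (q : Cfg r × Cfg ds × Wsp dm) (α : EuclideanSpace ℝ (Fin dm)) :
    (cnvG2 S φ ψ b q α ≠ 0 → ‖α‖ ≤ M ∧ ‖q‖ ≤ M) ∧ ‖cnvG2 S φ ψ b q α‖ ≤ Dm * Bb := by
  have hLc : 0 ≤ L / c := div_nonneg hL0 hc.le
  have h10 : 0 ≤ C * (L / c) * (L / c) := by positivity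
  have key : cnvG2 S φ ψ b q α ≠ 0 → ‖α‖ ≤ M ∧ ‖q‖ ≤ M := by
    intro h
    have h2 : b (q.1, q.2.1, xi (Dz S φ ψ q.1) q.2.2 α) ≠ 0 := by
      intro hcon
      apply h
      unfold cnvG2
      rw [hcon, smul_zero]
    have h3 := hbz _ h2
    have h3' : ‖q.1 - z₀‖ < ε₀ := by
      have : ‖q.1 - z₀‖ ≤ ε / 2 := h3
      linarith
    have h1 := cnv_lb S φ ψ z₀ ε₀ ρ₀ c C hρ₀ (hε.trans_le hεε₀) hE q h3' α
    have h4 := hL _ h2
    rw [Prod.norm_def, Prod.norm_def] at h4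
    have h5 : ‖q.1‖ ≤ L := (le_max_left _ _).trans h4
    have h6 : ‖q.2.1‖ ≤ L := (le_max_left _ _).trans ((le_max_right _ _).trans h4)
    have h7 : ‖xi (Dz S φ ψ q.1) q.2.2 α‖ ≤ L := (le_max_right _ _).trans ((le_max_right _ _).trans h4)
    have h8 : ‖α‖ + ‖q.2.2‖ ≤ L / c := by
      rw [le_div_iff₀ hc]
      linarith
    have hα : ‖α‖ ≤ L / c := by linarith [norm_nonneg q.2.2]
    have hω : ‖q.2.2‖ ≤ L / c := by linarith [norm_nonneg α]
    refine ⟨by rw [hM]; linarith, ?_⟩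
    rw [Prod.norm_def, Prod.norm_def]
    refine max_le ?_ (max_le ?_ ?_) <;> rw [hM] <;> linarith
  refine ⟨key, ?_⟩
  by_cases h : cnvG2 S φ ψ b q α = 0
  · rw [h, norm_zero]; positivity
  · obtain ⟨k2, k3⟩ := key h
    unfold cnvG2
    rw [norm_smul, Complex.norm_real, Real.norm_of_nonneg (Real.sqrt_nonneg _)]
    refine mul_le_mul (hD _ ?_) (hB _) (norm_nonneg _) hD0
    rw [Prod.norm_def, Prod.norm_def] at k3
    have m1 : ‖q.1‖ ≤ M := (le_max_left _ _).trans k3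
    refine (cnv_cmb_le _ _ _).trans ?_
    rw [norm_zero]
    linarith [norm_nonneg q.1]

/-- pointwise limit of the integrand -/
lemma cnv_lim (S : Setup d F) (φ : Spl dh dm d) (ψ : Spz r ds dh) (z₀ : Cfg r) (ε₀ ρ₀ c C : ℝ)
    (hC : 0 < C) (hρ₀ : 0 < ρ₀) (hE : cnvE S φ ψ z₀ ε₀ ρ₀ c C) (hcs : Continuous fun a => spn S a)
    (hs1 : spn S 0 = 1) (ε ρ : ℝ) (hεε₀ : ε ≤ ε₀) (hρ : 0 < ρ)
    (j : EuclideanSpace ℝ (Fin dm) → ℝ) (hj : Continuous j) (hj1 : j 0 = 1)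
    (b : Cfg r × Cfg ds × Cfg dm → F) (hb : Continuous b)
    (q : Cfg r × Cfg ds × Wsp dm) (α : EuclideanSpace ℝ (Fin dm)) :
    Tendsto (fun R : ℝ => (({q | cnvP ψ R q ∈ Nb (cmb ψ z₀ 0) dm R ε} : Set _).indicator
      (fun q => cnvG1 S φ ψ j ρ b R q α - cnvG2 S φ ψ b q α) q)) atTop (𝓝 0) := by
  classical
  set A0 : Cfg r × Cfg ds × Cfg dm := (q.1, q.2.1, xi (Dz S φ ψ q.1) q.2.2 α) with hA0
  -- argument
  set A : ℝ → Cfg r × Cfg ds × Cfg dm := fun R =>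
    if cnvP ψ R q ∈ Nb (cmb ψ z₀ 0) dm R ε then cnvA S φ ψ R q α else A0 with hA
  have hk : Tendsto (fun R : ℝ => (R * Real.sqrt R)⁻¹ • α) atTop (𝓝 0) := by
    have := cnv_kto.smul_const α
    rwa [zero_smul] at this
  have hsm : ∀ᶠ R : ℝ in atTop, ‖(R * Real.sqrt R)⁻¹ • α‖ < ρ₀ := by
    have := hk.norm
    rw [norm_zero] at this
    exact this.eventually_lt_const hρ₀
  set K := C * ‖α‖ * (‖α‖ + ‖q.2.2‖) with hK
  have hK0 : 0 ≤ K := by positivity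
  have hinv : Tendsto (fun R : ℝ => cmb ψ q.1 (R⁻¹ • q.2.1)) atTop (𝓝 (cmb ψ q.1 0)) := by
    have h1 : Tendsto (fun R : ℝ => (q.1, R⁻¹ • q.2.1)) atTop (𝓝 (q.1, (0 : Cfg ds))) := by
      refine tendsto_const_nhds.prodMk_nhds ?_
      have := (tendsto_inv_atTop_zero (𝕜 := ℝ)).smul_const q.2.1
      rwa [zero_smul] at this
    exact ((cnv_cont_cmb ψ).tendsto _).comp h1
  have hxi : Tendsto (fun R : ℝ => ‖xi (fun i => S.Dy φ i (cmb ψ q.1 (R⁻¹ • q.2.1))) q.2.2 α -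
      xi (Dz S φ ψ q.1) q.2.2 α‖) atTop (𝓝 0) := by
    have h1 : Tendsto (fun R : ℝ => (cmb ψ q.1 (R⁻¹ • q.2.1), q.2.2, α)) atTop (𝓝 (cmb ψ q.1 0, q.2.2, α)) :=
      hinv.prodMk_nhds tendsto_const_nhds
    have h2 := ((cnv_cont_xi S φ).tendsto _).comp h1
    have h3 := (h2.sub_const (xi (Dz S φ ψ q.1) q.2.2 α)).norm
    have h4 : xi (fun i => S.Dy φ i (cmb ψ q.1 0, q.2.2, α).1) (cmb ψ q.1 0, q.2.2, α).2.1
        (cmb ψ q.1 0, q.2.2, α).2.2 - xi (Dz S φ ψ q.1) q.2.2 α = 0 := sub_self _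
    rw [h4, norm_zero] at h3
    exact h3
  have herr : Tendsto (fun R : ℝ => K / R + ‖xi (fun i => S.Dy φ i (cmb ψ q.1 (R⁻¹ • q.2.1))) q.2.2 α -
      xi (Dz S φ ψ q.1) q.2.2 α‖) atTop (𝓝 0) := by
    have := (tendsto_const_nhds (x := K)).div_atTop (tendsto_id (α := ℝ) (x := atTop))
    simpa using this.add hxi
  have hAt : Tendsto A atTop (𝓝 A0) := by
    rw [tendsto_iff_dist_tendsto_zero]
    refine squeeze_zero' (Eventually.of_forall fun R => dist_nonneg) ?_ herr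
    filter_upwards [hsm, eventually_ge_atTop (1 : ℝ)] with R h1 h2
    have hR0 : 0 < R := by linarith
    have hKR : 0 ≤ K / R := div_nonneg hK0 hR0.le
    rw [hA]
    simp only
    split_ifs with hmem
    · have hmem' : cnvP ψ R q ∈ Nb (cmb ψ z₀ 0) dm R ε₀ :=
        ⟨hmem.1.trans_le (mul_le_mul_of_nonneg_right hεε₀ hR0.le),
          hmem.2.trans_le (mul_le_mul_of_nonneg_right hεε₀ hR0.le)⟩
      obtain ⟨-, e2, e3, e4⟩ := hE R h2 q α h1 hmem'
      rw [Prod.dist_eq, Prod.dist_eq]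
      refine max_le ?_ (max_le ?_ ?_)
      · rw [dist_eq_norm]
        exact e2.trans (le_add_of_nonneg_right (norm_nonneg _))
      · rw [dist_eq_norm]
        exact e3.trans (le_add_of_nonneg_right (norm_nonneg _))
      · rw [dist_eq_norm]
        refine (norm_sub_le_norm_sub_add_norm_sub _
          (xi (fun i => S.Dy φ i (cmb ψ q.1 (R⁻¹ • q.2.1))) q.2.2 α) _).trans ?_
        gcongr
        exact e4
    · rw [dist_self]
      positivity
  -- the limit of the modified integrand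
  set T : ℝ → F := fun R => ((Real.sqrt |(S.Dy φ 8 (cmb ψ q.1 (R⁻¹ • q.2.1))).det| : ℝ) : ℂ) •
    cnvT S φ j R α (b (A R)) with hT
  have hTt : Tendsto T atTop (𝓝 (cnvG2 S φ ψ b q α)) := by
    have h1 : Tendsto (fun R : ℝ => ((Real.sqrt |(S.Dy φ 8 (cmb ψ q.1 (R⁻¹ • q.2.1))).det| : ℝ) : ℂ)) atTop
        (𝓝 ((Real.sqrt |(S.Dy φ 8 (cmb ψ q.1 0)).det| : ℝ) : ℂ)) := by
      have h0 : Continuous fun y : Cfg dh => ((Real.sqrt |(S.Dy φ 8 y).det| : ℝ) : ℂ) :=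
        Complex.continuous_ofReal.comp (Real.continuous_sqrt.comp (nrm_continuous_det S φ).abs)
      exact (h0.tendsto _).comp hinv
    have h2 : Tendsto (fun R : ℝ => ((j ((R * Real.sqrt R)⁻¹ • α) : ℝ) : ℂ)) atTop (𝓝 (1 : ℂ)) := by
      have h0 : Continuous fun a => ((j a : ℝ) : ℂ) := Complex.continuous_ofReal.comp hj
      have := (h0.tendsto 0).comp hk
      rw [hj1, Complex.ofReal_one] at this
      exact this
    have h3 : Tendsto (fun R : ℝ => spn S (-(exm φ ((R * Real.sqrt R)⁻¹ • α)))) atTop (𝓝 (1 : F →L[ℂ] F)) := by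
      have h0 : Continuous fun a => spn S (-(exm φ a)) := hcs.comp (cnv_cont_exm φ).neg
      have := (h0.tendsto 0).comp hk
      have h00 : exm φ (0 : EuclideanSpace ℝ (Fin dm)) = 0 := by
        funext A
        unfold exm
        rcases φ.symm A with a | a <;> simp
      rw [h00, neg_zero, hs1] at this
      exact this
    have h4 : Tendsto (fun R => b (A R)) atTop (𝓝 (b A0)) := (hb.tendsto _).comp hAt
    have h5 : Tendsto (fun R => (spn S (-(exm φ ((R * Real.sqrt R)⁻¹ • α)))) (b (A R))) atTop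
        (𝓝 ((1 : F →L[ℂ] F) (b A0))) := by
      have hbb : Continuous fun p : (F →L[ℂ] F) × F => p.1 p.2 := isBoundedBilinearMap_apply.continuous
      exact (hbb.tendsto (1, b A0)).comp (h3.prodMk_nhds h4)
    have h6 := h1.smul (h2.smul h5)
    rw [one_smul] at h6
    exact h6
  have hfin : Tendsto (fun R => ‖T R - cnvG2 S φ ψ b q α‖) atTop (𝓝 0) := by
    have := (hTt.sub_const (cnvG2 S φ ψ b q α)).norm
    rwa [sub_self, norm_zero] at this
  have hball : ∀ᶠ R : ℝ in atTop, α ∈ Metric.ball (0 : EuclideanSpace ℝ (Fin dm)) (ρ * (R * Real.sqrt R)) := by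
    have : Tendsto (fun R : ℝ => ρ * (R * Real.sqrt R)) atTop atTop :=
      (tendsto_id.atTop_mul_atTop₀ Real.tendsto_sqrt_atTop).const_mul_atTop hρ
    filter_upwards [this.eventually_gt_atTop ‖α‖] with R hR
    rw [Metric.mem_ball, dist_zero_right]
    exact hR
  rw [tendsto_zero_iff_norm_tendsto_zero]
  refine squeeze_zero' (Eventually.of_forall fun R => norm_nonneg _) ?_ hfin
  filter_upwards [hball] with R hR
  by_cases hmem : cnvP ψ R q ∈ Nb (cmb ψ z₀ 0) dm R ε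
  · rw [Set.indicator_of_mem (show q ∈ {q | cnvP ψ R q ∈ Nb (cmb ψ z₀ 0) dm R ε} from hmem)]
    have h1 : cnvG1 S φ ψ j ρ b R q α = T R := by
      rw [hT]
      simp only
      unfold cnvG1
      rw [Set.indicator_of_mem hR, hA]
      simp only
      rw [if_pos hmem]
    rw [h1]
  · rw [Set.indicator_of_notMem (show q ∉ {q | cnvP ψ R q ∈ Nb (cmb ψ z₀ 0) dm R ε} from hmem), norm_zero]
    exact norm_nonneg _

lemma cnv_contP (ψ : Spz r ds dh) (R : ℝ) : Continuous fun q : Cfg r × Cfg ds × Wsp dm => cnvP ψ R q := by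
  unfold cnvP
  refine Continuous.prodMk ?_ (by fun_prop)
  exact (cnv_cont_cmb ψ).comp (show Continuous fun q : Cfg r × Cfg ds × Wsp dm => (R • q.1, q.2.1) by fun_prop)

lemma cnv_openNb (y₀ : Cfg dh) (R ε : ℝ) : IsOpen (Nb y₀ dm R ε) := by
  have h1 : Continuous fun p : Cfg dh × Wsp dm => ‖p.1 - R • y₀‖ := by fun_prop
  have h2 : Continuous fun p : Cfg dh × Wsp dm => ‖p.2‖ := by fun_prop
  exact (isOpen_lt h1 continuous_const).inter (isOpen_lt h2 continuous_const)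

/-- continuity of the first integrand without cutoff -/
lemma cnv_contT (S : Setup d F) (φ : Spl dh dm d) (ψ : Spz r ds dh) (hcs : Continuous fun a => spn S a)
    (j : EuclideanSpace ℝ (Fin dm) → ℝ) (hj : Continuous j)
    (b : Cfg r × Cfg ds × Cfg dm → F) (hb : Continuous b) (R : ℝ) (q : Cfg r × Cfg ds × Wsp dm) :
    Continuous fun α => cnvT S φ j R α (b (cnvA S φ ψ R q α)) := by
  have h1 : Continuous fun α : EuclideanSpace ℝ (Fin dm) => (R * Real.sqrt R)⁻¹ • α := by fun_prop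
  have h0 : Continuous fun α : EuclideanSpace ℝ (Fin dm) =>
      (((R * Real.sqrt R)⁻¹ • α, cnvP ψ R q) : EuclideanSpace ℝ (Fin dm) × (Cfg dh × Wsp dm)) :=
    h1.prodMk continuous_const
  have hX : Continuous fun α => cnvX S φ ψ R q α := by
    have h2 := (cnv_cont_tub S φ).comp h0
    exact h2
  have hAc : Continuous fun α => cnvA S φ ψ R q α := by
    have k0 : Continuous fun α => zy φ (cnvX S φ ψ R q α) := (cnv_cont_zy φ).comp hX
    have k1 : Continuous fun α => hz ψ (zy φ (cnvX S φ ψ R q α)) := (cnv_cont_hz ψ).comp k0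
    have k2 : Continuous fun α => hs ψ (zy φ (cnvX S φ ψ R q α)) := (cnv_cont_hs ψ).comp k0
    have k3 : Continuous fun α => pm φ (cnvX S φ ψ R q α) := (cnv_cont_pm φ).comp hX
    have k4 : Continuous fun α => R⁻¹ • hz ψ (zy φ (cnvX S φ ψ R q α)) := k1.const_smul R⁻¹
    have k5 : Continuous fun α => Real.sqrt R • pm φ (cnvX S φ ψ R q α) := k3.const_smul (Real.sqrt R)
    exact k4.prodMk (k2.prodMk k5)
  unfold cnvT
  refine Continuous.smul (Complex.continuous_ofReal.comp (hj.comp h1)) ?_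
  have hs2 : Continuous fun α : EuclideanSpace ℝ (Fin dm) => -(exm φ ((R * Real.sqrt R)⁻¹ • α)) :=
    ((cnv_cont_exm φ).comp h1).neg
  have hs3 := hcs.comp hs2
  have hs4 := hb.comp hAc
  exact hs3.clm_apply hs4

lemma cnv_contG2 (S : Setup d F) (φ : Spl dh dm d) (ψ : Spz r ds dh)
    (b : Cfg r × Cfg ds × Cfg dm → F) (hb : Continuous b) (q : Cfg r × Cfg ds × Wsp dm) :
    Continuous fun α => cnvG2 S φ ψ b q α := by
  have hx : Continuous fun α : EuclideanSpace ℝ (Fin dm) => xi (Dz S φ ψ q.1) q.2.2 α := by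
    have h0 : Continuous fun α : EuclideanSpace ℝ (Fin dm) =>
        ((cmb ψ q.1 0, q.2.2, α) : Cfg dh × Wsp dm × EuclideanSpace ℝ (Fin dm)) :=
      continuous_const.prodMk (continuous_const.prodMk continuous_id)
    exact (cnv_cont_xi S φ).comp h0
  have hp : Continuous fun α : EuclideanSpace ℝ (Fin dm) =>
      ((q.1, q.2.1, xi (Dz S φ ψ q.1) q.2.2 α) : Cfg r × Cfg ds × Cfg dm) :=
    continuous_const.prodMk (continuous_const.prodMk hx)
  have h2 := hb.comp hp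
  exact h2.const_smul _

/-- the scaled difference -/
noncomputable def cnvV (S : Setup d F) (φ : Spl dh dm d) (ψ : Spz r ds dh) (z₀ : Cfg r)
    (j : EuclideanSpace ℝ (Fin dm) → ℝ) (ε ρ : ℝ) (b : Cfg r × Cfg ds × Cfg dm → F) (R : ℝ)
    (q : Cfg r × Cfg ds × Wsp dm) : F :=
  ({q | cnvP ψ R q ∈ Nb (cmb ψ z₀ 0) dm R ε} : Set _).indicator
    (fun q => (((R ^ (2 * (dm : ℝ) - 9 * (r : ℝ) / 2) : ℝ) : ℂ)⁻¹ • Zt S φ j ρ (Zb φ ψ b R) (cnvP ψ R q)) -
      Vb S φ ψ b q.1 q.2.1 q.2.2) q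

/-- **GL6** -/
theorem cnv_stmt (S : Setup d F) : TayTStmt S → EqvStmt S → MeaStmt S → DetStmt S → CnvStmt S := by
  intro hT hEqv hM _ hF dh dm r ds φ ψ z₀ hStd
  obtain ⟨ε₀, ρ₀, c, C, hε₀, hρ₀, hc, hC, hTay⟩ := hT dh dm φ (cmb ψ z₀ 0) hStd
  refine ⟨ε₀, ρ₀, hε₀, hρ₀, ?_⟩
  intro ε ρ hε hεε₀ hρ hρρ₀ j hj hj0 hj1 b hb hbs hbz
  obtain ⟨hsn, -, hcs, hs1, -⟩ := hEqv hF
  obtain ⟨hM1, hM2, hM3⟩ := hM hF dh dm r ds φ ψ hStd.sub
  have hE : cnvE S φ ψ z₀ ε₀ ρ₀ c C := by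
    intro R hR q α ha hp
    exact cnvB_est S φ ψ z₀ ε₀ ρ₀ c C hC hTay R hR q.1 q.2.1 q.2.2 α _ rfl ha hp
  -- constants
  obtain ⟨L₀, hL₀⟩ := hbs.isCompact.isBounded.exists_norm_le
  obtain ⟨L, hL0, hL⟩ : ∃ L : ℝ, 0 ≤ L ∧ ∀ q, b q ≠ 0 → ‖q‖ ≤ L := by
    refine ⟨max L₀ 0, le_max_right _ _, fun q hq => (hL₀ q ?_).trans (le_max_left _ _)⟩
    exact subset_tsupport b hq
  obtain ⟨B₀, hB₀⟩ := hbs.exists_bound_of_continuous hb
  obtain ⟨Bb, hB0, hB⟩ : ∃ B : ℝ, 0 ≤ B ∧ ∀ q, ‖b q‖ ≤ B :=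
    ⟨max B₀ 0, le_max_right _ _, fun q => (hB₀ q).trans (le_max_left _ _)⟩
  obtain ⟨J₀, hJ₀⟩ := (isCompact_closedBall (0 : EuclideanSpace ℝ (Fin dm)) ρ).exists_bound_of_continuousOn hj.continuousOn
  obtain ⟨Jm, hJ0, hJ⟩ : ∃ J : ℝ, 0 ≤ J ∧ ∀ a, ‖a‖ ≤ ρ → |j a| ≤ J := by
    refine ⟨max J₀ 0, le_max_right _ _, fun a ha => le_trans ?_ (le_max_left _ _)⟩
    have := hJ₀ a (by rw [Metric.mem_closedBall, dist_zero_right]; exact ha)
    rwa [Real.norm_eq_abs] at this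
  set M := L + L / c + C * (L / c) * (L / c) with hMdef
  have hM0 : 0 ≤ M := by
    have : 0 ≤ L / c := div_nonneg hL0 hc.le
    positivity
  have hcd : Continuous fun y : Cfg dh => Real.sqrt |(S.Dy φ 8 y).det| :=
    Real.continuous_sqrt.comp (nrm_continuous_det S φ).abs
  obtain ⟨D₀, hD₀⟩ := (isCompact_closedBall (0 : Cfg dh) (2 * M)).exists_bound_of_continuousOn hcd.continuousOn
  obtain ⟨Dm, hD0, hD⟩ : ∃ D : ℝ, 0 ≤ D ∧ ∀ y : Cfg dh, ‖y‖ ≤ 2 * M → Real.sqrt |(S.Dy φ 8 y).det| ≤ D := by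
    refine ⟨max D₀ 0, le_max_right _ _, fun y hy => le_trans ?_ (le_max_left _ _)⟩
    have := hD₀ y (by rw [Metric.mem_closedBall, dist_zero_right]; exact hy)
    rwa [Real.norm_of_nonneg (Real.sqrt_nonneg _)] at this
  have g1 := fun R hR q α hq => cnv_G1 S φ ψ z₀ ε₀ ρ₀ c C hc hC hE hsn ε ρ hεε₀ hρρ₀ j Jm hJ0 hJ b L Bb hL0 hL hB0
    hB M Dm hMdef hD0 hD R hR q α hq
  have g2 := cnv_G2 S φ ψ z₀ ε₀ ρ₀ c C hc hC hρ₀ hE ε hε hεε₀ b L Bb hL0 hL hB0 hB hbz M Dm hMdef hD0 hD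
  set Mt := Dm * (Jm * Bb) + Dm * Bb with hMt
  have hMt0 : 0 ≤ Mt := by positivity
  -- the integrand
  set H : ℝ → (Cfg r × Cfg ds × Wsp dm) → EuclideanSpace ℝ (Fin dm) → F := fun R q α =>
    ({q | cnvP ψ R q ∈ Nb (cmb ψ z₀ 0) dm R ε} : Set _).indicator
      (fun q => cnvG1 S φ ψ j ρ b R q α - cnvG2 S φ ψ b q α) q with hH
  have hG1int : ∀ R q, Integrable (fun α => cnvG1 S φ ψ j ρ b R q α) := by
    intro R q
    unfold cnvG1
    refine Integrable.smul _ ?_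
    rw [integrable_indicator_iff Metric.isOpen_ball.measurableSet]
    exact ((cnv_contT S φ ψ hcs j hj b hb R q).continuousOn.integrableOn_compact
      (isCompact_closedBall _ _)).mono_set Metric.ball_subset_closedBall
  have hG2int : ∀ q, Integrable (fun α => cnvG2 S φ ψ b q α) := by
    intro q
    refine (cnv_contG2 S φ ψ b hb q).integrable_of_hasCompactSupport ?_
    refine HasCompactSupport.of_support_subset_isCompact
      (isCompact_closedBall (0 : EuclideanSpace ℝ (Fin dm)) M) fun α hα => ?_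
    rw [Metric.mem_closedBall, dist_zero_right]
    exact ((g2 q α).1 hα).1
  have hVH : ∀ R : ℝ, 0 < R → ∀ q, cnvV S φ ψ z₀ j ε ρ b R q = ∫ α, H R q α := by
    intro R hR q
    by_cases hmem : cnvP ψ R q ∈ Nb (cmb ψ z₀ 0) dm R ε
    · have hq : q ∈ {q | cnvP ψ R q ∈ Nb (cmb ψ z₀ 0) dm R ε} := hmem
      unfold cnvV
      rw [Set.indicator_of_mem hq]
      have h1 : ∀ α, H R q α = cnvG1 S φ ψ j ρ b R q α - cnvG2 S φ ψ b q α := by
        intro α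
        rw [hH]
        simp only
        rw [Set.indicator_of_mem hq]
      simp only [h1]
      rw [integral_sub (hG1int R q) (hG2int q)]
      congr 1
      · have h2 := cnvA_Zt S φ ψ hR j ρ b q.1 q.2.1 q.2.2
        have h3 : ((R ^ (2 * (dm : ℝ) - 9 * (r : ℝ) / 2) : ℝ) : ℂ) ≠ 0 := by
          rw [Complex.ofReal_ne_zero]
          exact (Real.rpow_pos_of_pos hR _).ne'
        show _ • Zt S φ j ρ (Zb φ ψ b R) (cmb ψ (R • q.1) q.2.1, (Real.sqrt R)⁻¹ • q.2.2) = _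
        rw [h2, smul_smul, inv_mul_cancel₀ h3, one_smul]
        unfold cnvG1
        rw [integral_smul]
        rfl
      · unfold Vb cnvG2
        rw [integral_smul]
    · have hq : q ∉ {q | cnvP ψ R q ∈ Nb (cmb ψ z₀ 0) dm R ε} := hmem
      unfold cnvV
      rw [Set.indicator_of_notMem hq]
      have h1 : ∀ α, H R q α = 0 := by
        intro α
        rw [hH]
        simp only
        rw [Set.indicator_of_notMem hq]
      simp only [h1, integral_zero]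
  have hHb : ∀ R : ℝ, 1 ≤ R → ∀ q α, ‖H R q α‖ ≤
      (Metric.closedBall (0 : EuclideanSpace ℝ (Fin dm)) M).indicator (fun _ => Mt) α ∧
      (H R q α ≠ 0 → ‖q‖ ≤ M) := by
    intro R hR q α
    by_cases hmem : cnvP ψ R q ∈ Nb (cmb ψ z₀ 0) dm R ε
    · have hq : q ∈ {q | cnvP ψ R q ∈ Nb (cmb ψ z₀ 0) dm R ε} := hmem
      have h1 : H R q α = cnvG1 S φ ψ j ρ b R q α - cnvG2 S φ ψ b q α := by
        rw [hH]
        simp only
        rw [Set.indicator_of_mem hq]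
      obtain ⟨a1, a2⟩ := g1 R hR q α hmem
      obtain ⟨b1, b2⟩ := g2 q α
      rw [h1]
      constructor
      · by_cases hα : ‖α‖ ≤ M
        · rw [Set.indicator_of_mem (by rw [Metric.mem_closedBall, dist_zero_right]; exact hα)]
          exact (norm_sub_le _ _).trans (add_le_add a2 b2)
        · have c1 : cnvG1 S φ ψ j ρ b R q α = 0 := by
            by_contra hcon
            exact hα (a1 hcon).1
          have c2 : cnvG2 S φ ψ b q α = 0 := by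
            by_contra hcon
            exact hα (b1 hcon).1
          rw [c1, c2, sub_zero, norm_zero]
          exact Set.indicator_nonneg (fun _ _ => hMt0) _
      · intro hne
        by_cases hq1 : cnvG1 S φ ψ j ρ b R q α = 0
        · rw [hq1, zero_sub, neg_ne_zero] at hne
          exact (b1 hne).2
        · exact (a1 hq1).2
    · have hq : q ∉ {q | cnvP ψ R q ∈ Nb (cmb ψ z₀ 0) dm R ε} := hmem
      have h1 : H R q α = 0 := by
        rw [hH]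
        simp only
        rw [Set.indicator_of_notMem hq]
      rw [h1, norm_zero]
      exact ⟨Set.indicator_nonneg (fun _ _ => hMt0) _, fun h => absurd rfl h⟩
  have hbint : Integrable ((Metric.closedBall (0 : EuclideanSpace ℝ (Fin dm)) M).indicator (fun _ => Mt)) := by
    rw [integrable_indicator_iff Metric.isClosed_closedBall.measurableSet]
    exact integrableOn_const (isCompact_closedBall _ _).measure_lt_top.ne
  set M2 := ∫ α, (Metric.closedBall (0 : EuclideanSpace ℝ (Fin dm)) M).indicator (fun _ => Mt) α with hM2d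
  have hVb : ∀ R : ℝ, 1 ≤ R → ∀ q, ‖cnvV S φ ψ z₀ j ε ρ b R q‖ ≤ M2 ∧
      (cnvV S φ ψ z₀ j ε ρ b R q ≠ 0 → ‖q‖ ≤ M) := by
    intro R hR q
    rw [hVH R (by linarith) q]
    refine ⟨norm_integral_le_of_norm_le hbint (Eventually.of_forall fun α => (hHb R hR q α).1), fun hne => ?_⟩
    by_contra hcon
    apply hne
    have : ∀ α, H R q α = 0 := by
      intro α
      by_contra hc2
      exact hcon ((hHb R hR q α).2 hc2)
    simp only [this, integral_zero]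
  have hlimV : ∀ q, Tendsto (fun R : ℝ => cnvV S φ ψ z₀ j ε ρ b R q) atTop (𝓝 0) := by
    intro q
    have h1 : Tendsto (fun R : ℝ => ∫ α, H R q α) atTop (𝓝 (∫ _ : EuclideanSpace ℝ (Fin dm), (0 : F))) := by
      refine tendsto_integral_filter_of_dominated_convergence
        ((Metric.closedBall (0 : EuclideanSpace ℝ (Fin dm)) M).indicator (fun _ => Mt)) ?_ ?_ hbint ?_
      · refine Eventually.of_forall fun R => ?_
        by_cases hmem : cnvP ψ R q ∈ Nb (cmb ψ z₀ 0) dm R ε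
        · have hq : q ∈ {q | cnvP ψ R q ∈ Nb (cmb ψ z₀ 0) dm R ε} := hmem
          have h2 : H R q = fun α => cnvG1 S φ ψ j ρ b R q α - cnvG2 S φ ψ b q α := by
            funext α
            rw [hH]
            simp only
            rw [Set.indicator_of_mem hq]
          rw [h2]
          exact ((hG1int R q).sub (hG2int q)).aestronglyMeasurable
        · have hq : q ∉ {q | cnvP ψ R q ∈ Nb (cmb ψ z₀ 0) dm R ε} := hmem
          have h2 : H R q = fun _ => 0 := by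
            funext α
            rw [hH]
            simp only
            rw [Set.indicator_of_notMem hq]
          rw [h2]
          exact aestronglyMeasurable_const
      · filter_upwards [eventually_ge_atTop (1 : ℝ)] with R hR
        exact Eventually.of_forall fun α => (hHb R hR q α).1
      · exact Eventually.of_forall fun α =>
          cnv_lim S φ ψ z₀ ε₀ ρ₀ c C hC hρ₀ hE hcs hs1 ε ρ hεε₀ hρ j hj hj1 b hb q α
    rw [integral_zero] at h1
    refine h1.congr' ?_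
    filter_upwards [eventually_gt_atTop (0 : ℝ)] with R hR
    exact (hVH R hR q).symm
  -- measurability
  have hVmeas : ∀ R : ℝ, StronglyMeasurable (cnvV S φ ψ z₀ j ε ρ b R) := by
    intro R
    obtain ⟨m1, m2⟩ := hM2 R b hb.stronglyMeasurable
    have m3 := hM1 j ρ (Zb φ ψ b R) hj m1
    have hset : MeasurableSet {q : Cfg r × Cfg ds × Wsp dm | cnvP ψ R q ∈ Nb (cmb ψ z₀ 0) dm R ε} :=
      ((cnv_openNb (cmb ψ z₀ 0) R ε).preimage (cnv_contP ψ R)).measurableSet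
    unfold cnvV
    refine StronglyMeasurable.indicator ?_ hset
    exact ((m3.comp_measurable (cnv_contP ψ R).measurable).const_smul _).sub m2
  -- conclusion
  have hmain : Tendsto (fun R : ℝ => ∫⁻ q, ‖cnvV S φ ψ z₀ j ε ρ b R q‖ₑ ^ 2
      ∂((volume : Measure (Cfg r)).prod ((volume : Measure (Cfg ds)).prod (volume : Measure (Wsp dm))))) atTop
      (𝓝 (∫⁻ _ : Cfg r × Cfg ds × Wsp dm, 0
        ∂((volume : Measure (Cfg r)).prod ((volume : Measure (Cfg ds)).prod (volume : Measure (Wsp dm)))))) := by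
    refine tendsto_lintegral_filter_of_dominated_convergence
      ((Metric.closedBall (0 : Cfg r × Cfg ds × Wsp dm) M).indicator fun _ => ENNReal.ofReal M2 ^ 2) ?_ ?_ ?_ ?_
    · exact Eventually.of_forall fun R => (hVmeas R).enorm.pow_const 2
    · filter_upwards [eventually_ge_atTop (1 : ℝ)] with R hR
      refine Eventually.of_forall fun q => ?_
      obtain ⟨a1, a2⟩ := hVb R hR q
      by_cases hq : cnvV S φ ψ z₀ j ε ρ b R q = 0
      · rw [hq, enorm_zero]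
        simp
      · rw [Set.indicator_of_mem (by rw [Metric.mem_closedBall, dist_zero_right]; exact a2 hq)]
        gcongr
        rw [← ofReal_norm]
        exact ENNReal.ofReal_le_ofReal a1
    · rw [lintegral_indicator Metric.isClosed_closedBall.measurableSet, lintegral_const]
      refine (ENNReal.mul_lt_top (by simp) ?_).ne
      rw [Measure.restrict_apply_univ]
      exact (isCompact_closedBall _ _).measure_lt_top
    · refine Eventually.of_forall fun q => ?_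
      have h1 := (hlimV q).enorm
      rw [enorm_zero] at h1
      have h2 := ((ENNReal.continuous_pow 2).tendsto (0 : ENNReal)).comp h1
      rw [zero_pow two_ne_zero] at h2
      exact h2
  rw [lintegral_zero] at hmain
  refine hmain.congr' ?_
  filter_upwards [eventually_gt_atTop (0 : ℝ)] with R hR
  have h1 := (hM3 R (fun η s w => cnvV S φ ψ z₀ j ε ρ b R (η, s, w)) hR (hVmeas R)).2
  refine h1.symm.trans ?_
  rw [← lintegral_indicator (cnv_openNb (cmb ψ z₀ 0) R ε).measurableSet]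
  refine lintegral_congr fun p => ?_
  have hs0 : 0 < Real.sqrt R := Real.sqrt_pos.2 hR
  have hPq : cnvP ψ R (R⁻¹ • hz ψ p.1, hs ψ p.1, Real.sqrt R • p.2) = p := by
    unfold cnvP
    simp only
    rw [smul_smul, mul_inv_cancel₀ hR.ne', one_smul, cnv_cmb, smul_smul, inv_mul_cancel₀ hs0.ne', one_smul]
  have h3 : ((R ^ (2 * (dm : ℝ) - 9 * (r : ℝ) / 2) : ℝ) : ℂ) ≠ 0 := by
    rw [Complex.ofReal_ne_zero]
    exact (Real.rpow_pos_of_pos hR _).ne'
  by_cases hp : p ∈ Nb (cmb ψ z₀ 0) dm R ε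
  · have hq : (R⁻¹ • hz ψ p.1, hs ψ p.1, Real.sqrt R • p.2) ∈
        {q : Cfg r × Cfg ds × Wsp dm | cnvP ψ R q ∈ Nb (cmb ψ z₀ 0) dm R ε} := by
      show cnvP ψ R (R⁻¹ • hz ψ p.1, hs ψ p.1, Real.sqrt R • p.2) ∈ Nb (cmb ψ z₀ 0) dm R ε
      rw [hPq]
      exact hp
    rw [Set.indicator_of_mem hp]
    congr 2
    unfold Ts0 cnvV
    beta_reduce
    rw [Set.indicator_of_mem hq]
    beta_reduce
    rw [hPq, smul_sub, smul_smul, mul_inv_cancel₀ h3, one_smul]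
  · have hq : (R⁻¹ • hz ψ p.1, hs ψ p.1, Real.sqrt R • p.2) ∉
        {q : Cfg r × Cfg ds × Wsp dm | cnvP ψ R q ∈ Nb (cmb ψ z₀ 0) dm R ε} := by
      show ¬ (cnvP ψ R (R⁻¹ • hz ψ p.1, hs ψ p.1, Real.sqrt R • p.2) ∈ Nb (cmb ψ z₀ 0) dm R ε)
      rw [hPq]
      exact hp
    rw [Set.indicator_of_notMem hp]
    unfold Ts0 cnvV
    beta_reduce
    rw [Set.indicator_of_notMem hq, smul_zero, enorm_zero]
    simp

end Vale.Agent.P353.Z.AN
end

section

/-! # P353, all `N`, block L: the limit equation (helper876) -/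

open MeasureTheory Filter Topology Matrix
open scoped ContDiff

namespace Vale.Agent.P353.Z.AL

variable {d dh dm r ds n : ℕ} {F : Type*} [NormedAddCommGroup F] [InnerProductSpace ℂ F]

lemma leq_shell {A : Set (Cfg r)} (hA : IsCompact A) (h0 : (0 : Cfg r) ∉ A) :
    ∃ s t : ℝ, 0 < s ∧ s < t ∧ A ⊆ AD.shl r s t := by
  rcases A.eq_empty_or_nonempty with rfl | hne
  · exact ⟨1, 2, one_pos, one_lt_two, Set.empty_subset _⟩
  obtain ⟨x, hx, hmin⟩ := hA.exists_isMinOn hne continuous_norm.continuousOn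
  obtain ⟨y, hy, hmax⟩ := hA.exists_isMaxOn hne continuous_norm.continuousOn
  have hx0 : 0 < ‖x‖ := norm_pos_iff.2 fun h => h0 (h ▸ hx)
  have hxy : ‖x‖ ≤ ‖y‖ := hmax hx
  refine ⟨‖x‖ / 2, ‖y‖ + 1, by positivity, by linarith, fun z hz => ⟨?_, ?_⟩⟩
  · have h1 : ‖x‖ ≤ ‖z‖ := hmin hz
    linarith
  · have h1 : ‖z‖ ≤ ‖y‖ := hmax hz
    linarith

lemma leq_ZZ_smul (κ : ℝ) (φ : Spl dh dm d) (ψ : Spl r ds dh) (Om : Cfg r → Matrix (Fin dm) (Fin dm) ℝ)
    (a : Cfg r → Cfg ds → F) (R : ℝ) (c : ℂ) (u : Cfg d → F) :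
    ZZ κ φ ψ Om a R (fun x => c • u x) = c * ZZ κ φ ψ Om a R u := by
  simp only [ZZ, inner_smul_right]
  exact integral_const_mul _ _

lemma leq_ZZ_zero (κ : ℝ) (φ : Spl dh dm d) (ψ : Spl r ds dh) (Om : Cfg r → Matrix (Fin dm) (Fin dm) ℝ)
    (R : ℝ) (u : Cfg d → F) : ZZ κ φ ψ Om (fun _ _ => (0 : F)) R u = 0 := by
  simp [ZZ, AN.Zb, AN.bG]

lemma leq_mas (S : Setup d F) (R : ℝ) (β : Fin 16) (u : Cfg d → F) (A : Set (Cfg d)) :
    AD.mas (fun x => ((R : ℝ) : ℂ) • S.Q β u x) A = R ^ 2 * ∫ x in A, ‖S.Q β u x‖ ^ 2 := by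
  rw [AD.mas, ← integral_const_mul]
  congr 1
  funext x
  rw [norm_smul, mul_pow, Complex.norm_real, Real.norm_eq_abs, sq_abs]

lemma leq_mas_le (S : Setup d F) (R : ℝ) (β : Fin 16) (u : Cfg d → F) (A : Set (Cfg d)) :
    AD.mas (fun x => ((R : ℝ) : ℂ) • S.Q β u x) A ≤ R ^ 2 * AD.ena S u A := by
  rw [leq_mas]
  refine mul_le_mul_of_nonneg_left ?_ (sq_nonneg _)
  exact Finset.single_le_sum (f := fun β => ∫ x in A, ‖S.Q β u x‖ ^ 2)
    (fun β _ => integral_nonneg fun x => sq_nonneg _) (Finset.mem_univ β)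

omit [InnerProductSpace ℂ F] in
lemma leq_mas_nonneg (u : Cfg d → F) (A : Set (Cfg d)) : 0 ≤ AD.mas u A :=
  integral_nonneg fun _ => sq_nonneg _

lemma leq_ena_nonneg (S : Setup d F) (u : Cfg d → F) (A : Set (Cfg d)) : 0 ≤ AD.ena S u A :=
  Finset.sum_nonneg fun _ _ => integral_nonneg fun _ => sq_nonneg _

lemma leq_tend {z : ℕ → ℂ} {c : ℝ} {m : ℕ → ℝ} (hm : Tendsto m atTop (𝓝 0))
    (h : ∀ e : ℝ, 0 < e → ∀ᶠ k in atTop, ‖z k‖ ≤ c * Real.sqrt (m k) + e) : Tendsto z atTop (𝓝 0) := by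
  rw [Metric.tendsto_nhds]
  intro e he
  have h1 : Tendsto (fun k => c * Real.sqrt (m k)) atTop (𝓝 (c * Real.sqrt 0)) :=
    ((Real.continuous_sqrt.tendsto 0).comp hm).const_mul c
  rw [Real.sqrt_zero, mul_zero] at h1
  have h2 : ∀ᶠ k in atTop, c * Real.sqrt (m k) < e / 2 := h1.eventually_lt_const (by linarith)
  filter_upwards [h (e / 2) (by linarith), h2] with k hk hk2
  rw [dist_zero_right]
  linarith

lemma leq_QN (S : Setup d F) (N : Fin 9 → Matrix (Fin 16) (Fin 16) ℂ) (x : ℝ) (β : Fin 16) (u : Cfg d → F) :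
    AE.QN S N (0 / x) β u = S.Q β u := by
  funext y
  simp [AE.QN]

lemma leq_ginv {S : Setup d F} {u : Cfg d → F} (h : AD.GInv S u) : AE.GI S u := ⟨h.1, h.2⟩

lemma leq_ginvQ {S : Setup d F} (hQ : AE.QInvStmt S) {u : Cfg d → F} (h : AD.GInv S u) (R : ℝ) (β : Fin 16) :
    AD.GInv S (fun x => ((R : ℝ) : ℂ) • S.Q β u x) := by
  have h1 := hQ (AN.N0 S) (0 / 1) β u (leq_ginv h)
  rw [leq_QN] at h1
  have h0 : HasCompactSupport (fun x => ((R : ℝ) : ℂ) • S.Q β u x) := by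
    refine h1.tst.2.mono fun x hx => ?_
    rw [Function.mem_support] at hx ⊢
    exact fun h => hx (by rw [h, smul_zero])
  refine ⟨⟨contDiff_const.smul h1.tst.1, h0⟩, fun C x => ?_⟩
  have h2 := h1.inv C x
  have h3 : ∀ i B, pd i B (fun y => ((R : ℝ) : ℂ) • S.Q β u y) x = ((R : ℝ) : ℂ) • pd i B (S.Q β u) x := by
    intro i B
    rw [pd_csmul (differentiableAt_const _) (h1.tst.diff x)]
    simp
  have h4 : S.G C (fun y => ((R : ℝ) : ℂ) • S.Q β u y) x = ((R : ℝ) : ℂ) • S.G C (S.Q β u) x := by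
    simp only [Setup.G, h3, map_smul, smul_add, Finset.smul_sum]
    simp only [smul_comm ((R : ℝ) : ℂ)]
  rw [h4, h2, smul_zero]

/-! ### sharp cutoffs are admissible -/

lemma leq_meas_chi (R : ℝ) : Measurable (chi R : Cfg r × Cfg ds × Cfg dm → ℝ) := by
  classical
  unfold chi
  refine Measurable.ite ?_ measurable_const measurable_const
  have h1 : IsClosed {q : Cfg r × Cfg ds × Cfg dm | ‖q.2.1‖ ≤ Real.sqrt R} :=
    isClosed_le (continuous_norm.comp (continuous_fst.comp continuous_snd)) continuous_const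
  have h2 : IsClosed {q : Cfg r × Cfg ds × Cfg dm | ‖q.2.2‖ ≤ R} :=
    isClosed_le (continuous_norm.comp (continuous_snd.comp continuous_snd)) continuous_const
  exact (h1.inter h2).measurableSet

lemma leq_cutA {R : ℕ → ℝ} {δ : ℝ} (hδ : 0 < δ) (hR : Tendsto R atTop atTop) (h1 : ∀ k, 1 ≤ R k)
    (h2 : ∀ k, 1 ≤ δ ^ 2 * R k) :
    AE.CutA (r := r) (ds := ds) (dm := dm) δ R (fun k => chi (R k)) where
  meas := fun k => leq_meas_chi _
  bd := fun k q => by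
    unfold chi
    split_ifs
    · exact ⟨zero_le_one, le_rfl⟩
    · exact ⟨le_rfl, zero_le_one⟩
  lim := fun q => by
    have h3 : ∀ᶠ k in atTop, ‖q.2.1‖ ^ 2 ≤ R k := hR.eventually_ge_atTop _
    have h4 : ∀ᶠ k in atTop, ‖q.2.2‖ ≤ R k := hR.eventually_ge_atTop _
    refine tendsto_const_nhds.congr' ?_
    filter_upwards [h3, h4] with k hk hk'
    unfold chi
    rw [if_pos]
    exact ⟨Real.le_sqrt_of_sq_le hk, hk'⟩
  sup := fun k q hq => by
    unfold chi at hq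
    split_ifs at hq with h
    · have hR0 : 0 ≤ R k := zero_le_one.trans (h1 k)
      have hs : 0 ≤ Real.sqrt (R k) := Real.sqrt_nonneg _
      have hss : Real.sqrt (R k) * Real.sqrt (R k) = R k := Real.mul_self_sqrt hR0
      have h5 : 1 ≤ δ * Real.sqrt (R k) := by
        by_contra hlt
        have h6 : δ * Real.sqrt (R k) < 1 := not_le.1 hlt
        have h7 : 0 ≤ δ * Real.sqrt (R k) := by positivity
        have h8 : (δ * Real.sqrt (R k)) * (δ * Real.sqrt (R k)) < 1 := by nlinarith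
        have h9 : (δ * Real.sqrt (R k)) * (δ * Real.sqrt (R k)) = δ ^ 2 * R k := by
          calc (δ * Real.sqrt (R k)) * (δ * Real.sqrt (R k)) = δ ^ 2 * (Real.sqrt (R k) * Real.sqrt (R k)) := by ring
            _ = δ ^ 2 * R k := by rw [hss]
        linarith [h2 k]
      refine ⟨h.1.trans ?_, h.2.trans ?_⟩
      · nlinarith
      · nlinarith
    · exact absurd rfl hq

/-! ### the section `U DF_β (ζ o_j)` -/

lemma leq_vec (S : Setup d F) {φ : Spl dh dm d} {ψ : Spl r ds dh} {L : Finset (Fin r → ℝ)}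
    {Om : Cfg r → Matrix (Fin dm) (Fin dm) ℝ} {K : Submodule ℂ F} {U : Cfg r → F →L[ℂ] F} {o : Fin n → Cfg ds → F}
    {T : Setup r (Ek n)} (D : Dat S φ ψ L Om K U o T) (j : Fin n) (β : Fin 16) :
    ∀ᵐ s ∂(volume : Measure (Cfg ds)), ∀ i A, S.vec (S.g i) (φ (Sum.inl (ψ (Sum.inl A)))) β (o j s) =
      ∑ k, (T.vec (T.g i) A β (EuclideanSpace.single j 1)) k • o k s := by
  have h1 : ∀ᵐ s ∂(volume : Measure (Cfg ds)), ∀ α A, S.th α (φ (Sum.inl (ψ (Sum.inl A)))) (o j s) =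
      ∑ k, (T.th α A (EuclideanSpace.single j 1)) k • o k s := by
    rw [ae_all_iff]
    intro α
    rw [ae_all_iff]
    intro A
    exact D.thT α A j
  filter_upwards [h1] with s hs i A
  simp only [CS.vec, _root_.sum_apply, _root_.smul_apply, hs, D.gam]
  simp only [Finset.smul_sum, smul_smul]
  rw [Finset.sum_comm]
  refine Finset.sum_congr rfl fun k _ => ?_
  rw [← Finset.sum_smul]
  congr 1

lemma leq_sec (S : Setup d F) {φ : Spl dh dm d} {ψ : Spl r ds dh} {L : Finset (Fin r → ℝ)}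
    {Om : Cfg r → Matrix (Fin dm) (Fin dm) ℝ} {K : Submodule ℂ F} {U : Cfg r → F →L[ℂ] F} {o : Fin n → Cfg ds → F}
    {T : Setup r (Ek n)} (D : Dat S φ ψ L Om K U o T) (j : Fin n) (β : Fin 16) {ζ : Cfg r → ℂ}
    (hζ : ContDiff ℝ ∞ ζ) (N : Fin 9 → Matrix (Fin 16) (Fin 16) ℂ) :
    ∀ᵐ s ∂(volume : Measure (Cfg ds)), ∀ η, U η (S.DF φ ψ N 0 β (pp ζ (o j)) η s) =
      sc U o (T.Q0 β (fun η => ζ η • EuclideanSpace.single j (1 : ℂ))) η s := by
  filter_upwards [leq_vec S D j β] with s hs η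
  have hd : DifferentiableAt ℝ ζ η := (hζ.differentiable (by simp)) η
  have h1 : ∀ i A, pd i A (fun y' => pp ζ (o j) y' s) η = (pd i A ζ η) • o j s := by
    intro i A
    have h2 := pd_csmul (i := i) (A := A) (c := ζ) (u := fun _ : Cfg r => o j s) hd (differentiableAt_const _)
    rw [show pd i A (fun _ : Cfg r => o j s) η = 0 by simp [pd], smul_zero, add_zero] at h2
    exact h2
  have h3 : ∀ i A, pd i A (fun η => ζ η • (EuclideanSpace.single j (1 : ℂ) : Ek n)) η =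
      (pd i A ζ η) • EuclideanSpace.single j (1 : ℂ) := by
    intro i A
    have h2 := pd_csmul (i := i) (A := A) (c := ζ) (u := fun _ : Cfg r => (EuclideanSpace.single j (1 : ℂ) : Ek n)) hd
      (differentiableAt_const _)
    rw [show pd i A (fun _ : Cfg r => (EuclideanSpace.single j (1 : ℂ) : Ek n)) η = 0 by simp [pd], smul_zero,
      add_zero] at h2
    exact h2
  simp only [Setup.DF, h1, Complex.ofReal_zero, zero_smul, add_zero, map_smul, map_sum, hs, sc, Setup.Q0, h3,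
    PiLp.smul_apply, smul_eq_mul]
  have h4 : ∀ k, (∑ i, ∑ A, (pd i A ζ η) • T.vec (T.g i) A β (EuclideanSpace.single j (1 : ℂ))) k =
      ∑ i, ∑ A, pd i A ζ η * (T.vec (T.g i) A β (EuclideanSpace.single j (1 : ℂ))) k := by
    intro k
    simp
  simp only [h4, Finset.smul_sum, Finset.mul_sum, Finset.sum_smul, smul_smul]
  have h5 : ∀ i : Fin 9, (∑ A : Fin r, ∑ k : Fin n, (-Complex.I * (pd i A ζ η *
      (T.vec (T.g i) A β (EuclideanSpace.single j (1 : ℂ))) k)) • U η (o k s)) = ∑ k : Fin n, ∑ A : Fin r,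
      (-Complex.I * (pd i A ζ η * (T.vec (T.g i) A β (EuclideanSpace.single j (1 : ℂ))) k)) • U η (o k s) :=
    fun i => Finset.sum_comm
  simp only [h5]
  rw [Finset.sum_comm]

/-! ### assembly -/

lemma leq_Q0_off (T : Setup r (Ek n)) (β : Fin 16) {b : Cfg r → Ek n} {x : Cfg r} (hx : x ∉ tsupport b) :
    T.Q0 β b x = 0 := by
  have h : fderiv ℝ b x = 0 := by
    by_contra h
    exact hx (support_fderiv_subset ℝ h)
  simp [Setup.Q0, pd, h]

lemma leq_tstQ0 (T : Setup r (Ek n)) (β : Fin 16) {b : Cfg r → Ek n} (hb : Setup.Tst b) :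
    Setup.Tst (T.Q0 β b) := by
  refine ⟨?_, HasCompactSupport.intro hb.2 fun x hx => leq_Q0_off T β hx⟩
  have h : T.Q0 β b = fun x => (-Complex.I) • ∑ i, ∑ A, T.vec (T.g i) A β (pd i A b x) := rfl
  rw [h]
  exact (contDiff_const (c := -Complex.I)).smul (ContDiff.sum fun i _ => ContDiff.sum fun A _ =>
    ((T.vec (T.g i) A β).restrictScalars ℝ).contDiff.comp (contDiff_pd hb.1))

lemma leq_Rg (S : Setup d F) {φ : Spl dh dm d} {ψ : Spl r ds dh} {L : Finset (Fin r → ℝ)}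
    {Om : Cfg r → Matrix (Fin dm) (Fin dm) ℝ} {K : Submodule ℂ F} {U : Cfg r → F →L[ℂ] F}
    (hB : AX.Bun S φ (AX.Mz S φ (spsw ψ)) L Om K U) {η : Cfg r} (h : η ∉ Coll L) : η ∈ Rg S φ ψ := by
  have h1 := hB.det η h
  rw [AX.DM_Dz] at h1
  exact h1

lemma leq_one (S : Setup d F) {φ : Spl dh dm d} {ψ : Spl r ds dh} {L : Finset (Fin r → ℝ)}
    {Om : Cfg r → Matrix (Fin dm) (Fin dm) ℝ} {K : Submodule ℂ F} {U : Cfg r → F →L[ℂ] F} {o : Fin n → Cfg ds → F}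
    {T : Setup r (Ek n)}
    (hG : ∀ (dh dm r ds : ℕ) (φ : Spl dh dm d) (ψ : Spl r ds dh), AE.GLimLStmt S φ ψ)
    (hFr : AN.FrameStmt S) (hQ : AE.QInvStmt S) (hZm : ∀ (e : ℕ) (T : Setup e F), AE.ZmStmt T)
    (hUB : UBStmt S) (hLin : LinStmt S) (hIso : IsoStmt S) (hF : FiniteDimensional ℂ F) (hc : AN.Cless S)
    {z₀ : Cfg r} (h2 : AD.Std2 S φ (spsw ψ) z₀) (D : Dat S φ ψ L Om K U o T) {R : ℕ → ℝ}
    {u : ℕ → Cfg d → F} (hS : AD.Sq S R u) (hV : VanE S R u) (β : Fin 16) {ζ : Cfg r → ℂ}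
    (hζ : ContDiff ℝ ∞ ζ) (hζc : HasCompactSupport ζ) (hζL : Disjoint (tsupport ζ) (Coll L))
    (hζ0 : (0 : Cfg r) ∉ tsupport ζ) (j : Fin n) :
    Sec2 (tsupport ζ) (sc U o (T.Q0 β (fun η => ζ η • EuclideanSpace.single j (1 : ℂ)))) ∧
    Tendsto (fun k => ZZ S.κ φ ψ Om (sc U o (T.Q0 β (fun η => ζ η • EuclideanSpace.single j (1 : ℂ))))
      (R k) (u k)) atTop (𝓝 0) := by
  have hAc : IsCompact (tsupport ζ) := hζc
  obtain ⟨s, t, hs, hst, hA⟩ := leq_shell hAc hζ0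
  have hAL : tsupport ζ ⊆ (Coll L)ᶜ := hζL.subset_compl_right
  have hARg : tsupport ζ ⊆ Rg S φ ψ := fun η hη => leq_Rg S D.bun (hAL hη)
  have hb0T : Setup.Tst (fun η => ζ η • (EuclideanSpace.single j (1 : ℂ) : Ek n)) :=
    ⟨hζ.smul contDiff_const, hζc.smul_right⟩
  have hb0s : tsupport (fun η => ζ η • (EuclideanSpace.single j (1 : ℂ) : Ek n)) ⊆ tsupport ζ :=
    tsupport_smul_subset_left _ _
  generalize hb0 : (fun η => ζ η • (EuclideanSpace.single j (1 : ℂ) : Ek n)) = b0 at hb0T hb0s ⊢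
  have hb1T : Setup.Tst (T.Q0 β b0) := leq_tstQ0 T β hb0T
  have hb1z : ∀ x, x ∉ tsupport ζ → T.Q0 β b0 x = 0 := fun x hx => leq_Q0_off T β fun h => hx (hb0s h)
  have hs0 : Sec2 (tsupport ζ) (sc U o b0) :=
    (hIso dh dm r ds n φ ψ L Om K U o T D (tsupport ζ) hAc hAL b0
      (hb0T.1.continuous.memLp_of_hasCompactSupport hb0T.2) fun x hx => by
        rw [← hb0]
        simp only [image_eq_zero_of_notMem_tsupport hx, zero_smul]).1
  have hs1 : Sec2 (tsupport ζ) (sc U o (T.Q0 β b0)) :=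
    (hIso dh dm r ds n φ ψ L Om K U o T D (tsupport ζ) hAc hAL (T.Q0 β b0)
      (hb1T.1.continuous.memLp_of_hasCompactSupport hb1T.2) hb1z).1
  refine ⟨hs1, ?_⟩
  have e0 : (fun η s => U η (pp ζ (o j) η s)) = sc U o b0 := by
    funext η s
    rw [← hb0]
    simp [pp, sc]
  have hs2 : ∃ a1 : Cfg r → Cfg ds → F, (a1 = fun η s => U η (S.DF φ ψ (AN.N0 S) 0 β (pp ζ (o j)) η s)) ∧
      (∀ᵐ q : Cfg r × Cfg ds ∂(volume.prod volume), a1 q.1 q.2 = sc U o (T.Q0 β b0) q.1 q.2) ∧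
      Sec2 (tsupport ζ) a1 := by
    have hae : ∀ᵐ q : Cfg r × Cfg ds ∂(volume.prod volume),
        U q.1 (S.DF φ ψ (AN.N0 S) 0 β (pp ζ (o j)) q.1 q.2) = sc U o (T.Q0 β b0) q.1 q.2 := by
      have h := leq_sec S D j β hζ (AN.N0 S)
      rw [hb0] at h
      exact (Measure.quasiMeasurePreserving_snd.ae h).mono fun q hq => hq q.1
    refine ⟨_, rfl, hae, hs1.1.ae_eq (hae.mono fun q hq => hq.symm), fun η s h => ?_⟩
    by_contra hη
    apply h
    have h3 : fderiv ℝ ζ η = 0 := by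
      by_contra h3
      exact hη (support_fderiv_subset ℝ h3)
    have h1 : ∀ i A, pd i A (fun y' => pp ζ (o j) y' s) η = 0 := by
      intro i A
      have h2 := pd_csmul (i := i) (A := A) (c := ζ) (u := fun _ : Cfg r => o j s)
        ((hζ.differentiable (by simp)) η) (differentiableAt_const _)
      rw [h3, image_eq_zero_of_notMem_tsupport hη] at h2
      simpa [pp] using h2
    simp [Setup.DF, h1]
  obtain ⟨a1, ha1, hae, hs2⟩ := hs2
  have hM : SqM S R u := ⟨hS.inv, hS.pos, hS.lim, fun s t hs hst => by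
    obtain ⟨C, hC⟩ := hS.bd s t hs hst
    exact ⟨C, fun k => le_trans (le_add_of_nonneg_right
      (mul_nonneg (sq_nonneg _) (leq_ena_nonneg _ _ _))) (hC k)⟩⟩
  have hM' : SqM S R (fun k x => ((R k : ℝ) : ℂ) • S.Q β (u k) x) :=
    ⟨fun k => leq_ginvQ hQ (hS.inv k) _ β, hS.pos, hS.lim, fun s t hs hst => by
      obtain ⟨C, hC⟩ := hS.bd s t hs hst
      exact ⟨C, fun k => (leq_mas_le S _ β _ _).trans
        (le_trans (le_add_of_nonneg_left (leq_mas_nonneg _ _)) (hC k))⟩⟩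
  obtain ⟨C, hC, hUB'⟩ := hUB hF hc dh dm r ds φ ψ z₀ h2 L Om K U D.bun
  have H1 : Tendsto (fun k => ((R k : ℝ) : ℂ) * ZZ S.κ φ ψ Om (sc U o b0) (R k) (S.Q β (u k))) atTop (𝓝 0) := by
    have h3 : Tendsto (fun k => AD.mas (fun x => ((R k : ℝ) : ℂ) • S.Q β (u k) x)
        (AD.shl d (s * R k) (t * R k))) atTop (𝓝 0) :=
      squeeze_zero (fun k => leq_mas_nonneg _ _) (fun k => leq_mas_le S _ β _ _) (hV s t hs hst)
    have h4 := leq_tend (c := C * Real.sqrt (n2 (sc U o b0))) h3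
      (fun e he => hUB' s t hs hst _ hAc hA hARg R _ hM' _ hs0 e he)
    exact h4.congr fun k => leq_ZZ_smul _ _ _ _ _ _ _ _
  have H2 : Tendsto (fun k => ZZ S.κ φ ψ Om (sc U o (T.Q0 β b0)) (R k) (u k) -
      ZZ S.κ φ ψ Om a1 (R k) (u k)) atTop (𝓝 0) := by
    have hc2 : Sec2 (tsupport ζ) (fun η s => sc U o (T.Q0 β b0) η s - a1 η s) := by
      refine ⟨hs1.1.sub hs2.1, fun η s h => ?_⟩
      by_contra hη
      apply h
      have h3 : sc U o (T.Q0 β b0) η s = 0 := by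
        by_contra h3
        exact hη (hs1.2 η s h3)
      have h4 : a1 η s = 0 := by
        by_contra h4
        exact hη (hs2.2 η s h4)
      change sc U o (T.Q0 β b0) η s - a1 η s = 0
      rw [h3, h4, sub_zero]
    have hn : n2 (fun η s => sc U o (T.Q0 β b0) η s - a1 η s) = 0 := by
      rw [n2]
      refine integral_eq_zero_of_ae (hae.mono fun q hq => ?_)
      change ‖sc U o (T.Q0 β b0) q.1 q.2 - a1 q.1 q.2‖ ^ 2 = 0
      rw [hq, sub_self, norm_zero]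
      norm_num
    have h5 : ∀ k, ZZ S.κ φ ψ Om (fun η s => sc U o (T.Q0 β b0) η s - a1 η s) (R k) (u k) =
        ZZ S.κ φ ψ Om (sc U o (T.Q0 β b0)) (R k) (u k) - ZZ S.κ φ ψ Om a1 (R k) (u k) := by
      intro k
      have h6 := (hLin hF dh dm r ds φ ψ L Om K U D.bun _ hAc hARg (R k) (hS.pos k) (u k)
        (hS.inv k).1).2.1 _ _ hc2 hs2
      simp only [sub_add_cancel] at h6
      rw [eq_sub_iff_add_eq]
      exact h6.symm
    refine Tendsto.congr h5 ?_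
    refine leq_tend (c := 0) (m := fun _ => 0) tendsto_const_nhds fun e he => ?_
    have h6 := hUB' s t hs hst _ hAc hA hARg R u hM _ hc2 e he
    rw [hn] at h6
    simpa using h6
  obtain ⟨δ, hδ, hG'⟩ := hG dh dm r ds φ ψ hF D.sub D.cen (AN.N0 S) hFr.1 L Om K U D.bun ζ hζ hζc hζL hζ0
  have hIZ : AE.IZm (S.int φ ψ D.sub D.cen) K (o j) :=
    hZm ds (S.int φ ψ D.sub D.cen) hF K (fun α A v hv => D.bun.K_th α (ψ (Sum.inr A)) v hv) (o j) (D.zm j)
      (D.mem j) (D.val j)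
  obtain ⟨m0, hm0⟩ := (hS.lim.eventually_ge_atTop (max 1 (1 / δ ^ 2))).exists_forall_of_atTop
  have hlim : Tendsto (fun k => R (k + m0)) atTop atTop := hS.lim.comp (tendsto_add_atTop_nat m0)
  have hone : ∀ k, 1 ≤ R (k + m0) := fun k => (le_max_left _ _).trans (hm0 _ (Nat.le_add_left _ _))
  have htwo : ∀ k, 1 ≤ δ ^ 2 * R (k + m0) := fun k => by
    have h3 : 1 / δ ^ 2 ≤ R (k + m0) := (le_max_right _ _).trans (hm0 _ (Nat.le_add_left _ _))
    rw [div_le_iff₀ (by positivity)] at h3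
    linarith
  have H3 := hG' 0 le_rfl (o j) hIZ (fun k => R (k + m0)) (fun k => u (k + m0)) hone hlim
    (fun k => leq_ginv (hS.inv _)) (fun s t hs hst => by
      obtain ⟨C', hC'⟩ := hS.bd s t hs hst
      refine ⟨C', fun k => ?_⟩
      have h7 := hC' (k + m0)
      simp only [leq_QN]
      exact h7) (fun k => chi (R (k + m0))) (leq_cutA hδ hlim hone htwo) β
  simp only [leq_QN] at H3
  have H4 : Tendsto (fun k => ZZ S.κ φ ψ Om a1 (R (k + m0)) (u (k + m0))) atTop (𝓝 0) := by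
    have h8 := (H1.comp (tendsto_add_atTop_nat m0)).sub H3
    rw [sub_zero] at h8
    refine h8.congr fun k => ?_
    rw [ha1, ← e0]
    simp only [Function.comp_apply, ZZ, AE.ZL]
    ring
  have H5 := (tendsto_add_atTop_iff_nat (f := fun k => ZZ S.κ φ ψ Om a1 (R k) (u k)) m0).1 H4
  have H6 := H2.add H5
  rw [add_zero] at H6
  exact H6.congr fun k => sub_add_cancel _ _

lemma leq_ZZ_sum {κ : ℝ} {φ : Spl dh dm d} {ψ : Spl r ds dh} {Om : Cfg r → Matrix (Fin dm) (Fin dm) ℝ}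
    {R : ℝ} {u : Cfg d → F} {A : Set (Cfg r)}
    (hadd : ∀ a a' : Cfg r → Cfg ds → F, Sec2 A a → Sec2 A a' → ZZ κ φ ψ Om (fun η s => a η s + a' η s) R u =
      ZZ κ φ ψ Om a R u + ZZ κ φ ψ Om a' R u) {ι : Type*} (I : Finset ι) (a : ι → Cfg r → Cfg ds → F)
    (ha : ∀ i ∈ I, Sec2 A (a i)) :
    Sec2 A (fun η s => ∑ i ∈ I, a i η s) ∧
      ZZ κ φ ψ Om (fun η s => ∑ i ∈ I, a i η s) R u = ∑ i ∈ I, ZZ κ φ ψ Om (a i) R u := by
  classical
  induction I using Finset.induction_on with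
  | empty =>
    simp only [Finset.sum_empty]
    exact ⟨⟨MemLp.zero', fun η s h => absurd rfl h⟩, leq_ZZ_zero _ _ _ _ _ _⟩
  | insert i I hi ih =>
    obtain ⟨h1, h2⟩ := ih fun k hk => ha k (Finset.mem_insert_of_mem hk)
    have h3 := ha i (Finset.mem_insert_self _ _)
    simp only [Finset.sum_insert hi]
    refine ⟨⟨h3.1.add h1.1, fun η s h => ?_⟩, ?_⟩
    · by_contra hη
      apply h
      have h4 : a i η s = 0 := by
        by_contra h4
        exact hη (h3.2 η s h4)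
      have h5 : ∑ k ∈ I, a k η s = 0 := by
        by_contra h5
        exact hη (h1.2 η s h5)
      change a i η s + ∑ k ∈ I, a k η s = 0
      rw [h4, h5, add_zero]
    · rw [← h2]
      exact hadd _ _ h3 h1

theorem eq_of (S : Setup d F) : LEqOfStmt S := by
  intro hG hFr hQ hZm hUB hLin hIso hF hc dh dm r ds n φ ψ z₀ h2 L Om K U o T D R u hS hV β b hb
  have hbT : Setup.Tst b := hb.1.1
  have hbc : IsCompact (tsupport b) := hbT.2
  have hbL : tsupport b ⊆ (Coll L)ᶜ := hb.1.2.subset_compl_right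
  have hζ : ∀ j, ContDiff ℝ ∞ (fun η => b η j) := fun j => by
    exact ((EuclideanSpace.proj j : EuclideanSpace ℂ (Fin n) →L[ℂ] ℂ).restrictScalars ℝ).contDiff.comp hbT.1
  have hsub : ∀ j, tsupport (fun η => b η j) ⊆ tsupport b := fun j => by
    refine closure_mono fun η hη => ?_
    rw [Function.mem_support] at hη ⊢
    intro h
    exact hη (by rw [h]; rfl)
  have hζc : ∀ j, HasCompactSupport (fun η => b η j) := fun j =>
    hbc.of_isClosed_subset (isClosed_tsupport _) (hsub j)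
  have H : ∀ j, _ := fun j => leq_one S hG hFr hQ hZm hUB hLin hIso hF hc h2 D hS hV β (hζ j) (hζc j)
    (hb.1.2.mono_left (hsub j)) (fun h => hb.2 (hsub j h)) j
  have hbs : b = fun η => ∑ j, b η j • (EuclideanSpace.single j (1 : ℂ) : Ek n) := by
    funext η
    ext k
    simp [Pi.single_apply]
  have hQ0 : ∀ η, T.Q0 β b η = ∑ j, T.Q0 β (fun η => b η j • (EuclideanSpace.single j (1 : ℂ) : Ek n)) η := by
    intro η
    have h3 : ∀ i A, pd i A b η = ∑ j, pd i A (fun η => b η j • (EuclideanSpace.single j (1 : ℂ) : Ek n)) η := by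
      intro i A
      conv_lhs => rw [hbs]
      exact pd_sum Finset.univ fun j _ =>
        (((hζ j).smul contDiff_const).differentiable (by simp)) η
    simp only [Setup.Q0, h3, map_sum]
    rw [← Finset.smul_sum]
    congr 1
    have h4 : ∀ i : Fin 9, (∑ A : Fin r, ∑ j : Fin n, (T.vec (T.g i) A β)
        (pd i A (fun η => b η j • (EuclideanSpace.single j (1 : ℂ) : Ek n)) η)) = ∑ j : Fin n, ∑ A : Fin r,
        (T.vec (T.g i) A β) (pd i A (fun η => b η j • (EuclideanSpace.single j (1 : ℂ) : Ek n)) η) :=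
      fun i => Finset.sum_comm
    simp only [h4]
    rw [Finset.sum_comm]
  have hsc : sc U o (T.Q0 β b) = fun η s => ∑ j,
      sc U o (T.Q0 β (fun η => b η j • (EuclideanSpace.single j (1 : ℂ) : Ek n))) η s := by
    funext η s
    simp only [sc, hQ0]
    rw [Finset.sum_comm]
    refine Finset.sum_congr rfl fun k _ => ?_
    rw [← Finset.sum_smul]
    congr 1
    simp
  have key : ∀ k, ZZ S.κ φ ψ Om (sc U o (T.Q0 β b)) (R k) (u k) = ∑ j, ZZ S.κ φ ψ Om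
      (sc U o (T.Q0 β (fun η => b η j • (EuclideanSpace.single j (1 : ℂ) : Ek n)))) (R k) (u k) := by
    intro k
    rw [hsc]
    exact (leq_ZZ_sum (hLin hF dh dm r ds φ ψ L Om K U D.bun _ hbc (fun η hη => leq_Rg S D.bun (hbL hη))
      (R k) (hS.pos k) (u k) (hS.inv k).1).2.1 Finset.univ _ fun j _ =>
        ⟨(H j).1.1, fun η s h => hsub j ((H j).1.2 η s h)⟩).2
  rw [funext key]
  have H7 := tendsto_finsetSum Finset.univ fun j _ => (H j).2
  simpa using H7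

end Vale.Agent.P353.Z.AL
end

section

/-! # P353, all `N`, block E: `GLimLStmt` from `GLimStmt` (radial cutoff) -/

open MeasureTheory Filter Topology Matrix
open scoped ContDiff

namespace Vale.Agent.P353.Z.AE

variable {d dh dm r ds : ℕ} {F : Type*} [NormedAddCommGroup F] [InnerProductSpace ℂ F]

private lemma gll_fsum (S : Setup d F) (C : Fin d) (a : Fin d → ℂ) :
    ∑ A, ∑ B, (S.f C A B : ℂ) * (a A * a B) = 0 := by
  have he : ∀ A B : Fin d, S.f C B A = - S.f C A B := fun A B => S.f_swap' C A B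
  have h1 : ∑ A, ∑ B, (S.f C A B : ℂ) * (a A * a B) =
      -∑ A, ∑ B, (S.f C A B : ℂ) * (a A * a B) := by
    conv_lhs => rw [Finset.sum_comm]
    rw [← Finset.sum_neg_distrib]
    refine Finset.sum_congr rfl fun A _ => ?_
    rw [← Finset.sum_neg_distrib]
    refine Finset.sum_congr rfl fun B _ => ?_
    rw [he A B]
    push_cast
    ring
  have h2 : (2 : ℂ) * ∑ A, ∑ B, (S.f C A B : ℂ) * (a A * a B) = 0 := by
    linear_combination h1
  simpa using h2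

private lemma gll_Grad (S : Setup d F) {f : ℝ → ℝ} (hf : ContDiff ℝ ∞ f) (C : Fin d) (u : (Cfg d) → F)
    (x : (Cfg d)) (hu : DifferentiableAt ℝ u x) :
    S.G C (fun y => ((rad f y : ℝ) : ℂ) • u y) x = ((rad f x : ℝ) : ℂ) • S.G C u x := by
  have h : ∀ i A, pd i A (fun y => ((rad f y : ℝ) : ℂ) • u y) x =
      ((2 * deriv f (‖x‖ ^ 2) * x (i, A) : ℝ) : ℂ) • u x + ((rad f x : ℝ) : ℂ) • pd i A u x := by
    intro i A
    rw [pd_rsmul ((contDiff_rad hf).differentiable (by simp) x) hu]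
    have := pdr_rad hf i A x
    rw [pdr] at this
    rw [this]
  have e : ∑ i, ∑ A, ∑ B, ((S.f C A B : ℂ) * (x (i, A) : ℂ)) •
      (((2 * deriv f (‖x‖ ^ 2) * x (i, B) : ℝ) : ℂ) • u x) = 0 := by
    refine Finset.sum_eq_zero fun i _ => ?_
    have e1 := gll_fsum S C (fun A => (x (i, A) : ℂ))
    have e2 : ∑ A, ∑ B, ((S.f C A B : ℂ) * (x (i, A) : ℂ)) •
        (((2 * deriv f (‖x‖ ^ 2) * x (i, B) : ℝ) : ℂ) • u x) =
        ((2 * deriv f (‖x‖ ^ 2) : ℝ) : ℂ) •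
          (∑ A, ∑ B, (S.f C A B : ℂ) * ((x (i, A) : ℂ) * (x (i, B) : ℂ))) • u x := by
      rw [Finset.sum_smul, Finset.smul_sum]
      refine Finset.sum_congr rfl fun A _ => ?_
      rw [Finset.sum_smul, Finset.smul_sum]
      refine Finset.sum_congr rfl fun B _ => ?_
      rw [smul_smul, smul_smul]
      congr 1
      push_cast
      ring
    rw [e2, e1, zero_smul, smul_zero]
  have e3 : ∑ i, ∑ A, ∑ B, ((S.f C A B : ℂ) * (x (i, A) : ℂ)) •
      (((2 * deriv f (‖x‖ ^ 2) * x (i, B) : ℝ) : ℂ) • u x + ((rad f x : ℝ) : ℂ) • pd i B u x) =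
      ((rad f x : ℝ) : ℂ) • ∑ i, ∑ A, ∑ B, ((S.f C A B : ℂ) * (x (i, A) : ℂ)) • pd i B u x := by
    simp only [smul_add, Finset.sum_add_distrib]
    rw [e, zero_add]
    simp only [Finset.smul_sum]
    refine Finset.sum_congr rfl fun i _ => Finset.sum_congr rfl fun A _ =>
      Finset.sum_congr rfl fun B _ => ?_
    rw [smul_comm]
  simp only [Setup.G, h]
  rw [e3, map_smul, smul_add, smul_comm ((rad f x : ℝ) : ℂ) (-Complex.I)]

private lemma gll_QN (S : Setup d F) (N : Fin 9 → Matrix (Fin 16) (Fin 16) ℂ) (m : ℝ) {f : ℝ → ℝ}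
    (hf : ContDiff ℝ ∞ f) (β : Fin 16) (u : Cfg d → F) (x : Cfg d) (hu : DifferentiableAt ℝ u x) :
    QN S N m β (fun y => ((rad f y : ℝ) : ℂ) • u y) x = ((rad f x : ℝ) : ℂ) • QN S N m β u x +
      (-Complex.I * ((2 * deriv f (‖x‖ ^ 2) : ℝ) : ℂ)) • S.B β x (u x) := by
  unfold QN
  rw [S.Q_rad hf β u x hu, map_smul, smul_add, smul_comm (m : ℂ)]
  abel

private lemma gll_normB (S : Setup d F) :
    ∃ K : ℝ, 0 ≤ K ∧ ∀ β x v, ‖S.B β x v‖ ≤ K * ‖x‖ * ‖v‖ := by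
  refine ⟨∑ β, ∑ i, ∑ A, ‖S.vec (S.g i) A β‖, by positivity, fun β x v => ?_⟩
  have h1 : ‖S.B β x v‖ ≤ ∑ i, ∑ A, ‖x‖ * ‖S.vec (S.g i) A β‖ * ‖v‖ := by
    unfold Setup.B
    simp only [_root_.sum_apply, _root_.smul_apply]
    refine (norm_sum_le _ _).trans (Finset.sum_le_sum fun i _ => (norm_sum_le _ _).trans
      (Finset.sum_le_sum fun A _ => ?_))
    rw [norm_smul, mul_assoc]
    refine mul_le_mul ?_ (ContinuousLinearMap.le_opNorm _ _) (norm_nonneg _) (norm_nonneg _)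
    rw [Complex.norm_real]
    exact PiLp.norm_apply_le x (i, A)
  refine h1.trans ?_
  have h2 : ∑ i, ∑ A, ‖x‖ * ‖S.vec (S.g i) A β‖ * ‖v‖ =
      (∑ i, ∑ A, ‖S.vec (S.g i) A β‖) * (‖x‖ * ‖v‖) := by
    rw [Finset.sum_mul]
    refine Finset.sum_congr rfl fun i _ => ?_
    rw [Finset.sum_mul]
    exact Finset.sum_congr rfl fun A _ => by ring
  rw [h2, mul_assoc]
  refine mul_le_mul_of_nonneg_right ?_ (by positivity)
  exact Finset.single_le_sum (f := fun β => ∑ i, ∑ A, ‖S.vec (S.g i) A β‖)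
    (fun β _ => by positivity) (Finset.mem_univ β)

private lemma gll_norm (φ : Spl dh dm d) (ψ : Spl r ds dh) (x : Cfg d) :
    ‖x‖ ^ 2 = ‖AN.hz ψ (AN.zy φ x)‖ ^ 2 + ‖AN.hs ψ (AN.zy φ x)‖ ^ 2 + ‖AN.pm φ x‖ ^ 2 := by
  have e1 : ∀ (n : ℕ) (y : Cfg n), ‖y‖ ^ 2 = ∑ i, ∑ A, y (i, A) ^ 2 := by
    intro n y
    rw [EuclideanSpace.norm_sq_eq, Fintype.sum_prod_type]
    simp
  rw [e1, e1, e1, e1, ← Finset.sum_add_distrib, ← Finset.sum_add_distrib]
  refine Finset.sum_congr rfl fun i _ => ?_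
  have h1 := φ.sum_comp (fun A => x (i, A) ^ 2)
  rw [Fintype.sum_sum_type] at h1
  have h2 := ψ.sum_comp (fun A => x (i, φ (Sum.inl A)) ^ 2)
  rw [Fintype.sum_sum_type] at h2
  rw [← h1, ← h2]
  rfl

private lemma gll_rho (a M : ℝ) (ha : 0 < a) : ∃ ρ : ℝ → ℝ, ∃ D : ℝ, 0 ≤ D ∧ ContDiff ℝ ∞ ρ ∧
    (∀ t, 0 ≤ ρ t ∧ ρ t ≤ 1) ∧ (∀ t, 2 * a ≤ t → t ≤ M + 1 → ρ t = 1) ∧ (∀ t, t ≤ a → ρ t = 0) ∧
    (∀ t, M + 2 ≤ t → ρ t = 0) ∧ ∀ t, |deriv ρ t| ≤ D := by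
  let ρ : ℝ → ℝ := fun t => Real.smoothTransition ((t - a) / a) * Real.smoothTransition (M + 2 - t)
  have h0 : ∀ t, t ≤ a → ρ t = 0 := by
    intro t ht
    have : Real.smoothTransition ((t - a) / a) = 0 :=
      Real.smoothTransition.zero_of_nonpos (div_nonpos_of_nonpos_of_nonneg (by linarith) ha.le)
    simp [ρ, this]
  have h1 : ∀ t, M + 2 ≤ t → ρ t = 0 := by
    intro t ht
    have : Real.smoothTransition (M + 2 - t) = 0 :=
      Real.smoothTransition.zero_of_nonpos (by linarith)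
    simp [ρ, this]
  have hs : ContDiff ℝ ∞ ρ :=
    (Real.smoothTransition.contDiff.comp ((contDiff_id.sub contDiff_const).div_const a)).mul
      (Real.smoothTransition.contDiff.comp (contDiff_const.sub contDiff_id))
  have hc : HasCompactSupport ρ := by
    refine HasCompactSupport.intro (isCompact_Icc (a := a) (b := M + 2)) fun t ht => ?_
    rw [Set.mem_Icc, not_and_or, not_le, not_le] at ht
    rcases ht with ht | ht
    · exact h0 t ht.le
    · exact h1 t ht.le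
  obtain ⟨D, hD⟩ := (hs.continuous_deriv (by simp)).bounded_above_of_compact_support hc.deriv
  refine ⟨ρ, D, (norm_nonneg _).trans (hD 0), hs, fun t => ⟨?_, ?_⟩, fun t h2 h3 => ?_, h0, h1,
    fun t => hD t⟩
  · exact mul_nonneg (Real.smoothTransition.nonneg _) (Real.smoothTransition.nonneg _)
  · exact mul_le_one₀ (Real.smoothTransition.le_one _) (Real.smoothTransition.nonneg _)
      (Real.smoothTransition.le_one _)
  · have e1 : Real.smoothTransition ((t - a) / a) = 1 :=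
      Real.smoothTransition.one_of_one_le (by rw [le_div_iff₀ ha]; linarith)
    have e2 : Real.smoothTransition (M + 2 - t) = 1 :=
      Real.smoothTransition.one_of_one_le (by linarith)
    simp [ρ, e1, e2]

/-- the radial cutoff at scale `R` -/
private lemma gll_cut (S : Setup d F) (a M : ℝ) (ha : 0 < a) (ha1 : a ≤ 1) (hM : 0 ≤ M) : ∃ K : ℝ, 0 ≤ K ∧
    ∀ R : ℝ, 1 ≤ R → ∃ f : ℝ → ℝ, ContDiff ℝ ∞ f ∧ (∀ t, 0 ≤ f t ∧ f t ≤ 1) ∧
      (∀ t, 2 * a * R ^ 2 ≤ t → t ≤ (M + 1) * R ^ 2 → f t = 1) ∧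
      (∀ x : Cfg d, x ∉ AD.shl d (a / 2 * R) ((M + 3) * R) → rad f x = 0) ∧
      ∀ (N : Fin 9 → Matrix (Fin 16) (Fin 16) ℂ) (m : ℝ) (β : Fin 16) (u : Cfg d → F) (x : Cfg d),
        DifferentiableAt ℝ u x → ‖QN S N m β (fun y => ((rad f y : ℝ) : ℂ) • u y) x‖ ^ 2 ≤
          (AD.shl d (a / 2 * R) ((M + 3) * R)).indicator
            (fun x => 2 * ‖QN S N m β u x‖ ^ 2 + K / R ^ 2 * ‖u x‖ ^ 2) x := by
  obtain ⟨ρ, D, hD, hs, hb, h1, h0, h2, hd⟩ := gll_rho a M ha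
  obtain ⟨K, hK, hB⟩ := gll_normB S
  refine ⟨2 * (2 * D * K * (M + 3)) ^ 2, by positivity, fun R hR => ?_⟩
  have hR0 : 0 < R := by linarith
  have hR2 : 0 < R ^ 2 := by positivity
  have hfs : ContDiff ℝ ∞ (fun t => ρ (t * (R ^ 2)⁻¹)) := hs.comp (contDiff_id.mul contDiff_const)
  have hout : ∀ x : Cfg d, x ∉ AD.shl d (a / 2 * R) ((M + 3) * R) →
      ‖x‖ ^ 2 * (R ^ 2)⁻¹ < a ∨ M + 2 < ‖x‖ ^ 2 * (R ^ 2)⁻¹ := by
    intro x hx
    unfold AD.shl at hx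
    rw [Set.mem_ofPred_eq, not_and_or, not_lt, not_lt] at hx
    rcases hx with hx | hx
    · left
      rw [← div_eq_mul_inv, div_lt_iff₀ hR2]
      calc ‖x‖ ^ 2 ≤ (a / 2 * R) ^ 2 := pow_le_pow_left₀ (norm_nonneg _) hx 2
        _ = a ^ 2 / 4 * R ^ 2 := by ring
        _ < a * R ^ 2 := by
          refine mul_lt_mul_of_pos_right ?_ hR2
          nlinarith
    · right
      rw [← div_eq_mul_inv, lt_div_iff₀ hR2]
      calc (M + 2) * R ^ 2 < (M + 3) ^ 2 * R ^ 2 := by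
            refine mul_lt_mul_of_pos_right ?_ hR2
            nlinarith
        _ = ((M + 3) * R) ^ 2 := by ring
        _ ≤ ‖x‖ ^ 2 := pow_le_pow_left₀ (by positivity) hx 2
  have hder : ∀ t, deriv (fun t => ρ (t * (R ^ 2)⁻¹)) t = deriv ρ (t * (R ^ 2)⁻¹) * (R ^ 2)⁻¹ := by
    intro t
    have e1 : HasDerivAt (fun t : ℝ => t * (R ^ 2)⁻¹) ((R ^ 2)⁻¹) t := by
      simpa using (hasDerivAt_id t).mul_const ((R ^ 2)⁻¹)
    have e2 : HasDerivAt ρ (deriv ρ (t * (R ^ 2)⁻¹)) (t * (R ^ 2)⁻¹) :=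
      ((hs.differentiable (by simp)) _).hasDerivAt
    exact (e2.comp t e1).deriv
  have hd0 : ∀ t, t < a → deriv ρ t = 0 := by
    intro t ht
    have e : ρ =ᶠ[𝓝 t] fun _ => 0 := by
      filter_upwards [Iio_mem_nhds ht] with s hs'
      exact h0 s (le_of_lt hs')
    rw [e.deriv_eq, deriv_const]
  have hd2 : ∀ t, M + 2 < t → deriv ρ t = 0 := by
    intro t ht
    have e : ρ =ᶠ[𝓝 t] fun _ => 0 := by
      filter_upwards [Ioi_mem_nhds ht] with s hs'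
      exact h2 s (le_of_lt hs')
    rw [e.deriv_eq, deriv_const]
  refine ⟨fun t => ρ (t * (R ^ 2)⁻¹), hfs, fun t => hb _, fun t ht1 ht2 => ?_, fun x hx => ?_,
    fun N m β u x hu => ?_⟩
  · refine h1 _ ?_ ?_
    · rw [← div_eq_mul_inv, le_div_iff₀ hR2]
      exact ht1
    · rw [← div_eq_mul_inv, div_le_iff₀ hR2]
      exact ht2
  · rcases hout x hx with h | h
    · exact h0 _ h.le
    · exact h2 _ h.le
  · rw [gll_QN S N m hfs β u x hu]
    by_cases hx : x ∈ AD.shl d (a / 2 * R) ((M + 3) * R)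
    · rw [Set.indicator_of_mem hx]
      have n1 : ‖((rad (fun t => ρ (t * (R ^ 2)⁻¹)) x : ℝ) : ℂ) • QN S N m β u x‖ ≤ ‖QN S N m β u x‖ := by
        have hr0 : 0 ≤ rad (fun t => ρ (t * (R ^ 2)⁻¹)) x := (hb _).1
        rw [norm_smul, Complex.norm_real, Real.norm_of_nonneg hr0]
        exact mul_le_of_le_one_left (norm_nonneg _) (hb _).2
      have n2 : ‖(-Complex.I * ((2 * deriv (fun t => ρ (t * (R ^ 2)⁻¹)) (‖x‖ ^ 2) : ℝ) : ℂ)) •
          S.B β x (u x)‖ ≤ 2 * D * K * (M + 3) / R * ‖u x‖ := by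
        rw [norm_smul, norm_mul, norm_neg, Complex.norm_I, one_mul, Complex.norm_real, hder,
          Real.norm_eq_abs, abs_mul, abs_mul, abs_of_pos (inv_pos.2 hR2), abs_of_pos (by norm_num : (0:ℝ) < 2)]
        have hxn : ‖x‖ ≤ (M + 3) * R := (le_of_lt hx.2)
        calc 2 * (|deriv ρ (‖x‖ ^ 2 * (R ^ 2)⁻¹)| * (R ^ 2)⁻¹) * ‖S.B β x (u x)‖
            ≤ 2 * (D * (R ^ 2)⁻¹) * (K * ((M + 3) * R) * ‖u x‖) := by
              refine mul_le_mul ?_ ((hB β x (u x)).trans ?_) (norm_nonneg _) (by positivity)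
              · exact mul_le_mul_of_nonneg_left (mul_le_mul_of_nonneg_right (hd _) (by positivity))
                  (by norm_num)
              · exact mul_le_mul_of_nonneg_right (mul_le_mul_of_nonneg_left hxn hK) (norm_nonneg _)
          _ = 2 * D * K * (M + 3) / R * ‖u x‖ := by
              field_simp
      have n3 := norm_add_le (((rad (fun t => ρ (t * (R ^ 2)⁻¹)) x : ℝ) : ℂ) • QN S N m β u x)
        ((-Complex.I * ((2 * deriv (fun t => ρ (t * (R ^ 2)⁻¹)) (‖x‖ ^ 2) : ℝ) : ℂ)) • S.B β x (u x))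
      have n4 := pow_le_pow_left₀ (norm_nonneg _) (n3.trans (add_le_add n1 n2)) 2
      refine n4.trans ?_
      have e5 : 2 * (2 * D * K * (M + 3)) ^ 2 / R ^ 2 * ‖u x‖ ^ 2 =
          2 * (2 * D * K * (M + 3) / R * ‖u x‖) ^ 2 := by
        field_simp
      rw [e5]
      nlinarith [sq_nonneg (‖QN S N m β u x‖ - 2 * D * K * (M + 3) / R * ‖u x‖)]
    · rw [Set.indicator_of_notMem hx]
      have e1 : rad (fun t => ρ (t * (R ^ 2)⁻¹)) x = 0 := by
        rcases hout x hx with h | h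
        · exact h0 _ h.le
        · exact h2 _ h.le
      have e2 : deriv (fun t => ρ (t * (R ^ 2)⁻¹)) (‖x‖ ^ 2) = 0 := by
        rw [hder]
        rcases hout x hx with h | h
        · rw [hd0 _ h, zero_mul]
        · rw [hd2 _ h, zero_mul]
      rw [e1, e2]
      simp

private lemma gll_shl_open (s t : ℝ) : IsOpen (AD.shl d s t) :=
  (isOpen_lt continuous_const continuous_norm).inter (isOpen_lt continuous_norm continuous_const)

private lemma gll_QN_tst (S : Setup d F) (N : Fin 9 → Matrix (Fin 16) (Fin 16) ℂ) (m : ℝ) (β : Fin 16)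
    {u : Cfg d → F} (hu : Setup.Tst u) : Setup.Tst (QN S N m β u) := by
  have hM : ContDiff ℝ ∞ (fun x => (m : ℂ) • S.Mx N β x) := by
    unfold Setup.Mx
    refine ContDiff.const_smul (m : ℂ) (ContDiff.sum fun i _ => ContDiff.sum fun A _ => ?_)
    exact (Setup.contDiff_ofReal (Setup.contDiff_coord _)).smul contDiff_const
  exact (Setup.Tst.Q S hu β).add (Setup.Tst.clm hM hu)

/-- the cut off sequence is bounded -/
private lemma gll_bd (S : Setup d F) (a M : ℝ) (ha : 0 < a) (ha1 : a ≤ 1) (hM : 0 ≤ M) : ∃ K : ℝ, 0 ≤ K ∧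
    ∀ R : ℝ, 1 ≤ R → ∃ f : ℝ → ℝ, ContDiff ℝ ∞ f ∧
      (∀ t, 2 * a * R ^ 2 ≤ t → t ≤ (M + 1) * R ^ 2 → f t = 1) ∧
      ∀ (N : Fin 9 → Matrix (Fin 16) (Fin 16) ℂ) (m : ℝ) (u : Cfg d → F), GI S u →
        GI S (fun y => ((rad f y : ℝ) : ℂ) • u y) ∧
        nsq (fun y => ((rad f y : ℝ) : ℂ) • u y) ≤ AD.mas u (AD.shl d (a / 2 * R) ((M + 3) * R)) ∧
        R ^ 2 * ∑ β, nsq (QN S N m β (fun y => ((rad f y : ℝ) : ℂ) • u y)) ≤
          2 * (R ^ 2 * ∑ β, ∫ x in AD.shl d (a / 2 * R) ((M + 3) * R), ‖QN S N m β u x‖ ^ 2) +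
            16 * K * AD.mas u (AD.shl d (a / 2 * R) ((M + 3) * R)) := by
  obtain ⟨K, hK, hc⟩ := gll_cut S a M ha ha1 hM
  refine ⟨K, hK, fun R hR => ?_⟩
  obtain ⟨f, hf, hb, h1, h0, hQ⟩ := hc R hR
  have hR0 : 0 < R := by linarith
  have hR2 : 0 < R ^ 2 := by positivity
  refine ⟨f, hf, h1, fun N m u hu => ⟨⟨?_, fun C x => ?_⟩, ?_, ?_⟩⟩
  · exact Setup.Tst.rsmul (contDiff_rad hf) hu.tst
  · rw [gll_Grad S hf C u x (hu.tst.diff x), hu.inv, smul_zero]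
  · unfold nsq AD.mas
    rw [← integral_indicator (gll_shl_open _ _).measurableSet]
    refine integral_mono_of_nonneg (ae_of_all _ fun x => by positivity)
      (hu.tst.norm_sq_int.indicator (gll_shl_open _ _).measurableSet) (ae_of_all _ fun x => ?_)
    by_cases hx : x ∈ AD.shl d (a / 2 * R) ((M + 3) * R)
    · simp only [Set.indicator_of_mem hx]
      have hr0 : 0 ≤ rad f x := (hb _).1
      rw [norm_smul, Complex.norm_real, Real.norm_of_nonneg hr0, mul_pow]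
      exact mul_le_of_le_one_left (by positivity) (pow_le_one₀ (hb _).1 (hb _).2)
    · simp only [Set.indicator_of_notMem hx, h0 x hx]
      simp
  · have hβ : ∀ β, nsq (QN S N m β (fun y => ((rad f y : ℝ) : ℂ) • u y)) ≤
        2 * (∫ x in AD.shl d (a / 2 * R) ((M + 3) * R), ‖QN S N m β u x‖ ^ 2) +
          K / R ^ 2 * AD.mas u (AD.shl d (a / 2 * R) ((M + 3) * R)) := by
      intro β
      have i1 := (gll_QN_tst S N m β hu.tst).norm_sq_int
      have i2 := hu.tst.norm_sq_int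
      unfold nsq AD.mas
      rw [← integral_const_mul, ← integral_const_mul,
        ← integral_add (i1.integrableOn.const_mul 2) (i2.integrableOn.const_mul _),
        ← integral_indicator (gll_shl_open _ _).measurableSet]
      exact integral_mono_of_nonneg (ae_of_all _ fun x => by positivity)
        (((i1.const_mul 2).add (i2.const_mul _)).indicator (gll_shl_open _ _).measurableSet)
        (ae_of_all _ fun x => hQ N m β u x (hu.tst.diff x))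
    calc R ^ 2 * ∑ β, nsq (QN S N m β (fun y => ((rad f y : ℝ) : ℂ) • u y))
        ≤ R ^ 2 * ∑ β : Fin 16, (2 * (∫ x in AD.shl d (a / 2 * R) ((M + 3) * R), ‖QN S N m β u x‖ ^ 2) +
          K / R ^ 2 * AD.mas u (AD.shl d (a / 2 * R) ((M + 3) * R))) :=
          mul_le_mul_of_nonneg_left (Finset.sum_le_sum fun β _ => hβ β) hR2.le
      _ = _ := by
          rw [Finset.sum_add_distrib, ← Finset.mul_sum, Finset.sum_const, Finset.card_univ,
            Fintype.card_fin, nsmul_eq_mul]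
          field_simp
          push_cast
          ring

private lemma gll_QN_congr (S : Setup d F) (N : Fin 9 → Matrix (Fin 16) (Fin 16) ℂ) (m : ℝ) (β : Fin 16)
    {u v : Cfg d → F} {x : Cfg d} (h : u =ᶠ[𝓝 x] v) : QN S N m β u x = QN S N m β v x := by
  unfold QN Setup.Q pd
  rw [h.fderiv_eq, h.eq_of_nhds]

/-- on the support of the trial function the cutoff is `1` -/
private lemma gll_ZL (S : Setup d F) (φ : Spl dh dm d) (ψ : Spl r ds dh)
    (Om : Cfg r → Matrix (Fin dm) (Fin dm) ℝ) (A : Set (Cfg r)) (a M : ℝ) (ha : 0 < a)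
    (hA : ∀ η ∈ A, 4 * a ≤ ‖η‖ ^ 2 ∧ ‖η‖ ^ 2 + 2 ≤ M) (δ R : ℝ) (hδ : δ ≤ 1) (hR : 1 ≤ R)
    (χ : Cfg r × Cfg ds × Cfg dm → ℝ) (hχ : ∀ q, χ q ≠ 0 → ‖q.2.1‖ ≤ δ * R ∧
      ‖q.2.2‖ ≤ δ * (R * Real.sqrt R)) (b : Cfg r → Cfg ds → F) (hb : ∀ η s, b η s ≠ 0 → η ∈ A)
    (f : ℝ → ℝ) (hf : ∀ t, 2 * a * R ^ 2 ≤ t → t ≤ (M + 1) * R ^ 2 → f t = 1) (u v v' : Cfg d → F)
    (hv : ∀ x, (fun y => ((rad f y : ℝ) : ℂ) • u y) =ᶠ[𝓝 x] u → v x = v' x) :
    ZL S φ ψ Om χ R b v = ZL S φ ψ Om χ R b v' := by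
  unfold ZL
  refine integral_congr_ae (ae_of_all _ fun x => ?_)
  have hR0 : 0 < R := by linarith
  have hR2 : 0 < R ^ 2 := by positivity
  by_cases hz : AN.Zb φ ψ (fun q => ((χ q : ℝ) : ℂ) • AN.bG S.κ Om b q) R x = 0
  · simp only [hz, inner_zero_left]
  · have hq : ((χ (R⁻¹ • AN.hz ψ (AN.zy φ x), AN.hs ψ (AN.zy φ x), Real.sqrt R • AN.pm φ x) : ℝ) : ℂ) •
        AN.bG S.κ Om b (R⁻¹ • AN.hz ψ (AN.zy φ x), AN.hs ψ (AN.zy φ x), Real.sqrt R • AN.pm φ x) ≠ 0 := by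
      intro h0
      apply hz
      unfold AN.Zb
      exact (congrArg _ h0).trans (smul_zero _)
    have hc : χ (R⁻¹ • AN.hz ψ (AN.zy φ x), AN.hs ψ (AN.zy φ x), Real.sqrt R • AN.pm φ x) ≠ 0 := by
      intro h0
      apply hq
      rw [h0, Complex.ofReal_zero, zero_smul]
    have hbb : b (R⁻¹ • AN.hz ψ (AN.zy φ x)) (AN.hs ψ (AN.zy φ x)) ≠ 0 := by
      intro h0
      apply hq
      unfold AN.bG
      simp only [h0, smul_zero]
    obtain ⟨c1, c2⟩ := hχ _ hc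
    simp only at c1 c2
    obtain ⟨c3, c4⟩ := hA _ (hb _ _ hbb)
    have hsR : 0 < Real.sqrt R := Real.sqrt_pos.2 hR0
    rw [norm_smul, Real.norm_of_nonneg hsR.le] at c2
    have c5 : ‖AN.pm φ x‖ ≤ R := by
      have : Real.sqrt R * ‖AN.pm φ x‖ ≤ Real.sqrt R * R := by
        refine c2.trans ?_
        rw [mul_comm (Real.sqrt R) R]
        exact mul_le_of_le_one_left (by positivity) hδ
      exact le_of_mul_le_mul_left this hsR
    have c6 : ‖AN.hs ψ (AN.zy φ x)‖ ≤ R := c1.trans (mul_le_of_le_one_left hR0.le hδ)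
    rw [norm_smul, norm_inv, Real.norm_of_nonneg hR0.le, mul_pow] at c3 c4
    have c7 : ‖AN.hz ψ (AN.zy φ x)‖ ^ 2 = (R⁻¹ ^ 2 * ‖AN.hz ψ (AN.zy φ x)‖ ^ 2) * R ^ 2 := by
      field_simp
    have c8 := gll_norm φ ψ x
    have c9 : ‖AN.pm φ x‖ ^ 2 ≤ R ^ 2 := pow_le_pow_left₀ (norm_nonneg _) c5 2
    have c10 : ‖AN.hs ψ (AN.zy φ x)‖ ^ 2 ≤ R ^ 2 := pow_le_pow_left₀ (norm_nonneg _) c6 2
    have lo : 2 * a * R ^ 2 < ‖x‖ ^ 2 := by
      have : 4 * a * R ^ 2 ≤ ‖AN.hz ψ (AN.zy φ x)‖ ^ 2 := by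
        rw [c7]
        exact mul_le_mul_of_nonneg_right c3 hR2.le
      have h3 : 0 < a * R ^ 2 := by positivity
      nlinarith [sq_nonneg ‖AN.hs ψ (AN.zy φ x)‖, sq_nonneg ‖AN.pm φ x‖]
    have hi : ‖x‖ ^ 2 < (M + 1) * R ^ 2 := by
      have : ‖AN.hz ψ (AN.zy φ x)‖ ^ 2 ≤ (M - 2) * R ^ 2 := by
        rw [c7]
        exact mul_le_mul_of_nonneg_right (by linarith) hR2.le
      nlinarith
    have hev : (fun y => ((rad f y : ℝ) : ℂ) • u y) =ᶠ[𝓝 x] u := by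
      have hcn : Continuous fun y : Cfg d => ‖y‖ ^ 2 := continuous_norm.pow 2
      filter_upwards [hcn.continuousAt.eventually (Ioo_mem_nhds lo hi)] with y hy
      have : rad f y = 1 := hf _ (le_of_lt hy.1) (le_of_lt hy.2)
      rw [this, Complex.ofReal_one, one_smul]
    simp only [hv x hev]

private lemma gll_DF (S : Setup d F) (φ : Spl dh dm d) (ψ : Spl r ds dh)
    (N : Fin 9 → Matrix (Fin 16) (Fin 16) ℂ) (μ : ℝ) (β : Fin 16) (ζ : Cfg r → ℂ) (o : Cfg ds → F)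
    (η : Cfg r) (s : Cfg ds) (h : S.DF φ ψ N μ β (pp ζ o) η s ≠ 0) : η ∈ tsupport ζ := by
  by_contra hη
  apply h
  rw [notMem_tsupport_iff_eventuallyEq] at hη
  have e1 : (fun y' => pp ζ o y' s) =ᶠ[𝓝 η] fun _ => (0 : F) := by
    filter_upwards [hη] with y hy
    unfold pp
    rw [hy, Pi.zero_apply, zero_smul]
  have e2 : pp ζ o η s = 0 := e1.eq_of_nhds
  have e3 : ∀ i A, pd i A (fun y' => pp ζ o y' s) η = 0 := by
    intro i A
    unfold pd
    rw [e1.fderiv_eq]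
    simp
  unfold Setup.DF
  simp [e2, e3]

theorem gLimL (S : Setup d F) (φ : Spl dh dm d) (ψ : Spl r ds dh) (hG : GLimStmt S φ ψ) :
    GLimLStmt S φ ψ := by
  intro _ hφ hc N hN L Om K U hB ζ hζ hζc hζL hζ0
  obtain ⟨δ₀, hδ₀, H⟩ := hG ‹_› hφ hc N hN L Om K U hB ζ hζ hζc hζL
  refine ⟨min δ₀ 1, lt_min hδ₀ one_pos, fun μ hμ o ho R u hR hRl hu hbd χ hχ β => ?_⟩
  obtain ⟨e, he, hball⟩ := Metric.isOpen_iff.1 (isClosed_tsupport ζ).isOpen_compl 0 hζ0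
  obtain ⟨M0, hM0⟩ := hζc.isCompact.isBounded.exists_norm_le
  have hlow : ∀ η ∈ tsupport ζ, e ≤ ‖η‖ := by
    intro η hη
    by_contra hlt
    exact hball (by simpa using not_le.1 hlt) hη
  have hm : 0 < min e 1 := lt_min he one_pos
  set a : ℝ := (min e 1) ^ 2 / 4 with ha_def
  have ha : 0 < a := by positivity
  have ha1 : a ≤ 1 := by
    have : (min e 1) ^ 2 ≤ 1 := pow_le_one₀ hm.le (min_le_right _ _)
    rw [ha_def]; linarith
  set M : ℝ := M0 ^ 2 + 2 with hM_def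
  have hM : 0 ≤ M := by positivity
  have hA : ∀ η ∈ tsupport ζ, 4 * a ≤ ‖η‖ ^ 2 ∧ ‖η‖ ^ 2 + 2 ≤ M := by
    intro η hη
    constructor
    · rw [ha_def]
      have : (min e 1) ^ 2 ≤ ‖η‖ ^ 2 :=
        pow_le_pow_left₀ hm.le ((min_le_left _ _).trans (hlow η hη)) 2
      linarith
    · have : ‖η‖ ^ 2 ≤ M0 ^ 2 := pow_le_pow_left₀ (norm_nonneg _) (hM0 η hη) 2
      rw [hM_def]; linarith
  obtain ⟨K', hK', hcut⟩ := gll_bd S a M ha ha1 hM
  choose f hf h1 hfu using fun n => hcut (R n) (hR n)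
  obtain ⟨C, hC⟩ := hbd (a / 2) (M + 3) (by positivity) (by linarith)
  let u' : ℕ → Cfg d → F := fun n y => ((rad (f n) y : ℝ) : ℂ) • u n y
  have mas_nonneg : ∀ n, 0 ≤ AD.mas (u n) (AD.shl d (a / 2 * R n) ((M + 3) * R n)) := fun n =>
    integral_nonneg fun x => by positivity
  have en_nonneg : ∀ n, 0 ≤ R n ^ 2 * ∑ β, ∫ x in AD.shl d (a / 2 * R n) ((M + 3) * R n),
      ‖QN S N (μ / R n ^ 2) β (u n) x‖ ^ 2 := fun n =>
    mul_nonneg (by positivity) (Finset.sum_nonneg fun β _ => integral_nonneg fun x => by positivity)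
  have hSq : SqN S N μ ((2 + 16 * K') * C) R u' := by
    refine ⟨hR, hRl, fun n => (hfu n N (μ / R n ^ 2) (u n) (hu n)).1, fun n => ?_, fun n => ?_⟩
    · have h2 := (hfu n N (μ / R n ^ 2) (u n) (hu n)).2.1
      have h3 := hC n
      have h4 := mas_nonneg n
      have h5 := en_nonneg n
      have hC0 : 0 ≤ C := by linarith
      have h6 : C ≤ (2 + 16 * K') * C := by nlinarith [mul_nonneg hK' hC0]
      change nsq (fun y => ((rad (f n) y : ℝ) : ℂ) • u n y) ≤ _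
      linarith
    · have h2 := (hfu n N (μ / R n ^ 2) (u n) (hu n)).2.2
      have h3 := hC n
      have h4 := mas_nonneg n
      have h5 := en_nonneg n
      refine h2.trans ?_
      have h6 : AD.mas (u n) (AD.shl d (a / 2 * R n) ((M + 3) * R n)) ≤ C := by linarith
      have h7 : 16 * K' * AD.mas (u n) (AD.shl d (a / 2 * R n) ((M + 3) * R n)) ≤ 16 * K' * C :=
        mul_le_mul_of_nonneg_left h6 (by positivity)
      have h8 : R n ^ 2 * ∑ β, (∫ x in AD.shl d (a / 2 * R n) ((M + 3) * R n),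
          ‖QN S N (μ / R n ^ 2) β (u n) x‖ ^ 2) ≤ C := by linarith
      linarith
  have hχ' : CutA δ₀ R χ := by
    refine ⟨hχ.meas, hχ.bd, hχ.lim, fun n q hq => ?_⟩
    obtain ⟨p1, p2⟩ := hχ.sup n q hq
    have hRn : 0 ≤ R n := by linarith [hR n]
    exact ⟨p1.trans (mul_le_mul_of_nonneg_right (min_le_left _ _) hRn),
      p2.trans (mul_le_mul_of_nonneg_right (min_le_left _ _) (by positivity))⟩
  have key := H μ hμ o ho R u' _ hSq χ hχ' β
  refine key.congr fun n => ?_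
  have g1 : ZL S φ ψ Om (χ n) (R n) (fun η s => U η (pp ζ o η s)) (QN S N (μ / R n ^ 2) β (u' n)) =
      ZL S φ ψ Om (χ n) (R n) (fun η s => U η (pp ζ o η s)) (QN S N (μ / R n ^ 2) β (u n)) := by
    refine gll_ZL S φ ψ Om (tsupport ζ) a M ha hA (min δ₀ 1) (R n) (min_le_right _ _) (hR n) (χ n)
      (hχ.sup n) _ (fun η s hne => ?_) (f n) (h1 n) (u n) _ _
      (fun x hx => gll_QN_congr S N (μ / R n ^ 2) β hx)
    refine subset_tsupport ζ ?_
    intro h0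
    apply hne
    unfold pp
    rw [h0, zero_smul, map_zero]
  have g2 : ZL S φ ψ Om (χ n) (R n) (fun η s => U η (S.DF φ ψ N μ β (pp ζ o) η s)) (u' n) =
      ZL S φ ψ Om (χ n) (R n) (fun η s => U η (S.DF φ ψ N μ β (pp ζ o) η s)) (u n) := by
    refine gll_ZL S φ ψ Om (tsupport ζ) a M ha hA (min δ₀ 1) (R n) (min_le_right _ _) (hR n) (χ n)
      (hχ.sup n) _ (fun η s hne => ?_) (f n) (h1 n) (u n) _ _
      (fun x hx => hx.eq_of_nhds)
    refine gll_DF S φ ψ N μ β ζ o η s ?_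
    intro h0
    apply hne
    simp only [h0, map_zero]
  rw [g1, g2]

end Vale.Agent.P353.Z.AE
end

section

/-! # P353, all `N`, block SGN: S18 Comb (helper249) -/

open MeasureTheory Filter Topology Matrix
open scoped ContDiff

namespace Vale.Agent.P353.Z.AS

universe u

variable {d dh dm ds dz : ℕ} {F : Type u} [NormedAddCommGroup F] [InnerProductSpace ℂ F]

/-- a sum over all colours of terms supported on the `s` colours -/
lemma s249_sum {M : Type*} [AddCommMonoid M] (φ : Spl dh dm d) (ψ : Spl ds dz dh) (g : Fin d → M)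
    (h1 : ∀ B, g (φ (Sum.inr B)) = 0) (h2 : ∀ B, g (φ (Sum.inl (ψ (Sum.inr B)))) = 0) :
    ∑ B, g B = ∑ A : Fin ds, g (φ (Sum.inl (ψ (Sum.inl A)))) := by
  rw [← φ.sum_comp, Fintype.sum_sum_type]
  simp only [h1, Finset.sum_const_zero, add_zero]
  rw [← ψ.sum_comp, Fintype.sum_sum_type]
  simp only [h2, Finset.sum_const_zero, add_zero]

lemma s249_orth (φ : Spl dh dm d) (ψ : Spl ds dz dh) {O : Matrix (Fin d) (Fin d) ℝ} (hO : O * Oᵀ = 1)
    (hB : Blk φ ψ O) : sO φ ψ O * (sO φ ψ O)ᵀ = 1 := by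
  ext A B
  have h := congrFun (congrFun hO (φ (Sum.inl (ψ (Sum.inl A))))) (φ (Sum.inl (ψ (Sum.inl B))))
  rw [Matrix.mul_apply] at h
  rw [s249_sum φ ψ _ (fun C => by simp [hB.hm]) (fun C => by simp [hB.sz])] at h
  rw [Matrix.mul_apply]
  refine Eq.trans ?_ (h.trans ?_)
  · rfl
  · by_cases hAB : A = B
    · rw [hAB, Matrix.one_apply_eq, Matrix.one_apply_eq]
    · rw [Matrix.one_apply_ne hAB, Matrix.one_apply_ne]
      intro h3
      exact hAB (Sum.inl_injective (ψ.injective (Sum.inl_injective (φ.injective h3))))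

/-- **S18 Comb** -/
theorem comb_stmt
    (hRst : ∀ {d : ℕ} {F : Type u} [NormedAddCommGroup F] [InnerProductSpace ℂ F] (S : Setup d F), AX2.RstStmt S) :
    CombStmt.{u} := by
  intro d dh dm ds dz F _ _ hfd S φ ψ z₀ h hI hne L Om K U hB O G hSym hBlk hImp hSS η hG Ψ hΨ
  have hA := AX2.x2m_ant h
  have hI2 := AX2.x2m_irr2 h hI hne hB
  obtain ⟨hV, ζ, hζ, hζ1, hζA, hζu⟩ := AX2.vci_main h.ss (AX2.czs h) hfd hA K hI2
  have hGv : Gv S φ K ζ := ⟨hζ.1, fun A α => by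
    obtain ⟨p, rfl⟩ := ψ.surjective A
    rcases p with a | a
    · exact hζA a α
    · exact hζ.2 a α⟩
  have hUn : ∀ (y : Cfg dz) (v : F), ‖U y v‖ = ‖v‖ := by
    intro y v
    rw [norm_eq_sqrt_re_inner (𝕜 := ℂ), norm_eq_sqrt_re_inner (𝕜 := ℂ), hB.U_inner]
  obtain ⟨η', hη'⟩ : ∃ y, y = ro (zO φ ψ O) η := ⟨_, rfl⟩
  rw [← hη'] at hG ⊢
  -- the inverse of `U η'`
  obtain ⟨Ui, hUi1, hUi2, hUi3⟩ : ∃ Ui : F →L[ℂ] F, (∀ v, Ui (U η' v) = v) ∧ (∀ v, U η' (Ui v) = v) ∧ ∀ v, ‖Ui v‖ = ‖v‖ := by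
    let e : F ≃ₗᵢ[ℂ] F := LinearIsometryEquiv.ofSurjective ⟨(U η' : F →ₗ[ℂ] F), hUn η'⟩ (hB.U_surj η')
    refine ⟨(e.symm.toContinuousLinearEquiv : F →L[ℂ] F), fun v => e.symm_apply_apply v, fun v => e.apply_symm_apply v,
      fun v => e.symm.norm_map v⟩
  have hUc : ∀ (y : Cfg dz) α A v, U y (S.th α (φ (Sum.inl A)) v) = S.th α (φ (Sum.inl A)) (U y v) := fun y α A v =>
    congrArg (fun T : F →L[ℂ] F => T v) (hB.U_comm y α A)
  have hUic : ∀ α A v, Ui (S.th α (φ (Sum.inl A)) v) = S.th α (φ (Sum.inl A)) (Ui v) := by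
    intro α A v
    have h1 : U η' (S.th α (φ (Sum.inl A)) (Ui v)) = S.th α (φ (Sum.inl A)) v := by rw [hUc, hUi2]
    rw [← h1, hUi1]
  obtain ⟨W0, hW0⟩ : ∃ W0 : F →L[ℂ] F, ∀ v, W0 v = Ui (G (U η v)) := ⟨Ui.comp (G.comp (U η)), fun v => rfl⟩
  have hW_th : ∀ α (A : Fin ds) v, W0 (h.ss.th α A v) = ∑ B, ((sO φ ψ O B A : ℝ) : ℂ) • h.ss.th α B (W0 v) := by
    intro α A v
    have h1 : G (S.th α (φ (Sum.inl (ψ (Sum.inl A)))) (U η v)) =
        ∑ B, ((O B (φ (Sum.inl (ψ (Sum.inl A)))) : ℝ) : ℂ) • S.th α B (G (U η v)) := by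
      have h2 := congrArg (fun T : F →L[ℂ] F => T (U η v)) (hImp.imp α (φ (Sum.inl (ψ (Sum.inl A)))))
      simpa [_root_.sum_apply] using h2
    rw [s249_sum φ ψ _ (fun B => by simp [hBlk.mh]) (fun B => by simp [hBlk.zs])] at h1
    rw [AX2.x2m_ss_th, hW0, hUc, h1, map_sum]
    refine Finset.sum_congr rfl fun B _ => ?_
    rw [map_smul, hUic, AX2.x2m_ss_th, hW0]
    rfl
  have hWζ : W0 ζ = ζ := by rw [hW0, hG ζ hGv, hUi1]
  have hWn : ∀ v, ‖W0 v‖ = ‖v‖ := fun v => by rw [hW0, hUi3, hImp.norm, hUn]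
  have hζ0 : ζ ≠ 0 := fun h0 => by rw [h0, norm_zero] at hζ1; exact zero_ne_one hζ1
  have hWV : ∀ v ∈ vca (AX2.czs h) K, W0 v ∈ vca (AX2.czs h) K := by
    have h1 := hV.irr (vca (AX2.czs h) K ⊓ (vca (AX2.czs h) K).comap (W0 : F →ₗ[ℂ] F)) inf_le_left ?_
    · rcases h1 with h1 | h1
      · exfalso
        have h2 : ζ ∈ vca (AX2.czs h) K ⊓ (vca (AX2.czs h) K).comap (W0 : F →ₗ[ℂ] F) := by
          refine ⟨hζ, ?_⟩
          change W0 ζ ∈ vca (AX2.czs h) K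
          rw [hWζ]
          exact hζ
        rw [h1, Submodule.mem_bot] at h2
        exact hζ0 h2
      · intro v hv
        rw [← h1] at hv
        exact hv.2
    · rintro α A v ⟨hv1, hv2⟩
      refine ⟨hV.inv α A v hv1, ?_⟩
      change W0 (h.ss.th α A v) ∈ vca (AX2.czs h) K
      rw [hW_th]
      exact Submodule.sum_mem _ fun B _ => Submodule.smul_mem _ _ (hV.inv α B _ hv2)
  have hImpR : Imp (h.ss.rst (vca (AX2.czs h) K) hV.inv) (sO φ ψ O) (opR (vca (AX2.czs h) K) W0 hWV) := by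
    refine ⟨s249_orth φ ψ hImp.orth hBlk, fun α A => ?_, fun v => hWn v, fun v hv => ?_⟩
    · ext1 v
      apply Subtype.ext
      have h1 := hW_th α A (v : F)
      have h2 : (((opR (vca (AX2.czs h) K) W0 hWV * (h.ss.rst (vca (AX2.czs h) K) hV.inv).th α A) v :
          vca (AX2.czs h) K) : F) = W0 (h.ss.th α A v) := rfl
      rw [h2, h1, _root_.sum_apply, Submodule.coe_sum]
      rfl
    · apply Subtype.ext
      obtain ⟨c, hc⟩ := hζu v v.2 (fun A α => by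
        rw [← AX2.vci_amF_rst h.ss _ hV.inv, hv A α]
        rfl)
      change W0 (v : F) = v
      rw [hc, map_smul, hWζ]
  -- the zero mode
  obtain ⟨hZ1, hZ2⟩ := (AX2.zms_stmt h.ss (vca (AX2.czs h) K) Ψ).1 hΨ
  obtain ⟨hR1, hR2⟩ := hRst h.ss hfd (vca (AX2.czs h) K) hV.inv
  obtain ⟨Ψ', hΨ'⟩ := hR2 Ψ hZ2
  have hZ3 : (h.ss.rst (vca (AX2.czs h) K) hV.inv).IsZM Ψ' := by
    rw [hR1, ← hΨ']
    exact hZ1
  have hmain := hSS (vca (AX2.czs h) K) inferInstance (h.ss.rst (vca (AX2.czs h) K) hV.inv) rfl rfl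
    (AX2.x2m_rst_irr _ _ _ hV) ⟨⟨ζ, hζ⟩, fun h0 => hζ0 (congrArg Subtype.val h0)⟩ _ hImpR Ψ' hZ3
  have hae : ∀ᵐ x ∂(volume : Measure (Cfg ds)), Ψ x = ((Ψ' x : vca (AX2.czs h) K) : F) := by
    rw [hΨ']
    exact (vca (AX2.czs h) K).subtypeL.coeFn_compLpL Ψ'
  have horth : (sO φ ψ O)ᵀ * sO φ ψ O = 1 := mul_eq_one_comm.1 (s249_orth φ ψ hImp.orth hBlk)
  have hae2 : ∀ᵐ x ∂(volume : Measure (Cfg ds)), Ψ (ro (sO φ ψ O) x) = ((Ψ' (ro (sO φ ψ O) x) : vca (AX2.czs h) K) : F) :=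
    (Vale.Agent.P353.Z.U.pack_roE (sO φ ψ O) horth).measurePreserving.quasiMeasurePreserving.ae hae
  filter_upwards [hmain, hae, hae2] with x h1 h2 h3
  rw [h3, ← h1, h2]
  change G (U η (Ψ' x : F)) = U η' (W0 (Ψ' x : F))
  rw [hW0, hUi2]

end Vale.Agent.P353.Z.AS
end
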