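import Mathlib
import Vale.Agent.P353.BdA.B1
import Vale.Agent.P353.BdA.B16
import Vale.Agent.P353.BdA.B18
import Vale.Agent.P353.BdA.B13
import Vale.Agent.P353.BdA.B14
import Vale.Agent.P353.BdA.B5
import Vale.Agent.P353.BdA.B21
import Vale.Agent.P353.BdA.B12
import Vale.Agent.P353.BdA.B6
import Vale.Agent.P353.BdA.B23

set_option linter.all false

section

/-! # P353, all `N`, block D, L10: cut-off of `res u` near `R y₀` -/

open MeasureTheory Filter Topology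
open scoped ContDiff

namespace Vale.Agent.P353.Z.AD

variable {d dh dm ds dz : ℕ} {F : Type*} [NormedAddCommGroup F] [InnerProductSpace ℂ F]

/-- smooth step: `1` on `(-∞,1/4]`, `0` on `[1,∞)` -/
noncomputable def cl930St (s : ℝ) : ℝ := Real.smoothTransition (4 / 3 * (1 - s))

lemma cl930St_contDiff : ContDiff ℝ ∞ cl930St :=
  Real.smoothTransition.contDiff.comp (contDiff_const.mul (contDiff_const.sub contDiff_id))

lemma cl930St_nonneg (s : ℝ) : 0 ≤ cl930St s := Real.smoothTransition.nonneg _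

lemma cl930St_le_one (s : ℝ) : cl930St s ≤ 1 := Real.smoothTransition.le_one _

lemma cl930St_one {s : ℝ} (h : s ≤ 1 / 4) : cl930St s = 1 :=
  Real.smoothTransition.one_of_one_le (by linarith)

lemma cl930St_zero {s : ℝ} (h : 1 ≤ s) : cl930St s = 0 :=
  Real.smoothTransition.zero_of_nonpos (by linarith)

/-- radial cut-off -/
noncomputable def cl930R {E : Type*} [NormedAddCommGroup E] (ε : ℝ) (x : E) : ℝ := cl930St (‖x‖ ^ 2 / ε ^ 2)

lemma cl930R_contDiff {E : Type*} [NormedAddCommGroup E] [InnerProductSpace ℝ E] (ε : ℝ) :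
    ContDiff ℝ ∞ (cl930R ε : E → ℝ) :=
  cl930St_contDiff.comp ((contDiff_norm_sq ℝ).div_const _)

lemma cl930R_nonneg {E : Type*} [NormedAddCommGroup E] (ε : ℝ) (x : E) : 0 ≤ cl930R ε x := cl930St_nonneg _

lemma cl930R_le_one {E : Type*} [NormedAddCommGroup E] (ε : ℝ) (x : E) : cl930R ε x ≤ 1 := cl930St_le_one _

lemma cl930R_one {E : Type*} [NormedAddCommGroup E] {ε : ℝ} (hε : 0 < ε) {x : E} (h : ‖x‖ ≤ ε / 2) :
    cl930R ε x = 1 := by
  refine cl930St_one ?_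
  rw [div_le_iff₀ (by positivity)]
  have := norm_nonneg x
  nlinarith

lemma cl930R_ne {E : Type*} [NormedAddCommGroup E] {ε : ℝ} (hε : 0 < ε) {x : E} (h : cl930R ε x ≠ 0) :
    ‖x‖ < ε := by
  by_contra hx
  refine h (cl930St_zero ?_)
  rw [le_div_iff₀ (by positivity)]
  have := norm_nonneg x
  nlinarith [not_lt.1 hx]

lemma cl930R_congr {E E' : Type*} [NormedAddCommGroup E] [NormedAddCommGroup E'] (ε : ℝ) {x : E} {y : E'}
    (h : ‖x‖ = ‖y‖) : cl930R ε x = cl930R ε y := by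
  unfold cl930R
  rw [h]

/-- `sp` as a linear map -/
noncomputable def cl930sp (ψ : Spl ds dz dh) : Cfg dh →L[ℝ] Cfg ds :=
  LinearMap.toContinuousLinearMap
    { toFun := fun y => sp ψ y
      map_add' := fun _ _ => rfl
      map_smul' := fun _ _ => rfl }

/-- `zp` as a linear map -/
noncomputable def cl930zp (ψ : Spl ds dz dh) : Cfg dh →L[ℝ] Cfg dz :=
  LinearMap.toContinuousLinearMap
    { toFun := fun y => zp ψ y
      map_add' := fun _ _ => rfl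
      map_smul' := fun _ _ => rfl }

lemma cl930_sp_add (ψ : Spl ds dz dh) (a b : Cfg dh) : sp ψ (a + b) = sp ψ a + sp ψ b := rfl
lemma cl930_zp_add (ψ : Spl ds dz dh) (a b : Cfg dh) : zp ψ (a + b) = zp ψ a + zp ψ b := rfl
lemma cl930_sp_sub (ψ : Spl ds dz dh) (a b : Cfg dh) : sp ψ (a - b) = sp ψ a - sp ψ b := rfl
lemma cl930_zp_sub (ψ : Spl ds dz dh) (a b : Cfg dh) : zp ψ (a - b) = zp ψ a - zp ψ b := rfl
lemma cl930_sp_smul (ψ : Spl ds dz dh) (c : ℝ) (a : Cfg dh) : sp ψ (c • a) = c • sp ψ a := rfl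
lemma cl930_zp_smul (ψ : Spl ds dz dh) (c : ℝ) (a : Cfg dh) : zp ψ (c • a) = c • zp ψ a := rfl

/-- the cut-off at scale one -/
noncomputable def cl930Chi (ψ : Spl ds dz dh) (dm : ℕ) (z₀ : Cfg dz) (ε : ℝ) (p : Cfg dh × Wsp dm) : ℝ :=
  cl930R ε (zp ψ p.1 - z₀) * cl930R ε (sp ψ p.1) * cl930R ε p.2

lemma cl930Chi_contDiff (ψ : Spl ds dz dh) (dm : ℕ) (z₀ : Cfg dz) (ε : ℝ) :
    ContDiff ℝ ∞ (cl930Chi ψ dm z₀ ε) := by
  have h1 : ContDiff ℝ ∞ fun p : Cfg dh × Wsp dm => cl930R ε (zp ψ p.1 - z₀) :=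
    (cl930R_contDiff ε).comp (((cl930zp ψ).contDiff.comp contDiff_fst).sub contDiff_const)
  have h2 : ContDiff ℝ ∞ fun p : Cfg dh × Wsp dm => cl930R ε (sp ψ p.1) :=
    (cl930R_contDiff ε).comp ((cl930sp ψ).contDiff.comp contDiff_fst)
  have h3 : ContDiff ℝ ∞ fun p : Cfg dh × Wsp dm => cl930R ε p.2 :=
    (cl930R_contDiff ε).comp contDiff_snd
  exact (h1.mul h2).mul h3

lemma cl930Chi_ne (ψ : Spl ds dz dh) (dm : ℕ) (z₀ : Cfg dz) {ε : ℝ} (hε : 0 < ε) {p : Cfg dh × Wsp dm}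
    (h : cl930Chi ψ dm z₀ ε p ≠ 0) : ‖zp ψ p.1 - z₀‖ < ε ∧ ‖sp ψ p.1‖ < ε ∧ ‖p.2‖ < ε := by
  unfold cl930Chi at h
  exact ⟨cl930R_ne hε (left_ne_zero_of_mul (left_ne_zero_of_mul h)),
    cl930R_ne hε (right_ne_zero_of_mul (left_ne_zero_of_mul h)), cl930R_ne hε (right_ne_zero_of_mul h)⟩

lemma cl930Chi_nonneg (ψ : Spl ds dz dh) (dm : ℕ) (z₀ : Cfg dz) (ε : ℝ) (p : Cfg dh × Wsp dm) :
    0 ≤ cl930Chi ψ dm z₀ ε p :=
  mul_nonneg (mul_nonneg (cl930R_nonneg _ _) (cl930R_nonneg _ _)) (cl930R_nonneg _ _)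

lemma cl930Chi_le_one (ψ : Spl ds dz dh) (dm : ℕ) (z₀ : Cfg dz) (ε : ℝ) (p : Cfg dh × Wsp dm) :
    cl930Chi ψ dm z₀ ε p ≤ 1 :=
  mul_le_one₀ (mul_le_one₀ (cl930R_le_one _ _) (cl930R_nonneg _ _) (cl930R_le_one _ _))
    (cl930R_nonneg _ _) (cl930R_le_one _ _)

/-- distance in the coordinates `(ys, yz)` -/
lemma cl930_dist (hC : CmbStmt) (ψ : Spl ds dz dh) (z₀ : Cfg dz) (R : ℝ) (y : Cfg dh) :
    ‖y - R • cmb ψ 0 z₀‖ ^ 2 = ‖sp ψ y‖ ^ 2 + ‖zp ψ y - R • z₀‖ ^ 2 := by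
  obtain ⟨-, -, h3, h4, h5, h6, -⟩ := hC ds dz dh ψ
  have h : y - R • cmb ψ 0 z₀ = cmb ψ (sp ψ y) (zp ψ y - R • z₀) := by
    conv_lhs => rw [← h3 y]
    rw [h6, h5, smul_zero, sub_zero]
  rw [h, h4]

/-- support of the cut-off at scale one lies in a ball -/
lemma cl930Chi_ball (hC : CmbStmt) (ψ : Spl ds dz dh) (dm : ℕ) (z₀ : Cfg dz) {ε : ℝ} (hε : 0 < ε)
    {p : Cfg dh × Wsp dm} (h : cl930Chi ψ dm z₀ ε p ≠ 0) :
    ‖p.1 - cmb ψ 0 z₀‖ < 2 * ε ∧ ‖p.2‖ < 2 * ε := by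
  obtain ⟨h1, h2, h3⟩ := cl930Chi_ne ψ dm z₀ hε h
  have h4 := cl930_dist hC ψ z₀ 1 p.1
  rw [one_smul, one_smul] at h4
  refine ⟨?_, by linarith⟩
  refine lt_of_pow_lt_pow_left₀ 2 (by positivity) ?_
  rw [h4]
  have := norm_nonneg (zp ψ p.1 - z₀)
  have := norm_nonneg (sp ψ p.1)
  nlinarith

lemma cl930Chi_cpt (hC : CmbStmt) (ψ : Spl ds dz dh) (dm : ℕ) (z₀ : Cfg dz) {ε : ℝ} (hε : 0 < ε) :
    HasCompactSupport (cl930Chi ψ dm z₀ ε) := by
  refine HasCompactSupport.intro ((isCompact_closedBall (cmb ψ 0 z₀) (2 * ε)).prod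
    (isCompact_closedBall (0 : Wsp dm) (2 * ε))) fun p hp => ?_
  by_contra h
  refine hp ?_
  obtain ⟨h1, h2⟩ := cl930Chi_ball hC ψ dm z₀ hε h
  refine Set.mem_prod.2 ⟨?_, ?_⟩
  · rw [Metric.mem_closedBall, dist_eq_norm]
    exact h1.le
  · rw [Metric.mem_closedBall, dist_eq_norm, sub_zero]
    exact h2.le

lemma cl930Chi_bd (hC : CmbStmt) (ψ : Spl ds dz dh) (dm : ℕ) (z₀ : Cfg dz) {ε : ℝ} (hε : 0 < ε) :
    ∃ K : ℝ, 0 ≤ K ∧ ∀ p, ‖fderiv ℝ (cl930Chi ψ dm z₀ ε) p‖ ≤ K := by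
  have h1 : Continuous (fderiv ℝ (cl930Chi ψ dm z₀ ε)) :=
    (cl930Chi_contDiff ψ dm z₀ ε).continuous_fderiv (by simp)
  have h2 : HasCompactSupport (fderiv ℝ (cl930Chi ψ dm z₀ ε)) := (cl930Chi_cpt hC ψ dm z₀ hε).fderiv ℝ
  obtain ⟨K, hK⟩ := h1.bounded_above_of_compact_support h2
  exact ⟨K, (norm_nonneg _).trans (hK 0), hK⟩

lemma cl930_nadd {E : Type*} [NormedAddCommGroup E] [InnerProductSpace ℝ E] {a b : E}
    (h : inner ℝ a b = 0) : ‖a + b‖ = ‖a - b‖ := by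
  have h1 : ‖a + b‖ ^ 2 = ‖a - b‖ ^ 2 := by
    rw [norm_add_sq_real, norm_sub_sq_real, h]
    ring
  exact (sq_eq_sq₀ (norm_nonneg _) (norm_nonneg _)).1 h1

/-- derivative of the cut-off along directions that preserve the three norms -/
lemma cl930Chi_dir (ψ : Spl ds dz dh) (dm : ℕ) (z₀ : Cfg dz) (ε : ℝ) (p q : Cfg dh × Wsp dm)
    (h1 : zp ψ q.1 = 0) (h2 : inner ℝ (sp ψ p.1) (sp ψ q.1) = 0) (h3 : inner ℝ p.2 q.2 = 0) :
    fderiv ℝ (cl930Chi ψ dm z₀ ε) p q = 0 := by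
  have hev : ∀ t : ℝ, cl930Chi ψ dm z₀ ε (p + t • q) = cl930Chi ψ dm z₀ ε (p + (-t) • q) := by
    intro t
    unfold cl930Chi
    have e1 : zp ψ (p + t • q).1 = zp ψ (p + (-t) • q).1 := by
      rw [Prod.fst_add, Prod.fst_add, Prod.smul_fst, Prod.smul_fst, cl930_zp_add, cl930_zp_add,
        cl930_zp_smul, cl930_zp_smul, h1, smul_zero, smul_zero]
    have e2 : ‖sp ψ (p + t • q).1‖ = ‖sp ψ (p + (-t) • q).1‖ := by
      rw [Prod.fst_add, Prod.fst_add, Prod.smul_fst, Prod.smul_fst, cl930_sp_add, cl930_sp_add,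
        cl930_sp_smul, cl930_sp_smul, neg_smul, ← sub_eq_add_neg]
      refine cl930_nadd ?_
      rw [inner_smul_right, h2, mul_zero]
    have e3 : ‖(p + t • q).2‖ = ‖(p + (-t) • q).2‖ := by
      rw [Prod.snd_add, Prod.snd_add, Prod.smul_snd, Prod.smul_snd, neg_smul, ← sub_eq_add_neg]
      refine cl930_nadd ?_
      rw [inner_smul_right, h3, mul_zero]
    rw [e1, cl930R_congr ε e2, cl930R_congr ε e3]
  have hd : HasFDerivAt (cl930Chi ψ dm z₀ ε) (fderiv ℝ (cl930Chi ψ dm z₀ ε) p) p :=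
    (((cl930Chi_contDiff ψ dm z₀ ε).differentiable (by simp)) p).hasFDerivAt
  have hl : ∀ c : ℝ, HasDerivAt (fun t : ℝ => cl930Chi ψ dm z₀ ε (p + (c * t) • q))
      (c * fderiv ℝ (cl930Chi ψ dm z₀ ε) p q) 0 := by
    intro c
    have h4 : HasDerivAt (fun t : ℝ => p + (c * t) • q) (c • q) 0 := by
      have h5 : HasDerivAt (fun t : ℝ => c * t) (c * 1) 0 := (hasDerivAt_id (0 : ℝ)).const_mul c
      have h6 := (h5.smul_const q).const_add p
      rw [mul_one] at h6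
      exact h6
    have h7 : HasFDerivAt (cl930Chi ψ dm z₀ ε) (fderiv ℝ (cl930Chi ψ dm z₀ ε) p) (p + (c * 0) • q) := by
      rw [mul_zero, zero_smul, add_zero]
      exact hd
    have h8 := h7.comp_hasDerivAt (0 : ℝ) h4
    rw [map_smul, smul_eq_mul] at h8
    exact h8
  have e1 := hl 1
  have e2 := hl (-1)
  have e3 : (fun t : ℝ => cl930Chi ψ dm z₀ ε (p + (1 * t) • q)) =
      fun t : ℝ => cl930Chi ψ dm z₀ ε (p + (-1 * t) • q) := by
    funext t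
    rw [one_mul, neg_one_mul]
    exact hev t
  rw [e3] at e1
  have e4 := e1.unique e2
  linarith

/-- the cut-off at scale `R` -/
noncomputable def cl930Th (ψ : Spl ds dz dh) (dm : ℕ) (z₀ : Cfg dz) (ε R : ℝ) (p : Cfg dh × Wsp dm) : ℝ :=
  cl930Chi ψ dm z₀ ε (R⁻¹ • p)

lemma cl930Th_contDiff (ψ : Spl ds dz dh) (dm : ℕ) (z₀ : Cfg dz) (ε R : ℝ) :
    ContDiff ℝ ∞ (cl930Th ψ dm z₀ ε R) :=
  (cl930Chi_contDiff ψ dm z₀ ε).comp (contDiff_const_smul R⁻¹)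

lemma cl930Th_fderiv (ψ : Spl ds dz dh) (dm : ℕ) (z₀ : Cfg dz) (ε R : ℝ) (p : Cfg dh × Wsp dm) :
    fderiv ℝ (cl930Th ψ dm z₀ ε R) p = R⁻¹ • fderiv ℝ (cl930Chi ψ dm z₀ ε) (R⁻¹ • p) :=
  fderiv_comp_smul (f := cl930Chi ψ dm z₀ ε) R⁻¹

lemma cl930_inv {E : Type*} [NormedAddCommGroup E] [NormedSpace ℝ E] {R : ℝ} (hR : 0 < R) (x z : E) (ε : ℝ) :
    (‖R⁻¹ • x - z‖ < ε ↔ ‖x - R • z‖ < ε * R) ∧ (‖R⁻¹ • x - z‖ ≤ ε ↔ ‖x - R • z‖ ≤ ε * R) := by
  have h : ‖R⁻¹ • x - z‖ = ‖x - R • z‖ / R := by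
    have h1 : R⁻¹ • x - z = R⁻¹ • (x - R • z) := by
      rw [smul_sub, smul_smul, inv_mul_cancel₀ hR.ne', one_smul]
    rw [h1, norm_smul, Real.norm_eq_abs, abs_of_pos (inv_pos.2 hR)]
    field_simp
  rw [h, div_lt_iff₀ hR, div_le_iff₀ hR]
  exact ⟨Iff.rfl, Iff.rfl⟩

lemma cl930_inv0 {E : Type*} [NormedAddCommGroup E] [NormedSpace ℝ E] {R : ℝ} (hR : 0 < R) (x : E) (ε : ℝ) :
    (‖R⁻¹ • x‖ < ε ↔ ‖x‖ < ε * R) ∧ (‖R⁻¹ • x‖ ≤ ε ↔ ‖x‖ ≤ ε * R) := by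
  have h := cl930_inv hR x 0 ε
  rw [sub_zero, smul_zero, sub_zero] at h
  exact h

lemma cl930Th_ne (ψ : Spl ds dz dh) (dm : ℕ) (z₀ : Cfg dz) {ε R : ℝ} (hε : 0 < ε) (hR : 0 < R)
    {p : Cfg dh × Wsp dm} (h : cl930Th ψ dm z₀ ε R p ≠ 0) :
    ‖zp ψ p.1 - R • z₀‖ < ε * R ∧ ‖sp ψ p.1‖ < ε * R ∧ ‖p.2‖ < ε * R := by
  obtain ⟨h1, h2, h3⟩ := cl930Chi_ne ψ dm z₀ hε h
  rw [Prod.smul_fst] at h1 h2
  rw [Prod.smul_snd] at h3
  rw [cl930_zp_smul] at h1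
  rw [cl930_sp_smul] at h2
  exact ⟨(cl930_inv hR _ _ _).1.1 h1, (cl930_inv0 hR _ _).1.1 h2, (cl930_inv0 hR _ _).1.1 h3⟩

lemma cl930Th_nb (hC : CmbStmt) (ψ : Spl ds dz dh) (dm : ℕ) (z₀ : Cfg dz) {ε R : ℝ} (hε : 0 < ε) (hR : 0 < R)
    {p : Cfg dh × Wsp dm} (h : cl930Th ψ dm z₀ ε R p ≠ 0) :
    ‖p.1 - R • cmb ψ 0 z₀‖ < 2 * ε * R ∧ ‖p.2‖ < 2 * ε * R := by
  obtain ⟨h1, h2⟩ := cl930Chi_ball hC ψ dm z₀ hε h
  rw [Prod.smul_fst] at h1
  rw [Prod.smul_snd] at h2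
  exact ⟨(cl930_inv hR _ _ _).1.1 h1, (cl930_inv0 hR _ _).1.1 h2⟩

/-- Leibniz rule in the `y` directions -/
lemma cl930_py (χ : Cfg dh × Wsp dm → ℝ) (v : Cfg dh → Wsp dm → F) (y : Cfg dh) (w : Wsp dm)
    (hχ : DifferentiableAt ℝ χ (y, w)) (hv : DifferentiableAt ℝ (fun p : Cfg dh × Wsp dm => v p.1 p.2) (y, w))
    (i : Fin 9) (A : Fin dh) :
    py i A (mul2 (fun y w => χ (y, w)) v) y w = ((χ (y, w) : ℝ) : ℂ) • py i A v y w +
        (((fderiv ℝ χ (y, w) (EuclideanSpace.single (i, A) 1, 0) : ℝ)) : ℂ) • v y w := by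
  have hvy : DifferentiableAt ℝ (fun y' => v y' w) y :=
    DifferentiableAt.comp (g := fun p : Cfg dh × Wsp dm => v p.1 p.2) (f := fun y' : Cfg dh => (y', w)) y hv
      (differentiableAt_id.prodMk (differentiableAt_const w))
  have hχy : HasFDerivAt (fun y' => χ (y', w))
      ((fderiv ℝ χ (y, w)).comp (ContinuousLinearMap.inl ℝ (Cfg dh) (Wsp dm))) y := by
    have h1 : HasFDerivAt (fun y' : Cfg dh => (y', w)) (ContinuousLinearMap.inl ℝ (Cfg dh) (Wsp dm)) y :=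
      (hasFDerivAt_id y).prodMk (hasFDerivAt_const w y)
    exact hχ.hasFDerivAt.comp y h1
  have h1 : HasFDerivAt (fun y' => χ (y', w) • v y' w) _ y := hχy.smul hvy.hasFDerivAt
  have h2 : (fun y' => mul2 (fun y w => χ (y, w)) v y' w) = fun y' => χ (y', w) • v y' w := by
    funext y'
    exact Complex.coe_smul _ _
  unfold py pd
  simp only [h2]
  rw [h1.fderiv]
  simp only [add_apply, smul_apply, ContinuousLinearMap.smulRight_apply,
    ContinuousLinearMap.comp_apply, ContinuousLinearMap.inl_apply, Complex.coe_smul]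

/-- Leibniz rule in the `w` directions -/
lemma cl930_pw (χ : Cfg dh × Wsp dm → ℝ) (v : Cfg dh → Wsp dm → F) (y : Cfg dh) (w : Wsp dm)
    (hχ : DifferentiableAt ℝ χ (y, w)) (hv : DifferentiableAt ℝ (fun p : Cfg dh × Wsp dm => v p.1 p.2) (y, w))
    (j : Fin 8) (B : Fin dm) :
    pw j B (mul2 (fun y w => χ (y, w)) v) y w = ((χ (y, w) : ℝ) : ℂ) • pw j B v y w +
        (((fderiv ℝ χ (y, w) (0, EuclideanSpace.single (j, B) 1) : ℝ)) : ℂ) • v y w := by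
  have hvw : DifferentiableAt ℝ (v y) w :=
    DifferentiableAt.comp (g := fun p : Cfg dh × Wsp dm => v p.1 p.2) (f := fun w' : Wsp dm => (y, w')) w hv
      ((differentiableAt_const y).prodMk differentiableAt_id)
  have hχw : HasFDerivAt (fun w' => χ (y, w'))
      ((fderiv ℝ χ (y, w)).comp (ContinuousLinearMap.inr ℝ (Cfg dh) (Wsp dm))) w := by
    have h1 : HasFDerivAt (fun w' : Wsp dm => (y, w')) (ContinuousLinearMap.inr ℝ (Cfg dh) (Wsp dm)) w :=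
      (hasFDerivAt_const y w).prodMk (hasFDerivAt_id w)
    exact hχ.hasFDerivAt.comp w h1
  have h1 : HasFDerivAt (fun w' => χ (y, w') • v y w') _ w := hχw.smul hvw.hasFDerivAt
  have h2 : (fun w' => mul2 (fun y w => χ (y, w)) v y w') = fun w' => χ (y, w') • v y w' := by
    funext y'
    exact Complex.coe_smul _ _
  have h3 : (mul2 (fun y w => χ (y, w)) v y) = fun w' => χ (y, w') • v y w' := h2
  unfold pw
  rw [h3, h1.fderiv]
  simp only [add_apply, smul_apply, ContinuousLinearMap.smulRight_apply,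
    ContinuousLinearMap.comp_apply, ContinuousLinearMap.inr_apply, Complex.coe_smul]

/-- rotation direction of `Gh C`, `y` part -/
noncomputable def cl930xi (S : Setup d F) (φ : Spl dh dm d) (C : Fin dh) (y : Cfg dh) : Cfg dh :=
  WithLp.toLp 2 fun p => ∑ A, S.f (φ (Sum.inl C)) (φ (Sum.inl A)) (φ (Sum.inl p.2)) * y (p.1, A)

/-- rotation direction of `Gh C`, `w` part -/
noncomputable def cl930om (S : Setup d F) (φ : Spl dh dm d) (C : Fin dh) (w : Wsp dm) : Wsp dm :=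
  WithLp.toLp 2 fun p => ∑ A, S.f (φ (Sum.inl C)) (φ (Sum.inr A)) (φ (Sum.inr p.2)) * w (p.1, A)

lemma cl930_basis {ι : Type*} [Fintype ι] [DecidableEq ι] (x : EuclideanSpace ℝ ι) :
    x = ∑ p, x p • (EuclideanSpace.single p (1 : ℝ) : EuclideanSpace ℝ ι) := by
  ext q
  simp only [WithLp.ofLp_sum, WithLp.ofLp_smul, Finset.sum_apply, Pi.smul_apply,
    PiLp.single_apply, smul_eq_mul, mul_ite, mul_one, mul_zero]
  rw [Finset.sum_ite_eq]
  simp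

lemma cl930_lin (L : Cfg dh × Wsp dm →L[ℝ] ℝ) (ξ : Cfg dh) (om : Wsp dm) :
    L (ξ, om) = (∑ i, ∑ B, ξ (i, B) * L (EuclideanSpace.single (i, B) 1, 0)) +
      ∑ j, ∑ B, om (j, B) * L (0, EuclideanSpace.single (j, B) 1) := by
  have h0 : (ξ, om) = (ξ, (0 : Wsp dm)) + ((0 : Cfg dh), om) := by
    rw [Prod.mk_add_mk, add_zero, zero_add]
  have h1 : L (ξ, 0) = ∑ p : Fin 9 × Fin dh, ξ p * L (EuclideanSpace.single p 1, 0) := by
    have e : L (ξ, 0) = (L.comp (ContinuousLinearMap.inl ℝ (Cfg dh) (Wsp dm))) ξ := rfl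
    rw [e]
    conv_lhs => rw [cl930_basis ξ]
    rw [map_sum]
    refine Finset.sum_congr rfl fun p _ => ?_
    rw [map_smul, smul_eq_mul]
    rfl
  have h2 : L (0, om) = ∑ p : Fin 8 × Fin dm, om p * L (0, EuclideanSpace.single p 1) := by
    have e : L (0, om) = (L.comp (ContinuousLinearMap.inr ℝ (Cfg dh) (Wsp dm))) om := rfl
    rw [e]
    conv_lhs => rw [cl930_basis om]
    rw [map_sum]
    refine Finset.sum_congr rfl fun p _ => ?_
    rw [map_smul, smul_eq_mul]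
    rfl
  rw [h0, map_add, h1, h2, Fintype.sum_prod_type, Fintype.sum_prod_type]

/-- `Gh` of a product -/
lemma cl930_Gh (S : Setup d F) (φ : Spl dh dm d) (C : Fin dh) (χ : Cfg dh × Wsp dm → ℝ)
    (v : Cfg dh → Wsp dm → F) (y : Cfg dh) (w : Wsp dm)
    (hχ : DifferentiableAt ℝ χ (y, w)) (hv : DifferentiableAt ℝ (fun p : Cfg dh × Wsp dm => v p.1 p.2) (y, w)) :
    AN.Gh S φ C (mul2 (fun y w => χ (y, w)) v) y w = ((χ (y, w) : ℝ) : ℂ) • AN.Gh S φ C v y w +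
      (-Complex.I) • (((fderiv ℝ χ (y, w) (cl930xi S φ C y, cl930om S φ C w) : ℝ) : ℂ) • v y w) := by
  have e1 : (∑ i, ∑ A, ∑ B, ((S.f (φ (Sum.inl C)) (φ (Sum.inl A)) (φ (Sum.inl B)) * y (i, A) : ℝ) : ℂ) •
      py i B (mul2 (fun y w => χ (y, w)) v) y w) =
      ((χ (y, w) : ℝ) : ℂ) • (∑ i, ∑ A, ∑ B, ((S.f (φ (Sum.inl C)) (φ (Sum.inl A)) (φ (Sum.inl B)) * y (i, A) : ℝ) : ℂ) •
        py i B v y w) +
      ((∑ i, ∑ B, cl930xi S φ C y (i, B) * fderiv ℝ χ (y, w) (EuclideanSpace.single (i, B) 1, 0) : ℝ) : ℂ) • v y w := by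
    simp only [cl930_py χ v y w hχ hv, smul_add, Finset.sum_add_distrib]
    congr 1
    · simp only [Finset.smul_sum, smul_comm ((χ (y, w) : ℝ) : ℂ)]
    · rw [Complex.ofReal_sum, Finset.sum_smul]
      refine Finset.sum_congr rfl fun i _ => ?_
      rw [Finset.sum_comm, Complex.ofReal_sum, Finset.sum_smul]
      refine Finset.sum_congr rfl fun B _ => ?_
      have h0 : cl930xi S φ C y (i, B) = ∑ A, S.f (φ (Sum.inl C)) (φ (Sum.inl A)) (φ (Sum.inl B)) * y (i, A) := rfl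
      rw [h0, Finset.sum_mul, Complex.ofReal_sum, Finset.sum_smul]
      refine Finset.sum_congr rfl fun A _ => ?_
      rw [smul_smul, ← Complex.ofReal_mul]
  have e2 : (∑ j, ∑ A, ∑ B, ((S.f (φ (Sum.inl C)) (φ (Sum.inr A)) (φ (Sum.inr B)) * w (j, A) : ℝ) : ℂ) •
      pw j B (mul2 (fun y w => χ (y, w)) v) y w) =
      ((χ (y, w) : ℝ) : ℂ) • (∑ j, ∑ A, ∑ B, ((S.f (φ (Sum.inl C)) (φ (Sum.inr A)) (φ (Sum.inr B)) * w (j, A) : ℝ) : ℂ) •
        pw j B v y w) +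
      ((∑ j, ∑ B, cl930om S φ C w (j, B) * fderiv ℝ χ (y, w) (0, EuclideanSpace.single (j, B) 1) : ℝ) : ℂ) • v y w := by
    simp only [cl930_pw χ v y w hχ hv, smul_add, Finset.sum_add_distrib]
    congr 1
    · simp only [Finset.smul_sum, smul_comm ((χ (y, w) : ℝ) : ℂ)]
    · rw [Complex.ofReal_sum, Finset.sum_smul]
      refine Finset.sum_congr rfl fun i _ => ?_
      rw [Finset.sum_comm, Complex.ofReal_sum, Finset.sum_smul]
      refine Finset.sum_congr rfl fun B _ => ?_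
      have h0 : cl930om S φ C w (i, B) = ∑ A, S.f (φ (Sum.inl C)) (φ (Sum.inr A)) (φ (Sum.inr B)) * w (i, A) := rfl
      rw [h0, Finset.sum_mul, Complex.ofReal_sum, Finset.sum_smul]
      refine Finset.sum_congr rfl fun A _ => ?_
      rw [smul_smul, ← Complex.ofReal_mul]
  have e3 : mul2 (fun y w => χ (y, w)) v y w = ((χ (y, w) : ℝ) : ℂ) • v y w := rfl
  unfold AN.Gh
  rw [e1, e2, e3, map_smul, cl930_lin (fderiv ℝ χ (y, w)), Complex.ofReal_add, add_smul]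
  simp only [smul_add]
  rw [smul_comm (-Complex.I) ((χ (y, w) : ℝ) : ℂ), smul_comm (-Complex.I) ((χ (y, w) : ℝ) : ℂ)]
  abel

/-- the rotation direction has no central part -/
lemma cl930_zpxi {S : Setup d F} {φ : Spl dh dm d} {ψ : Spl ds dz dh} {z₀ : Cfg dz} (h : Std2 S φ ψ z₀)
    (C : Fin dh) (y : Cfg dh) : zp ψ (cl930xi S φ C y) = 0 := by
  ext ⟨i, b⟩
  show ∑ A, S.f (φ (Sum.inl C)) (φ (Sum.inl A)) (φ (Sum.inl (ψ (Sum.inr b)))) * y (i, A) = 0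
  refine Finset.sum_eq_zero fun A _ => ?_
  rw [S.f_cyc, S.f_cyc, h.cen, zero_mul]

/-- an antisymmetric form vanishes on the diagonal -/
lemma cl930_anti {n : ℕ} (f : Fin n → Fin n → ℝ) (hf : ∀ A B, f A B = - f B A) (x : Fin n → ℝ) :
    ∑ B, x B * ∑ A, f A B * x A = 0 := by
  have h1 : ∑ B, x B * ∑ A, f A B * x A = ∑ B, ∑ A, f A B * (x A * x B) := by
    refine Finset.sum_congr rfl fun B _ => ?_
    rw [Finset.mul_sum]
    exact Finset.sum_congr rfl fun A _ => by ring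
  have h2 : ∑ B, ∑ A, f A B * (x A * x B) = - ∑ B, ∑ A, f A B * (x A * x B) := by
    conv_lhs => rw [Finset.sum_comm]
    rw [← Finset.sum_neg_distrib]
    refine Finset.sum_congr rfl fun B _ => ?_
    rw [← Finset.sum_neg_distrib]
    refine Finset.sum_congr rfl fun A _ => ?_
    rw [hf B A]
    ring
  rw [h1]
  linarith

/-- the rotation direction is orthogonal to `ys` -/
lemma cl930_spxi {S : Setup d F} {φ : Spl dh dm d} {ψ : Spl ds dz dh} {z₀ : Cfg dz} (h : Std2 S φ ψ z₀)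
    (C : Fin dh) (y : Cfg dh) : inner ℝ (sp ψ y) (sp ψ (cl930xi S φ C y)) = 0 := by
  rw [PiLp.inner_apply, Fintype.sum_prod_type]
  refine Finset.sum_eq_zero fun i _ => ?_
  have h1 : ∀ b : Fin ds, inner ℝ (sp ψ y (i, b)) (sp ψ (cl930xi S φ C y) (i, b)) =
      y (i, ψ (Sum.inl b)) * ∑ a : Fin ds, S.f (φ (Sum.inl C)) (φ (Sum.inl (ψ (Sum.inl a))))
        (φ (Sum.inl (ψ (Sum.inl b)))) * y (i, ψ (Sum.inl a)) := by
    intro b
    have h2 : sp ψ (cl930xi S φ C y) (i, b) =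
        ∑ A, S.f (φ (Sum.inl C)) (φ (Sum.inl A)) (φ (Sum.inl (ψ (Sum.inl b)))) * y (i, A) := rfl
    have h3 : sp ψ y (i, b) = y (i, ψ (Sum.inl b)) := rfl
    rw [h2, h3, RCLike.inner_apply, conj_trivial, mul_comm, ← ψ.sum_comp, Fintype.sum_sum_type]
    congr 1
    have h4 : ∑ x : Fin dz, S.f (φ (Sum.inl C)) (φ (Sum.inl (ψ (Sum.inr x)))) (φ (Sum.inl (ψ (Sum.inl b)))) *
        y (i, ψ (Sum.inr x)) = 0 := by
      refine Finset.sum_eq_zero fun a _ => ?_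
      rw [S.f_cyc, h.cen, zero_mul]
    rw [h4, add_zero]
  simp only [h1]
  refine cl930_anti (fun a b => S.f (φ (Sum.inl C)) (φ (Sum.inl (ψ (Sum.inl a))))
        (φ (Sum.inl (ψ (Sum.inl b))))) (fun a b => S.f_swap' _ _ _) fun a => y (i, ψ (Sum.inl a))

/-- the rotation direction is orthogonal to `w` -/
lemma cl930_om (S : Setup d F) (φ : Spl dh dm d) (C : Fin dh) (w : Wsp dm) :
    inner ℝ w (cl930om S φ C w) = 0 := by
  rw [PiLp.inner_apply, Fintype.sum_prod_type]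
  refine Finset.sum_eq_zero fun i _ => ?_
  have h1 : ∀ b : Fin dm, inner ℝ (w (i, b)) (cl930om S φ C w (i, b)) =
      w (i, b) * ∑ a, S.f (φ (Sum.inl C)) (φ (Sum.inr a)) (φ (Sum.inr b)) * w (i, a) := by
    intro b
    have h2 : cl930om S φ C w (i, b) = ∑ a, S.f (φ (Sum.inl C)) (φ (Sum.inr a)) (φ (Sum.inr b)) * w (i, a) := rfl
    rw [h2, RCLike.inner_apply, conj_trivial, mul_comm]
  simp only [h1]
  exact cl930_anti (fun a b => S.f (φ (Sum.inl C)) (φ (Sum.inr a)) (φ (Sum.inr b)))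
    (fun a b => S.f_swap' _ _ _) fun a => w (i, a)

/-- the cut-off is invariant -/
lemma cl930Th_inv {S : Setup d F} {φ : Spl dh dm d} {ψ : Spl ds dz dh} {z₀ : Cfg dz} (h : Std2 S φ ψ z₀)
    (ε R : ℝ) (C : Fin dh) (y : Cfg dh) (w : Wsp dm) :
    fderiv ℝ (cl930Th ψ dm z₀ ε R) (y, w) (cl930xi S φ C y, cl930om S φ C w) = 0 := by
  rw [cl930Th_fderiv, smul_apply, cl930Chi_dir, smul_zero]
  · exact cl930_zpxi h C y
  · show inner ℝ (sp ψ (R⁻¹ • y)) (sp ψ (cl930xi S φ C y)) = 0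
    rw [cl930_sp_smul, inner_smul_left, cl930_spxi h, mul_zero]
  · show inner ℝ (R⁻¹ • w) (cl930om S φ C w) = 0
    rw [inner_smul_left, cl930_om, mul_zero]

/-- the product with the cut-off is a test function -/
lemma cl930_tst (hC : CmbStmt) {S : Setup d F} {φ : Spl dh dm d} (ψ : Spl ds dz dh) (z₀ : Cfg dz) {ε R : ℝ}
    (hε : 0 < ε) (hR : 0 < R)
    (hdet : ∀ y : Cfg dh, ‖y - R • cmb ψ 0 z₀‖ ≤ 2 * ε * R → (S.Dy φ 8 y).det ≠ 0)
    {v : Cfg dh → Wsp dm → F} (hv : AN.Sm S φ v) :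
    Tst2 (mul2 (fun y w => cl930Th ψ dm z₀ ε R (y, w)) v) := by
  have hcl : ∀ p : Cfg dh × Wsp dm, ¬ (‖p.1 - R • cmb ψ 0 z₀‖ ≤ 2 * ε * R ∧ ‖p.2‖ ≤ 2 * ε * R) →
      mul2 (fun y w => cl930Th ψ dm z₀ ε R (y, w)) v p.1 p.2 = 0 := by
    intro p hp
    have h1 : cl930Th ψ dm z₀ ε R (p.1, p.2) = 0 := by
      by_contra h2
      have h3 := cl930Th_nb hC ψ dm z₀ hε hR h2
      exact hp ⟨h3.1.le, h3.2.le⟩
    show ((cl930Th ψ dm z₀ ε R (p.1, p.2) : ℝ) : ℂ) • v p.1 p.2 = 0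
    rw [h1, Complex.ofReal_zero, zero_smul]
  refine ⟨?_, ?_⟩
  · rw [contDiff_iff_contDiffAt]
    intro p
    by_cases hp : ‖p.1 - R • cmb ψ 0 z₀‖ ≤ 2 * ε * R ∧ ‖p.2‖ ≤ 2 * ε * R
    · have h1 : ContDiffAt ℝ ∞ (fun p : Cfg dh × Wsp dm => v p.1 p.2) p :=
        hv.contDiffAt ((AN.cut_open S φ).mem_nhds (hdet p.1 hp.1))
      have h2 : ContDiffAt ℝ ∞ (cl930Th ψ dm z₀ ε R) p := (cl930Th_contDiff ψ dm z₀ ε R).contDiffAt
      have h3 := h2.smul h1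
      refine h3.congr_of_eventuallyEq (Eventually.of_forall fun q => ?_)
      exact Complex.coe_smul _ _
    · have hopen : IsOpen {q : Cfg dh × Wsp dm | ¬ (‖q.1 - R • cmb ψ 0 z₀‖ ≤ 2 * ε * R ∧ ‖q.2‖ ≤ 2 * ε * R)} := by
        have h1 : IsClosed {q : Cfg dh × Wsp dm | ‖q.1 - R • cmb ψ 0 z₀‖ ≤ 2 * ε * R ∧ ‖q.2‖ ≤ 2 * ε * R} :=
          (isClosed_le ((continuous_fst.sub continuous_const).norm) continuous_const).inter
            (isClosed_le continuous_snd.norm continuous_const)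
        exact h1.isOpen_compl
      refine (contDiffAt_const (c := (0 : F))).congr_of_eventuallyEq ?_
      filter_upwards [hopen.mem_nhds hp] with q hq
      exact hcl q hq
  · refine HasCompactSupport.intro ((isCompact_closedBall (R • cmb ψ 0 z₀) (2 * ε * R)).prod
      (isCompact_closedBall (0 : Wsp dm) (2 * ε * R))) fun p hp => hcl p fun h => hp ?_
    refine Set.mem_prod.2 ⟨?_, ?_⟩
    · rw [Metric.mem_closedBall, dist_eq_norm]
      exact h.1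
    · rw [Metric.mem_closedBall, dist_eq_norm, sub_zero]
      exact h.2

/-- norm of an embedded point -/
lemma cl930_emb_norm (φ : Spl dh dm d) (y : Cfg dh) (w : Wsp dm) : ‖emb φ y w‖ ^ 2 = ‖y‖ ^ 2 + ‖w‖ ^ 2 := by
  rw [EuclideanSpace.norm_sq_eq, EuclideanSpace.norm_sq_eq, EuclideanSpace.norm_sq_eq]
  rw [Fintype.sum_prod_type, Fintype.sum_prod_type, Fintype.sum_prod_type]
  have h1 : ∀ i : Fin 9, ∑ A, ‖emb φ y w (i, A)‖ ^ 2 =
      (∑ A, ‖y (i, A)‖ ^ 2) + ∑ B, ‖Fin.lastCases (motive := fun _ => ℝ) 0 (fun j => w (j, B)) i‖ ^ 2 := by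
    intro i
    rw [← φ.sum_comp, Fintype.sum_sum_type]
    congr 1
    · refine Finset.sum_congr rfl fun A _ => ?_
      simp [emb]
    · refine Finset.sum_congr rfl fun A _ => ?_
      simp [emb]
  simp only [h1]
  rw [Finset.sum_add_distrib]
  congr 1
  rw [Fin.sum_univ_castSucc]
  simp only [Fin.lastCases_castSucc, Fin.lastCases_last, norm_zero, ne_eq, OfNat.ofNat_ne_zero,
    not_false_eq_true, zero_pow, Finset.sum_const_zero, add_zero]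

/-- the tube lies in a shell -/
lemma cl930_tube (S : Setup d F) (φ : Spl dh dm d) (y₀ : Cfg dh) {R ε ρ : ℝ} (hR : 0 < R) (hε : 0 < ε)
    (hY : 16 * ε ≤ ‖emb φ y₀ 0‖) (h0 : 0 < ‖emb φ y₀ 0‖) :
    AN.Tube S φ y₀ R (4 * ε) ρ ⊆ shl d (‖emb φ y₀ 0‖ / 4 * R) (2 * ‖emb φ y₀ 0‖ * R) := by
  rintro x ⟨a, -, p, hp, rfl⟩
  have h1 : ‖AN.tub S φ a p‖ = ‖emb φ p.1 p.2‖ := by
    unfold AN.tub
    have h2 := U.gx983_orth S (AN.exm φ a) 1
    rw [one_smul] at h2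
    exact U.grp_norm h2 _
  have h3 : ‖emb φ p.1 p.2 - R • emb φ y₀ 0‖ ≤ 8 * ε * R := by
    have h4 : emb φ p.1 p.2 - R • emb φ y₀ 0 = emb φ (p.1 - R • y₀) p.2 := by
      have e : ∀ q : Cfg dh × Wsp dm, emb φ q.1 q.2 = AN.embL φ q := fun q => (AN.embL_apply φ q).symm
      have e1 := e (p.1, p.2)
      have e2 := e (y₀, 0)
      have e3 := e (p.1 - R • y₀, p.2)
      simp only at e1 e2 e3
      rw [e1, e2, e3, ← map_smul, ← map_sub]
      congr 1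
      rw [Prod.smul_mk, Prod.mk_sub_mk, smul_zero, sub_zero]
    rw [h4]
    refine (sq_le_sq₀ (norm_nonneg _) (by positivity)).1 ?_
    rw [cl930_emb_norm]
    have hp1 : ‖p.1 - R • y₀‖ < 4 * ε * R := hp.1
    have hp2 : ‖p.2‖ < 4 * ε * R := hp.2
    have := norm_nonneg (p.1 - R • y₀)
    have := norm_nonneg p.2
    nlinarith
  have h5 : ‖R • emb φ y₀ 0‖ = R * ‖emb φ y₀ 0‖ := by
    rw [norm_smul, Real.norm_eq_abs, abs_of_pos hR]
  have h6 := norm_sub_norm_le (R • emb φ y₀ 0) (emb φ p.1 p.2)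
  have h7 := norm_sub_norm_le (emb φ p.1 p.2) (R • emb φ y₀ 0)
  rw [norm_sub_rev] at h6
  rw [h5] at h6 h7
  have h8 : 8 * ε * R ≤ ‖emb φ y₀ 0‖ / 2 * R := mul_le_mul_of_nonneg_right (by linarith) hR.le
  have h9 : 0 < ‖emb φ y₀ 0‖ * R := mul_pos h0 hR
  refine ⟨?_, ?_⟩
  · rw [h1]
    linarith
  · rw [h1]
    linarith

/-- a product of balls -/
lemma cl930_nb_meas (y₀ : Cfg dh) (dm : ℕ) (R ε : ℝ) : MeasurableSet (AN.Nb y₀ dm R ε) := by
  have e1 : IsOpen {p : Cfg dh × Wsp dm | ‖p.1 - R • y₀‖ < ε * R} :=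
    isOpen_lt (continuous_fst.sub continuous_const).norm continuous_const
  have e2 : IsOpen {p : Cfg dh × Wsp dm | ‖p.2‖ < ε * R} :=
    isOpen_lt continuous_snd.norm continuous_const
  exact (e1.inter e2).measurableSet

lemma cl930_res_cont (S : Setup d F) (φ : Spl dh dm d) {u : Cfg d → F} (hu : Continuous u) :
    Continuous fun p : Cfg dh × Wsp dm => S.res φ u p.1 p.2 := by
  unfold Setup.res
  have e2 : Continuous fun p : Cfg dh × Wsp dm => S.Jd φ p.1 := by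
    unfold Setup.Jd
    exact ((AN.nrm_continuous_det S φ).comp continuous_fst).abs
  exact (Complex.continuous_ofReal.comp (Real.continuous_sqrt.comp e2)).smul (hu.comp (AN.nrm_continuous_emb φ))

lemma cl930_int (S : Setup d F) (φ : Spl dh dm d) {u : Cfg d → F} (hu : Continuous u) (y₀ : Cfg dh) (R ε : ℝ) :
    IntegrableOn (fun p : Cfg dh × Wsp dm => ‖S.res φ u p.1 p.2‖ ^ 2) (AN.Nb y₀ dm R ε)
      ((volume : Measure (Cfg dh)).prod (volume : Measure (Wsp dm))) := by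
  have h1 : IntegrableOn (fun p : Cfg dh × Wsp dm => ‖S.res φ u p.1 p.2‖ ^ 2)
      (Metric.closedBall (R • y₀) (ε * R) ×ˢ Metric.closedBall (0 : Wsp dm) (ε * R))
      ((volume : Measure (Cfg dh)).prod (volume : Measure (Wsp dm))) :=
    ((cl930_res_cont S φ hu).norm.pow 2).continuousOn.integrableOn_compact
      ((isCompact_closedBall _ _).prod (isCompact_closedBall _ _))
  refine h1.mono_set fun p hp => ?_
  refine Set.mem_prod.2 ⟨?_, ?_⟩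
  · rw [Metric.mem_closedBall, dist_eq_norm]
    exact hp.1.le
  · rw [Metric.mem_closedBall, dist_eq_norm, sub_zero]
    exact hp.2.le

lemma cl930_tst_int {u : Cfg d → F} (hu : Setup.Tst u) :
    Integrable (fun x => ‖u x‖ ^ 2) (volume : Measure (Cfg d)) := by
  have h1 : Continuous fun x : Cfg d => ‖u x‖ ^ 2 := hu.1.continuous.norm.pow 2
  have h2 : HasCompactSupport fun x : Cfg d => ‖u x‖ ^ 2 := by
    refine HasCompactSupport.intro hu.2 fun x hx => ?_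
    rw [image_eq_zero_of_notMem_tsupport hx, norm_zero]
    norm_num
  exact h1.integrable_of_hasCompactSupport h2

lemma cl930_mas_mono {u : Cfg d → F} (hu : Setup.Tst u) {A B : Set (Cfg d)} (h : A ⊆ B) :
    mas u A ≤ mas u B :=
  setIntegral_mono_set (cl930_tst_int hu).integrableOn (ae_of_all _ fun _ => sq_nonneg _)
    (Eventually.of_forall h)

omit [InnerProductSpace ℂ F] in
lemma cl930_mas_nonneg (u : Cfg d → F) (A : Set (Cfg d)) : 0 ≤ mas u A :=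
  integral_nonneg fun _ => sq_nonneg _

/-- all derivatives vanish where the function vanishes locally -/
lemma cl930_zero {V : Cfg dh → Wsp dm → F} {y : Cfg dh} {w : Wsp dm}
    (h : ∀ᶠ p in 𝓝 (y, w), V p.1 p.2 = 0) :
    (∀ i A, py i A V y w = 0) ∧ (∀ j B, pw j B V y w = 0) ∧ V y w = 0 := by
  refine ⟨fun i A => ?_, fun j B => ?_, h.self_of_nhds⟩
  · have h1 : (fun y' => V y' w) =ᶠ[𝓝 y] fun _ => 0 := by
      have h2 : Tendsto (fun y' : Cfg dh => (y', w)) (𝓝 y) (𝓝 (y, w)) :=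
        (Continuous.prodMk_left w).tendsto y
      exact h2.eventually h
    unfold py pd
    rw [h1.fderiv_eq]
    simp
  · have h1 : (V y) =ᶠ[𝓝 w] fun _ => 0 := by
      have h2 : Tendsto (fun w' : Wsp dm => (y, w')) (𝓝 w) (𝓝 (y, w)) :=
        (Continuous.prodMk_right y).tendsto w
      exact h2.eventually h
    unfold pw
    rw [h1.fderiv_eq]
    simp

lemma cl930_Qs_zero (S : Setup d F) (φ : Spl dh dm d) (β : Fin 16) {V : Cfg dh → Wsp dm → F} {y : Cfg dh}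
    {w : Wsp dm} (h : ∀ᶠ p in 𝓝 (y, w), V p.1 p.2 = 0) : AN.Qs S φ β V y w = 0 := by
  obtain ⟨h1, h2, h3⟩ := cl930_zero h
  rw [AN.cut_split, h3]
  simp only [h1, h2]
  have e1 := AN.cut_E_smul S φ β y w 0 (fun (_ : Fin 9) (_ : Fin dh) => (0 : F)) (fun (_ : Fin 8) (_ : Fin dm) => (0 : F))
  have e2 := AN.cut_Z_smul S φ β y w 0 (0 : F)
  simp only [zero_smul] at e1 e2
  rw [e1, e2, add_zero]

lemma cl930_Gh_zero (S : Setup d F) (φ : Spl dh dm d) (C : Fin dh) {V : Cfg dh → Wsp dm → F} {y : Cfg dh}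
    {w : Wsp dm} (h : ∀ᶠ p in 𝓝 (y, w), V p.1 p.2 = 0) : AN.Gh S φ C V y w = 0 := by
  obtain ⟨h1, h2, h3⟩ := cl930_zero h
  unfold AN.Gh
  rw [h3]
  simp only [h1, h2, smul_zero, Finset.sum_const_zero, map_zero, add_zero]

/-- the product vanishes near points outside the support -/
lemma cl930_out (hC : CmbStmt) (ψ : Spl ds dz dh) (z₀ : Cfg dz) {ε R : ℝ} (hε : 0 < ε) (hR : 0 < R)
    (v : Cfg dh → Wsp dm → F) {y : Cfg dh} {w : Wsp dm}
    (hp : ¬ (‖y - R • cmb ψ 0 z₀‖ ≤ 2 * ε * R ∧ ‖w‖ ≤ 2 * ε * R)) :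
    ∀ᶠ p in 𝓝 (y, w), mul2 (fun y w => cl930Th ψ dm z₀ ε R (y, w)) v p.1 p.2 = 0 := by
  have hopen : IsOpen {q : Cfg dh × Wsp dm | ¬ (‖q.1 - R • cmb ψ 0 z₀‖ ≤ 2 * ε * R ∧ ‖q.2‖ ≤ 2 * ε * R)} := by
    have h1 : IsClosed {q : Cfg dh × Wsp dm | ‖q.1 - R • cmb ψ 0 z₀‖ ≤ 2 * ε * R ∧ ‖q.2‖ ≤ 2 * ε * R} :=
      (isClosed_le ((continuous_fst.sub continuous_const).norm) continuous_const).inter
        (isClosed_le continuous_snd.norm continuous_const)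
    exact h1.isOpen_compl
  have hmem : (y, w) ∈ {q : Cfg dh × Wsp dm | ¬ (‖q.1 - R • cmb ψ 0 z₀‖ ≤ 2 * ε * R ∧ ‖q.2‖ ≤ 2 * ε * R)} := hp
  filter_upwards [hopen.mem_nhds hmem] with q hq
  have h1 : cl930Th ψ dm z₀ ε R (q.1, q.2) = 0 := by
    by_contra h2
    have h3 := cl930Th_nb hC ψ dm z₀ hε hR h2
    exact hq ⟨h3.1.le, h3.2.le⟩
  show ((cl930Th ψ dm z₀ ε R (q.1, q.2) : ℝ) : ℂ) • v q.1 q.2 = 0
  rw [h1, Complex.ofReal_zero, zero_smul]

/-- **L10** -/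
theorem cutLocOf (S : Setup d F) : CutLocOfStmt S := by
  intro hN hGh hCut _ hC dh dm ds dz φ ψ z₀ h hY
  obtain ⟨εN, ρN, hεN, hρN, hN'⟩ := hN dh dm φ (cmb ψ 0 z₀) h.std
  obtain ⟨εc, Cc, hεc, hCc, hCut'⟩ := hCut dh dm φ (cmb ψ 0 z₀) h.std
  obtain ⟨ε₁, hε₁, hdet⟩ := AN.nrm_det_ne S φ (cmb ψ 0 z₀) h.std.inv
  have hM : 0 < ‖emb φ (cmb ψ 0 z₀) 0‖ := norm_pos_iff.2 hY
  refine ⟨min (min (εN / 4) (εc / 4)) (min (ε₁ / 4) (‖emb φ (cmb ψ 0 z₀) 0‖ / 16)),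
    ‖emb φ (cmb ψ 0 z₀) 0‖ / 4, 2 * ‖emb φ (cmb ψ 0 z₀) 0‖, by positivity, by positivity, by linarith, ?_⟩
  intro ε hε hεle
  have b1 : 4 * ε ≤ εN := by
    have := hεle.trans ((min_le_left _ _).trans (min_le_left _ _))
    linarith
  have b2 : 4 * ε ≤ εc := by
    have := hεle.trans ((min_le_left _ _).trans (min_le_right _ _))
    linarith
  have b3 : 4 * ε ≤ ε₁ := by
    have := hεle.trans ((min_le_right _ _).trans (min_le_left _ _))
    linarith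
  have b4 : 16 * ε ≤ ‖emb φ (cmb ψ 0 z₀) 0‖ := by
    have := hεle.trans ((min_le_right _ _).trans (min_le_right _ _))
    linarith
  obtain ⟨c, _, hc, _, hR1⟩ := hN' (4 * ε) ρN (by positivity) b1 hρN le_rfl
  obtain ⟨c', δ, hc', hδ, hR2⟩ := hN' (ε / 2) ρN (by positivity) (by linarith) hρN le_rfl
  obtain ⟨K, hK0, hK⟩ := cl930Chi_bd hC ψ dm z₀ hε
  refine ⟨c⁻¹ + 2 * c⁻¹ + 32 * (Cc * K) ^ 2 * c⁻¹ + c', δ, by positivity, hδ, fun z => cl930R ε (z - z₀), ?_,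
    fun z => ⟨cl930R_nonneg _ _, cl930R_le_one _ _⟩, ?_, ?_⟩
  · exact (cl930R_contDiff ε).comp (contDiff_id.sub contDiff_const)
  · refine closure_minimal (fun z hz => ?_) Metric.isClosed_closedBall
    rw [Metric.mem_closedBall, dist_eq_norm]
    exact (cl930R_ne hε hz).le
  intro R hR1'
  have hR : 0 < R := by linarith
  refine ⟨fun y w => cl930Th ψ dm z₀ ε R (y, w),
    fun y w => ⟨cl930Chi_nonneg _ _ _ _ _, cl930Chi_le_one _ _ _ _ _⟩, ?_, ?_, ?_, ?_⟩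
  · intro y w hne
    obtain ⟨h1, h2, h3⟩ := cl930Th_ne ψ dm z₀ hε hR hne
    exact ⟨h1.le, h2.le, h3.le⟩
  · intro y w h1 h2 h3
    show cl930R ε (R⁻¹ • zp ψ y - z₀) * cl930R ε (R⁻¹ • sp ψ y) * cl930R ε (R⁻¹ • w) = 1
    rw [cl930R_one hε ((cl930_inv hR _ _ _).2.2 h1), cl930R_one hε ((cl930_inv0 hR _ _).2.2 h2),
      cl930R_one hε ((cl930_inv0 hR _ _).2.2 h3), mul_one, mul_one]
  · intro y w h2 h3
    show cl930R ε (R⁻¹ • zp ψ y - z₀) * cl930R ε (R⁻¹ • sp ψ y) * cl930R ε (R⁻¹ • w) =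
      cl930R ε (R⁻¹ • zp ψ y - z₀)
    rw [cl930R_one hε ((cl930_inv0 hR _ _).2.2 h2), cl930R_one hε ((cl930_inv0 hR _ _).2.2 h3), mul_one, mul_one]
  intro u hu
  have hsm : AN.Sm S φ (S.res φ u) := (hGh dh dm φ h.std.sub u hu.1.1).1
  have hgh0 := (hGh dh dm φ h.std.sub u hu.1.1).2 hu.2
  have hdet2 : ∀ y : Cfg dh, ‖y - R • cmb ψ 0 z₀‖ ≤ 2 * ε * R → (S.Dy φ 8 y).det ≠ 0 := by
    intro y hy
    refine hdet R y hR (hy.trans_lt ?_)
    exact mul_lt_mul_of_pos_right (by linarith) hR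
  have hdet4 : ∀ p ∈ AN.Nb (cmb ψ 0 z₀) dm R (4 * ε), (S.Dy φ 8 p.1).det ≠ 0 := by
    intro p hp
    exact hdet R p.1 hR (hp.1.trans_le (mul_le_mul_of_nonneg_right b3 hR.le))
  have htube := cl930_tube (ρ := ρN) S φ (cmb ψ 0 z₀) hR hε b4 hM
  obtain ⟨-, hmass⟩ := hR1 R hR
  obtain ⟨hm1, hm2⟩ := hmass u hu.1 hu.2
  obtain ⟨hball, hmass'⟩ := hR2 R hR
  obtain ⟨hm3, -⟩ := hmass' u hu.1 hu.2
  have htst : Tst2 (mul2 (fun y w => cl930Th ψ dm z₀ ε R (y, w)) (S.res φ u)) :=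
    cl930_tst hC ψ z₀ hε hR hdet2 hsm
  have hA : 0 ≤ mas u (shl d (‖emb φ (cmb ψ 0 z₀) 0‖ / 4 * R) (2 * ‖emb φ (cmb ψ 0 z₀) 0‖ * R)) :=
    cl930_mas_nonneg _ _
  have hA1 := cl930_mas_mono hu.1 htube
  have hm1' : (∫ p in AN.Nb (cmb ψ 0 z₀) dm R (4 * ε), ‖S.res φ u p.1 p.2‖ ^ 2
      ∂((volume : Measure (Cfg dh)).prod (volume : Measure (Wsp dm)))) =
      c⁻¹ * mas u (AN.Tube S φ (cmb ψ 0 z₀) R (4 * ε) ρN) := by
    unfold mas
    rw [hm1, ← mul_assoc, inv_mul_cancel₀ hc.ne', one_mul]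
  refine ⟨htst, ?_, ?_, ?_, ?_, ?_⟩
  · intro y w hne
    have h1 : cl930Th ψ dm z₀ ε R (y, w) ≠ 0 := by
      intro h0
      refine hne ?_
      show ((cl930Th ψ dm z₀ ε R (y, w) : ℝ) : ℂ) • S.res φ u y w = 0
      rw [h0, Complex.ofReal_zero, zero_smul]
    have h2 := cl930Th_nb hC ψ dm z₀ hε hR h1
    exact ⟨h2.1.le, h2.2.le⟩
  · intro C y w
    by_cases hp : ‖y - R • cmb ψ 0 z₀‖ ≤ 2 * ε * R ∧ ‖w‖ ≤ 2 * ε * R
    · have hd := hdet2 y hp.1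
      have hvd : DifferentiableAt ℝ (fun p : Cfg dh × Wsp dm => S.res φ u p.1 p.2) (y, w) :=
        ((hsm.contDiffAt ((AN.cut_open S φ).mem_nhds hd)).differentiableAt (by simp))
      have hχd : DifferentiableAt ℝ (cl930Th ψ dm z₀ ε R) (y, w) :=
        (cl930Th_contDiff ψ dm z₀ ε R).differentiable (by simp) _
      rw [cl930_Gh S φ C (cl930Th ψ dm z₀ ε R) (S.res φ u) y w hχd hvd, hgh0 C y w hd, cl930Th_inv h,
        Complex.ofReal_zero, zero_smul, smul_zero, smul_zero, add_zero]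
    · exact cl930_Gh_zero S φ C (cl930_out hC ψ z₀ hε hR (S.res φ u) hp)
  · rw [hm1']
    have h1 : c⁻¹ * mas u (AN.Tube S φ (cmb ψ 0 z₀) R (4 * ε) ρN) ≤
        c⁻¹ * mas u (shl d (‖emb φ (cmb ψ 0 z₀) 0‖ / 4 * R) (2 * ‖emb φ (cmb ψ 0 z₀) 0‖ * R)) :=
      mul_le_mul_of_nonneg_left hA1 (inv_pos.2 hc).le
    refine h1.trans (mul_le_mul_of_nonneg_right ?_ hA)
    have : 0 ≤ 2 * c⁻¹ + 32 * (Cc * K) ^ 2 * c⁻¹ + c' := by positivity
    linarith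
  · have key : ∀ β, ns2 (AN.Qs S φ β (mul2 (fun y w => cl930Th ψ dm z₀ ε R (y, w)) (S.res φ u))) ≤
        2 * c⁻¹ * (∫ x in shl d (‖emb φ (cmb ψ 0 z₀) 0‖ / 4 * R) (2 * ‖emb φ (cmb ψ 0 z₀) 0‖ * R), ‖S.Q β u x‖ ^ 2) +
          2 * (Cc * K) ^ 2 * c⁻¹ * (1 / R ^ 2 *
            mas u (shl d (‖emb φ (cmb ψ 0 z₀) 0‖ / 4 * R) (2 * ‖emb φ (cmb ψ 0 z₀) 0‖ * R))) := by
      intro β
      have hQt : Setup.Tst (S.Q β u) := Setup.Tst.Q S hu.1 β
      have hQs : ∀ p ∈ AN.Nb (cmb ψ 0 z₀) dm R (4 * ε), AN.Qs S φ β (S.res φ u) p.1 p.2 = S.res φ (S.Q β u) p.1 p.2 := by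
        intro p hp
        exact (AN.dec_stmt S dh dm φ h.std.sub u hu.1.1 hu.2 β p.1 p.2 (hdet4 p hp)).symm
      have hi1 : IntegrableOn (fun p : Cfg dh × Wsp dm => ‖AN.Qs S φ β (S.res φ u) p.1 p.2‖ ^ 2)
          (AN.Nb (cmb ψ 0 z₀) dm R (4 * ε)) ((volume : Measure (Cfg dh)).prod (volume : Measure (Wsp dm))) := by
        refine (cl930_int S φ hQt.1.continuous (cmb ψ 0 z₀) R (4 * ε)).congr_fun (fun p hp => ?_)
          (cl930_nb_meas _ _ _ _)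
        show ‖S.res φ (S.Q β u) p.1 p.2‖ ^ 2 = ‖AN.Qs S φ β (S.res φ u) p.1 p.2‖ ^ 2
        rw [hQs p hp]
      have hi2 := cl930_int S φ hu.1.1.continuous (cmb ψ 0 z₀) R (4 * ε)
      have e1 : ns2 (AN.Qs S φ β (mul2 (fun y w => cl930Th ψ dm z₀ ε R (y, w)) (S.res φ u))) =
          ∫ p in AN.Nb (cmb ψ 0 z₀) dm R (4 * ε),
            ‖AN.Qs S φ β (mul2 (fun y w => cl930Th ψ dm z₀ ε R (y, w)) (S.res φ u)) p.1 p.2‖ ^ 2
            ∂((volume : Measure (Cfg dh)).prod (volume : Measure (Wsp dm))) := by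
        unfold ns2
        symm
        refine setIntegral_eq_integral_of_forall_compl_eq_zero fun p hp => ?_
        rw [cl930_Qs_zero S φ β (cl930_out hC ψ z₀ hε hR (S.res φ u) (y := p.1) (w := p.2) ?_), norm_zero]
        · norm_num
        · intro hq
          refine hp ⟨hq.1.trans_lt (mul_lt_mul_of_pos_right (by linarith) hR),
            hq.2.trans_lt (mul_lt_mul_of_pos_right (by linarith) hR)⟩
      have e2 : (∫ p in AN.Nb (cmb ψ 0 z₀) dm R (4 * ε),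
            ‖AN.Qs S φ β (mul2 (fun y w => cl930Th ψ dm z₀ ε R (y, w)) (S.res φ u)) p.1 p.2‖ ^ 2
            ∂((volume : Measure (Cfg dh)).prod (volume : Measure (Wsp dm)))) ≤
          ∫ p in AN.Nb (cmb ψ 0 z₀) dm R (4 * ε), (2 * ‖AN.Qs S φ β (S.res φ u) p.1 p.2‖ ^ 2 +
            2 * (Cc * K / R) ^ 2 * ‖S.res φ u p.1 p.2‖ ^ 2)
            ∂((volume : Measure (Cfg dh)).prod (volume : Measure (Wsp dm))) := by
        refine integral_mono_of_nonneg (ae_of_all _ fun _ => sq_nonneg _)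
          ((hi1.const_mul 2).add (hi2.const_mul _)) ?_
        refine (ae_restrict_iff' (cl930_nb_meas _ _ _ _)).2 (ae_of_all _ fun p hp => ?_)
        show ‖AN.Qs S φ β (mul2 (fun y w => cl930Th ψ dm z₀ ε R (y, w)) (S.res φ u)) p.1 p.2‖ ^ 2 ≤
          2 * ‖AN.Qs S φ β (S.res φ u) p.1 p.2‖ ^ 2 + 2 * (Cc * K / R) ^ 2 * ‖S.res φ u p.1 p.2‖ ^ 2
        have h1 := hCut' R p.1 p.2 hR (hp.1.trans_le (mul_le_mul_of_nonneg_right b2 hR.le))
          (hp.2.trans_le (mul_le_mul_of_nonneg_right b2 hR.le)) (cl930Th ψ dm z₀ ε R) (S.res φ u)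
          (cl930Th_contDiff ψ dm z₀ ε R) hsm β
        have h2 : ‖fderiv ℝ (cl930Th ψ dm z₀ ε R) (p.1, p.2)‖ ≤ K / R := by
          rw [cl930Th_fderiv, norm_smul, Real.norm_eq_abs, abs_of_pos (inv_pos.2 hR), div_eq_inv_mul]
          exact mul_le_mul_of_nonneg_left (hK _) (inv_pos.2 hR).le
        have h3 : ‖((cl930Th ψ dm z₀ ε R (p.1, p.2) : ℝ) : ℂ) • AN.Qs S φ β (S.res φ u) p.1 p.2‖ ≤
            ‖AN.Qs S φ β (S.res φ u) p.1 p.2‖ := by
          have h0 : 0 ≤ cl930Th ψ dm z₀ ε R (p.1, p.2) := cl930Chi_nonneg _ _ _ _ _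
          rw [norm_smul, Complex.norm_real, Real.norm_eq_abs, abs_of_nonneg h0]
          exact mul_le_of_le_one_left (norm_nonneg _) (cl930Chi_le_one _ _ _ _ _)
        have h4 : ‖AN.Qs S φ β (mul2 (fun y w => cl930Th ψ dm z₀ ε R (y, w)) (S.res φ u)) p.1 p.2‖ ≤
            ‖AN.Qs S φ β (S.res φ u) p.1 p.2‖ + Cc * K / R * ‖S.res φ u p.1 p.2‖ := by
          have h5 : ‖AN.Qs S φ β (mul2 (fun y w => cl930Th ψ dm z₀ ε R (y, w)) (S.res φ u)) p.1 p.2 -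
              ((cl930Th ψ dm z₀ ε R (p.1, p.2) : ℝ) : ℂ) • AN.Qs S φ β (S.res φ u) p.1 p.2‖ ≤
              Cc * ‖fderiv ℝ (cl930Th ψ dm z₀ ε R) (p.1, p.2)‖ * ‖S.res φ u p.1 p.2‖ := h1
          have h6 : Cc * ‖fderiv ℝ (cl930Th ψ dm z₀ ε R) (p.1, p.2)‖ * ‖S.res φ u p.1 p.2‖ ≤
              Cc * K / R * ‖S.res φ u p.1 p.2‖ := by
            refine mul_le_mul_of_nonneg_right ?_ (norm_nonneg _)
            rw [mul_div_assoc]
            exact mul_le_mul_of_nonneg_left h2 hCc.le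
          have h7 := norm_le_norm_add_norm_sub' (AN.Qs S φ β (mul2 (fun y w => cl930Th ψ dm z₀ ε R (y, w)) (S.res φ u)) p.1 p.2)
            (((cl930Th ψ dm z₀ ε R (p.1, p.2) : ℝ) : ℂ) • AN.Qs S φ β (S.res φ u) p.1 p.2)
          linarith
        have h8 := pow_le_pow_left₀ (norm_nonneg _) h4 2
        refine h8.trans ?_
        nlinarith [sq_nonneg (‖AN.Qs S φ β (S.res φ u) p.1 p.2‖ - Cc * K / R * ‖S.res φ u p.1 p.2‖)]
      have e3 : (∫ p in AN.Nb (cmb ψ 0 z₀) dm R (4 * ε), (2 * ‖AN.Qs S φ β (S.res φ u) p.1 p.2‖ ^ 2 +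
            2 * (Cc * K / R) ^ 2 * ‖S.res φ u p.1 p.2‖ ^ 2)
            ∂((volume : Measure (Cfg dh)).prod (volume : Measure (Wsp dm)))) =
          2 * (c⁻¹ * mas (S.Q β u) (AN.Tube S φ (cmb ψ 0 z₀) R (4 * ε) ρN)) +
          2 * (Cc * K / R) ^ 2 * (c⁻¹ * mas u (AN.Tube S φ (cmb ψ 0 z₀) R (4 * ε) ρN)) := by
        rw [integral_add (hi1.const_mul 2) (hi2.const_mul _), integral_const_mul, integral_const_mul, hm1']
        congr 2
        have h5 := hm2 β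
        have h6 : mas (S.Q β u) (AN.Tube S φ (cmb ψ 0 z₀) R (4 * ε) ρN) =
            c * ∫ p in AN.Nb (cmb ψ 0 z₀) dm R (4 * ε), ‖AN.Qs S φ β (S.res φ u) p.1 p.2‖ ^ 2
            ∂((volume : Measure (Cfg dh)).prod (volume : Measure (Wsp dm))) := h5
        rw [h6, ← mul_assoc, inv_mul_cancel₀ hc.ne', one_mul]
      have e4 := cl930_mas_mono hQt htube
      rw [e1]
      refine e2.trans ?_
      rw [e3]
      have f1 : c⁻¹ * mas (S.Q β u) (AN.Tube S φ (cmb ψ 0 z₀) R (4 * ε) ρN) ≤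
          c⁻¹ * mas (S.Q β u) (shl d (‖emb φ (cmb ψ 0 z₀) 0‖ / 4 * R) (2 * ‖emb φ (cmb ψ 0 z₀) 0‖ * R)) :=
        mul_le_mul_of_nonneg_left e4 (inv_pos.2 hc).le
      have f2 : c⁻¹ * mas u (AN.Tube S φ (cmb ψ 0 z₀) R (4 * ε) ρN) ≤
          c⁻¹ * mas u (shl d (‖emb φ (cmb ψ 0 z₀) 0‖ / 4 * R) (2 * ‖emb φ (cmb ψ 0 z₀) 0‖ * R)) :=
        mul_le_mul_of_nonneg_left hA1 (inv_pos.2 hc).le
      have f3 := mul_le_mul_of_nonneg_left f2 (show (0 : ℝ) ≤ 2 * (Cc * K / R) ^ 2 by positivity)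
      have f4 : 2 * (Cc * K / R) ^ 2 * (c⁻¹ * mas u (shl d (‖emb φ (cmb ψ 0 z₀) 0‖ / 4 * R)
          (2 * ‖emb φ (cmb ψ 0 z₀) 0‖ * R))) = 2 * (Cc * K) ^ 2 * c⁻¹ * (1 / R ^ 2 *
            mas u (shl d (‖emb φ (cmb ψ 0 z₀) 0‖ / 4 * R) (2 * ‖emb φ (cmb ψ 0 z₀) 0‖ * R))) := by
        rw [div_pow]
        ring
      rw [← f4]
      have f5 : mas (S.Q β u) (shl d (‖emb φ (cmb ψ 0 z₀) 0‖ / 4 * R) (2 * ‖emb φ (cmb ψ 0 z₀) 0‖ * R)) =
        ∫ x in shl d (‖emb φ (cmb ψ 0 z₀) 0‖ / 4 * R) (2 * ‖emb φ (cmb ψ 0 z₀) 0‖ * R), ‖S.Q β u x‖ ^ 2 := rfl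
      rw [f5] at f1
      linarith
    have hsum := Finset.sum_le_sum fun (β : Fin 16) (_ : β ∈ Finset.univ) => key β
    rw [Finset.sum_add_distrib, ← Finset.mul_sum, Finset.sum_const, Finset.card_univ, Fintype.card_fin,
      nsmul_eq_mul] at hsum
    have hE : 0 ≤ ena S u (shl d (‖emb φ (cmb ψ 0 z₀) 0‖ / 4 * R) (2 * ‖emb φ (cmb ψ 0 z₀) 0‖ * R)) :=
      Finset.sum_nonneg fun β _ => integral_nonneg fun _ => sq_nonneg _
    refine hsum.trans ?_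
    have g0 : (∑ i, ∫ x in shl d (‖emb φ (cmb ψ 0 z₀) 0‖ / 4 * R) (2 * ‖emb φ (cmb ψ 0 z₀) 0‖ * R), ‖S.Q i u x‖ ^ 2) =
      ena S u (shl d (‖emb φ (cmb ψ 0 z₀) 0‖ / 4 * R) (2 * ‖emb φ (cmb ψ 0 z₀) 0‖ * R)) := rfl
    rw [g0]
    have hB : 0 ≤ 1 / R ^ 2 * mas u (shl d (‖emb φ (cmb ψ 0 z₀) 0‖ / 4 * R) (2 * ‖emb φ (cmb ψ 0 z₀) 0‖ * R)) :=
      mul_nonneg (by positivity) hA
    have g1 : 0 ≤ (c⁻¹ + 32 * (Cc * K) ^ 2 * c⁻¹ + c') *
        ena S u (shl d (‖emb φ (cmb ψ 0 z₀) 0‖ / 4 * R) (2 * ‖emb φ (cmb ψ 0 z₀) 0‖ * R)) :=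
      mul_nonneg (by positivity) hE
    have g2 : 0 ≤ (c⁻¹ + 2 * c⁻¹ + c') *
        (1 / R ^ 2 * mas u (shl d (‖emb φ (cmb ψ 0 z₀) 0‖ / 4 * R) (2 * ‖emb φ (cmb ψ 0 z₀) 0‖ * R))) :=
      mul_nonneg (by positivity) hB
    push_cast
    nlinarith
  · have h1 : mas u (Metric.ball (R • emb φ (cmb ψ 0 z₀) 0) (δ * R)) ≤
        mas u (AN.Tube S φ (cmb ψ 0 z₀) R (ε / 2) ρN) := cl930_mas_mono hu.1 hball
    refine h1.trans ?_
    have h2 : mas u (AN.Tube S φ (cmb ψ 0 z₀) R (ε / 2) ρN) = c' * ∫ p in AN.Nb (cmb ψ 0 z₀) dm R (ε / 2),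
        ‖S.res φ u p.1 p.2‖ ^ 2 ∂((volume : Measure (Cfg dh)).prod (volume : Measure (Wsp dm))) := hm3
    have h3 : (∫ p in AN.Nb (cmb ψ 0 z₀) dm R (ε / 2),
        ‖S.res φ u p.1 p.2‖ ^ 2 ∂((volume : Measure (Cfg dh)).prod (volume : Measure (Wsp dm)))) =
        ∫ p in AN.Nb (cmb ψ 0 z₀) dm R (ε / 2),
        ‖mul2 (fun y w => cl930Th ψ dm z₀ ε R (y, w)) (S.res φ u) p.1 p.2‖ ^ 2
          ∂((volume : Measure (Cfg dh)).prod (volume : Measure (Wsp dm))) := by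
      refine setIntegral_congr_fun (cl930_nb_meas _ _ _ _) fun p hp => ?_
      have hp1 : ‖p.1 - R • cmb ψ 0 z₀‖ < ε / 2 * R := hp.1
      have hp2 : ‖p.2‖ < ε / 2 * R := hp.2
      have h4 := cl930_dist hC ψ z₀ R p.1
      have h5 : ‖sp ψ p.1‖ ≤ ε / 2 * R := by
        refine (sq_le_sq₀ (norm_nonneg _) (by positivity)).1 ?_
        have := sq_nonneg ‖zp ψ p.1 - R • z₀‖
        have := pow_le_pow_left₀ (norm_nonneg _) hp1.le 2
        linarith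
      have h6 : ‖zp ψ p.1 - R • z₀‖ ≤ ε / 2 * R := by
        refine (sq_le_sq₀ (norm_nonneg _) (by positivity)).1 ?_
        have := sq_nonneg ‖sp ψ p.1‖
        have := pow_le_pow_left₀ (norm_nonneg _) hp1.le 2
        linarith
      have h7 : cl930Th ψ dm z₀ ε R (p.1, p.2) = 1 := by
        show cl930R ε (R⁻¹ • zp ψ p.1 - z₀) * cl930R ε (R⁻¹ • sp ψ p.1) * cl930R ε (R⁻¹ • p.2) = 1
        rw [cl930R_one hε ((cl930_inv hR _ _ _).2.2 h6), cl930R_one hε ((cl930_inv0 hR _ _).2.2 h5),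
          cl930R_one hε ((cl930_inv0 hR _ _).2.2 hp2.le), mul_one, mul_one]
      show ‖S.res φ u p.1 p.2‖ ^ 2 = ‖((cl930Th ψ dm z₀ ε R (p.1, p.2) : ℝ) : ℂ) • S.res φ u p.1 p.2‖ ^ 2
      rw [h7, Complex.ofReal_one, one_smul]
    have h8 : (∫ p in AN.Nb (cmb ψ 0 z₀) dm R (ε / 2),
        ‖mul2 (fun y w => cl930Th ψ dm z₀ ε R (y, w)) (S.res φ u) p.1 p.2‖ ^ 2
          ∂((volume : Measure (Cfg dh)).prod (volume : Measure (Wsp dm)))) ≤
        ns2 (mul2 (fun y w => cl930Th ψ dm z₀ ε R (y, w)) (S.res φ u)) := by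
      refine setIntegral_le_integral ?_ (ae_of_all _ fun _ => sq_nonneg _)
      have h9 : Continuous fun p : Cfg dh × Wsp dm =>
          ‖mul2 (fun y w => cl930Th ψ dm z₀ ε R (y, w)) (S.res φ u) p.1 p.2‖ ^ 2 := htst.1.continuous.norm.pow 2
      refine h9.integrable_of_hasCompactSupport (HasCompactSupport.intro htst.2 fun x hx => ?_)
      have h10 : mul2 (fun y w => cl930Th ψ dm z₀ ε R (y, w)) (S.res φ u) x.1 x.2 = 0 :=
        image_eq_zero_of_notMem_tsupport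
          (f := fun p : Cfg dh × Wsp dm => mul2 (fun y w => cl930Th ψ dm z₀ ε R (y, w)) (S.res φ u) p.1 p.2) hx
      rw [h10, norm_zero]
      norm_num
    have h11 : 0 ≤ ns2 (mul2 (fun y w => cl930Th ψ dm z₀ ε R (y, w)) (S.res φ u)) :=
      integral_nonneg fun _ => sq_nonneg _
    rw [h2, h3]
    refine (mul_le_mul_of_nonneg_left h8 hc'.le).trans (mul_le_mul_of_nonneg_right ?_ h11)
    have : 0 ≤ c⁻¹ + 2 * c⁻¹ + 32 * (Cc * K) ^ 2 * c⁻¹ := by positivity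
    linarith

end Vale.Agent.P353.Z.AD
end

section

/-! # P353, all `N`, block L: `GluAStmt` from `GluCStmt` -/

open MeasureTheory Filter Topology Matrix
open scoped ContDiff

namespace Vale.Agent.P353.Z.AL

variable {d dh dm r ds n : ℕ} {F : Type*} [NormedAddCommGroup F] [InnerProductSpace ℂ F]

theorem glb_cmb (ψ : Spl r ds dh) (ys : Cfg ds) (yz : Cfg r) : AD.cmb (spsw ψ) ys yz = cmb ψ yz ys := by
  ext ⟨i, A⟩
  obtain ⟨a, rfl⟩ := ψ.surjective A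
  rcases a with a | a <;> simp [cmb, AD.cmb, spsw]

theorem glb_Dz (S : Setup d F) (φ : Spl dh dm d) (ψ : Spl r ds dh) (η : Cfg r) :
    AD.Dz S φ (spsw ψ) η = S.Dz φ ψ η := by
  funext i
  rw [AD.Dz, Setup.Dz, glb_cmb]

theorem glb_Dz_cont (S : Setup d F) (φ : Spl dh dm d) (ψ : Spl r ds dh) (i : Fin 9) :
    Continuous fun η : Cfg r => S.Dz φ ψ η i := by
  have h : (fun η : Cfg r => S.Dz φ ψ η i) = fun η => ∑ a, η (i, a) • AX.Mz S φ (spsw ψ) a := by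
    funext η
    rw [← AX.DM_Dz]
    rfl
  rw [h]
  fun_prop

theorem glb_open (S : Setup d F) (φ : Spl dh dm d) (ψ : Spl r ds dh) : IsOpen (R8 S φ ψ) := by
  have h : Continuous fun η : Cfg r => (S.Dz φ ψ η 8).det := (glb_Dz_cont S φ ψ 8).matrix_det
  exact isOpen_ne.preimage h

theorem glb_hz_cont (ψ : Spl r ds dh) : Continuous (AN.hz ψ) := by
  refine (PiLp.continuous_toLp 2 _).comp (continuous_pi fun p => ?_)
  fun_prop

theorem glb_hs_cont (ψ : Spl r ds dh) : Continuous (AN.hs ψ) := by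
  refine (PiLp.continuous_toLp 2 _).comp (continuous_pi fun p => ?_)
  fun_prop

theorem glb_Nr_meas (ψ : Spl r ds dh) {A : Set (Cfg r)} (hA : IsClosed A) (dm : ℕ) (R ε : ℝ) :
    MeasurableSet (Nr ψ A dm R ε) := by
  have h1 : MeasurableSet {p : Cfg dh × Wsp dm | R⁻¹ • AN.hz ψ p.1 ∈ A} :=
    (hA.preimage (((glb_hz_cont ψ).comp continuous_fst).const_smul R⁻¹)).measurableSet
  have h2 : MeasurableSet {p : Cfg dh × Wsp dm | ‖AN.hs ψ p.1‖ < ε * R} :=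
    (isOpen_Iio.preimage ((glb_hs_cont ψ).comp continuous_fst).norm).measurableSet
  have h3 : MeasurableSet {p : Cfg dh × Wsp dm | ‖p.2‖ < ε * R} :=
    (isOpen_Iio.preimage continuous_snd.norm).measurableSet
  exact h1.inter (h2.inter h3)

theorem glb_Rg {S : Setup d F} {φ : Spl dh dm d} {ψ : Spl r ds dh} {z₀ : Cfg r} (h : AD.Std2 S φ (spsw ψ) z₀) {η : Cfg r}
    (hη : η ∈ R8 S φ ψ) : η ∈ Rg S φ ψ := by
  have hF : Frz (S.Dz φ ψ η) := by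
    rw [← glb_Dz]
    refine AX.frz_Dz h η ?_
    rw [glb_Dz]
    exact hη
  intro h0
  obtain ⟨v, hv, hv0⟩ := Matrix.exists_mulVec_eq_zero_iff.2 h0
  have h1 : ∀ i, v ⬝ᵥ ((S.Dz φ ψ η i * S.Dz φ ψ η i) *ᵥ v) = -((S.Dz φ ψ η i *ᵥ v) ⬝ᵥ (S.Dz φ ψ η i *ᵥ v)) := by
    intro i
    rw [← Matrix.mulVec_mulVec, Matrix.dotProduct_mulVec, ← Matrix.mulVec_transpose, hF.anti, Matrix.neg_mulVec,
      neg_dotProduct]
  have h2 : ∑ i, (S.Dz φ ψ η i *ᵥ v) ⬝ᵥ (S.Dz φ ψ η i *ᵥ v) = 0 := by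
    have h3 : v ⬝ᵥ ((∑ i, S.Dz φ ψ η i * S.Dz φ ψ η i) *ᵥ v) = 0 := by rw [hv0, dotProduct_zero]
    rw [Matrix.sum_mulVec, dotProduct_sum] at h3
    simp only [h1, Finset.sum_neg_distrib, neg_eq_zero] at h3
    exact h3
  have h4 : ∀ i, 0 ≤ (S.Dz φ ψ η i *ᵥ v) ⬝ᵥ (S.Dz φ ψ η i *ᵥ v) := fun i =>
    Finset.sum_nonneg fun _ _ => mul_self_nonneg _
  have h5 := (Finset.sum_eq_zero_iff_of_nonneg fun i _ => h4 i).1 h2 8 (Finset.mem_univ _)
  have h6 : S.Dz φ ψ η 8 *ᵥ v = 0 := dotProduct_self_eq_zero.1 h5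
  exact hη (Matrix.exists_mulVec_eq_zero_iff.1 ⟨v, hv, h6⟩)

theorem glb_Sl (S : Setup d F) (φ : Spl dh dm d) (ψ : Spl r ds dh) (Om : Cfg r → Matrix (Fin dm) (Fin dm) ℝ)
    {A B : Set (Cfg r)} (hA : IsClosed A) (hAB : B ⊆ A) (ε : ℝ) {a : Cfg r → Cfg ds → F} (ha : ∀ η s, a η s ≠ 0 → η ∈ B)
    (R : ℝ) (u : Cfg d → F) : Sl S φ ψ Om A ε a R u = Sl S φ ψ Om B ε a R u := by
  rw [Sl, Sl]
  refine setIntegral_eq_of_subset_of_forall_sdiff_eq_zero (glb_Nr_meas ψ hA dm R ε) ?_ ?_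
  · intro p hp
    exact ⟨hAB hp.1, hp.2⟩
  · rintro p ⟨hp, hp'⟩
    have h1 : R⁻¹ • AN.hz ψ p.1 ∉ B := fun h => hp' ⟨h, hp.2⟩
    have h2 : a (R⁻¹ • AN.hz ψ p.1) (AN.hs ψ p.1) = 0 := by
      by_contra h
      exact h1 (ha _ _ h)
    simp [AN.Ts0, AN.vG, h2]

theorem gluA_ofC (S : Setup d F) : GluAOfCStmt S := by
  intro hC hF dh dm r ds φ ψ z₀ h hz L Om K U hB
  have h8 : z₀ ∈ R8 S φ ψ := by
    have := h.std.inv
    rw [glb_cmb] at this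
    exact this
  obtain ⟨ε₁, hε₁, hball⟩ := Metric.isOpen_iff.1 (glb_open S φ ψ) z₀ h8
  set ε₂ : ℝ := min (ε₁ / 2) (‖z₀‖ / 2) with hε₂
  have hz0 : 0 < ‖z₀‖ := norm_pos_iff.2 hz
  have hε₂p : 0 < ε₂ := lt_min (by linarith) (by linarith)
  have hsub : Metric.closedBall z₀ ε₂ ⊆ R8 S φ ψ := by
    intro η hη
    refine hball ?_
    have h1 : dist η z₀ ≤ ε₂ := hη
    have h2 : ε₂ ≤ ε₁ / 2 := min_le_left _ _
    exact lt_of_le_of_lt (h1.trans h2) (by linarith)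
  have h0 : (0 : Cfg r) ∉ Metric.closedBall z₀ ε₂ := by
    intro h1
    have h2 : dist (0 : Cfg r) z₀ ≤ ε₂ := h1
    rw [dist_zero_left] at h2
    have h3 : ε₂ ≤ ‖z₀‖ / 2 := min_le_right _ _
    linarith
  obtain ⟨ε₀, hε₀, hmain⟩ := hC hF dh dm r ds φ ψ z₀ h L Om K U hB (Metric.closedBall z₀ ε₂)
    (isCompact_closedBall _ _) hsub h0
  refine ⟨min ε₀ ε₂, lt_min hε₀ hε₂p, ?_, ?_⟩
  · intro η hη
    have h1 : η ∈ Metric.closedBall z₀ ε₂ := Metric.closedBall_subset_closedBall (min_le_right _ _) hη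
    exact ⟨hsub h1, glb_Rg h (hsub h1)⟩
  · intro ε hε hε' R u hu a ha
    have h1 : Metric.closedBall z₀ ε ⊆ Metric.closedBall z₀ ε₂ :=
      Metric.closedBall_subset_closedBall (hε'.trans (min_le_right _ _))
    have h2 := hmain ε hε (hε'.trans (min_le_left _ _)) R u hu a ⟨ha.1, fun η s hs => h1 (ha.2 η s hs)⟩
    refine h2.congr fun n => ?_
    rw [glb_Sl S φ ψ Om Metric.isClosed_closedBall h1 ε ha.2]

end Vale.Agent.P353.Z.AL
end

section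

/-! # P353, all `N`, block L: geometry of the slice regions and a.e. equality (part of `GluAOfStmt`) -/

open MeasureTheory Filter Topology Matrix
open scoped ContDiff

namespace Vale.Agent.P353.Z.AL

set_option linter.unusedSectionVars false

variable {d dh dm r ds n : ℕ} {F : Type*} [NormedAddCommGroup F] [InnerProductSpace ℂ F]

theorem gc459_cmb (ψ : Spl r ds dh) (η : Cfg r) : AD.cmb (spsw ψ) 0 η = AN.cmb ψ η 0 := by
  ext ⟨i, A⟩
  obtain ⟨a, rfl⟩ := ψ.surjective A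
  rcases a with a | a <;> simp [AN.cmb, AD.cmb, spsw]

theorem gc459_Dz (S : Setup d F) (φ : Spl dh dm d) (ψ : Spl r ds dh) (η : Cfg r) :
    AD.Dz S φ (spsw ψ) η = AN.Dz S φ ψ η := by
  funext i
  rw [AD.Dz, gc459_cmb, AN.Dz]

theorem gc459_norm (ψ : Spl r ds dh) (y : Cfg dh) :
    ‖y‖ ^ 2 = ‖AN.hz ψ y‖ ^ 2 + ‖AN.hs ψ y‖ ^ 2 := by
  rw [EuclideanSpace.norm_sq_eq, EuclideanSpace.norm_sq_eq, EuclideanSpace.norm_sq_eq, Fintype.sum_prod_type,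
    Fintype.sum_prod_type, Fintype.sum_prod_type, ← Finset.sum_add_distrib]
  refine Finset.sum_congr rfl fun i _ => ?_
  rw [← ψ.sum_comp, Fintype.sum_sum_type]
  rfl

theorem gc459_hz (ψ : Spl r ds dh) (z : Cfg r) (R : ℝ) (y : Cfg dh) :
    AN.hz ψ (y - R • AN.cmb ψ z 0) = AN.hz ψ y - R • z := by
  ext p
  simp [AN.hz, AN.cmb]

theorem gc459_hs (ψ : Spl r ds dh) (z : Cfg r) (R : ℝ) (y : Cfg dh) :
    AN.hs ψ (y - R • AN.cmb ψ z 0) = AN.hs ψ y := by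
  ext p
  simp [AN.hs, AN.cmb]

theorem gc459_cmbn (ψ : Spl r ds dh) (z : Cfg r) : ‖(AN.cmb ψ z 0 : Cfg dh)‖ = ‖z‖ := by
  have h := gc459_norm ψ (AN.cmb ψ z 0)
  have h1 : AN.hz ψ (AN.cmb ψ z 0) = z := by ext p; simp [AN.hz, AN.cmb]
  have h2 : AN.hs ψ (AN.cmb ψ z (0 : Cfg ds)) = 0 := by ext p; simp [AN.hs, AN.cmb]
  rw [h1, h2, norm_zero] at h
  have h3 : ‖(AN.cmb ψ z 0 : Cfg dh)‖ ^ 2 = ‖z‖ ^ 2 := by linarith
  exact (sq_eq_sq₀ (norm_nonneg _) (norm_nonneg _)).1 h3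

/-- distance of a point to `R z` in terms of the scaled centre part -/
theorem gc459_dist (ψ : Spl r ds dh) (z : Cfg r) {R : ℝ} (hR : 0 < R) (y : Cfg dh) :
    ‖y - R • AN.cmb ψ z 0‖ ^ 2 = (R * ‖R⁻¹ • AN.hz ψ y - z‖) ^ 2 + ‖AN.hs ψ y‖ ^ 2 := by
  rw [gc459_norm ψ, gc459_hz, gc459_hs]
  have h1 : AN.hz ψ y - R • z = R • (R⁻¹ • AN.hz ψ y - z) := by rw [smul_sub, smul_inv_smul₀ hR.ne']
  rw [h1, norm_smul, Real.norm_eq_abs, abs_of_pos hR]

/-- `Nr ⊆ Nb` -/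
theorem gc459_sub (ψ : Spl r ds dh) (z₀ : Cfg r) {ε e R : ℝ} (hε : 0 < ε) (he : 2 * ε ≤ e) (hR : 0 < R) :
    Nr ψ (Metric.closedBall z₀ ε) dm R ε ⊆ AN.Nb (AN.cmb ψ z₀ 0) dm R e := by
  rintro p ⟨h1, h2, h3⟩
  have hεR : 0 < ε * R := by positivity
  have he' : 2 * (ε * R) ≤ e * R := by nlinarith
  refine ⟨?_, by linarith⟩
  have h4 := gc459_dist ψ z₀ hR p.1
  rw [Metric.mem_closedBall, dist_eq_norm] at h1
  have h5 : R * ‖R⁻¹ • AN.hz ψ p.1 - z₀‖ ≤ ε * R := by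
    rw [mul_comm]
    exact mul_le_mul_of_nonneg_right h1 hR.le
  have h6 : ‖p.1 - R • AN.cmb ψ z₀ 0‖ ^ 2 < (2 * (ε * R)) ^ 2 := by
    rw [h4]
    have := norm_nonneg (AN.hs ψ p.1)
    have : 0 ≤ R * ‖R⁻¹ • AN.hz ψ p.1 - z₀‖ := by positivity
    nlinarith
  have h7 : ‖p.1 - R • AN.cmb ψ z₀ 0‖ < 2 * (ε * R) := lt_of_pow_lt_pow_left₀ 2 (by positivity) h6
  linarith

/-- points of the slice ball lie in a shell -/
theorem gc459_shl (φ : Spl dh dm d) (ψ : Spl r ds dh) (z₀ : Cfg r) (hz : z₀ ≠ 0) {e R : ℝ} (he : e ≤ ‖z₀‖ / 4)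
    (hR : 0 < R) {p : Cfg dh × Wsp dm} (hp : p ∈ AN.Nb (AN.cmb ψ z₀ 0) dm R e) :
    ‖z₀‖ / 2 * R < ‖emb φ p.1 p.2‖ ∧ ‖emb φ p.1 p.2‖ < 2 * ‖z₀‖ * R := by
  have hz0 : 0 < ‖z₀‖ := norm_pos_iff.2 hz
  obtain ⟨h1, h2⟩ := hp
  have he' : e * R ≤ ‖z₀‖ / 4 * R := mul_le_mul_of_nonneg_right he hR.le
  have hn : ‖R • (AN.cmb ψ z₀ 0 : Cfg dh)‖ = R * ‖z₀‖ := by
    rw [norm_smul, Real.norm_eq_abs, abs_of_pos hR, gc459_cmbn]
  have h3 := norm_sub_norm_le (R • (AN.cmb ψ z₀ 0 : Cfg dh)) p.1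
  have h4 := norm_sub_norm_le p.1 (R • (AN.cmb ψ z₀ 0 : Cfg dh))
  rw [norm_sub_rev] at h3
  rw [hn] at h3 h4
  have hE := AD.cl930_emb_norm φ p.1 p.2
  have h0 : 0 < ‖z₀‖ * R := by positivity
  have hp1 := norm_nonneg p.1
  have hp2 := norm_nonneg p.2
  constructor
  · refine lt_of_pow_lt_pow_left₀ 2 (norm_nonneg _) ?_
    rw [hE]
    nlinarith
  · refine lt_of_pow_lt_pow_left₀ 2 (by positivity) ?_
    rw [hE]
    nlinarith

/-- on the support of the section the two regions agree outside the tail -/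
theorem gc459_iff (ψ : Spl r ds dh) (z₀ z : Cfg r) {ε e δ R : ℝ} (hR : 0 < R) (he : 0 < e) (hδ : δ ≤ e / 2)
    {p : Cfg dh × Wsp dm} (hA : R⁻¹ • AN.hz ψ p.1 ∈ Metric.closedBall z₀ ε) (hz : ‖R⁻¹ • AN.hz ψ p.1 - z‖ ≤ δ)
    (hB : ¬ (min (e / 2) ε * R ≤ ‖AN.hs ψ p.1‖ ∨ min (e / 2) ε * R ≤ ‖p.2‖)) :
    (p ∈ AN.Nb (AN.cmb ψ z 0) dm R e ↔ p ∈ Nr ψ (Metric.closedBall z₀ ε) dm R ε) := by
  push Not at hB
  obtain ⟨hB1, hB2⟩ := hB
  have m1 : min (e / 2) ε * R ≤ e / 2 * R := mul_le_mul_of_nonneg_right (min_le_left _ _) hR.le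
  have m2 : min (e / 2) ε * R ≤ ε * R := mul_le_mul_of_nonneg_right (min_le_right _ _) hR.le
  have heR : 0 < e * R := by positivity
  have h1 : p ∈ AN.Nb (AN.cmb ψ z 0) dm R e := by
    refine ⟨?_, by linarith⟩
    have h4 := gc459_dist ψ z hR p.1
    have h5 : R * ‖R⁻¹ • AN.hz ψ p.1 - z‖ ≤ e / 2 * R := by
      rw [mul_comm]
      exact mul_le_mul_of_nonneg_right (hz.trans hδ) hR.le
    have h6 : ‖p.1 - R • AN.cmb ψ z 0‖ ^ 2 < (e * R) ^ 2 := by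
      rw [h4]
      have := norm_nonneg (AN.hs ψ p.1)
      have : 0 ≤ R * ‖R⁻¹ • AN.hz ψ p.1 - z‖ := by positivity
      nlinarith
    exact lt_of_pow_lt_pow_left₀ 2 (by positivity) h6
  have h2 : p ∈ Nr ψ (Metric.closedBall z₀ ε) dm R ε := ⟨hA, by linarith, by linarith⟩
  exact ⟨fun _ => h2, fun _ => h1⟩

theorem gc459_nr_meas (ψ : Spl r ds dh) (z₀ : Cfg r) (ε R e : ℝ) :
    MeasurableSet (Nr ψ (Metric.closedBall z₀ ε) dm R e) := by
  have h0 : Continuous fun p : Cfg dh × Wsp dm => AN.hz ψ p.1 := (AN.mea824_chz ψ).comp continuous_fst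
  have h1 : Measurable fun p : Cfg dh × Wsp dm => R⁻¹ • AN.hz ψ p.1 := (h0.const_smul R⁻¹).measurable
  have h2 : Measurable fun p : Cfg dh × Wsp dm => ‖AN.hs ψ p.1‖ :=
    ((AN.mea824_chs ψ).comp continuous_fst).norm.measurable
  have h3 : Measurable fun p : Cfg dh × Wsp dm => ‖p.2‖ := continuous_snd.norm.measurable
  exact (h1 Metric.isClosed_closedBall.measurableSet).inter
    ((measurableSet_lt h2 measurable_const).inter (measurableSet_lt h3 measurable_const))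

theorem gc459_tail_meas (ψ : Spl r ds dh) (e R : ℝ) :
    MeasurableSet {p : Cfg dh × Wsp dm | e * R ≤ ‖AN.hs ψ p.1‖ ∨ e * R ≤ ‖p.2‖} := by
  have h2 : Measurable fun p : Cfg dh × Wsp dm => ‖AN.hs ψ p.1‖ :=
    ((AN.mea824_chs ψ).comp continuous_fst).norm.measurable
  have h3 : Measurable fun p : Cfg dh × Wsp dm => ‖p.2‖ := continuous_snd.norm.measurable
  exact (measurableSet_le measurable_const h2).union (measurableSet_le measurable_const h3)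

/-! ## almost everywhere equality -/

/-- scaling of the centre variable is quasi measure preserving -/
theorem gc459_qs {R : ℝ} (hR : 0 < R) :
    Measure.QuasiMeasurePreserving (fun q : Cfg r × Cfg ds => ((R⁻¹ • q.1, q.2) : Cfg r × Cfg ds))
      (volume.prod volume) (volume.prod volume) := by
  have hm : Measurable (fun q : Cfg r × Cfg ds => ((R⁻¹ • q.1, q.2) : Cfg r × Cfg ds)) := by fun_prop
  refine ⟨hm, ?_⟩
  have e1 := AN.wgt_map_smul (ι := Fin 9 × Fin r) R⁻¹ (inv_ne_zero hR.ne')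
  have e2 : Measure.map (fun q : Cfg r × Cfg ds => ((R⁻¹ • q.1, q.2) : Cfg r × Cfg ds)) (volume.prod volume) =
      (Measure.map (fun x : Cfg r => R⁻¹ • x) volume).prod (Measure.map id (volume : Measure (Cfg ds))) := by
    rw [Measure.map_prod_map _ _ (measurable_const_smul _) measurable_id]
    rfl
  rw [e2, e1, Measure.map_id, Measure.prod_smul_left]
  exact Measure.smul_absolutelyContinuous

theorem gc459_qz (φ : Spl dh dm d) (ψ : Spl r ds dh) {R : ℝ} (hR : 0 < R) :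
    Measure.QuasiMeasurePreserving (fun x : Cfg d => ((R⁻¹ • AN.hz ψ (AN.zy φ x), AN.hs ψ (AN.zy φ x)) : Cfg r × Cfg ds))
      volume (volume.prod volume) := by
  have h1 := (AN.wgt_mp φ ψ).quasiMeasurePreserving
  have h2 := (measurePreserving_prodAssoc (volume : Measure (Cfg r)) (volume : Measure (Cfg ds))
    (volume : Measure (Cfg dm))).symm.quasiMeasurePreserving
  have h3 : Measure.QuasiMeasurePreserving (Prod.fst : (Cfg r × Cfg ds) × Cfg dm → Cfg r × Cfg ds)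
    ((volume.prod volume).prod volume) (volume.prod volume) := Measure.quasiMeasurePreserving_fst
  exact (gc459_qs hR).comp (h3.comp (h2.comp h1))

theorem gc459_qy (ψ : Spl r ds dh) {R : ℝ} (hR : 0 < R) :
    Measure.QuasiMeasurePreserving
      (fun p : Cfg dh × Wsp dm => ((R⁻¹ • AN.hz ψ p.1, AN.hs ψ p.1) : Cfg r × Cfg ds))
      (volume.prod volume) (volume.prod volume) := by
  have h1 := (AN.mea824_hzs ψ).quasiMeasurePreserving
  have h3 : Measure.QuasiMeasurePreserving (Prod.fst : Cfg dh × Wsp dm → Cfg dh)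
    (volume.prod volume) volume := Measure.quasiMeasurePreserving_fst
  exact (gc459_qs hR).comp (h1.comp h3)

/-- the global functional only depends on the class of the section -/
theorem gc459_ZZ (κ : ℝ) (φ : Spl dh dm d) (ψ : Spl r ds dh) (Om : Cfg r → Matrix (Fin dm) (Fin dm) ℝ)
    {a a' : Cfg r → Cfg ds → F} (h : ∀ᵐ q : Cfg r × Cfg ds ∂(volume.prod volume), a q.1 q.2 = a' q.1 q.2)
    {R : ℝ} (hR : 0 < R) (u : Cfg d → F) : ZZ κ φ ψ Om a R u = ZZ κ φ ψ Om a' R u := by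
  unfold ZZ
  refine integral_congr_ae ?_
  filter_upwards [(gc459_qz φ ψ hR).ae h] with x hx
  simp only [AN.Zb, AN.bG, hx]

theorem gc459_Sl (S : Setup d F) (φ : Spl dh dm d) (ψ : Spl r ds dh) (Om : Cfg r → Matrix (Fin dm) (Fin dm) ℝ)
    (A : Set (Cfg r)) (ε : ℝ) {a a' : Cfg r → Cfg ds → F}
    (h : ∀ᵐ q : Cfg r × Cfg ds ∂(volume.prod volume), a q.1 q.2 = a' q.1 q.2)
    {R : ℝ} (hR : 0 < R) (u : Cfg d → F) : Sl S φ ψ Om A ε a R u = Sl S φ ψ Om A ε a' R u := by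
  unfold Sl
  refine integral_congr_ae (ae_restrict_of_ae ?_)
  filter_upwards [(gc459_qy ψ hR).ae h] with x hx
  simp only [AN.Ts0, AN.vG, hx]

end Vale.Agent.P353.Z.AL
end

section

/-! # P353, all `N`, block L: `GluCStmt` (prover helper182)

Global functional = slice functional over compact subsets of `R8`. -/

open MeasureTheory Filter Topology Matrix
open scoped ContDiff

namespace Vale.Agent.P353.Z.AL

variable {d dh dm r ds : ℕ} {F : Type*} [NormedAddCommGroup F] [InnerProductSpace ℂ F]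

/-! ### geometry -/

theorem glc_std {S : Setup d F} {φ : Spl dh dm d} {ψ : Spl r ds dh} {z₀ : Cfg r} (h : AD.Std2 S φ (spsw ψ) z₀)
    {z : Cfg r} (hz : z ∈ R8 S φ ψ) : AN.Std S φ (AN.cmb ψ z 0) where
  sub := h.std.sub
  cen := by
    intro i B C
    rw [← ψ.sum_comp, Fintype.sum_sum_type]
    have h1 : ∀ a, S.f (φ (Sum.inl (ψ (Sum.inl a)))) (φ (Sum.inl B)) (φ (Sum.inl C)) = 0 := fun a => h.cen a B C
    simp only [h1, zero_mul, Finset.sum_const_zero, zero_add]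
    refine Finset.sum_eq_zero fun b _ => ?_
    simp [AN.cmb]
  inv := hz

/-- the part of the slice over `R · closedBall z δ` lies in the slice ball -/
theorem glc_sub (ψ : Spl r ds dh) (z : Cfg r) {δ ε e R : ℝ} (he : 0 < e) (hδ : δ ≤ e / 2) (hε : ε ≤ e / 2) (hR : 0 < R) :
    Nr ψ (Metric.closedBall z δ) dm R ε ⊆ AN.Nb (AN.cmb ψ z 0) dm R e := by
  rintro p ⟨h1, h2, h3⟩
  have heR : 0 < e * R := by positivity
  have m1 : ε * R ≤ e / 2 * R := mul_le_mul_of_nonneg_right hε hR.le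
  refine ⟨?_, by linarith⟩
  have h4 := gc459_dist ψ z hR p.1
  rw [Metric.mem_closedBall, dist_eq_norm] at h1
  have h5 : R * ‖R⁻¹ • AN.hz ψ p.1 - z‖ ≤ e / 2 * R := by
    rw [mul_comm]
    exact mul_le_mul_of_nonneg_right (h1.trans hδ) hR.le
  have h6 : ‖p.1 - R • AN.cmb ψ z 0‖ ^ 2 < (e * R) ^ 2 := by
    rw [h4]
    have := norm_nonneg (AN.hs ψ p.1)
    have : 0 ≤ R * ‖R⁻¹ • AN.hz ψ p.1 - z‖ := by positivity
    nlinarith
  exact lt_of_pow_lt_pow_left₀ 2 (by positivity) h6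

theorem glc_T0 {S : Setup d F} {φ : Spl dh dm d} {ψ : Spl r ds dh} {Om : Cfg r → Matrix (Fin dm) (Fin dm) ℝ}
    {A : Set (Cfg r)} {a : Cfg r → Cfg ds → F} (ha : ∀ η s, a η s ≠ 0 → η ∈ A) {R : ℝ} {p : Cfg dh × Wsp dm}
    (h : AN.Ts0 ψ (AN.vG S φ ψ Om a) R p.1 p.2 ≠ 0) : R⁻¹ • AN.hz ψ p.1 ∈ A := by
  by_contra hc
  have h2 : a (R⁻¹ • AN.hz ψ p.1) (AN.hs ψ p.1) = 0 := by
    by_contra h
    exact hc (ha _ _ h)
  exact h (by simp [AN.Ts0, AN.vG, h2])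

/-! ### cutoffs -/

open Classical in
/-- admissible cutoffs -/
noncomputable def glcX (δ R : ℝ) (q : Cfg r × Cfg ds × Cfg dm) : ℝ := if 1 ≤ δ * Real.sqrt R then chi R q else 0

theorem glcX_meas (δ R : ℝ) : Measurable (glcX δ R : Cfg r × Cfg ds × Cfg dm → ℝ) := by
  have hchi : Measurable fun q : Cfg r × Cfg ds × Cfg dm => chi R q := by
    unfold chi
    refine Measurable.ite ?_ measurable_const measurable_const
    have m1 : Measurable fun q : Cfg r × Cfg ds × Cfg dm => ‖q.2.1‖ := by fun_prop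
    have m2 : Measurable fun q : Cfg r × Cfg ds × Cfg dm => ‖q.2.2‖ := by fun_prop
    exact (measurableSet_le m1 measurable_const).inter (measurableSet_le m2 measurable_const)
  unfold glcX
  split_ifs
  · exact hchi
  · exact measurable_const

theorem glcX_bd (δ R : ℝ) (q : Cfg r × Cfg ds × Cfg dm) : 0 ≤ glcX δ R q ∧ glcX δ R q ≤ 1 := by
  unfold glcX chi
  split_ifs <;> simp

theorem glcX_supp {δ R : ℝ} (hR : 0 < R) (q : Cfg r × Cfg ds × Cfg dm) (h : glcX δ R q ≠ 0) :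
    ‖q.2.1‖ ≤ δ * R ∧ ‖q.2.2‖ ≤ δ * (R * Real.sqrt R) := by
  have hs : 0 < Real.sqrt R := Real.sqrt_pos.2 hR
  have hss : Real.sqrt R * Real.sqrt R = R := Real.mul_self_sqrt hR.le
  unfold glcX chi at h
  split_ifs at h with h1 h2
  · obtain ⟨h2, h3⟩ := h2
    constructor
    · calc ‖q.2.1‖ ≤ 1 * Real.sqrt R := by rw [one_mul]; exact h2
        _ ≤ (δ * Real.sqrt R) * Real.sqrt R := mul_le_mul_of_nonneg_right h1 hs.le
        _ = δ * R := by rw [mul_assoc, hss]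
    · calc ‖q.2.2‖ ≤ 1 * R := by rw [one_mul]; exact h3
        _ ≤ (δ * Real.sqrt R) * R := mul_le_mul_of_nonneg_right h1 hR.le
        _ = δ * (R * Real.sqrt R) := by ring
  · exact absurd rfl h
  · exact absurd rfl h

theorem glcX_ev {δ : ℝ} (hδ : 0 < δ) {R : ℕ → ℝ} (hlim : Tendsto R atTop atTop) :
    ∀ᶠ n in atTop, (glcX δ (R n) : Cfg r × Cfg ds × Cfg dm → ℝ) = chi (R n) := by
  have h1 : Tendsto (fun n => δ * Real.sqrt (R n)) atTop atTop :=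
    (Real.tendsto_sqrt_atTop.comp hlim).const_mul_atTop hδ
  filter_upwards [h1.eventually_ge_atTop 1] with n hn
  funext q
  rw [glcX, if_pos hn]

theorem glcX_lim {δ : ℝ} (hδ : 0 < δ) {R : ℕ → ℝ} (hlim : Tendsto R atTop atTop) (q : Cfg r × Cfg ds × Cfg dm) :
    Tendsto (fun n => glcX δ (R n) q) atTop (𝓝 1) := by
  refine tendsto_nhds_of_eventually_eq ?_
  filter_upwards [glcX_ev (r := r) (ds := ds) (dm := dm) hδ hlim,
    (Real.tendsto_sqrt_atTop.comp hlim).eventually_ge_atTop ‖q.2.1‖, hlim.eventually_ge_atTop ‖q.2.2‖] with n h1 h2 h3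
  rw [h1, chi, if_pos ⟨h2, h3⟩]

/-! ### frozen data -/

theorem glc_frz {S : Setup d F} {φ : Spl dh dm d} {ψ : Spl r ds dh} {z₀ : Cfg r} (h : AD.Std2 S φ (spsw ψ) z₀)
    {η : Cfg r} (hη : η ∈ R8 S φ ψ) : Frz (AN.Dz S φ ψ η) := by
  have h1 : Frz (AD.Dz S φ (spsw ψ) η) := by
    refine AX.frz_Dz h η ?_
    rw [glb_Dz]
    exact hη
  rw [gc459_Dz] at h1
  exact h1

theorem glc_det {S : Setup d F} {φ : Spl dh dm d} {ψ : Spl r ds dh} {z₀ : Cfg r} (h : AD.Std2 S φ (spsw ψ) z₀)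
    {η : Cfg r} (hη : η ∈ R8 S φ ψ) :
    (∑ i, DM (AX.Mz S φ (spsw ψ)) η i * DM (AX.Mz S φ (spsw ψ)) η i).det ≠ 0 := by
  have h1 := glb_Rg h hη
  simp only [Rg, Set.mem_ofPred_eq] at h1
  simp only [AX.DM_Dz]
  exact h1

theorem glc_om {S : Setup d F} {φ : Spl dh dm d} {ψ : Spl r ds dh} {z₀ : Cfg r} (h : AD.Std2 S φ (spsw ψ) z₀)
    {L : Finset (Fin r → ℝ)} {Om : Cfg r → Matrix (Fin dm) (Fin dm) ℝ} {K : Submodule ℂ F} {U : Cfg r → F →L[ℂ] F}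
    (hB : AX.Bun S φ (AX.Mz S φ (spsw ψ)) L Om K U) {η : Cfg r} (hη : η ∈ R8 S φ ψ) :
    IsOm S.κ (AN.Dz S φ ψ η) (Om η) := by
  have h1 := hB.om η (glc_det h hη)
  rw [AX.DM_Dz] at h1
  exact h1

theorem glc_omc {S : Setup d F} {φ : Spl dh dm d} {ψ : Spl r ds dh} {z₀ : Cfg r} (h : AD.Std2 S φ (spsw ψ) z₀)
    {L : Finset (Fin r → ℝ)} {Om : Cfg r → Matrix (Fin dm) (Fin dm) ℝ} {K : Submodule ℂ F} {U : Cfg r → F →L[ℂ] F}
    (hB : AX.Bun S φ (AX.Mz S φ (spsw ψ)) L Om K U) : ContinuousOn Om (R8 S φ ψ) :=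
  continuousOn_pi.2 fun A => continuousOn_pi.2 fun B =>
    (hB.om_smooth A B).continuousOn.mono fun _ hη => glc_det h hη

/-- the integral over the slice ball is bounded by the mass -/
theorem glc_mass {S : Setup d F} {φ : Spl dh dm d} {u : Cfg d → F} (hu : Setup.Tst u) {T : Set (Cfg d)}
    {N : Set (Cfg dh × Wsp dm)} {c C : ℝ} (hc : 0 < c)
    (h : ∫ x in T, ‖u x‖ ^ 2 = c * ∫ p in N, ‖S.res φ u p.1 p.2‖ ^ 2 ∂(volume.prod volume))
    (hC : ∫ x, ‖u x‖ ^ 2 ≤ C) : ∫ p in N, ‖S.res φ u p.1 p.2‖ ^ 2 ∂(volume.prod volume) ≤ C / c := by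
  rw [le_div_iff₀ hc, mul_comm, ← h]
  exact (AN.SfuA.int_le hu T).trans hC

/-! ### local form -/

theorem glc_loc0 (S : Setup d F) (hfin : FiniteDimensional ℂ F) (hGlu : AN.GluStmt S) (hN : AN.NormStmt S)
    (hM : AN.MeaStmt S) (hGau : AN.GauStmt) (hAlg : AlgStmt) (hRad : RadStmt S) (hSup : SupZStmt F)
    (hTail : TailStmt S) (hVG : VGStmt S)
    (φ : Spl dh dm d) (ψ : Spl r ds dh) {z₀ : Cfg r} (h2 : AD.Std2 S φ (spsw ψ) z₀)
    {L : Finset (Fin r → ℝ)} {Om : Cfg r → Matrix (Fin dm) (Fin dm) ℝ} {K : Submodule ℂ F} {U : Cfg r → F →L[ℂ] F}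
    (hB : AX.Bun S φ (AX.Mz S φ (spsw ψ)) L Om K U) {z : Cfg r} (hz : z ∈ R8 S φ ψ) (hz0 : z ≠ 0) :
    ∃ δ ε₀ : ℝ, 0 < δ ∧ 0 < ε₀ ∧ ∀ ε : ℝ, 0 < ε → ε ≤ ε₀ → ∀ (R : ℕ → ℝ) (u : ℕ → Cfg d → F), SqM S R u →
      ∀ a : Cfg r → Cfg ds → F, StronglyMeasurable (fun q : Cfg r × Cfg ds => a q.1 q.2) →
      Sec2 (Metric.closedBall z δ) a →
      Tendsto (fun n => ZZ S.κ φ ψ Om a (R n) (u n) - Sl S φ ψ Om (Metric.closedBall z δ) ε a (R n) (u n))
        atTop (𝓝 0) := by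
  have hstd := glc_std h2 hz
  have hIsZ : AN.IsZ S φ ψ := fun a B C => h2.cen a B C
  obtain ⟨εG0, hεG0, hG⟩ := hGlu hfin dh dm r ds φ ψ z hIsZ hstd
  obtain ⟨εN, ρN, hεN, hρN, hNn⟩ := hN dh dm φ (AN.cmb ψ z 0) hstd
  have hzn : 0 < ‖z‖ := norm_pos_iff.2 hz0
  obtain ⟨e, hedef⟩ : ∃ e, e = min (min εG0 εN) (‖z‖ / 4) := ⟨_, rfl⟩
  have he : 0 < e := by rw [hedef]; exact lt_min (lt_min hεG0 hεN) (by linarith)
  have he1 : e ≤ εG0 := by rw [hedef]; exact (min_le_left _ _).trans (min_le_left _ _)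
  have he2 : e ≤ εN := by rw [hedef]; exact (min_le_left _ _).trans (min_le_right _ _)
  have he3 : e ≤ ‖z‖ / 4 := by rw [hedef]; exact min_le_right _ _
  obtain ⟨cN, δN, hcN, -, hNR⟩ := hNn e ρN he he2 hρN le_rfl
  obtain ⟨δ₀, hδ₀, hG1⟩ := hG e he he1
  obtain ⟨ρ8, hρ8, hball⟩ := Metric.isOpen_iff.1 (glb_open S φ ψ) z hz
  obtain ⟨δ, hδdef⟩ : ∃ δ, δ = min δ₀ (min (e / 2) (ρ8 / 3)) := ⟨_, rfl⟩
  have hδ : 0 < δ := by rw [hδdef]; exact lt_min hδ₀ (lt_min (by linarith) (by linarith))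
  have hδ1 : δ ≤ δ₀ := by rw [hδdef]; exact min_le_left _ _
  have hδ2 : δ ≤ e / 2 := by rw [hδdef]; exact (min_le_right _ _).trans (min_le_left _ _)
  have hδ3 : δ ≤ ρ8 / 3 := by rw [hδdef]; exact (min_le_right _ _).trans (min_le_right _ _)
  have h8 : ∀ η : Cfg r, ‖η - z‖ ≤ 2 * δ → η ∈ R8 S φ ψ := by
    intro η hη
    refine hball ?_
    rw [Metric.mem_ball, dist_eq_norm]
    linarith
  have h8' : ∀ η ∈ Metric.closedBall z δ, η ∈ R8 S φ ψ := by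
    intro η hη
    rw [Metric.mem_closedBall, dist_eq_norm] at hη
    exact h8 η (by linarith)
  refine ⟨δ, e / 2, hδ, by linarith, ?_⟩
  intro ε hε hεe R u hu a ham ha
  -- radial cutoff
  obtain ⟨u', C, hu1, hu2, hu3, -⟩ := hRad R u hu (‖z‖ / 4) (4 * ‖z‖) (by linarith) (by linarith)
  have hshl : Metric.closedBall z δ ⊆ AD.shl r (‖z‖ / 4) (4 * ‖z‖) := by
    intro η hη
    rw [Metric.mem_closedBall, dist_eq_norm] at hη
    have k1 := norm_sub_norm_le z η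
    have k2 := norm_sub_norm_le η z
    rw [norm_sub_rev] at k1
    exact ⟨by linarith, by linarith⟩
  obtain ⟨R₀, hR₀, hS1⟩ := hSup d dh dm r ds φ ψ S.κ Om (‖z‖ / 4) (4 * ‖z‖) (Metric.closedBall z δ) (by linarith)
    (by linarith) (isCompact_closedBall _ _) hshl
  have hZ1 : ∀ᶠ n in atTop, ZZ S.κ φ ψ Om a (R n) (u n) = ZZ S.κ φ ψ Om a (R n) (u' n) := by
    filter_upwards [hu.lim.eventually_ge_atTop R₀] with n hn
    exact (hS1 (R n) hn a ha.2).2 (u n) (u' n) fun x hx => (hu2 n x hx.1.le hx.2.le).symm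
  -- the slice function
  have hvG := hVG hfin hGau hAlg dh dm r ds φ ψ Om (Metric.closedBall z δ) (isCompact_closedBall _ _)
    (fun η hη => ⟨glc_frz h2 (h8' η hη), glc_om h2 hB (h8' η hη)⟩) ((glc_omc h2 hB).mono h8') a ha
  obtain ⟨hT1, hT2⟩ := hTail hfin hM dh dm r ds φ ψ hstd.sub (AN.vG S φ ψ Om a) hvG.1
  have hlimB := (hT2 ε hε).comp hu.lim
  -- GluStmt
  have l1 := hG1 δ hδ hδ1 Om (fun η hη => ⟨glc_frz h2 (h8 η hη), glc_om h2 hB (h8 η hη)⟩)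
    ((glc_omc h2 hB).mono fun η hη => h8 η hη) a ham ha.1
    (fun η s h => by
      have := ha.2 η s h
      rwa [Metric.mem_closedBall, dist_eq_norm] at this)
    R (fun n => glcX δ₀ (R n)) u' C hu.lim (fun n => glcX_meas _ _) (fun n q => glcX_bd _ _ q)
    (fun q => glcX_lim hδ₀ hu.lim q) (fun n q hq => glcX_supp (hu.pos n) q hq)
    (fun n => (hu1 n).1) (fun n => (hu1 n).2) hu3
  -- comparison of the regions
  have key : ∀ n, ‖(∫ p in AN.Nb (AN.cmb ψ z 0) dm (R n) e,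
      inner ℂ (AN.Ts0 ψ (AN.vG S φ ψ Om a) (R n) p.1 p.2) (S.res φ (u' n) p.1 p.2) ∂(volume.prod volume)) -
      Sl S φ ψ Om (Metric.closedBall z δ) ε a (R n) (u n)‖ ≤
      Real.sqrt (∫ p in {p : Cfg dh × Wsp dm | ε * R n ≤ ‖AN.hs ψ p.1‖ ∨ ε * R n ≤ ‖p.2‖},
        ‖AN.Ts0 ψ (AN.vG S φ ψ Om a) (R n) p.1 p.2‖ ^ 2 ∂(volume.prod volume)) *
        (Real.sqrt (C / cN) + Real.sqrt (C / cN)) := by
    intro n
    have hRn := hu.pos n
    have hsub : Nr ψ (Metric.closedBall z δ) dm (R n) ε ⊆ AN.Nb (AN.cmb ψ z 0) dm (R n) e :=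
      glc_sub ψ z he hδ2 hεe hRn
    have hg := AN.SfuA.memLp_res (dh := dh) (dm := dm) S φ (hu1 n).1
    have e1 : Sl S φ ψ Om (Metric.closedBall z δ) ε a (R n) (u n) =
        ∫ p in Nr ψ (Metric.closedBall z δ) dm (R n) ε,
          inner ℂ (AN.Ts0 ψ (AN.vG S φ ψ Om a) (R n) p.1 p.2) (S.res φ (u' n) p.1 p.2) ∂(volume.prod volume) := by
      rw [Sl]
      refine setIntegral_congr_fun (glb_Nr_meas ψ Metric.isClosed_closedBall dm (R n) ε) fun p hp => ?_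
      have h3 := gc459_shl φ ψ z hz0 he3 hRn (hsub hp)
      have h4 : 0 < ‖z‖ * R n := by positivity
      have h5 := hu2 n (emb φ p.1 p.2) (by nlinarith [h3.1]) (by nlinarith [h3.2])
      simp only [Setup.res, h5]
    rw [e1]
    have hNb := glc_mass (hu1 n).1 hcN ((hNR (R n) hRn).2 (u' n) (hu1 n).1 (hu1 n).2).1 (hu3 n)
    have hNr : ∫ p in Nr ψ (Metric.closedBall z δ) dm (R n) ε, ‖S.res φ (u' n) p.1 p.2‖ ^ 2 ∂(volume.prod volume) ≤
        C / cN := (gb459_mono hsub (hg.restrict _)).trans hNb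
    refine (gb459_cmp (T := fun p : Cfg dh × Wsp dm => AN.Ts0 ψ (AN.vG S φ ψ Om a) (R n) p.1 p.2)
      (g := fun p : Cfg dh × Wsp dm => S.res φ (u' n) p.1 p.2)
      (AN.SfuA.meas_Nb _ _ _) (glb_Nr_meas ψ Metric.isClosed_closedBall dm (R n) ε) (gc459_tail_meas ψ ε (R n))
      (hT1 (R n) hRn).1 (hg.restrict _) (hg.restrict _) ?_).trans ?_
    · intro p hp hpB
      have h3 := glc_T0 ha.2 hp
      have h4 : ‖AN.hs ψ p.1‖ < ε * R n ∧ ‖p.2‖ < ε * R n := by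
        simp only [Set.mem_ofPred_eq, not_or, not_le] at hpB
        exact hpB
      have h5 : p ∈ Nr ψ (Metric.closedBall z δ) dm (R n) ε := ⟨h3, h4.1, h4.2⟩
      exact ⟨fun _ => h5, fun _ => hsub h5⟩
    · refine mul_le_mul_of_nonneg_left (add_le_add (Real.sqrt_le_sqrt hNb) (Real.sqrt_le_sqrt hNr))
        (Real.sqrt_nonneg _)
  have l2 : Tendsto (fun n => (∫ p in AN.Nb (AN.cmb ψ z 0) dm (R n) e,
      inner ℂ (AN.Ts0 ψ (AN.vG S φ ψ Om a) (R n) p.1 p.2) (S.res φ (u' n) p.1 p.2) ∂(volume.prod volume)) -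
      Sl S φ ψ Om (Metric.closedBall z δ) ε a (R n) (u n)) atTop (𝓝 0) := by
    refine squeeze_zero_norm key ?_
    have h3 := ((Real.continuous_sqrt.tendsto 0).comp hlimB).mul_const (Real.sqrt (C / cN) + Real.sqrt (C / cN))
    rw [Real.sqrt_zero, zero_mul] at h3
    exact h3
  have l3 := l1.add l2
  rw [add_zero] at l3
  refine l3.congr' ?_
  filter_upwards [hZ1, glcX_ev (r := r) (ds := ds) (dm := dm) hδ₀ hu.lim] with n h3 h4
  rw [h3, h4]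
  unfold ZZ
  ring

omit [InnerProductSpace ℂ F] in
/-- change of the section on a null set -/
theorem glc_rep {A : Set (Cfg r)} (hA : MeasurableSet A) {a : Cfg r → Cfg ds → F} (ha : Sec2 A a) :
    ∃ a' : Cfg r → Cfg ds → F, StronglyMeasurable (fun q : Cfg r × Cfg ds => a' q.1 q.2) ∧ Sec2 A a' ∧
      ∀ᵐ q : Cfg r × Cfg ds ∂(volume.prod volume), a q.1 q.2 = a' q.1 q.2 := by
  have hm := ha.1.1.stronglyMeasurable_mk
  have hae := ha.1.1.ae_eq_mk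
  have hT : MeasurableSet (A ×ˢ (Set.univ : Set (Cfg ds))) := hA.prod MeasurableSet.univ
  have hae' : ∀ᵐ q : Cfg r × Cfg ds ∂(volume.prod volume), a q.1 q.2 =
      (A ×ˢ (Set.univ : Set (Cfg ds))).indicator (ha.1.1.mk _) (q.1, q.2) := by
    filter_upwards [hae] with q hq
    by_cases h : q.1 ∈ A
    · rw [Set.indicator_of_mem (show (q.1, q.2) ∈ A ×ˢ (Set.univ : Set (Cfg ds)) from ⟨h, Set.mem_univ _⟩)]
      exact hq
    · rw [Set.indicator_of_notMem (fun hc => h hc.1)]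
      by_contra hc
      exact h (ha.2 _ _ hc)
  refine ⟨fun η s => (A ×ˢ (Set.univ : Set (Cfg ds))).indicator (ha.1.1.mk _) (η, s), hm.indicator hT, ⟨?_, ?_⟩, hae'⟩
  · exact (memLp_congr_ae hae').1 ha.1
  · intro η s h
    by_contra hc
    exact h (Set.indicator_of_notMem (fun hh => hc hh.1) _)

theorem glc_loc (S : Setup d F) (hfin : FiniteDimensional ℂ F) (hGlu : AN.GluStmt S) (hN : AN.NormStmt S)
    (hM : AN.MeaStmt S) (hGau : AN.GauStmt) (hAlg : AlgStmt) (hRad : RadStmt S) (hSup : SupZStmt F)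
    (hTail : TailStmt S) (hVG : VGStmt S)
    (φ : Spl dh dm d) (ψ : Spl r ds dh) {z₀ : Cfg r} (h2 : AD.Std2 S φ (spsw ψ) z₀)
    {L : Finset (Fin r → ℝ)} {Om : Cfg r → Matrix (Fin dm) (Fin dm) ℝ} {K : Submodule ℂ F} {U : Cfg r → F →L[ℂ] F}
    (hB : AX.Bun S φ (AX.Mz S φ (spsw ψ)) L Om K U) {z : Cfg r} (hz : z ∈ R8 S φ ψ) (hz0 : z ≠ 0) :
    ∃ δ ε₀ : ℝ, 0 < δ ∧ 0 < ε₀ ∧ ∀ ε : ℝ, 0 < ε → ε ≤ ε₀ → ∀ (R : ℕ → ℝ) (u : ℕ → Cfg d → F), SqM S R u →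
      ∀ a : Cfg r → Cfg ds → F, Sec2 (Metric.closedBall z δ) a →
      Tendsto (fun n => ZZ S.κ φ ψ Om a (R n) (u n) - Sl S φ ψ Om (Metric.closedBall z δ) ε a (R n) (u n))
        atTop (𝓝 0) := by
  obtain ⟨δ, ε₀, hδ, hε₀, H⟩ := glc_loc0 S hfin hGlu hN hM hGau hAlg hRad hSup hTail hVG φ ψ h2 hB hz hz0
  refine ⟨δ, ε₀, hδ, hε₀, fun ε hε hεε R u hu a ha => ?_⟩
  obtain ⟨a', h1, h3, h4⟩ := glc_rep Metric.isClosed_closedBall.measurableSet ha
  refine (H ε hε hεε R u hu a' h1 h3).congr fun n => ?_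
  rw [gc459_ZZ S.κ φ ψ Om h4 (hu.pos n) (u n), gc459_Sl S φ ψ Om _ ε h4 (hu.pos n) (u n)]

/-- additivity of the slice functional -/
theorem glc_Sl_add (S : Setup d F) (φ : Spl dh dm d) (ψ : Spl r ds dh) (Om : Cfg r → Matrix (Fin dm) (Fin dm) ℝ)
    (A : Set (Cfg r)) (ε : ℝ) {a a' : Cfg r → Cfg ds → F} {R : ℝ} {u : Cfg d → F} (hu : Setup.Tst u)
    (h : MemLp (fun p : Cfg dh × Wsp dm => AN.Ts0 ψ (AN.vG S φ ψ Om a) R p.1 p.2) 2 (volume.prod volume))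
    (h' : MemLp (fun p : Cfg dh × Wsp dm => AN.Ts0 ψ (AN.vG S φ ψ Om a') R p.1 p.2) 2 (volume.prod volume)) :
    Sl S φ ψ Om A ε (fun η s => a η s + a' η s) R u = Sl S φ ψ Om A ε a R u + Sl S φ ψ Om A ε a' R u := by
  have hg := AN.SfuA.memLp_res (dh := dh) (dm := dm) S φ hu
  unfold Sl
  rw [← integral_add (AN.SfuA.int_inner h hg).restrict (AN.SfuA.int_inner h' hg).restrict]
  refine integral_congr_ae (Eventually.of_forall fun p => ?_)
  simp only [AN.Ts0, AN.vG, smul_add, inner_add_left]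

/-- **L-GluC** -/
theorem gluC_of (S : Setup d F) : GluCOfStmt S := by
  intro hGlu hN hM hGau hAlg hRad hSup hLin hTail hVG hfin dh dm r ds φ ψ z₀ h2 L Om K U hB A hA hA8 h0
  have hARg : A ⊆ Rg S φ ψ := fun η hη => glb_Rg h2 (hA8 hη)
  have hmemT : ∀ a : Cfg r → Cfg ds → F, Sec2 A a → ∀ R : ℝ, 0 < R →
      MemLp (fun p : Cfg dh × Wsp dm => AN.Ts0 ψ (AN.vG S φ ψ Om a) R p.1 p.2) 2 (volume.prod volume) := by
    intro a ha R hR
    have hvG := hVG hfin hGau hAlg dh dm r ds φ ψ Om A hA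
      (fun η hη => ⟨glc_frz h2 (hA8 hη), glc_om h2 hB (hA8 hη)⟩) ((glc_omc h2 hB).mono hA8) a ha
    exact ((hTail hfin hM dh dm r ds φ ψ h2.std.sub (AN.vG S φ ψ Om a) hvG.1).1 R hR).1
  have hP : ∃ B', MeasurableSet B' ∧ A ⊆ B' ∧ ∃ ε₀ : ℝ, 0 < ε₀ ∧ ∀ ε : ℝ, 0 < ε → ε ≤ ε₀ →
      ∀ (R : ℕ → ℝ) (u : ℕ → Cfg d → F), SqM S R u → ∀ a : Cfg r → Cfg ds → F, Sec2 A a → (∀ η s, a η s ≠ 0 → η ∈ B') →
      Tendsto (fun n => ZZ S.κ φ ψ Om a (R n) (u n) - Sl S φ ψ Om A ε a (R n) (u n)) atTop (𝓝 0) := by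
    refine hA.induction_on (p := fun B => ∃ B', MeasurableSet B' ∧ B ⊆ B' ∧ ∃ ε₀ : ℝ, 0 < ε₀ ∧ ∀ ε : ℝ, 0 < ε → ε ≤ ε₀ →
      ∀ (R : ℕ → ℝ) (u : ℕ → Cfg d → F), SqM S R u → ∀ a : Cfg r → Cfg ds → F, Sec2 A a → (∀ η s, a η s ≠ 0 → η ∈ B') →
      Tendsto (fun n => ZZ S.κ φ ψ Om a (R n) (u n) - Sl S φ ψ Om A ε a (R n) (u n)) atTop (𝓝 0)) ?_ ?_ ?_ ?_
    · refine ⟨∅, MeasurableSet.empty, Set.Subset.rfl, 1, one_pos, fun ε _ _ R u _ a _ h => ?_⟩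
      have ha0 : ∀ η s, a η s = 0 := by
        intro η s
        by_contra hc
        exact Set.notMem_empty _ (h η s hc)
      simp [ZZ, Sl, AN.Zb, AN.bG, AN.Ts0, AN.vG, ha0]
    · rintro s t hst ⟨B', h1, h3, h4⟩
      exact ⟨B', h1, hst.trans h3, h4⟩
    · rintro s t ⟨B₁, m1, s1, ε₁, hε₁, H₁⟩ ⟨B₂, m2, s2, ε₂, hε₂, H₂⟩
      refine ⟨B₁ ∪ B₂, m1.union m2, Set.union_subset_union s1 s2, min ε₁ ε₂, lt_min hε₁ hε₂, ?_⟩
      intro ε hε hεε R u hu a ha hsupp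
      have hi1 : MeasurableSet (B₁ ×ˢ (Set.univ : Set (Cfg ds))) := m1.prod MeasurableSet.univ
      obtain ⟨a₁, ha₁⟩ : ∃ a₁ : Cfg r → Cfg ds → F, a₁ = fun η s =>
        (B₁ ×ˢ (Set.univ : Set (Cfg ds))).indicator (fun q : Cfg r × Cfg ds => a q.1 q.2) (η, s) := ⟨_, rfl⟩
      obtain ⟨a₂, ha₂⟩ : ∃ a₂ : Cfg r → Cfg ds → F, a₂ = fun η s =>
        (B₁ ×ˢ (Set.univ : Set (Cfg ds)))ᶜ.indicator (fun q : Cfg r × Cfg ds => a q.1 q.2) (η, s) := ⟨_, rfl⟩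
      have hsum : (fun η s => a₁ η s + a₂ η s) = a := by
        funext η s
        rw [ha₁, ha₂]
        exact congrFun (Set.indicator_self_add_compl (B₁ ×ˢ (Set.univ : Set (Cfg ds)))
          (fun q : Cfg r × Cfg ds => a q.1 q.2)) (η, s)
      have k1 : ∀ η s, a₁ η s ≠ 0 → η ∈ B₁ ∧ a η s ≠ 0 := by
        intro η s h
        rw [ha₁] at h
        by_cases hq : (η, s) ∈ B₁ ×ˢ (Set.univ : Set (Cfg ds))
        · simp only [Set.indicator_of_mem hq] at h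
          exact ⟨hq.1, h⟩
        · exact absurd (Set.indicator_of_notMem hq _) h
      have k2 : ∀ η s, a₂ η s ≠ 0 → η ∉ B₁ ∧ a η s ≠ 0 := by
        intro η s h
        rw [ha₂] at h
        by_cases hq : (η, s) ∈ (B₁ ×ˢ (Set.univ : Set (Cfg ds)))ᶜ
        · simp only [Set.indicator_of_mem hq] at h
          exact ⟨fun hh => hq ⟨hh, Set.mem_univ _⟩, h⟩
        · exact absurd (Set.indicator_of_notMem hq _) h
      have hs1 : Sec2 A a₁ := ⟨by rw [ha₁]; exact ha.1.indicator hi1, fun η s h => ha.2 η s (k1 η s h).2⟩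
      have hs2 : Sec2 A a₂ := ⟨by rw [ha₂]; exact ha.1.indicator hi1.compl, fun η s h => ha.2 η s (k2 η s h).2⟩
      have t1 := H₁ ε hε (hεε.trans (min_le_left _ _)) R u hu a₁ hs1 fun η s h => (k1 η s h).1
      have t2 := H₂ ε hε (hεε.trans (min_le_right _ _)) R u hu a₂ hs2 fun η s h => by
        rcases hsupp η s (k2 η s h).2 with h' | h'
        · exact absurd h' (k2 η s h).1
        · exact h'
      have t3 := t1.add t2
      rw [add_zero] at t3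
      refine t3.congr fun n => ?_
      have e1 := (hLin hfin dh dm r ds φ ψ L Om K U hB A hA hARg (R n) (hu.pos n) (u n) (hu.inv n).1).2.1 a₁ a₂ hs1 hs2
      have e2 := glc_Sl_add S φ ψ Om A ε (hu.inv n).1 (hmemT a₁ hs1 (R n) (hu.pos n)) (hmemT a₂ hs2 (R n) (hu.pos n))
      rw [hsum] at e1 e2
      rw [e1, e2]
      ring
    · intro x hx
      have hx0 : x ≠ 0 := fun h => h0 (h ▸ hx)
      obtain ⟨δ, ε₀, hδ, hε₀, H⟩ := glc_loc S hfin hGlu hN hM hGau hAlg hRad hSup hTail hVG φ ψ h2 hB (hA8 hx) hx0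
      refine ⟨Metric.closedBall x δ, mem_nhdsWithin_of_mem_nhds (Metric.closedBall_mem_nhds x hδ),
        Metric.closedBall x δ, Metric.isClosed_closedBall.measurableSet, Set.Subset.rfl, ε₀, hε₀, ?_⟩
      intro ε hε hεε R u hu a ha hsupp
      refine (H ε hε hεε R u hu a ⟨ha.1, hsupp⟩).congr fun n => ?_
      have hboth : ∀ η s, a η s ≠ 0 → η ∈ A ∩ Metric.closedBall x δ := fun η s h => ⟨ha.2 η s h, hsupp η s h⟩
      rw [glb_Sl S φ ψ Om Metric.isClosed_closedBall Set.inter_subset_right ε hboth,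
        glb_Sl S φ ψ Om hA.isClosed Set.inter_subset_left ε hboth]
  obtain ⟨B', -, hAB, ε₀, hε₀, H⟩ := hP
  exact ⟨ε₀, hε₀, fun ε hε hε' R u hu a ha => H ε hε hε' R u hu a ha fun η s h => hAB (ha.2 η s h)⟩

end Vale.Agent.P353.Z.AL
end

section

/-! # P353, all `N`, block JN: C6, null points, centralisers and the potential are invariant under `SU(N)` -/

open MeasureTheory Filter Topology

namespace Vale.Agent.P353.Z.AJ

namespace ActC

variable {d : ℕ} {F : Type} [NormedAddCommGroup F] [InnerProductSpace ℂ F]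

theorem actc_mem (S : Setup d F) {O : Matrix (Fin d) (Fin d) ℝ} (hO : O ∈ S.grp) (Y : Cfg d)
    {v : Fin d → ℝ} (hv : v ∈ AD.cz S Y) : O.mulVec v ∈ AD.cz S (ro O Y) := by
  intro i C
  have hv' : ∀ i C, ∑ A, ∑ B, S.f A B C * v A * Y (i, B) = 0 := hv
  have e : ∀ A B, S.f A B C * O.mulVec v A * ro O Y (i, B) =
      ∑ A', ∑ B', (v A' * Y (i, B')) * (O A A' * O B B' * S.f C A B) := by
    intro A B
    rw [U.grp_ro_apply, Matrix.mulVec, dotProduct, mul_assoc, Finset.sum_mul_sum, Finset.mul_sum]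
    refine Finset.sum_congr rfl fun A' _ => ?_
    rw [Finset.mul_sum]
    refine Finset.sum_congr rfl fun B' _ => ?_
    rw [S.f_cyc C A B]
    ring
  have e2 : ∑ A, ∑ B, S.f A B C * O.mulVec v A * ro O Y (i, B) =
      ∑ A', ∑ B', (v A' * Y (i, B')) * ∑ A, ∑ B, O A A' * O B B' * S.f C A B := by
    simp only [e]
    calc ∑ A, ∑ B, ∑ A', ∑ B', (v A' * Y (i, B')) * (O A A' * O B B' * S.f C A B)
        = ∑ A, ∑ A', ∑ B, ∑ B', (v A' * Y (i, B')) * (O A A' * O B B' * S.f C A B) :=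
          Finset.sum_congr rfl fun A _ => Finset.sum_comm
      _ = ∑ A', ∑ A, ∑ B, ∑ B', (v A' * Y (i, B')) * (O A A' * O B B' * S.f C A B) :=
          Finset.sum_comm
      _ = ∑ A', ∑ A, ∑ B', ∑ B, (v A' * Y (i, B')) * (O A A' * O B B' * S.f C A B) :=
          Finset.sum_congr rfl fun A' _ => Finset.sum_congr rfl fun A _ => Finset.sum_comm
      _ = ∑ A', ∑ B', ∑ A, ∑ B, (v A' * Y (i, B')) * (O A A' * O B B' * S.f C A B) :=
          Finset.sum_congr rfl fun A' _ => Finset.sum_comm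
      _ = _ := by
          refine Finset.sum_congr rfl fun A' _ => Finset.sum_congr rfl fun B' _ => ?_
          rw [Finset.mul_sum]
          refine Finset.sum_congr rfl fun A _ => ?_
          rw [Finset.mul_sum]
  rw [e2]
  have e3 : ∀ A' B', (v A' * Y (i, B')) * ∑ A, ∑ B, O A A' * O B B' * S.f C A B =
      ∑ D, O C D * (S.f A' B' D * v A' * Y (i, B')) := by
    intro A' B'
    rw [U.grp_f S hO.1 hO.2.1 C A' B', Finset.mul_sum]
    refine Finset.sum_congr rfl fun D _ => ?_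
    rw [S.f_cyc D A' B']
    ring
  simp only [e3]
  calc ∑ A', ∑ B', ∑ D, O C D * (S.f A' B' D * v A' * Y (i, B'))
      = ∑ A', ∑ D, ∑ B', O C D * (S.f A' B' D * v A' * Y (i, B')) :=
        Finset.sum_congr rfl fun A' _ => Finset.sum_comm
    _ = ∑ D, ∑ A', ∑ B', O C D * (S.f A' B' D * v A' * Y (i, B')) := Finset.sum_comm
    _ = ∑ D, O C D * ∑ A', ∑ B', S.f A' B' D * v A' * Y (i, B') := by
        refine Finset.sum_congr rfl fun D _ => ?_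
        rw [Finset.mul_sum]
        refine Finset.sum_congr rfl fun A' _ => ?_
        rw [Finset.mul_sum]
    _ = 0 := by
        refine Finset.sum_eq_zero fun D _ => ?_
        rw [hv' i D, mul_zero]

theorem actc_le (S : Setup d F) {O : Matrix (Fin d) (Fin d) ℝ} (hO : O ∈ S.grp) (Y : Cfg d) :
    AD.cd S Y ≤ AD.cd S (ro O Y) := by
  unfold AD.cd
  have hinj : Function.Injective (O.mulVecLin) := by
    intro a b hab
    have h1 : O.transpose.mulVec (O.mulVec a) = O.transpose.mulVec (O.mulVec b) := by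
      have h2 : O.mulVec a = O.mulVec b := hab
      rw [h2]
    rwa [Matrix.mulVec_mulVec, Matrix.mulVec_mulVec, hO.1, Matrix.one_mulVec,
      Matrix.one_mulVec] at h1
  have hmap : (AD.cz S Y).map O.mulVecLin ≤ AD.cz S (ro O Y) := by
    rintro _ ⟨v, hv, rfl⟩
    exact actc_mem S hO Y hv
  calc Module.finrank ℝ (AD.cz S Y)
      = Module.finrank ℝ ((AD.cz S Y).map O.mulVecLin) :=
        (LinearEquiv.finrank_eq (Submodule.equivMapOfInjective _ hinj (AD.cz S Y)))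
    _ ≤ _ := Submodule.finrank_mono hmap

theorem actc_inv (S : Setup d F) {O : Matrix (Fin d) (Fin d) ℝ} (hO : O ∈ S.grp) (Y : Cfg d) :
    ro O.transpose (ro O Y) = Y := by
  rw [← U.grp_ro_mul, hO.1, U.grp_ro_one]

theorem actc_cd (S : Setup d F) {O : Matrix (Fin d) (Fin d) ℝ} (hO : O ∈ S.grp) (Y : Cfg d) :
    AD.cd S (ro O Y) = AD.cd S Y := by
  refine le_antisymm ?_ (actc_le S hO Y)
  have h := actc_le S (U.grp_transpose S hO) (ro O Y)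
  rwa [actc_inv S hO Y] at h

theorem actc_smul (O : Matrix (Fin d) (Fin d) ℝ) (c : ℝ) (Y : Cfg d) :
    c • ro O Y = ro O (c • Y) := by
  ext p
  rw [U.grp_ro_apply, PiLp.smul_apply, U.grp_ro_apply, smul_eq_mul, Finset.mul_sum]
  refine Finset.sum_congr rfl fun B _ => ?_
  rw [PiLp.smul_apply, smul_eq_mul]
  ring

theorem actc_nul (S : Setup d F) {O : Matrix (Fin d) (Fin d) ℝ} (hO : O ∈ S.grp) (Y : Cfg d)
    (R : ℕ → ℝ) (u : ℕ → Cfg d → F) (hu : ∀ k, AD.GInv S (u k))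
    (h : AD.Nul R u (ro O Y)) : AD.Nul R u Y := by
  obtain ⟨ε, hε, h1⟩ := h
  refine ⟨ε, hε, ?_⟩
  have e : (fun n => AD.mas (u n) (Metric.ball (R n • Y) (ε * R n))) =
      fun n => AD.mas (u n) (Metric.ball (R n • ro O Y) (ε * R n)) := by
    funext n
    rw [actc_smul]
    exact (U.pack_ball_integral hO.1 (fun x => hO.2.2 (u n) (hu n).1 (hu n).2 x)
      (R n • Y) (ε * R n)).symm
  show Tendsto (fun n => AD.mas (u n) (Metric.ball (R n • Y) (ε * R n))) atTop (𝓝 0)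
  rw [e]
  exact h1

end ActC

/-- **C6** -/
theorem act_stmt {N d : ℕ} {F : Type} [NormedAddCommGroup F] [InnerProductSpace ℂ F]
    (M : BFSS.Model N d F) : ActStmt M := by
  intro _ S hS _ V Y
  have hO := Vale.Agent.P353.AN.G.actO_mem M S hS V
  refine ⟨?_, ?_, fun h => ?_, fun R u hu h => ?_⟩
  · exact U.grp_V S hO.1 hO.2.1 Y
  · exact ActC.actc_cd S hO Y
  · have h1 : ‖ro (Vale.Agent.P353.AN.G.actO M V) Y‖ = ‖Y‖ := U.grp_norm hO.1 Y
    have h2 : ro (Vale.Agent.P353.AN.G.actO M V) Y = 0 := h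
    rw [h2, norm_zero] at h1
    exact norm_eq_zero.1 h1.symm
  · exact ActC.actc_nul S hO Y R u hu h

end Vale.Agent.P353.Z.AJ
end
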