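import Mathlib
import Vale.Agent.P353.BdA.B1

set_option linter.all false

section

/-! # P353, all `N`, block L: data of a stratum exist -/

open MeasureTheory Filter Topology Matrix
open scoped ContDiff

namespace Vale.Agent.P353.Z.AL

variable {d dh dm r ds n : ℕ} {F : Type*} [NormedAddCommGroup F] [InnerProductSpace ℂ F]

namespace Dat533

lemma coef {o : Fin n → Cfg d → F} (ho : ∀ j, MemLp (o j) 2 (volume : Measure (Cfg d)))
    (hO : ∀ j k, ∫ x, inner ℂ (o j x) (o k x) = if j = k then 1 else 0) {g : Cfg d → F} {c : Fin n → ℂ}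
    (hg : ∀ᵐ x ∂(volume : Measure (Cfg d)), g x = ∑ j, c j • o j x) (i : Fin n) :
    ∫ x, inner ℂ (o i x) (g x) = c i := by
  have h1 : ∫ x, inner ℂ (o i x) (g x) = ∫ x, inner ℂ (o i x) (∑ j, c j • o j x) := by
    refine integral_congr_ae ?_
    filter_upwards [hg] with x hx
    rw [hx]
  rw [h1]
  simp only [inner_sum, inner_smul_right]
  rw [integral_finsetSum _ fun k _ => (integrable_inner_memLp (ho i) (ho k)).const_mul _]
  simp only [integral_const_mul, hO]
  simp

lemma zm_zero (S : Setup d F) : AD.ZM S (fun _ : Cfg d => (0 : F)) := by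
  have hQ : ∀ β (x : Cfg d), S.Q β (fun _ : Cfg d => (0 : F)) x = 0 := by
    intro β x
    simp [Setup.Q, pd]
  refine ⟨fun _ _ => 0, fun _ => ⟨⟨contDiff_const, ?_⟩, fun C x => ?_⟩, ⟨fun _ => ?_, ?_, ?_⟩, ?_⟩
  · exact HasCompactSupport.zero
  · simp [Setup.G, pd]
  · exact MemLp.zero'
  · exact MemLp.zero'
  · simp [nsq]
  · simp [AD.En, nsq, hQ]

lemma zm_sum {S : Setup d F} (hL : ZMLStmt S) {ι : Type*} (t : Finset ι) (o : ι → Cfg d → F) (c : ι → ℂ)
    (h : ∀ j, AD.ZM S (o j)) : AD.ZM S (fun x => ∑ j ∈ t, c j • o j x) := by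
  classical
  induction t using Finset.induction_on with
  | empty =>
    simp only [Finset.sum_empty]
    exact zm_zero S
  | insert a t ha ih =>
    simp only [Finset.sum_insert ha]
    exact hL.1 _ _ (hL.2.1 (c a) _ (h a)) ih

/-- orthonormal basis of the zero modes with values in `K` -/
theorem basis (S : Setup d F) (hL : ZMLStmt S) (hF : ZMFStmt S) (hI : AD.ICStmt S) (K : Submodule ℂ F) :
    ∃ (n : ℕ) (o : Fin n → Cfg d → F), (∀ j, MemLp (o j) 2 (volume : Measure (Cfg d))) ∧ (∀ j, AD.ZM S (o j)) ∧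
      (∀ j k, ∫ x, inner ℂ (o j x) (o k x) = if j = k then 1 else 0) ∧
      (∀ j, ∀ᵐ s ∂(volume : Measure (Cfg d)), o j s ∈ K) ∧
      ∀ o', AD.ZM S o' → (∀ᵐ s ∂(volume : Measure (Cfg d)), o' s ∈ K) →
        ∃ c : Fin n → ℂ, ∀ᵐ s ∂(volume : Measure (Cfg d)), o' s = ∑ j, c j • o j s := by
  obtain ⟨n₀, o₀, C, -, hz, hO, hin⟩ := hI
  have hfull := hF n₀ o₀ C hz hO hin
  have hm : ∀ j, MemLp (o₀ j) 2 (volume : Measure (Cfg d)) := fun j => hL.2.2.2.1 _ (hz j)
  -- combinations
  let fc : EuclideanSpace ℂ (Fin n₀) → Cfg d → F := fun c x => ∑ j, c j • o₀ j x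
  have hfc : ∀ c x, fc c x = ∑ j, c j • o₀ j x := fun _ _ => rfl
  let V : Submodule ℂ (EuclideanSpace ℂ (Fin n₀)) :=
    { carrier := {c | ∀ᵐ x ∂(volume : Measure (Cfg d)), fc c x ∈ K}
      add_mem' := by
        intro a b ha hb
        change ∀ᵐ x ∂(volume : Measure (Cfg d)), fc (a + b) x ∈ K
        filter_upwards [ha, hb] with x hx hy
        have : fc (a + b) x = fc a x + fc b x := by
          simp only [hfc, PiLp.add_apply, add_smul, Finset.sum_add_distrib]
        rw [this]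
        exact K.add_mem hx hy
      zero_mem' := by
        refine ae_of_all _ fun x => ?_
        have : fc 0 x = 0 := by simp [hfc]
        rw [this]
        exact K.zero_mem
      smul_mem' := by
        intro c a ha
        change ∀ᵐ x ∂(volume : Measure (Cfg d)), fc (c • a) x ∈ K
        filter_upwards [ha] with x hx
        have : fc (c • a) x = c • fc a x := by
          simp only [hfc, PiLp.smul_apply, smul_eq_mul, mul_smul, Finset.smul_sum]
        rw [this]
        exact K.smul_mem c hx }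
  have hV : ∀ c, c ∈ V ↔ ∀ᵐ x ∂(volume : Measure (Cfg d)), fc c x ∈ K := fun _ => Iff.rfl
  let b := stdOrthonormalBasis ℂ V
  have hin2 : ∀ c c' : EuclideanSpace ℂ (Fin n₀), ∫ x, inner ℂ (fc c x) (fc c' x) = inner ℂ c c' := by
    intro c c'
    simp only [hfc, sum_inner, inner_smul_left]
    rw [integral_finsetSum _ fun k _ => ?_]
    · have h2 : ∀ i, ∫ x, (starRingEnd ℂ) (c i) * inner ℂ (o₀ i x) (∑ j, c' j • o₀ j x) =
          (starRingEnd ℂ) (c i) * c' i := by
        intro i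
        rw [integral_const_mul, coef hm hO (ae_of_all _ fun _ => rfl)]
      simp only [h2, PiLp.inner_apply, RCLike.inner_apply]
      exact Finset.sum_congr rfl fun i _ => mul_comm _ _
    · refine Integrable.const_mul (integrable_inner_memLp (hm k) ?_) _
      exact memLp_finsetSum _ fun j _ => (hm j).const_smul _
  refine ⟨Module.finrank ℂ V, fun k => fc (b k : EuclideanSpace ℂ (Fin n₀)), fun k => ?_, fun k => ?_,
    fun j k => ?_, fun k => ?_, ?_⟩
  · exact memLp_finsetSum _ fun j _ => (hm j).const_smul _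
  · exact zm_sum hL Finset.univ o₀ _ hz
  · rw [hin2, ← Submodule.coe_inner]
    exact orthonormal_iff_ite.1 b.orthonormal j k
  · exact (hV _).1 (b k).2
  · intro o' ho' hK
    set c : EuclideanSpace ℂ (Fin n₀) := WithLp.toLp 2 fun j => ∫ z, inner ℂ (o₀ j z) (o' z) with hc
    have h1 : ∀ᵐ x ∂(volume : Measure (Cfg d)), o' x = fc c x := by
      filter_upwards [hfull o' ho'] with x hx
      rw [hx]
    have hcV : c ∈ V := by
      rw [hV]
      filter_upwards [h1, hK] with x hx hy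
      rw [← hx]
      exact hy
    refine ⟨fun k => b.repr ⟨c, hcV⟩ k, ?_⟩
    filter_upwards [h1] with x hx
    rw [hx]
    have h2 : c = ∑ k, b.repr ⟨c, hcV⟩ k • (b k : EuclideanSpace ℂ (Fin n₀)) := by
      have h3 := congrArg (Submodule.subtype V) (b.sum_repr ⟨c, hcV⟩)
      rw [map_sum] at h3
      simpa using h3.symm
    have hlin : ∀ (m : ℕ) (a : Fin m → ℂ) (e : Fin m → EuclideanSpace ℂ (Fin n₀)),
        fc (∑ k, a k • e k) x = ∑ k, a k • fc (e k) x := by
      intro m a e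
      simp only [hfc, Finset.smul_sum, smul_smul]
      rw [Finset.sum_comm]
      refine Finset.sum_congr rfl fun j _ => ?_
      rw [← Finset.sum_smul]
      congr 1
      simp
    conv_lhs => rw [h2]
    exact hlin _ _ _

/-- matrices of the operators `θ^z` -/
noncomputable def tz (θ : F →L[ℂ] F) (o : Fin n → Cfg d → F) : Matrix (Fin n) (Fin n) ℂ :=
  Matrix.of fun j k => ∫ x, inner ℂ (o j x) (θ (o k x))

lemma tz_herm {θ : F →L[ℂ] F} (hθ : ∀ v w : F, inner ℂ (θ v) w = inner ℂ v (θ w)) (o : Fin n → Cfg d → F) :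
    star (tz θ o) = tz θ o := by
  ext j k
  rw [Matrix.star_apply]
  simp only [tz, Matrix.of_apply, RCLike.star_def]
  rw [← integral_conj]
  refine integral_congr_ae (ae_of_all _ fun x => ?_)
  simp only [inner_conj_symm, hθ]

lemma tz_ae {θ : F →L[ℂ] F} {o : Fin n → Cfg d → F} (ho : ∀ j, MemLp (o j) 2 (volume : Measure (Cfg d)))
    (hO : ∀ j k, ∫ x, inner ℂ (o j x) (o k x) = if j = k then 1 else 0)
    (hf : ∀ k, ∃ c : Fin n → ℂ, ∀ᵐ s ∂(volume : Measure (Cfg d)), θ (o k s) = ∑ j, c j • o j s) (k : Fin n) :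
    ∀ᵐ s ∂(volume : Measure (Cfg d)), θ (o k s) = ∑ j, tz θ o j k • o j s := by
  obtain ⟨c, hc⟩ := hf k
  filter_upwards [hc] with s hs
  rw [hs]
  refine Finset.sum_congr rfl fun j _ => ?_
  rw [tz, Matrix.of_apply, coef ho hO hc j]

lemma tz_mul {θ θ' : F →L[ℂ] F} {o : Fin n → Cfg d → F} (ho : ∀ j, MemLp (o j) 2 (volume : Measure (Cfg d)))
    (hO : ∀ j k, ∫ x, inner ℂ (o j x) (o k x) = if j = k then 1 else 0)
    (hf : ∀ k, ∃ c : Fin n → ℂ, ∀ᵐ s ∂(volume : Measure (Cfg d)), θ (o k s) = ∑ j, c j • o j s)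
    (hf' : ∀ k, ∃ c : Fin n → ℂ, ∀ᵐ s ∂(volume : Measure (Cfg d)), θ' (o k s) = ∑ j, c j • o j s) (k : Fin n) :
    ∀ᵐ s ∂(volume : Measure (Cfg d)), θ (θ' (o k s)) = ∑ i, (tz θ o * tz θ' o) i k • o i s := by
  have h1 := tz_ae ho hO hf' k
  have h2 : ∀ᵐ s ∂(volume : Measure (Cfg d)), ∀ j, θ (o j s) = ∑ i, tz θ o i j • o i s :=
    ae_all_iff.2 fun j => tz_ae ho hO hf j
  filter_upwards [h1, h2] with s hs1 hs2
  rw [hs1, map_sum]
  simp only [map_smul, hs2, Finset.smul_sum, smul_smul, Matrix.mul_apply, Finset.sum_smul]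
  rw [Finset.sum_comm]
  refine Finset.sum_congr rfl fun i _ => Finset.sum_congr rfl fun j _ => ?_
  rw [mul_comm]

lemma tz_anti {θ θ' : F →L[ℂ] F} {o : Fin n → Cfg d → F} (ho : ∀ j, MemLp (o j) 2 (volume : Measure (Cfg d)))
    (hO : ∀ j k, ∫ x, inner ℂ (o j x) (o k x) = if j = k then 1 else 0)
    (hf : ∀ k, ∃ c : Fin n → ℂ, ∀ᵐ s ∂(volume : Measure (Cfg d)), θ (o k s) = ∑ j, c j • o j s)
    (hf' : ∀ k, ∃ c : Fin n → ℂ, ∀ᵐ s ∂(volume : Measure (Cfg d)), θ' (o k s) = ∑ j, c j • o j s) (z : ℂ)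
    (ha : ∀ v, θ (θ' v) + θ' (θ v) = z • v) : tz θ o * tz θ' o + tz θ' o * tz θ o = z • 1 := by
  ext i k
  have h1 := tz_mul ho hO hf hf' k
  have h2 := tz_mul ho hO hf' hf k
  have h3 : ∀ᵐ s ∂(volume : Measure (Cfg d)), z • o k s =
      ∑ i, (tz θ o * tz θ' o + tz θ' o * tz θ o) i k • o i s := by
    filter_upwards [h1, h2] with s hs1 hs2
    simp only [Matrix.add_apply, add_smul, Finset.sum_add_distrib]
    rw [← hs1, ← hs2, ha]
  have h4 : ∀ᵐ s ∂(volume : Measure (Cfg d)), z • o k s =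
      ∑ i, (z • (1 : Matrix (Fin n) (Fin n) ℂ)) i k • o i s := by
    refine ae_of_all _ fun s => ?_
    simp only [Matrix.smul_apply, Matrix.one_apply, smul_eq_mul, mul_ite, mul_one, mul_zero, ite_smul, zero_smul,
      Finset.sum_ite_eq', Finset.mem_univ, if_true]
  rw [← coef ho hO h3 i, coef ho hO h4 i]

/-- the flat Clifford system of the centre fermions -/
noncomputable def TT (S : Setup d F) (θ : Fin 16 → Fin r → F →L[ℂ] F) (o : Fin n → Cfg ds → F)
    (hsa : ∀ α A (v w : F), inner ℂ (θ α A v) w = inner ℂ v (θ α A w))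
    (han : ∀ α A β B, tz (θ α A) o * tz (θ β B) o + tz (θ β B) o * tz (θ α A) o =
      (if α = β ∧ A = B then (1 : ℂ) else 0) • 1) : Setup r (Ek n) where
  g := S.g
  g_symm := S.g_symm
  g_anti := S.g_anti
  th := fun α A => Matrix.toEuclideanCLM (𝕜 := ℂ) (tz (θ α A) o)
  th_anti := by
    intro α A β B
    rw [← map_mul, ← map_mul, ← map_add, han]
    split_ifs with h
    · rw [one_smul, map_one]
    · rw [zero_smul, map_zero]
  κ := 1
  κ_pos := one_pos
  f := fun _ _ _ => 0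
  f_swap := by simp
  f_cyc := by simp
  f_jac := by simp
  g_real := S.g_real
  th_sa := by
    intro α A v w
    have h1 : star (Matrix.toEuclideanCLM (𝕜 := ℂ) (tz (θ α A) o)) = Matrix.toEuclideanCLM (𝕜 := ℂ) (tz (θ α A) o) := by
      rw [← map_star, tz_herm (hsa α A)]
    rw [ContinuousLinearMap.star_eq_adjoint] at h1
    conv_lhs => rw [← h1]
    exact ContinuousLinearMap.adjoint_inner_left _ _ _

end Dat533

open Dat533 in
/-- **L-Dat** -/
theorem dat_of (S : Setup d F) : DatOfStmt S := by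
  intro hBun hRoot hZ hfin dh dm r ds φ ψ z₀ h hIC
  obtain ⟨Kc, E, l, hRD⟩ := hRoot r dm (AX.Mz S φ (spsw ψ)) _ (AX.tor_Mz h)
  have hB := hBun dh dm φ hfin r (AX.Mz S φ (spsw ψ)) _ Kc E l hRD
  have hcen : S.IsCen φ ψ := fun a B C => h.cen a B C
  obtain ⟨n, o, ho, hz, hO, hK, hfull⟩ := basis h.ss (hZ ds h.ss).1 (hZ ds h.ss).2 hIC
    (S.Kr φ (1 - Complex.I • S.J0 Kc))
  have hf : ∀ α (A : Fin r) k, ∃ c : Fin n → ℂ, ∀ᵐ s ∂(volume : Measure (Cfg ds)),
      S.th α (φ (Sum.inl (ψ (Sum.inl A)))) (o k s) = ∑ j, c j • o j s := by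
    intro α A k
    refine hfull (fun s => S.th α (φ (Sum.inl (ψ (Sum.inl A)))) (o k s)) ?_ ?_
    · refine (hZ ds h.ss).1.2.2.2.2 _ (Or.inr ?_) _ (hz k)
      intro β B
      have h1 := S.th_anti α (φ (Sum.inl (ψ (Sum.inl A)))) β (φ (Sum.inl (ψ (Sum.inr B))))
      rw [if_neg] at h1
      · exact eq_neg_of_add_eq_zero_left h1
      · simp
    · filter_upwards [hK k] with s hs
      exact hB.K_th α (ψ (Sum.inl A)) _ hs
  have han : ∀ α (A : Fin r) β (B : Fin r), tz (S.th α (φ (Sum.inl (ψ (Sum.inl A))))) o *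
      tz (S.th β (φ (Sum.inl (ψ (Sum.inl B))))) o + tz (S.th β (φ (Sum.inl (ψ (Sum.inl B))))) o *
      tz (S.th α (φ (Sum.inl (ψ (Sum.inl A))))) o = (if α = β ∧ A = B then (1 : ℂ) else 0) • 1 := by
    intro α A β B
    refine tz_anti ho hO (hf α A) (hf β B) _ fun v => ?_
    have h1 := congrArg (fun T : F →L[ℂ] F => T v)
      (S.th_anti α (φ (Sum.inl (ψ (Sum.inl A)))) β (φ (Sum.inl (ψ (Sum.inl B)))))
    have h2 : (α = β ∧ φ (Sum.inl (ψ (Sum.inl A))) = φ (Sum.inl (ψ (Sum.inl B)))) ↔ α = β ∧ A = B := by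
      simp
    simp only [h2] at h1
    refine h1.trans ?_
    split_ifs <;> simp
  exact ⟨Finset.univ.image l, OmE S.κ E l, S.Kr φ (1 - Complex.I • S.J0 Kc), S.UU φ E l, n, o,
    TT S (fun α A => S.th α (φ (Sum.inl (ψ (Sum.inl A))))) o (fun α A => S.th_sa α _) han,
    { sub := h.std.sub
      cen := hcen
      bun := hB
      mem := ho
      zm := hz
      ort := hO
      val := hK
      gam := rfl
      thT := by
        intro α A k
        filter_upwards [tz_ae ho hO (hf α A) k] with s hs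
        rw [hs]
        refine Finset.sum_congr rfl fun j _ => ?_
        congr 1
        simp [TT]
      full := hfull }⟩

end Vale.Agent.P353.Z.AL
end

section

/-! # P353, all `N`, block X: `QuStmt` and `TrStmt` -/

open MeasureTheory Filter Topology Matrix
open scoped ContDiff

namespace Vale.Agent.P353.Z.AX

variable {d dh dm : ℕ} {F : Type*} [NormedAddCommGroup F] [InnerProductSpace ℂ F]

lemma qu_anti (S : Setup d F) (φ : Spl dh dm d) (p q : Fin 16 × Fin dm) :
    S.tm φ p * S.tm φ q = (if p = q then 1 else 0) - S.tm φ q * S.tm φ p := by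
  have h := S.th_anti p.1 (φ (Sum.inr p.2)) q.1 (φ (Sum.inr q.2))
  have e : (p.1 = q.1 ∧ φ (Sum.inr p.2) = φ (Sum.inr q.2)) ↔ p = q := by
    rw [EmbeddingLike.apply_eq_iff_eq, Sum.inr.injEq, ← Prod.ext_iff]
  rw [if_congr e rfl rfl] at h
  exact eq_sub_of_add_eq h

/-- `[Qu b, θ_r] = -∑ b_{rq} θ_q` -/
lemma qu_comm (S : Setup d F) (φ : Spl dh dm d) {b : Matrix (Fin 16 × Fin dm) (Fin 16 × Fin dm) ℂ}
    (hb : bᵀ = -b) (r : Fin 16 × Fin dm) :
    S.Qu φ b * S.tm φ r - S.tm φ r * S.Qu φ b = -∑ q, b r q • S.tm φ q := by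
  have hb' : ∀ p q, b p q = -b q p := by
    intro p q
    have := congrFun (congrFun hb q) p
    simpa [Matrix.transpose_apply] using this
  have h1 : ∀ p q, S.tm φ p * S.tm φ q * S.tm φ r - S.tm φ r * (S.tm φ p * S.tm φ q) =
      (if q = r then S.tm φ p else 0) - (if p = r then S.tm φ q else 0) := by
    intro p q
    have e1 := qu_anti S φ q r
    have e2 := qu_anti S φ p r
    calc S.tm φ p * S.tm φ q * S.tm φ r - S.tm φ r * (S.tm φ p * S.tm φ q)
        = S.tm φ p * (S.tm φ q * S.tm φ r) - S.tm φ r * S.tm φ p * S.tm φ q := by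
          rw [mul_assoc, ← mul_assoc (S.tm φ r)]
      _ = S.tm φ p * ((if q = r then 1 else 0) - S.tm φ r * S.tm φ q) -
          S.tm φ r * S.tm φ p * S.tm φ q := by rw [e1]
      _ = S.tm φ p * (if q = r then 1 else 0) - (S.tm φ p * S.tm φ r) * S.tm φ q -
          S.tm φ r * S.tm φ p * S.tm φ q := by rw [mul_sub, ← mul_assoc]
      _ = S.tm φ p * (if q = r then 1 else 0) -
          ((if p = r then 1 else 0) - S.tm φ r * S.tm φ p) * S.tm φ q -
          S.tm φ r * S.tm φ p * S.tm φ q := by rw [e2]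
      _ = (if q = r then S.tm φ p else 0) - (if p = r then S.tm φ q else 0) := by
          split_ifs <;> simp [sub_mul]
          abel
  have h2 : S.Qu φ b * S.tm φ r - S.tm φ r * S.Qu φ b =
      (1 / 2 : ℂ) • ∑ p, ∑ q, b p q •
        (S.tm φ p * S.tm φ q * S.tm φ r - S.tm φ r * (S.tm φ p * S.tm φ q)) := by
    unfold Setup.Qu
    rw [smul_mul_assoc, mul_smul_comm, ← smul_sub, Finset.sum_mul, Finset.mul_sum,
      ← Finset.sum_sub_distrib]
    congr 1
    refine Finset.sum_congr rfl fun p _ => ?_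
    rw [Finset.sum_mul, Finset.mul_sum, ← Finset.sum_sub_distrib]
    refine Finset.sum_congr rfl fun q _ => ?_
    rw [smul_mul_assoc, mul_smul_comm, ← smul_sub]
  rw [h2]
  simp only [h1, smul_sub, smul_ite, smul_zero, Finset.sum_sub_distrib, Finset.sum_ite_eq',
    Finset.mem_univ, if_true]
  have h3 : ∑ x, ∑ x_1, (if x = r then b x x_1 • S.tm φ x_1 else 0) = ∑ q, b r q • S.tm φ q := by
    rw [Finset.sum_comm]
    refine Finset.sum_congr rfl fun q _ => ?_
    rw [Finset.sum_ite_eq' Finset.univ r (fun x => b x q • S.tm φ q)]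
    simp
  have h4 : ∑ x, b x r • S.tm φ x = -∑ q, b r q • S.tm φ q := by
    rw [← Finset.sum_neg_distrib]
    refine Finset.sum_congr rfl fun q _ => ?_
    rw [hb' q r, neg_smul]
  rw [h3, h4, ← smul_sub, ← neg_add', smul_neg, ← two_smul ℂ, smul_smul]
  norm_num

lemma qu_skew (S : Setup d F) (φ : Spl dh dm d) {b : Matrix (Fin 16 × Fin dm) (Fin 16 × Fin dm) ℂ}
    (hb : RA b) (v w : F) : inner ℂ (S.Qu φ b v) w = -inner ℂ v (S.Qu φ b w) := by
  have hb' : ∀ p q, b p q = -b q p := by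
    intro p q
    have := congrFun (congrFun hb.anti q) p
    simpa [Matrix.transpose_apply] using this
  have hc : ∀ p q, (starRingEnd ℂ) (b p q) = b p q := fun p q =>
    Complex.conj_eq_iff_im.2 (hb.real p q)
  have hs : ∀ p (x y : F), inner ℂ (S.tm φ p x) y = inner ℂ x (S.tm φ p y) :=
    fun p x y => S.th_sa _ _ x y
  unfold Setup.Qu
  simp only [_root_.smul_apply, _root_.sum_apply, inner_smul_left, inner_smul_right, sum_inner,
    inner_sum, hc, mul_apply_eq_comp, hs]
  rw [← mul_neg, ← Finset.sum_neg_distrib]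
  have h2 : (starRingEnd ℂ) (1 / 2 : ℂ) = 1 / 2 := by
    rw [map_div₀, map_one]
    congr 1
    exact Complex.conj_ofNat 2
  rw [h2]
  congr 1
  rw [Finset.sum_comm]
  refine Finset.sum_congr rfl fun p _ => ?_
  rw [← Finset.sum_neg_distrib]
  refine Finset.sum_congr rfl fun q _ => ?_
  rw [hb' q p]
  ring


lemma qu_exp_deriv [CompleteSpace F] (Q : F →L[ℂ] F) (v : F) (s : ℝ) :
    HasDerivAt (fun u : ℝ => NormedSpace.exp (u • Q) v) (Q (NormedSpace.exp (s • Q) v)) s := by
  have h := hasDerivAt_exp_smul_const' (𝕂 := ℝ) Q s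
  exact ((ContinuousLinearMap.apply ℂ F v).restrictScalars ℝ).hasFDerivAt.comp_hasDerivAt s h

lemma qu_exp_inner [CompleteSpace F] (Q : F →L[ℂ] F) (hQ : ∀ v w, inner ℂ (Q v) w = -inner ℂ v (Q w))
    (v w : F) (s : ℝ) :
    inner ℂ (NormedSpace.exp (s • Q) v) (NormedSpace.exp (s • Q) w) = inner ℂ v w := by
  have hd : ∀ u : ℝ, HasDerivAt (fun s : ℝ => inner ℂ (NormedSpace.exp (s • Q) v)
      (NormedSpace.exp (s • Q) w)) 0 u := by
    intro u
    refine ((qu_exp_deriv Q v u).inner ℂ (qu_exp_deriv Q w u)).congr_deriv ?_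
    rw [hQ]
    ring
  have hc := is_const_of_deriv_eq_zero (fun u => (hd u).differentiableAt) (fun u => (hd u).deriv) s 0
  simpa using hc

lemma qu_exp_surj [FiniteDimensional ℂ F] [CompleteSpace F] (Q : F →L[ℂ] F)
    (hQ : ∀ v w, inner ℂ (Q v) w = -inner ℂ v (Q w)) (s : ℝ) (v : F) :
    ∃ u, NormedSpace.exp (s • Q) u = v := by
  have hinj : Function.Injective (NormedSpace.exp (s • Q) : F →L[ℂ] F).toLinearMap := by
    rw [injective_iff_map_eq_zero]
    intro x hx
    have h := qu_exp_inner Q hQ x x s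
    have hx' : NormedSpace.exp (s • Q) x = 0 := hx
    rw [hx', inner_zero_left] at h
    exact inner_self_eq_zero.1 h.symm
  exact LinearMap.injective_iff_surjective.1 hinj v

theorem qu (S : Setup d F) (φ : Spl dh dm d) : QuStmt S φ := by
  intro hF b hb
  have : CompleteSpace F := FiniteDimensional.complete ℂ F
  refine ⟨qu_comm S φ hb.anti, qu_skew S φ hb, fun s => ⟨fun v w => qu_exp_inner _ (qu_skew S φ hb) v w s,
    fun v => qu_exp_surj _ (qu_skew S φ hb) s v⟩, ?_⟩
  intro X hX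
  have h2 : ∀ p q, S.tm φ p * S.tm φ q * X = X * (S.tm φ p * S.tm φ q) := by
    intro p q
    rcases hX with h | h
    · rw [mul_assoc, ← h q, ← mul_assoc, ← h p, mul_assoc]
    · have h' : ∀ p, S.tm φ p * X = -(X * S.tm φ p) := fun p => by rw [h p, neg_neg]
      rw [mul_assoc, h' q, mul_neg, ← mul_assoc, h' p, neg_mul, neg_neg, mul_assoc]
  have h1 : S.Qu φ b * X = X * S.Qu φ b := by
    unfold Setup.Qu
    rw [smul_mul_assoc, mul_smul_comm, Finset.sum_mul, Finset.mul_sum]
    congr 1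
    refine Finset.sum_congr rfl fun p _ => ?_
    rw [Finset.sum_mul, Finset.mul_sum]
    refine Finset.sum_congr rfl fun q _ => ?_
    rw [smul_mul_assoc, mul_smul_comm, h2]
  refine ⟨h1, fun s => ?_⟩
  have hc : Commute (s • S.Qu φ b) X := by
    show s • S.Qu φ b * X = X * (s • S.Qu φ b)
    rw [smul_mul_assoc, mul_smul_comm, h1]
  exact hc.exp_left

theorem tr (S : Setup d F) (φ : Spl dh dm d) : TrStmt S φ := by
  intro hF b hb 𝒜 h𝒜 τ v
  have : CompleteSpace F := FiniteDimensional.complete ℂ F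
  have hb' : ∀ p q, b p q = -b q p := by
    intro p q
    have := congrFun (congrFun hb.anti q) p
    simpa [Matrix.transpose_apply] using this
  set Q := S.Qu φ b with hQ
  set y : (Fin 16 × Fin dm) → ℝ → F := fun p s => ∑ q, 𝒜 s p q • S.tm φ q (NormedSpace.exp (s • Q) v)
    with hy
  -- derivative of y
  have hyd : ∀ p s, HasDerivAt (y p) (∑ r, b p r • y r s + Q (y p s)) s := by
    intro p s
    have h1 : ∀ q, HasDerivAt (fun s => 𝒜 s p q • S.tm φ q (NormedSpace.exp (s • Q) v))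
        (𝒜 s p q • S.tm φ q (Q (NormedSpace.exp (s • Q) v)) +
          ((b * 𝒜 s - 𝒜 s * b) p q) • S.tm φ q (NormedSpace.exp (s • Q) v)) s := by
      intro q
      have e1 := (qu_exp_deriv Q v s)
      have e2 : HasDerivAt (fun s : ℝ => S.tm φ q (NormedSpace.exp (s • Q) v))
          (S.tm φ q (Q (NormedSpace.exp (s • Q) v))) s :=
        ((S.tm φ q).restrictScalars ℝ).hasFDerivAt.comp_hasDerivAt s e1
      exact (h𝒜 s p q).smul e2
    have h2 := HasDerivAt.fun_sum (u := Finset.univ) fun q _ => h1 q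
    refine h2.congr_deriv ?_
    set x := NormedSpace.exp (s • Q) v with hx
    have hcom : ∀ q, S.tm φ q (Q x) = Q (S.tm φ q x) + ∑ r, b q r • S.tm φ r x := by
      intro q
      have := congrArg (fun T : F →L[ℂ] F => T x) (qu_comm S φ hb.anti q)
      simp only [_root_.sub_apply, mul_apply_eq_comp, _root_.neg_apply, _root_.sum_apply,
        _root_.smul_apply] at this
      rw [← hQ] at this
      have h3 : S.tm φ q (Q x) = Q (S.tm φ q x) - (Q (S.tm φ q x) - S.tm φ q (Q x)) := by abel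
      rw [h3, this]
      abel
    rw [Finset.sum_add_distrib]
    have e3 : ∑ q, 𝒜 s p q • S.tm φ q (Q x) = Q (y p s) + ∑ q, ((𝒜 s * b) p q) • S.tm φ q x := by
      simp only [hcom, smul_add, Finset.sum_add_distrib]
      congr 1
      · rw [hy]
        simp only [map_sum, map_smul]
        rfl
      · simp only [Finset.smul_sum, smul_smul]
        rw [Finset.sum_comm]
        refine Finset.sum_congr rfl fun q _ => ?_
        rw [Matrix.mul_apply, Finset.sum_smul]
    have e4 : ∑ r, b p r • y r s = ∑ q, ((b * 𝒜 s) p q) • S.tm φ q x := by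
      rw [hy]
      simp only [Finset.smul_sum, smul_smul]
      rw [Finset.sum_comm]
      refine Finset.sum_congr rfl fun q _ => ?_
      rw [Matrix.mul_apply, Finset.sum_smul]
    rw [e3, e4]
    have e5 : ∑ q, ((b * 𝒜 s - 𝒜 s * b) p q) • S.tm φ q x =
        ∑ q, ((b * 𝒜 s) p q) • S.tm φ q x - ∑ q, ((𝒜 s * b) p q) • S.tm φ q x := by
      rw [← Finset.sum_sub_distrib]
      refine Finset.sum_congr rfl fun q _ => ?_
      rw [Matrix.sub_apply, sub_smul]
    rw [e5]
    abel
  -- the sum of the squares is constant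
  have hN : ∀ s, ∑ p, ‖y p s‖ ^ 2 = ∑ p, ‖y p 0‖ ^ 2 := by
    have hd : ∀ s, HasDerivAt (fun s => ∑ p, (inner ℂ (y p s) (y p s) : ℂ)) 0 s := by
      intro s
      have h1 := HasDerivAt.fun_sum (u := Finset.univ) fun p _ => (hyd p s).inner ℂ (hyd p s)
      refine h1.congr_deriv ?_
      have h2 : ∀ p, (inner ℂ (y p s) (∑ r, b p r • y r s + Q (y p s)) : ℂ) +
          inner ℂ (∑ r, b p r • y r s + Q (y p s)) (y p s) =
          ∑ r, b p r * inner ℂ (y p s) (y r s) + ∑ r, b p r * inner ℂ (y r s) (y p s) := by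
        intro p
        have hc : ∀ p q, (starRingEnd ℂ) (b p q) = b p q := fun p q =>
          Complex.conj_eq_iff_im.2 (hb.real p q)
        rw [inner_add_left, inner_add_right, qu_skew S φ hb]
        simp only [inner_sum, sum_inner, inner_smul_left, inner_smul_right, hc]
        ring
      simp only [h2, Finset.sum_add_distrib]
      rw [Finset.sum_comm (f := fun p r => b p r * inner ℂ (y r s) (y p s)),
        ← Finset.sum_add_distrib]
      refine Finset.sum_eq_zero fun p _ => ?_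
      rw [← Finset.sum_add_distrib]
      refine Finset.sum_eq_zero fun r _ => ?_
      rw [hb' r p]
      ring
    intro s
    have hc := is_const_of_deriv_eq_zero (fun u => (hd u).differentiableAt)
      (fun u => (hd u).deriv) s 0
    simp only [inner_self_eq_norm_sq_to_K] at hc
    have hc' := congrArg Complex.re hc
    simp only [Complex.re_sum] at hc'
    convert hc' using 1 <;>
    · refine Finset.sum_congr rfl fun p _ => ?_
      norm_cast
  have hz : ∀ s, (∀ p, y p s = 0) ↔ ∑ p, ‖y p s‖ ^ 2 = 0 := by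
    intro s
    rw [Finset.sum_eq_zero_iff_of_nonneg fun p _ => by positivity]
    constructor
    · intro h p _
      rw [h p, norm_zero]
      norm_num
    · intro h p
      have := h p (Finset.mem_univ p)
      rwa [sq_eq_zero_iff, norm_eq_zero] at this
  have k0 : v ∈ S.Kr φ (𝒜 0) ↔ ∀ p, y p 0 = 0 := by
    have : NormedSpace.exp ((0 : ℝ) • Q) v = v := by
      rw [zero_smul, NormedSpace.exp_zero]
      rfl
    constructor
    · intro h p
      have := h p
      rw [hy]
      simpa [‹NormedSpace.exp ((0 : ℝ) • Q) v = v›] using this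
    · intro h p
      have h' := h p
      rw [hy] at h'
      simpa [this] using h'
  have k1 : NormedSpace.exp (τ • Q) v ∈ S.Kr φ (𝒜 τ) ↔ ∀ p, y p τ = 0 := Iff.rfl
  rw [k0, k1, hz, hz, hN τ]

end Vale.Agent.P353.Z.AX
end

section

/-! # P353, all `N`, block X: task X-Irr (the vacuum space of a complex structure) -/

open Matrix

namespace Vale.Agent.P353.Z.AX

namespace IrrPf

variable {P : Type*} [Fintype P] [DecidableEq P] {F : Type*} [NormedAddCommGroup F] [InnerProductSpace ℂ F]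

/-- Clifford generators and a real orthogonal complex structure -/
structure ICl (θ : P → F →L[ℂ] F) (J : Matrix P P ℂ) : Prop where
  anti : ∀ p q, θ p * θ q + θ q * θ p = if p = q then 1 else 0
  sa : ∀ p (v w : F), inner ℂ (θ p v) w = inner ℂ v (θ p w)
  Jre : ∀ p q, (J p q).im = 0
  Janti : Jᵀ = -J
  Jsq : J * J = -1

/-- annihilation operator -/
noncomputable def iann (θ : P → F →L[ℂ] F) (J : Matrix P P ℂ) (p : P) : F →L[ℂ] F :=
  ∑ q, (1 - Complex.I • J) p q • θ q

omit [Fintype P] [DecidableEq P] in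
lemma imul_apply (X Y : F →L[ℂ] F) (v : F) : (X * Y) v = X (Y v) := rfl

variable {θ : P → F →L[ℂ] F} {J : Matrix P P ℂ}

lemma iann_apply (p : P) (v : F) : iann θ J p v = ∑ q, (1 - Complex.I • J) p q • θ q v := by
  simp only [iann, _root_.sum_apply, _root_.smul_apply]

lemma ian_th (h : ICl θ J) (p q : P) :
    iann θ J p * θ q = (1 - Complex.I • J) p q • (1 : F →L[ℂ] F) - θ q * iann θ J p := by
  rw [eq_sub_iff_add_eq, iann, Finset.sum_mul, Finset.mul_sum, ← Finset.sum_add_distrib]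
  have : ∀ r, (1 - Complex.I • J) p r • θ r * θ q + θ q * (1 - Complex.I • J) p r • θ r =
      if r = q then (1 - Complex.I • J) p r • (1 : F →L[ℂ] F) else 0 := by
    intro r
    rw [smul_mul_assoc, mul_smul_comm, ← smul_add, h.anti]
    split_ifs <;> simp
  simp only [this, Finset.sum_ite_eq', Finset.mem_univ, if_true]

lemma iAAt (h : ICl θ J) : (1 - Complex.I • J) * (1 - Complex.I • J)ᵀ = 0 := by
  rw [Matrix.transpose_sub, Matrix.transpose_one, Matrix.transpose_smul, h.Janti, smul_neg, sub_neg_eq_add,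
    sub_mul, mul_add, mul_add, Matrix.one_mul, Matrix.one_mul, Matrix.mul_one, smul_mul_smul_comm, h.Jsq,
    Complex.I_mul_I, neg_smul, one_smul, neg_neg]
  abel

lemma ian_ian (h : ICl θ J) (p q : P) :
    iann θ J p * iann θ J q + iann θ J q * iann θ J p = 0 := by
  have h1 : iann θ J p * iann θ J q + iann θ J q * iann θ J p =
      ∑ r, (1 - Complex.I • J) q r • (iann θ J p * θ r + θ r * iann θ J p) := by
    conv_lhs => rw [iann.eq_def θ J q, Finset.mul_sum, Finset.sum_mul, ← Finset.sum_add_distrib]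
    refine Finset.sum_congr rfl fun r _ => ?_
    rw [smul_mul_assoc, mul_smul_comm, ← smul_add]
  rw [h1]
  have h2 : ∀ r, (1 - Complex.I • J) q r • (iann θ J p * θ r + θ r * iann θ J p) =
      ((1 - Complex.I • J) p r * (1 - Complex.I • J)ᵀ r q) • (1 : F →L[ℂ] F) := by
    intro r
    rw [ian_th h, sub_add_cancel, smul_smul, Matrix.transpose_apply, mul_comm]
  simp only [h2]
  rw [← Finset.sum_smul, ← Matrix.mul_apply, iAAt h]
  simp

lemma inner_th (h : ICl θ J) {p : P} {u : F} (hu : iann θ J p u = 0) (v : F) :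
    inner ℂ u (θ p v) = (1 / 2 : ℂ) * inner ℂ u (iann θ J p v) := by
  have h0 : inner ℂ (iann θ J p u) v = 0 := by rw [hu, inner_zero_left]
  have h1 : inner ℂ (iann θ J p u) v + inner ℂ u (iann θ J p v) = 2 * inner ℂ u (θ p v) := by
    rw [iann_apply, iann_apply, sum_inner, inner_sum, ← Finset.sum_add_distrib]
    have : ∀ q, inner ℂ ((1 - Complex.I • J) p q • θ q u) v + inner ℂ u ((1 - Complex.I • J) p q • θ q v) =
        if p = q then 2 * inner ℂ u (θ q v) else 0 := by
      intro q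
      rw [inner_smul_left, inner_smul_right, h.sa, ← add_mul]
      have hc : (starRingEnd ℂ) ((1 - Complex.I • J) p q) + (1 - Complex.I • J) p q =
          if p = q then 2 else 0 := by
        have hr : (starRingEnd ℂ) (J p q) = J p q := Complex.conj_eq_iff_im.2 (h.Jre p q)
        rw [Matrix.sub_apply, Matrix.smul_apply, smul_eq_mul, map_sub, map_mul, hr, Complex.conj_I,
          Matrix.one_apply]
        split_ifs
        · rw [map_one]; ring
        · rw [map_zero]; ring
      rw [hc]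
      split_ifs <;> simp
    simp only [this, Finset.sum_ite_eq, Finset.mem_univ, if_true]
  rw [h0, zero_add] at h1
  rw [h1]
  ring

/-- the vacuum is not zero -/
lemma iexists (h : ICl θ J) (hF : ∃ v : F, v ≠ 0) (T : Finset P) :
    ∃ v : F, v ≠ 0 ∧ ∀ p ∈ T, iann θ J p v = 0 := by
  induction T using Finset.induction_on with
  | empty => obtain ⟨v, hv⟩ := hF; exact ⟨v, hv, by simp⟩
  | insert p T _ ih =>
    obtain ⟨v, hv, hT⟩ := ih
    by_cases h0 : iann θ J p v = 0
    · refine ⟨v, hv, fun q hq => ?_⟩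
      rcases Finset.mem_insert.1 hq with rfl | hq
      · exact h0
      · exact hT q hq
    · refine ⟨iann θ J p v, h0, fun q hq => ?_⟩
      rcases Finset.mem_insert.1 hq with rfl | hq
      · have := congrArg (fun X : F →L[ℂ] F => X v) (ian_ian h q q)
        simp only [_root_.add_apply, imul_apply,
          _root_.zero_apply] at this
        rw [← two_smul ℂ] at this
        exact (smul_eq_zero.1 this).resolve_left two_ne_zero
      · have := congrArg (fun X : F →L[ℂ] F => X v) (ian_ian h q p)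
        simp only [_root_.add_apply, imul_apply,
          _root_.zero_apply, hT q hq, map_zero, add_zero] at this
        exact this

/-- span of the words of length `< n` -/
def iwd (θ : P → F →L[ℂ] F) (n : ℕ) : Submodule ℂ (F →L[ℂ] F) :=
  Submodule.span ℂ {X | ∃ L : List P, L.length < n ∧ X = (L.map θ).prod}

omit [Fintype P] [DecidableEq P] in
lemma iwd_cons (q : P) {n : ℕ} {X : F →L[ℂ] F} (hX : X ∈ iwd θ n) : θ q * X ∈ iwd θ (n + 1) := by
  induction hX using Submodule.span_induction with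
  | mem X h =>
    obtain ⟨L, hL, rfl⟩ := h
    refine Submodule.subset_span ⟨q :: L, by simpa using hL, by simp⟩
  | zero => simp
  | add X Y _ _ hX hY => rw [mul_add]; exact Submodule.add_mem _ hX hY
  | smul c X _ hX => rw [mul_smul_comm]; exact Submodule.smul_mem _ c hX

lemma ipass (h : ICl θ J) (p : P) (L : List P) :
    ∃ R ∈ iwd θ L.length, ∃ ε : ℂ, iann θ J p * (L.map θ).prod = ε • ((L.map θ).prod * iann θ J p) + R := by
  induction L with
  | nil => exact ⟨0, Submodule.zero_mem _, 1, by simp⟩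
  | cons q L ih =>
    obtain ⟨R, hR, ε, he⟩ := ih
    refine ⟨(1 - Complex.I • J) p q • (L.map θ).prod - θ q * R, ?_, -ε, ?_⟩
    · refine Submodule.sub_mem _ (Submodule.smul_mem _ _ ?_) (iwd_cons q hR)
      exact Submodule.subset_span ⟨L, by simp, rfl⟩
    · rw [List.map_cons, List.prod_cons, ← mul_assoc, ian_th h, sub_mul, mul_assoc, he, smul_mul_assoc, one_mul,
        mul_add, mul_smul_comm, neg_smul, mul_assoc]
      abel

/-- operators that act as a scalar between vacuum vectors -/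
def isc (θ : P → F →L[ℂ] F) (J : Matrix P P ℂ) : Submodule ℂ (F →L[ℂ] F) where
  carrier := {X | ∃ c : ℂ, ∀ u w : F, (∀ p, iann θ J p u = 0) → (∀ p, iann θ J p w = 0) →
    inner ℂ u (X w) = c * inner ℂ u w}
  add_mem' := by
    rintro X Y ⟨c, hc⟩ ⟨e, he⟩
    refine ⟨c + e, fun u w hu hw => ?_⟩
    rw [_root_.add_apply, inner_add_right, hc u w hu hw, he u w hu hw, add_mul]
  zero_mem' := ⟨0, fun u w _ _ => by simp⟩
  smul_mem' := by
    rintro a X ⟨c, hc⟩
    refine ⟨a * c, fun u w hu hw => ?_⟩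
    rw [_root_.smul_apply, inner_smul_right, hc u w hu hw, mul_assoc]

lemma iword (h : ICl θ J) (n : ℕ) : ∀ L : List P, L.length = n → (L.map θ).prod ∈ isc θ J := by
  induction n using Nat.strong_induction_on with
  | _ n ih =>
    intro L hL
    cases L with
    | nil => exact ⟨1, fun u w _ _ => by simp⟩
    | cons p L =>
      obtain ⟨R, hR, ε, he⟩ := ipass h p L
      have hsc : R ∈ isc θ J := by
        have hle : iwd θ L.length ≤ isc θ J := by
          refine Submodule.span_le.2 ?_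
          rintro X ⟨M, hM, rfl⟩
          refine ih M.length ?_ M rfl
          rw [← hL, List.length_cons]
          omega
        exact hle hR
      obtain ⟨c, hc⟩ := hsc
      refine ⟨(1 / 2 : ℂ) * c, fun u w hu hw => ?_⟩
      rw [List.map_cons, List.prod_cons, imul_apply, inner_th h (hu p),
        ← imul_apply, he, _root_.add_apply,
        _root_.smul_apply, imul_apply, hw p, map_zero, smul_zero, zero_add, hc u w hu hw,
        mul_assoc]

/-- irreducibility of the vacuum space -/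
lemma iirr [FiniteDimensional ℂ F] (h : ICl θ J) (G : Set (F →L[ℂ] F)) (hG : ∀ g ∈ G, ∀ p, g * θ p = -(θ p * g))
    (hir : ∀ W : Submodule ℂ F, (∀ p, ∀ v ∈ W, θ p v ∈ W) → (∀ g ∈ G, ∀ v ∈ W, g v ∈ W) → W = ⊥ ∨ W = ⊤)
    (W : Submodule ℂ F) (hW : ∀ v ∈ W, ∀ p, iann θ J p v = 0) (hWG : ∀ g ∈ G, ∀ v ∈ W, g v ∈ W) (hne : W ≠ ⊥)
    (u : F) (hu : ∀ p, iann θ J p u = 0) : u ∈ W := by
  set Y : Submodule ℂ F := Submodule.span ℂ {x | ∃ L : List P, ∃ w ∈ W, x = (L.map θ).prod w} with hY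
  have hYW : W ≤ Y := fun w hw => Submodule.subset_span ⟨[], w, hw, by simp⟩
  have hYp : ∀ p, ∀ v ∈ Y, θ p v ∈ Y := by
    intro p v hv
    induction hv using Submodule.span_induction with
    | mem x hx =>
      obtain ⟨L, w, hw, rfl⟩ := hx
      exact Submodule.subset_span ⟨p :: L, w, hw, by simp⟩
    | zero => simp
    | add x y _ _ hx hy => rw [map_add]; exact Submodule.add_mem _ hx hy
    | smul c x _ hx => rw [map_smul]; exact Submodule.smul_mem _ c hx
  have hgL : ∀ g ∈ G, ∀ L : List P, ∃ ε : ℂ, g * (L.map θ).prod = ε • ((L.map θ).prod * g) := by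
    intro g hg L
    induction L with
    | nil => exact ⟨1, by simp⟩
    | cons q L ih =>
      obtain ⟨ε, he⟩ := ih
      refine ⟨-ε, ?_⟩
      rw [List.map_cons, List.prod_cons, ← mul_assoc, hG g hg q, neg_mul, mul_assoc, he, mul_smul_comm, neg_smul, mul_assoc]
  have hYg : ∀ g ∈ G, ∀ v ∈ Y, g v ∈ Y := by
    intro g hg v hv
    induction hv using Submodule.span_induction with
    | mem x hx =>
      obtain ⟨L, w, hw, rfl⟩ := hx
      obtain ⟨ε, he⟩ := hgL g hg L
      rw [← imul_apply, he, _root_.smul_apply, imul_apply]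
      exact Submodule.smul_mem _ _ (Submodule.subset_span ⟨L, g w, hWG g hg w hw, rfl⟩)
    | zero => simp
    | add x y _ _ hx hy => rw [map_add]; exact Submodule.add_mem _ hx hy
    | smul c x _ hx => rw [map_smul]; exact Submodule.smul_mem _ c hx
  have hYtop : Y = ⊤ := by
    refine (hir Y hYp hYg).resolve_left fun h0 => hne ?_
    rw [h0, le_bot_iff] at hYW
    exact hYW
  obtain ⟨y, hy, z, hz, hyz⟩ := W.exists_add_mem_mem_orthogonal u
  have hzk : ∀ p, iann θ J p z = 0 := by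
    intro p
    have h1 := hu p
    rw [hyz, map_add, hW y hy p, zero_add] at h1
    exact h1
  have hzY : ∀ x ∈ Y, inner ℂ z x = 0 := by
    intro x hx
    induction hx using Submodule.span_induction with
    | mem x hx =>
      obtain ⟨L, w, hw, rfl⟩ := hx
      obtain ⟨c, hc⟩ := iword h L.length L rfl
      rw [hc z w hzk (hW w hw), Submodule.inner_left_of_mem_orthogonal hw hz, mul_zero]
    | zero => simp
    | add x y _ _ hx hy => rw [inner_add_right, hx, hy, add_zero]
    | smul c x _ hx => rw [inner_smul_right, hx, mul_zero]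
  have hz0 : z = 0 := by
    have := hzY z (by rw [hYtop]; trivial)
    exact inner_self_eq_zero.1 this
  rw [hyz, hz0, add_zero]
  exact hy

end IrrPf

open IrrPf

variable {d dh dm : ℕ} {F : Type*} [NormedAddCommGroup F] [InnerProductSpace ℂ F]

theorem irr (S : Setup d F) (φ : Spl dh dm d) : IrrStmt S φ := by
  intro hfin J hJ
  have hCl : ICl (S.tm φ) J := by
    refine ⟨fun p q => ?_, fun p v w => S.th_sa _ _ v w, hJ.real, hJ.anti, hJ.sq⟩
    rw [Setup.tm, Setup.tm, S.th_anti]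
    congr 1
    simp only [EmbeddingLike.apply_eq_iff_eq, Sum.inr.injEq, Prod.ext_iff]
  have hmem : ∀ v : F, v ∈ S.Kr φ (1 - Complex.I • J) ↔ ∀ p, iann (S.tm φ) J p v = 0 := by
    intro v
    refine forall_congr' fun p => ?_
    rw [iann_apply]
  have hanti : ∀ α (A : Fin dh) (p : Fin 16 × Fin dm),
      S.th α (φ (Sum.inl A)) * S.tm φ p = -(S.tm φ p * S.th α (φ (Sum.inl A))) := by
    intro α A p
    rw [eq_neg_iff_add_eq_zero, Setup.tm, S.th_anti, if_neg]
    simp
  refine ⟨fun α A v hv => ?_, fun hne => ?_, fun L => ?_, fun hirr W hW hWh => ?_⟩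
  · rw [hmem] at hv ⊢
    intro p
    have h1 : iann (S.tm φ) J p * S.th α (φ (Sum.inl A)) = -(S.th α (φ (Sum.inl A)) * iann (S.tm φ) J p) := by
      rw [iann, Finset.sum_mul, Finset.mul_sum, ← Finset.sum_neg_distrib]
      refine Finset.sum_congr rfl fun q _ => ?_
      rw [smul_mul_assoc, mul_smul_comm, hanti, smul_neg, neg_neg]
    rw [← imul_apply, h1, _root_.neg_apply,
      imul_apply, hv p, map_zero, neg_zero]
  · obtain ⟨v, hv, h⟩ := iexists hCl hne Finset.univ
    exact ⟨v, (hmem v).2 fun p => h p (Finset.mem_univ p), hv⟩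
  · obtain ⟨c, hc⟩ := iword hCl L.length L rfl
    exact ⟨c, fun u hu w hw => hc u w ((hmem u).1 hu) ((hmem w).1 hw)⟩
  · by_cases hbot : W = ⊥
    · exact Or.inl hbot
    · refine Or.inr (le_antisymm hW fun u hu => ?_)
      refine iirr hCl {g | ∃ α, ∃ A : Fin dh, g = S.th α (φ (Sum.inl A))} ?_ ?_ W
        (fun v hv => (hmem v).1 (hW hv)) ?_ hbot u ((hmem u).1 hu)
      · rintro g ⟨α, A, rfl⟩ p
        exact hanti α A p
      · intro Y hYp hYg
        refine hirr Y fun α A v hv => ?_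
        obtain ⟨a, rfl⟩ := φ.surjective A
        rcases a with A | B
        · exact hYg _ ⟨α, A, rfl⟩ v hv
        · exact hYp (α, B) v hv
      · rintro g ⟨α, A, rfl⟩ v hv
        exact hWh α A v hv

end Vale.Agent.P353.Z.AX
end

section

/-! # P353, all `N`, block X: assembly of the vacuum bundle (`BunStmt`) -/

open MeasureTheory Filter Topology Matrix
open scoped ContDiff

namespace Vale.Agent.P353.Z.AX

variable {d dh dm : ℕ} {F : Type*} [NormedAddCommGroup F] [InnerProductSpace ℂ F]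

private lemma bun_zk_smul {r : ℕ} (l : Fin r → ℝ) (R : ℝ) (η : Cfg r) :
    zk l (R • η) = fun i => R * zk l η i := by
  funext i
  simp only [zk, PiLp.smul_apply, smul_eq_mul, Finset.mul_sum]
  refine Finset.sum_congr rfl fun a _ => ?_
  ring

private lemma bun_nz_scale (R : ℝ) (hR : 0 < R) (z : Fin 9 → ℝ) : nz (fun i => R * z i) = R * nz z := by
  unfold nz
  have h : ∑ i, (R * z i) ^ 2 = R ^ 2 * ∑ i, z i ^ 2 := by
    rw [Finset.mul_sum]
    exact Finset.sum_congr rfl fun i _ => mul_pow _ _ _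
  rw [h, Real.sqrt_mul (sq_nonneg R), Real.sqrt_sq hR.le]

private lemma bun_nz8_scale (R : ℝ) (hR : 0 < R) (z : Fin 9 → ℝ) : nz8 (fun i => R * z i) = R * nz8 z := by
  unfold nz8
  have h : ∑ j : Fin 8, (R * z j.castSucc) ^ 2 = R ^ 2 * ∑ j : Fin 8, z j.castSucc ^ 2 := by
    rw [Finset.mul_sum]
    exact Finset.sum_congr rfl fun i _ => mul_pow _ _ _
  rw [h, Real.sqrt_mul (sq_nonneg R), Real.sqrt_sq hR.le]

private lemma bun_ang_scale (R : ℝ) (hR : 0 < R) (z : Fin 9 → ℝ) : ang (fun i => R * z i) = ang z := by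
  unfold ang
  rw [bun_nz_scale R hR z, mul_div_mul_left _ _ hR.ne']

private lemma bun_be_scale (R : ℝ) (hR : 0 < R) (z : Fin 9 → ℝ) (j : Fin 8) :
    be (fun i => R * z i) j = be z j := by
  unfold be
  rw [bun_nz8_scale R hR z, bun_ang_scale R hR z, mul_div_mul_left _ _ hR.ne']

private lemma bun_bb_scale (S : Setup d F) {r : ℕ} (E : Matrix (Fin dm) (Fin dm) ℝ) (l : Fin dm → Fin r → ℝ)
    (R : ℝ) (hR : 0 < R) (η : Cfg r) : S.bb E l (R • η) = S.bb E l η := by
  have h : ∀ j, (fun k => be (zk (l k) (R • η)) j) = fun k => be (zk (l k) η) j := by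
    intro j
    funext k
    rw [bun_zk_smul, bun_be_scale R hR]
  unfold Setup.bb
  simp only [h]

private lemma bun_om_scale {r : ℕ} (κ : ℝ) (E : Matrix (Fin dm) (Fin dm) ℝ) (l : Fin dm → Fin r → ℝ)
    (R : ℝ) (hR : 0 < R) (η : Cfg r) : OmE κ E l (R • η) = R • OmE κ E l η := by
  unfold OmE
  have h : (fun k => nz (zk (l k) (R • η))) = R • fun k => nz (zk (l k) η) := by
    funext k
    rw [bun_zk_smul, bun_nz_scale R hR]
    rfl
  rw [h, smul_comm R κ]
  congr 1
  unfold sp
  rw [Matrix.diagonal_smul, Matrix.mul_smul, Matrix.smul_mul]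

private lemma bun_th_anti (S : Setup d F) (φ : Spl dh dm d) (α : Fin 16) (A : Fin dh) (p : Fin 16 × Fin dm) :
    S.th α (φ (Sum.inl A)) * S.tm φ p = -(S.tm φ p * S.th α (φ (Sum.inl A))) := by
  have h := S.th_anti α (φ (Sum.inl A)) p.1 (φ (Sum.inr p.2))
  have hne : ¬ (α = p.1 ∧ φ (Sum.inl A) = φ (Sum.inr p.2)) := by
    rintro ⟨_, h2⟩
    have h3 := φ.injective h2
    simp at h3
  rw [if_neg hne] at h
  unfold Setup.tm
  exact eq_neg_of_add_eq_zero_left h

/-- **X-Bun** -/
theorem bun (S : Setup d F) (φ : Spl dh dm d) (hVec : VecStmt) (hSp : SpStmt) (hOm : OmPStmt) (hP : PathStmt S)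
    (hK : KrFStmt S φ) (hQ : QuStmt S φ) (hSm : SmStmt S φ) (hPar : ParStmt S φ) (hI : IrrStmt S φ) :
    BunStmt S φ := by
  intro hF r M t Kc E l hRD
  obtain ⟨-, hOm1, hOm2, -, -, -⟩ := hOm r dm S.κ M t Kc E l S.κ_pos hRD
  obtain ⟨hRA, hCS, -⟩ := hP r dm M t Kc E l hRD
  obtain ⟨-, hKr⟩ := hK r M t Kc E l hRD
  obtain ⟨hcl, hoff, -, hUs, -, hOs⟩ := hSm hF r E l
  obtain ⟨hI1, hI2, -, hI4⟩ := hI hF (S.J0 Kc) hCS
  have hset : {η : Cfg r | (∑ i, DM M η i * DM M η i).det ≠ 0} = {η | ∀ k, 0 < nz (zk (l k) η)} := by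
    ext η
    exact ⟨fun h => (hOm1 η h).1, fun h => hOm2 η h⟩
  have hUU : ∀ η : Cfg r, S.UU φ E l η = NormedSpace.exp ((1 : ℝ) • S.Qu φ (S.bb E l η)) := by
    intro η
    rw [one_smul]
    rfl
  have hcomm : ∀ (η : Cfg r) (X : F →L[ℂ] F),
      ((∀ p, X * S.tm φ p = S.tm φ p * X) ∨ (∀ p, X * S.tm φ p = -(S.tm φ p * X))) →
      S.UU φ E l η * X = X * S.UU φ E l η := by
    intro η X hX
    rw [hUU η]
    exact ((hQ hF (S.bb E l η) (hRA η)).2.2.2 X hX).2 1
  refine
    { L_ne := ?_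
      closed := hcl
      det := ?_
      om := fun η h => (hOm1 η h).2
      om_smooth := ?_
      om_scale := fun R η hR => bun_om_scale S.κ E l R hR η
      U_smooth := hUs
      U_scale := ?_
      U_inner := ?_
      U_surj := ?_
      U_comm := fun η α A => hcomm η _ (Or.inr fun p => bun_th_anti S φ α A p)
      U_comm' := hcomm
      U_mem := ?_
      U_par := fun η hη => (hPar hF r M t Kc E l hRD η hη).2
      K_th := hI1
      K_ne := hI2
      K_irr := hI4 }
  · intro l0 hl0 h0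
    obtain ⟨k, -, hk⟩ := Finset.mem_image.1 hl0
    have hp := hRD.pos k
    rw [hk, h0] at hp
    simp at hp
  · intro η hη
    exact hOm2 η fun k => (hVec _ ((hoff η).1 hη k)).1
  · intro A B
    rw [hset]
    exact hOs A B
  · intro R η hR
    unfold Setup.UU
    rw [bun_bb_scale S E l R hR η]
  · intro η v w
    rw [hUU η]
    exact ((hQ hF (S.bb E l η) (hRA η)).2.2.1 1).1 v w
  · intro η v
    rw [hUU η]
    exact ((hQ hF (S.bb E l η) (hRA η)).2.2.1 1).2 v
  · intro η hη v
    rw [← hKr η ((hoff η).1 hη)]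
    exact (hPar hF r M t Kc E l hRD η hη).1 v

end Vale.Agent.P353.Z.AX
end

section

/-! # P353, all `N`, block X: X-Sm, smoothness off the collisions -/

open MeasureTheory Filter Topology Matrix
open scoped ContDiff

namespace Vale.Agent.P353.Z.AX

variable {d dh dm r : ℕ} {F : Type*} [NormedAddCommGroup F] [InnerProductSpace ℂ F]

namespace SmPf

theorem contDiff_zk (l : Fin r → ℝ) (i : Fin 9) : ContDiff ℝ ∞ (fun η : Cfg r => zk l η i) := by
  unfold zk
  fun_prop

theorem isClosed_coll (L : Finset (Fin r → ℝ)) : IsClosed (Coll L) := by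
  have h : Coll L = ⋃ l ∈ L, ⋂ i : Fin 8, {y : Cfg r | ∑ A, l A * y (i.castSucc, A) = 0} := by
    ext y
    simp [Coll]
  rw [h]
  refine Set.Finite.isClosed_biUnion L.finite_toSet fun l _ => isClosed_iInter fun i => ?_
  refine isClosed_eq ?_ continuous_const
  fun_prop

theorem nz8_ne {z : Fin 9 → ℝ} : nz8 z ≠ 0 ↔ ∃ j : Fin 8, z j.castSucc ≠ 0 := by
  unfold nz8
  rw [Ne, Real.sqrt_eq_zero (Finset.sum_nonneg fun j _ => sq_nonneg _),
    Finset.sum_eq_zero_iff_of_nonneg (fun j _ => sq_nonneg _)]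
  simp

theorem sum_sq_split (z : Fin 9 → ℝ) : ∑ i, z i ^ 2 = (∑ j : Fin 8, z j.castSucc ^ 2) + z 8 ^ 2 := by
  rw [Fin.sum_univ_castSucc]
  rfl

theorem sum8_pos {z : Fin 9 → ℝ} (h : nz8 z ≠ 0) : 0 < ∑ j : Fin 8, z j.castSucc ^ 2 := by
  have h1 : 0 ≤ ∑ j : Fin 8, z j.castSucc ^ 2 := Finset.sum_nonneg fun j _ => sq_nonneg _
  rcases h1.lt_or_eq with h2 | h2
  · exact h2
  · exact absurd (by unfold nz8; rw [← h2, Real.sqrt_zero]) h

theorem sum9_pos {z : Fin 9 → ℝ} (h : nz8 z ≠ 0) : 0 < ∑ i, z i ^ 2 := by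
  rw [sum_sq_split]
  have := sum8_pos h
  positivity

theorem abs_lt_one {z : Fin 9 → ℝ} (h : nz8 z ≠ 0) : |z 8 / nz z| < 1 := by
  have h9 := sum9_pos h
  have h8 := sum8_pos h
  have hn : 0 < nz z := Real.sqrt_pos.2 h9
  rw [abs_div, abs_of_pos hn, div_lt_one hn]
  unfold nz
  rw [← Real.sqrt_sq_eq_abs]
  apply Real.sqrt_lt_sqrt (sq_nonneg _)
  rw [sum_sq_split]
  linarith

theorem contDiffAt_nz (l : Fin r → ℝ) {η : Cfg r} (h : ∑ i, zk l η i ^ 2 ≠ 0) :
    ContDiffAt ℝ ∞ (fun η : Cfg r => nz (zk l η)) η := by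
  unfold nz
  refine ContDiffAt.sqrt ?_ h
  refine ContDiffAt.sum fun i _ => ?_
  exact ((contDiff_zk l i).pow 2).contDiffAt

theorem contDiffAt_nz8 (l : Fin r → ℝ) {η : Cfg r} (h : nz8 (zk l η) ≠ 0) :
    ContDiffAt ℝ ∞ (fun η : Cfg r => nz8 (zk l η)) η := by
  have h' : ∑ j : Fin 8, zk l η j.castSucc ^ 2 ≠ 0 := (sum8_pos h).ne'
  unfold nz8
  refine ContDiffAt.sqrt ?_ h'
  refine ContDiffAt.sum fun i _ => ?_
  exact ((contDiff_zk l i.castSucc).pow 2).contDiffAt

theorem contDiffAt_be (l : Fin r → ℝ) {η : Cfg r} (h : nz8 (zk l η) ≠ 0) (j : Fin 8) :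
    ContDiffAt ℝ ∞ (fun η : Cfg r => be (zk l η) j) η := by
  have h9 := sum9_pos h
  have hn : nz (zk l η) ≠ 0 := (Real.sqrt_pos.2 h9).ne'
  have ha := abs_lt_one h
  rw [abs_lt] at ha
  have h1 : ContDiffAt ℝ ∞ (fun η : Cfg r => zk l η 8 / nz (zk l η)) η :=
    (contDiff_zk l 8).contDiffAt.div (contDiffAt_nz l h9.ne') hn
  have h2 : ContDiffAt ℝ ∞ (fun η : Cfg r => ang (zk l η)) η := by
    unfold ang
    exact (Real.contDiffAt_arccos (by linarith [ha.1]) (by linarith [ha.2])).comp η h1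
  have h3 : ContDiffAt ℝ ∞ (fun η : Cfg r => zk l η j.castSucc / nz8 (zk l η)) η :=
    (contDiff_zk l j.castSucc).contDiffAt.div (contDiffAt_nz8 l h) h
  unfold be
  exact (h2.div_const 2).mul h3

theorem sp_apply (E : Matrix (Fin dm) (Fin dm) ℝ) (f : Fin dm → ℝ) (A B : Fin dm) :
    sp E f A B = ∑ k, E k A * f k * E k B := by
  unfold sp
  rw [Matrix.mul_apply]
  refine Finset.sum_congr rfl fun k _ => ?_
  rw [Matrix.mul_diagonal, Matrix.transpose_apply]

/-- the linear map `c ↦ Qu(∑ γ^jγ^8 ⊗ sp(c_j))` -/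
noncomputable def T (S : Setup d F) (φ : Spl dh dm d) (E : Matrix (Fin dm) (Fin dm) ℝ) :
    (Fin 8 → Fin dm → ℝ) →ₗ[ℝ] (F →L[ℂ] F) where
  toFun c := S.Qu φ (Matrix.of fun p q =>
      ∑ j : Fin 8, (S.g j.castSucc * S.g 8) p.1 q.1 * ((sp E (c j) p.2 q.2 : ℝ) : ℂ))
  map_add' a b := by
    simp only [Setup.Qu, Matrix.of_apply]
    rw [← smul_add, ← Finset.sum_add_distrib]
    congr 1
    refine Finset.sum_congr rfl fun p _ => ?_
    rw [← Finset.sum_add_distrib]
    refine Finset.sum_congr rfl fun q _ => ?_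
    rw [← add_smul, ← Finset.sum_add_distrib]
    congr 1
    refine Finset.sum_congr rfl fun j _ => ?_
    rw [← mul_add, ← Complex.ofReal_add]
    congr 2
    rw [sp_apply, sp_apply, sp_apply, ← Finset.sum_add_distrib]
    refine Finset.sum_congr rfl fun k _ => ?_
    simp only [Pi.add_apply]
    ring
  map_smul' a b := by
    simp only [Setup.Qu, Matrix.of_apply, RingHom.id_apply]
    rw [smul_comm]
    congr 1
    rw [Finset.smul_sum]
    refine Finset.sum_congr rfl fun p _ => ?_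
    rw [Finset.smul_sum]
    refine Finset.sum_congr rfl fun q _ => ?_
    rw [← smul_assoc, Finset.smul_sum]
    congr 1
    refine Finset.sum_congr rfl fun j _ => ?_
    rw [sp_apply, sp_apply]
    have : ∑ k, E k p.2 * (a • b) j k * E k q.2 = a * ∑ k, E k p.2 * b j k * E k q.2 := by
      rw [Finset.mul_sum]
      refine Finset.sum_congr rfl fun k _ => ?_
      simp only [Pi.smul_apply, smul_eq_mul]
      ring
    rw [this, Complex.ofReal_mul, Complex.real_smul]
    ring

theorem T_bb (S : Setup d F) (φ : Spl dh dm d) (E : Matrix (Fin dm) (Fin dm) ℝ) (l : Fin dm → Fin r → ℝ) (η : Cfg r) :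
    S.Qu φ (S.bb E l η) = T S φ E (fun j k => be (zk (l k) η) j) := rfl

/-- `T` as a continuous linear map -/
noncomputable def Tc (S : Setup d F) (φ : Spl dh dm d) (E : Matrix (Fin dm) (Fin dm) ℝ) :
    (Fin 8 → Fin dm → ℝ) →L[ℝ] (F →L[ℂ] F) := LinearMap.toContinuousLinearMap (T S φ E)

theorem Tc_apply (S : Setup d F) (φ : Spl dh dm d) (E : Matrix (Fin dm) (Fin dm) ℝ) (c : Fin 8 → Fin dm → ℝ) :
    Tc S φ E c = S.Qu φ (Matrix.of fun p q =>
      ∑ j : Fin 8, (S.g j.castSucc * S.g 8) p.1 q.1 * ((sp E (c j) p.2 q.2 : ℝ) : ℂ)) := rfl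

theorem contDiffAt_bev (l : Fin dm → Fin r → ℝ) {η : Cfg r} (h : ∀ k, nz8 (zk (l k) η) ≠ 0) :
    ContDiffAt ℝ ∞ (fun η : Cfg r => (fun (j : Fin 8) (k : Fin dm) => be (zk (l k) η) j)) η := by
  rw [contDiffAt_pi]
  intro j
  rw [contDiffAt_pi]
  intro k
  exact contDiffAt_be (l k) (h k) j

theorem not_mem_coll (l : Fin dm → Fin r → ℝ) (η : Cfg r) :
    η ∉ Coll (Finset.univ.image l) ↔ ∀ k, nz8 (zk (l k) η) ≠ 0 := by
  simp only [nz8_ne]
  simp [Coll, zk]

theorem contDiffAt_qb (S : Setup d F) (φ : Spl dh dm d) (E : Matrix (Fin dm) (Fin dm) ℝ) (l : Fin dm → Fin r → ℝ)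
    {η : Cfg r} (h : ∀ k, nz8 (zk (l k) η) ≠ 0) :
    ContDiffAt ℝ ∞ (fun η : Cfg r => S.Qu φ (S.bb E l η)) η :=
  (Tc S φ E).contDiff.contDiffAt.comp η (contDiffAt_bev l h)

theorem fderiv_qb (S : Setup d F) (φ : Spl dh dm d) (E : Matrix (Fin dm) (Fin dm) ℝ) (l : Fin dm → Fin r → ℝ)
    {η : Cfg r} (h : ∀ k, nz8 (zk (l k) η) ≠ 0) (ξ : Cfg r) :
    fderiv ℝ (fun η : Cfg r => S.Qu φ (S.bb E l η)) η ξ =
      Tc S φ E (fderiv ℝ (fun η : Cfg r => (fun (j : Fin 8) (k : Fin dm) => be (zk (l k) η) j)) η ξ) := by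
  have h1 : HasFDerivAt (fun η : Cfg r => (fun (j : Fin 8) (k : Fin dm) => be (zk (l k) η) j))
      (fderiv ℝ (fun η : Cfg r => (fun (j : Fin 8) (k : Fin dm) => be (zk (l k) η) j)) η) η :=
    ((contDiffAt_bev l h).differentiableAt (by simp)).hasFDerivAt
  have h2 := (Tc S φ E).hasFDerivAt.comp η h1
  have h3 : fderiv ℝ (fun η : Cfg r => S.Qu φ (S.bb E l η)) η =
      (Tc S φ E).comp (fderiv ℝ (fun η : Cfg r => (fun (j : Fin 8) (k : Fin dm) => be (zk (l k) η) j)) η) :=
    h2.fderiv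
  rw [h3]
  rfl

end SmPf

open SmPf in
/-- **X-Sm** -/
theorem sm (S : Setup d F) (φ : Spl dh dm d) : SmStmt S φ := by
  intro hF r E l
  have : CompleteSpace F := FiniteDimensional.complete ℂ F
  refine ⟨isClosed_coll _, not_mem_coll l, ?_, ?_, ?_, ?_⟩
  · intro η hη
    exact (contDiffAt_qb S φ E l ((not_mem_coll l η).1 hη)).contDiffWithinAt
  · intro η hη
    have h1 := contDiffAt_qb S φ E l ((not_mem_coll l η).1 hη)
    have h2 : ContDiffAt ℝ ∞ (fun x : F →L[ℂ] F => NormedSpace.exp x) (S.Qu φ (S.bb E l η)) :=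
      (NormedSpace.exp_analytic (𝕂 := ℝ) _).contDiffAt
    exact (h2.comp η h1).contDiffWithinAt
  · intro η hη ξ
    exact ⟨_, (fderiv_qb S φ E l ((not_mem_coll l η).1 hη) ξ).trans (Tc_apply S φ E _)⟩
  · intro A B η hη
    have h0 : (fun η : Cfg r => OmE S.κ E l η A B) =
        fun η : Cfg r => S.κ * ∑ k, E k A * nz (zk (l k) η) * E k B := by
      funext η
      simp only [OmE, Matrix.smul_apply, smul_eq_mul, sp_apply]
    rw [h0]
    refine ContDiffAt.contDiffWithinAt ?_
    refine contDiffAt_const.mul (ContDiffAt.sum fun k _ => ?_)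
    refine (contDiffAt_const.mul (contDiffAt_nz (l k) ?_)).mul contDiffAt_const
    have hk : 0 < nz (zk (l k) η) := hη k
    exact (Real.sqrt_pos.1 hk).ne'

end Vale.Agent.P353.Z.AX
end
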