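import Mathlib
import Vale.Agent.P353.BdA.B1
import Vale.Agent.P353.BdZ.B8

set_option linter.all false

section

/-! # P353, all `N`, block X: the Gaussian integral of the boson vacuum (`X-Gauss`) -/

open MeasureTheory Filter Topology Matrix
open scoped ContDiff

namespace Vale.Agent.P353.Z.AX

namespace GsA

/-- Gaussian integral composed with an invertible matrix -/
lemma lin_gauss {ι : Type*} [Fintype ι] [DecidableEq ι] (A : Matrix ι ι ℝ) (hA : A.det ≠ 0) :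
    Integrable (fun w : EuclideanSpace ℝ ι => Real.exp (-(∑ p, (A *ᵥ fun q => w q) p ^ 2))) ∧
    ∫ w : EuclideanSpace ℝ ι, Real.exp (-(∑ p, (A *ᵥ fun q => w q) p ^ 2)) =
      |A.det|⁻¹ * Real.pi ^ ((Fintype.card ι : ℝ) / 2) := by
  set T : EuclideanSpace ℝ ι →ₗ[ℝ] EuclideanSpace ℝ ι := Matrix.toEuclideanLin A with hT
  have hdet : LinearMap.det T = A.det := by
    rw [hT]
    change LinearMap.det (Matrix.toLpLin 2 2 A) = _
    rw [Matrix.toLpLin_eq_toLin, LinearMap.det_toLin]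
  have hne : LinearMap.det T ≠ 0 := by rw [hdet]; exact hA
  have hTm : Measurable T := T.continuous_of_finiteDimensional.measurable
  have hmap := Measure.map_linearMap_addHaar_eq_smul_addHaar (volume : Measure (EuclideanSpace ℝ ι)) hne
  have hg : Integrable (fun y : EuclideanSpace ℝ ι => Real.exp (-(‖y‖ ^ 2))) := by
    have h := (GaussianFourier.integrable_cexp_neg_mul_sq_norm_add (b := (1 : ℂ)) (by norm_num) 0
      (0 : EuclideanSpace ℝ ι)).norm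
    refine h.congr (Filter.Eventually.of_forall fun y => ?_)
    simp only [Complex.norm_exp]
    congr 1
    simp [← Complex.ofReal_pow]
  have hgm : Integrable (fun y : EuclideanSpace ℝ ι => Real.exp (-(‖y‖ ^ 2)))
      (Measure.map T volume) := by
    rw [hmap]
    exact hg.smul_measure ENNReal.ofReal_ne_top
  have hfun : (fun w : EuclideanSpace ℝ ι => Real.exp (-(∑ p, (A *ᵥ fun q => w q) p ^ 2))) =
      fun w => Real.exp (-(‖T w‖ ^ 2)) := by
    funext w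
    rw [EuclideanSpace.real_norm_sq_eq]
    rfl
  rw [hfun]
  constructor
  · exact (integrable_map_measure hgm.aestronglyMeasurable hTm.aemeasurable).mp hgm
  · rw [← integral_map (f := fun y : EuclideanSpace ℝ ι => Real.exp (-(‖y‖ ^ 2))) hTm.aemeasurable
      hgm.aestronglyMeasurable, hmap, integral_smul_measure, hdet]
    have h1 := GaussianFourier.integral_rexp_neg_mul_sq_norm (V := EuclideanSpace ℝ ι) (b := 1) one_pos
    simp only [neg_mul, one_mul, div_one, finrank_euclideanSpace] at h1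
    rw [h1, ENNReal.toReal_ofReal (abs_nonneg _), abs_inv, smul_eq_mul]

/-- the 8 by 8 factor belonging to one root -/
noncomputable def Lz (z : Fin 9 → ℝ) : Matrix (Fin 8) (Fin 8) ℝ :=
  1 + replicateCol Unit (fun j : Fin 8 => -(1 / (nz z * (nz z + |z 8|))) * z j.castSucc) *
    replicateRow Unit (fun j : Fin 8 => z j.castSucc)

lemma nz_sq (z : Fin 9 → ℝ) : nz z ^ 2 = (∑ j : Fin 8, z j.castSucc ^ 2) + |z 8| ^ 2 := by
  unfold nz
  rw [Real.sq_sqrt (Finset.sum_nonneg fun i _ => sq_nonneg _), Fin.sum_univ_castSucc, sq_abs]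
  rfl

lemma nz_pos {z : Fin 9 → ℝ} (h : z 8 ≠ 0) : 0 < nz z := by
  unfold nz
  apply Real.sqrt_pos.mpr
  have h1 : z 8 ^ 2 ≤ ∑ i, z i ^ 2 :=
    Finset.single_le_sum (f := fun i => z i ^ 2) (fun i _ => sq_nonneg _) (Finset.mem_univ 8)
  have h2 : 0 < z 8 ^ 2 := by positivity
  linarith

lemma det_Lz {z : Fin 9 → ℝ} (h : z 8 ≠ 0) : (Lz z).det = |z 8| / nz z := by
  have hn := nz_pos h
  have ha : 0 < |z 8| := abs_pos.mpr h
  unfold Lz
  rw [Matrix.det_one_add_replicateCol_mul_replicateRow]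
  have h1 : (fun j : Fin 8 => z j.castSucc) ⬝ᵥ
      (fun j : Fin 8 => -(1 / (nz z * (nz z + |z 8|))) * z j.castSucc) =
      -(1 / (nz z * (nz z + |z 8|))) * (nz z ^ 2 - |z 8| ^ 2) := by
    rw [nz_sq z]
    simp only [dotProduct, add_sub_cancel_right]
    rw [Finset.mul_sum]
    exact Finset.sum_congr rfl fun j _ => by ring
  rw [h1]
  field_simp
  ring

lemma Lz_mulVec (z : Fin 9 → ℝ) (x : Fin 8 → ℝ) (j : Fin 8) :
    (Lz z *ᵥ x) j = x j - 1 / (nz z * (nz z + |z 8|)) * (∑ i : Fin 8, z i.castSucc * x i) * z j.castSucc := by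
  unfold Lz
  rw [Matrix.add_mulVec, Matrix.one_mulVec, Pi.add_apply, ← Matrix.mulVec_mulVec]
  have h1 : (replicateRow Unit (fun j : Fin 8 => z j.castSucc) *ᵥ x) =
      fun _ => ∑ i : Fin 8, z i.castSucc * x i := by
    funext u
    rfl
  rw [h1]
  simp only [Matrix.mulVec, dotProduct, Matrix.replicateCol_apply, Finset.univ_unique,
    Finset.sum_singleton]
  ring

lemma Lz_norm {z : Fin 9 → ℝ} (h : z 8 ≠ 0) (x : Fin 8 → ℝ) :
    ∑ j, (Lz z *ᵥ x) j ^ 2 = (∑ j, x j ^ 2) - (∑ j : Fin 8, z j.castSucc * x j) ^ 2 / nz z ^ 2 := by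
  have hn := nz_pos h
  have ha : 0 < |z 8| := abs_pos.mpr h
  set s : ℝ := ∑ j : Fin 8, z j.castSucc * x j with hs
  set c : ℝ := 1 / (nz z * (nz z + |z 8|)) with hc
  have h1 : ∀ j, (Lz z *ᵥ x) j ^ 2 = x j ^ 2 - 2 * c * s * (z j.castSucc * x j) +
      c ^ 2 * s ^ 2 * z j.castSucc ^ 2 := by
    intro j
    rw [Lz_mulVec]
    ring
  simp only [h1]
  rw [Finset.sum_add_distrib, Finset.sum_sub_distrib, ← Finset.mul_sum, ← Finset.mul_sum, ← hs]
  have h2 : (∑ j : Fin 8, z j.castSucc ^ 2) = nz z ^ 2 - |z 8| ^ 2 := by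
    rw [nz_sq z]; ring
  rw [h2, hc]
  field_simp
  ring

/-- the full matrix -/
noncomputable def AA {dm : ℕ} (κ : ℝ) (E : Matrix (Fin dm) (Fin dm) ℝ) (z : Fin dm → Fin 9 → ℝ) :
    Matrix (Fin 8 × Fin dm) (Fin 8 × Fin dm) ℝ :=
  blockDiagonal (fun k => Real.sqrt (κ * nz (z k)) • Lz (z k)) *
    kroneckerMap (fun a b => a * b) (1 : Matrix (Fin 8) (Fin 8) ℝ) E

lemma AA_mulVec {dm : ℕ} (κ : ℝ) (E : Matrix (Fin dm) (Fin dm) ℝ) (z : Fin dm → Fin 9 → ℝ)
    (w : Fin 8 × Fin dm → ℝ) (j : Fin 8) (k : Fin dm) :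
    (AA κ E z *ᵥ w) (j, k) =
      Real.sqrt (κ * nz (z k)) * (Lz (z k) *ᵥ fun i => (E *ᵥ fun B => w (i, B)) k) j := by
  unfold AA
  rw [← Matrix.mulVec_mulVec]
  have h1 : ∀ i k, ((kroneckerMap (fun a b => a * b) (1 : Matrix (Fin 8) (Fin 8) ℝ) E) *ᵥ w) (i, k) =
      (E *ᵥ fun B => w (i, B)) k := by
    intro i k
    simp only [Matrix.mulVec, dotProduct, Fintype.sum_prod_type, kroneckerMap_apply]
    rw [Finset.sum_eq_single i]
    · simp
    · intro b _ hb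
      simp [Matrix.one_apply_ne (Ne.symm hb)]
    · intro hh
      exact absurd (Finset.mem_univ _) hh
  have h2 : ∀ v : Fin 8 × Fin dm → ℝ, (blockDiagonal (fun k => Real.sqrt (κ * nz (z k)) • Lz (z k)) *ᵥ v) (j, k) =
      Real.sqrt (κ * nz (z k)) * (Lz (z k) *ᵥ fun i => v (i, k)) j := by
    intro v
    simp only [Matrix.mulVec, dotProduct, Fintype.sum_prod_type, blockDiagonal_apply, Matrix.smul_apply,
      smul_eq_mul]
    rw [Finset.mul_sum]
    refine Finset.sum_congr rfl fun i _ => ?_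
    rw [Finset.sum_eq_single k]
    · simp
      ring
    · intro b _ hb
      simp [Ne.symm hb]
    · intro hh
      exact absurd (Finset.mem_univ _) hh
  rw [h2]
  simp only [h1]

lemma det_AA {dm : ℕ} {κ : ℝ} (hκ : 0 < κ) {E : Matrix (Fin dm) (Fin dm) ℝ} (hE : E * Eᵀ = 1)
    {z : Fin dm → Fin 9 → ℝ} (hz : ∀ k, z k 8 ≠ 0) :
    (AA κ E z).det = (κ ^ dm) ^ 4 * (∏ k, nz (z k)) ^ 3 * ∏ k, |z k 8| := by
  unfold AA
  have hE2 : E.det ^ 2 = 1 := by
    have h := congrArg Matrix.det hE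
    rw [Matrix.det_mul, Matrix.det_transpose, Matrix.det_one] at h
    rw [sq]; exact h
  have hk : (kroneckerMap (fun a b => a * b) (1 : Matrix (Fin 8) (Fin 8) ℝ) E).det = 1 := by
    have h := Matrix.det_kronecker (1 : Matrix (Fin 8) (Fin 8) ℝ) E
    rw [h, Matrix.det_one, one_pow, one_mul, Fintype.card_fin]
    calc E.det ^ 8 = (E.det ^ 2) ^ 4 := by ring
      _ = 1 := by rw [hE2, one_pow]
  rw [Matrix.det_mul, hk, mul_one, Matrix.det_blockDiagonal]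
  have h1 : ∀ k, (Real.sqrt (κ * nz (z k)) • Lz (z k)).det = κ ^ 4 * nz (z k) ^ 3 * |z k 8| := by
    intro k
    have hn := nz_pos (hz k)
    rw [Matrix.det_smul, det_Lz (hz k), Fintype.card_fin]
    have h2 : Real.sqrt (κ * nz (z k)) ^ 8 = (κ * nz (z k)) ^ 4 := by
      calc Real.sqrt (κ * nz (z k)) ^ 8 = (Real.sqrt (κ * nz (z k)) ^ 2) ^ 4 := by ring
        _ = _ := by rw [Real.sq_sqrt (by positivity)]
    rw [h2]
    field_simp
  simp only [h1]
  rw [Finset.prod_mul_distrib, Finset.prod_mul_distrib, Finset.prod_pow Finset.univ 3 (fun k => nz (z k)),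
    Finset.prod_const, Finset.card_univ, Fintype.card_fin]
  ring

end GsA

open GsA in
theorem gauss (hQf : QfStmt) : GaussStmt := by
  intro r dm κ M t Kc E l hκ hRD η hη
  obtain ⟨hz, hD, hO, hq⟩ := hQf r dm κ M t Kc E l hκ hRD η hη
  set z : Fin dm → Fin 9 → ℝ := fun k => zk (l k) η with hzdef
  have hz' : ∀ k, z k 8 ≠ 0 := hz
  have hD' : |(DM M η 8).det| = ∏ k, |z k 8| := hD
  have hO' : (OmE κ E l η).det = κ ^ dm * ∏ k, nz (z k) := hO
  have hn : ∀ k, 0 < nz (z k) := fun k => nz_pos (hz' k)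
  have hAA := det_AA hκ hRD.orth hz'
  have hpos : 0 < (AA κ E z).det := by
    rw [hAA]
    have h1 : 0 < ∏ k, nz (z k) := Finset.prod_pos fun k _ => hn k
    have h2 : 0 < ∏ k, |z k 8| := Finset.prod_pos fun k _ => abs_pos.mpr (hz' k)
    positivity
  have hfun : (fun w : Wsp dm => gR (DM M η) (OmE κ E l η) 1 w ^ 2) =
      fun w : Wsp dm => Real.exp (-(∑ p, (AA κ E z *ᵥ fun q => w q) p ^ 2)) := by
    funext w
    unfold gR
    rw [← Real.exp_nat_mul]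
    congr 1
    rw [hq w, Fintype.sum_prod_type_right]
    have h1 : ∀ k, ∑ j, (AA κ E z *ᵥ fun q => w q) (j, k) ^ 2 =
        κ * (nz (z k) * ((∑ j : Fin 8, (E *ᵥ fun B => w (j, B)) k ^ 2) -
          (∑ j : Fin 8, z k j.castSucc * (E *ᵥ fun B => w (j, B)) k) ^ 2 / nz (z k) ^ 2)) := by
      intro k
      simp only [AA_mulVec]
      simp only [mul_pow]
      rw [← Finset.mul_sum, Lz_norm (hz' k), Real.sq_sqrt (mul_pos hκ (hn k)).le]
      ring
    simp only [h1]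
    rw [← Finset.mul_sum]
    push_cast
    ring
  obtain ⟨hi, hv⟩ := lin_gauss (AA κ E z) hpos.ne'
  rw [hfun]
  refine ⟨hi, ?_⟩
  rw [hv, abs_of_pos hpos, hAA, hO', hD']
  have hcard : ((Fintype.card (Fin 8 × Fin dm) : ℝ) / 2) = ((4 * dm : ℕ) : ℝ) := by
    rw [Fintype.card_prod, Fintype.card_fin, Fintype.card_fin]
    push_cast
    ring
  rw [hcard, Real.rpow_natCast]
  have h1 : (∏ k, nz (z k)) ≠ 0 := (Finset.prod_pos fun k _ => hn k).ne'
  have h2 : (∏ k, |z k 8|) ≠ 0 := (Finset.prod_pos fun k _ => abs_pos.mpr (hz' k)).ne'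
  have h3 : κ ^ dm ≠ 0 := (pow_pos hκ dm).ne'
  field_simp

end Vale.Agent.P353.Z.AX
end

section

/-! # P353, all `N`, block B: fibre calculus (directional derivatives, integration by parts) -/

open MeasureTheory Filter Topology Matrix
open scoped ContDiff

namespace Vale.Agent.P353.Z.EnFib

variable {dm : ℕ} {F : Type*} [NormedAddCommGroup F] [InnerProductSpace ℂ F]

/-! ### analysis on the fibre -/

lemma int_fd0 {G : Type*} [NormedAddCommGroup G] [NormedSpace ℝ G] (w : Wsp dm → G)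
    (hw : ContDiff ℝ 1 w) (hc : HasCompactSupport w) (e : Wsp dm) :
    ∫ x, fderiv ℝ w x e = 0 := by
  have h := integral_smul_fderiv_eq_neg_fderiv_smul_of_integrable (μ := volume)
    (f := fun _ : Wsp dm => (1 : ℝ)) (g := w) (v := e) (𝕜 := ℝ) ?_ ?_ ?_ ?_ ?_
  · simpa using h
  · simp
  · simp only [one_smul]
    exact ((hw.continuous_fderiv (by simp)).clm_apply continuous_const).integrable_of_hasCompactSupport
      (hc.fderiv_apply (𝕜 := ℝ) e)
  · simp only [one_smul]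
    exact hw.continuous.integrable_of_hasCompactSupport hc
  · intro x _; exact differentiableAt_const _
  · intro x _; exact (hw.differentiable (by simp)) x

/-- directional derivative -/
noncomputable def dr (e : Wsp dm) (f : Wsp dm → F) (w : Wsp dm) : F := fderiv ℝ f w e

lemma FT.dr {f : Wsp dm → F} (hf : FT f) (e : Wsp dm) : FT (dr e f) := by
  constructor
  · exact (hf.1.fderiv_right (m := ∞) (by simp)).clm_apply contDiff_const
  · exact hf.2.fderiv_apply (𝕜 := ℝ) e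

lemma ft_diff {f : Wsp dm → F} (hf : FT f) (w : Wsp dm) : DifferentiableAt ℝ f w :=
  hf.1.differentiable (by simp) w

lemma ft_add {f g : Wsp dm → F} (hf : FT f) (hg : FT g) : FT (fun w => f w + g w) :=
  ⟨hf.1.add hg.1, hf.2.add hg.2⟩

lemma ft_zero : FT (fun _ : Wsp dm => (0 : F)) :=
  ⟨contDiff_const, HasCompactSupport.zero⟩

lemma ft_sum {ι : Type*} (s : Finset ι) {f : ι → Wsp dm → F} (hf : ∀ i ∈ s, FT (f i)) :
    FT (fun w => ∑ i ∈ s, f i w) := by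
  classical
  induction s using Finset.induction_on with
  | empty => simpa using (ft_zero (dm := dm) (F := F))
  | insert a s ha ih =>
    simp only [Finset.sum_insert ha]
    exact ft_add (hf a (Finset.mem_insert_self a s)) (ih fun i hi => hf i (Finset.mem_insert_of_mem hi))

lemma ft_clm {f : Wsp dm → F} (T : F →L[ℂ] F) (hf : FT f) : FT (fun w => T (f w)) := by
  constructor
  · exact (T.restrictScalars ℝ).contDiff.comp hf.1
  · exact hf.2.comp_left (g := fun v => T v) (map_zero T)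

lemma ft_smul {f : Wsp dm → F} (c : ℂ) (hf : FT f) : FT (fun w => c • f w) := by
  have := ft_clm (c • (1 : F →L[ℂ] F)) hf
  simpa using this

lemma ft_rsmul {f : Wsp dm → F} {L : Wsp dm → ℝ} (hL : ContDiff ℝ ∞ L) (hf : FT f) :
    FT (fun w => ((L w : ℝ) : ℂ) • f w) := by
  constructor
  · exact (Complex.ofRealCLM.contDiff.comp hL).smul hf.1
  · exact hf.2.smul_left (f := fun w => ((L w : ℝ) : ℂ))

lemma ft_inner_int {f g : Wsp dm → F} (hf : FT f) (hg : Continuous g) :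
    Integrable (fun w => inner ℂ (f w) (g w)) := by
  refine (hf.1.continuous.inner hg).integrable_of_hasCompactSupport ?_
  refine hf.2.mono ?_
  intro x hx
  simp only [Function.mem_support] at hx ⊢
  intro h0
  exact hx (by rw [h0, inner_zero_left])

lemma ft_inner_int' {f g : Wsp dm → F} (hf : FT f) (hg : Continuous g) :
    Integrable (fun w => inner ℂ (g w) (f w)) := by
  refine (hg.inner hf.1.continuous).integrable_of_hasCompactSupport ?_
  refine hf.2.mono ?_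
  intro x hx
  simp only [Function.mem_support] at hx ⊢
  intro h0
  exact hx (by rw [h0, inner_zero_right])

lemma ft_mul_int {f : Wsp dm → F} {L : Wsp dm → ℝ} (hL : Continuous L) (hf : FT f) :
    Integrable (fun w => L w * ‖f w‖ ^ 2) := by
  refine (hL.mul (hf.1.continuous.norm.pow 2)).integrable_of_hasCompactSupport ?_
  refine hf.2.mono ?_
  intro x hx
  simp only [Function.mem_support] at hx ⊢
  intro h0
  exact hx (by simp [h0])

lemma ft_sq_int {f : Wsp dm → F} (hf : FT f) : Integrable (fun w => ‖f w‖ ^ 2) := by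
  simpa using ft_mul_int (L := fun _ => 1) continuous_const hf

lemma nsf_ofReal {f : Wsp dm → F} : ((nsf f : ℝ) : ℂ) = ∫ w, inner ℂ (f w) (f w) := by
  rw [nsf, ← integral_complex_ofReal]
  congr 1
  ext x
  rw [inner_self_eq_norm_sq_to_K]
  norm_cast

/-- integration by parts -/
lemma ibp {f g : Wsp dm → F} (hf : FT f) (hg : ContDiff ℝ 1 g) (e : Wsp dm) :
    ∫ w, inner ℂ (dr e f w) (g w) = -∫ w, inner ℂ (f w) (dr e g w) := by
  have hf1 : ContDiff ℝ 1 f := hf.1.of_le (by simp)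
  have hw : ContDiff ℝ 1 (fun x => inner ℂ (f x) (g x)) := hf1.inner ℂ hg
  have hcw : HasCompactSupport (fun x => inner ℂ (f x) (g x)) := by
    refine hf.2.mono ?_
    intro x hx
    simp only [Function.mem_support] at hx ⊢
    intro h0
    exact hx (by rw [h0, inner_zero_left])
  have h := int_fd0 _ hw hcw e
  have hd : ∀ x, fderiv ℝ (fun x => inner ℂ (f x) (g x)) x e =
      inner ℂ (f x) (dr e g x) + inner ℂ (dr e f x) (g x) := by
    intro x
    rw [fderiv_inner_apply ℂ ((hf1.differentiable (by simp)) x) ((hg.differentiable (by simp)) x)]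
    rfl
  simp only [hd] at h
  have i1 : Integrable (fun x => inner ℂ (f x) (dr e g x)) :=
    ft_inner_int hf ((hg.continuous_fderiv (by simp)).clm_apply continuous_const)
  have i2 : Integrable (fun x => inner ℂ (dr e f x) (g x)) := ft_inner_int (FT.dr hf e) hg.continuous
  rw [integral_add i1 i2] at h
  linear_combination h

/-- completing the square -/
lemma nsf_sq {f : Wsp dm → F} (hf : FT f) {L : Wsp dm → ℝ} (hL : ContDiff ℝ ∞ L) (e : Wsp dm) (c : ℝ)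
    (hc : ∀ w, fderiv ℝ L w e = c) :
    nsf (fun w => dr e f w + ((L w : ℝ) : ℂ) • f w) =
      nsf (dr e f) + (∫ w, L w ^ 2 * ‖f w‖ ^ 2) - c * nsf f := by
  have hLf : FT (fun w => ((L w : ℝ) : ℂ) • f w) := ft_rsmul hL hf
  have h0 := ibp hf (hLf.1.of_le (by simp)) e
  have hd : ∀ w, dr e (fun w => ((L w : ℝ) : ℂ) • f w) w =
      ((L w : ℝ) : ℂ) • dr e f w + (c : ℂ) • f w := by
    intro w
    have hdL : DifferentiableAt ℝ L w := hL.differentiable (by simp) w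
    have hdv := ft_diff hf w
    have h1 : DifferentiableAt ℝ (fun w => ((L w : ℝ) : ℂ)) w :=
      (Complex.ofRealCLM.differentiableAt).comp w hdL
    have h2 : fderiv ℝ (fun w => ((L w : ℝ) : ℂ)) w e = ((c : ℝ) : ℂ) := by
      have := (Complex.ofRealCLM.hasFDerivAt (x := L w)).comp w hdL.hasFDerivAt
      have h3 : fderiv ℝ (fun w => ((L w : ℝ) : ℂ)) w = Complex.ofRealCLM.comp (fderiv ℝ L w) :=
        this.fderiv
      rw [h3]
      simp [hc]
    unfold dr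
    rw [fderiv_fun_smul h1 hdv]
    simp only [_root_.add_apply, _root_.smul_apply, ContinuousLinearMap.smulRight_apply, h2]
  simp only [hd] at h0
  have j1 : Integrable (fun w => inner ℂ (f w) (((L w : ℝ) : ℂ) • dr e f w)) :=
    ft_inner_int hf ((Complex.continuous_ofReal.comp hL.continuous).smul (FT.dr hf e).1.continuous)
  have j3 : Integrable (fun w => (c : ℂ) * inner ℂ (f w) (f w)) :=
    (ft_inner_int hf hf.1.continuous).const_mul _
  have j2 : Integrable (fun w => inner ℂ (dr e f w) (((L w : ℝ) : ℂ) • f w)) :=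
    ft_inner_int (FT.dr hf e) ((Complex.continuous_ofReal.comp hL.continuous).smul hf.1.continuous)
  simp only [inner_add_right] at h0
  have h0' : ∫ w, inner ℂ (dr e f w) (((L w : ℝ) : ℂ) • f w) =
      -((∫ w, inner ℂ (f w) (((L w : ℝ) : ℂ) • dr e f w)) + (c : ℂ) * ((nsf f : ℝ) : ℂ)) := by
    rw [h0, integral_add j1 (by simpa only [inner_smul_right] using j3)]
    simp only [inner_smul_right (f _) (f _)]
    rw [integral_const_mul, nsf_ofReal]
  have hre := congrArg Complex.re h0'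
  rw [Complex.neg_re, Complex.add_re, ← Complex.ofReal_mul, Complex.ofReal_re] at hre
  have e1 : (∫ w, inner ℂ (f w) (((L w : ℝ) : ℂ) • dr e f w)).re =
      (∫ w, inner ℂ (dr e f w) (((L w : ℝ) : ℂ) • f w)).re := by
    have a1 := integral_re j1
    have a2 := integral_re j2
    change ∫ w, (inner ℂ (f w) (((L w : ℝ) : ℂ) • dr e f w)).re = _ at a1
    change ∫ w, (inner ℂ (dr e f w) (((L w : ℝ) : ℂ) • f w)).re = _ at a2
    refine (a1.symm.trans ?_).trans a2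
    refine integral_congr_ae (Filter.Eventually.of_forall fun w => ?_)
    change (inner ℂ (f w) (((L w : ℝ) : ℂ) • dr e f w)).re = (inner ℂ (dr e f w) (((L w : ℝ) : ℂ) • f w)).re
    rw [inner_smul_right, inner_smul_right, Complex.re_ofReal_mul, Complex.re_ofReal_mul]
    congr 1
    exact inner_re_symm (𝕜 := ℂ) (f w) (dr e f w)
  rw [e1] at hre
  have hpt : ∀ w, ‖dr e f w + ((L w : ℝ) : ℂ) • f w‖ ^ 2 = ‖dr e f w‖ ^ 2 +
      L w ^ 2 * ‖f w‖ ^ 2 + 2 * (inner ℂ (dr e f w) (((L w : ℝ) : ℂ) • f w)).re := by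
    intro w
    have h := norm_add_sq (𝕜 := ℂ) (dr e f w) (((L w : ℝ) : ℂ) • f w)
    rw [h, norm_smul, mul_pow]
    have hn : ‖((L w : ℝ) : ℂ)‖ ^ 2 = L w ^ 2 := by
      rw [Complex.norm_real, Real.norm_eq_abs, sq_abs]
    rw [hn]
    change ‖dr e f w‖ ^ 2 + 2 * (inner ℂ (dr e f w) (((L w : ℝ) : ℂ) • f w)).re +
      L w ^ 2 * ‖f w‖ ^ 2 = _
    ring
  have k1 : Integrable (fun w => ‖dr e f w‖ ^ 2) := ft_sq_int (FT.dr hf e)
  have k2 : Integrable (fun w => L w ^ 2 * ‖f w‖ ^ 2) := ft_mul_int (hL.continuous.pow 2) hf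
  have k3 : Integrable (fun w => 2 * (inner ℂ (dr e f w) (((L w : ℝ) : ℂ) • f w)).re) :=
    (j2.re).const_mul 2
  have k12 : Integrable (fun w => ‖dr e f w‖ ^ 2 + L w ^ 2 * ‖f w‖ ^ 2) := k1.add k2
  have e2 : ∫ w, 2 * (inner ℂ (dr e f w) (((L w : ℝ) : ℂ) • f w)).re =
      2 * (∫ w, inner ℂ (dr e f w) (((L w : ℝ) : ℂ) • f w)).re := by
    rw [integral_const_mul]
    congr 1
    exact integral_re j2
  rw [nsf]
  simp only [hpt]
  rw [integral_add k12 k3, integral_add k1 k2, e2]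
  change nsf (dr e f) + _ + _ = _
  linarith

end Vale.Agent.P353.Z.EnFib
end

section

/-! # P353, all `N`, block B: matrix algebra of the fibre oscillator -/

open MeasureTheory Filter Topology Matrix
open scoped ContDiff

namespace Vale.Agent.P353.Z.EnFib

variable {dm : ℕ}

lemma adj_anti {A : Matrix (Fin dm) (Fin dm) ℝ} (hA : Aᵀ = -A) (u v : Fin dm → ℝ) :
    (A *ᵥ u) ⬝ᵥ v = -(u ⬝ᵥ (A *ᵥ v)) := by
  rw [Matrix.dotProduct_mulVec, ← Matrix.mulVec_transpose, hA, Matrix.neg_mulVec, neg_dotProduct, neg_neg]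

lemma adj_symm {A : Matrix (Fin dm) (Fin dm) ℝ} (hA : Aᵀ = A) (u v : Fin dm → ℝ) :
    (A *ᵥ u) ⬝ᵥ v = u ⬝ᵥ (A *ᵥ v) := by
  rw [Matrix.dotProduct_mulVec, ← Matrix.mulVec_transpose, hA]

lemma pot {κ : ℝ} {D : Fin 9 → Matrix (Fin dm) (Fin dm) ℝ} {Om : Matrix (Fin dm) (Fin dm) ℝ}
    (hF : Frz D) (hO : IsOm κ D Om) (V : Fin 9 → Fin dm → ℝ) (h0 : ∑ i, D i *ᵥ V i = 0) :
    ∑ A, ∑ i, ∑ j, (κ * ((D i *ᵥ V j) A - (D j *ᵥ V i) A)) ^ 2 = 2 * ∑ i, ∑ B, ((Om *ᵥ V i) B) ^ 2 := by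
  have e1 : ∑ A, ∑ i, ∑ j, (κ * ((D i *ᵥ V j) A - (D j *ᵥ V i) A)) ^ 2 =
      ∑ i, ∑ j, κ ^ 2 * ((D i *ᵥ V j) ⬝ᵥ (D i *ᵥ V j) + (D j *ᵥ V i) ⬝ᵥ (D j *ᵥ V i) -
        2 * ((D i *ᵥ V j) ⬝ᵥ (D j *ᵥ V i))) := by
    rw [Finset.sum_comm]
    refine Finset.sum_congr rfl fun i _ => ?_
    rw [Finset.sum_comm]
    refine Finset.sum_congr rfl fun j _ => ?_
    simp only [dotProduct, Finset.mul_sum, ← Finset.sum_add_distrib, ← Finset.sum_sub_distrib]
    exact Finset.sum_congr rfl fun A _ => by ring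
  have e2 : ∀ j, κ ^ 2 * ∑ i, (D i *ᵥ V j) ⬝ᵥ (D i *ᵥ V j) = ∑ B, ((Om *ᵥ V j) B) ^ 2 := by
    intro j
    have h1 : ∀ i, (D i *ᵥ V j) ⬝ᵥ (D i *ᵥ V j) = -(V j ⬝ᵥ ((D i * D i) *ᵥ V j)) := by
      intro i
      rw [adj_anti (hF.anti i), Matrix.mulVec_mulVec]
    have h2 : ∑ B, ((Om *ᵥ V j) B) ^ 2 = V j ⬝ᵥ ((Om * Om) *ᵥ V j) := by
      rw [← Matrix.mulVec_mulVec, ← adj_symm hO.symm]
      simp only [dotProduct]
      exact Finset.sum_congr rfl fun B _ => by ring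
    rw [h2, hO.sq, Matrix.neg_mulVec, dotProduct_neg, Matrix.smul_mulVec, dotProduct_smul, smul_eq_mul,
      Matrix.sum_mulVec, dotProduct_sum]
    rw [Finset.sum_congr rfl fun i _ => h1 i, Finset.sum_neg_distrib, mul_neg]
  have e3 : ∑ i, ∑ j, (D i *ᵥ V j) ⬝ᵥ (D j *ᵥ V i) = 0 := by
    have h1 : ∀ i j, (D i *ᵥ V j) ⬝ᵥ (D j *ᵥ V i) = (D j *ᵥ V j) ⬝ᵥ (D i *ᵥ V i) := by
      intro i j
      rw [adj_anti (hF.anti i), adj_anti (hF.anti j), Matrix.mulVec_mulVec, Matrix.mulVec_mulVec, hF.comm]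
    rw [Finset.sum_congr rfl fun i _ => Finset.sum_congr rfl fun j _ => h1 i j]
    have h2 : ∑ i, ∑ j, (D j *ᵥ V j) ⬝ᵥ (D i *ᵥ V i) = (∑ j, D j *ᵥ V j) ⬝ᵥ (∑ i, D i *ᵥ V i) := by
      rw [dotProduct_sum]
      exact Finset.sum_congr rfl fun i _ => by rw [sum_dotProduct]
    rw [h2, h0, dotProduct_zero]
  rw [e1]
  have e4 : ∑ i, ∑ j, κ ^ 2 * ((D i *ᵥ V j) ⬝ᵥ (D i *ᵥ V j) + (D j *ᵥ V i) ⬝ᵥ (D j *ᵥ V i) -
        2 * ((D i *ᵥ V j) ⬝ᵥ (D j *ᵥ V i))) =
      (∑ i, ∑ j, κ ^ 2 * ((D i *ᵥ V j) ⬝ᵥ (D i *ᵥ V j))) + (∑ i, ∑ j, κ ^ 2 * ((D j *ᵥ V i) ⬝ᵥ (D j *ᵥ V i))) -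
        2 * κ ^ 2 * ∑ i, ∑ j, (D i *ᵥ V j) ⬝ᵥ (D j *ᵥ V i) := by
    simp only [Finset.mul_sum, ← Finset.sum_add_distrib, ← Finset.sum_sub_distrib]
    exact Finset.sum_congr rfl fun i _ => Finset.sum_congr rfl fun j _ => by ring
  rw [e4, e3, mul_zero, sub_zero, Finset.sum_comm]
  simp only [← Finset.mul_sum, e2]
  ring

/-- direction vectors of the derivatives `dd` -/
noncomputable def dv (D : Fin 9 → Matrix (Fin dm) (Fin dm) ℝ) (i : Fin 9) (B : Fin dm) : Wsp dm :=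
  Fin.lastCases (motive := fun _ => Wsp dm)
    (-∑ j : Fin 8, ∑ E, (∑ C, (D 8)⁻¹ B C * D j.castSucc C E) • EuclideanSpace.single (j, E) (1 : ℝ))
    (fun j => EuclideanSpace.single (j, B) (1 : ℝ)) i

lemma dv_castSucc (D : Fin 9 → Matrix (Fin dm) (Fin dm) ℝ) (j : Fin 8) (B : Fin dm) :
    dv D j.castSucc B = EuclideanSpace.single (j, B) (1 : ℝ) := by
  simp [dv]

lemma dv_last (D : Fin 9 → Matrix (Fin dm) (Fin dm) ℝ) (B : Fin dm) :
    dv D (Fin.last 8) B = -∑ j : Fin 8, ∑ E, (∑ C, (D 8)⁻¹ B C * D j.castSucc C E) •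
      EuclideanSpace.single (j, E) (1 : ℝ) := by
  rw [dv, Fin.lastCases_last]

lemma wt_castSucc (w : Wsp dm) (j : Fin 8) (B : Fin dm) : wt w j.castSucc B = w (j, B) := by
  simp [wt]

lemma wt_last (w : Wsp dm) : wt w (Fin.last 8) = 0 := by
  funext B
  rw [wt, Fin.lastCases_last]
  rfl

lemma dv_last_apply (D : Fin 9 → Matrix (Fin dm) (Fin dm) ℝ) (B : Fin dm) (j : Fin 8) (E : Fin dm) :
    dv D (Fin.last 8) B (j, E) = -(tI D j.castSucc) B E := by
  rw [dv_last]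
  simp only [PiLp.neg_apply, WithLp.ofLp_sum, WithLp.ofLp_smul, Finset.sum_apply, Pi.smul_apply, PiLp.single_apply,
    smul_eq_mul, Prod.mk.injEq, neg_inj]
  rw [Finset.sum_eq_single j, Finset.sum_eq_single E]
  · simp [tI, Matrix.mul_apply]
  · intro C _ hC
    simp [Ne.symm hC]
  · intro h; exact absurd (Finset.mem_univ _) h
  · intro i _ hi
    refine Finset.sum_eq_zero fun C _ => ?_
    simp [Ne.symm hi]
  · intro h; exact absurd (Finset.mem_univ _) h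

lemma tr8 {κ : ℝ} {D : Fin 9 → Matrix (Fin dm) (Fin dm) ℝ} {Om : Matrix (Fin dm) (Fin dm) ℝ}
    (hA : AlgStmt) (hk : 0 < κ) (hF : Frz D) (hO : IsOm κ D Om) :
    ∑ i, ∑ B, (Om *ᵥ VV D (dv D i B) i) B = 8 * Om.trace := by
  obtain ⟨a1, a2, a3, -, -, a6, -⟩ := hA dm κ D Om hk hF hO
  have a3' : tI D (Fin.last 8) = 1 := a3
  have hs : ∀ i, (∑ C, (tI D i * (t2 D)⁻¹ * tI D i) C C) = (tI D i * (t2 D)⁻¹ * tI D i).trace := fun i => rfl
  -- the value of `VV`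
  have hv : ∀ i B, VV D (dv D i B) i = (1 - tI D i * (t2 D)⁻¹ * tI D i) *ᵥ Pi.single B 1 := by
    intro i B
    refine Fin.lastCases ?_ (fun j => ?_) i
    · have h1 : ∀ j : Fin 8, wt (dv D (Fin.last 8) B) j.castSucc = -(tI D j.castSucc *ᵥ Pi.single B 1) := by
        intro j
        funext E
        rw [wt_castSucc, dv_last_apply, Pi.neg_apply, Matrix.mulVec_single_one]
        change _ = -(tI D j.castSucc E B)
        have := congrFun (congrFun (a1 j.castSucc) E) B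
        rw [← this, Matrix.transpose_apply]
      have h2 : ∑ k, tI D k *ᵥ wt (dv D (Fin.last 8) B) k = -((t2 D - 1) *ᵥ Pi.single B 1) := by
        have h3 : t2 D = (∑ j : Fin 8, tI D j.castSucc * tI D j.castSucc) + 1 := by
          rw [t2, Fin.sum_univ_castSucc, a3', Matrix.mul_one]
        rw [Fin.sum_univ_castSucc, wt_last, Matrix.mulVec_zero, add_zero, h3, add_sub_cancel_right,
          Matrix.sum_mulVec, ← Finset.sum_neg_distrib]
        refine Finset.sum_congr rfl fun j _ => ?_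
        rw [h1, Matrix.mulVec_neg, Matrix.mulVec_mulVec]
      rw [VV, sV, h2, wt_last, a3', Matrix.one_mul, Matrix.mul_one, Matrix.one_mulVec, Matrix.mulVec_neg,
        Matrix.mulVec_mulVec, Matrix.mul_sub, Matrix.nonsing_inv_mul _ (isUnit_iff_ne_zero.2 a6), Matrix.mul_one,
        zero_sub, neg_neg]
    · have h1 : ∀ k, wt (dv D j.castSucc B) k = if k = j.castSucc then Pi.single B 1 else 0 := by
        intro k
        refine Fin.lastCases ?_ (fun l => ?_) k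
        · rw [wt_last, if_neg (Fin.castSucc_ne_last j).symm]
        · funext E
          rw [wt_castSucc, dv_castSucc, PiLp.single_apply]
          by_cases hl : l = j
          · subst hl
            simp [Pi.single_apply]
          · have hl' : l.castSucc ≠ j.castSucc := fun h => hl (Fin.castSucc_injective _ h)
            simp [hl, hl']
      have h2 : ∑ k, tI D k *ᵥ wt (dv D j.castSucc B) k = tI D j.castSucc *ᵥ Pi.single B 1 := by
        rw [Finset.sum_eq_single j.castSucc]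
        · rw [h1, if_pos rfl]
        · intro k _ hk
          rw [h1, if_neg hk, Matrix.mulVec_zero]
        · intro h; exact absurd (Finset.mem_univ _) h
      rw [VV, sV, h2, h1, if_pos rfl, Matrix.sub_mulVec, Matrix.one_mulVec, Matrix.mulVec_mulVec,
        Matrix.mulVec_mulVec, Matrix.mul_assoc]
  have hc : ∀ i B, (Om *ᵥ VV D (dv D i B) i) B = (Om * (1 - tI D i * (t2 D)⁻¹ * tI D i)) B B := by
    intro i B
    rw [hv, Matrix.mulVec_mulVec, Matrix.mulVec_single_one]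
    rfl
  have ht : ∀ i, tI D i * (t2 D)⁻¹ = (t2 D)⁻¹ * tI D i := by
    intro i
    have h1 : tI D i * t2 D = t2 D * tI D i := by
      rw [t2, Finset.mul_sum, Finset.sum_mul]
      refine Finset.sum_congr rfl fun k _ => ?_
      rw [← Matrix.mul_assoc, a2 i k, Matrix.mul_assoc, a2 i k, Matrix.mul_assoc]
    have hu := isUnit_iff_ne_zero.2 a6
    calc tI D i * (t2 D)⁻¹ = (t2 D)⁻¹ * t2 D * (tI D i * (t2 D)⁻¹) := by
          rw [Matrix.nonsing_inv_mul _ hu, Matrix.one_mul]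
      _ = (t2 D)⁻¹ * (t2 D * tI D i) * (t2 D)⁻¹ := by simp only [Matrix.mul_assoc]
      _ = (t2 D)⁻¹ * (tI D i * t2 D) * (t2 D)⁻¹ := by rw [h1]
      _ = (t2 D)⁻¹ * tI D i * (t2 D * (t2 D)⁻¹) := by simp only [Matrix.mul_assoc]
      _ = _ := by rw [Matrix.mul_nonsing_inv _ hu, Matrix.mul_one]
  simp only [hc]
  have hsum : ∑ i, (Om * (1 - tI D i * (t2 D)⁻¹ * tI D i)) = (8 : ℝ) • Om := by
    have h1 : ∑ i, tI D i * (t2 D)⁻¹ * tI D i = 1 := by
      have : ∀ i, tI D i * (t2 D)⁻¹ * tI D i = (t2 D)⁻¹ * (tI D i * tI D i) := by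
        intro i
        rw [ht, Matrix.mul_assoc]
      simp only [this]
      rw [← Finset.mul_sum]
      exact Matrix.nonsing_inv_mul _ (isUnit_iff_ne_zero.2 a6)
    simp only [Matrix.mul_sub, Matrix.mul_one, Finset.sum_sub_distrib]
    rw [← Finset.mul_sum, h1, Matrix.mul_one, Finset.sum_const, Finset.card_univ, Fintype.card_fin,
      ← Nat.cast_smul_eq_nsmul ℝ]
    rw [show ((9 : ℕ) : ℝ) • Om - Om = ((9 : ℕ) : ℝ) • Om - (1 : ℝ) • Om by rw [one_smul], ← sub_smul]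
    norm_num
  have h2 := congrArg Matrix.trace hsum
  rw [Matrix.trace_sum, Matrix.trace_smul, smul_eq_mul] at h2
  exact h2

lemma shift {κ : ℝ} {D : Fin 9 → Matrix (Fin dm) (Fin dm) ℝ} {Om : Matrix (Fin dm) (Fin dm) ℝ}
    (hA : AlgStmt) (hk : 0 < κ) (hF : Frz D) (hO : IsOm κ D Om) (x : Fin 9 → Fin dm → ℝ) (μ : Fin dm → ℝ)
    (i j : Fin 9) : D i *ᵥ (x j - tI D j *ᵥ μ) - D j *ᵥ (x i - tI D i *ᵥ μ) = D i *ᵥ x j - D j *ᵥ x i := by
  obtain ⟨-, a2, -, -, -, -, a7, -⟩ := hA dm κ D Om hk hF hO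
  have h : D i * tI D j = D j * tI D i := by
    rw [a7 i, a7 j, Matrix.mul_assoc, Matrix.mul_assoc, a2 i j]
  rw [Matrix.mulVec_sub, Matrix.mulVec_sub, Matrix.mulVec_mulVec, Matrix.mulVec_mulVec, h]
  abel

end Vale.Agent.P353.Z.EnFib
end

section

/-! # P353, all `N`, block B: the fibre supercharge as a supercharge with linear multiplier -/

open MeasureTheory Filter Topology Matrix
open scoped ContDiff

namespace Vale.Agent.P353.Z.EnFib

variable {d dh dm : ℕ} {F : Type*} [NormedAddCommGroup F] [InnerProductSpace ℂ F]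

/-- the fermions of the complement as a setup -/
noncomputable def sm (S : Setup d F) (φ : Spl dh dm d) : Setup dm F where
  g := S.g
  g_symm := S.g_symm
  g_anti := S.g_anti
  th := fun α A => S.th α (φ (Sum.inr A))
  th_anti := by
    intro α A β B
    rw [S.th_anti]
    simp only [EmbeddingLike.apply_eq_iff_eq, Sum.inr.injEq]
  κ := S.κ
  κ_pos := S.κ_pos
  f := fun _ _ _ => 0
  f_swap := fun _ _ _ => by simp
  f_cyc := fun _ _ _ => rfl
  f_jac := fun _ _ _ _ => by simp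
  g_real := S.g_real
  th_sa := fun α A v w => S.th_sa α _ v w

/-- coefficient matrices of the multiplier -/
noncomputable def Nc (S : Setup d F) (D : Fin 9 → Matrix (Fin dm) (Fin dm) ℝ) (j : Fin 9) (C A : Fin dm) :
    Matrix (Fin 16) (Fin 16) ℂ := ∑ i, ((S.κ * D i A C : ℝ) : ℂ) • S.g2 i j

/-- `κ (D_i x_j - D_j x_i)^A` -/
noncomputable def LL (κ : ℝ) (D : Fin 9 → Matrix (Fin dm) (Fin dm) ℝ) (x : Fin 9 → Fin dm → ℝ) (A : Fin dm)
    (i j : Fin 9) : ℝ := κ * ((D i *ᵥ x j) A - (D j *ᵥ x i) A)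

lemma LL_swap (κ : ℝ) (D : Fin 9 → Matrix (Fin dm) (Fin dm) ℝ) (x : Fin 9 → Fin dm → ℝ) (A : Fin dm)
    (i j : Fin 9) : LL κ D x A i j = -LL κ D x A j i := by
  unfold LL; ring

/-- coordinates -/
def xv (x : Cfg dm) (i : Fin 9) (B : Fin dm) : ℝ := x (i, B)

/-- the matrix in front of `θ^A` -/
noncomputable def MA (S : Setup d F) (D : Fin 9 → Matrix (Fin dm) (Fin dm) ℝ) (x : Fin 9 → Fin dm → ℝ) (A : Fin dm) :
    Matrix (Fin 16) (Fin 16) ℂ :=
  (1 / 2 : ℂ) • ∑ i, ∑ j, ((LL S.κ D x A i j : ℝ) : ℂ) • S.g2 i j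

lemma NX_eq (S : Setup d F) (D : Fin 9 → Matrix (Fin dm) (Fin dm) ℝ) (x : Cfg dm) (A : Fin dm) :
    U.En.NX (Nc S D) x A = MA S D (xv x) A := by
  have h1 : U.En.NX (Nc S D) x A = ∑ i, ∑ j, ((S.κ * (D i *ᵥ xv x j) A : ℝ) : ℂ) • S.g2 i j := by
    unfold U.En.NX Nc
    rw [Finset.sum_comm (s := Finset.univ) (t := Finset.univ) (f := fun i j => ((S.κ * (D i *ᵥ xv x j) A : ℝ) : ℂ) • S.g2 i j)]
    refine Finset.sum_congr rfl fun j _ => ?_
    simp only [Finset.smul_sum]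
    rw [Finset.sum_comm]
    refine Finset.sum_congr rfl fun i _ => ?_
    simp only [smul_smul]
    rw [← Finset.sum_smul]
    congr 1
    rw [Matrix.mulVec, dotProduct, Finset.mul_sum, Complex.ofReal_sum]
    refine Finset.sum_congr rfl fun C _ => ?_
    rw [← Complex.ofReal_mul]
    congr 1
    unfold xv
    ring
  have h2 : ∑ i, ∑ j, ((S.κ * (D i *ᵥ xv x j) A : ℝ) : ℂ) • S.g2 i j =
      -∑ i, ∑ j, ((S.κ * (D j *ᵥ xv x i) A : ℝ) : ℂ) • S.g2 i j := by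
    rw [Finset.sum_comm, ← Finset.sum_neg_distrib]
    refine Finset.sum_congr rfl fun i _ => ?_
    rw [← Finset.sum_neg_distrib]
    refine Finset.sum_congr rfl fun j _ => ?_
    rw [S.g2_swap i j, smul_neg, neg_neg]
  have h3 : ∑ i, ∑ j, ((LL S.κ D (xv x) A i j : ℝ) : ℂ) • S.g2 i j =
      (∑ i, ∑ j, ((S.κ * (D i *ᵥ xv x j) A : ℝ) : ℂ) • S.g2 i j) -
        ∑ i, ∑ j, ((S.κ * (D j *ᵥ xv x i) A : ℝ) : ℂ) • S.g2 i j := by
    simp only [← Finset.sum_sub_distrib, ← sub_smul]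
    refine Finset.sum_congr rfl fun i _ => Finset.sum_congr rfl fun j _ => ?_
    congr 1
    rw [← Complex.ofReal_sub]
    congr 1
    unfold LL
    ring
  rw [h1, MA, h3]
  nth_rewrite 2 [h2]
  rw [show (-∑ i, ∑ j, ((S.κ * (D j *ᵥ xv x i) A : ℝ) : ℂ) • S.g2 i j) -
    ∑ i, ∑ j, ((S.κ * (D j *ᵥ xv x i) A : ℝ) : ℂ) • S.g2 i j =
      (-2 : ℂ) • ∑ i, ∑ j, ((S.κ * (D j *ᵥ xv x i) A : ℝ) : ℂ) • S.g2 i j by module, smul_smul, h2]
  rw [show (1 / 2 : ℂ) * -2 = -1 by norm_num, neg_one_smul]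

/-- embedding of the fibre -/
noncomputable def ex (w : Wsp dm) : Cfg dm := WithLp.toLp 2 fun p => wt w p.1 p.2

lemma xv_ex (w : Wsp dm) : xv (ex w) = wt w := rfl

/-- `x_i ↦ x_i - T_i x_8` -/
noncomputable def wl (D : Fin 9 → Matrix (Fin dm) (Fin dm) ℝ) : Cfg dm →L[ℝ] Wsp dm :=
  LinearMap.toContinuousLinearMap
    { toFun := fun x => WithLp.toLp 2 fun p =>
        x (p.1.castSucc, p.2) - ∑ E, tI D p.1.castSucc p.2 E * x (Fin.last 8, E)
      map_add' := by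
        intro x y
        ext p
        simp only [PiLp.add_apply, mul_add, Finset.sum_add_distrib]
        ring
      map_smul' := by
        intro c x
        ext p
        simp only [PiLp.smul_apply, smul_eq_mul, RingHom.id_apply, mul_sub, Finset.mul_sum]
        congr 1
        exact Finset.sum_congr rfl fun E _ => by ring }

lemma wl_apply (D : Fin 9 → Matrix (Fin dm) (Fin dm) ℝ) (x : Cfg dm) (j : Fin 8) (B : Fin dm) :
    wl D x (j, B) = xv x j.castSucc B - (tI D j.castSucc *ᵥ xv x (Fin.last 8)) B := rfl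

lemma wt_wl {D : Fin 9 → Matrix (Fin dm) (Fin dm) ℝ} (h8 : tI D 8 = 1) (x : Cfg dm) (i : Fin 9) :
    wt (wl D x) i = xv x i - tI D i *ᵥ xv x 8 := by
  refine Fin.lastCases ?_ (fun j => ?_) i
  · rw [wt_last, show (Fin.last 8) = (8 : Fin 9) from rfl, h8, Matrix.one_mulVec, sub_self]
  · funext B
    rw [wt_castSucc, wl_apply]
    rfl

lemma wl_ex (D : Fin 9 → Matrix (Fin dm) (Fin dm) ℝ) (w : Wsp dm) : wl D (ex w) = w := by
  ext p
  obtain ⟨j, B⟩ := p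
  rw [wl_apply, xv_ex, wt_castSucc, wt_last, Matrix.mulVec_zero]
  simp

lemma wl_single {D : Fin 9 → Matrix (Fin dm) (Fin dm) ℝ} (hT : ∀ i, (tI D i)ᵀ = tI D i) (i : Fin 9) (B : Fin dm) :
    wl D (EuclideanSpace.single (i, B) (1 : ℝ)) = dv D i B := by
  refine Fin.lastCases ?_ (fun j => ?_) i
  · ext p
    obtain ⟨l, E⟩ := p
    rw [wl_apply, dv_last_apply]
    have h1 : xv (EuclideanSpace.single (Fin.last 8, B) (1 : ℝ)) l.castSucc E = 0 := by
      rw [xv, PiLp.single_apply, if_neg]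
      intro h
      exact Fin.castSucc_ne_last l (congrArg Prod.fst h)
    have h2 : xv (EuclideanSpace.single (Fin.last 8, B) (1 : ℝ)) (Fin.last 8) = Pi.single B 1 := by
      funext E
      rw [xv, PiLp.single_apply, Pi.single_apply]
      simp
    rw [h1, h2, Matrix.mulVec_single_one, zero_sub]
    change -(tI D l.castSucc E B) = _
    rw [← congrFun (congrFun (hT l.castSucc) E) B, Matrix.transpose_apply]
  · ext p
    obtain ⟨l, E⟩ := p
    rw [wl_apply, dv_castSucc]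
    have h2 : xv (EuclideanSpace.single (j.castSucc, B) (1 : ℝ)) (Fin.last 8) = 0 := by
      funext E
      rw [xv, PiLp.single_apply, if_neg, Pi.zero_apply]
      intro h
      exact Fin.castSucc_ne_last j (congrArg Prod.fst h).symm
    rw [h2, Matrix.mulVec_zero, Pi.zero_apply, sub_zero, xv, PiLp.single_apply, PiLp.single_apply]
    by_cases h : l = j
    · subst h
      simp
    · have h' : l.castSucc ≠ j.castSucc := fun hh => h (Fin.castSucc_injective _ hh)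
      simp [h, h']

lemma dd_eq (D : Fin 9 → Matrix (Fin dm) (Fin dm) ℝ) (i : Fin 9) (B : Fin dm) (f : Wsp dm → F) (w : Wsp dm) :
    dd D i B f w = dr (dv D i B) f w := by
  refine Fin.lastCases ?_ (fun j => ?_) i
  · rw [dd, Fin.lastCases_last, dr, dv_last, map_neg, map_sum]
    congr 1
    simp only [map_sum, map_smul, Finset.sum_smul, Finset.smul_sum]
    rw [Finset.sum_comm]
    refine Finset.sum_congr rfl fun j _ => ?_
    rw [Finset.sum_comm]
    refine Finset.sum_congr rfl fun E _ => Finset.sum_congr rfl fun C _ => ?_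
    rw [smul_smul, ← Complex.ofReal_mul, Complex.coe_smul]
    rfl
  · rw [dd, Fin.lastCases_castSucc, dr, dv_castSucc, pf]

lemma FT.dd {f : Wsp dm → F} (hf : FT f) (D : Fin 9 → Matrix (Fin dm) (Fin dm) ℝ) (i : Fin 9) (B : Fin dm) :
    FT (Z.dd D i B f) := by
  have : Z.dd D i B f = EnFib.dr (dv D i B) f := funext fun w => dd_eq D i B f w
  rw [this]
  exact FT.dr hf _

lemma pd_comp {D : Fin 9 → Matrix (Fin dm) (Fin dm) ℝ} (hT : ∀ i, (tI D i)ᵀ = tI D i) {f : Wsp dm → F}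
    (hf : FT f) (i : Fin 9) (B : Fin dm) :
    pd i B (fun x => f (wl D x)) = fun x => dd D i B f (wl D x) := by
  funext x
  rw [pd, dd_eq, dr, ← wl_single hT]
  have h := (ft_diff hf (wl D x)).hasFDerivAt.comp x (wl D).hasFDerivAt
  have h' : fderiv ℝ (fun x => f (wl D x)) x = (fderiv ℝ f (wl D x)).comp (wl D) := h.fderiv
  rw [h']
  rfl

lemma q1_eq (S : Setup d F) (φ : Spl dh dm d) (D : Fin 9 → Matrix (Fin dm) (Fin dm) ℝ) (β : Fin 16)
    (f : Wsp dm → F) (w : Wsp dm) :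
    S.q1 φ D β f w = (-Complex.I) • ∑ i, ∑ B, S.vec (S.g i) (φ (Sum.inr B)) β (dd D i B f w) +
      (∑ B, S.vec (MA S D (wt w) B) (φ (Sum.inr B)) β) (f w) := by
  have h1 : ∑ i, ∑ B, S.vec (S.g i) (φ (Sum.inr B)) β (dd D i B f w) =
      (∑ j : Fin 8, ∑ B, S.vec (S.g j.castSucc) (φ (Sum.inr B)) β (pf j B f w)) -
      ∑ B, S.vec (S.g 8) (φ (Sum.inr B)) β
      (∑ C, (((D 8)⁻¹ B C : ℝ) : ℂ) • ∑ j : Fin 8, ∑ E, ((D j.castSucc C E : ℝ) : ℂ) • pf j E f w) := by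
    have hc : ∀ j : Fin 8, ∑ B, S.vec (S.g j.castSucc) (φ (Sum.inr B)) β (dd D j.castSucc B f w) =
        ∑ B, S.vec (S.g j.castSucc) (φ (Sum.inr B)) β (pf j B f w) := by
      intro j
      refine Finset.sum_congr rfl fun B _ => ?_
      rw [dd, Fin.lastCases_castSucc]
    have hl : ∑ B, S.vec (S.g (Fin.last 8)) (φ (Sum.inr B)) β (dd D (Fin.last 8) B f w) =
        -∑ B, S.vec (S.g 8) (φ (Sum.inr B)) β
      (∑ C, (((D 8)⁻¹ B C : ℝ) : ℂ) • ∑ j : Fin 8, ∑ E, ((D j.castSucc C E : ℝ) : ℂ) • pf j E f w) := by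
      rw [← Finset.sum_neg_distrib]
      refine Finset.sum_congr rfl fun B _ => ?_
      rw [dd, Fin.lastCases_last, map_neg]
      rfl
    rw [Fin.sum_univ_castSucc, Finset.sum_congr rfl fun j _ => hc j, hl, sub_eq_add_neg]
  have h2 : (∑ B, S.vec (MA S D (wt w) B) (φ (Sum.inr B)) β) (f w) = (1 / 2 : ℂ) • ∑ B, ∑ i, ∑ j,
      ((S.κ * ((∑ C, D i B C * wt w j C) - ∑ C, D j B C * wt w i C) : ℝ) : ℂ) •
      S.vec (S.g2 i j) (φ (Sum.inr B)) β (f w) := by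
    rw [_root_.sum_apply, Finset.smul_sum]
    refine Finset.sum_congr rfl fun B _ => ?_
    rw [MA, S.vec_smul, S.vec_sum, _root_.smul_apply, _root_.sum_apply]
    congr 1
    refine Finset.sum_congr rfl fun i _ => ?_
    rw [S.vec_sum, _root_.sum_apply]
    refine Finset.sum_congr rfl fun j _ => ?_
    rw [S.vec_smul, _root_.smul_apply]
    rfl
  rw [Setup.q1, h1, h2, smul_sub, sub_eq_add_neg, ← neg_smul, neg_neg]

/-- the fibre supercharge through the extended function -/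
lemma QT_eq (S : Setup d F) (φ : Spl dh dm d) {D : Fin 9 → Matrix (Fin dm) (Fin dm) ℝ}
    {Om : Matrix (Fin dm) (Fin dm) ℝ} (hA : AlgStmt) (hF : Frz D) (hO : IsOm S.κ D Om) (β : Fin 16)
    {f : Wsp dm → F} (hf : FT f) :
    U.En.QT (sm S φ) (Nc S D) β (fun x => f (wl D x)) = fun x => S.q1 φ D β f (wl D x) := by
  obtain ⟨a1, a2, a3, -⟩ := hA dm S.κ D Om S.κ_pos hF hO
  funext x
  rw [U.En.QT, Setup.Q0, q1_eq, U.En.TT_eq]
  congr 1
  · congr 1
    refine Finset.sum_congr rfl fun i _ => Finset.sum_congr rfl fun B _ => ?_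
    rw [pd_comp a1 hf]
    rfl
  · congr 1
    refine Finset.sum_congr rfl fun B _ => ?_
    rw [NX_eq]
    change S.vec (MA S D (xv x) B) (φ (Sum.inr B)) β = _
    congr 1
    unfold MA
    congr 1
    refine Finset.sum_congr rfl fun i _ => Finset.sum_congr rfl fun j _ => ?_
    congr 2
    unfold LL
    have h := congrFun (shift hA S.κ_pos hF hO (xv x) (xv x 8) i j) B
    rw [wt_wl a3, wt_wl a3]
    rw [Pi.sub_apply, Pi.sub_apply] at h
    rw [h]

lemma contDiff_MA (S : Setup d F) (φ : Spl dh dm d) (D : Fin 9 → Matrix (Fin dm) (Fin dm) ℝ) (β : Fin 16) :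
    ContDiff ℝ ∞ (fun w : Wsp dm => (∑ B, S.vec (MA S D (wt w) B) (φ (Sum.inr B)) β : F →L[ℂ] F)) := by
  have hw : ∀ i C, ContDiff ℝ ∞ (fun w : Wsp dm => wt w i C) := by
    intro i C
    refine Fin.lastCases ?_ (fun j => ?_) i
    · simp only [wt_last]
      exact contDiff_const
    · simp only [wt_castSucc]
      exact (EuclideanSpace.proj (𝕜 := ℝ) (j, C) : Wsp dm →L[ℝ] ℝ).contDiff
  have hL : ∀ B i j, ContDiff ℝ ∞ (fun w : Wsp dm => LL S.κ D (wt w) B i j) := by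
    intro B i j
    unfold LL
    simp only [Matrix.mulVec, dotProduct]
    refine contDiff_const.mul (ContDiff.sub ?_ ?_)
    · exact ContDiff.sum fun C _ => contDiff_const.mul (hw j C)
    · exact ContDiff.sum fun C _ => contDiff_const.mul (hw i C)
  simp only [MA, S.vec_smul, S.vec_sum]
  refine ContDiff.sum fun B _ => ContDiff.const_smul _ (ContDiff.sum fun i _ => ContDiff.sum fun j _ => ?_)
  exact (Complex.ofRealCLM.contDiff.comp (hL B i j)).smul contDiff_const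

lemma contDiff_clmW {T : Wsp dm → F →L[ℂ] F} {u : Wsp dm → F} (hT : ContDiff ℝ ∞ T)
    (hu : ContDiff ℝ ∞ u) : ContDiff ℝ ∞ (fun x => T x (u x)) := by
  have hB : IsBoundedBilinearMap ℝ (fun p : (F →L[ℂ] F) × F => p.1 p.2) := by
    have h := (isBoundedBilinearMap_apply (𝕜 := ℂ) (E := F) (F := F))
    refine ⟨fun a b c => by simp, fun c a b => ?_, fun a b c => by simp, fun c a b => ?_, ?_⟩
    · simp
    · simp
    · obtain ⟨C, hC, hb⟩ := h.bound
      exact ⟨C, hC, hb⟩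
  exact hB.contDiff.comp (hT.prodMk hu)

lemma FT.q1 {f : Wsp dm → F} (hf : FT f) (S : Setup d F) (φ : Spl dh dm d)
    (D : Fin 9 → Matrix (Fin dm) (Fin dm) ℝ) (β : Fin 16) : FT (S.q1 φ D β f) := by
  have h : S.q1 φ D β f = fun w => (-Complex.I) • ∑ i, ∑ B, S.vec (S.g i) (φ (Sum.inr B)) β (Z.dd D i B f w) +
      (∑ B, S.vec (MA S D (wt w) B) (φ (Sum.inr B)) β) (f w) := funext fun w => q1_eq S φ D β f w
  rw [h]
  refine ft_add (ft_smul _ (ft_sum _ fun i _ => ft_sum _ fun B _ => ft_clm _ (FT.dd hf D i B))) ?_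
  constructor
  · exact contDiff_clmW (contDiff_MA S φ D β) hf.1
  · refine hf.2.mono ?_
    intro x hx
    simp only [Function.mem_support] at hx ⊢
    intro h0
    exact hx (by rw [h0, map_zero])

end Vale.Agent.P353.Z.EnFib
end

section

/-! # P353, all `N`, block B: exact energy identity of the fibre oscillator (`EnFStmt`) -/

open MeasureTheory Filter Topology Matrix
open scoped ContDiff

namespace Vale.Agent.P353.Z.EnFib

variable {d dh dm : ℕ} {F : Type*} [NormedAddCommGroup F] [InnerProductSpace ℂ F]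

lemma MA_im (S : Setup d F) (D : Fin 9 → Matrix (Fin dm) (Fin dm) ℝ) (x : Fin 9 → Fin dm → ℝ) (A : Fin dm)
    (α β : Fin 16) : (MA S D x A α β).im = 0 := by
  rw [MA, Matrix.smul_apply, Matrix.sum_apply]
  simp only [Matrix.sum_apply, Matrix.smul_apply, smul_eq_mul]
  have h1 : (∑ i, ∑ j, ((LL S.κ D x A i j : ℝ) : ℂ) * S.g2 i j α β).im = 0 := by
    rw [Complex.im_sum]
    refine Finset.sum_eq_zero fun i _ => ?_
    rw [Complex.im_sum]
    refine Finset.sum_eq_zero fun j _ => ?_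
    rw [Complex.mul_im, S.g2_im, Complex.ofReal_im]
    ring
  rw [Complex.mul_im, h1]
  norm_num

/-- one term of the symmetry of the supercharge -/
lemma symm_term {T : F →L[ℂ] F} (hT : ∀ v w : F, inner ℂ (T v) w = inner ℂ v (T w)) (e : Wsp dm)
    {f g : Wsp dm → F} (hf : FT f) (hg : FT g) :
    ∫ w, inner ℂ ((-Complex.I) • T (dr e f w)) (g w) = ∫ w, inner ℂ (f w) ((-Complex.I) • T (dr e g w)) := by
  have h1 : ∀ w, inner ℂ ((-Complex.I) • T (dr e f w)) (g w) = Complex.I * inner ℂ (dr e f w) (T (g w)) := by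
    intro w
    rw [inner_smul_left, hT]
    simp
  have h2 : ∀ w, inner ℂ (f w) ((-Complex.I) • T (dr e g w)) = -Complex.I * inner ℂ (f w) (dr e (fun w => T (g w)) w) := by
    intro w
    rw [inner_smul_right]
    congr 2
    have h := ((T.restrictScalars ℝ).hasFDerivAt (x := g w)).comp w (ft_diff hg w).hasFDerivAt
    have h' : fderiv ℝ (fun w => T (g w)) w = (T.restrictScalars ℝ).comp (fderiv ℝ g w) := h.fderiv
    rw [dr, dr, h']
    rfl
  simp only [h1, h2]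
  rw [integral_const_mul, integral_const_mul, ibp hf ((ft_clm T hg).1.of_le (by simp))]
  ring

lemma q1_symm (S : Setup d F) (φ : Spl dh dm d) (D : Fin 9 → Matrix (Fin dm) (Fin dm) ℝ) (β : Fin 16)
    {f g : Wsp dm → F} (hf : FT f) (hg : FT g) :
    ∫ w, inner ℂ (S.q1 φ D β f w) (g w) = ∫ w, inner ℂ (f w) (S.q1 φ D β g w) := by
  have hv : ∀ (i : Fin 9) (B : Fin dm) (v w : F), inner ℂ (S.vec (S.g i) (φ (Sum.inr B)) β v) w =
      inner ℂ v (S.vec (S.g i) (φ (Sum.inr B)) β w) := fun i B => S.vec_symm _ (S.g_im _) _ _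
  have hm : ∀ w, inner ℂ ((∑ B, S.vec (MA S D (wt w) B) (φ (Sum.inr B)) β) (f w)) (g w) =
      inner ℂ (f w) ((∑ B, S.vec (MA S D (wt w) B) (φ (Sum.inr B)) β) (g w)) := by
    intro w
    rw [_root_.sum_apply, _root_.sum_apply, sum_inner, inner_sum]
    exact Finset.sum_congr rfl fun B _ => S.vec_symm _ (MA_im S D _ _) _ _ _ _
  have e1 : ∀ w, inner ℂ (S.q1 φ D β f w) (g w) =
      (∑ i, ∑ B, inner ℂ ((-Complex.I) • S.vec (S.g i) (φ (Sum.inr B)) β (dr (dv D i B) f w)) (g w)) +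
      inner ℂ (f w) ((∑ B, S.vec (MA S D (wt w) B) (φ (Sum.inr B)) β) (g w)) := by
    intro w
    rw [q1_eq, inner_add_left, hm, Finset.smul_sum]
    simp only [Finset.smul_sum, sum_inner, dd_eq]
  have e2 : ∀ w, inner ℂ (f w) (S.q1 φ D β g w) =
      (∑ i, ∑ B, inner ℂ (f w) ((-Complex.I) • S.vec (S.g i) (φ (Sum.inr B)) β (dr (dv D i B) g w))) +
      inner ℂ (f w) ((∑ B, S.vec (MA S D (wt w) B) (φ (Sum.inr B)) β) (g w)) := by
    intro w
    rw [q1_eq, inner_add_right, Finset.smul_sum]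
    simp only [Finset.smul_sum, inner_sum, dd_eq]
  have i1 : ∀ i B, Integrable (fun w => inner ℂ ((-Complex.I) • S.vec (S.g i) (φ (Sum.inr B)) β
      (dr (dv D i B) f w)) (g w)) := fun i B =>
    ft_inner_int (ft_smul _ (ft_clm _ (FT.dr hf _))) hg.1.continuous
  have i2 : ∀ i B, Integrable (fun w => inner ℂ (f w) ((-Complex.I) • S.vec (S.g i) (φ (Sum.inr B)) β
      (dr (dv D i B) g w))) := fun i B =>
    ft_inner_int hf (ft_smul _ (ft_clm _ (FT.dr hg _))).1.continuous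
  have i3 : Integrable (fun w => inner ℂ (f w) ((∑ B, S.vec (MA S D (wt w) B) (φ (Sum.inr B)) β) (g w))) :=
    ft_inner_int hf (contDiff_clmW (contDiff_MA S φ D β) hg.1).continuous
  simp only [e1, e2]
  rw [integral_add (integrable_finsetSum _ fun i _ => integrable_finsetSum _ fun B _ => i1 i B) i3,
    integral_add (integrable_finsetSum _ fun i _ => integrable_finsetSum _ fun B _ => i2 i B) i3]
  congr 1
  rw [integral_finsetSum _ fun i _ => integrable_finsetSum _ fun B _ => i1 i B,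
    integral_finsetSum _ fun i _ => integrable_finsetSum _ fun B _ => i2 i B]
  refine Finset.sum_congr rfl fun i _ => ?_
  rw [integral_finsetSum _ fun B _ => i1 i B, integral_finsetSum _ fun B _ => i2 i B]
  exact Finset.sum_congr rfl fun B _ => symm_term (hv i B) _ hf hg

lemma Nc_trace (S : Setup d F) (D : Fin 9 → Matrix (Fin dm) (Fin dm) ℝ) (j k : Fin 9) (C B : Fin dm) :
    (S.g j * (Nc S D k C B)ᵀ).trace = 0 := by
  rw [Nc, Matrix.transpose_sum, Finset.mul_sum, Matrix.trace_sum]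
  refine Finset.sum_eq_zero fun i _ => ?_
  rw [Matrix.transpose_smul, Matrix.mul_smul, Matrix.trace_smul, U.En.trace_g_g2T, smul_zero]

/-- the square of the supercharges -/
lemma sum_qq (S : Setup d F) (φ : Spl dh dm d) {D : Fin 9 → Matrix (Fin dm) (Fin dm) ℝ}
    {Om : Matrix (Fin dm) (Fin dm) ℝ} (hA : AlgStmt) (hF : Frz D) (hO : IsOm S.κ D Om)
    {f : Wsp dm → F} (hf : FT f) (w : Wsp dm) :
    ∑ β, S.q1 φ D β (S.q1 φ D β f) w = -((8 : ℂ) • ∑ i, ∑ A, dd D i A (dd D i A f) w) +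
      (((8 * ∑ i, ∑ B, ((Om *ᵥ VV D w i) B) ^ 2 : ℝ) : ℂ)) • f w + U.En.KT (sm S φ) (Nc S D) (f w) := by
  have hA' := hA dm S.κ D Om S.κ_pos hF hO
  obtain ⟨a1, a2, a3, -, -, -, -, -, a9, a10, -⟩ := hA'
  have hu : ContDiff ℝ ∞ (fun x : Cfg dm => f (wl D x)) := hf.1.comp (wl D).contDiff
  have h := U.En.sum_QTQT (sm S φ) (Nc S D) (fun j k C B => Nc_trace S D j k C B) hu (ex w)
  have h1 : ∀ b, U.En.QT (sm S φ) (Nc S D) b (U.En.QT (sm S φ) (Nc S D) b fun x => f (wl D x)) (ex w) =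
      S.q1 φ D b (S.q1 φ D b f) w := by
    intro b
    rw [QT_eq S φ hA hF hO b hf, QT_eq S φ hA hF hO b (FT.q1 hf S φ D b)]
    beta_reduce
    rw [wl_ex]
  have h2 : ∀ i A, pd i A (pd i A fun x => f (wl D x)) (ex w) = dd D i A (dd D i A f) w := by
    intro i A
    rw [pd_comp a1 hf, pd_comp a1 (FT.dd hf D i A)]
    beta_reduce
    rw [wl_ex]
  simp only [h1, h2, wl_ex] at h
  rw [h]
  congr 2
  have h3 : ∀ A, (U.En.NX (Nc S D) (ex w) A * (U.En.NX (Nc S D) (ex w) A)ᵀ).trace =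
      ((8 * ∑ i, ∑ j, LL S.κ D (wt w) A i j ^ 2 : ℝ) : ℂ) := by
    intro A
    rw [NX_eq, xv_ex, MA]
    exact U.En.trace_R S (LL S.κ D (wt w) A) (LL_swap S.κ D (wt w) A)
  simp only [h3]
  rw [← Complex.ofReal_sum, show (1 / 2 : ℂ) = ((1 / 2 : ℝ) : ℂ) by norm_num, ← Complex.ofReal_mul]
  congr 2
  rw [← Finset.mul_sum]
  have h4 : ∑ A, ∑ i, ∑ j, LL S.κ D (wt w) A i j ^ 2 =
      ∑ A, ∑ i, ∑ j, (S.κ * ((D i *ᵥ VV D w j) A - (D j *ᵥ VV D w i) A)) ^ 2 := by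
    refine Finset.sum_congr rfl fun A _ => Finset.sum_congr rfl fun i _ => Finset.sum_congr rfl fun j _ => ?_
    have h5 := congrFun (a10 w i j) A
    rw [Pi.sub_apply, Pi.sub_apply] at h5
    rw [LL, h5]
  rw [h4, pot hF hO _ (a9 w)]
  ring

/-- `NF` and the constant term of the square -/
lemma KT_eq (S : Setup d F) (φ : Spl dh dm d) {D : Fin 9 → Matrix (Fin dm) (Fin dm) ℝ}
    {Om : Matrix (Fin dm) (Fin dm) ℝ} (hF : Frz D) (hO : Omᵀ = Om) :
    U.En.KT (sm S φ) (Nc S D) = (16 : ℂ) • S.NF φ D Om - ((64 * Om.trace : ℝ) : ℂ) • (1 : F →L[ℂ] F) := by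
  -- the constant term
  have k1 : U.En.KT (sm S φ) (Nc S D) = (-8 * Complex.I) • ∑ A, ∑ B, ∑ i,
      ((S.κ * D i A B : ℝ) : ℂ) • (sm S φ).bil (S.g i) A B := by
    have h1 : ∀ C A, ∑ j, (sm S φ).bil (S.g j * Nc S D j C A) C A =
        (8 : ℂ) • ∑ i, ((S.κ * D i C A : ℝ) : ℂ) • (sm S φ).bil (S.g i) C A := by
      intro C A
      rw [← (sm S φ).bil_sum]
      have h2 : ∑ j, S.g j * Nc S D j C A = ∑ i, ((S.κ * D i A C : ℝ) : ℂ) • (-((8 : ℂ) • S.g i)) := by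
        simp only [Nc, Finset.mul_sum, Matrix.mul_smul]
        rw [Finset.sum_comm]
        refine Finset.sum_congr rfl fun i _ => ?_
        rw [← Finset.smul_sum, U.En.sum_g_g2']
      rw [h2, (sm S φ).bil_sum, Finset.smul_sum]
      refine Finset.sum_congr rfl fun i _ => ?_
      have h3 : D i A C = -D i C A := by
        have := congrFun (congrFun (hF.anti i) C) A
        rwa [Matrix.transpose_apply, Matrix.neg_apply] at this
      rw [h3, (sm S φ).bil_smul, (sm S φ).bil_neg, (sm S φ).bil_smul, smul_neg, mul_neg, Complex.ofReal_neg,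
        neg_smul, neg_neg, smul_comm]
    unfold U.En.KT
    have h4 : ∑ j, ∑ C, ∑ A, (sm S φ).bil ((sm S φ).g j * Nc S D j C A) C A =
        ∑ C, ∑ A, (8 : ℂ) • ∑ i, ((S.κ * D i C A : ℝ) : ℂ) • (sm S φ).bil (S.g i) C A := by
      rw [Finset.sum_comm]
      refine Finset.sum_congr rfl fun C _ => ?_
      rw [Finset.sum_comm]
      exact Finset.sum_congr rfl fun A _ => h1 C A
    rw [h4]
    simp only [← Finset.smul_sum]
    rw [smul_smul]
    congr 1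
    ring
  -- the fermionic energy
  have k2 : S.NF φ D Om = (1 / 2 : ℂ) • (∑ A, ∑ B, ((Om A B : ℝ) : ℂ) • (sm S φ).bil 1 A B) -
      (Complex.I / 2) • ∑ A, ∑ B, ∑ i, ((S.κ * D i A B : ℝ) : ℂ) • (sm S φ).bil (S.g i) A B := by
    have h1 : ∀ (N : Matrix (Fin 16) (Fin 16) ℂ) (A B : Fin dm), (sm S φ).bil N A B =
        ∑ α, ∑ β, N α β • (S.th α (φ (Sum.inr A)) * S.th β (φ (Sum.inr B))) := by
      intro N A B
      simp only [CS.bil, CS.vec, Finset.mul_sum, mul_smul_comm]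
      rfl
    have h2 : S.NF φ D Om = ∑ α, ∑ A, ∑ β, ∑ B, S.Lam D Om (α, A) (β, B) •
        (S.th α (φ (Sum.inr A)) * S.th β (φ (Sum.inr B))) := by
      simp only [Setup.NF, Setup.Lth, Finset.mul_sum, mul_smul_comm, Fintype.sum_prod_type]
    have h3 : S.NF φ D Om = ∑ A, ∑ B, ∑ α, ∑ β, S.Lam D Om (α, A) (β, B) •
        (S.th α (φ (Sum.inr A)) * S.th β (φ (Sum.inr B))) := by
      rw [h2, Finset.sum_comm]
      refine Finset.sum_congr rfl fun A _ => ?_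
      calc ∑ α, ∑ β, ∑ B, S.Lam D Om (α, A) (β, B) • (S.th α (φ (Sum.inr A)) * S.th β (φ (Sum.inr B)))
          = ∑ α, ∑ B, ∑ β, S.Lam D Om (α, A) (β, B) • (S.th α (φ (Sum.inr A)) * S.th β (φ (Sum.inr B))) :=
            Finset.sum_congr rfl fun α _ => Finset.sum_comm
        _ = _ := Finset.sum_comm
    rw [h3]
    simp only [Finset.smul_sum, ← Finset.sum_sub_distrib]
    refine Finset.sum_congr rfl fun A _ => Finset.sum_congr rfl fun B _ => ?_
    rw [h1 1, Finset.smul_sum, Finset.smul_sum]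
    simp only [h1, Finset.smul_sum]
    rw [Finset.sum_comm (s := Finset.univ) (t := Finset.univ) (γ := Fin 9), ← Finset.sum_sub_distrib]
    refine Finset.sum_congr rfl fun α _ => ?_
    rw [Finset.sum_comm (s := Finset.univ) (t := Finset.univ) (γ := Fin 9), ← Finset.sum_sub_distrib]
    refine Finset.sum_congr rfl fun β _ => ?_
    simp only [smul_smul]
    rw [← Finset.sum_smul, ← sub_smul]
    congr 1
    simp only [Setup.Lam, Matrix.of_apply, Setup.PP, Matrix.one_apply]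
    rw [mul_sub, Finset.mul_sum, Finset.mul_sum, Finset.mul_sum]
    congr 1
    · split_ifs <;> simp
    · refine Finset.sum_congr rfl fun i _ => ?_
      push_cast
      ring
  have k3 : ∑ A, ∑ B, ((Om A B : ℝ) : ℂ) • (sm S φ).bil 1 A B = ((8 * Om.trace : ℝ) : ℂ) • (1 : F →L[ℂ] F) := by
    have h1 : ∑ A, ∑ B, ((Om A B : ℝ) : ℂ) • (sm S φ).bil 1 A B =
        (∑ A, ((Om A A : ℝ) : ℂ) • (16 : ℂ) • (1 : F →L[ℂ] F)) -
          ∑ A, ∑ B, ((Om A B : ℝ) : ℂ) • (sm S φ).bil 1 A B := by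
      have h2 : ∀ A B, (sm S φ).bil 1 A B = (if A = B then (16 : ℂ) • (1 : F →L[ℂ] F) else 0) -
          (sm S φ).bil 1 B A := by
        intro A B
        have := (sm S φ).bil_swap 1 A B
        rwa [Matrix.transpose_one, CS.trace_one16] at this
      conv_lhs => rw [Finset.sum_congr rfl fun A _ => Finset.sum_congr rfl fun B _ => by rw [h2 A B]]
      simp only [smul_sub, Finset.sum_sub_distrib, smul_ite, smul_zero, Finset.sum_ite_eq, Finset.mem_univ, if_true]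
      congr 1
      rw [Finset.sum_comm]
      refine Finset.sum_congr rfl fun A _ => Finset.sum_congr rfl fun B _ => ?_
      have := congrFun (congrFun hO A) B
      rw [Matrix.transpose_apply] at this
      rw [this]
    have h2 : (2 : ℂ) • ∑ A, ∑ B, ((Om A B : ℝ) : ℂ) • (sm S φ).bil 1 A B =
        ∑ A, ((Om A A : ℝ) : ℂ) • (16 : ℂ) • (1 : F →L[ℂ] F) := by
      rw [two_smul]
      nth_rewrite 1 [h1]
      abel
    have h3 : ∑ A, ∑ B, ((Om A B : ℝ) : ℂ) • (sm S φ).bil 1 A B =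
        (1 / 2 : ℂ) • ∑ A, ((Om A A : ℝ) : ℂ) • (16 : ℂ) • (1 : F →L[ℂ] F) := by
      rw [← h2, smul_smul]
      norm_num
    rw [h3, ← Finset.sum_smul, smul_smul, smul_smul]
    congr 1
    rw [Matrix.trace]
    push_cast
    simp only [Matrix.diag]
    ring
  rw [k1, k2, k3]
  push_cast
  module

/-- **B-En** -/
theorem enF (S : Setup d F) (φ : Spl dh dm d) (hA : AlgStmt) : EnFStmt S φ := by
  intro D Om hF hO f hf
  have hA' := hA dm S.κ D Om S.κ_pos hF hO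
  -- the functions `(Ω V_i)_B`
  have hw : ∀ i C, ContDiff ℝ ∞ (fun w : Wsp dm => wt w i C) := by
    intro i C
    refine Fin.lastCases ?_ (fun j => ?_) i
    · simp only [wt_last]
      exact contDiff_const
    · simp only [wt_castSucc]
      exact (EuclideanSpace.proj (𝕜 := ℝ) (j, C) : Wsp dm →L[ℝ] ℝ).contDiff
  have hwl : ∀ i, ∀ (a b : Wsp dm), wt (a + b) i = wt a i + wt b i := by
    intro i a b
    refine Fin.lastCases ?_ (fun j => ?_) i
    · rw [wt_last, wt_last, wt_last, add_zero]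
    · funext B
      rw [Pi.add_apply, wt_castSucc, wt_castSucc, wt_castSucc]
      rfl
  have hwc : ∀ i, ∀ (c : ℝ) (a : Wsp dm), wt (c • a) i = c • wt a i := by
    intro i c a
    refine Fin.lastCases ?_ (fun j => ?_) i
    · rw [wt_last, wt_last, smul_zero]
    · funext B
      rw [Pi.smul_apply, wt_castSucc, wt_castSucc]
      rfl
  have hVl : ∀ i (a b : Wsp dm), VV D (a + b) i = VV D a i + VV D b i := by
    intro i a b
    rw [VV, VV, VV, sV, sV, sV]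
    simp only [hwl, Matrix.mulVec_add, Finset.sum_add_distrib]
    abel
  have hVc : ∀ i (c : ℝ) (a : Wsp dm), VV D (c • a) i = c • VV D a i := by
    intro i c a
    rw [VV, VV, sV, sV]
    simp only [hwc, Matrix.mulVec_smul, ← Finset.smul_sum, smul_sub]
  set Lm : Fin 9 → Fin dm → (Wsp dm →ₗ[ℝ] ℝ) := fun i B =>
    { toFun := fun w => (Om *ᵥ VV D w i) B
      map_add' := by
        intro a b
        rw [hVl, Matrix.mulVec_add, Pi.add_apply]
      map_smul' := by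
        intro c a
        rw [hVc, Matrix.mulVec_smul, Pi.smul_apply]
        rfl } with hLm
  have hLa : ∀ i B w, LinearMap.toContinuousLinearMap (Lm i B) w = (Om *ᵥ VV D w i) B := fun i B w => rfl
  have hLs : ∀ i B, ContDiff ℝ ∞ (fun w : Wsp dm => (Om *ᵥ VV D w i) B) := by
    intro i B
    exact (LinearMap.toContinuousLinearMap (Lm i B)).contDiff
  have hLd : ∀ i B w, fderiv ℝ (fun w : Wsp dm => (Om *ᵥ VV D w i) B) w (dv D i B) =
      (Om *ᵥ VV D (dv D i B) i) B := by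
    intro i B w
    have := (LinearMap.toContinuousLinearMap (Lm i B)).hasFDerivAt (x := w)
    have h' : fderiv ℝ (fun w : Wsp dm => (Om *ᵥ VV D w i) B) w = LinearMap.toContinuousLinearMap (Lm i B) :=
      this.fderiv
    rw [h']
    rfl
  -- the completed squares
  have hsq : ∀ i B, nsf (fun w => dd D i B f w + (((Om *ᵥ VV D w i) B : ℝ) : ℂ) • f w) =
      nsf (dd D i B f) + (∫ w, (Om *ᵥ VV D w i) B ^ 2 * ‖f w‖ ^ 2) - (Om *ᵥ VV D (dv D i B) i) B * nsf f := by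
    intro i B
    have h := nsf_sq hf (hLs i B) (dv D i B) _ (hLd i B)
    have hdd : Z.dd D i B f = dr (dv D i B) f := funext fun w => dd_eq D i B f w
    rw [hdd]
    exact h
  -- the energy
  have hE : ((∑ β, nsf (S.q1 φ D β f) : ℝ) : ℂ) =
      ∫ w, inner ℂ (f w) (∑ β, S.q1 φ D β (S.q1 φ D β f) w) := by
    push_cast
    simp only [inner_sum]
    rw [integral_finsetSum]
    · refine Finset.sum_congr rfl fun β _ => ?_
      rw [nsf_ofReal, q1_symm S φ D β hf (FT.q1 hf S φ D β)]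
    · intro β _
      exact ft_inner_int hf (FT.q1 (FT.q1 hf S φ D β) S φ D β).1.continuous
  have hpt : ∀ w, inner ℂ (f w) (∑ β, S.q1 φ D β (S.q1 φ D β f) w) =
      (-8 : ℂ) * (∑ i, ∑ B, inner ℂ (f w) (dd D i B (dd D i B f) w)) +
      (8 : ℂ) * (∑ i, ∑ B, (((Om *ᵥ VV D w i) B ^ 2 * ‖f w‖ ^ 2 : ℝ) : ℂ)) +
      ((16 : ℂ) * inner ℂ (f w) (S.NF φ D Om (f w)) - ((64 * Om.trace : ℝ) : ℂ) * inner ℂ (f w) (f w)) := by
    intro w
    rw [sum_qq S φ hA hF hO hf, KT_eq S φ hF hO.symm, inner_add_right, inner_add_right, inner_neg_right,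
      inner_smul_right, inner_smul_right]
    simp only [inner_sum]
    have h1 : inner ℂ (f w) (((16 : ℂ) • S.NF φ D Om - ((64 * Om.trace : ℝ) : ℂ) • (1 : F →L[ℂ] F)) (f w)) =
        (16 : ℂ) * inner ℂ (f w) (S.NF φ D Om (f w)) - ((64 * Om.trace : ℝ) : ℂ) * inner ℂ (f w) (f w) := by
      rw [_root_.sub_apply, _root_.smul_apply, _root_.smul_apply, one_apply_eq_self, inner_sub_right,
        inner_smul_right, inner_smul_right]
    rw [h1]
    congr 1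
    congr 1
    · ring
    · rw [inner_self_eq_norm_sq_to_K]
      have h2 : ∑ i, ∑ B, (((Om *ᵥ VV D w i) B ^ 2 * ‖f w‖ ^ 2 : ℝ) : ℂ) =
          ((∑ i, ∑ B, (Om *ᵥ VV D w i) B ^ 2 : ℝ) : ℂ) * ((‖f w‖ : ℝ) : ℂ) ^ 2 := by
        push_cast
        rw [Finset.sum_mul]
        exact Finset.sum_congr rfl fun i _ => by rw [Finset.sum_mul]
      rw [h2]
      push_cast
      simp only [Complex.coe_algebraMap]
      ring
  have j1 : ∀ i B, Integrable (fun w => inner ℂ (f w) (dd D i B (dd D i B f) w)) := fun i B =>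
    ft_inner_int hf (FT.dd (FT.dd hf D i B) D i B).1.continuous
  have j1' : Integrable (fun w => (-8 : ℂ) * (∑ i, ∑ B, inner ℂ (f w) (dd D i B (dd D i B f) w))) :=
    (integrable_finsetSum _ fun i _ => integrable_finsetSum _ fun B _ => j1 i B).const_mul _
  have j2 : ∀ i B, Integrable (fun w => (Om *ᵥ VV D w i) B ^ 2 * ‖f w‖ ^ 2) := fun i B =>
    ft_mul_int ((hLs i B).continuous.pow 2) hf
  have j2' : Integrable (fun w => (8 : ℂ) * (∑ i, ∑ B, (((Om *ᵥ VV D w i) B ^ 2 * ‖f w‖ ^ 2 : ℝ) : ℂ))) :=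
    (integrable_finsetSum _ fun i _ => integrable_finsetSum _ fun B _ => (j2 i B).ofReal).const_mul _
  have j3 : Integrable (fun w => (16 : ℂ) * inner ℂ (f w) (S.NF φ D Om (f w))) :=
    (ft_inner_int hf (ft_clm _ hf).1.continuous).const_mul _
  have j4 : Integrable (fun w => ((64 * Om.trace : ℝ) : ℂ) * inner ℂ (f w) (f w)) :=
    (ft_inner_int hf hf.1.continuous).const_mul _
  have j12 : Integrable (fun w => (-8 : ℂ) * (∑ i, ∑ B, inner ℂ (f w) (dd D i B (dd D i B f) w)) +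
      (8 : ℂ) * (∑ i, ∑ B, (((Om *ᵥ VV D w i) B ^ 2 * ‖f w‖ ^ 2 : ℝ) : ℂ))) := j1'.add j2'
  have j34 : Integrable (fun w => (16 : ℂ) * inner ℂ (f w) (S.NF φ D Om (f w)) -
      ((64 * Om.trace : ℝ) : ℂ) * inner ℂ (f w) (f w)) := j3.sub j4
  have hI : ((∑ β, nsf (S.q1 φ D β f) : ℝ) : ℂ) =
      ((8 * (∑ i, ∑ B, nsf (dd D i B f)) + 8 * (∑ i, ∑ B, ∫ w, (Om *ᵥ VV D w i) B ^ 2 * ‖f w‖ ^ 2) -
        64 * Om.trace * nsf f : ℝ) : ℂ) + 16 * ∫ w, inner ℂ (f w) (S.NF φ D Om (f w)) := by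
    rw [hE]
    simp only [hpt]
    rw [integral_add j12 j34, integral_add j1' j2', integral_sub j3 j4, integral_const_mul, integral_const_mul,
      integral_const_mul, integral_const_mul, ← nsf_ofReal,
      integral_finsetSum _ fun i _ => integrable_finsetSum _ fun B _ => j1 i B,
      integral_finsetSum _ fun i _ => integrable_finsetSum _ fun B _ => (j2 i B).ofReal]
    have h1 : ∀ i, ∫ w, ∑ B, inner ℂ (f w) (dd D i B (dd D i B f) w) = -∑ B, ((nsf (dd D i B f) : ℝ) : ℂ) := by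
      intro i
      rw [integral_finsetSum _ fun B _ => j1 i B, ← Finset.sum_neg_distrib]
      refine Finset.sum_congr rfl fun B _ => ?_
      have hdd : ∀ g : Wsp dm → F, Z.dd D i B g = dr (dv D i B) g := fun g => funext fun w => dd_eq D i B g w
      have h2 := ibp hf ((FT.dd hf D i B).1.of_le (by simp)) (dv D i B)
      rw [← hdd, ← hdd] at h2
      rw [nsf_ofReal, h2, neg_neg]
    have h2 : ∀ i, ∫ w, ∑ B, (((Om *ᵥ VV D w i) B ^ 2 * ‖f w‖ ^ 2 : ℝ) : ℂ) =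
        ∑ B, ((∫ w, (Om *ᵥ VV D w i) B ^ 2 * ‖f w‖ ^ 2 : ℝ) : ℂ) := by
      intro i
      rw [integral_finsetSum _ fun B _ => (j2 i B).ofReal]
      exact Finset.sum_congr rfl fun B _ => integral_complex_ofReal
    simp only [h1, h2]
    rw [Finset.sum_neg_distrib]
    push_cast
    ring
  have hre := congrArg Complex.re hI
  rw [Complex.ofReal_re, Complex.add_re, Complex.ofReal_re, show (16 : ℂ) = ((16 : ℝ) : ℂ) by norm_num,
    Complex.re_ofReal_mul] at hre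
  have h8 := tr8 hA S.κ_pos hF hO
  have hs : ∑ i, ∑ B, nsf (fun w => dd D i B f w + (((Om *ᵥ VV D w i) B : ℝ) : ℂ) • f w) =
      (∑ i, ∑ B, nsf (dd D i B f)) + (∑ i, ∑ B, ∫ w, (Om *ᵥ VV D w i) B ^ 2 * ‖f w‖ ^ 2) -
        8 * Om.trace * nsf f := by
    simp only [hsq, Finset.sum_add_distrib, Finset.sum_sub_distrib]
    simp only [← Finset.sum_mul]
    rw [h8]
  rw [hs, Setup.e1, hre]
  ring

end Vale.Agent.P353.Z.EnFib

namespace Vale.Agent.P353.Z

/-- **B-En** -/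
theorem enF {d dh dm : ℕ} {F : Type*} [NormedAddCommGroup F] [InnerProductSpace ℂ F] (S : Setup d F)
    (φ : Spl dh dm d) (hA : AlgStmt) : EnFStmt S φ := EnFib.enF S φ hA

end Vale.Agent.P353.Z
end

section

/-! # P353, all `N`, block D, L8: unfrozen vacuum (`UFOfStmt`) -/

open MeasureTheory Filter Topology Matrix
open scoped ContDiff

namespace Vale.Agent.P353.Z.AD

variable {d dh dm ds dz r : ℕ} {F : Type*} [NormedAddCommGroup F] [InnerProductSpace ℂ F]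

/-! ### integration tools -/

lemma uf_lin3 {X : Type*} [MeasurableSpace X] {μ : Measure X} {a b c : X → ℝ} (p q r : ℝ) (ha : Integrable a μ)
    (hb : Integrable b μ) (hc : Integrable c μ) :
    ∫ x, (p * a x + q * b x + r * c x) ∂μ = p * (∫ x, a x ∂μ) + q * (∫ x, b x ∂μ) + r * ∫ x, c x ∂μ := by
  have e1 : ∫ x, (p * a x + q * b x + r * c x) ∂μ = (∫ x, (p * a x + q * b x) ∂μ) + ∫ x, r * c x ∂μ :=
    integral_add ((ha.const_mul p).add (hb.const_mul q)) (hc.const_mul r)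
  have e2 : ∫ x, (p * a x + q * b x) ∂μ = (∫ x, p * a x ∂μ) + ∫ x, q * b x ∂μ :=
    integral_add (ha.const_mul p) (hb.const_mul q)
  rw [e1, e2, integral_const_mul, integral_const_mul, integral_const_mul]

/-- Cauchy–Schwarz for real integrals -/
lemma uf_cs {X : Type*} [MeasurableSpace X] {μ : Measure X} {a b : X → ℝ} (ha : Integrable (fun x => a x ^ 2) μ)
    (hb : Integrable (fun x => b x ^ 2) μ) (hab : Integrable (fun x => a x * b x) μ) :
    (∫ x, a x * b x ∂μ) ^ 2 ≤ (∫ x, a x ^ 2 ∂μ) * ∫ x, b x ^ 2 ∂μ := by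
  have h1 : ∀ t : ℝ, 0 ≤ (∫ x, a x ^ 2 ∂μ) * (t * t) + (-2 * ∫ x, a x * b x ∂μ) * t + ∫ x, b x ^ 2 ∂μ := by
    intro t
    have h2 : (∫ x, (t * a x - b x) ^ 2 ∂μ) =
        (∫ x, a x ^ 2 ∂μ) * (t * t) + (-2 * ∫ x, a x * b x ∂μ) * t + ∫ x, b x ^ 2 ∂μ := by
      have e : (fun x => (t * a x - b x) ^ 2) =
          fun x => (t * t) * a x ^ 2 + (-2 * t) * (a x * b x) + 1 * b x ^ 2 := by
        funext x; ring
      rw [e, uf_lin3 _ _ _ ha hab hb]
      ring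
    rw [← h2]
    exact integral_nonneg fun x => sq_nonneg _
  have h3 := discrim_le_zero h1
  unfold discrim at h3
  nlinarith [h3]

lemma uf_ft_int {f : Wsp dm → F} (hf : FT f) : Integrable (fun w => ‖f w‖ ^ 2) := by
  have c1 : Continuous fun w => ‖f w‖ ^ 2 := hf.1.continuous.norm.pow 2
  have c2 : HasCompactSupport fun w => ‖f w‖ ^ 2 := by
    refine HasCompactSupport.intro hf.2 fun w hw => ?_
    rw [image_eq_zero_of_notMem_tsupport hw, norm_zero]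
    norm_num
  exact c1.integrable_of_hasCompactSupport c2

lemma uf_gf_int {f : Wsp dm → F} (hf : FT f) {g : Wsp dm → ℝ} (hg : Continuous g) :
    Integrable (fun w => ((g w : ℝ) : ℂ) • f w) := by
  have c1 : Continuous fun w => ((g w : ℝ) : ℂ) • f w :=
    (Complex.continuous_ofReal.comp hg).smul hf.1.continuous
  have c2 : HasCompactSupport fun w => ((g w : ℝ) : ℂ) • f w := by
    refine HasCompactSupport.intro hf.2 fun w hw => ?_
    rw [image_eq_zero_of_notMem_tsupport hw, smul_zero]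
  exact c1.integrable_of_hasCompactSupport c2

lemma uf_I_le {f : Wsp dm → F} (hf : FT f) {g : Wsp dm → ℝ} (hg : Continuous g)
    (hg2 : Integrable (fun w => g w ^ 2)) :
    ‖∫ w, ((g w : ℝ) : ℂ) • f w‖ ^ 2 ≤ (∫ w, g w ^ 2) * nsf f := by
  have h1 : ‖∫ w, ((g w : ℝ) : ℂ) • f w‖ ≤ ∫ w, |g w| * ‖f w‖ := by
    refine (norm_integral_le_integral_norm _).trans (le_of_eq ?_)
    refine integral_congr_ae (Eventually.of_forall fun w => ?_)
    simp only [norm_smul, Complex.norm_real, Real.norm_eq_abs]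
  have h2 : Integrable (fun w => |g w| * ‖f w‖) := by
    have := (uf_gf_int hf hg).norm
    refine this.congr (Eventually.of_forall fun w => ?_)
    simp only [norm_smul, Complex.norm_real, Real.norm_eq_abs]
  have h3 := uf_cs (μ := (volume : Measure (Wsp dm))) (a := fun w => |g w|) (b := fun w => ‖f w‖)
    (by simpa only [sq_abs] using hg2) (uf_ft_int hf) h2
  simp only [sq_abs] at h3
  refine le_trans ?_ h3
  exact pow_le_pow_left₀ (norm_nonneg _) h1 2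

/-- difference of two vacuum projections -/
lemma uf_diff {f : Wsp dm → F} (hf : FT f) {g h : Wsp dm → ℝ} (hg : Continuous g) (hh : Continuous h)
    (hg2 : Integrable (fun w => g w ^ 2)) (hh2 : Integrable (fun w => h w ^ 2))
    (hgh2 : Integrable (fun w => (g w - h w) ^ 2)) (g1 : ∫ w, g w ^ 2 = 1) (h1 : ∫ w, h w ^ 2 = 1) {κ : ℝ}
    (gh : ∫ w, (g w - h w) ^ 2 ≤ κ ^ 2) {P Q : F →L[ℂ] F} (hQ : ‖Q‖ ≤ 1) (hPQ : ‖P - Q‖ ≤ κ) :
    nsf (fun w => ((g w : ℝ) : ℂ) • P (∫ w', ((g w' : ℝ) : ℂ) • f w') -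
      ((h w : ℝ) : ℂ) • Q (∫ w', ((h w' : ℝ) : ℂ) • f w')) ≤ 9 * κ ^ 2 * nsf f := by
  set A : F := ∫ w', ((g w' : ℝ) : ℂ) • f w' with hA
  set B : F := ∫ w', ((h w' : ℝ) : ℂ) • f w' with hB
  set N : ℝ := nsf f with hN
  have hN0 : 0 ≤ N := integral_nonneg fun w => by positivity
  have a1 : ‖A‖ ^ 2 ≤ N := by
    have := uf_I_le hf hg hg2
    rwa [g1, one_mul] at this
  have a2 : ‖A - B‖ ^ 2 ≤ κ ^ 2 * N := by
    have e : A - B = ∫ w', (((g w' - h w' : ℝ)) : ℂ) • f w' := by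
      rw [hA, hB, ← integral_sub (uf_gf_int hf hg) (uf_gf_int hf hh)]
      refine integral_congr_ae (Eventually.of_forall fun w => ?_)
      simp only [Complex.ofReal_sub, sub_smul]
    have := uf_I_le hf (hg.sub hh) hgh2
    rw [e]
    exact this.trans (mul_le_mul_of_nonneg_right gh hN0)
  have key : ∀ w, ‖((g w : ℝ) : ℂ) • P A - ((h w : ℝ) : ℂ) • Q B‖ ^ 2 ≤
      (3 * κ ^ 2 * N) * g w ^ 2 + (3 * N) * (g w - h w) ^ 2 + (3 * κ ^ 2 * N) * h w ^ 2 := by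
    intro w
    have e : ((g w : ℝ) : ℂ) • P A - ((h w : ℝ) : ℂ) • Q B =
        ((g w : ℝ) : ℂ) • (P - Q) A + (((g w - h w : ℝ)) : ℂ) • Q A + ((h w : ℝ) : ℂ) • Q (A - B) := by
      simp only [_root_.sub_apply, map_sub, Complex.ofReal_sub, sub_smul, smul_sub]
      abel
    have n1 : ‖((g w : ℝ) : ℂ) • (P - Q) A‖ ≤ |g w| * (κ * ‖A‖) := by
      rw [norm_smul, Complex.norm_real, Real.norm_eq_abs]
      exact mul_le_mul_of_nonneg_left (((P - Q).le_opNorm A).trans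
        (mul_le_mul_of_nonneg_right hPQ (norm_nonneg _))) (abs_nonneg _)
    have n2 : ‖(((g w - h w : ℝ)) : ℂ) • Q A‖ ≤ |g w - h w| * ‖A‖ := by
      rw [norm_smul, Complex.norm_real, Real.norm_eq_abs]
      refine mul_le_mul_of_nonneg_left ((Q.le_opNorm A).trans ?_) (abs_nonneg _)
      exact (mul_le_mul_of_nonneg_right hQ (norm_nonneg _)).trans (le_of_eq (one_mul _))
    have n3 : ‖((h w : ℝ) : ℂ) • Q (A - B)‖ ≤ |h w| * ‖A - B‖ := by
      rw [norm_smul, Complex.norm_real, Real.norm_eq_abs]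
      refine mul_le_mul_of_nonneg_left ((Q.le_opNorm _).trans ?_) (abs_nonneg _)
      exact (mul_le_mul_of_nonneg_right hQ (norm_nonneg _)).trans (le_of_eq (one_mul _))
    have n4 : ‖((g w : ℝ) : ℂ) • P A - ((h w : ℝ) : ℂ) • Q B‖ ≤
        |g w| * (κ * ‖A‖) + |g w - h w| * ‖A‖ + |h w| * ‖A - B‖ := by
      rw [e]
      exact (norm_add₃_le).trans (add_le_add (add_le_add n1 n2) n3)
    have n5 := pow_le_pow_left₀ (norm_nonneg _) n4 2
    refine n5.trans ?_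
    set x := |g w| * (κ * ‖A‖) with hx
    set y := |g w - h w| * ‖A‖ with hy
    set z := |h w| * ‖A - B‖ with hz
    have q1 : (x + y + z) ^ 2 ≤ 3 * (x ^ 2 + y ^ 2 + z ^ 2) := by
      nlinarith [sq_nonneg (x - y), sq_nonneg (y - z), sq_nonneg (x - z)]
    have q2 : x ^ 2 ≤ κ ^ 2 * N * g w ^ 2 := by
      have : x ^ 2 = κ ^ 2 * ‖A‖ ^ 2 * g w ^ 2 := by
        rw [hx, mul_pow, mul_pow, sq_abs]; ring
      rw [this]
      gcongr
    have q3 : y ^ 2 ≤ N * (g w - h w) ^ 2 := by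
      have : y ^ 2 = ‖A‖ ^ 2 * (g w - h w) ^ 2 := by
        rw [hy, mul_pow, sq_abs]; ring
      rw [this]
      gcongr
    have q4 : z ^ 2 ≤ κ ^ 2 * N * h w ^ 2 := by
      have : z ^ 2 = ‖A - B‖ ^ 2 * h w ^ 2 := by
        rw [hz, mul_pow, sq_abs]; ring
      rw [this]
      gcongr
    linarith
  have iR : Integrable (fun w => (3 * κ ^ 2 * N) * g w ^ 2 + (3 * N) * (g w - h w) ^ 2 +
      (3 * κ ^ 2 * N) * h w ^ 2) :=
    ((hg2.const_mul _).add (hgh2.const_mul _)).add (hh2.const_mul _)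
  have fin : nsf (fun w => ((g w : ℝ) : ℂ) • P A - ((h w : ℝ) : ℂ) • Q B) ≤
      ∫ w, ((3 * κ ^ 2 * N) * g w ^ 2 + (3 * N) * (g w - h w) ^ 2 + (3 * κ ^ 2 * N) * h w ^ 2) := by
    unfold nsf
    refine integral_mono_of_nonneg (Eventually.of_forall fun w => by positivity) iR
      (Eventually.of_forall key)
  refine fin.trans ?_
  rw [uf_lin3 _ _ _ hg2 hgh2 hh2, g1, h1]
  have : 3 * N * ∫ w, (g w - h w) ^ 2 ≤ 3 * N * κ ^ 2 := mul_le_mul_of_nonneg_left gh (by positivity)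
  linarith

/-! ### the matrices `D_i(y)` -/

lemma uf_Dy_sub (S : Setup d F) (φ : Spl dh dm d) (i : Fin 9) (y y' : Cfg dh) :
    S.Dy φ i (y - y') = S.Dy φ i y - S.Dy φ i y' := by
  ext B C
  simp only [Setup.Dy, Setup.Dm, Matrix.of_apply, Matrix.sub_apply, PiLp.sub_apply, mul_sub,
    Finset.sum_sub_distrib]

lemma uf_Dy_smul (S : Setup d F) (φ : Spl dh dm d) (i : Fin 9) (c : ℝ) (y : Cfg dh) :
    S.Dy φ i (c • y) = c • S.Dy φ i y := by
  ext B C
  simp only [Setup.Dy, Setup.Dm, Matrix.of_apply, Matrix.smul_apply, PiLp.smul_apply, smul_eq_mul,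
    Finset.mul_sum]
  exact Finset.sum_congr rfl fun A _ => by ring

lemma uf_Dy_bd (S : Setup d F) (φ : Spl dh dm d) :
    ∃ K : ℝ, 0 < K ∧ ∀ (i : Fin 9) (y : Cfg dh) (B C : Fin dm), |S.Dy φ i y B C| ≤ K * ‖y‖ := by
  refine ⟨1 + ∑ B : Fin dm, ∑ C : Fin dm, ∑ A : Fin dh, |S.f (φ (Sum.inr B)) (φ (Sum.inl A)) (φ (Sum.inr C))|,
    ?_, ?_⟩
  · positivity
  · intro i y B C
    simp only [Setup.Dy, Setup.Dm, Matrix.of_apply]
    have h1 : |∑ A, S.f (φ (Sum.inr B)) (φ (Sum.inl A)) (φ (Sum.inr C)) * y (i, A)| ≤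
        (∑ A : Fin dh, |S.f (φ (Sum.inr B)) (φ (Sum.inl A)) (φ (Sum.inr C))|) * ‖y‖ := by
      refine (Finset.abs_sum_le_sum_abs _ _).trans ?_
      rw [Finset.sum_mul]
      refine Finset.sum_le_sum fun A _ => ?_
      rw [abs_mul]
      exact mul_le_mul_of_nonneg_left (PiLp.norm_apply_le y (i, A)) (abs_nonneg _)
    refine h1.trans (mul_le_mul_of_nonneg_right ?_ (norm_nonneg _))
    have h2 : (∑ A : Fin dh, |S.f (φ (Sum.inr B)) (φ (Sum.inl A)) (φ (Sum.inr C))|) ≤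
        ∑ C : Fin dm, ∑ A : Fin dh, |S.f (φ (Sum.inr B)) (φ (Sum.inl A)) (φ (Sum.inr C))| :=
      Finset.single_le_sum (f := fun C : Fin dm => ∑ A : Fin dh,
        |S.f (φ (Sum.inr B)) (φ (Sum.inl A)) (φ (Sum.inr C))|)
        (fun C _ => Finset.sum_nonneg fun A _ => abs_nonneg _) (Finset.mem_univ C)
    have h3 : (∑ C : Fin dm, ∑ A : Fin dh, |S.f (φ (Sum.inr B)) (φ (Sum.inl A)) (φ (Sum.inr C))|) ≤
        ∑ B : Fin dm, ∑ C : Fin dm, ∑ A : Fin dh, |S.f (φ (Sum.inr B)) (φ (Sum.inl A)) (φ (Sum.inr C))| :=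
      Finset.single_le_sum (f := fun B : Fin dm => ∑ C : Fin dm, ∑ A : Fin dh,
        |S.f (φ (Sum.inr B)) (φ (Sum.inl A)) (φ (Sum.inr C))|)
        (fun B _ => Finset.sum_nonneg fun C _ => Finset.sum_nonneg fun A _ => abs_nonneg _)
        (Finset.mem_univ B)
    linarith

lemma uf_det_smul (S : Setup d F) (φ : Spl dh dm d) {R : ℝ} (hR : 0 < R) (y : Cfg dh) :
    (S.Dy φ 8 (R • y)).det ≠ 0 ↔ (S.Dy φ 8 y).det ≠ 0 := by
  rw [uf_Dy_smul, Matrix.det_smul]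
  have : R ^ Fintype.card (Fin dm) ≠ 0 := pow_ne_zero _ hR.ne'
  constructor
  · intro h h2
    exact h (by rw [h2, mul_zero])
  · intro h
    exact mul_ne_zero this h

/-! ### scaling of the Gaussian -/

lemma uf_inv {R : ℝ} (hR : R ≠ 0) {M : Matrix (Fin dm) (Fin dm) ℝ} (hM : M.det ≠ 0) :
    (R • M)⁻¹ = R⁻¹ • M⁻¹ := by
  refine Matrix.inv_eq_left_inv ?_
  rw [Matrix.smul_mul, Matrix.mul_smul, smul_smul, inv_mul_cancel₀ hR, one_smul,
    Matrix.nonsing_inv_mul _ (isUnit_iff_ne_zero.2 hM)]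

lemma uf_tI {R : ℝ} (hR : R ≠ 0) {D : Fin 9 → Matrix (Fin dm) (Fin dm) ℝ} (hD : (D 8).det ≠ 0) :
    tI (fun i => R • D i) = tI D := by
  funext i
  simp only [tI]
  rw [uf_inv hR hD, Matrix.smul_mul, Matrix.mul_smul, smul_smul, inv_mul_cancel₀ hR, one_smul]

lemma uf_gR {R : ℝ} (hR : R ≠ 0) {D : Fin 9 → Matrix (Fin dm) (Fin dm) ℝ} (hD : (D 8).det ≠ 0)
    (Om : Matrix (Fin dm) (Fin dm) ℝ) (w : Wsp dm) :
    gR (fun i => R • D i) (R • Om) 1 w = gR D Om R w := by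
  have h1 : VV (fun i => R • D i) w = VV D w := by
    funext i
    simp only [VV, sV, t2, uf_tI hR hD]
  simp only [gR, qf, h1, Matrix.smul_mulVec, dotProduct_smul, smul_eq_mul, ← Finset.mul_sum]
  congr 1
  ring

/-! ### the vacuum at scalar points -/

lemma uf_Dz_smul (S : Setup d F) (φ : Spl dh dm d) (ψ : Spl ds dz dh) (hcmb : CmbStmt) (R : ℝ) (z : Cfg dz) :
    Dz S φ ψ (R • z) = fun i => R • Dz S φ ψ z i := by
  funext i
  obtain ⟨-, -, -, -, -, h6, -⟩ := hcmb ds dz dh ψ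
  have h := h6 R (0 : Cfg ds) z
  rw [smul_zero] at h
  simp only [Dz]
  rw [← h, uf_Dy_smul]

lemma uf_vac [FiniteDimensional ℂ F] (S : Setup d F) (φ : Spl dh dm d) (ψ : Spl ds dz dh) (hcmb : CmbStmt)
    {z₁ : Cfg dz} (hdet : (S.Dy φ 8 (cmb ψ 0 z₁)).det ≠ 0) {R : ℝ} (hR : 0 < R)
    (hom : omc S.κ (Dz S φ ψ (R • z₁)) = R • omc S.κ (Dz S φ ψ z₁)) (hP : Pz S φ ψ (R • z₁) = Pz S φ ψ z₁)
    (f : Wsp dm → F) (w : Wsp dm) :
    S.PR φ (Dz S φ ψ z₁) (omc S.κ (Dz S φ ψ z₁)) R f w =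
      ((gn S φ ψ (R • z₁) w : ℝ) : ℂ) •
        Pz S φ ψ (R • z₁) (∫ w', ((gn S φ ψ (R • z₁) w' : ℝ) : ℂ) • f w') := by
  set D := Dz S φ ψ z₁ with hD
  set Om := omc S.κ D with hOm
  set s : ℝ := Real.sqrt (∫ w', gR D Om R w' ^ 2) with hs
  have hg : ∀ w, gn S φ ψ (R • z₁) w = gR D Om R w / s := by
    intro w
    simp only [gn]
    rw [hom, uf_Dz_smul S φ ψ hcmb R z₁]
    have h1 : ∀ w, gR (fun i => R • Dz S φ ψ z₁ i) (R • Om) 1 w = gR D Om R w := fun w =>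
      uf_gR hR.ne' hdet Om w
    simp only [h1]
    rfl
  rw [hP]
  simp only [hg]
  have h2 : (∫ w', ((gR D Om R w' / s : ℝ) : ℂ) • f w') =
      (((s⁻¹ : ℝ)) : ℂ) • ∫ w', ((gR D Om R w' : ℝ) : ℂ) • f w' := by
    rw [← integral_smul]
    refine integral_congr_ae (Eventually.of_forall fun w' => ?_)
    simp only [smul_smul, ← Complex.ofReal_mul]
    congr 2
    ring
  rw [h2, map_smul, smul_smul, ← Complex.ofReal_mul]
  have h3 : s * s = ∫ w', gR D Om R w' ^ 2 := Real.mul_self_sqrt (integral_nonneg fun w => sq_nonneg _)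
  have h4 : gR D Om R w / s * s⁻¹ = gR D Om R w / ∫ w', gR D Om R w' ^ 2 := by
    rw [← h3, div_mul_eq_div_div, div_eq_mul_inv (gR D Om R w / s)]
  rw [h4]
  rfl

lemma uf_opnorm {ι : Type*} [Fintype ι] [DecidableEq ι] {L : EuclideanSpace ℝ ι →L[ℝ] ℝ} {M : ℝ} (hM : 0 ≤ M)
    (h : ∀ p, |L (EuclideanSpace.single p 1)| ≤ M) : ‖L‖ ≤ (Fintype.card ι : ℝ) * M := by
  refine L.opNorm_le_bound (by positivity) fun v => ?_
  have e : v = ∑ p, v p • EuclideanSpace.single p (1 : ℝ) := by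
    ext q
    simp [Pi.single_apply]
  have e2 : L v = ∑ p, v p * L (EuclideanSpace.single p 1) := by
    conv_lhs => rw [e]
    rw [map_sum]
    simp only [map_smul, smul_eq_mul]
  rw [e2, Real.norm_eq_abs]
  calc |∑ p, v p * L (EuclideanSpace.single p 1)| ≤ ∑ p, |v p * L (EuclideanSpace.single p 1)| :=
        Finset.abs_sum_le_sum_abs _ _
    _ ≤ ∑ _p : ι, ‖v‖ * M := by
        refine Finset.sum_le_sum fun p _ => ?_
        rw [abs_mul]
        exact mul_le_mul (PiLp.norm_apply_le v p) (h p) (abs_nonneg _) (norm_nonneg _)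
    _ = (Fintype.card ι : ℝ) * M * ‖v‖ := by
        rw [Finset.sum_const, nsmul_eq_mul, Finset.card_univ]
        ring

lemma uf_det_cont (S : Setup d F) (φ : Spl dh dm d) (ψ : Spl ds dz dh) :
    Continuous fun z : Cfg dz => (S.Dy φ 8 (cmb ψ 0 z)).det := by
  have hc : Continuous fun z : Cfg dz => (S.Dy φ 8 (cmb ψ 0 z)) := by
    refine continuous_matrix fun B C => ?_
    simp only [Setup.Dy, Setup.Dm, Matrix.of_apply]
    refine continuous_finsetSum _ fun A _ => continuous_const.mul ?_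
    simp only [cmb]
    rcases h : ψ.symm A with a | b
    · simp only [Sum.elim_inl]
      exact continuous_const
    · simp only [Sum.elim_inr]
      fun_prop
  exact hc.matrix_det

/-! ### Gaussian bounds -/

lemma uf_gauss (dm : ℕ) {b : ℝ} (hb : 0 < b) :
    Integrable (fun w : Wsp dm => Real.exp (-(b * ‖w‖ ^ 2))) ∧
      ∫ w : Wsp dm, Real.exp (-(b * ‖w‖ ^ 2)) = (Real.pi / b) ^ (4 * dm) := by
  have h1 : ∫ w : Wsp dm, Real.exp (-(b * ‖w‖ ^ 2)) = (Real.pi / b) ^ (4 * dm) := by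
    have h2 := GaussianFourier.integral_rexp_neg_mul_sq_norm (V := Wsp dm) hb
    have hf : Module.finrank ℝ (Wsp dm) = 8 * dm := by
      rw [finrank_euclideanSpace, Fintype.card_prod, Fintype.card_fin, Fintype.card_fin]
    rw [hf] at h2
    have e : (fun w : Wsp dm => Real.exp (-(b * ‖w‖ ^ 2))) = fun w => Real.exp (-b * ‖w‖ ^ 2) := by
      funext w
      rw [neg_mul]
    rw [e, h2, ← Real.rpow_natCast]
    congr 1
    push_cast
    ring
  refine ⟨Integrable.of_integral_ne_zero ?_, h1⟩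
  rw [h1]
  have : 0 < Real.pi / b := div_pos Real.pi_pos hb
  positivity

/-- quantitative continuity of the boson vacuum -/
lemma uf_gn_diff (S : Setup d F) (φ : Spl dh dm d) (ψ : Spl ds dz dh)
    (hC : ContDiffOn ℝ ∞ (fun p : Cfg dz × Wsp dm => gn S φ ψ p.1 p.2) {p | (S.Dy φ 8 (cmb ψ 0 p.1)).det ≠ 0})
    {R : ℝ} {z₀ : Cfg dz} {ρ M : ℝ} {G : Wsp dm → ℝ} (hM : 0 ≤ M) (hG : ∀ w, 0 ≤ G w)
    (hdet : ∀ z, ‖z - R • z₀‖ ≤ ρ → (S.Dy φ 8 (cmb ψ 0 z)).det ≠ 0)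
    (hder : ∀ z, ‖z - R • z₀‖ ≤ ρ → ∀ i A w, |fderiv ℝ (fun z => gn S φ ψ z w) z (EuclideanSpace.single (i, A) 1)| ≤
      M * G w)
    {a b : Cfg dz} (ha : ‖a - R • z₀‖ ≤ ρ) (hb : ‖b - R • z₀‖ ≤ ρ) (w : Wsp dm) :
    |gn S φ ψ a w - gn S φ ψ b w| ≤ (9 * dz * M * ‖a - b‖) * G w := by
  have hop : IsOpen {p : Cfg dz × Wsp dm | (S.Dy φ 8 (cmb ψ 0 p.1)).det ≠ 0} :=
    isOpen_ne_fun ((uf_det_cont S φ ψ).comp continuous_fst) continuous_const
  have hdiff : ∀ z ∈ Metric.closedBall (R • z₀) ρ, DifferentiableAt ℝ (fun z => gn S φ ψ z w) z := by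
    intro z hz
    rw [Metric.mem_closedBall, dist_eq_norm] at hz
    have hm : ((z, w) : Cfg dz × Wsp dm) ∈ {p : Cfg dz × Wsp dm | (S.Dy φ 8 (cmb ψ 0 p.1)).det ≠ 0} := hdet z hz
    have h1 : DifferentiableAt ℝ (fun p : Cfg dz × Wsp dm => gn S φ ψ p.1 p.2) (z, w) :=
      (hC.contDiffAt (hop.mem_nhds hm)).differentiableAt (by simp)
    have h2 : DifferentiableAt ℝ (fun z : Cfg dz => (z, w)) z := by fun_prop
    exact h1.comp z h2
  have hbd : ∀ z ∈ Metric.closedBall (R • z₀) ρ, ‖fderiv ℝ (fun z => gn S φ ψ z w) z‖ ≤ 9 * dz * (M * G w) := by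
    intro z hz
    rw [Metric.mem_closedBall, dist_eq_norm] at hz
    have h1 := uf_opnorm (L := fderiv ℝ (fun z => gn S φ ψ z w) z) (M := M * G w)
      (mul_nonneg hM (hG w)) (fun p => hder z hz p.1 p.2 w)
    rw [Fintype.card_prod, Fintype.card_fin, Fintype.card_fin] at h1
    push_cast at h1
    exact h1
  have h3 := (convex_closedBall (R • z₀) ρ).norm_image_sub_le_of_norm_fderiv_le (𝕜 := ℝ) hdiff hbd
    (by rw [Metric.mem_closedBall, dist_eq_norm]; exact hb) (by rw [Metric.mem_closedBall, dist_eq_norm]; exact ha)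
  rw [Real.norm_eq_abs] at h3
  refine h3.trans (le_of_eq ?_)
  ring

lemma uf_int_of_one {g : Wsp dm → ℝ} (h : ∫ w, g w ^ 2 = 1) : Integrable (fun w => g w ^ 2) :=
  Integrable.of_integral_ne_zero (by rw [h]; exact one_ne_zero)

lemma uf_sq_bound {u : Wsp dm → ℝ} (hu : Continuous u) {T R c : ℝ} (hR : 0 < R) (hc : 0 < c)
    (h : ∀ w, |u w| ≤ T * (R ^ (2 * dm) * Real.exp (-(c * R * ‖w‖ ^ 2)))) :
    Integrable (fun w => u w ^ 2) ∧ ∫ w, u w ^ 2 ≤ T ^ 2 * (Real.pi / (2 * c)) ^ (4 * dm) := by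
  obtain ⟨g1, g2⟩ := uf_gauss dm (b := 2 * c * R) (by positivity)
  have e : ∀ w : Wsp dm, (T * (R ^ (2 * dm) * Real.exp (-(c * R * ‖w‖ ^ 2)))) ^ 2 =
      (T ^ 2 * R ^ (4 * dm)) * Real.exp (-(2 * c * R * ‖w‖ ^ 2)) := by
    intro w
    have e1 : Real.exp (-(2 * c * R * ‖w‖ ^ 2)) = Real.exp (-(c * R * ‖w‖ ^ 2)) ^ 2 := by
      rw [← Real.exp_nat_mul]
      congr 1
      push_cast
      ring
    have e2 : R ^ (4 * dm) = (R ^ (2 * dm)) ^ 2 := by
      rw [← pow_mul]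
      congr 1
      ring
    rw [e1, e2]
    ring
  have hle : ∀ w, u w ^ 2 ≤ (T ^ 2 * R ^ (4 * dm)) * Real.exp (-(2 * c * R * ‖w‖ ^ 2)) := by
    intro w
    rw [← e w, ← sq_abs (u w)]
    exact pow_le_pow_left₀ (abs_nonneg _) (h w) 2
  have i1 : Integrable (fun w => u w ^ 2) := by
    refine (g1.const_mul (T ^ 2 * R ^ (4 * dm))).mono' (hu.pow 2).aestronglyMeasurable
      (Eventually.of_forall fun w => ?_)
    rw [Real.norm_eq_abs, abs_of_nonneg (sq_nonneg _)]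
    exact hle w
  refine ⟨i1, ?_⟩
  calc ∫ w, u w ^ 2 ≤ ∫ w : Wsp dm, (T ^ 2 * R ^ (4 * dm)) * Real.exp (-(2 * c * R * ‖w‖ ^ 2)) :=
        integral_mono i1 (g1.const_mul _) hle
    _ = (T ^ 2 * R ^ (4 * dm)) * (Real.pi / (2 * c * R)) ^ (4 * dm) := by rw [integral_const_mul, g2]
    _ = T ^ 2 * (Real.pi / (2 * c)) ^ (4 * dm) := by
        rw [mul_assoc, ← mul_pow]
        congr 2
        field_simp

/-! ### the statement -/

omit [InnerProductSpace ℂ F] in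
lemma uf_two {f u v : Wsp dm → F} (h1 : Integrable (fun w => ‖f w - u w‖ ^ 2))
    (h2 : Integrable (fun w => ‖u w - v w‖ ^ 2)) :
    nsf (fun w => f w - v w) ≤ 2 * nsf (fun w => f w - u w) + 2 * nsf (fun w => u w - v w) := by
  unfold nsf
  have e := uf_lin3 (μ := (volume : Measure (Wsp dm))) 2 2 0 h1 h2 h2
  rw [zero_mul, add_zero] at e
  rw [← e]
  refine integral_mono_of_nonneg (Eventually.of_forall fun w => by positivity)
    (((h1.const_mul 2).add (h2.const_mul 2)).add (h2.const_mul 0)) (Eventually.of_forall fun w => ?_)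
  have h3 : ‖f w - v w‖ ≤ ‖f w - u w‖ + ‖u w - v w‖ := norm_sub_le_norm_sub_add_norm_sub _ _ _
  have h4 := pow_le_pow_left₀ (norm_nonneg _) h3 2
  show ‖f w - v w‖ ^ 2 ≤ 2 * ‖f w - u w‖ ^ 2 + 2 * ‖u w - v w‖ ^ 2 + 0 * ‖u w - v w‖ ^ 2
  nlinarith [sq_nonneg (‖f w - u w‖ - ‖u w - v w‖)]

lemma uf_int_sub {f : Wsp dm → F} (hf : FT f) {g : Wsp dm → ℝ} (hg : Continuous g)
    (hg2 : Integrable (fun w => g w ^ 2)) (v : F) :
    Integrable (fun w => ‖f w - ((g w : ℝ) : ℂ) • v‖ ^ 2) := by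
  have hc : Continuous fun w => ‖f w - ((g w : ℝ) : ℂ) • v‖ ^ 2 :=
    ((hf.1.continuous.sub ((Complex.continuous_ofReal.comp hg).smul continuous_const)).norm).pow 2
  refine (((uf_ft_int hf).const_mul 2).add (hg2.const_mul (2 * ‖v‖ ^ 2))).mono' hc.aestronglyMeasurable
    (Eventually.of_forall fun w => ?_)
  rw [Real.norm_eq_abs, abs_of_nonneg (by positivity)]
  have h3 : ‖f w - ((g w : ℝ) : ℂ) • v‖ ≤ ‖f w‖ + |g w| * ‖v‖ := by
    refine (norm_sub_le _ _).trans (le_of_eq ?_)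
    rw [norm_smul, Complex.norm_real, Real.norm_eq_abs]
  have h4 := pow_le_pow_left₀ (norm_nonneg _) h3 2
  show ‖f w - ((g w : ℝ) : ℂ) • v‖ ^ 2 ≤ 2 * ‖f w‖ ^ 2 + 2 * ‖v‖ ^ 2 * g w ^ 2
  have h5 : (|g w| * ‖v‖) ^ 2 = ‖v‖ ^ 2 * g w ^ 2 := by
    rw [mul_pow, sq_abs]; ring
  nlinarith [sq_nonneg (‖f w‖ - |g w| * ‖v‖)]

lemma uf_int_sub2 {g h : Wsp dm → ℝ} (hg : Continuous g) (hh : Continuous h)
    (hg2 : Integrable (fun w => g w ^ 2)) (hh2 : Integrable (fun w => h w ^ 2)) (u v : F) :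
    Integrable (fun w => ‖((g w : ℝ) : ℂ) • u - ((h w : ℝ) : ℂ) • v‖ ^ 2) := by
  have hc : Continuous fun w => ‖((g w : ℝ) : ℂ) • u - ((h w : ℝ) : ℂ) • v‖ ^ 2 :=
    ((((Complex.continuous_ofReal.comp hg).smul continuous_const).sub
      ((Complex.continuous_ofReal.comp hh).smul continuous_const)).norm).pow 2
  refine ((hg2.const_mul (2 * ‖u‖ ^ 2)).add (hh2.const_mul (2 * ‖v‖ ^ 2))).mono' hc.aestronglyMeasurable
    (Eventually.of_forall fun w => ?_)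
  rw [Real.norm_eq_abs, abs_of_nonneg (by positivity)]
  have h3 : ‖((g w : ℝ) : ℂ) • u - ((h w : ℝ) : ℂ) • v‖ ≤ |g w| * ‖u‖ + |h w| * ‖v‖ := by
    refine (norm_sub_le _ _).trans (le_of_eq ?_)
    rw [norm_smul, norm_smul, Complex.norm_real, Complex.norm_real, Real.norm_eq_abs, Real.norm_eq_abs]
  have h4 := pow_le_pow_left₀ (norm_nonneg _) h3 2
  show ‖((g w : ℝ) : ℂ) • u - ((h w : ℝ) : ℂ) • v‖ ^ 2 ≤ 2 * ‖u‖ ^ 2 * g w ^ 2 + 2 * ‖v‖ ^ 2 * h w ^ 2
  have h5 : (|g w| * ‖u‖) ^ 2 = ‖u‖ ^ 2 * g w ^ 2 := by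
    rw [mul_pow, sq_abs]; ring
  have h6 : (|h w| * ‖v‖) ^ 2 = ‖v‖ ^ 2 * h w ^ 2 := by
    rw [mul_pow, sq_abs]; ring
  nlinarith [sq_nonneg (|g w| * ‖u‖ - |h w| * ‖v‖)]

lemma uf_cont_aux {X Y Z : Type*} [TopologicalSpace X] [TopologicalSpace Y] [TopologicalSpace Z]
    (G : X → Y → Z) (U : Set X) (h : ContinuousOn (fun p : X × Y => G p.1 p.2) {p : X × Y | p.1 ∈ U})
    {z : X} (hz : z ∈ U) : Continuous (G z) :=
  h.comp_continuous (f := fun w : Y => ((z, w) : X × Y)) (continuous_const.prodMk continuous_id) (fun _ => hz)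

lemma uf_cont (S : Setup d F) (φ : Spl dh dm d) (ψ : Spl ds dz dh)
    (hsm : ContDiffOn ℝ ∞ (fun p : Cfg dz × Wsp dm => gn S φ ψ p.1 p.2) {p | (S.Dy φ 8 (cmb ψ 0 p.1)).det ≠ 0})
    {z : Cfg dz} (hd : (S.Dy φ 8 (cmb ψ 0 z)).det ≠ 0) : Continuous fun w => gn S φ ψ z w :=
  uf_cont_aux (gn S φ ψ) {z : Cfg dz | (S.Dy φ 8 (cmb ψ 0 z)).det ≠ 0}
    (ContDiffOn.continuousOn hsm) (z := z) hd

/-- the estimate for one pair of vacua -/
lemma uf_est {f : Wsp dm → F} (hf : FT f) {g h : Wsp dm → ℝ} (hg : Continuous g) (hh : Continuous h)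
    (g1 : ∫ w, g w ^ 2 = 1) (h1 : ∫ w, h w ^ 2 = 1) (hi : Integrable (fun w => (g w - h w) ^ 2)) {κ : ℝ}
    (gh : ∫ w, (g w - h w) ^ 2 ≤ κ ^ 2) {P Q : F →L[ℂ] F} (hQ : ‖Q‖ ≤ 1) (hPQ : ‖P - Q‖ ≤ κ)
    [CompleteSpace F] :
    nsf (fun w => f w - ((h w : ℝ) : ℂ) • ∫ w', ((h w' : ℝ) : ℂ) • Q (f w')) ≤
      2 * nsf (fun w => f w - ((g w : ℝ) : ℂ) • P (∫ w', ((g w' : ℝ) : ℂ) • f w')) + 18 * κ ^ 2 * nsf f := by
  have hcomm : (∫ w', ((h w' : ℝ) : ℂ) • Q (f w')) = Q (∫ w', ((h w' : ℝ) : ℂ) • f w') := by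
    rw [← ContinuousLinearMap.integral_comp_comm _ (uf_gf_int hf hh)]
    refine integral_congr_ae (Eventually.of_forall fun w => ?_)
    simp only [map_smul]
  rw [hcomm]
  have ig := uf_int_of_one g1
  have ih := uf_int_of_one h1
  have t1 := uf_two (f := f) (u := fun w => ((g w : ℝ) : ℂ) • P (∫ w', ((g w' : ℝ) : ℂ) • f w'))
    (v := fun w => ((h w : ℝ) : ℂ) • Q (∫ w', ((h w' : ℝ) : ℂ) • f w'))
    (uf_int_sub hf hg ig _) (uf_int_sub2 hg hh ig ih _ _)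
  have t2 := uf_diff hf hg hh ig ih hi g1 h1 gh hQ hPQ
  linarith

lemma uf_par1 {δ c0 C1 e0 : ℝ} (hδ : 0 < δ) (hc0 : 0 < c0) (hC1 : 0 < C1) (he0 : 0 < e0) :
    ∃ ε : ℝ, 0 < ε ∧ ε ≤ e0 ∧ 2 * (C1 * ε ^ 2) / c0 ≤ δ / 2 := by
  refine ⟨min e0 (Real.sqrt (δ * c0 / (4 * C1))), lt_min he0 (by positivity), min_le_left _ _, ?_⟩
  have h1 : (min e0 (Real.sqrt (δ * c0 / (4 * C1)))) ^ 2 ≤ δ * c0 / (4 * C1) := by
    have h2 : 0 ≤ min e0 (Real.sqrt (δ * c0 / (4 * C1))) := le_min he0.le (Real.sqrt_nonneg _)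
    calc (min e0 (Real.sqrt (δ * c0 / (4 * C1)))) ^ 2 ≤ (Real.sqrt (δ * c0 / (4 * C1))) ^ 2 :=
          pow_le_pow_left₀ h2 (min_le_right _ _) 2
      _ = δ * c0 / (4 * C1) := Real.sq_sqrt (by positivity)
  rw [div_le_iff₀ hc0]
  calc 2 * (C1 * (min e0 (Real.sqrt (δ * c0 / (4 * C1)))) ^ 2) ≤ 2 * (C1 * (δ * c0 / (4 * C1))) := by gcongr
    _ = δ / 2 * c0 := by field_simp; ring

lemma uf_par2 {ε₀ r1 ε K κ Kg G2 : ℝ} (hε₀ : 0 < ε₀) (hr1 : 0 < r1) (hε : 0 < ε) (hK : 0 < K) (hκ0 : 0 < κ)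
    (hKg0 : 0 ≤ Kg) (hG20 : 0 < G2) :
    ∃ r : ℝ, 0 < r ∧ r ≤ ε₀ / 2 ∧ r ≤ r1 ∧ K * (2 * r) ≤ ε ∧ Kg * r * G2 ≤ κ := by
  refine ⟨min (min (ε₀ / 2) r1) (min (ε / (2 * K)) (κ / (1 + Kg * G2))), ?_, ?_, ?_, ?_, ?_⟩
  · exact lt_min (lt_min (by positivity) hr1) (lt_min (by positivity) (by positivity))
  · exact (min_le_left _ _).trans (min_le_left _ _)
  · exact (min_le_left _ _).trans (min_le_right _ _)
  · have h1 : min (min (ε₀ / 2) r1) (min (ε / (2 * K)) (κ / (1 + Kg * G2))) ≤ ε / (2 * K) :=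
      (min_le_right _ _).trans (min_le_left _ _)
    calc K * (2 * min (min (ε₀ / 2) r1) (min (ε / (2 * K)) (κ / (1 + Kg * G2)))) ≤
          K * (2 * (ε / (2 * K))) := by gcongr
      _ = ε := by field_simp
  · have h1 : min (min (ε₀ / 2) r1) (min (ε / (2 * K)) (κ / (1 + Kg * G2))) ≤ κ / (1 + Kg * G2) :=
      (min_le_right _ _).trans (min_le_right _ _)
    have hp : 0 < 1 + Kg * G2 := by positivity
    calc Kg * min (min (ε₀ / 2) r1) (min (ε / (2 * K)) (κ / (1 + Kg * G2))) * G2 ≤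
          Kg * (κ / (1 + Kg * G2)) * G2 := by gcongr
      _ = κ * (Kg * G2 / (1 + Kg * G2)) := by field_simp
      _ ≤ κ * 1 := by
          gcongr
          rw [div_le_one hp]
          linarith
      _ = κ := mul_one _

lemma uf_fin {c0 R N κ δ C1 ε E X Y : ℝ} (hc0 : 0 < c0) (hR : 0 < R) (hN0 : 0 ≤ N) (hκ2 : 18 * κ ^ 2 = δ / 2)
    (hε2 : 2 * (C1 * ε ^ 2) / c0 ≤ δ / 2) (t3 : c0 * R * X ≤ E + C1 * ε ^ 2 * R * N)
    (t1 : Y ≤ 2 * X + 18 * κ ^ 2 * N) : Y ≤ 2 / c0 / R * E + δ * N := by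
  have t4 : X ≤ 1 / c0 / R * E + C1 * ε ^ 2 / c0 * N := by
    have hcR : 0 < c0 * R := by positivity
    have h1 : X ≤ (E + C1 * ε ^ 2 * R * N) / (c0 * R) := by
      rw [le_div_iff₀ hcR]
      linarith
    refine h1.trans (le_of_eq ?_)
    field_simp
  have t5 : 2 * (C1 * ε ^ 2 / c0 * N) ≤ δ / 2 * N := by
    have : 2 * (C1 * ε ^ 2 / c0 * N) = 2 * (C1 * ε ^ 2) / c0 * N := by ring
    rw [this]
    exact mul_le_mul_of_nonneg_right hε2 hN0
  have t7 : 2 * (1 / c0 / R * E) = 2 / c0 / R * E := by ring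
  rw [hκ2] at t1
  linarith

/-- norm of `cmb ψ 0 z`, determinants near `z₀` at all scales -/
lemma uf_geo (hcmb : CmbStmt) (S : Setup d F) (φ : Spl dh dm d) (ψ : Spl ds dz dh) {z₀ : Cfg dz} {ε₀ : ℝ}
    (hε₀ : 0 < ε₀) (hdet : ∀ y : Cfg dh, ‖y - cmb ψ 0 z₀‖ ≤ 4 * ε₀ → (S.Dy φ 8 y).det ≠ 0) :
    (∀ z : Cfg dz, ‖z - z₀‖ ≤ 4 * ε₀ → (S.Dy φ 8 (cmb ψ 0 z)).det ≠ 0) ∧
    ∀ (R : ℝ), 0 < R → ∀ z : Cfg dz, ‖z - R • z₀‖ ≤ ε₀ * R → (S.Dy φ 8 (cmb ψ 0 z)).det ≠ 0 := by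
  obtain ⟨-, -, -, hcn, hcs, hcl, -⟩ := hcmb ds dz dh ψ
  have hn0 : ∀ z : Cfg dz, ‖cmb ψ (0 : Cfg ds) z‖ = ‖z‖ := by
    intro z
    have := hcn 0 z
    rw [norm_zero, zero_pow two_ne_zero, zero_add] at this
    exact (sq_eq_sq₀ (norm_nonneg _) (norm_nonneg _)).1 this
  have hdz : ∀ z : Cfg dz, ‖z - z₀‖ ≤ 4 * ε₀ → (S.Dy φ 8 (cmb ψ 0 z)).det ≠ 0 := by
    intro z hz
    refine hdet _ ?_
    rw [hcs, sub_zero, hn0]
    exact hz
  refine ⟨hdz, ?_⟩
  intro R hR z hz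
  have h1 : ‖R⁻¹ • z - z₀‖ ≤ 4 * ε₀ := by
    have e : R⁻¹ • z - z₀ = R⁻¹ • (z - R • z₀) := by
      rw [smul_sub, smul_smul, inv_mul_cancel₀ hR.ne', one_smul]
    rw [e, norm_smul, Real.norm_eq_abs, abs_of_pos (inv_pos.2 hR)]
    calc R⁻¹ * ‖z - R • z₀‖ ≤ R⁻¹ * (ε₀ * R) := mul_le_mul_of_nonneg_left hz (inv_pos.2 hR).le
      _ = ε₀ := by field_simp
      _ ≤ 4 * ε₀ := by linarith
  have h2 := hdz _ h1
  have h3 := (uf_det_smul S φ hR (cmb ψ 0 (R⁻¹ • z))).2 h2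
  have h4 : R • cmb ψ (0 : Cfg ds) (R⁻¹ • z) = cmb ψ 0 z := by
    rw [hcl, smul_zero, smul_smul, mul_inv_cancel₀ hR.ne', one_smul]
  rwa [h4] at h3

lemma uf_DY_bd (hcmb : CmbStmt) (S : Setup d F) (φ : Spl dh dm d) (ψ : Spl ds dz dh) {K r ε R : ℝ} (hK : 0 < K)
    (hR : 0 < R) (hKb : ∀ (i : Fin 9) (y : Cfg dh) (B C : Fin dm), |S.Dy φ i y B C| ≤ K * ‖y‖)
    (hrc : K * (2 * r) ≤ ε) {yz z₁ : Cfg dz} (hyz1 : ‖yz - R • z₁‖ ≤ r * R) {ys : Cfg ds} (hys : ‖ys‖ ≤ r * R)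
    (i : Fin 9) (A B : Fin dm) :
    |S.DY φ (cmb ψ ys yz) i A B - R * Dz S φ ψ z₁ i A B| ≤ ε * R := by
  obtain ⟨-, -, -, hcn, hcs, hcl, -⟩ := hcmb ds dz dh ψ
  have h1 : S.DY φ (cmb ψ ys yz) i A B - R * Dz S φ ψ z₁ i A B =
      S.Dy φ i (cmb ψ ys (yz - R • z₁)) A B := by
    have h2 : cmb ψ ys (yz - R • z₁) = cmb ψ ys yz - R • cmb ψ 0 z₁ := by
      rw [hcl, hcs, smul_zero, sub_zero]
    rw [h2, uf_Dy_sub, uf_Dy_smul]
    rfl
  rw [h1]
  refine (hKb i _ A B).trans ?_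
  have h3 : ‖cmb ψ ys (yz - R • z₁)‖ ≤ ‖ys‖ + ‖yz - R • z₁‖ := by
    refine abs_le_of_sq_le_sq' ?_ (by positivity) |>.2
    rw [hcn]
    nlinarith [norm_nonneg ys, norm_nonneg (yz - R • z₁)]
  calc K * ‖cmb ψ ys (yz - R • z₁)‖ ≤ K * (r * R + r * R) := by
        refine mul_le_mul_of_nonneg_left ?_ hK.le
        linarith
    _ = K * (2 * r) * R := by ring
    _ ≤ ε * R := mul_le_mul_of_nonneg_right hrc hR.le

/-- local form at a scalar point `z₁` -/
lemma uf_loc (S : Setup d F) [FiniteDimensional ℂ F] (hFib : ∀ (dh dm : ℕ) (φ : Spl dh dm d), FibStmt S φ)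
    (hSc : ScalStmt S) (hcmb : CmbStmt) (φ : Spl dh dm d) (ψ : Spl ds dz dh) (z₀ : Cfg dz)
    (hstd : Std2 S φ ψ z₀) {ε₀ c C : ℝ} (hε₀ : 0 < ε₀) (hc : 0 < c) (hC : 0 < C)
    (hdet : ∀ y : Cfg dh, ‖y - cmb ψ 0 z₀‖ ≤ 4 * ε₀ → (S.Dy φ 8 y).det ≠ 0)
    (hsm : ContDiffOn ℝ ∞ (fun p : Cfg dz × Wsp dm => gn S φ ψ p.1 p.2) {p | (S.Dy φ 8 (cmb ψ 0 p.1)).det ≠ 0})
    (hgn : ∀ (R : ℝ) (yz : Cfg dz), 0 < R → ‖yz - R • z₀‖ ≤ ε₀ * R →
      (∫ w, gn S φ ψ yz w ^ 2 = 1) ∧ (∀ w, gn S φ ψ yz (-w) = gn S φ ψ yz w) ∧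
      (∀ w, 0 ≤ gn S φ ψ yz w ∧ gn S φ ψ yz w ≤ C * R ^ (2 * dm) * Real.exp (-(c * R * ‖w‖ ^ 2))) ∧
      (∀ i A w, |fderiv ℝ (fun z => gn S φ ψ z w) yz (EuclideanSpace.single (i, A) 1)| ≤
        C / R * (R ^ (2 * dm) * Real.exp (-(c * R * ‖w‖ ^ 2)))))
    {z₁ : Cfg dz} (hz₁ : ‖z₁ - z₀‖ ≤ ε₀ / 2) {δ : ℝ} (hδ : 0 < δ) :
    ∃ r C' : ℝ, 0 < r ∧ 0 < C' ∧ ∀ R : ℝ, 0 < R → ∀ yz, ‖R⁻¹ • yz - z₁‖ < r → ∀ ys : Cfg ds, ‖ys‖ ≤ r * R →
      ∀ f : Wsp dm → F, FT f →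
      nsf (fun w => f w - ((gn S φ ψ yz w : ℝ) : ℂ) • ∫ w', ((gn S φ ψ yz w' : ℝ) : ℂ) • Pz S φ ψ yz (f w')) ≤
        C' / R * S.e1 φ (S.DY φ (cmb ψ ys yz)) f + δ * nsf f := by
  obtain ⟨hfrz, hhom, -, hPs⟩ := hSc inferInstance dh dm ds dz φ ψ z₀ hstd
  obtain ⟨hdz, hdR⟩ := uf_geo hcmb S φ ψ hε₀ hdet
  have hd1 := hdz z₁ (by linarith)
  obtain ⟨hF0, hO0⟩ := hfrz z₁ hd1
  obtain ⟨c0, C1, e0, hc0, hC1, he0, hfib⟩ := hFib dh dm φ inferInstance _ _ hF0 hO0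
  obtain ⟨K, hK, hKb⟩ := uf_Dy_bd S φ
  -- parameters
  obtain ⟨κ, hκ0, hκ2⟩ : ∃ κ : ℝ, 0 < κ ∧ 18 * κ ^ 2 = δ / 2 := by
    refine ⟨Real.sqrt δ / 6, by positivity, ?_⟩
    rw [div_pow, Real.sq_sqrt hδ.le]; ring
  obtain ⟨ε, hε, hεe, hε2⟩ := uf_par1 hδ hc0 hC1 he0
  obtain ⟨r1, hr1, hPc⟩ : ∃ r1 : ℝ, 0 < r1 ∧ ∀ a : Cfg dz, ‖a - z₁‖ < r1 → ‖Pz S φ ψ a - Pz S φ ψ z₁‖ ≤ κ := by
    have hop : IsOpen {z : Cfg dz | (S.Dy φ 8 (cmb ψ 0 z)).det ≠ 0} :=
      isOpen_ne_fun (uf_det_cont S φ ψ) continuous_const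
    have hca : ContinuousAt (fun yz => Pz S φ ψ yz) z₁ :=
      (hPs.contDiffAt (hop.mem_nhds hd1)).continuousAt
    obtain ⟨r1, hr1, h⟩ := Metric.continuousAt_iff.1 hca κ hκ0
    refine ⟨r1, hr1, fun a ha => ?_⟩
    have := h (by rw [dist_eq_norm]; exact ha)
    rw [dist_eq_norm] at this
    exact this.le
  have hKg0 : 0 ≤ 9 * dz * C := by positivity
  have hG20 : 0 < (Real.pi / (2 * c)) ^ (2 * dm) := by positivity
  have hG4 : (Real.pi / (2 * c)) ^ (4 * dm) = ((Real.pi / (2 * c)) ^ (2 * dm)) ^ 2 := by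
    rw [← pow_mul]; congr 1; ring
  obtain ⟨r, hr, hra, hrb, hrc, hrd⟩ := uf_par2 hε₀ hr1 hε hK hκ0 hKg0 hG20
  refine ⟨r, 2 / c0, hr, by positivity, ?_⟩
  intro R hR yz hyz ys hys f hf
  -- distances
  have hyz1 : ‖yz - R • z₁‖ ≤ r * R := by
    have e : yz - R • z₁ = R • (R⁻¹ • yz - z₁) := by
      rw [smul_sub, smul_smul, mul_inv_cancel₀ hR.ne', one_smul]
    rw [e, norm_smul, Real.norm_eq_abs, abs_of_pos hR, mul_comm]
    exact mul_le_mul_of_nonneg_right hyz.le hR.le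
  have hb0 : ‖R • z₁ - R • z₀‖ ≤ ε₀ / 2 * R := by
    rw [← smul_sub, norm_smul, Real.norm_eq_abs, abs_of_pos hR, mul_comm]
    exact mul_le_mul_of_nonneg_right hz₁ hR.le
  have hb1 : ‖R • z₁ - R • z₀‖ ≤ ε₀ * R :=
    hb0.trans (mul_le_mul_of_nonneg_right (by linarith) hR.le)
  have ha1 : ‖yz - R • z₀‖ ≤ ε₀ * R := by
    have h2 := norm_sub_le_norm_sub_add_norm_sub yz (R • z₁) (R • z₀)
    have h3 : r * R ≤ ε₀ / 2 * R := mul_le_mul_of_nonneg_right hra hR.le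
    linarith
  obtain ⟨ga1, -, -, -⟩ := hgn R yz hR ha1
  obtain ⟨gb1, -, -, -⟩ := hgn R (R • z₁) hR hb1
  have ca := uf_cont S φ ψ hsm (hdR R hR yz ha1)
  have cb := uf_cont S φ ψ hsm (hdR R hR (R • z₁) hb1)
  -- difference of the densities
  have hdiff : ∀ w, |gn S φ ψ (R • z₁) w - gn S φ ψ yz w| ≤
      (9 * dz * C * r) * (R ^ (2 * dm) * Real.exp (-(c * R * ‖w‖ ^ 2))) := by
    intro w
    have h1 := uf_gn_diff S φ ψ hsm (R := R) (z₀ := z₀) (ρ := ε₀ * R) (M := C / R)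
      (G := fun w => R ^ (2 * dm) * Real.exp (-(c * R * ‖w‖ ^ 2))) (by positivity) (fun w => by positivity)
      (fun z hz => hdR R hR z hz) (fun z hz i A w => (hgn R z hR hz).2.2.2 i A w) hb1 ha1 w
    refine h1.trans ?_
    refine mul_le_mul_of_nonneg_right ?_ (by positivity)
    have h2 : ‖R • z₁ - yz‖ ≤ r * R := by rw [norm_sub_rev]; exact hyz1
    calc 9 * dz * (C / R) * ‖R • z₁ - yz‖ ≤ 9 * dz * (C / R) * (r * R) := by gcongr
      _ = 9 * dz * C * r := by field_simp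
  obtain ⟨id1, id2⟩ := uf_sq_bound (cb.sub ca) hR hc hdiff
  have hgg : ∫ w, (gn S φ ψ (R • z₁) w - gn S φ ψ yz w) ^ 2 ≤ κ ^ 2 := by
    refine id2.trans ?_
    rw [hG4, ← mul_pow]
    exact pow_le_pow_left₀ (by positivity) hrd 2
  -- projections
  have hPa : Pz S φ ψ yz = Pz S φ ψ (R⁻¹ • yz) := by
    have h1 : ‖R⁻¹ • yz - z₀‖ ≤ 4 * ε₀ := by
      have := norm_sub_le_norm_sub_add_norm_sub (R⁻¹ • yz) z₁ z₀
      linarith
    have h2 := (hhom (R⁻¹ • yz) (hdz _ h1) R hR).2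
    rw [smul_smul, mul_inv_cancel₀ hR.ne', one_smul] at h2
    exact h2
  have hPb : Pz S φ ψ (R • z₁) = Pz S φ ψ z₁ := (hhom z₁ hd1 R hR).2
  have hPab : ‖Pz S φ ψ (R • z₁) - Pz S φ ψ yz‖ ≤ κ := by
    rw [hPa, hPb, norm_sub_rev]
    exact hPc _ (hyz.trans_le hrb)
  have hPn : ‖Pz S φ ψ yz‖ ≤ 1 := Submodule.starProjection_norm_le _
  have t1 := uf_est hf cb ca gb1 ga1 id1 hgg hPn hPab
  -- the fibre gap
  have hD := uf_DY_bd hcmb S φ ψ hK hR hKb hrc hyz1 hys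
  obtain ⟨-, hfb⟩ := hfib R hR ε hε.le hεe (S.DY φ (cmb ψ ys yz)) hD
  obtain ⟨-, t3, -⟩ := hfb f hf
  have e3 : (fun w => f w - S.PR φ (Dz S φ ψ z₁) (omc S.κ (Dz S φ ψ z₁)) R f w) =
      fun w => f w - ((gn S φ ψ (R • z₁) w : ℝ) : ℂ) •
        Pz S φ ψ (R • z₁) (∫ w', ((gn S φ ψ (R • z₁) w' : ℝ) : ℂ) • f w') := by
    funext w
    rw [uf_vac S φ ψ hcmb hd1 hR (hhom z₁ hd1 R hR).1 hPb f w]
  rw [e3] at t3
  have hN0 : 0 ≤ nsf f := integral_nonneg fun w => by positivity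
  exact uf_fin hc0 hR hN0 hκ2 hε2 t3 t1

/-- **L8** -/
theorem ufOf (S : Setup d F) : UFOfStmt S := by
  intro hFib hSc hGn hcmb hfd dh dm ds dz φ ψ z₀ hstd
  obtain ⟨ε₀, c, C, hε₀, hc, hC, hdet, hsm, hgn⟩ := hGn dh dm ds dz φ ψ z₀ hstd
  refine ⟨ε₀ / 2, by positivity, fun δ hδ => ?_⟩
  have he1 : ∀ (D : Fin 9 → Matrix (Fin dm) (Fin dm) ℝ) (f : Wsp dm → F), 0 ≤ S.e1 φ D f := by
    intro D f
    unfold Setup.e1
    exact mul_nonneg (by norm_num) (Finset.sum_nonneg fun β _ => integral_nonneg fun w => by positivity)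
  have hcomp : IsCompact (Metric.closedBall z₀ (ε₀ / 2)) := isCompact_closedBall _ _
  have key : ∃ η C : ℝ, 0 < η ∧ 0 < C ∧ ∀ R : ℝ, 0 < R → ∀ yz, R⁻¹ • yz ∈ Metric.closedBall z₀ (ε₀ / 2) →
      ∀ ys : Cfg ds, ‖ys‖ ≤ η * R → ∀ f : Wsp dm → F, FT f →
      nsf (fun w => f w - ((gn S φ ψ yz w : ℝ) : ℂ) • ∫ w', ((gn S φ ψ yz w' : ℝ) : ℂ) • Pz S φ ψ yz (f w')) ≤
        C / R * S.e1 φ (S.DY φ (cmb ψ ys yz)) f + δ * nsf f := by
    refine hcomp.induction_on (p := fun s => ∃ η C : ℝ, 0 < η ∧ 0 < C ∧ ∀ R : ℝ, 0 < R → ∀ yz, R⁻¹ • yz ∈ s →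
      ∀ ys : Cfg ds, ‖ys‖ ≤ η * R → ∀ f : Wsp dm → F, FT f →
      nsf (fun w => f w - ((gn S φ ψ yz w : ℝ) : ℂ) • ∫ w', ((gn S φ ψ yz w' : ℝ) : ℂ) • Pz S φ ψ yz (f w')) ≤
        C / R * S.e1 φ (S.DY φ (cmb ψ ys yz)) f + δ * nsf f) ?_ ?_ ?_ ?_
    · exact ⟨1, 1, one_pos, one_pos, fun R _ yz h => absurd h (Set.notMem_empty _)⟩
    · rintro s t hst ⟨η, C, h1, h2, h3⟩
      exact ⟨η, C, h1, h2, fun R hR yz h => h3 R hR yz (hst h)⟩
    · rintro s t ⟨η, C, h1, h2, h3⟩ ⟨η', C', h1', h2', h3'⟩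
      refine ⟨min η η', max C C', lt_min h1 h1', lt_max_of_lt_left h2, ?_⟩
      intro R hR yz h ys hys f hf
      rcases h with h | h
      · refine (h3 R hR yz h ys (hys.trans (mul_le_mul_of_nonneg_right (min_le_left _ _) hR.le)) f hf).trans ?_
        have := mul_le_mul_of_nonneg_right (div_le_div_of_nonneg_right (le_max_left C C') hR.le)
          (he1 (S.DY φ (cmb ψ ys yz)) f)
        linarith
      · refine (h3' R hR yz h ys (hys.trans (mul_le_mul_of_nonneg_right (min_le_right _ _) hR.le)) f hf).trans ?_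
        have := mul_le_mul_of_nonneg_right (div_le_div_of_nonneg_right (le_max_right C C') hR.le)
          (he1 (S.DY φ (cmb ψ ys yz)) f)
        linarith
    · intro z₁ hz₁
      rw [Metric.mem_closedBall, dist_eq_norm] at hz₁
      obtain ⟨r, C', hr, hC', h⟩ := uf_loc S hFib hSc hcmb φ ψ z₀ hstd hε₀ hc hC hdet hsm hgn hz₁ hδ
      refine ⟨Metric.ball z₁ r, mem_nhdsWithin_of_mem_nhds (Metric.ball_mem_nhds z₁ hr), r, C', hr, hC', ?_⟩
      intro R hR yz hyz ys hys f hf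
      rw [Metric.mem_ball, dist_eq_norm] at hyz
      exact h R hR yz hyz ys hys f hf
  obtain ⟨η, C', h1, h2, h3⟩ := key
  refine ⟨η, C', h1, h2, fun R hR yz hyz ys hys f hf => h3 R hR yz ?_ ys hys f hf⟩
  rw [Metric.mem_closedBall, dist_eq_norm]
  have e : R⁻¹ • yz - z₀ = R⁻¹ • (yz - R • z₀) := by
    rw [smul_sub, smul_smul, inv_mul_cancel₀ hR.ne', one_smul]
  rw [e, norm_smul, Real.norm_eq_abs, abs_of_pos (inv_pos.2 hR)]
  calc R⁻¹ * ‖yz - R • z₀‖ ≤ R⁻¹ * (ε₀ / 2 * R) := mul_le_mul_of_nonneg_left hyz (inv_pos.2 hR).le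
    _ = ε₀ / 2 := by field_simp

end Vale.Agent.P353.Z.AD
end
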