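import Mathlib
import Vale.Agent.P353.BdZ.B17
import Vale.Agent.P353.BdA.B4
import Vale.Agent.P353.BdA.B1
import Vale.Agent.P353.BdA.B14
import Vale.Agent.P353.BdA.B7
import Vale.Agent.P353.BdA.B6
import Vale.Agent.P353.BdA.B20
import Vale.Agent.P353.BdA.B50
import Vale.Agent.P353.BdA.B12
import Vale.Agent.P353.BdA.B21
import Vale.Agent.P353.BdA.B5
import Vale.Agent.P353.BdA.B9
import Vale.Agent.P353.BdA.B13

set_option linter.all false

section

/-! # P353, all `N`, block F: the joint kernel of the free supercharges -/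

open MeasureTheory Filter Topology
open scoped ContDiff ComplexConjugate

namespace Vale.Agent.P353.Z.AF

variable {r : ℕ} {K : Type*} [NormedAddCommGroup K] [InnerProductSpace ℂ K]

open Vale.Agent.P353.Z.U

/-- `diag(aw)` as a linear map -/
noncomputable def Kd0 (r : ℕ) : Cfg r →ₗ[ℝ] Cfg r where
  toFun x := WithLp.toLp 2 fun p => aw p.1 * x p
  map_add' x y := by
    ext p
    simp only [PiLp.add_apply]
    ring
  map_smul' c x := by
    ext p
    simp only [PiLp.smul_apply, smul_eq_mul, RingHom.id_apply]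
    ring

/-- `diag(aw)` -/
noncomputable def Kd (r : ℕ) : Cfg r →L[ℝ] Cfg r := LinearMap.toContinuousLinearMap (Kd0 r)

lemma Kd_apply (x : Cfg r) (p : Fin 9 × Fin r) : Kd r x p = aw p.1 * x p := rfl

lemma inner_Kd (x : Cfg r) : inner ℝ (Kd r x) x = ∑ i, ∑ A, aw i * x (i, A) ^ 2 := by
  rw [l1_inner_sum, Fintype.sum_prod_type]
  exact Finset.sum_congr rfl fun i _ => Finset.sum_congr rfl fun A _ => by rw [Kd_apply]; ring

variable (S : Setup r K)

lemma hq_zero (x : Cfg r) : 2 * S.hq 0 x = ∑ i, ∑ A, (aw i * x (i, A)) ^ 2 := by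
  have hLF : ∀ A i j, S.LF 0 A i j x = 0 := by
    intro A i j
    simp [Setup.LF]
  unfold Setup.hq Setup.LG
  simp only [hLF, zero_add]
  have h1 : ∑ i : Fin 9, ∑ A, (aw i * x (i, A)) ^ 2 =
      (∑ k : Fin 3, ∑ A, (2 * x (Setup.c3 k, A)) ^ 2) +
      ∑ i : Fin 9, ∑ A, (if i.val < 3 then 0 else x (i, A) ^ 2) := by
    simp [Fin.sum_univ_succ, Setup.c3, aw]
    ring
  rw [h1]
  have h2 : (∑ i : Fin 9, ∑ j : Fin 9, ∑ _A : Fin r, (if i.val < 3 ∧ j.val < 3 then (0 : ℝ) else 0 ^ 2)) = 0 :=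
    Finset.sum_eq_zero fun i _ => Finset.sum_eq_zero fun j _ => Finset.sum_eq_zero fun A _ => by
      split_ifs <;> norm_num
  rw [h2]
  ring

lemma isK : S.IsK 0 (Kd r) where
  symm x y := by
    rw [l1_inner_sum, l1_inner_sum]
    exact Finset.sum_congr rfl fun p _ => by rw [Kd_apply, Kd_apply]; ring
  pos x := by
    rw [real_inner_comm, inner_Kd]
    exact Finset.sum_nonneg fun i _ => Finset.sum_nonneg fun A _ =>
      mul_nonneg (by have := aw_ge i; linarith) (sq_nonneg _)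
  sq x := by
    rw [hq_zero, EuclideanSpace.norm_sq_eq, Fintype.sum_prod_type]
    exact Finset.sum_congr rfl fun i _ => Finset.sum_congr rfl fun A _ => by
      rw [Kd_apply, Real.norm_eq_abs, sq_abs]

lemma Vm_zero : S.Vm 1 0 = 0 := by
  simp [Setup.Vm, Setup.V, Setup.FF, Setup.det3]

lemma Qlin_zero (β : Fin 16) (u : Cfg r → K) (x : Cfg r) : S.Qlin 0 β u x = S.FD β u x := by
  have h : S.DW 0 β x = 0 := by simp [Setup.DW]
  rw [Setup.Qlin, h, _root_.zero_apply, add_zero]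
  rfl

/-- a continuous function that is orthogonal to all test functions vanishes -/
lemma eq_zero_of_tst [CompleteSpace K] {h : Cfg r → K} (hc : Continuous h)
    (h0 : ∀ ζ, Setup.Tst ζ → ∫ x, inner ℂ (ζ x) (h x) = 0) : h = 0 := by
  have h1 : ∀ᵐ x ∂(volume : Measure (Cfg r)), h x = 0 := by
    refine ae_eq_zero_of_integral_contDiff_smul_eq_zero hc.locallyIntegrable fun g hg hgc => ?_
    have hi : Integrable (fun x => g x • h x) :=
      (hg.continuous.smul hc).integrable_of_hasCompactSupport hgc.smul_right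
    refine ext_inner_left ℂ fun e => ?_
    rw [inner_zero_right, ← integral_inner hi]
    have hT : Setup.Tst (fun x => ((g x : ℝ) : ℂ) • e) := by
      refine ⟨(Setup.contDiff_ofReal hg).smul contDiff_const, hgc.mono ?_⟩
      intro x hx
      simp only [Function.mem_support] at hx ⊢
      intro h0
      exact hx (by simp [h0])
    rw [← h0 _ hT]
    refine integral_congr_ae (Eventually.of_forall fun x => ?_)
    simp only
    rw [← Complex.coe_smul, inner_smul_right, inner_smul_left, Complex.conj_ofReal]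
  exact (Continuous.ae_eq_iff_eq volume hc continuous_const).1 h1

lemma vac_of_FD {w : K} (h : ∀ β x, S.FD β (fun x : Cfg r => (gss x : ℂ) • w) x = 0) :
    ∀ A α, S.amF A α w = 0 := by
  have h1 : ∀ i A β, Complex.I • S.vec (S.g i) A β w + S.vec (S.g i * S.Gam) A β w = 0 := by
    intro i A β
    have h2 := h β (EuclideanSpace.single (i, A) 1)
    rw [FD_gss_eq] at h2
    rw [Finset.sum_eq_single i, Finset.sum_eq_single A] at h2
    · rcases smul_eq_zero.1 h2 with h3 | h3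
      · exfalso
        have h4 : aw i * (EuclideanSpace.single (i, A) (1 : ℝ) : Cfg r) (i, A) *
            gss (EuclideanSpace.single (i, A) (1 : ℝ) : Cfg r) = 0 := by exact_mod_cast h3
        have h5 := gss_pos (EuclideanSpace.single (i, A) (1 : ℝ) : Cfg r)
        have h6 := aw_ge i
        have h7 : (EuclideanSpace.single (i, A) (1 : ℝ) : Cfg r) (i, A) = 1 := by simp
        rw [h7, mul_one] at h4
        have : 0 < aw i * gss (EuclideanSpace.single (i, A) (1 : ℝ) : Cfg r) :=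
          mul_pos (by linarith) h5
        linarith
      · exact h3
    · intro B _ hB
      have : (EuclideanSpace.single (i, A) (1 : ℝ) : Cfg r) (i, B) = 0 := by
        simp [hB]
      rw [this]; simp
    · intro hA; exact absurd (Finset.mem_univ _) hA
    · intro j _ hj
      refine Finset.sum_eq_zero fun B _ => ?_
      have : (EuclideanSpace.single (i, A) (1 : ℝ) : Cfg r) (j, B) = 0 := by
        simp [hj]
      rw [this]; simp
    · intro hi; exact absurd (Finset.mem_univ _) hi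
  intro A α
  have h2 : ∑ β, S.g 0 α β • (Complex.I • S.vec (S.g 0) A β w + S.vec (S.g 0 * S.Gam) A β w) = 0 :=
    Finset.sum_eq_zero fun β _ => by rw [h1, smul_zero]
  have h3 : ∑ β, S.g 0 α β • S.vec (S.g 0) A β w = S.th α A w := by
    have := S.vec_mul (S.g 0) (S.g 0) A α
    rw [S.g_sqE, S.vec_one] at this
    rw [this]
    simp only [_root_.sum_apply, _root_.smul_apply]
  have h4 : ∑ β, S.g 0 α β • S.vec (S.g 0 * S.Gam) A β w = S.vec S.Gam A α w := by
    have := S.vec_mul (S.g 0) (S.g 0 * S.Gam) A α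
    rw [← mul_assoc, S.g_sqE, one_mul] at this
    rw [this]
    simp only [_root_.sum_apply, _root_.smul_apply]
  simp only [smul_add, Finset.sum_add_distrib] at h2
  have h5 : ∑ β, S.g 0 α β • Complex.I • S.vec (S.g 0) A β w = Complex.I • S.th α A w := by
    rw [← h3, Finset.smul_sum]
    exact Finset.sum_congr rfl fun β _ => smul_comm _ _ _
  rw [h5, h4] at h2
  have h6 : S.vec S.Gam A α w = -(Complex.I • S.th α A w) := by
    rw [eq_neg_iff_add_eq_zero, add_comm]; exact h2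
  rw [Setup.amF, _root_.sub_apply, _root_.smul_apply, h6, smul_neg, smul_smul, Complex.I_mul_I,
    neg_one_smul, neg_neg, sub_self]

/-- **F-Ker** -/
theorem ker [FiniteDimensional ℂ K] (hrem : RemStmt S) : KerStmt S := by
  intro L hL u hu h
  have hcomp : CompleteSpace K := FiniteDimensional.complete ℂ K
  have h0 : ∀ β, S.wF ∅ β u (fun _ => 0) := fun β => hrem L hL β u _ hu MemLp.zero (h β)
  have hQ : ∀ β ζ, Setup.Tst ζ → ∫ x, inner ℂ (S.Qlin 0 β ζ x) (u x) = 0 := by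
    intro β ζ hζ
    have := h0 β ζ (TstOff_empty.2 hζ)
    simp only [inner_zero_right, integral_zero] at this
    simp only [Qlin_zero]
    exact this
  obtain ⟨D, hDA, hDτ⟩ := l1_exists_data S (sq_stmt S) (hes_stmt S) (Vm_zero S) (isK S)
  set N1 : K →L[ℂ] K := S.Nx (trK (Kd r)) 0 with hN1
  have hpos : ∀ v, 0 ≤ (inner ℂ v (N1 v)).re := npos S (En.en S) 0 (Kd r) (Vm_zero S) (isK S)
  have hE : L1En S 0 D N1 := by
    intro v hv
    have := En.en S 0 (Kd r) (Vm_zero S) (isK S) v hv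
    rw [hDA]
    exact this
  have hG : ∀ (C : Fin r) ζ, Setup.Tst ζ → ∫ x, inner ℂ
      (∑ i, ∑ A, ∑ B, ((S.f C A B : ℂ) * (((0 : Cfg r) (i, A) : ℝ) : ℂ)) • pd i B ζ x) (u x) = 0 := by
    intro C ζ _
    simp
  have hu' : L1Gr u := by
    refine ⟨hu.1, fun s _ => (memLp_norm_sq_int hu).integrableOn, nsq u, 0, fun s _ => ?_⟩
    rw [pow_zero, mul_one]
    exact setIntegral_le_integral (memLp_norm_sq_int hu) (Eventually.of_forall fun x => by positivity)
  let N' : K →L[ℂ] K := ContinuousLinearMap.adjoint N1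
  have hN' : ∀ v w, inner ℂ (N' v) w = inner ℂ v (N1 w) := fun v w =>
    ContinuousLinearMap.adjoint_inner_left N1 w v
  have hN'' : ∀ v w, inner ℂ (N1 v) w = inner ℂ v (N' w) := fun v w => by
    rw [← inner_conj_symm, ← hN' w v, inner_conj_symm]
  let T : K →ₗ[ℂ] K := ((N1 + N' : K →L[ℂ] K) : K →ₗ[ℂ] K)
  have hTa : ∀ v, T v = N1 v + N' v := fun v => rfl
  have hT : T.IsSymmetric := by
    intro v w
    rw [hTa, hTa, inner_add_left, inner_add_right, hN', hN'', add_comm]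
  obtain ⟨n, b, μ, hTb⟩ := l1_eig T hT
  have hb : ∀ j, N1 (b j) + N' (b j) = ((μ j : ℝ) : ℂ) • b j := fun j => by
    rw [← hTa, hTb]
  have hμ : ∀ j, μ j = 2 * (inner ℂ (b j) (N1 (b j))).re := fun j => by
    have e1 : inner ℂ (b j) (N1 (b j) + N' (b j)) = ((μ j : ℝ) : ℂ) := by
      rw [hb j, inner_smul_right, inner_self_eq_norm_sq_to_K, b.norm_eq_one]
      simp
    have e2 : inner ℂ (b j) (N' (b j)) = conj (inner ℂ (b j) (N1 (b j))) := by
      rw [← hN'', inner_conj_symm]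
    rw [inner_add_right, e2] at e1
    have e3 := congrArg Complex.re e1
    rw [Complex.add_re, Complex.conj_re, Complex.ofReal_re] at e3
    linarith
  have hμ0 : ∀ j, 0 ≤ μ j := fun j => by rw [hμ j]; have := hpos (b j); linarith
  have hc : ∀ j, ∃ c : ℂ, (0 < μ j / 2 → c = 0) ∧
      ∀ᵐ x ∂(volume : Measure (Cfg r)), inner ℂ (b j) (u x) = c * D.GG x := fun j =>
    (l1_scalar S hDτ hE N' hN' hu' hQ hG (hb j)).liouville (by have := hμ0 j; linarith)
  choose c hc0 hc1 using hc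
  have hall : ∀ᵐ x ∂(volume : Measure (Cfg r)), ∀ j, inner ℂ (b j) (u x) = c j * D.GG x :=
    ae_all_iff.mpr hc1
  have hGG : ∀ x, D.GG x = (gss x : ℂ) := by
    intro x
    rw [L1D.GG_eq, hDA, inner_Kd, gss]
  have hae : ∀ᵐ x ∂(volume : Measure (Cfg r)), u x = (gss x : ℂ) • ∑ j, c j • b j := by
    filter_upwards [hall] with x hx
    have h1 : u x = ∑ j, inner ℂ (b j) (u x) • b j := (b.sum_repr' (u x)).symm
    rw [h1, Finset.smul_sum]
    refine Finset.sum_congr rfl fun j _ => ?_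
    rw [hx j, hGG, smul_smul, mul_comm]
  refine ⟨∑ j, c j • b j, vac_of_FD S fun β x => ?_, hae⟩
  set w := ∑ j, c j • b j with hw
  have hs : ContDiff ℝ ∞ (fun x : Cfg r => (gss x : ℂ) • w) :=
    (Setup.contDiff_ofReal contDiff_gss).smul contDiff_const
  have hz := eq_zero_of_tst (contDiff_FD S hs β).continuous fun ζ hζ => by
    rw [← FD_symm S β ζ _ hζ hs]
    have h2 := h0 β ζ (TstOff_empty.2 hζ)
    simp only [inner_zero_right, integral_zero] at h2
    rw [← h2]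
    refine integral_congr_ae ?_
    filter_upwards [hae] with x hx
    rw [hx]
  exact congrFun hz x

end Vale.Agent.P353.Z.AF
end

section

/-! # P353, all `N`: profile spaces — dense test space, ground state, approximation and kernel (from block F)

`S : Setup r K` arbitrary Clifford system with values in the finite dimensional space `K` of the zero modes of the internal part,
`L` the collision covectors. `HL r K = L²(Cfg r; K)`, `DL r K L` = classes of test functions supported off `Coll L`, `rp` = the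
continuous representative, `DsL S β` = free BMN supercharge on `DL`. -/

open MeasureTheory Filter Topology
open scoped ContDiff

namespace Vale.Agent.P353.Z.AJK

open Vale.Agent.P353.Z.AF

variable {r : ℕ} {K : Type*} [NormedAddCommGroup K] [InnerProductSpace ℂ K]

/-- profile space -/
abbrev HL (r : ℕ) (K : Type*) [NormedAddCommGroup K] : Type _ := Lp K 2 (volume : Measure (Cfg r))

lemma tstOff_add {L : Finset (Fin r → ℝ)} {u v : Cfg r → K} (hu : TstOff L u) (hv : TstOff L v) :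
    TstOff L (fun x => u x + v x) := by
  refine ⟨⟨hu.1.1.add hv.1.1, hu.1.2.add hv.1.2⟩, ?_⟩
  have h := tsupport_add u v
  exact (Set.disjoint_union_left.2 ⟨hu.2, hv.2⟩).mono_left h

lemma tstOff_smul {L : Finset (Fin r → ℝ)} {u : Cfg r → K} (hu : TstOff L u) (c : ℂ) :
    TstOff L (fun x => c • u x) := by
  have hs : tsupport (fun x => c • u x) ⊆ tsupport u := by
    refine closure_mono fun x hx => ?_
    simp only [Function.mem_support] at hx ⊢
    intro h0
    exact hx (by rw [h0, smul_zero])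
  exact ⟨⟨contDiff_const.smul hu.1.1, hu.1.2.mono' ((subset_tsupport _).trans hs)⟩, hu.2.mono_left hs⟩

lemma tstOff_zero {L : Finset (Fin r → ℝ)} : TstOff L (fun _ : Cfg r => (0 : K)) := by
  refine ⟨⟨contDiff_const, HasCompactSupport.zero⟩, ?_⟩
  have : tsupport (fun _ : Cfg r => (0 : K)) = ∅ := by
    rw [tsupport_eq_empty_iff]
    rfl
  rw [this]
  exact Set.empty_disjoint _

lemma tstOff_FD (S : Setup r K) {L : Finset (Fin r → ℝ)} {u : Cfg r → K} (hu : TstOff L u) (β : Fin 16) :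
    TstOff L (S.FD β u) := by
  refine ⟨Tst_FD S hu.1 β, hu.2.mono_left ?_⟩
  refine closure_minimal (fun x hx => ?_) (isClosed_tsupport u)
  by_contra hn
  refine hx ?_
  have h0 : u =ᶠ[𝓝 x] fun _ => 0 := notMem_tsupport_iff_eventuallyEq.1 hn
  have h1 : u x = 0 := h0.self_of_nhds
  have h2 : ∀ i A, pd i A u x = 0 := by
    intro i A
    unfold pd
    rw [h0.fderiv_eq]
    simp
  simp [Setup.FD, Setup.Q0, h1, h2]

/-- classes of test functions supported off the collisions -/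
noncomputable def DL (r : ℕ) (K : Type*) [NormedAddCommGroup K] [InnerProductSpace ℂ K] (L : Finset (Fin r → ℝ)) :
    Submodule ℂ (HL r K) where
  carrier := {f | ∃ ζ : Cfg r → K, TstOff L ζ ∧ f =ᵐ[volume] ζ}
  add_mem' := by
    rintro a b ⟨u, hu, hau⟩ ⟨v, hv, hbv⟩
    refine ⟨_, tstOff_add hu hv, ?_⟩
    filter_upwards [Lp.coeFn_add a b, hau, hbv] with x h1 h2 h3
    rw [h1, Pi.add_apply, h2, h3]
  zero_mem' := ⟨_, tstOff_zero, Lp.coeFn_zero _ _ _⟩
  smul_mem' := by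
    rintro c a ⟨u, hu, hau⟩
    refine ⟨_, tstOff_smul hu c, ?_⟩
    filter_upwards [Lp.coeFn_smul c a, hau] with x h1 h2
    rw [h1, Pi.smul_apply, h2]

variable {L : Finset (Fin r → ℝ)}

/-- the smooth representative -/
noncomputable def rp (a : DL r K L) : Cfg r → K := a.2.choose

lemma rp_tst (a : DL r K L) : TstOff L (rp a) := a.2.choose_spec.1

lemma rp_ae (a : DL r K L) : (a : HL r K) =ᵐ[volume] rp a := a.2.choose_spec.2

/-- class of a test function -/
noncomputable def cl (ζ : Cfg r → K) (hζ : TstOff L ζ) : DL r K L := ⟨hζ.1.memLp.toLp ζ, ζ, hζ, hζ.1.memLp.coeFn_toLp⟩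

lemma cl_ae (ζ : Cfg r → K) (hζ : TstOff L ζ) : ((cl ζ hζ : DL r K L) : HL r K) =ᵐ[volume] ζ := hζ.1.memLp.coeFn_toLp

lemma rp_eq {a : DL r K L} {ζ : Cfg r → K} (hζ : TstOff L ζ) (h : (a : HL r K) =ᵐ[volume] ζ) : rp a = ζ :=
  Continuous.ae_eq_iff_eq (volume : Measure (Cfg r)) (rp_tst a).1.1.continuous hζ.1.1.continuous |>.1 ((rp_ae a).symm.trans h)

lemma rp_cl (ζ : Cfg r → K) (hζ : TstOff L ζ) : rp (cl ζ hζ : DL r K L) = ζ := rp_eq hζ (cl_ae ζ hζ)

lemma cl_rp (a : DL r K L) : cl (rp a) (rp_tst a) = a := by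
  refine Subtype.ext (Lp.ext ?_)
  exact (cl_ae _ _).trans (rp_ae a).symm

/-- free BMN supercharge on the test space -/
noncomputable def DsL (S : Setup r K) (β : Fin 16) (a : DL r K L) : DL r K L := cl (S.FD β (rp a)) (tstOff_FD S (rp_tst a) β)

lemma rp_DsL (S : Setup r K) (β : Fin 16) (a : DL r K L) : rp (DsL S β a) = S.FD β (rp a) := rp_cl _ _

lemma inner_cl (ζ : Cfg r → K) (hζ : TstOff L ζ) (w : HL r K) :
    inner ℂ ((cl ζ hζ : DL r K L) : HL r K) w = ∫ x, inner ℂ (ζ x) (w x) := by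
  rw [L2.inner_def]
  refine integral_congr_ae ?_
  filter_upwards [cl_ae ζ hζ] with x hx
  rw [hx]

lemma norm_sq_eq (f : HL r K) : ‖f‖ ^ 2 = nsq f := by
  have h := inner_self_eq_norm_sq_to_K (𝕜 := ℂ) f
  rw [L2.inner_def] at h
  have h2 : (∫ x, inner ℂ (f x) (f x)) = ((nsq f : ℝ) : ℂ) := by
    unfold nsq
    rw [← integral_complex_ofReal]
    refine integral_congr_ae (Eventually.of_forall fun x => ?_)
    change inner ℂ (f x) (f x) = ((‖f x‖ ^ 2 : ℝ) : ℂ)
    rw [inner_self_eq_norm_sq_to_K]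
    push_cast
    rfl
  rw [h2] at h
  have h3 : ((nsq f : ℝ) : ℂ) = ((‖f‖ ^ 2 : ℝ) : ℂ) := by
    rw [h]
    push_cast
    rfl
  exact (Complex.ofReal_injective h3).symm

/-- class of the Gaussian with vector `w` -/
noncomputable def gcl (w : K) : HL r K := (memLp_gss (r := r) w).toLp _

lemma gcl_ae (w : K) : (gcl w : HL r K) =ᵐ[volume] fun x => (gss x : ℂ) • w := (memLp_gss w).coeFn_toLp

/-- **density** of the test space -/
theorem dense (S : Setup r K) (hL : ∀ l ∈ L, l ≠ 0) : Dense ((DL r K L : Submodule ℂ (HL r K)) : Set (HL r K)) := by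
  have h1 := Lp.dense_hasCompactSupport_contDiff (E := Cfg r) (F := K) (μ := (volume : Measure (Cfg r))) (p := 2) (by norm_num)
  have h2 : {f : Lp K 2 (volume : Measure (Cfg r)) | ∃ g : Cfg r → K, f =ᵐ[volume] g ∧ HasCompactSupport g ∧ ContDiff ℝ ∞ g} ⊆
      closure ((DL r K L : Submodule ℂ (HL r K)) : Set (HL r K)) := by
    rintro f ⟨g, hfg, hc, hs⟩
    obtain ⟨ζ, hζ, hl, _⟩ := den (cut r) S L hL (v := g) ⟨hs, hc⟩
    have e : f = hl.mem'.toLp g := Lp.ext (hfg.trans hl.mem'.coeFn_toLp.symm)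
    rw [e]
    exact mem_closure_of_tendsto hl.lim_toLp (Eventually.of_forall fun n => (cl (ζ n) (hζ n) : DL r K L).2)
  exact (h1.mono h2).of_closure

/-- **ground state** is a weak zero mode -/
theorem Ds_g (S : Setup r K) {w : K} (hw : ∀ A α, S.amF A α w = 0) (β : Fin 16) (a : DL r K L) :
    inner ℂ ((DsL S β a : DL r K L) : HL r K) (gcl w) = 0 := by
  have h := (gssS S w hw).2.2.2 L β (rp a) (rp_tst a)
  rw [DsL, inner_cl]
  rw [integral_congr_ae (g := fun x => inner ℂ (S.FD β (rp a) x) ((gss x : ℂ) • w))]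
  · rw [h]
    simp
  · filter_upwards [gcl_ae (r := r) w] with x hx
    rw [hx]

/-- **kernel** -/
theorem kerL [FiniteDimensional ℂ K] (S : Setup r K) (hL : ∀ l ∈ L, l ≠ 0) {Ω : K}
    (h1 : ∀ w : K, (∀ A α, S.amF A α w = 0) → ∃ c : ℂ, w = c • Ω) (w : HL r K)
    (hw : ∀ β (a : DL r K L), inner ℂ ((DsL S β a : DL r K L) : HL r K) w = 0) : ∃ c : ℂ, w = c • gcl Ω := by
  obtain ⟨v, hv, hav⟩ := ker S (rem S) L hL w (Lp.memLp w) (by
    intro β ζ hζ
    have h := hw β (cl ζ hζ)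
    rw [DsL, inner_cl, rp_cl] at h
    rw [h]
    simp)
  obtain ⟨c, rfl⟩ := h1 v hv
  refine ⟨c, Lp.ext ?_⟩
  filter_upwards [hav, Lp.coeFn_smul c (gcl Ω : HL r K), gcl_ae (r := r) Ω] with x h2 h3 h4
  rw [h2, h3, Pi.smul_apply, h4, smul_comm]

/-- **approximation** of the ground state in the graph norm -/
theorem appL (S : Setup r K) (hL : ∀ l ∈ L, l ≠ 0) {w : K} (hw : ∀ A α, S.amF A α w = 0) {ε : ℝ} (hε : 0 < ε) :
    ∃ a : DL r K L, ‖(a : HL r K) - gcl w‖ < ε ∧ ∀ β, ‖((DsL S β a : DL r K L) : HL r K)‖ < ε := by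
  obtain ⟨ζ, hζ, h1, h2⟩ := app (cut r) S L hL w hw
  have e1 : ∀ n, ‖((cl (ζ n) (hζ n) : DL r K L) : HL r K) - gcl w‖ ^ 2 = nsq (fun x => ζ n x - (gss x : ℂ) • w) := by
    intro n
    rw [norm_sq_eq]
    unfold nsq
    refine integral_congr_ae ?_
    filter_upwards [cl_ae (ζ n) (hζ n), gcl_ae (r := r) w,
      Lp.coeFn_sub ((cl (ζ n) (hζ n) : DL r K L) : HL r K) (gcl w)] with x h3 h4 h5
    simp only [h5, Pi.sub_apply, h3, h4]
  have e2 : ∀ n β, ‖((DsL S β (cl (ζ n) (hζ n)) : DL r K L) : HL r K)‖ ^ 2 = nsq (fun x => S.FD β (ζ n) x - 0) := by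
    intro n β
    rw [norm_sq_eq]
    unfold nsq
    refine integral_congr_ae ?_
    have h3 : ((DsL S β (cl (ζ n) (hζ n)) : DL r K L) : HL r K) =ᵐ[volume] S.FD β (ζ n) := by
      have := rp_ae (DsL S β (cl (ζ n) (hζ n)) : DL r K L)
      rwa [rp_DsL, rp_cl] at this
    filter_upwards [h3] with x h4
    simp only [h4, sub_zero]
  have hε2 : 0 < ε ^ 2 := by positivity
  have t1 : ∀ᶠ n in atTop, nsq (fun x => ζ n x - (gss x : ℂ) • w) < ε ^ 2 := h1.lim.eventually_lt_const hε2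
  have t2 : ∀ᶠ n in atTop, ∀ β, nsq (fun x => S.FD β (ζ n) x - 0) < ε ^ 2 :=
    eventually_all.2 fun β => (h2 β).lim.eventually_lt_const hε2
  obtain ⟨n, hn1, hn2⟩ := (t1.and t2).exists
  refine ⟨cl (ζ n) (hζ n), ?_, fun β => ?_⟩
  · exact lt_of_pow_lt_pow_left₀ 2 hε.le ((e1 n).trans_lt hn1)
  · exact lt_of_pow_lt_pow_left₀ 2 hε.le ((e2 n β).trans_lt (hn2 β))

end Vale.Agent.P353.Z.AJK
end

section

/-! # P353, all `N`: the concrete fields of the weak profile system `PW` (architect helper667)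

`Ty S` = data of one cluster type, in its own colour frame `O` (`S' = S.rot 1 O`); `pwT` = the structure `PW` for a finite family of types, from
`AL.UBStmt`, `AL.LinStmt`, `AL.IsoStmt`, `AL.ZMemStmt` (the trial functions are in `L²`) and `AE.RotOStmt`. -/

open MeasureTheory Filter Topology
open scoped ContDiff

namespace Vale.Agent.P353.Z

variable {d dh dm r ds n : ℕ} {F : Type*} [NormedAddCommGroup F] [InnerProductSpace ℂ F]

/-- **L-ZMem** the trial functions are in `L²` (helper182) -/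
def AL.ZMemStmt (S : Setup d F) : Prop := FiniteDimensional ℂ F → ∀ (dh dm r ds : ℕ) (φ : Spl dh dm d) (ψ : Spl r ds dh)
  (L : Finset (Fin r → ℝ)) (Om : Cfg r → Matrix (Fin dm) (Fin dm) ℝ) (K : Submodule ℂ F) (U : Cfg r → F →L[ℂ] F),
  AX.Bun S φ (AX.Mz S φ (spsw ψ)) L Om K U → ∀ A, IsCompact A → A ⊆ AL.Rg S φ ψ → ∀ R : ℝ, 0 < R →
  ∀ a : Cfg r → Cfg ds → F, AL.Sec2 A a →
    MemLp (AN.Zb φ ψ (fun q => ((AL.chi R q : ℝ) : ℂ) • AN.bG S.κ Om a q) R) 2 (volume : Measure (Cfg d))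

namespace AJK

lemma h91 : (1 : Matrix (Fin 9) (Fin 9) ℝ) * (1 : Matrix (Fin 9) (Fin 9) ℝ).transpose = 1 := by
  rw [Matrix.transpose_one, mul_one]

/-- data of one cluster type, in the colour frame `O` -/
structure Ty (S : Setup d F) where
  O : Matrix (Fin d) (Fin d) ℝ
  hO : O * O.transpose = 1
  dh : ℕ
  dm : ℕ
  r : ℕ
  ds : ℕ
  n : ℕ
  φ : Spl dh dm d
  ψ : Spl r ds dh
  z₀ : Cfg r
  std : AD.Std2 (S.rot 1 h91 O hO) φ (spsw ψ) z₀
  pos : 0 < dm
  L : Finset (Fin r → ℝ)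
  Om : Cfg r → Matrix (Fin dm) (Fin dm) ℝ
  K : Submodule ℂ F
  U : Cfg r → F →L[ℂ] F
  o : Fin n → Cfg ds → F
  T : Setup r (AL.Ek n)
  dat : AL.Dat (S.rot 1 h91 O hO) φ ψ L Om K U o T
  Ω : AL.Ek n
  Ω_norm : ‖Ω‖ = 1
  Ω_am : ∀ A α, T.amF A α Ω = 0
  Ω_one : ∀ w : AL.Ek n, (∀ A α, T.amF A α w = 0) → ∃ c : ℂ, w = c • Ω

/-- the rotated setup -/
noncomputable abbrev Ty.S' {S : Setup d F} (t : Ty S) : Setup d F := S.rot 1 h91 t.O t.hO

/-- the section of a profile -/
noncomputable def secT {S : Setup d F} (t : Ty S) (a : DL t.r (AL.Ek t.n) t.L) : Cfg t.r → Cfg t.ds → F :=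
  AL.sc t.U t.o (rp a)

/-- the trial function (representative of the functional) -/
noncomputable def ZT {S : Setup d F} (t : Ty S) (R : ℝ) (a : DL t.r (AL.Ek t.n) t.L) (x : Cfg d) : F :=
  AN.Zb t.φ t.ψ (fun q => ((AL.chi R q : ℝ) : ℂ) • AN.bG S.κ t.Om (AL.sc t.U t.o (rp a)) q) R (rox 1 t.O x)

/-- normalised ground state -/
noncomputable def gT {S : Setup d F} (t : Ty S) : HL t.r (AL.Ek t.n) :=
  gcl ((((‖(gcl t.Ω : HL t.r (AL.Ek t.n))‖)⁻¹ : ℝ) : ℂ) • t.Ω)

lemma gcl_smul {r : ℕ} {K : Type*} [NormedAddCommGroup K] [InnerProductSpace ℂ K] (c : ℂ) (w : K) :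
    (gcl (c • w) : HL r K) = c • gcl w := by
  refine Lp.ext ?_
  filter_upwards [gcl_ae (r := r) (c • w), Lp.coeFn_smul c (gcl w : HL r K), gcl_ae (r := r) w] with x h1 h2 h3
  rw [h1, h2, Pi.smul_apply, h3, smul_comm]

lemma gss_pos {r : ℕ} (x : Cfg r) : 0 < gss x := Real.exp_pos _

lemma gcl_ne {r : ℕ} {K : Type*} [NormedAddCommGroup K] [InnerProductSpace ℂ K] {w : K} (hw : w ≠ 0) :
    (gcl w : HL r K) ≠ 0 := by
  intro h0
  have h1 := gcl_ae (r := r) w
  rw [h0] at h1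
  have h2 : ∀ᵐ x ∂(volume : Measure (Cfg r)), False := by
    filter_upwards [h1, Lp.coeFn_zero K 2 (volume : Measure (Cfg r))] with x h3 h4
    rw [h4, Pi.zero_apply] at h3
    have h5 := smul_eq_zero.1 h3.symm
    rcases h5 with h5 | h5
    · exact (gss_pos x).ne' (by exact_mod_cast h5)
    · exact hw h5
  have h3 : (volume : Measure (Cfg r)) Set.univ = 0 := by
    have := ae_iff.1 h2
    simpa using this
  exact (Measure.measure_univ_ne_zero.2 (NeZero.ne _)) h3

section one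

variable {S : Setup d F} (t : Ty S)

lemma Ω_ne : t.Ω ≠ 0 := by
  intro h
  have := t.Ω_norm
  rw [h, norm_zero] at this
  exact zero_ne_one this

lemma gT_norm : ‖gT t‖ = 1 := by
  have h0 : ‖(gcl t.Ω : HL t.r (AL.Ek t.n))‖ ≠ 0 := norm_ne_zero_iff.2 (gcl_ne (Ω_ne t))
  rw [gT, gcl_smul, norm_smul, Complex.norm_real, norm_inv, norm_norm, inv_mul_cancel₀ h0]

lemma L_ne : ∀ l ∈ t.L, l ≠ 0 := t.dat.bun.L_ne

lemma appT {ε : ℝ} (hε : 0 < ε) : ∃ a : DL t.r (AL.Ek t.n) t.L, ‖(a : HL t.r (AL.Ek t.n)) - gT t‖ ≤ ε ∧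
    ∀ β, ‖((DsL t.T β a : DL t.r (AL.Ek t.n) t.L) : HL t.r (AL.Ek t.n))‖ ≤ ε := by
  obtain ⟨a, h1, h2⟩ := appL t.T (L_ne t) (w := (((‖(gcl t.Ω : HL t.r (AL.Ek t.n))‖)⁻¹ : ℝ) : ℂ) • t.Ω)
    (fun A α => by rw [map_smul, t.Ω_am, smul_zero]) hε
  exact ⟨a, h1.le, fun β => (h2 β).le⟩

lemma kerT (w : HL t.r (AL.Ek t.n)) (hw : ∀ β (a : DL t.r (AL.Ek t.n) t.L),
    inner ℂ ((DsL t.T β a : DL t.r (AL.Ek t.n) t.L) : HL t.r (AL.Ek t.n)) w = 0) : ∃ c : ℂ, w = c • gT t := by
  obtain ⟨c, hc⟩ := kerL t.T (L_ne t) t.Ω_one w hw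
  have h0 : ‖(gcl t.Ω : HL t.r (AL.Ek t.n))‖ ≠ 0 := norm_ne_zero_iff.2 (gcl_ne (Ω_ne t))
  refine ⟨c * (‖(gcl t.Ω : HL t.r (AL.Ek t.n))‖ : ℂ), ?_⟩
  rw [gT, gcl_smul, smul_smul, mul_assoc, ← Complex.ofReal_mul, mul_inv_cancel₀ h0]
  simpa using hc

/-- `0` is a collision point -/
lemma zero_mem : (0 : Cfg t.r) ∈ Coll t.L := by
  by_contra h
  have h1 := t.dat.bun.det 0 h
  have h2 : (∑ i, DM (AX.Mz t.S' t.φ (spsw t.ψ)) (0 : Cfg t.r) i * DM (AX.Mz t.S' t.φ (spsw t.ψ)) (0 : Cfg t.r) i) = 0 := by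
    refine Finset.sum_eq_zero fun i _ => ?_
    simp [DM]
  rw [h2] at h1
  have : Nonempty (Fin t.dm) := ⟨⟨0, t.pos⟩⟩
  exact h1 Matrix.det_zero

lemma sub_Rg {A : Set (Cfg t.r)} (hA : Disjoint A (Coll t.L)) : A ⊆ AL.Rg t.S' t.φ t.ψ := by
  intro η hη
  have h := t.dat.bun.det η (Set.disjoint_left.1 hA hη)
  rw [AX.DM_Dz] at h
  exact h

/-- a compact set off the collisions lies in a shell -/
lemma in_shl {A : Set (Cfg t.r)} (hA : IsCompact A) (hd : Disjoint A (Coll t.L)) :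
    ∃ s T : ℝ, 0 < s ∧ s < T ∧ A ⊆ AD.shl t.r s T := by
  have h0 : (0 : Cfg t.r) ∉ A := fun h => Set.disjoint_left.1 hd h (zero_mem t)
  obtain ⟨ε, hε, hb⟩ := Metric.isOpen_iff.1 hA.isClosed.isOpen_compl 0 h0
  obtain ⟨M, hM⟩ := hA.isBounded.exists_norm_le
  refine ⟨ε / 2, max M ε + 1, by positivity, by linarith [le_max_right M ε], fun η hη => ⟨?_, ?_⟩⟩
  · by_contra hn
    push Not at hn
    have : η ∈ Metric.ball (0 : Cfg t.r) ε := by
      rw [mem_ball_zero_iff]
      linarith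
    exact hb this hη
  · have := hM η hη
    linarith [le_max_left M ε]

lemma rp_mem (a : DL t.r (AL.Ek t.n) t.L) : MemLp (rp a) 2 (volume : Measure (Cfg t.r)) := (rp_tst a).1.memLp

lemma norm_rp (a : DL t.r (AL.Ek t.n) t.L) : ∫ x, ‖rp a x‖ ^ 2 = ‖(a : HL t.r (AL.Ek t.n))‖ ^ 2 := by
  rw [norm_sq_eq]
  unfold nsq
  refine integral_congr_ae ?_
  filter_upwards [rp_ae a] with x hx
  rw [hx]

/-- profile sections -/
lemma sec2 (hIso : AL.IsoStmt t.S') (a : DL t.r (AL.Ek t.n) t.L) {A : Set (Cfg t.r)} (hA : IsCompact A)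
    (hd : Disjoint A (Coll t.L)) (hs : tsupport (rp a) ⊆ A) :
    AL.Sec2 A (AL.sc t.U t.o (rp a)) ∧ AL.n2 (AL.sc t.U t.o (rp a)) = ‖(a : HL t.r (AL.Ek t.n))‖ ^ 2 := by
  have h := hIso t.dh t.dm t.r t.ds t.n t.φ t.ψ t.L t.Om t.K t.U t.o t.T t.dat A hA
    (Set.subset_compl_iff_disjoint_right.2 hd) (rp a) (rp_mem t a) fun x hx => by
      by_contra hn
      exact hx (hs (subset_tsupport _ hn))
  exact ⟨h.1, h.2.trans (norm_rp t a)⟩

lemma rp_comb (a b : DL t.r (AL.Ek t.n) t.L) (c : ℂ) : rp (c • a + b) = fun x => c • rp a x + rp b x := by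
  refine rp_eq (tstOff_add (tstOff_smul (rp_tst a) c) (rp_tst b)) ?_
  have h0 : (((c • a + b : DL t.r (AL.Ek t.n) t.L)) : HL t.r (AL.Ek t.n)) =
      c • (a : HL t.r (AL.Ek t.n)) + (b : HL t.r (AL.Ek t.n)) := rfl
  rw [h0]
  filter_upwards [Lp.coeFn_add (c • (a : HL t.r (AL.Ek t.n))) (b : HL t.r (AL.Ek t.n)),
    Lp.coeFn_smul c (a : HL t.r (AL.Ek t.n)), rp_ae a, rp_ae b] with x h1 h2 h3 h4
  rw [h1, Pi.add_apply, h2, Pi.smul_apply, h3, h4]

lemma sc_comb (a b : DL t.r (AL.Ek t.n) t.L) (c : ℂ) : AL.sc t.U t.o (rp (c • a + b)) =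
    fun η s => (fun η s => c • AL.sc t.U t.o (rp a) η s) η s + AL.sc t.U t.o (rp b) η s := by
  funext η s
  rw [rp_comb]
  simp only [AL.sc, PiLp.add_apply, PiLp.smul_apply, smul_eq_mul, add_smul, mul_smul, Finset.sum_add_distrib, Finset.smul_sum]

/-- transport of test functions -/
noncomputable def tr (O : Matrix (Fin d) (Fin d) ℝ) (u : Cfg d → F) (x : Cfg d) : F := u (rox 1 O.transpose x)

lemma ipr_ZT (hRot : AE.RotOStmt S) (R : ℝ) (a : DL t.r (AL.Ek t.n) t.L) (u : Cfg d → F) :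
    ipr (ZT t R a) u = AL.ZZ S.κ t.φ t.ψ t.Om (AL.sc t.U t.o (rp a)) R (tr t.O u) :=
  (hRot h91 t.O t.hO).2.2 (AN.Zb t.φ t.ψ (fun q => ((AL.chi R q : ℝ) : ℂ) • AN.bG S.κ t.Om (AL.sc t.U t.o (rp a)) q) R) u

lemma tr_GInv (hRot : AE.RotOStmt S) {u : Cfg d → F} (hu : S.GInv u) : t.S'.GInv (tr t.O u) ∧ nsq (tr t.O u) = nsq u :=
  ⟨((hRot h91 t.O t.hO).1 u hu).1, ((hRot h91 t.O t.hO).1 u hu).2.1⟩

lemma ZT_mem (hfin : FiniteDimensional ℂ F) (hIso : AL.IsoStmt t.S') (hZ : AL.ZMemStmt t.S') (a : DL t.r (AL.Ek t.n) t.L) {R : ℝ}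
    (hR : 0 < R) : MemLp (ZT t R a) 2 (volume : Measure (Cfg d)) := by
  have h := hZ hfin t.dh t.dm t.r t.ds t.φ t.ψ t.L t.Om t.K t.U t.dat.bun (tsupport (rp a)) (rp_tst a).1.2
    (sub_Rg t (rp_tst a).2) R hR _ (sec2 t hIso a (rp_tst a).1.2 (rp_tst a).2 subset_rfl).1
  exact h.comp_measurePreserving (AN.rt_mp h91 t.hO)

lemma ZT_lin (hfin : FiniteDimensional ℂ F) (hRot : AE.RotOStmt S) (hIso : AL.IsoStmt t.S') (hLin : AL.LinStmt t.S')
    (a b : DL t.r (AL.Ek t.n) t.L) (c : ℂ) {R : ℝ} (hR : 0 < R) {u : Cfg d → F} (hu : S.GInv u) :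
    ipr (ZT t R (c • a + b)) u = (starRingEnd ℂ) c * ipr (ZT t R a) u + ipr (ZT t R b) u := by
  have hc : IsCompact (tsupport (rp a) ∪ tsupport (rp b)) := (rp_tst a).1.2.union (rp_tst b).1.2
  have hd : Disjoint (tsupport (rp a) ∪ tsupport (rp b)) (Coll t.L) := Set.disjoint_union_left.2 ⟨(rp_tst a).2, (rp_tst b).2⟩
  obtain ⟨-, h2, h3⟩ := hLin hfin t.dh t.dm t.r t.ds t.φ t.ψ t.L t.Om t.K t.U t.dat.bun _ hc (sub_Rg t hd) R hR
    (tr t.O u) (tr_GInv t hRot hu).1.1
  have ha := (sec2 t hIso a hc hd Set.subset_union_left).1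
  have hb := (sec2 t hIso b hc hd Set.subset_union_right).1
  have hca : AL.Sec2 (tsupport (rp a) ∪ tsupport (rp b)) fun η s => c • AL.sc t.U t.o (rp a) η s :=
    ⟨ha.1.const_smul c, fun η s hne => ha.2 η s fun h0 => hne (by
      change c • AL.sc t.U t.o (rp a) η s = 0
      rw [h0, smul_zero])⟩
  have e1 := h2 _ _ hca hb
  have e2 := h3 c _ ha
  rw [ipr_ZT t hRot, ipr_ZT t hRot, ipr_ZT t hRot, sc_comb]
  change AL.ZZ t.S'.κ t.φ t.ψ t.Om _ R (tr t.O u) = _ * AL.ZZ t.S'.κ t.φ t.ψ t.Om _ R (tr t.O u) +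
    AL.ZZ t.S'.κ t.φ t.ψ t.Om _ R (tr t.O u)
  rw [e1, e2]

lemma mas_le {u : Cfg d → F} (hu : Setup.Tst u) (A : Set (Cfg d)) : AD.mas u A ≤ nsq u := by
  unfold AD.mas nsq
  exact setIntegral_le_integral ((hu.memLp).integrable_norm_pow (by norm_num)) (Eventually.of_forall fun x => by positivity)

lemma ZT_ub (hfin : FiniteDimensional ℂ F) (hRot : AE.RotOStmt S) (hIso : AL.IsoStmt t.S') (hUB : AL.UBStmt t.S')
    (hC : AN.Cless t.S') : ∃ C : ℝ, 0 ≤ C ∧ ∀ (a : DL t.r (AL.Ek t.n) t.L) (R : ℕ → ℝ) (u : ℕ → Cfg d → F) (A : ℝ), BdL S R u A →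
      ∀ ε : ℝ, 0 < ε → ∀ᶠ n in atTop, ‖ipr (ZT t (R n) a) (u n)‖ ≤ C * ‖(a : HL t.r (AL.Ek t.n))‖ * Real.sqrt A + ε := by
  obtain ⟨C, hC0, hb⟩ := hUB hfin hC t.dh t.dm t.r t.ds t.φ t.ψ t.z₀ t.std t.L t.Om t.K t.U t.dat.bun
  refine ⟨C, hC0.le, fun a R u A h ε hε => ?_⟩
  obtain ⟨s, T, hs, hsT, hsh⟩ := in_shl t (rp_tst a).1.2 (rp_tst a).2
  obtain ⟨hs2, hn2⟩ := sec2 t hIso a (rp_tst a).1.2 (rp_tst a).2 subset_rfl
  have hlim : Tendsto (fun n => max (R n) 1) atTop atTop :=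
    tendsto_atTop_mono (fun n => le_max_left _ _) h.R_lim
  have hbd : ∀ (n : ℕ) (B : Set (Cfg d)), AD.mas (tr t.O (u n)) B ≤ A := fun n B =>
    (mas_le (tr_GInv t hRot (h.inv n)).1.1 B).trans ((tr_GInv t hRot (h.inv n)).2.trans_le (h.norm n))
  have hSq : AL.SqM t.S' (fun n => max (R n) 1) fun n => tr t.O (u n) :=
    ⟨fun n => (tr_GInv t hRot (h.inv n)).1, fun n => lt_of_lt_of_le one_pos (le_max_right _ _), hlim,
      fun s t _ _ => ⟨A, fun n => hbd n _⟩⟩
  have h1 := hb s T hs hsT _ (rp_tst a).1.2 hsh (sub_Rg t (rp_tst a).2) _ _ hSq _ hs2 ε hε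
  have h2 : ∀ᶠ n in atTop, max (R n) 1 = R n := by
    filter_upwards [h.R_lim.eventually_ge_atTop 1] with n hn
    exact max_eq_left hn
  filter_upwards [h1, h2] with n h3 h4
  rw [ipr_ZT t hRot, ← h4]
  refine h3.trans ?_
  rw [hn2, Real.sqrt_sq (norm_nonneg _)]
  have h5 : Real.sqrt (AD.mas (tr t.O (u n)) (AD.shl d (s * max (R n) 1) (T * max (R n) 1))) ≤ Real.sqrt A :=
    Real.sqrt_le_sqrt (hbd n _)
  have h6 := mul_le_mul_of_nonneg_left h5 (mul_nonneg hC0.le (norm_nonneg (a : HL t.r (AL.Ek t.n))))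
  linarith

end one

/-- the rotated setup is centreless -/
lemma cless_rot {S : Setup d F} (hC : AN.Cless S) (O : Matrix (Fin d) (Fin d) ℝ) (hO : O * O.transpose = 1) :
    AN.Cless (S.rot 1 h91 O hO) := by
  intro v hv
  have ho := AN.rt_orth hO
  have key : ∀ B C, ∑ A, (S.rot 1 h91 O hO).f A B C * v A =
      ∑ b, O B b • ∑ c, O C c • ∑ a, S.f a b c * ∑ A, O A a * v A := by
    intro B C
    change ∑ A, (∑ a, ∑ b, ∑ c, O A a * O B b * O C c * S.f a b c) * v A = _
    simp only [smul_eq_mul, Finset.sum_mul, Finset.mul_sum]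
    rw [Finset.sum_comm]
    refine (Finset.sum_congr rfl fun a _ => Finset.sum_comm).trans ?_
    rw [Finset.sum_comm]
    refine Finset.sum_congr rfl fun b _ => ?_
    refine (Finset.sum_congr rfl fun a _ => Finset.sum_comm).trans ?_
    rw [Finset.sum_comm]
    refine Finset.sum_congr rfl fun c _ => Finset.sum_congr rfl fun a _ => Finset.sum_congr rfl fun A _ => ?_
    ring
  have h2 : ∀ k l, (∑ a, S.f a k l * ∑ A, O A a * v A) = 0 := by
    intro k l
    rw [← AN.rt_two (M := ℝ) (fun A a => O A a) ho k l fun b c => ∑ a, S.f a b c * ∑ A, O A a * v A]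
    refine Finset.sum_eq_zero fun B _ => Finset.sum_eq_zero fun C _ => ?_
    rw [← key B C, hv B C, smul_zero]
  have h3 := hC (fun a => ∑ A, O A a * v A) h2
  funext B
  have h4 : ∑ a, O B a * ∑ A, O A a * v A = v B := by
    simp only [Finset.mul_sum, ← mul_assoc]
    rw [Finset.sum_comm]
    simp only [← Finset.sum_mul]
    have h5 : ∀ A, ∑ a, O B a * O A a = if B = A then 1 else 0 := by
      intro A
      have := congrFun (congrFun hO B) A
      rw [Matrix.mul_apply, Matrix.one_apply] at this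
      simpa [Matrix.transpose_apply] using this
    simp [h5]
  rw [← h4]
  refine Finset.sum_eq_zero fun a _ => ?_
  rw [show (∑ A, O A a * v A) = 0 from congrFun h3 a, mul_zero]

/-- **the weak profile system** of a family of types -/
noncomputable def pwT {S : Setup d F} (hfin : FiniteDimensional ℂ F) (hRot : AE.RotOStmt S) (hIso : ∀ S' : Setup d F, AL.IsoStmt S')
    (hLin : ∀ S' : Setup d F, AL.LinStmt S') (hZ : ∀ S' : Setup d F, AL.ZMemStmt S') (hUB : ∀ S' : Setup d F, AL.UBStmt S')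
    {ι : Type} (ty : ι → Ty S) (hC : AN.Cless S) : PW S ι where
  H i := HL (ty i).r (AL.Ek (ty i).n)
  D i := DL (ty i).r (AL.Ek (ty i).n) (ty i).L
  Ds i β a := DsL (ty i).T β a
  g i := gT (ty i)
  Z i R a := ZT (ty i) R a
  g_norm i := gT_norm (ty i)
  dense i := dense (ty i).T (L_ne (ty i))
  app i _ hε := appT (ty i) hε
  ker i w hw := kerT (ty i) w hw
  Z_mem i a := by
    filter_upwards [eventually_gt_atTop (0 : ℝ)] with R hR
    exact ZT_mem (ty i) hfin (hIso _) (hZ _) a hR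
  Z_lin i a b c R u A h := by
    refine (tendsto_congr' ?_).2 tendsto_const_nhds
    filter_upwards [h.R_lim.eventually_gt_atTop 0] with n hn
    rw [ZT_lin (ty i) hfin hRot (hIso _) (hLin _) a b c hn (h.inv n), sub_self]
  ub i := ZT_ub (ty i) hfin hRot (hIso _) (hUB _) (cless_rot hC _ _)

/-- limit equation -/
theorem pwT_limEq {S : Setup d F} (hfin : FiniteDimensional ℂ F) (hRot : AE.RotOStmt S) (hIso : ∀ S' : Setup d F, AL.IsoStmt S')
    (hLin : ∀ S' : Setup d F, AL.LinStmt S') (hZ : ∀ S' : Setup d F, AL.ZMemStmt S') (hUB : ∀ S' : Setup d F, AL.UBStmt S')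
    {ι : Type} (ty : ι → Ty S) (hC : AN.Cless S) (hE : AE.LimOStmt S) (hchi : AE.ChiStmt) :
    (pwT hfin hRot hIso hLin hZ hUB ty hC).LimEq := by
  intro R Ψ C hB i β a
  have h := hE hfin h91 (ty i).O (ty i).hO _ _ _ _ _ (ty i).φ (ty i).ψ (ty i).L (ty i).Om (ty i).K (ty i).U (ty i).o (ty i).T
    (ty i).dat (fun R q => AL.chi R q) (hchi _ _ _) R Ψ C hB β (rp (show DL (ty i).r (AL.Ek (ty i).n) (ty i).L from a)) (rp_tst _)
  rw [← rp_DsL (ty i).T β] at h
  exact h

end AJK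

end Vale.Agent.P353.Z
end

section

/-! # P353, all `N`: the vacuum line in the coefficient space of the zero modes (bridge from block X2 to `AL.Dat`) -/

open MeasureTheory Filter Topology
open scoped ContDiff

namespace Vale.Agent.P353.Z.AJK

universe u

variable {d dh dm r ds n : ℕ} {F : Type u} [NormedAddCommGroup F] [InnerProductSpace ℂ F]

lemma isZM_iff (S : Setup d F) (Ψ : Lp F 2 (volume : Measure (Cfg d))) : S.IsZM Ψ ↔ AD.ZM S Ψ := by
  constructor
  · rintro ⟨u, h1, h2, h3, h4⟩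
    refine ⟨u, fun n => ⟨h1 n, h2 n⟩, Lp_L2t h1 h3, ?_⟩
    have h5 : Tendsto (fun n => ∑ β, ∫ x, ‖S.Q β (u n) x‖ ^ 2) atTop (𝓝 (∑ _β : Fin 16, (0 : ℝ))) :=
      tendsto_finsetSum _ fun β _ => h4 β
    rw [Finset.sum_const_zero] at h5
    exact h5
  · rintro ⟨u, h1, h2, h3⟩
    refine ⟨u, fun n => (h1 n).1, fun n => (h1 n).2, h2.lim, fun β => ?_⟩
    refine squeeze_zero (fun n => integral_nonneg fun x => by positivity) (fun n => ?_) h3
    exact Finset.single_le_sum (f := fun β => ∫ x, ‖S.Q β (u n) x‖ ^ 2)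
      (fun β _ => integral_nonneg fun x => by positivity) (Finset.mem_univ β)

variable {S : Setup d F} {φ : Spl dh dm d} {ψ : Spl r ds dh} {L : Finset (Fin r → ℝ)}
  {Om : Cfg r → Matrix (Fin dm) (Fin dm) ℝ} {K : Submodule ℂ F} {U : Cfg r → F →L[ℂ] F} {o : Fin n → Cfg ds → F}
  {T : Setup r (AL.Ek n)} {z₀ : Cfg r}

/-- independence of the basis -/
lemma coef_zero (hd : AL.Dat S φ ψ L Om K U o T) (c : Fin n → ℂ)
    (h : ∀ᵐ s ∂(volume : Measure (Cfg ds)), ∑ j, c j • o j s = 0) (k : Fin n) : c k = 0 := by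
  have h1 : (∫ s, inner ℂ (o k s) (∑ j, c j • o j s)) = c k := by
    simp only [inner_sum, inner_smul_right]
    rw [integral_finsetSum _ fun j _ => (ip_int (hd.mem k) (hd.mem j)).const_mul _]
    simp only [integral_const_mul, hd.ort]
    simp
  rw [← h1]
  have h2 : ∀ᵐ s ∂(volume : Measure (Cfg ds)), inner ℂ (o k s) (∑ j, c j • o j s) = (0 : ℂ) := by
    filter_upwards [h] with s hs
    rw [hs, inner_zero_right]
  rw [integral_congr_ae h2]
  simp

/-- the centre fermions act by the matrices of `T` -/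
lemma th_act (hd : AL.Dat S φ ψ L Om K U o T) (α : Fin 16) (A : Fin r) (w : AL.Ek n) :
    ∀ᵐ s ∂(volume : Measure (Cfg ds)), S.th α (φ (Sum.inl (ψ (Sum.inl A)))) (∑ k, w k • o k s) =
      ∑ j, T.th α A w j • o j s := by
  have h1 : ∀ᵐ s ∂(volume : Measure (Cfg ds)), ∀ k, S.th α (φ (Sum.inl (ψ (Sum.inl A)))) (o k s) =
      ∑ j, T.th α A (EuclideanSpace.single k 1) j • o j s := eventually_countable_forall.2 fun k => hd.thT α A k
  have h2 : T.th α A w = ∑ k, w k • T.th α A (EuclideanSpace.single k 1) := by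
    have h3 : w = ∑ k, w k • (EuclideanSpace.single k 1 : AL.Ek n) := by
      ext j
      simp [Finset.sum_apply, Pi.single_apply]
    conv_lhs => rw [h3]
    rw [map_sum]
    simp only [map_smul]
  filter_upwards [h1] with s hs
  rw [map_sum, h2]
  simp only [map_smul, hs, WithLp.ofLp_sum, WithLp.ofLp_smul, Finset.sum_apply, Pi.smul_apply, smul_eq_mul, Finset.smul_sum,
    Finset.sum_smul, smul_smul]
  rw [Finset.sum_comm]

/-- annihilators of the centre fermions -/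
lemma am_act (hd : AL.Dat S φ ψ L Om K U o T) (h : AD.Std2 S φ (spsw ψ) z₀) (α : Fin 16) (A : Fin r) (w : AL.Ek n) :
    ∀ᵐ s ∂(volume : Measure (Cfg ds)), (AX2.czs h).amF A α (∑ k, w k • o k s) = ∑ j, T.amF A α w j • o j s := by
  have h1 : ∀ᵐ s ∂(volume : Measure (Cfg ds)), ∀ γ, S.th γ (φ (Sum.inl (ψ (Sum.inl A)))) (∑ k, w k • o k s) =
      ∑ j, T.th γ A w j • o j s := eventually_countable_forall.2 fun γ => th_act hd γ A w
  have hG : T.Gam = S.Gam := by
    rw [Setup.Gam, Setup.Gam, hd.gam]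
  filter_upwards [h1] with s hs
  let E : AL.Ek n →ₗ[ℂ] F :=
    { toFun := fun w => ∑ j, w j • o j s
      map_add' := fun w w' => by simp only [PiLp.add_apply, add_smul, Finset.sum_add_distrib]
      map_smul' := fun c w => by simp only [PiLp.smul_apply, smul_eq_mul, mul_smul, Finset.smul_sum, RingHom.id_apply] }
  have e0 : ∑ j, T.amF A α w j • o j s = E (T.amF A α w) := rfl
  rw [e0, AX2.zvc_apply, AX2.zvc_apply, AX2.zvc_lin E, hG]
  have e1 : ∀ γ, (AX2.czs h).th γ A (∑ k, w k • o k s) = E (T.th γ A w) := fun γ => hs γ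
  have e2 : (AX2.czs h).Gam = S.Gam := rfl
  rw [e1, e2]
  simp only [e1]

/-- **the vacuum line** -/
theorem omega (hd : AL.Dat S φ ψ L Om K U o T) (h : AD.Std2 S φ (spsw ψ) z₀) (hZms : AX2.ZmsStmt h.ss)
    (hZ : ∀ α A, ∀ Ψ ∈ h.ss.zms K, Setup.pwa ds ((AX2.czs h).th α A) Ψ ∈ h.ss.zms K) (ho : AX2.ZOut h.ss (AX2.czs h) K hZ) :
    ∃ Ω : AL.Ek n, ‖Ω‖ = 1 ∧ (∀ A α, T.amF A α Ω = 0) ∧ ∀ w : AL.Ek n, (∀ A α, T.amF A α w = 0) → ∃ c : ℂ, w = c • Ω := by
  obtain ⟨k, hk1, hk2, hk3⟩ := ho.vac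
  have hcomb : ∀ w : AL.Ek n, MemLp (fun s => ∑ j, w j • o j s) 2 (volume : Measure (Cfg ds)) := fun w =>
    memLp_finsetSum _ fun j _ => (hd.mem j).const_smul (w j)
  obtain ⟨hadd, hsm, hcg, -, -⟩ := AL.zml (S.int φ ψ hd.sub hd.cen)
  have hzm : ∀ (w : AL.Ek n), AD.ZM (S.int φ ψ hd.sub hd.cen) fun s => ∑ j, w j • o j s := by
    intro w
    have : ∀ s : Finset (Fin n), AD.ZM (S.int φ ψ hd.sub hd.cen) fun x => ∑ j ∈ s, w j • o j x := by
      intro s
      induction s using Finset.induction_on with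
      | empty =>
        refine hcg _ _ (hsm 0 _ ((isZM_iff _ _).1 ((hZms K k).1 k.2).1)) (Eventually.of_forall fun x => ?_)
        simp
      | insert a s ha ih =>
        have := hadd _ _ (hsm (w a) _ (hd.zm a)) ih
        simpa [Finset.sum_insert ha] using this
    exact this Finset.univ
  -- the vector `k`
  obtain ⟨hkz, hkK⟩ := (hZms K k).1 k.2
  obtain ⟨c, hc⟩ := hd.full _ ((isZM_iff _ _).1 hkz) hkK
  set v : AL.Ek n := WithLp.toLp 2 c with hv
  have hvam : ∀ A α, T.amF A α v = 0 := by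
    intro A α
    have h1 := (AX2.zvc_zero (AX2.czs h) _ hZ A α k).1 (hk2 A α)
    ext j
    refine coef_zero hd (fun j => T.amF A α v j) ?_ j
    filter_upwards [am_act hd h α A v, h1, hc] with s e1 e2 e3
    rw [← e1]
    have e4 : (∑ k, v k • o k s) = (k : Lp F 2 (volume : Measure (Cfg ds))) s := e3.symm
    rw [e4, e2]
  have hv0 : v ≠ 0 := by
    intro h0
    have hk0 : k = 0 := by
      apply Subtype.ext
      apply Lp.ext
      filter_upwards [hc, Lp.coeFn_zero F 2 (volume : Measure (Cfg ds))] with s e1 e2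
      have e3 : ∀ j, c j = 0 := fun j => by
        have : v j = 0 := by rw [h0]; rfl
        exact this
      rw [e1]
      simp only [e3, zero_smul, Finset.sum_const_zero]
      exact e2.symm
    rw [hk0, norm_zero] at hk1
    exact zero_ne_one hk1
  have hvn : (‖v‖ : ℂ) ≠ 0 := by exact_mod_cast norm_ne_zero_iff.2 hv0
  refine ⟨((‖v‖⁻¹ : ℝ) : ℂ) • v, ?_, fun A α => by rw [map_smul, hvam, smul_zero], fun w hw => ?_⟩
  · rw [norm_smul, Complex.norm_real, norm_inv, norm_norm, inv_mul_cancel₀ (norm_ne_zero_iff.2 hv0)]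
  · have hwae := (hcomb w).coeFn_toLp
    have hwz : (hcomb w).toLp _ ∈ h.ss.zms K := by
      refine (hZms K _).2 ⟨(isZM_iff _ _).2 (hcg _ _ (hzm w) hwae), ?_⟩
      have hval : ∀ᵐ s ∂(volume : Measure (Cfg ds)), ∀ j, o j s ∈ K := eventually_countable_forall.2 fun j => hd.val j
      filter_upwards [hwae, hval] with s e1 e2
      rw [e1]
      exact K.sum_mem fun j _ => K.smul_mem _ (e2 j)
    obtain ⟨e, he⟩ := hk3 ⟨_, hwz⟩ fun A α => by
      refine (AX2.zvc_zero (AX2.czs h) _ hZ A α _).2 ?_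
      filter_upwards [hwae, am_act hd h α A w] with s e1 e2
      rw [e1, e2, hw]
      simp
    have he' : (hcomb w).toLp _ = e • (k : Lp F 2 (volume : Measure (Cfg ds))) := congrArg Subtype.val he
    refine ⟨e * (‖v‖ : ℂ), ?_⟩
    have key : ∀ j, w j - e * c j = 0 := by
      intro j
      refine coef_zero hd (fun j => w j - e * c j) ?_ j
      filter_upwards [hwae, hc, Lp.coeFn_smul e (k : Lp F 2 (volume : Measure (Cfg ds)))] with s e1 e2 e3
      rw [he', e3, Pi.smul_apply, e2] at e1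
      simp only [sub_smul, mul_smul, Finset.sum_sub_distrib, ← Finset.smul_sum]
      rw [← e1, sub_self]
    ext j
    have h5 := sub_eq_zero.1 (key j)
    have h6 : (((e * (‖v‖ : ℂ)) • ((‖v‖⁻¹ : ℝ) : ℂ) • v : AL.Ek n)) j = (e * (‖v‖ : ℂ)) * (((‖v‖⁻¹ : ℝ) : ℂ) * c j) := rfl
    rw [h6, h5]
    push_cast
    field_simp

end Vale.Agent.P353.Z.AJK
end

section

/-! # P353, all `N`, block SY: the weak profile system of a model — definitions and statements (architect helper667)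

`FrM M S n` = block frame of type `n` for the model `M` together with the model in this frame. The types are the partitions of `N` with at
least two parts. -/

open MeasureTheory Filter Topology Matrix
open scoped ContDiff

namespace Vale.Agent.P353.Z.ASY

open Vale.Agent.P353.Z.AJK

variable {N d k : ℕ} {F : Type} [NormedAddCommGroup F] [InnerProductSpace ℂ F]

/-- block frame for the model `M` with setup `S` -/
structure FrM (M : BFSS.Model N d F) (S : Setup d F) (n : Fin k → ℕ) where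
  O : Matrix (Fin d) (Fin d) ℝ
  hO : O * O.transpose = 1
  dh : ℕ
  dm : ℕ
  ds : ℕ
  dz : ℕ
  φ : Spl dh dm d
  ψ : Spl ds dz dh
  M' : BFSS.Model N d F
  fr : NFr n M'.T φ ψ
  rep : U.Rep M' (S.rot 1 h91 O hO)
  T_eq : ∀ A, M'.T A = ∑ B, ((O A B : ℝ) : ℂ) • M.T B
  S_eq : M'.S = M.S
  act_eq : ∀ V x, M'.act V (ro O x) = ro O (M.act V x)

/-- the setup in the frame -/
noncomputable abbrev FrM.S' {M : BFSS.Model N d F} {S : Setup d F} {n : Fin k → ℕ} (D : FrM M S n) : Setup d F :=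
  S.rot 1 h91 D.O D.hO

/-- block sizes of a partition -/
noncomputable def pn (p : Nat.Partition N) (a : Fin (Multiset.card p.parts)) : ℕ :=
  p.parts.toList.get (a.cast (Multiset.length_toList _).symm)

/-- the types: partitions with at least two parts -/
def Typ (N : ℕ) : Type := {p : Nat.Partition N // 2 ≤ Multiset.card p.parts}

instance (N : ℕ) : Fintype (Typ N) := by unfold Typ; infer_instance

/-- **SY1** number of types, block sizes. PROOF: the only partition of `N ≥ 1` with fewer than two parts is `(N)` (`Nat.Partition.indiscrete`). -/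
def CntStmt : Prop := ∀ N : ℕ, 1 ≤ N → Fintype.card (Typ N) + 1 = Fintype.card (Nat.Partition N) ∧
  ∀ p : Nat.Partition N, (∀ a, 1 ≤ pn p a) ∧ ∑ a, pn p a = N ∧ (2 ≤ Multiset.card p.parts → ∀ a, pn p a < N)

/-- **SY2** frames exist. PROOF: `ExStmt`, `BasMStmt`, `RotMStmt`. -/
def FrStmt (M : BFSS.Model N d F) (S : Setup d F) : Prop := ANF.ExStmt → ANF.RotMStmt.{0} → ANF.BasMStmt.{0} → U.Rep M S →
  ∀ (k : ℕ) (n : Fin k → ℕ), 2 ≤ k → (∀ a, 1 ≤ n a) → ∑ a, n a = N → Nonempty (FrM M S n)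

/-- **SY3** a point in standard position; `dm > 0`; regular points. PROOF: `ValStmt` with `v 8 a = a - N⁻¹∑ n_b b`; `StdStmt`; `RegStmt` with `η = 0`
(`∑_i 0 = 0` is not invertible since `k ≥ 2`, so `dm ≠ 0`). Last part: `D_8² `, `RegStmt` with `I = univ`, `AD.Dz S φ ψ = S.Dz φ (spsw ψ)`. -/
def PtStmt (M : BFSS.Model N d F) (S : Setup d F) : Prop := ∀ (k : ℕ) (n : Fin k → ℕ) (D : FrM M S n),
  ANF.ValStmt D.S'.f D.fr → ANF.RegStmt D.S' D.fr → ANF.StdStmt D.S' D.fr → ANF.BasMStmt.{0} →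
  0 < D.dm ∧ (∃ z₀ : Cfg D.dz, AD.Std2 D.S' D.φ D.ψ z₀) ∧
  ∀ η : Cfg D.dz, η ∈ AL.Rg D.S' D.φ (spsw D.ψ) ↔ ∀ a b, a ≠ b → ∃ i : Fin 9, D.fr.val η i a ≠ D.fr.val η i b

/-- **SY4** (COV) every commuting configuration is gauge equivalent to a central one of its type. PROOF. The hermitian matrices `X_i = ∑_A Y(i,A)T_A` commute (`S.V Y = 0`), so there are `W` unitary, `det W = 1`, with
`W X_i W^*` diagonal; `v : Fin N → (Fin 9 → ℝ)` the joint eigenvalues. The fibres of `v` define a partition `p` of `N` (`2 ≤ card`, since `Y ≠ 0` and the `X_i` are traceless); permute the coordinates (a permutation matrix times a phase in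
`SU(N)`) so that `v ∘ D.fr.E` depends on the block only; by `ValStmt` it is `val η` for a central configuration `η`; `η ∈ Rg` since different blocks have different values; `M.act U Y` = coordinates of `U X_i U^*` (`adCoeff`). -/
def CovStmt (M : BFSS.Model N d F) (S : Setup d F) : Prop := U.Rep M S → 1 ≤ N → ∀ Y : Cfg d, Y ≠ 0 → S.V Y = 0 →
  ∃ p : Nat.Partition N, 2 ≤ Multiset.card p.parts ∧ ∀ D : FrM M S (pn p), ANF.ValStmt D.S'.f D.fr →
    ∃ (U : BFSS.SU N) (η : Cfg D.dz), (∀ a b, a ≠ b → ∃ i : Fin 9, D.fr.val η i a ≠ D.fr.val η i b) ∧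
      rox 1 D.O (M.act U Y) = emb D.φ (AN.cmb (spsw D.ψ) η 0) 0

/-- **SY5** different types are not gauge equivalent. PROOF. The matrices of the configuration `rox 1 D.Oᵀ (emb …)` are the block scalars with the values `val η` (`T_eq`, `z_eq`); the multiset of multiplicities of the joint
eigenvalues is invariant under conjugation: it is `p.parts` on the left and `q.parts` on the right. -/
def SepStmt (M : BFSS.Model N d F) (S : Setup d F) : Prop := ∀ p q : Nat.Partition N, p ≠ q → ∀ (D : FrM M S (pn p)) (D' : FrM M S (pn q))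
  (η : Cfg D.dz) (η' : Cfg D'.dz), (∀ a b, a ≠ b → ∃ i : Fin 9, D.fr.val η i a ≠ D.fr.val η i b) →
  (∀ a b, a ≠ b → ∃ i : Fin 9, D'.fr.val η' i a ≠ D'.fr.val η' i b) → ∀ U : BFSS.SU N,
    M.act U (ro D.O.transpose (emb D.φ (AN.cmb (spsw D.ψ) η 0) 0)) ≠ ro D'.O.transpose (emb D'.φ (AN.cmb (spsw D'.ψ) η' 0) 0)

end Vale.Agent.P353.Z.ASY
end

section

/-! # P353, all `N`, block JN (helper714): no loss for the concrete system `AJK.pwT` (statements) -/

open MeasureTheory Filter Topology Matrix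
open scoped ContDiff

namespace Vale.Agent.P353.Z.AJ

variable {N d : ℕ} {F : Type} [NormedAddCommGroup F] [InnerProductSpace ℂ F]

/-- **(COV)** every commuting point is conjugate to a regular point of one of the strata (owner helper725) -/
def CovT (M : BFSS.Model N d F) (S : Setup d F) {ι : Type} (ty : ι → AJK.Ty S) : Prop :=
  ∀ Y : Cfg d, Y ≠ 0 → S.V Y = 0 → ∃ (i : ι) (U : BFSS.SU N) (η : Cfg (ty i).r), η ≠ 0 ∧
    η ∈ AL.Rg (ty i).S' (ty i).φ (ty i).ψ ∧ rox 1 (ty i).O (M.act U Y) = emb (ty i).φ (AN.cmb (ty i).ψ η 0) 0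

/-- **C8** all slice functionals at a regular point of the stratum `i` vanish if the functionals of type `i` do. PROOF. For `b : AD.TOff L b` (so `TstOff L b`) let `a = AJK.cl b _ : DL`; `rp a = b` (`rp_cl`),
`ipr (ZT t R a) u = AL.ZZ … (sc U o b) R (tr t.O u)` (`AJK.ipr_ZT`), `tr O u = rotu 1 O u` (`1.transpose = 1`). `SpzOneStmt S`. -/
def TypTStmt (S : Setup d F) : Prop := ∀ hfin : FiniteDimensional ℂ F, SpzOneStmt S →
  (∀ (e : ℕ) (T' : Setup e F), AN.Cless T' → AD.ICStmt T') → ∀ (hRot : AE.RotOStmt S) (hIso : ∀ S' : Setup d F, AL.IsoStmt S')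
  (hLin : ∀ S' : Setup d F, AL.LinStmt S') (hZ : ∀ S' : Setup d F, AL.ZMemStmt S') (hUB : ∀ S' : Setup d F, AL.UBStmt S')
  (ι : Type) (ty : ι → AJK.Ty S) (hC : AN.Cless S) (i : ι) (Y : Cfg d) (η : Cfg (ty i).r), η ≠ 0 →
  η ∈ AL.Rg (ty i).S' (ty i).φ (ty i).ψ → rox 1 (ty i).O Y = emb (ty i).φ (AN.cmb (ty i).ψ η 0) 0 →
  TypHyp S (AJK.pwT hfin hRot hIso hLin hZ hUB ty hC) i Y

/-- **C9** no loss for the concrete system. PROOF: C7 (`NoLossOfStmt`) with `Y' = act U Y` (C6), C8. -/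
def NoLossTStmt (M : BFSS.Model N d F) : Prop := ∀ hfin : FiniteDimensional ℂ F, ∀ S : Setup d F, U.Rep M S →
  AN.REP.CoreStmt M → ActStmt M → NoLossOfStmt S → SpzOneStmt S → TypTStmt S → AT.TWStmt S → AT.BdStmt S → NlStmt S → NulStmt S →
  AD.ShellStmt S → (∀ S' : Setup d F, AD.TrStmt S' ∧ AD.NonCommStmt S' ∧ AD.LocStmt S' ∧ AD.GeoStmt S') →
  (∀ (e : ℕ) (T' : Setup e F), AN.Cless T' → AD.ICStmt T') → ∀ (hRot : AE.RotOStmt S) (hIso : ∀ S' : Setup d F, AL.IsoStmt S')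
  (hLin : ∀ S' : Setup d F, AL.LinStmt S') (hZ : ∀ S' : Setup d F, AL.ZMemStmt S') (hUB : ∀ S' : Setup d F, AL.UBStmt S')
  (ι : Type) (ty : ι → AJK.Ty S) (hC : AN.Cless S), CovT M S ty → (AJK.pwT hfin hRot hIso hLin hZ hUB ty hC).NoLoss

end Vale.Agent.P353.Z.AJ
end

section

/-! # P353, all `N`, block SY: data of a stratum with the explicit vacuum bundle (helper667, proof of helper533) -/

open MeasureTheory Filter Topology Matrix
open scoped ContDiff

namespace Vale.Agent.P353.Z.ASY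

open Vale.Agent.P353.Z.AJK

universe u

variable {d dh dm r ds : ℕ} {F : Type u} [NormedAddCommGroup F] [InnerProductSpace ℂ F]

open AL.Dat533 in
/-- **L-Dat** with explicit bundle -/
theorem datX (S : Setup d F) (φ : Spl dh dm d) (ψ : Spl r ds dh) (hBun : AX.BunStmt S φ)
    (hZ : ∀ (e : ℕ) (S' : Setup e F), AL.ZMLStmt S' ∧ AL.ZMFStmt S') (hfin : FiniteDimensional ℂ F)
    (z₀ : Cfg r) (h : AD.Std2 S φ (spsw ψ) z₀) (hIC : AD.ICStmt h.ss)
    (t : Fin r → ℝ) (Kc E : Matrix (Fin dm) (Fin dm) ℝ) (l : Fin dm → Fin r → ℝ) (hRD : RD (AX.Mz S φ (spsw ψ)) t Kc E l) :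
    ∃ (n : ℕ) (o : Fin n → Cfg ds → F) (T : Setup r (AL.Ek n)),
      AL.Dat S φ ψ (Finset.univ.image l) (OmE S.κ E l) (S.Kr φ (1 - Complex.I • S.J0 Kc)) (S.UU φ E l) o T := by
  have hB := hBun hfin r (AX.Mz S φ (spsw ψ)) _ Kc E l hRD
  have hcen : S.IsCen φ ψ := fun a B C => h.cen a B C
  obtain ⟨n, o, ho, hz, hO, hK, hfull⟩ := basis h.ss (hZ ds h.ss).1 (hZ ds h.ss).2 hIC
    (S.Kr φ (1 - Complex.I • S.J0 Kc))
  have hf : ∀ α (A : Fin r) k, ∃ c : Fin n → ℂ, ∀ᵐ s ∂(volume : Measure (Cfg ds)),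
      S.th α (φ (Sum.inl (ψ (Sum.inl A)))) (o k s) = ∑ j, c j • o j s := by
    intro α A k
    refine hfull (fun s => S.th α (φ (Sum.inl (ψ (Sum.inl A)))) (o k s)) ?_ ?_
    · refine (hZ ds h.ss).1.2.2.2.2 _ (Or.inr ?_) _ (hz k)
      intro β B
      have h1 := S.th_anti α (φ (Sum.inl (ψ (Sum.inl A)))) β (φ (Sum.inl (ψ (Sum.inr B))))
      rw [if_neg] at h1
      · exact eq_neg_of_add_eq_zero_left h1
      · simp
    · filter_upwards [hK k] with s hs
      exact hB.K_th α (ψ (Sum.inl A)) _ hs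
  have han : ∀ α (A : Fin r) β (B : Fin r), tz (S.th α (φ (Sum.inl (ψ (Sum.inl A))))) o *
      tz (S.th β (φ (Sum.inl (ψ (Sum.inl B))))) o + tz (S.th β (φ (Sum.inl (ψ (Sum.inl B))))) o *
      tz (S.th α (φ (Sum.inl (ψ (Sum.inl A))))) o = (if α = β ∧ A = B then (1 : ℂ) else 0) • 1 := by
    intro α A β B
    refine tz_anti ho hO (hf α A) (hf β B) _ fun v => ?_
    have h1 := congrArg (fun T : F →L[ℂ] F => T v)
      (S.th_anti α (φ (Sum.inl (ψ (Sum.inl A)))) β (φ (Sum.inl (ψ (Sum.inl B)))))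
    have h2 : (α = β ∧ φ (Sum.inl (ψ (Sum.inl A))) = φ (Sum.inl (ψ (Sum.inl B)))) ↔ α = β ∧ A = B := by
      simp
    simp only [h2] at h1
    refine h1.trans ?_
    split_ifs <;> simp
  exact ⟨n, o, TT S (fun α A => S.th α (φ (Sum.inl (ψ (Sum.inl A))))) o (fun α A => S.th_sa α _) han,
    { sub := h.std.sub
      cen := hcen
      bun := hB
      mem := ho
      zm := hz
      ort := hO
      val := hK
      gam := rfl
      thT := by
        intro α A k
        filter_upwards [tz_ae ho hO (hf α A) k] with s hs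
        rw [hs]
        refine Finset.sum_congr rfl fun j _ => ?_
        congr 1
        simp [TT]
      full := hfull }⟩

end Vale.Agent.P353.Z.ASY
end

section

/-! # P353, all `N`, block X (vacuum bundle): unconditional output -/

namespace Vale.Agent.P353.Z.AX

variable {d dh dm : ℕ} {F : Type*} [NormedAddCommGroup F] [InnerProductSpace ℂ F]

theorem omPAll : OmPStmt := omP spS vecS
theorem pathAll (S : Setup d F) : PathStmt S := path S spS vecS
theorem krFAll (S : Setup d F) (φ : Spl dh dm d) : KrFStmt S φ := krF S φ spS vecS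
theorem qfAll : QfStmt := qfR spS
theorem gaussAll : GaussStmt := gauss qfAll

theorem parAll (S : Setup d F) (φ : Spl dh dm d) : ParStmt S φ :=
  par S φ spS (pathAll S) (qu S φ) (tr S φ) (two S φ) (duh F) (sm S φ)

/-- **the vacuum bundle** -/
theorem bunAll (S : Setup d F) (φ : Spl dh dm d) : BunStmt S φ :=
  bun S φ vecS spS omPAll (pathAll S) (krFAll S φ) (qu S φ) (sm S φ) (parAll S φ) (irr S φ)

end Vale.Agent.P353.Z.AX
end

section

/-! # P353, all `N`, block SY: the family of types of a model (helper667)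

`TyD M S n` = frame of type `n` together with the data of the stratum; `TyD.ty` = the corresponding `AJK.Ty` (all fields by `rfl`). The
concrete system is `pwT … (fun p : Typ N => (TD p).ty)`. -/

open MeasureTheory Filter Topology Matrix
open scoped ContDiff

namespace Vale.Agent.P353.Z

lemma spsw_spsw {r ds dh : ℕ} (ψ : Spl r ds dh) : spsw (spsw ψ) = ψ := by
  refine Equiv.ext fun x => ?_
  rcases x with x | x <;> rfl

namespace ASY

open Vale.Agent.P353.Z.AJK

variable {N d k : ℕ} {F : Type} [NormedAddCommGroup F] [InnerProductSpace ℂ F]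

/-- frame with the data of the stratum (explicit vacuum bundle) -/
structure TyD (M : BFSS.Model N d F) (S : Setup d F) (n : Fin k → ℕ) where
  D : FrM M S n
  z₀ : Cfg D.dz
  std : AD.Std2 D.S' D.φ D.ψ z₀
  pos : 0 < D.dm
  t : Fin D.dz → ℝ
  Kc : Matrix (Fin D.dm) (Fin D.dm) ℝ
  E : Matrix (Fin D.dm) (Fin D.dm) ℝ
  l : Fin D.dm → Fin D.dz → ℝ
  rd : RD (AX.Mz D.S' D.φ D.ψ) t Kc E l
  nn : ℕ
  o : Fin nn → Cfg D.ds → F
  T : Setup D.dz (AL.Ek nn)
  dat : AL.Dat D.S' D.φ (spsw D.ψ) (Finset.univ.image l) (OmE D.S'.κ E l) (D.S'.Kr D.φ (1 - Complex.I • D.S'.J0 Kc))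
    (D.S'.UU D.φ E l) o T
  Ω : AL.Ek nn
  Ω_norm : ‖Ω‖ = 1
  Ω_am : ∀ A α, T.amF A α Ω = 0
  Ω_one : ∀ w : AL.Ek nn, (∀ A α, T.amF A α w = 0) → ∃ c : ℂ, w = c • Ω

/-- the type of the weak profile system -/
noncomputable def TyD.ty {M : BFSS.Model N d F} {S : Setup d F} {n : Fin k → ℕ} (t : TyD M S n) : Ty S where
  O := t.D.O
  hO := t.D.hO
  dh := t.D.dh
  dm := t.D.dm
  r := t.D.dz
  ds := t.D.ds
  n := t.nn
  φ := t.D.φ
  ψ := spsw t.D.ψ
  z₀ := t.z₀
  std := by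
    rw [spsw_spsw]
    exact t.std
  pos := t.pos
  L := Finset.univ.image t.l
  Om := OmE t.D.S'.κ t.E t.l
  K := t.D.S'.Kr t.D.φ (1 - Complex.I • t.D.S'.J0 t.Kc)
  U := t.D.S'.UU t.D.φ t.E t.l
  o := t.o
  T := t.T
  dat := t.dat
  Ω := t.Ω
  Ω_norm := t.Ω_norm
  Ω_am := t.Ω_am
  Ω_one := t.Ω_one

/-- the internal ground state (vacuum vector of the module of zero modes) -/
noncomputable def TyD.w0 {M : BFSS.Model N d F} {S : Setup d F} {n : Fin k → ℕ} (t : TyD M S n) (s : Cfg t.D.ds) : F :=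
  ∑ j, t.Ω j • t.o j s

/-- regular points of the stratum: different blocks have different values -/
def FrM.Rgv {M : BFSS.Model N d F} {S : Setup d F} {n : Fin k → ℕ} (D : FrM M S n) (η : Cfg D.dz) : Prop :=
  ∀ a b, a ≠ b → ∃ i : Fin 9, D.fr.val η i a ≠ D.fr.val η i b

/-- outputs of the algebraic blocks -/
structure Alg : Prop where
  ex : ANF.ExStmt
  rotM : ANF.RotMStmt.{0}
  basM : ANF.BasMStmt.{0}
  val : ∀ {N d dh dm ds dz k : ℕ} {n : Fin k → ℕ} {T : Fin d → Matrix (Fin N) (Fin N) ℂ} {φ : Spl dh dm d} {ψ : Spl ds dz dh}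
    (f : Fin d → Fin d → Fin d → ℝ) (fr : NFr n T φ ψ), ANF.ValStmt f fr
  reg : ∀ {N d dh dm ds dz k : ℕ} {n : Fin k → ℕ} {T : Fin d → Matrix (Fin N) (Fin N) ℂ} {φ : Spl dh dm d} {ψ : Spl ds dz dh}
    {F : Type} [NormedAddCommGroup F] [InnerProductSpace ℂ F] (S : Setup d F) (fr : NFr n T φ ψ), ANF.RegStmt S fr
  std : ∀ {N d dh dm ds dz k : ℕ} {n : Fin k → ℕ} {T : Fin d → Matrix (Fin N) (Fin N) ℂ} {φ : Spl dh dm d} {ψ : Spl ds dz dh}
    {F : Type} [NormedAddCommGroup F] [InnerProductSpace ℂ F] (S : Setup d F) (fr : NFr n T φ ψ), ANF.StdStmt S fr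
  one : ∀ {N d dh dm ds dz k : ℕ} {n : Fin k → ℕ} {T : Fin d → Matrix (Fin N) (Fin N) ℂ} {φ : Spl dh dm d} {ψ : Spl ds dz dh}
    {F : Type} [NormedAddCommGroup F] [InnerProductSpace ℂ F] (S : Setup d F) (fr : NFr n T φ ψ), ANF.OneStmt S fr
  ih : AX2.IHStmt.{0}
  prod : AX2.ProdStmt.{0}
  zero : AX2.ZeroStmt.{0}
  x2 : AX2.X2Stmt.{0}
  zms : ∀ {d : ℕ} {F : Type} [NormedAddCommGroup F] [InnerProductSpace ℂ F] (S : Setup d F), AX2.ZmsStmt S
  cnt : CntStmt
  frs : ∀ {N d : ℕ} {F : Type} [NormedAddCommGroup F] [InnerProductSpace ℂ F] (M : BFSS.Model N d F) (S : Setup d F), FrStmt M S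
  pt : ∀ {N d : ℕ} {F : Type} [NormedAddCommGroup F] [InnerProductSpace ℂ F] (M : BFSS.Model N d F) (S : Setup d F), PtStmt M S
  cov : ∀ {N d : ℕ} {F : Type} [NormedAddCommGroup F] [InnerProductSpace ℂ F] (M : BFSS.Model N d F) (S : Setup d F), CovStmt M S
  sep : ∀ {N d : ℕ} {F : Type} [NormedAddCommGroup F] [InnerProductSpace ℂ F] (M : BFSS.Model N d F) (S : Setup d F), SepStmt M S

variable {M : BFSS.Model N d F} {S : Setup d F} {n : Fin k → ℕ}

lemma rot_irr (hI : S.Irr) (O : Matrix (Fin d) (Fin d) ℝ) (hO : O * O.transpose = 1) : (S.rot 1 h91 O hO).Irr := by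
  intro W hW
  refine hI W fun α A v hv => ?_
  have h1 : S.th α A = ∑ B, ((O B A : ℝ) : ℂ) • (S.rot 1 h91 O hO).th α B := by
    change S.th α A = ∑ B, ((O B A : ℝ) : ℂ) • ∑ C, ((O B C : ℝ) : ℂ) • S.th α C
    have ho := AN.rt_orthc hO
    exact (AN.rt_one (K := ℂ) (fun A B => ((O A B : ℝ) : ℂ)) (fun k l => ho k l) A fun C => S.th α C).symm
  rw [h1, _root_.sum_apply]
  exact W.sum_mem fun B _ => W.smul_mem _ (hW α B v hv)

/-- **the family exists** -/
theorem exTyD (hfin : FiniteDimensional ℂ F) (hA : Alg) (hIC : ∀ (e : ℕ) (T : Setup e F), AN.Cless T → AD.ICStmt T) (hRep : U.Rep M S) (hirr : S.Irr) (hne : ∃ v : F, v ≠ 0)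
    (hk : 2 ≤ k) (hn : ∀ a, 1 ≤ n a) (hs : ∑ a, n a = N) (IH : ∀ a, IHM.{0} (n a)) :
    Nonempty (TyD M S n) := by
  obtain ⟨D⟩ := hA.frs M S hA.ex hA.rotM hA.basM hRep k n hk hn hs
  obtain ⟨hpos, ⟨z₀, hstd⟩, -⟩ := hA.pt M S k n D (hA.val _ _) (hA.reg _ _) (hA.std _ _) hA.basM
  have hbas : Bas N d D.M'.T D.S'.f := by
    have h := hA.basM N d F D.M'
    rw [← D.rep.hf] at h
    exact h
  have hone : OneA.{0} 1 hstd.ss.f := hA.one D.S' D.fr hbas hA.ih hA.prod hA.zero IH z₀ hstd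
  have hstd' : AD.Std2 D.S' D.φ (spsw (spsw D.ψ)) z₀ := by
    rw [spsw_spsw]
    exact hstd
  have hss : hstd'.ss.f = hstd.ss.f := rfl
  have hκ : D.S'.κ = 1 := D.rep.hκ
  obtain ⟨Kc, E, l, hrd⟩ := AX.root D.dz D.dm (AX.Mz D.S' D.φ (spsw (spsw D.ψ))) _ (AX.tor_Mz hstd')
  obtain ⟨nn, o, T, hd⟩ := datX D.S' D.φ (spsw D.ψ) (AX.bunAll _ _) (fun e S' => ⟨AL.zml S', AL.zmf S'⟩) hfin z₀ hstd'
    (hIC _ _ hstd'.less) _ Kc E l hrd
  obtain ⟨hZ, ho⟩ := hA.x2 d D.dh D.dm D.ds D.dz F hfin D.S' D.φ (spsw (spsw D.ψ)) z₀ hstd' (rot_irr hirr _ _) hne _ _ _ _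
    hd.bun (by rw [hκ, hss]; exact hone)
  obtain ⟨Ω, h1, h2, h3⟩ := omega hd hstd' (hA.zms _) hZ ho
  exact ⟨⟨D, z₀, hstd, hpos, _, Kc, E, l, hrd, nn, o, T, hd, Ω, h1, h2, h3⟩⟩

/-- the internal ground state is a zero mode with values in the vacuum of the centre fermions -/
theorem w0_mem (t : TyD M S n) (hZms : AX2.ZmsStmt t.std.ss) :
    ∃ h0 : MemLp t.w0 2 (volume : Measure (Cfg t.D.ds)), h0.toLp t.w0 ∈
      t.std.ss.zms (vca (AX2.czs t.std) (t.D.S'.Kr t.D.φ (1 - Complex.I • t.D.S'.J0 t.Kc))) ∧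
      ∫ s, ‖t.w0 s‖ ^ 2 = 1 := by
  have hd := t.dat
  have h0 : MemLp t.w0 2 (volume : Measure (Cfg t.D.ds)) := memLp_finsetSum _ fun j _ => (hd.mem j).const_smul (t.Ω j)
  obtain ⟨hadd, hsm, hcg, -, -⟩ := AL.zml (t.D.S'.int t.D.φ (spsw t.D.ψ) hd.sub hd.cen)
  have hzm : AD.ZM (t.D.S'.int t.D.φ (spsw t.D.ψ) hd.sub hd.cen) t.w0 :=
    AL.Dat533.zm_sum (AL.zml _) Finset.univ t.o (fun j => t.Ω j) hd.zm
  have hss : t.D.S'.int t.D.φ (spsw t.D.ψ) hd.sub hd.cen = t.std.ss := rfl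
  have hstd' : AD.Std2 t.D.S' t.D.φ (spsw (spsw t.D.ψ)) t.z₀ := by
    rw [spsw_spsw]
    exact t.std
  refine ⟨h0, (hZms _ _).2 ⟨(isZM_iff _ _).2 ?_, ?_⟩, ?_⟩
  · rw [← hss]
    exact hcg _ _ hzm h0.coeFn_toLp
  · have hval : ∀ᵐ s ∂(volume : Measure (Cfg t.D.ds)), ∀ j, t.o j s ∈ t.D.S'.Kr t.D.φ (1 - Complex.I • t.D.S'.J0 t.Kc) :=
      eventually_countable_forall.2 fun j => hd.val j
    have ham : ∀ᵐ s ∂(volume : Measure (Cfg t.D.ds)), ∀ A α, (AX2.czs hstd').amF A α (t.w0 s) = 0 := by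
      refine ae_all_iff.2 fun A => ae_all_iff.2 fun α => ?_
      filter_upwards [am_act hd hstd' α A t.Ω] with s hs
      rw [show t.w0 s = ∑ k, t.Ω k • t.o k s from rfl, hs, t.Ω_am]
      simp
    filter_upwards [h0.coeFn_toLp, hval, ham] with s e1 e2 e3
    rw [e1]
    refine ⟨Submodule.sum_mem _ fun j _ => Submodule.smul_mem _ _ (e2 j), fun A α => e3 A α⟩
  · have hin : ∫ s, inner ℂ (t.w0 s) (t.w0 s) = inner ℂ t.Ω t.Ω := by
      simp only [TyD.w0, sum_inner, inner_smul_left]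
      rw [integral_finsetSum _ fun k _ => ?_]
      · have h2 : ∀ i, ∫ x, (starRingEnd ℂ) (t.Ω i) * inner ℂ (t.o i x) (∑ j, t.Ω j • t.o j x) =
            (starRingEnd ℂ) (t.Ω i) * t.Ω i := by
          intro i
          rw [integral_const_mul, AL.Dat533.coef hd.mem hd.ort (ae_of_all _ fun _ => rfl)]
        simp only [h2, PiLp.inner_apply, RCLike.inner_apply]
        exact Finset.sum_congr rfl fun i _ => mul_comm _ _
      · exact Integrable.const_mul (integrable_inner_memLp (hd.mem k) h0) _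
    have h3 : (∫ s, inner ℂ (t.w0 s) (t.w0 s)) = ((∫ s, ‖t.w0 s‖ ^ 2 : ℝ) : ℂ) := by
      rw [← integral_complex_ofReal]
      refine integral_congr_ae (ae_of_all _ fun x => ?_)
      change inner ℂ (t.w0 x) (t.w0 x) = ((‖t.w0 x‖ ^ 2 : ℝ) : ℂ)
      rw [inner_self_eq_norm_sq_to_K]
      push_cast
      rfl
    rw [h3, inner_self_eq_norm_sq_to_K, t.Ω_norm] at hin
    have h4 : ((∫ s, ‖t.w0 s‖ ^ 2 : ℝ) : ℂ) = ((1 : ℝ) : ℂ) := by
      rw [hin]
      simp
    exact Complex.ofReal_injective h4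

end ASY

end Vale.Agent.P353.Z
end

section

/-! # P353, all `N`, block SY: number of types (SY1) -/

namespace Vale.Agent.P353.Z.ASY

variable {N : ℕ}

theorem sy1_card {N : ℕ} (hN : 1 ≤ N) (p : Nat.Partition N) :
    ¬ 2 ≤ Multiset.card p.parts ↔ p = Nat.Partition.indiscrete N := by
  constructor
  · intro h
    have h1 : Multiset.card p.parts ≠ 0 := by
      intro h0
      rw [Multiset.card_eq_zero] at h0
      have := p.parts_sum
      rw [h0] at this
      simp at this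
      omega
    have h2 : Multiset.card p.parts = 1 := by omega
    obtain ⟨a, ha⟩ := Multiset.card_eq_one.1 h2
    have h3 := p.parts_sum
    rw [ha, Multiset.sum_singleton] at h3
    subst h3
    apply Nat.Partition.ext
    rw [ha, Nat.Partition.indiscrete_parts (by omega)]
  · rintro rfl
    rw [Nat.Partition.indiscrete_parts (by omega)]
    simp

theorem sy1_mem (p : Nat.Partition N) (a : Fin (Multiset.card p.parts)) : pn p a ∈ p.parts := by
  rw [pn, ← Multiset.mem_toList]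
  exact List.get_mem _ _

theorem sy1_sum (p : Nat.Partition N) : ∑ a, pn p a = N := by
  have h1 : ∑ a, pn p a = ∑ i : Fin p.parts.toList.length, p.parts.toList.get i := by
    refine Fintype.sum_equiv (finCongr (Multiset.length_toList p.parts).symm) _ _ ?_
    intro a
    rfl
  rw [h1]
  have h2 : ∑ i : Fin p.parts.toList.length, p.parts.toList.get i = p.parts.toList.sum := by
    rw [← List.sum_ofFn, List.ofFn_get]
  rw [h2, Multiset.sum_toList, p.parts_sum]

/-- **SY1** number of types and block sizes. -/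
theorem cnt : CntStmt := by
  classical
  intro N hN
  refine ⟨?_, ?_⟩
  · have h1 : Fintype.card (Typ N) = Fintype.card {p : Nat.Partition N // 2 ≤ Multiset.card p.parts} :=
      Fintype.card_congr (Equiv.refl _)
    have h2 := Fintype.card_subtype_compl (fun p : Nat.Partition N => 2 ≤ Multiset.card p.parts)
    have h3 : Fintype.card {p : Nat.Partition N // ¬ 2 ≤ Multiset.card p.parts} = 1 := by
      rw [Fintype.card_eq_one_iff]
      refine ⟨⟨Nat.Partition.indiscrete N, (sy1_card hN _).2 rfl⟩, ?_⟩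
      rintro ⟨p, hp⟩
      exact Subtype.ext ((sy1_card hN p).1 hp)
    have h4 := Fintype.card_subtype_le (fun p : Nat.Partition N => 2 ≤ Multiset.card p.parts)
    rw [h1]
    omega
  · intro p
    refine ⟨fun a => p.parts_pos (sy1_mem p a), sy1_sum p, ?_⟩
    intro h2 a
    have h3 := sy1_sum p
    obtain ⟨b, hb⟩ : ∃ b : Fin (Multiset.card p.parts), b ≠ a := by
      have : Nontrivial (Fin (Multiset.card p.parts)) := Fin.nontrivial_iff_two_le.2 h2
      exact exists_ne a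
    have h5 : pn p a + pn p b ≤ ∑ c, pn p c := by
      have := Finset.sum_le_sum_of_subset (f := fun c => pn p c) (Finset.subset_univ ({a, b} : Finset (Fin (Multiset.card p.parts))))
      rwa [Finset.sum_pair hb.symm] at this
    have h6 : 0 < pn p b := p.parts_pos (sy1_mem p b)
    omega

end Vale.Agent.P353.Z.ASY
end

section

/-! # P353, all `N`, block SY: a point in standard position, `dm > 0`, regular points (`PtStmt`, helper379) -/

open MeasureTheory Filter Topology Matrix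
open scoped ContDiff

namespace Vale.Agent.P353.Z.ASY

open Vale.Agent.P353.Z.AJK

variable {N d k : ℕ} {F : Type} [NormedAddCommGroup F] [InnerProductSpace ℂ F]

lemma pt379_cmb {ds dz dh : ℕ} (ψ : Spl ds dz dh) (η : Cfg dz) :
    Vale.Agent.P353.Z.cmb (spsw ψ) η 0 = AD.cmb ψ 0 η := by
  ext p
  simp only [Vale.Agent.P353.Z.cmb, AD.cmb, spsw]
  obtain ⟨q, hq⟩ := ψ.surjective p.2
  rw [← hq]
  simp only [Equiv.symm_trans_apply, Equiv.symm_apply_apply]
  rcases q with a | b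
  · rfl
  · rfl

lemma pt379_Dz {dh dm ds dz : ℕ} (S : Setup d F) (φ : Spl dh dm d) (ψ : Spl ds dz dh) (η : Cfg dz) (i : Fin 9) :
    S.Dz φ (spsw ψ) η i = AD.Dz S φ ψ η i := by
  simp only [Setup.Dz, AD.Dz, pt379_cmb]

/-- **SY3** -/
theorem pt (M : BFSS.Model N d F) (S : Setup d F) : PtStmt M S := by
  intro k n D hVal hReg hStd hBas
  have hb : Bas N d D.M'.T D.S'.f := by
    have h := hBas N d F D.M'
    rw [← D.rep.hf] at h
    exact h
  obtain ⟨v1, v2, v3, v4, v5⟩ := hVal hb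
  have hR := hReg hb
  have h2 : 2 ≤ k := D.fr.two
  have hpos : 0 < ∑ a, (n a : ℝ) :=
    Finset.sum_pos (fun a _ => by exact_mod_cast D.fr.pos a) ⟨⟨0, by omega⟩, Finset.mem_univ _⟩
  refine ⟨?_, ?_, ?_⟩
  · by_contra h0
    have hdm : D.dm = 0 := by omega
    have : IsEmpty (Fin D.dm) := by rw [hdm]; infer_instance
    have h := (hR Finset.univ 0).1 (by rw [Matrix.det_isEmpty]; exact one_ne_zero) ⟨0, by omega⟩ ⟨1, by omega⟩
      (by intro h; simpa using congrArg Fin.val h)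
    obtain ⟨i, -, hi⟩ := h
    exact hi (by simp [NFr.val])
  · obtain ⟨η, hη⟩ := v2 (fun _ a => (a : ℝ) - (∑ b, (n b : ℝ))⁻¹ * ∑ b, (n b : ℝ) * (b : ℝ)) (by
      intro i
      simp only [mul_sub, Finset.sum_sub_distrib]
      rw [← Finset.sum_mul, ← mul_assoc, mul_inv_cancel₀ hpos.ne', one_mul, sub_self])
    refine ⟨η, hStd hb hReg η fun a b hab h => hab ?_⟩
    rw [hη, hη] at h
    have h' : (a : ℝ) = (b : ℝ) := by linarith
    exact Fin.ext (by exact_mod_cast h')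
  · intro η
    have h := hR Finset.univ η
    simp only [Finset.mem_univ, true_and] at h
    rw [← h]
    simp only [AL.Rg, Set.mem_ofPred_eq, pt379_Dz]

end Vale.Agent.P353.Z.ASY
end

section

/-! # P353, all `N`, block SY: SY4, the bridge from the block COV (helper155) -/

open MeasureTheory Filter Topology Matrix
open scoped ContDiff

namespace Vale.Agent.P353.Z.ASY

open Vale.Agent.P353.Z.AJK

variable {N d : ℕ} {F : Type} [NormedAddCommGroup F] [InnerProductSpace ℂ F]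

lemma b155_map (p : Nat.Partition N) : Finset.univ.val.map (pn p) = p.parts := by
  rw [Fin.univ_val_map]
  have h : List.ofFn (pn p) = p.parts.toList := by
    refine List.ext_get ?_ ?_
    · rw [List.length_ofFn, Multiset.length_toList]
    · intro m h1 h2
      rw [List.get_ofFn]
      rfl
  rw [h, Multiset.coe_toList]

lemma b155_cmb {dh ds dz : ℕ} (ψ : Spl ds dz dh) (η : Cfg dz) : AD.cmb ψ 0 η = AN.cmb (spsw ψ) η 0 := by
  ext ⟨i, A⟩
  obtain ⟨t, rfl⟩ := ψ.surjective A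
  unfold AD.cmb AN.cmb spsw
  cases t <;> simp

theorem covB (M : BFSS.Model N d F) (S : Setup d F) (h : ACov.CovStmt M) : CovStmt M S := by
  intro hRep hN Y hY hV
  by_cases hN2 : 2 ≤ N
  · obtain ⟨p, hp, hall⟩ := h hN2 S hRep Y hY hV
    refine ⟨p, hp, fun D _ => ?_⟩
    have key : ∀ (T : Fin d → Matrix (Fin N) (Fin N) ℂ) (_ : T = ACov.rT M.T D.O) (fr : NFr (pn p) T D.φ D.ψ),
        ∃ (U : BFSS.SU N) (η : Cfg D.dz), (∀ a b, a ≠ b → ∃ i : Fin 9, fr.val η i a ≠ fr.val η i b) ∧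
          rox 1 D.O (M.act U Y) = emb D.φ (AD.cmb D.ψ 0 η) 0 := by
      intro T hT fr
      subst hT
      exact hall _ _ _ _ _ _ D.O D.hO D.φ D.ψ fr (b155_map p)
    obtain ⟨U, η, h1, h2⟩ := key D.M'.T (funext D.T_eq) D.fr
    exact ⟨U, η, h1, by rw [h2, b155_cmb]⟩
  · exfalso
    have hN1 : N = 1 := by omega
    subst hN1
    have hd : d = 0 := by
      have := M.dim_eq
      simpa using this
    subst hd
    apply hY
    ext ⟨i, A⟩
    exact A.elim0

end Vale.Agent.P353.Z.ASY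
end

section

/-! # P353, all `N`, block SY5: different types are not gauge equivalent, from `ACov.DisStmt` (prover helper895) -/

open MeasureTheory Filter Topology Matrix
open scoped ContDiff

namespace Vale.Agent.P353.Z.ASY

open Vale.Agent.P353.Z.AJK

variable {N d k : ℕ} {F : Type} [NormedAddCommGroup F] [InnerProductSpace ℂ F]

theorem sep895_cmb {ds dz dh : ℕ} (ψ : Spl ds dz dh) (η : Cfg dz) : AN.cmb (spsw ψ) η 0 = AD.cmb ψ 0 η := by
  ext ⟨i, A⟩
  obtain ⟨a, rfl⟩ := ψ.surjective A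
  rcases a with a | a <;> simp [AN.cmb, AD.cmb, spsw]

theorem sep895_rox (O : Matrix (Fin d) (Fin d) ℝ) (hO : O * O.transpose = 1) (X : Cfg d) :
    rox 1 O (ro O.transpose X) = X := by
  ext ⟨i, A⟩
  have h1 : ∀ A C, ∑ B, O A B * O C B = if A = C then 1 else 0 := by
    intro A C
    have := congrFun (congrFun hO A) C
    rw [Matrix.mul_apply] at this
    simpa [Matrix.transpose_apply, Matrix.one_apply] using this
  have h2 : (rox 1 O (ro O.transpose X)) (i, A) =
      ∑ j, ∑ B, (1 : Matrix (Fin 9) (Fin 9) ℝ) i j * O A B * ∑ C, O C B * X (j, C) := rfl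
  rw [h2, Finset.sum_eq_single i]
  · simp only [Matrix.one_apply_eq, one_mul, Finset.mul_sum]
    rw [Finset.sum_comm]
    have h3 : ∀ C, ∑ B, O A B * (O C B * X (i, C)) = (∑ B, O A B * O C B) * X (i, C) := by
      intro C
      rw [Finset.sum_mul]
      exact Finset.sum_congr rfl fun B _ => by ring
    simp only [h3, h1]
    simp
  · intro j _ hj
    refine Finset.sum_eq_zero fun B _ => ?_
    rw [Matrix.one_apply_ne (Ne.symm hj)]
    ring
  · simp

theorem sep895_val {dh dm ds dz : ℕ} {n : Fin k → ℕ} {T T' : Fin d → Matrix (Fin N) (Fin N) ℂ} (h : T = T')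
    {φ : Spl dh dm d} {ψ : Spl ds dz dh} (fr : NFr n T φ ψ) :
    ∃ fr' : NFr n T' φ ψ, ∀ η i a, fr'.val η i a = fr.val η i a := by
  subst h
  exact ⟨fr, fun _ _ _ => rfl⟩

theorem sep895_pn (p : Nat.Partition N) : Finset.univ.val.map (pn p) = p.parts := by
  have h1 : ∀ (L : List ℕ) (m : ℕ) (hm : m = L.length),
      (Finset.univ : Finset (Fin m)).val.map (fun a => L.get (a.cast hm)) = (L : Multiset ℕ) := by
    intro L m hm
    subst hm
    simp only [Fin.cast_eq_self]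
    have h2 : (Finset.univ : Finset (Fin L.length)).val = ((List.finRange L.length : List (Fin L.length)) : Multiset (Fin L.length)) := rfl
    rw [h2, Multiset.map_coe]
    congr 1
    simp
  have h3 := h1 p.parts.toList (Multiset.card p.parts) (Multiset.length_toList _).symm
  rw [Multiset.coe_toList] at h3
  exact h3

/-- **SY5** from the output of block COV -/
theorem sepB (M : BFSS.Model N d F) (S : Setup d F) (h : ACov.DisStmt M) : SepStmt M S := by
  intro p q hpq D D' η η' hη hη' V he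
  obtain ⟨S₀, hrep⟩ := Z.U.setS M
  have hN : 2 ≤ N := by
    by_contra hN
    have hN' : N = 0 ∨ N = 1 := by omega
    rcases hN' with rfl | rfl
    · exact hpq (Subsingleton.elim p q)
    · exact hpq (Subsingleton.elim p q)
  have hT : D.M'.T = ACov.rT M.T D.O := funext D.T_eq
  have hT' : D'.M'.T = ACov.rT M.T D'.O := funext D'.T_eq
  obtain ⟨fr, hfr⟩ := sep895_val hT D.fr
  obtain ⟨fr', hfr'⟩ := sep895_val hT' D'.fr
  have h1 := h hN S₀ hrep _ _ _ _ _ _ D.O D.hO D.φ D.ψ fr η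
    (fun a b hab => by
      obtain ⟨i, hi⟩ := hη a b hab
      exact ⟨i, by rwa [hfr, hfr]⟩)
    _ _ _ _ _ _ D'.O D'.hO D'.φ D'.ψ fr' η'
    (fun a b hab => by
      obtain ⟨i, hi⟩ := hη' a b hab
      exact ⟨i, by rwa [hfr', hfr']⟩)
    V (ro D.O.transpose (emb D.φ (AN.cmb (spsw D.ψ) η 0) 0))
    (by rw [sep895_rox D.O D.hO, sep895_cmb])
    (by rw [he, sep895_rox D'.O D'.hO, sep895_cmb])
  rw [sep895_pn, sep895_pn] at h1
  exact hpq (Nat.Partition.ext h1)

end Vale.Agent.P353.Z.ASY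
end

section

/-! # P353, all `N`, block L, U5: the zero set of `det D_8` is a null set -/

open MeasureTheory Filter Topology Matrix
open scoped ContDiff

namespace Vale.Agent.P353.Z.AL

variable {d dh dm r ds n : ℕ} {F : Type*} [NormedAddCommGroup F] [InnerProductSpace ℂ F]

lemma nu399_cmb (ψ : Spl r ds dh) (z : Cfg r) : AD.cmb (spsw ψ) 0 z = cmb ψ z 0 := by
  unfold AD.cmb cmb spsw
  congr 1
  funext p
  simp only [Equiv.symm_trans_apply, Equiv.sumComm_symm, Equiv.sumComm_apply]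
  rcases ψ.symm p.2 with a | b <;> rfl

lemma nu399_Dz (S : Setup d F) (φ : Spl dh dm d) (ψ : Spl r ds dh) (η η' : Cfg r) (t : ℝ) (i : Fin 9) :
    S.Dz φ ψ (η + t • η') i = S.Dz φ ψ η i + t • S.Dz φ ψ η' i := by
  have h : ∀ y : Cfg r, S.Dz φ ψ y i = DM (AX.Mz S φ (spsw ψ)) y i := fun y =>
    (congrFun (AX.DM_Dz S φ ψ y) i).symm
  rw [h, h, h]
  unfold DM
  simp only [PiLp.add_apply, PiLp.smul_apply, smul_eq_mul, add_smul, mul_smul, Finset.sum_add_distrib,
    Finset.smul_sum]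

lemma nu399_cont (S : Setup d F) (φ : Spl dh dm d) (ψ : Spl r ds dh) (i : Fin 9) :
    Continuous fun y : Cfg r => S.Dz φ ψ y i := by
  have h0 : (fun y : Cfg r => S.Dz φ ψ y i) = fun y => DM (AX.Mz S φ (spsw ψ)) y i := by
    funext y
    rw [AX.DM_Dz]
  rw [h0]
  unfold DM
  fun_prop

lemma nu399_std {S : Setup d F} {φ : Spl dh dm d} {ψ : Spl r ds dh} {z₀ : Cfg r}
    (h : AD.Std2 S φ (spsw ψ) z₀) : (S.Dz φ ψ z₀ 8).det ≠ 0 := by
  have h1 := h.std.inv
  rw [nu399_cmb] at h1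
  exact h1

lemma nu399_fin {m : ℕ} (A B : Matrix (Fin m) (Fin m) ℝ) (hB : B.det ≠ 0) :
    {t : ℝ | (A + t • B).det = 0}.Finite := by
  set p : Polynomial ℝ := (Matrix.det ((Polynomial.X : Polynomial ℝ) • B.map Polynomial.C + A.map Polynomial.C)) with hp
  have h0 : p ≠ 0 := by
    intro h
    have h1 := Polynomial.coeff_det_X_add_C_card B A
    rw [← hp, h, Polynomial.coeff_zero] at h1
    exact hB h1.symm
  refine (p.roots.toFinset.finite_toSet).subset fun t ht => ?_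
  simp only [Finset.mem_coe, Multiset.mem_toFinset, Polynomial.mem_roots h0, Polynomial.IsRoot.def]
  have h2 : Polynomial.eval t p = (A + t • B).det := by
    have h3 := RingHom.map_det (Polynomial.evalRingHom t)
      ((Polynomial.X : Polynomial ℝ) • B.map Polynomial.C + A.map Polynomial.C)
    rw [Polynomial.coe_evalRingHom] at h3
    rw [hp, h3]
    congr 1
    ext i j
    simp only [Matrix.add_apply, Matrix.smul_apply, smul_eq_mul, RingHom.mapMatrix_apply, Matrix.map_apply,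
      Polynomial.coe_evalRingHom, Polynomial.eval_add, Polynomial.eval_mul, Polynomial.eval_X, Polynomial.eval_C]
    ring
  rw [h2]
  exact ht

/-- **U5** -/
theorem null8 (S : Setup d F) : NullStmt S := by
  intro dh dm r ds φ ψ z₀ h
  have h8 := nu399_std h
  have hs : MeasurableSet {η : Cfg r | (S.Dz φ ψ η 8).det ≠ 0} :=
    (isOpen_ne_fun (nu399_cont S φ ψ 8).matrix_det continuous_const).measurableSet
  have h1 : ∀ᵐ η ∂(volume : Measure (Cfg r)), η ∈ {η : Cfg r | (S.Dz φ ψ η 8).det ≠ 0} := by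
    refine ae_mem_of_ae_add_linearMap_mem (LinearMap.toSpanSingleton ℝ (Cfg r) z₀) (volume : Measure ℝ)
      volume hs fun y => ?_
    rw [ae_iff]
    refine Set.Finite.measure_zero ?_ _
    refine (nu399_fin (S.Dz φ ψ y 8) (S.Dz φ ψ z₀ 8) h8).subset fun t ht => ?_
    simp only [LinearMap.toSpanSingleton_apply, Set.mem_ofPred_eq, not_not, nu399_Dz] at ht ⊢
    exact ht
  rw [ae_iff] at h1
  simpa using h1

end Vale.Agent.P353.Z.AL
end

section

/-! # P353, all `N`, block JN, C9: no loss for the concrete system -/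

open MeasureTheory Filter Topology Matrix
open scoped ContDiff

namespace Vale.Agent.P353.Z.AJ

variable {N d : ℕ} {F : Type} [NormedAddCommGroup F] [InnerProductSpace ℂ F]

/-- **C9** -/
theorem no_loss_T (M : BFSS.Model N d F) : NoLossTStmt M := by
  intro hfin S hRep hCore hAct hNLO hSpz hTyp hTW hBd hNl hNul hShell hAll hIC hRot hIso hLin hZ
    hUB ι ty hC hCov
  refine hNLO hfin hC hTW hBd hNl hNul hShell hAll hIC ι
    (AJK.pwT hfin hRot hIso hLin hZ hUB ty hC) ?_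
  intro Y hY hV
  obtain ⟨i, U, η, hη, hreg, hemb⟩ := hCov Y hY hV
  obtain ⟨a1, a2, a3, a4⟩ := hAct hfin S hRep hCore U Y
  exact ⟨M.act U Y, fun h => hY (a3 h), a1.trans hV, a2, a4, i,
    hTyp hfin hSpz hIC hRot hIso hLin hZ hUB ι ty hC i (M.act U Y) η hη hreg hemb⟩

end Vale.Agent.P353.Z.AJ
end

section

/-! # P353, all `N`, block JN, C8 (helper442): the slice functionals at a regular point of a stratum -/

open MeasureTheory Filter Topology Matrix
open scoped ContDiff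

namespace Vale.Agent.P353.Z.AJ

variable {d : ℕ} {F : Type} [NormedAddCommGroup F] [InnerProductSpace ℂ F]

omit [NormedAddCommGroup F] [InnerProductSpace ℂ F] in
private lemma typT442_tr (O : Matrix (Fin d) (Fin d) ℝ) (u : Cfg d → F) : AJK.tr O u = rotu 1 O u := by
  funext x
  simp only [AJK.tr, rotu, Matrix.transpose_one]

/-- **C8** all slice functionals at a regular point of the stratum `i` vanish if the functionals of type `i` do -/
theorem typT (S : Setup d F) : TypTStmt S := by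
  intro hfin hSpz hIC hRot hIso hLin hZ hUB ι ty hC i Y η hη hReg hY R u hSq h
  refine hSpz hfin hC hIC AJK.h91 (ty i).O (ty i).hO (ty i).dh (ty i).dm (ty i).r (ty i).ds (ty i).n (ty i).φ (ty i).ψ
    (ty i).z₀ (ty i).std (ty i).L (ty i).Om (ty i).K (ty i).U (ty i).o (ty i).T (ty i).dat R u hSq (fun b hb => ?_)
    Y η hη hReg hY
  have h1 : Tendsto (fun k => ipr (AJK.ZT (ty i) (R k) (AJK.cl b hb.1)) (u k)) atTop (𝓝 0) := h (AJK.cl b hb.1)
  refine h1.congr fun k => ?_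
  rw [AJK.ipr_ZT (ty i) hRot (R k) (AJK.cl b hb.1) (u k), AJK.rp_cl, typT442_tr]

end Vale.Agent.P353.Z.AJ
end
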