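import Mathlib
import Vale.Agent.P353.BdA.B2
import Vale.Agent.P353.BdZ.B5
import Vale.Agent.P353.BdZ.B8
import Vale.Agent.P353.BdA.B1
import Vale.Agent.P353.BdA.B16
import Vale.Agent.P353.BdA.B14
import Vale.Agent.P353.BdA.B13
import Vale.Agent.P353.BdA.B20
import Vale.Agent.P353.BdA.B22
import Vale.Agent.P353.BdA.B12
import Vale.Agent.P353.BdA.B11

set_option linter.all false

section

/-! # P353, all `N`, block G: G06 -/

open MeasureTheory Filter Topology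
open scoped ContDiff

namespace Vale.Agent.P353.AN.G

open Vale.Agent.P353.Z Vale.Agent.P353.Z.U
open Vale.Agent.P353.Z.Setup (c3)

variable {d : ℕ} {F : Type*} [NormedAddCommGroup F] [InnerProductSpace ℂ F] (S : Setup d F)

/-- the gauge direction `τ_C` at `ξ` -/
noncomputable def pkTau (ξ : Cfg d) (C : Fin d) : Cfg d :=
  WithLp.toLp 2 fun p => ∑ A, S.f C A p.2 * ξ (p.1, A)

theorem pkTau_apply (ξ : Cfg d) (C : Fin d) (i : Fin 9) (B : Fin d) :
    pkTau S ξ C (i, B) = ∑ A, S.f C A B * ξ (i, A) := rfl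

theorem pk_jac (A B C E : Fin d) :
    ∑ G, (S.f A B G * S.f C E G + S.f A G E * S.f C B G - S.f C G A * S.f G B E) = 0 := by
  have h := S.f_jac A B C E
  rw [← h]
  refine Finset.sum_congr rfl fun G _ => ?_
  rw [← S.f_cyc G C E, S.f_swap A G E, S.f_swap C B G, S.f_swap' C A G]
  ring

/-- gauge rotation of the field strength -/
theorem pk_LF (ξ : Cfg d) (C A : Fin d) (i j : Fin 9) :
    S.LF ξ A i j (pkTau S ξ C) = ∑ G, S.f C G A * S.FF G i j ξ := by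
  have e1 : ∑ B, ∑ D, S.f A B D * (ξ (i, B) * pkTau S ξ C (j, D)) =
      ∑ B, ∑ E, ∑ G, ξ (i, B) * ξ (j, E) * (S.f A B G * S.f C E G) := by
    refine Finset.sum_congr rfl fun B _ => ?_
    rw [Finset.sum_comm]
    refine Finset.sum_congr rfl fun D _ => ?_
    rw [pkTau_apply, Finset.mul_sum, Finset.mul_sum]
    exact Finset.sum_congr rfl fun E _ => by ring
  have e2 : ∑ B, ∑ D, S.f A B D * (pkTau S ξ C (i, B) * ξ (j, D)) =
      ∑ B, ∑ E, ∑ G, ξ (i, B) * ξ (j, E) * (S.f A G E * S.f C B G) := by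
    have h1 : ∀ B D, S.f A B D * (pkTau S ξ C (i, B) * ξ (j, D)) =
        ∑ E, ξ (i, E) * ξ (j, D) * (S.f A B D * S.f C E B) := by
      intro B D
      rw [pkTau_apply, Finset.sum_mul, Finset.mul_sum]
      exact Finset.sum_congr rfl fun E _ => by ring
    simp only [h1]
    rw [Finset.sum_comm]
    have h2 : ∀ D, ∑ B, ∑ E, ξ (i, E) * ξ (j, D) * (S.f A B D * S.f C E B) =
        ∑ E, ∑ B, ξ (i, E) * ξ (j, D) * (S.f A B D * S.f C E B) := fun D => Finset.sum_comm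
    simp only [h2]
    rw [Finset.sum_comm]
  have e3 : ∑ G, S.f C G A * S.FF G i j ξ =
      S.κ * ∑ B, ∑ E, ∑ G, ξ (i, B) * ξ (j, E) * (S.f C G A * S.f G B E) := by
    have h1 : ∀ G, S.f C G A * S.FF G i j ξ =
        S.κ * ∑ B, ∑ E, ξ (i, B) * ξ (j, E) * (S.f C G A * S.f G B E) := by
      intro G
      unfold Setup.FF
      rw [mul_left_comm, Finset.mul_sum]
      congr 1
      refine Finset.sum_congr rfl fun B _ => ?_
      rw [Finset.mul_sum]
      exact Finset.sum_congr rfl fun E _ => by ring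
    simp only [h1]
    rw [← Finset.mul_sum, Finset.sum_comm]
    congr 1
    exact Finset.sum_congr rfl fun B _ => Finset.sum_comm
  unfold Setup.LF
  simp only [mul_add, Finset.sum_add_distrib]
  rw [e1, e2, e3, ← mul_add, ← Finset.sum_add_distrib]
  congr 1
  refine Finset.sum_congr rfl fun B _ => ?_
  rw [← Finset.sum_add_distrib]
  refine Finset.sum_congr rfl fun E _ => ?_
  rw [← Finset.mul_sum, ← Finset.mul_sum, ← Finset.mul_sum, ← mul_add]
  congr 1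
  have h := pk_jac S A B C E
  rw [Finset.sum_sub_distrib, Finset.sum_add_distrib] at h
  linarith

/-- the gauge directions are null directions of the Hessian -/
theorem pk_hq {ξ : Cfg d} (h : S.Vm 1 ξ = 0) (C : Fin d) : S.hq ξ (pkTau S ξ C) = 0 := by
  obtain ⟨h1, h2, h3⟩ := hes_zero S h
  have z1 : ∀ k A, S.LG ξ k A (pkTau S ξ C) = 0 := by
    intro k A
    unfold Setup.LG
    rw [pk_LF, pkTau_apply, Finset.mul_sum, ← Finset.sum_add_distrib]
    refine Finset.sum_eq_zero fun G _ => ?_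
    have h4 := h1 k G
    unfold Setup.GG at h4
    have h5 : S.f C G A * S.FF G (c3 (k + 1)) (c3 (k + 2)) ξ + 2 * (S.f C G A * ξ (c3 k, G)) =
        S.f C G A * (S.FF G (c3 (k + 1)) (c3 (k + 2)) ξ + 2 * 1 * ξ (c3 k, G)) := by ring
    rw [h5, h4, mul_zero]
  have z2 : ∀ (i : Fin 9) (A : Fin d), ¬ i.val < 3 → pkTau S ξ C (i, A) = 0 := by
    intro i A hi
    rw [pkTau_apply]
    exact Finset.sum_eq_zero fun G _ => by rw [h2 i G hi, mul_zero]
  have z3 : ∀ (i j : Fin 9) (A : Fin d), ¬ (i.val < 3 ∧ j.val < 3) →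
      S.LF ξ A i j (pkTau S ξ C) = 0 := by
    intro i j A hij
    rw [pk_LF]
    exact Finset.sum_eq_zero fun G _ => by rw [h3 i j G hij, mul_zero]
  unfold Setup.hq
  have s1 : ∑ k, ∑ A, S.LG ξ k A (pkTau S ξ C) ^ 2 = 0 :=
    Finset.sum_eq_zero fun k _ => Finset.sum_eq_zero fun A _ => by rw [z1 k A]; ring
  have s2 : ∑ i : Fin 9, ∑ A, (if i.val < 3 then 0 else pkTau S ξ C (i, A) ^ 2 : ℝ) = 0 := by
    refine Finset.sum_eq_zero fun i _ => Finset.sum_eq_zero fun A _ => ?_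
    split_ifs with hi
    · rfl
    · rw [z2 i A hi]; ring
  have s3 : ∑ i : Fin 9, ∑ j : Fin 9, ∑ A,
      (if i.val < 3 ∧ j.val < 3 then 0 else S.LF ξ A i j (pkTau S ξ C) ^ 2 : ℝ) = 0 := by
    refine Finset.sum_eq_zero fun i _ => Finset.sum_eq_zero fun j _ =>
      Finset.sum_eq_zero fun A _ => ?_
    split_ifs with hi
    · rfl
    · rw [z3 i j A hi]; ring
  rw [s1, s2, s3]
  ring

/-- `Perp` is orthogonality to the gauge directions -/
theorem pk_perp (ξ x : Cfg d) : S.Perp ξ x ↔ ∀ C, inner ℝ (pkTau S ξ C) x = 0 := by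
  have h : ∀ C, inner ℝ (pkTau S ξ C) x = ∑ i, ∑ A, ∑ B, S.f C A B * ξ (i, A) * x (i, B) := by
    intro C
    rw [PiLp.inner_apply, Fintype.sum_prod_type]
    refine Finset.sum_congr rfl fun i _ => ?_
    rw [Finset.sum_comm]
    refine Finset.sum_congr rfl fun B _ => ?_
    have h0 : ∀ a b : ℝ, inner ℝ a b = a * b := fun a b => by simp [mul_comm]
    rw [h0, pkTau_apply, Finset.sum_mul]
  unfold Setup.Perp
  simp only [h]

/-- **G06** -/
theorem perpK : PerpKStmt S := by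
  intro ξ hξ K hK x
  rw [pk_perp]
  intro C
  have h1 : K (pkTau S ξ C) = 0 := by
    have h2 := hK.sq (pkTau S ξ C)
    rw [pk_hq S hξ C, mul_zero] at h2
    exact norm_eq_zero.1 (pow_eq_zero_iff two_ne_zero |>.1 h2)
  rw [← hK.symm, h1, inner_zero_left]

end Vale.Agent.P353.AN.G
end

section

/-! # P353, all `N`, block G: G16 -/

open MeasureTheory Filter Topology
open scoped ContDiff

namespace Vale.Agent.P353.AN.G

open Vale.Agent.P353.Z Vale.Agent.P353.Z.U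
open Vale.Agent.P353.Z.Setup (c3)

variable {d : ℕ} {F : Type*} [NormedAddCommGroup F] [InnerProductSpace ℂ F] (S : Setup d F)

/-- matrix of the gauge part -/
noncomputable def vkm (a : Fin d → ℝ) (A B : Fin d) : ℝ := ∑ C, a C * S.f C A B

theorem vkm_swap (a : Fin d → ℝ) (A B : Fin d) : vkm S a A B = - vkm S a B A := by
  unfold vkm
  rw [← Finset.sum_neg_distrib]
  exact Finset.sum_congr rfl fun C _ => by rw [S.f_swap' C B A]; ring

theorem vkm_jac (a : Fin d → ℝ) (A B E : Fin d) :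
    ∑ G, S.f A B G * vkm S a E G + ∑ G, S.f A G E * vkm S a B G =
      ∑ G, vkm S a G A * S.f G B E := by
  have h : ∑ C, a C * ∑ G, (S.f A B G * S.f C E G + S.f A G E * S.f C B G -
      S.f C G A * S.f G B E) = 0 :=
    Finset.sum_eq_zero fun C _ => by rw [pk_jac, mul_zero]
  have e1 : ∑ G, S.f A B G * vkm S a E G = ∑ C, a C * ∑ G, S.f A B G * S.f C E G := by
    simp only [vkm, Finset.mul_sum]
    rw [Finset.sum_comm]
    exact Finset.sum_congr rfl fun C _ => Finset.sum_congr rfl fun G _ => by ring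
  have e2 : ∑ G, S.f A G E * vkm S a B G = ∑ C, a C * ∑ G, S.f A G E * S.f C B G := by
    simp only [vkm, Finset.mul_sum]
    rw [Finset.sum_comm]
    exact Finset.sum_congr rfl fun C _ => Finset.sum_congr rfl fun G _ => by ring
  have e3 : ∑ G, vkm S a G A * S.f G B E = ∑ C, a C * ∑ G, S.f C G A * S.f G B E := by
    simp only [vkm, Finset.mul_sum, Finset.sum_mul]
    rw [Finset.sum_comm]
    exact Finset.sum_congr rfl fun C _ => Finset.sum_congr rfl fun G _ => by ring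
  rw [e1, e2, e3, ← sub_eq_zero, ← Finset.sum_add_distrib, ← Finset.sum_sub_distrib, ← h]
  refine Finset.sum_congr rfl fun C _ => ?_
  rw [Finset.sum_sub_distrib, Finset.sum_add_distrib]
  ring

theorem vf_apply (k l : Fin 9) (a : Fin d → ℝ) (x : Cfg d) (i : Fin 9) (B : Fin d) :
    vf S k l a x (i, B) = (if i = l then x (k, B) else 0) - (if i = k then x (l, B) else 0) +
      ∑ A, vkm S a A B * x (i, A) := by
  have h : ∑ C, ∑ A, a C * S.f C A B * x (i, A) = ∑ A, vkm S a A B * x (i, A) := by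
    rw [Finset.sum_comm]
    exact Finset.sum_congr rfl fun A _ => by rw [vkm, Finset.sum_mul]
  rw [← h]
  rfl

/-- bilinear field strength -/
noncomputable def vkB (A : Fin d) (i j : Fin 9) (x y : Cfg d) : ℝ :=
  S.κ * ∑ B, ∑ C, S.f A B C * (x (i, B) * y (j, C))

theorem vk_LF (ξ w : Cfg d) (A : Fin d) (i j : Fin 9) :
    S.LF ξ A i j w = vkB S A i j ξ w + vkB S A i j w ξ := by
  unfold Setup.LF vkB
  simp only [mul_add, Finset.sum_add_distrib]

theorem vk_FF_swap (A : Fin d) (i j : Fin 9) (x y : Cfg d) :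
    vkB S A i j x y = - vkB S A j i y x := by
  unfold vkB
  rw [← mul_neg]
  congr 1
  rw [Finset.sum_comm, ← Finset.sum_neg_distrib]
  refine Finset.sum_congr rfl fun B _ => ?_
  rw [← Finset.sum_neg_distrib]
  refine Finset.sum_congr rfl fun C _ => ?_
  rw [S.f_swap' A B C]
  ring

theorem vk_LF_swap (ξ w : Cfg d) (A : Fin d) (i j : Fin 9) :
    S.LF ξ A i j w = - S.LF ξ A j i w := by
  rw [vk_LF, vk_LF, vk_FF_swap S A i j ξ w, vk_FF_swap S A i j w ξ]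
  ring

theorem vkB_zero_left (A : Fin d) (i j : Fin 9) (y : Cfg d) : vkB S A i j 0 y = 0 := by
  unfold vkB
  simp

theorem vkB_zero_right (A : Fin d) (i j : Fin 9) (y : Cfg d) : vkB S A i j y 0 = 0 := by
  unfold vkB
  simp

theorem vkB_left (k l : Fin 9) (a : Fin d → ℝ) (A : Fin d) (i j : Fin 9) (x y : Cfg d) :
    vkB S A i j (vf S k l a x) y =
      (if i = l then vkB S A k j x y else 0) - (if i = k then vkB S A l j x y else 0) +
      S.κ * ∑ B, ∑ E, (∑ G, S.f A G E * vkm S a B G) * (x (i, B) * y (j, E)) := by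
  have h1 : vkB S A i j (vf S k l a x) y = S.κ * ∑ B, ∑ C, S.f A B C *
      ((if i = l then x (k, B) else 0) * y (j, C)) - S.κ * ∑ B, ∑ C, S.f A B C *
      ((if i = k then x (l, B) else 0) * y (j, C)) + S.κ * ∑ B, ∑ C, S.f A B C *
      ((∑ G, vkm S a G B * x (i, G)) * y (j, C)) := by
    unfold vkB
    rw [← mul_sub, ← mul_add, ← Finset.sum_sub_distrib, ← Finset.sum_add_distrib]
    congr 1
    refine Finset.sum_congr rfl fun B _ => ?_
    rw [← Finset.sum_sub_distrib, ← Finset.sum_add_distrib]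
    refine Finset.sum_congr rfl fun C _ => ?_
    rw [vf_apply]
    ring
  have h2 : ∑ B, ∑ C, S.f A B C * ((∑ G, vkm S a G B * x (i, G)) * y (j, C)) =
      ∑ B, ∑ E, (∑ G, S.f A G E * vkm S a B G) * (x (i, B) * y (j, E)) := by
    have h3 : ∀ B C, S.f A B C * ((∑ G, vkm S a G B * x (i, G)) * y (j, C)) =
        ∑ G, S.f A B C * vkm S a G B * (x (i, G) * y (j, C)) := by
      intro B C
      rw [Finset.sum_mul, Finset.mul_sum]
      exact Finset.sum_congr rfl fun G _ => by ring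
    have h4 : ∀ B E, (∑ G, S.f A G E * vkm S a B G) * (x (i, B) * y (j, E)) =
        ∑ G, S.f A G E * vkm S a B G * (x (i, B) * y (j, E)) := fun B E => Finset.sum_mul _ _ _
    simp only [h3, h4]
    rw [Finset.sum_comm]
    have h5 : ∀ C, ∑ B, ∑ G, S.f A B C * vkm S a G B * (x (i, G) * y (j, C)) =
        ∑ G, ∑ B, S.f A B C * vkm S a G B * (x (i, G) * y (j, C)) := fun C => Finset.sum_comm
    simp only [h5]
    rw [Finset.sum_comm]
  rw [h1, h2]
  unfold vkB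
  congr 2
  · split_ifs <;> simp
  · split_ifs <;> simp

theorem vkB_right (k l : Fin 9) (a : Fin d → ℝ) (A : Fin d) (i j : Fin 9) (x y : Cfg d) :
    vkB S A i j x (vf S k l a y) =
      (if j = l then vkB S A i k x y else 0) - (if j = k then vkB S A i l x y else 0) +
      S.κ * ∑ B, ∑ E, (∑ G, S.f A B G * vkm S a E G) * (x (i, B) * y (j, E)) := by
  have h1 : vkB S A i j x (vf S k l a y) = S.κ * ∑ B, ∑ C, S.f A B C *
      (x (i, B) * (if j = l then y (k, C) else 0)) - S.κ * ∑ B, ∑ C, S.f A B C *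
      (x (i, B) * (if j = k then y (l, C) else 0)) + S.κ * ∑ B, ∑ C, S.f A B C *
      (x (i, B) * (∑ G, vkm S a G C * y (j, G))) := by
    unfold vkB
    rw [← mul_sub, ← mul_add, ← Finset.sum_sub_distrib, ← Finset.sum_add_distrib]
    congr 1
    refine Finset.sum_congr rfl fun B _ => ?_
    rw [← Finset.sum_sub_distrib, ← Finset.sum_add_distrib]
    refine Finset.sum_congr rfl fun C _ => ?_
    rw [vf_apply]
    ring
  have h2 : ∑ B, ∑ C, S.f A B C * (x (i, B) * (∑ G, vkm S a G C * y (j, G))) =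
      ∑ B, ∑ E, (∑ G, S.f A B G * vkm S a E G) * (x (i, B) * y (j, E)) := by
    refine Finset.sum_congr rfl fun B _ => ?_
    have h3 : ∀ C, S.f A B C * (x (i, B) * (∑ G, vkm S a G C * y (j, G))) =
        ∑ G, S.f A B C * vkm S a G C * (x (i, B) * y (j, G)) := by
      intro C
      rw [Finset.mul_sum, Finset.mul_sum]
      exact Finset.sum_congr rfl fun G _ => by ring
    have h4 : ∀ E, (∑ G, S.f A B G * vkm S a E G) * (x (i, B) * y (j, E)) =
        ∑ G, S.f A B G * vkm S a E G * (x (i, B) * y (j, E)) := fun E => Finset.sum_mul _ _ _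
    simp only [h3, h4]
    rw [Finset.sum_comm]
  rw [h1, h2]
  unfold vkB
  congr 2
  · split_ifs <;> simp
  · split_ifs <;> simp

/-- Leibniz rule -/
theorem vkB_der (k l : Fin 9) (a : Fin d → ℝ) (A : Fin d) (i j : Fin 9) (x y : Cfg d) :
    vkB S A i j (vf S k l a x) y + vkB S A i j x (vf S k l a y) =
      (if i = l then vkB S A k j x y else 0) - (if i = k then vkB S A l j x y else 0) +
      ((if j = l then vkB S A i k x y else 0) - (if j = k then vkB S A i l x y else 0)) +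
      ∑ G, vkm S a G A * vkB S G i j x y := by
  have h1 : ∑ G, vkm S a G A * vkB S G i j x y = S.κ * ∑ B, ∑ E,
      (∑ G, S.f A G E * vkm S a B G) * (x (i, B) * y (j, E)) + S.κ * ∑ B, ∑ E,
      (∑ G, S.f A B G * vkm S a E G) * (x (i, B) * y (j, E)) := by
    have h2 : ∀ G, vkm S a G A * vkB S G i j x y =
        S.κ * ∑ B, ∑ E, (vkm S a G A * S.f G B E) * (x (i, B) * y (j, E)) := by
      intro G
      unfold vkB
      rw [mul_left_comm, Finset.mul_sum]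
      congr 1
      refine Finset.sum_congr rfl fun B _ => ?_
      rw [Finset.mul_sum]
      exact Finset.sum_congr rfl fun E _ => by ring
    simp only [h2]
    rw [← Finset.mul_sum, Finset.sum_comm, ← mul_add, ← Finset.sum_add_distrib]
    congr 1
    refine Finset.sum_congr rfl fun B _ => ?_
    rw [Finset.sum_comm, ← Finset.sum_add_distrib]
    refine Finset.sum_congr rfl fun E _ => ?_
    rw [← Finset.sum_mul, ← vkm_jac]
    ring
  rw [vkB_left, vkB_right, h1]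
  ring

/-- the linearised field strength is covariant -/
theorem vk_LF_vf {k l : Fin 9} {a : Fin d → ℝ} {ξ : Cfg d} (h : vf S k l a ξ = 0) (A : Fin d)
    (i j : Fin 9) (w : Cfg d) : S.LF ξ A i j (vf S k l a w) =
      (if i = l then S.LF ξ A k j w else 0) - (if i = k then S.LF ξ A l j w else 0) +
      ((if j = l then S.LF ξ A i k w else 0) - (if j = k then S.LF ξ A i l w else 0)) +
      ∑ G, vkm S a G A * S.LF ξ G i j w := by
  have h1 := vkB_der S k l a A i j ξ w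
  have h2 := vkB_der S k l a A i j w ξ
  rw [h, vkB_zero_left, zero_add] at h1
  rw [h, vkB_zero_right, add_zero] at h2
  rw [vk_LF, h1, h2]
  simp only [vk_LF, mul_add, Finset.sum_add_distrib]
  split_ifs <;> ring

/-- linearity of `LF` -/
theorem vk_LF_add (ξ x y : Cfg d) (A : Fin d) (i j : Fin 9) :
    S.LF ξ A i j (x + y) = S.LF ξ A i j x + S.LF ξ A i j y := by
  unfold Setup.LF
  rw [← mul_add, ← Finset.sum_add_distrib]
  congr 1
  refine Finset.sum_congr rfl fun B _ => ?_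
  rw [← Finset.sum_add_distrib]
  refine Finset.sum_congr rfl fun C _ => ?_
  simp only [PiLp.add_apply]
  ring

theorem vk_LG_add (ξ x y : Cfg d) (A : Fin d) (m : Fin 3) :
    S.LG ξ m A (x + y) = S.LG ξ m A x + S.LG ξ m A y := by
  unfold Setup.LG
  rw [vk_LF_add, PiLp.add_apply]
  ring

/-- polarised quadratic form -/
noncomputable def vkP (ξ x y : Cfg d) : ℝ :=
  (1 / 2) * (∑ k, ∑ A, S.LG ξ k A x * S.LG ξ k A y) +
    (1 / 2) * (∑ i : Fin 9, ∑ A, if i.val < 3 then 0 else x (i, A) * y (i, A)) +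
    (1 / 4) * (∑ i : Fin 9, ∑ j : Fin 9, ∑ A,
      if i.val < 3 ∧ j.val < 3 then 0 else S.LF ξ A i j x * S.LF ξ A i j y)

theorem vk_hq_add (ξ x y : Cfg d) :
    S.hq ξ (x + y) = S.hq ξ x + 2 * vkP S ξ x y + S.hq ξ y := by
  have e1 : ∑ k, ∑ A, S.LG ξ k A (x + y) ^ 2 = ∑ k, ∑ A, S.LG ξ k A x ^ 2 +
      2 * (∑ k, ∑ A, S.LG ξ k A x * S.LG ξ k A y) + ∑ k, ∑ A, S.LG ξ k A y ^ 2 := by
    rw [Finset.mul_sum, ← Finset.sum_add_distrib, ← Finset.sum_add_distrib]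
    refine Finset.sum_congr rfl fun k _ => ?_
    rw [Finset.mul_sum, ← Finset.sum_add_distrib, ← Finset.sum_add_distrib]
    refine Finset.sum_congr rfl fun A _ => ?_
    rw [vk_LG_add]
    ring
  have e2 : (∑ i : Fin 9, ∑ A, if i.val < 3 then 0 else (x + y) (i, A) ^ 2 : ℝ) =
      (∑ i : Fin 9, ∑ A, if i.val < 3 then 0 else x (i, A) ^ 2 : ℝ) +
      2 * (∑ i : Fin 9, ∑ A, if i.val < 3 then 0 else x (i, A) * y (i, A)) +
      (∑ i : Fin 9, ∑ A, if i.val < 3 then 0 else y (i, A) ^ 2 : ℝ) := by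
    rw [Finset.mul_sum, ← Finset.sum_add_distrib, ← Finset.sum_add_distrib]
    refine Finset.sum_congr rfl fun k _ => ?_
    rw [Finset.mul_sum, ← Finset.sum_add_distrib, ← Finset.sum_add_distrib]
    refine Finset.sum_congr rfl fun A _ => ?_
    rw [PiLp.add_apply]
    split_ifs <;> ring
  have e3 : (∑ i : Fin 9, ∑ j : Fin 9, ∑ A,
      if i.val < 3 ∧ j.val < 3 then 0 else S.LF ξ A i j (x + y) ^ 2 : ℝ) =
      (∑ i : Fin 9, ∑ j : Fin 9, ∑ A,
      if i.val < 3 ∧ j.val < 3 then 0 else S.LF ξ A i j x ^ 2 : ℝ) +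
      2 * (∑ i : Fin 9, ∑ j : Fin 9, ∑ A,
      if i.val < 3 ∧ j.val < 3 then 0 else S.LF ξ A i j x * S.LF ξ A i j y : ℝ) +
      (∑ i : Fin 9, ∑ j : Fin 9, ∑ A,
      if i.val < 3 ∧ j.val < 3 then 0 else S.LF ξ A i j y ^ 2 : ℝ) := by
    rw [Finset.mul_sum, ← Finset.sum_add_distrib, ← Finset.sum_add_distrib]
    refine Finset.sum_congr rfl fun k _ => ?_
    rw [Finset.mul_sum, ← Finset.sum_add_distrib, ← Finset.sum_add_distrib]
    refine Finset.sum_congr rfl fun j _ => ?_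
    rw [Finset.mul_sum, ← Finset.sum_add_distrib, ← Finset.sum_add_distrib]
    refine Finset.sum_congr rfl fun A _ => ?_
    rw [vk_LF_add]
    split_ifs <;> ring
  unfold Setup.hq vkP
  rw [e1, e2, e3]
  ring

/-- antisymmetric sums vanish -/
theorem vk_anti (a : Fin d → ℝ) (g : Fin d → ℝ) :
    ∑ A, g A * ∑ G, vkm S a G A * g G = 0 := by
  have h1 : ∑ A, g A * ∑ G, vkm S a G A * g G = ∑ A, ∑ G, vkm S a G A * (g G * g A) := by
    refine Finset.sum_congr rfl fun A _ => ?_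
    rw [Finset.mul_sum]
    exact Finset.sum_congr rfl fun G _ => by ring
  have h2 : ∑ A, ∑ G, vkm S a G A * (g G * g A) = - ∑ A, ∑ G, vkm S a G A * (g G * g A) := by
    conv_rhs => rw [Finset.sum_comm]
    rw [← Finset.sum_neg_distrib]
    refine Finset.sum_congr rfl fun A _ => ?_
    rw [← Finset.sum_neg_distrib]
    refine Finset.sum_congr rfl fun G _ => ?_
    rw [vkm_swap S a G A]
    ring
  linarith

/-- sum over `i` of a rotation -/
theorem vk_rot (w g : Fin 9 → ℝ) {k l : Fin 9} (hw : w k = w l) :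
    ∑ i, w i * (g i * ((if i = l then g k else 0) - (if i = k then g l else 0))) = 0 := by
  have h1 : ∀ i, w i * (g i * ((if i = l then g k else 0) - (if i = k then g l else 0))) =
      (if i = l then w i * (g i * g k) else 0) - (if i = k then w i * (g i * g l) else 0) := by
    intro i
    split_ifs <;> ring
  simp only [h1]
  rw [Finset.sum_sub_distrib, Finset.sum_ite_eq' Finset.univ l, Finset.sum_ite_eq' Finset.univ k,
    if_pos (Finset.mem_univ _), if_pos (Finset.mem_univ _), hw]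
  ring

/-- `LG` is covariant, `k, l ∈ I3` -/
theorem vk_LG_vf {p q : Fin 3} (hpq : p ≠ q) {a : Fin d → ℝ} {ξ : Cfg d}
    (h : vf S (c3 p) (c3 q) a ξ = 0) (m : Fin 3) (A : Fin d) (w : Cfg d) :
    S.LG ξ m A (vf S (c3 p) (c3 q) a w) =
      (if m = q then S.LG ξ p A w else 0) - (if m = p then S.LG ξ q A w else 0) +
      ∑ G, vkm S a G A * S.LG ξ m G w := by
  have hs : ∀ i j, S.LF ξ A i j w = - S.LF ξ A j i w := fun i j => vk_LF_swap S ξ w A i j
  have h00 : S.LF ξ A 0 0 w = 0 := by linarith [hs 0 0]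
  have h11 : S.LF ξ A 1 1 w = 0 := by linarith [hs 1 1]
  have h22 : S.LF ξ A 2 2 w = 0 := by linarith [hs 2 2]
  have h10 := hs 1 0
  have h21 := hs 2 1
  have h20 := hs 2 0
  have c0 : c3 0 = 0 := rfl
  have c1 : c3 1 = 1 := rfl
  have c2 : c3 2 = 2 := rfl
  have e1 : (0 : Fin 3) + 1 = 1 := rfl
  have e2 : (0 : Fin 3) + 2 = 2 := rfl
  have e3 : (1 : Fin 3) + 1 = 2 := rfl
  have e4 : (1 : Fin 3) + 2 = 0 := rfl
  have e5 : (2 : Fin 3) + 1 = 0 := rfl
  have e6 : (2 : Fin 3) + 2 = 1 := rfl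
  have hG : ∑ G, vkm S a G A * S.LG ξ m G w =
      ∑ G, vkm S a G A * S.LF ξ G (c3 (m + 1)) (c3 (m + 2)) w +
      2 * ∑ G, vkm S a G A * w (c3 m, G) := by
    unfold Setup.LG
    rw [Finset.mul_sum, ← Finset.sum_add_distrib]
    exact Finset.sum_congr rfl fun G _ => by ring
  rw [hG]
  unfold Setup.LG
  rw [vk_LF_vf S h, vf_apply]
  generalize (∑ G, vkm S a G A * S.LF ξ G (c3 (m + 1)) (c3 (m + 2)) w) = X1
  generalize (∑ G, vkm S a G A * w (c3 m, G)) = X2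
  fin_cases p <;> fin_cases q <;> first | exact absurd rfl hpq | skip
  all_goals fin_cases m <;>
    simp [c0, c1, c2, e1, e2, e3, e4, e5, e6, h00, h11, h22, h10, h21, h20] <;> ring

/-- `LG` is covariant, `k, l ∈ I6` -/
theorem vk_LG_vf' {k l : Fin 9} (hk : ¬ k.val < 3) (hl : ¬ l.val < 3) {a : Fin d → ℝ} {ξ : Cfg d}
    (h : vf S k l a ξ = 0) (m : Fin 3) (A : Fin d) (w : Cfg d) :
    S.LG ξ m A (vf S k l a w) = ∑ G, vkm S a G A * S.LG ξ m G w := by
  have n1 : ∀ m : Fin 3, ¬ (c3 m = k) := fun m hm => hk (by rw [← hm]; exact m.isLt)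
  have n2 : ∀ m : Fin 3, ¬ (c3 m = l) := fun m hm => hl (by rw [← hm]; exact m.isLt)
  have hG : ∑ G, vkm S a G A * S.LG ξ m G w =
      ∑ G, vkm S a G A * S.LF ξ G (c3 (m + 1)) (c3 (m + 2)) w +
      2 * ∑ G, vkm S a G A * w (c3 m, G) := by
    unfold Setup.LG
    rw [Finset.mul_sum, ← Finset.sum_add_distrib]
    exact Finset.sum_congr rfl fun G _ => by ring
  rw [hG]
  unfold Setup.LG
  rw [vk_LF_vf S h, vf_apply]
  simp only [if_neg (n1 _), if_neg (n2 _)]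
  ring

/-- the first part of the polarised form -/
theorem vk_P1 {k l : Fin 9} (hkl : Same k l) {a : Fin d → ℝ} {ξ : Cfg d}
    (h : vf S k l a ξ = 0) (w : Cfg d) :
    ∑ m, ∑ A, S.LG ξ m A w * S.LG ξ m A (vf S k l a w) = 0 := by
  by_cases hk : k.val < 3
  · have hl : l.val < 3 := hkl.2.1 hk
    obtain ⟨p, rfl⟩ : ∃ p : Fin 3, k = c3 p := ⟨⟨k.val, hk⟩, rfl⟩
    obtain ⟨q, rfl⟩ : ∃ q : Fin 3, l = c3 q := ⟨⟨l.val, hl⟩, rfl⟩
    have hpq : p ≠ q := fun e => hkl.1 (by rw [e])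
    have h1 : ∀ m A, S.LG ξ m A w * S.LG ξ m A (vf S (c3 p) (c3 q) a w) =
        ((if m = q then S.LG ξ m A w * S.LG ξ p A w else 0) -
        (if m = p then S.LG ξ m A w * S.LG ξ q A w else 0)) +
        S.LG ξ m A w * ∑ G, vkm S a G A * S.LG ξ m G w := by
      intro m A
      rw [vk_LG_vf S hpq h]
      split_ifs <;> ring
    simp only [h1, Finset.sum_add_distrib, Finset.sum_sub_distrib]
    have h2 : ∑ m, ∑ A, S.LG ξ m A w * ∑ G, vkm S a G A * S.LG ξ m G w = 0 :=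
      Finset.sum_eq_zero fun m _ => vk_anti S a fun A => S.LG ξ m A w
    have h3 : ∑ m, ∑ A, (if m = q then S.LG ξ m A w * S.LG ξ p A w else 0) =
        ∑ A, S.LG ξ q A w * S.LG ξ p A w := by
      rw [Finset.sum_comm]
      exact Finset.sum_congr rfl fun A _ => by
        rw [Finset.sum_ite_eq' Finset.univ q, if_pos (Finset.mem_univ _)]
    have h4 : ∑ m, ∑ A, (if m = p then S.LG ξ m A w * S.LG ξ q A w else 0) =
        ∑ A, S.LG ξ p A w * S.LG ξ q A w := by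
      rw [Finset.sum_comm]
      exact Finset.sum_congr rfl fun A _ => by
        rw [Finset.sum_ite_eq' Finset.univ p, if_pos (Finset.mem_univ _)]
    rw [h2, h3, h4, ← Finset.sum_sub_distrib, add_zero]
    exact Finset.sum_eq_zero fun A _ => by ring
  · have hl : ¬ l.val < 3 := fun e => hk (hkl.2.2 e)
    refine Finset.sum_eq_zero fun m _ => ?_
    have h1 : ∀ A, S.LG ξ m A w * S.LG ξ m A (vf S k l a w) =
        S.LG ξ m A w * ∑ G, vkm S a G A * S.LG ξ m G w := fun A => by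
      rw [vk_LG_vf' S hk hl h]
    simp only [h1]
    exact vk_anti S a fun A => S.LG ξ m A w

/-- the second part of the polarised form -/
theorem vk_P2 {k l : Fin 9} (hkl : Same k l) (a : Fin d → ℝ) (w : Cfg d) :
    (∑ i : Fin 9, ∑ A, if i.val < 3 then 0 else w (i, A) * vf S k l a w (i, A)) = 0 := by
  obtain ⟨c, hc⟩ : ∃ c : Fin 9 → ℝ, c = fun i => if i.val < 3 then 0 else 1 := ⟨_, rfl⟩
  have hckl : c k = c l := by
    rw [hc]
    by_cases hk : k.val < 3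
    · simp only [if_pos hk, if_pos (hkl.2.1 hk)]
    · simp only [if_neg hk, if_neg fun e => hk (hkl.2.2 e)]
  have h1 : ∀ i A, (if i.val < 3 then 0 else w (i, A) * vf S k l a w (i, A) : ℝ) =
      c i * (w (i, A) * ((if i = l then w (k, A) else 0) - (if i = k then w (l, A) else 0))) +
      c i * (w (i, A) * ∑ G, vkm S a G A * w (i, G)) := by
    intro i A
    rw [hc, vf_apply]
    by_cases hi : i.val < 3
    · simp only [if_pos hi]; ring
    · simp only [if_neg hi]; ring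
  simp only [h1, Finset.sum_add_distrib]
  have h2 : ∑ i, ∑ A, c i * (w (i, A) * ∑ G, vkm S a G A * w (i, G)) = 0 :=
    Finset.sum_eq_zero fun i _ => by
      rw [← Finset.mul_sum, vk_anti S a fun A => w (i, A), mul_zero]
  rw [h2, Finset.sum_comm, add_zero]
  exact Finset.sum_eq_zero fun A _ => vk_rot c (fun i => w (i, A)) hckl

/-- the third part of the polarised form -/
theorem vk_P3 {k l : Fin 9} (hkl : Same k l) {a : Fin d → ℝ} {ξ : Cfg d}
    (h : vf S k l a ξ = 0) (w : Cfg d) : (∑ i : Fin 9, ∑ j : Fin 9, ∑ A,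
      if i.val < 3 ∧ j.val < 3 then 0 else S.LF ξ A i j w * S.LF ξ A i j (vf S k l a w)) = 0 := by
  obtain ⟨c, hc⟩ : ∃ c : Fin 9 → Fin 9 → ℝ, c = fun i j => if i.val < 3 ∧ j.val < 3 then 0 else 1 :=
    ⟨_, rfl⟩
  have hc1 : ∀ j, c k j = c l j := by
    intro j
    rw [hc]
    by_cases hk : k.val < 3
    · have hl := hkl.2.1 hk
      simp only [hk, hl]
    · have hl : ¬ l.val < 3 := fun e => hk (hkl.2.2 e)
      simp only [hk, hl]
  have hc2 : ∀ i, c i k = c i l := by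
    intro j
    rw [hc]
    by_cases hk : k.val < 3
    · have hl := hkl.2.1 hk
      simp only [hk, hl]
    · have hl : ¬ l.val < 3 := fun e => hk (hkl.2.2 e)
      simp only [hk, hl]
  have h1 : ∀ (i j : Fin 9) (A : Fin d), (if i.val < 3 ∧ j.val < 3 then 0 else
      S.LF ξ A i j w * S.LF ξ A i j (vf S k l a w) : ℝ) =
      c i j * (S.LF ξ A i j w * ((if i = l then S.LF ξ A k j w else 0) -
        (if i = k then S.LF ξ A l j w else 0))) +
      c i j * (S.LF ξ A i j w * ((if j = l then S.LF ξ A i k w else 0) -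
        (if j = k then S.LF ξ A i l w else 0))) +
      c i j * (S.LF ξ A i j w * ∑ G, vkm S a G A * S.LF ξ G i j w) := by
    intro i j A
    rw [hc, vk_LF_vf S h]
    by_cases hi : i.val < 3 ∧ j.val < 3
    · simp only [if_pos hi]; ring
    · simp only [if_neg hi]; ring
  simp only [h1, Finset.sum_add_distrib]
  have h2 : ∑ i, ∑ j, ∑ A, c i j * (S.LF ξ A i j w * ∑ G, vkm S a G A * S.LF ξ G i j w) = 0 :=
    Finset.sum_eq_zero fun i _ => Finset.sum_eq_zero fun j _ => by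
      rw [← Finset.mul_sum, vk_anti S a fun A => S.LF ξ A i j w, mul_zero]
  have h3 : ∑ i, ∑ j, ∑ A, c i j * (S.LF ξ A i j w * ((if i = l then S.LF ξ A k j w else 0) -
        (if i = k then S.LF ξ A l j w else 0))) = 0 := by
    rw [Finset.sum_comm]
    refine Finset.sum_eq_zero fun j _ => ?_
    rw [Finset.sum_comm]
    exact Finset.sum_eq_zero fun A _ => vk_rot (fun i => c i j) (fun i => S.LF ξ A i j w) (hc1 j)
  have h4 : ∑ i, ∑ j, ∑ A, c i j * (S.LF ξ A i j w * ((if j = l then S.LF ξ A i k w else 0) -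
        (if j = k then S.LF ξ A i l w else 0))) = 0 := by
    refine Finset.sum_eq_zero fun i _ => ?_
    rw [Finset.sum_comm]
    exact Finset.sum_eq_zero fun A _ => vk_rot (fun j => c i j) (fun j => S.LF ξ A i j w) (hc2 i)
  rw [h2, h3, h4]
  ring

theorem vk_P {k l : Fin 9} (hkl : Same k l) {a : Fin d → ℝ} {ξ : Cfg d}
    (h : vf S k l a ξ = 0) (w : Cfg d) : vkP S ξ w (vf S k l a w) = 0 := by
  unfold vkP
  rw [vk_P1 S hkl h, vk_P2 S hkl, vk_P3 S hkl h]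
  ring

theorem vf_add (k l : Fin 9) (a : Fin d → ℝ) (x y : Cfg d) :
    vf S k l a (x + y) = vf S k l a x + vf S k l a y := by
  ext ⟨i, B⟩
  rw [PiLp.add_apply, vf_apply, vf_apply, vf_apply]
  have h1 : ∑ A, vkm S a A B * (x + y) (i, A) = ∑ A, vkm S a A B * x (i, A) +
      ∑ A, vkm S a A B * y (i, A) := by
    rw [← Finset.sum_add_distrib]
    exact Finset.sum_congr rfl fun A _ => by rw [PiLp.add_apply]; ring
  rw [h1, PiLp.add_apply, PiLp.add_apply]
  split_ifs <;> ring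

theorem vf_smul (k l : Fin 9) (a : Fin d → ℝ) (c : ℝ) (x : Cfg d) :
    vf S k l a (c • x) = c • vf S k l a x := by
  ext ⟨i, B⟩
  rw [PiLp.smul_apply, vf_apply, vf_apply]
  have h1 : ∑ A, vkm S a A B * (c • x) (i, A) = c * ∑ A, vkm S a A B * x (i, A) := by
    rw [Finset.mul_sum]
    exact Finset.sum_congr rfl fun A _ => by rw [PiLp.smul_apply, smul_eq_mul]; ring
  rw [h1, PiLp.smul_apply, PiLp.smul_apply, smul_eq_mul, smul_eq_mul, smul_eq_mul]
  split_ifs <;> ring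

/-- the vector field as a continuous linear map -/
noncomputable def vfL (k l : Fin 9) (a : Fin d → ℝ) : Cfg d →L[ℝ] Cfg d :=
  LinearMap.toContinuousLinearMap
    { toFun := vf S k l a
      map_add' := vf_add S k l a
      map_smul' := vf_smul S k l a }

theorem vfL_apply (k l : Fin 9) (a : Fin d → ℝ) (x : Cfg d) : vfL S k l a x = vf S k l a x := rfl

/-- `vf` is antisymmetric -/
theorem vf_self (k l : Fin 9) (a : Fin d → ℝ) (x : Cfg d) :
    inner ℝ x (vf S k l a x) = 0 := by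
  have h0 : ∀ a b : ℝ, inner ℝ a b = a * b := fun a b => by simp [mul_comm]
  rw [PiLp.inner_apply, Fintype.sum_prod_type]
  simp only [h0, vf_apply, mul_add, Finset.sum_add_distrib]
  have h2 : ∑ i, ∑ A, x (i, A) * ∑ G, vkm S a G A * x (i, G) = 0 :=
    Finset.sum_eq_zero fun i _ => vk_anti S a fun A => x (i, A)
  rw [h2, Finset.sum_comm, add_zero]
  refine Finset.sum_eq_zero fun A _ => ?_
  have h3 := vk_rot (fun _ => 1) (fun i => x (i, A)) (k := k) (l := l) rfl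
  simpa only [one_mul] using h3

theorem vf_anti (k l : Fin 9) (a : Fin d → ℝ) (x y : Cfg d) :
    inner ℝ (vf S k l a x) y = - inner ℝ x (vf S k l a y) := by
  have h := vf_self S k l a (x + y)
  rw [vf_add, inner_add_left, inner_add_right, inner_add_right, vf_self, vf_self,
    real_inner_comm (vf S k l a x) y] at h
  linarith

/-- **G16** -/
theorem vfK (h2 : SqCommStmt) : VfKStmt S := by
  intro ξ _ K hK k l hkl a ha x
  have hq : ∀ x y, inner ℝ (K x) (K y) = 2 * vkP S ξ x y := by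
    intro x y
    have h1 := hK.sq (x + y)
    rw [map_add, vk_hq_add, norm_add_sq_real, hK.sq, hK.sq] at h1
    linarith
  have h0 : ∀ x, inner ℝ (K (K x)) (vf S k l a x) = 0 := fun x => by
    rw [hK.symm, hq, vk_P S hkl ha, mul_zero]
  have hanti : ∀ x y, inner ℝ (K (K x)) (vf S k l a y) = - inner ℝ (K (K y)) (vf S k l a x) := by
    intro x y
    have h := h0 (x + y)
    rw [vf_add, map_add, map_add, inner_add_left, inner_add_right, inner_add_right, h0, h0] at h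
    linarith
  have hcomm : ∀ x, vfL S k l a (K (K x)) = K (K (vfL S k l a x)) := by
    intro x
    refine ext_inner_right ℝ fun y => ?_
    rw [vfL_apply, vfL_apply, vf_anti, hanti, neg_neg, hK.symm, hK.symm,
      real_inner_comm]
  have h := h2 (Cfg d) K (vfL S k l a) hK.symm hK.pos hcomm x
  rw [vfL_apply, vfL_apply] at h
  exact h.symm

end Vale.Agent.P353.AN.G
end

section

/-! # P353, all `N`, block G: G17, compensated rotations kill the vacuum -/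

open MeasureTheory Filter Topology
open scoped ContDiff Matrix

namespace Vale.Agent.P353.AN.G

open Vale.Agent.P353.Z Vale.Agent.P353.Z.U

namespace JK

variable {d : ℕ} {F : Type*} [NormedAddCommGroup F] [InnerProductSpace ℂ F] (S : Setup d F)

/-- `J_{kl} + ∑ a_C G_C` -/
noncomputable def X (k l : Fin 9) (a : Fin d → ℝ) (u : Cfg d → F) (x : Cfg d) : F :=
  S.J k l u x + ∑ C, (a C : ℂ) • S.G C u x

/-- its value on constants -/
noncomputable def s (k l : Fin 9) (a : Fin d → ℝ) : F →L[ℂ] F :=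
  S.Skl k l + ∑ C, (a C : ℂ) • S.cS C

lemma s_apply (k l : Fin 9) (a : Fin d → ℝ) (v : F) :
    s S k l a v = S.Skl k l v + ∑ C, (a C : ℂ) • S.cS C v := by
  unfold s
  rw [_root_.add_apply, _root_.sum_apply]
  rfl

lemma pd_const (i : Fin 9) (A : Fin d) (φ : F) (x : Cfg d) :
    pd i A (fun _ : Cfg d => φ) x = 0 := by
  unfold pd
  rw [fderiv_fun_const]
  simp

lemma X_const (k l : Fin 9) (a : Fin d → ℝ) (φ : F) :
    X S k l a (fun _ => φ) = fun _ => s S k l a φ := by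
  funext x
  rw [s_apply]
  simp [X, Setup.J, Setup.G, pd_const]

lemma X_smooth (k l : Fin 9) (a : Fin d → ℝ) {u : Cfg d → F} (hu : ContDiff ℝ ∞ u) :
    ContDiff ℝ ∞ (X S k l a u) := by
  unfold X
  exact (S.contDiff_J k l hu).add (ContDiff.sum fun C _ => contDiff_const.smul (A4.contDiff_G S C hu))

/-- value at a point where the vector field vanishes -/
lemma X_at {k l : Fin 9} {a : Fin d → ℝ} {ξ : Cfg d} (hξ : vf S k l a ξ = 0) (v : Cfg d → F) :
    X S k l a v ξ = s S k l a (v ξ) := by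
  have hc : ∀ i B, (if i = l then ξ (k, B) else 0) - (if i = k then ξ (l, B) else 0) +
      ∑ C, ∑ A, a C * S.f C A B * ξ (i, A) = 0 := by
    intro i B
    have h1 : vf S k l a ξ (i, B) = 0 := by rw [hξ]; rfl
    exact h1
  have h0 : ∑ A, ((ξ (k, A) : ℂ) • pd l A v ξ - (ξ (l, A) : ℂ) • pd k A v ξ) +
      ∑ C, (a C : ℂ) • ∑ i, ∑ A, ∑ B, ((S.f C A B : ℂ) * (ξ (i, A) : ℂ)) • pd i B v ξ = 0 := by
    have e1 : ∑ A, ((ξ (k, A) : ℂ) • pd l A v ξ - (ξ (l, A) : ℂ) • pd k A v ξ) =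
        ∑ i, ∑ B, (((if i = l then ξ (k, B) else 0) - (if i = k then ξ (l, B) else 0) : ℝ) : ℂ) •
          pd i B v ξ := by
      rw [Finset.sum_comm]
      refine Finset.sum_congr rfl fun B _ => ?_
      simp only [Complex.ofReal_sub, sub_smul, Finset.sum_sub_distrib]
      congr 1
      · rw [Finset.sum_eq_single l]
        · simp
        · intro i _ hi; simp [hi]
        · intro h; exact absurd (Finset.mem_univ _) h
      · rw [Finset.sum_eq_single k]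
        · simp
        · intro i _ hi; simp [hi]
        · intro h; exact absurd (Finset.mem_univ _) h
    have e2 : ∑ C, (a C : ℂ) • ∑ i, ∑ A, ∑ B, ((S.f C A B : ℂ) * (ξ (i, A) : ℂ)) • pd i B v ξ =
        ∑ i, ∑ B, ((∑ C, ∑ A, a C * S.f C A B * ξ (i, A) : ℝ) : ℂ) • pd i B v ξ := by
      have e3 : ∀ i B, ((∑ C, ∑ A, a C * S.f C A B * ξ (i, A) : ℝ) : ℂ) • pd i B v ξ =
          ∑ C, ∑ A, ((a C : ℂ) * ((S.f C A B : ℂ) * (ξ (i, A) : ℂ))) • pd i B v ξ := by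
        intro i B
        push_cast
        rw [Finset.sum_smul]
        refine Finset.sum_congr rfl fun C _ => ?_
        rw [Finset.sum_smul]
        refine Finset.sum_congr rfl fun A _ => ?_
        rw [mul_assoc]
      simp only [e3, Finset.smul_sum, smul_smul]
      rw [Finset.sum_comm]
      refine Finset.sum_congr rfl fun i _ => ?_
      have : ∀ C, ∑ A, ∑ B, ((a C : ℂ) * ((S.f C A B : ℂ) * (ξ (i, A) : ℂ))) • pd i B v ξ =
          ∑ B, ∑ A, ((a C : ℂ) * ((S.f C A B : ℂ) * (ξ (i, A) : ℂ))) • pd i B v ξ := fun C =>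
        Finset.sum_comm
      rw [Finset.sum_congr rfl fun C _ => this C]
      exact Finset.sum_comm
    rw [e1, e2, ← Finset.sum_add_distrib]
    refine Finset.sum_eq_zero fun i _ => ?_
    rw [← Finset.sum_add_distrib]
    refine Finset.sum_eq_zero fun B _ => ?_
    rw [← add_smul, ← Complex.ofReal_add, hc i B]
    simp
  rw [s_apply]
  unfold X Setup.J Setup.G
  simp only [smul_add, Finset.sum_add_distrib]
  have e4 : ∀ C, (a C : ℂ) • (-Complex.I) • ∑ i, ∑ A, ∑ B, ((S.f C A B : ℂ) * (ξ (i, A) : ℂ)) •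
      pd i B v ξ = (-Complex.I) • (a C : ℂ) • ∑ i, ∑ A, ∑ B, ((S.f C A B : ℂ) * (ξ (i, A) : ℂ)) •
      pd i B v ξ := fun C => smul_comm _ _ _
  simp only [e4, ← Finset.smul_sum]
  have e5 := congrArg (fun z => (-Complex.I) • z) h0
  simp only [smul_add, smul_zero] at e5
  rw [← add_assoc, add_right_comm _ (S.Skl k l (v ξ)), e5, zero_add]

theorem A1 : A1Stmt S := a1 S (a1a S) (a1b S (fbmn S (f10 S)))
theorem A7 : A7Stmt S := a7 S (A1 S)

lemma X_Q {k l : Fin 9} (hkl : Same k l) (a : Fin d → ℝ) (α : Fin 16) {u : Cfg d → F}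
    (hu : ContDiff ℝ ∞ u) (x : Cfg d) : X S k l a (S.Qm 1 α u) x =
      S.Qm 1 α (X S k l a u) x + (Complex.I / 2) • ∑ β, S.g2 k l α β • S.Qm 1 β u x := by
  have h2 := (a2 (S := S)) 1 k l hkl α u hu x
  have h3 : ∀ C, S.G C (S.Qm 1 α u) x = S.Qm 1 α (S.G C u) x := fun C => (a3 (S := S)) 1 C α u hu x
  have h4 : S.Qm 1 α (X S k l a u) x = S.Qm 1 α (S.J k l u) x + ∑ C, (a C : ℂ) • S.Qm 1 α (S.G C u) x := by
    have e1 := A4.Qm_add S 1 α (u := S.J k l u) (v := fun y => ∑ C, (a C : ℂ) • S.G C u y)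
      (S.contDiff_J k l hu)
      (ContDiff.sum fun C _ => contDiff_const.smul (A4.contDiff_G S C hu)) x
    have e2 := A4.Qm_sum S Finset.univ 1 α (fun C y => (a C : ℂ) • S.G C u y)
      (fun C _ => contDiff_const.smul (A4.contDiff_G S C hu)) x
    have e3 : ∀ C, S.Qm 1 α (fun y => (a C : ℂ) • S.G C u y) x = (a C : ℂ) • S.Qm 1 α (S.G C u) x :=
      fun C => A4.Qm_cs S 1 α (a C : ℂ) (A4.contDiff_G S C hu) x
    have e0 : X S k l a u = fun y => S.J k l u y + ∑ C, (a C : ℂ) • S.G C u y := rfl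
    rw [e0, e1, e2]
    simp only [e3]
  rw [h4]
  unfold X
  simp only [h3]
  rw [← h2]
  abel

lemma g2_skew (k l : Fin 9) (α β : Fin 16) : S.g2 k l β α = -S.g2 k l α β := by
  have := congrFun (congrFun (S.g2_transpose' k l) α) β
  simpa [Matrix.transpose_apply] using this

/-- `s` commutes with `H_f` -/
lemma s_comm {k l : Fin 9} (hkl : Same k l) {a : Fin d → ℝ} {ξ : Cfg d} (hV : S.Vm 1 ξ = 0)
    (hξ : vf S k l a ξ = 0) (φ : F) : Hf S ξ (s S k l a φ) = s S k l a (Hf S ξ φ) := by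
  set u : Cfg d → F := fun _ => φ with hu
  have hus : ContDiff ℝ ∞ u := contDiff_const
  have hQ : ∀ β, ContDiff ℝ ∞ (S.Qm 1 β u) := fun β => A4.contDiff_Qm S 1 β hus
  have hHm : ∀ ψ : F, S.Hm 1 (fun _ => ψ) ξ = Hf S ξ ψ := by
    intro ψ
    have h1 : ∀ i A, pd i A (pd i A (fun _ : Cfg d => ψ)) ξ = 0 := by
      intro i A
      have h : pd i A (fun _ : Cfg d => ψ) = fun _ => (0 : F) := funext fun y => pd_const i A ψ y
      rw [h, pd_const]
    unfold Setup.Hm Hf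
    simp only [h1, Finset.sum_const_zero, smul_zero, zero_add, hV]
    rw [_root_.sub_apply]
    simp
  -- the two sides
  have h7 := A7 S 1 u hus ξ
  have h7' := A7 S 1 (X S k l a u) (X_smooth S k l a hus) ξ
  have hX : X S k l a u = fun _ => s S k l a φ := X_const S k l a φ
  rw [hX, hHm] at h7'
  rw [hHm] at h7
  have e1 : ∀ β, s S k l a (S.Qm 1 β (S.Qm 1 β u) ξ) = S.Qm 1 β (S.Qm 1 β (fun _ => s S k l a φ)) ξ +
      (Complex.I / 2) • ∑ γ, S.g2 k l β γ • (S.Qm 1 β (S.Qm 1 γ u) ξ + S.Qm 1 γ (S.Qm 1 β u) ξ) := by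
    intro β
    rw [← X_at S hξ, X_Q S hkl a β (hQ β)]
    have e2 : X S k l a (S.Qm 1 β u) = fun y => S.Qm 1 β (fun _ => s S k l a φ) y +
        (Complex.I / 2) • ∑ γ, S.g2 k l β γ • S.Qm 1 γ u y := by
      funext y
      rw [X_Q S hkl a β hus, hX]
    have hs0 : ContDiff ℝ ∞ (fun y => ∑ γ, S.g2 k l β γ • S.Qm 1 γ u y) :=
      ContDiff.sum fun γ _ => contDiff_const.smul (hQ γ)
    rw [e2, A4.Qm_add S 1 β (u := S.Qm 1 β (fun _ => s S k l a φ))
        (v := fun y => (Complex.I / 2) • ∑ γ, S.g2 k l β γ • S.Qm 1 γ u y)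
        (A4.contDiff_Qm S 1 β contDiff_const) (contDiff_const.smul hs0),
      A4.Qm_cs S 1 β (Complex.I / 2) hs0,
      A4.Qm_sum S Finset.univ 1 β (fun γ y => S.g2 k l β γ • S.Qm 1 γ u y)
        (fun γ _ => contDiff_const.smul (hQ γ))]
    have e3 : ∀ γ, S.Qm 1 β (fun y => S.g2 k l β γ • S.Qm 1 γ u y) ξ =
        S.g2 k l β γ • S.Qm 1 β (S.Qm 1 γ u) ξ := fun γ => A4.Qm_cs S 1 β _ (hQ γ) ξ
    simp only [e3, smul_add, Finset.sum_add_distrib]
    abel
  have e4 : ∑ β, ∑ γ, S.g2 k l β γ • (S.Qm 1 β (S.Qm 1 γ u) ξ + S.Qm 1 γ (S.Qm 1 β u) ξ) = 0 := by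
    set T := ∑ β, ∑ γ, S.g2 k l β γ • (S.Qm 1 β (S.Qm 1 γ u) ξ + S.Qm 1 γ (S.Qm 1 β u) ξ) with hT
    have e5 : T = -T := by
      conv_lhs => rw [hT, Finset.sum_comm]
      rw [hT, ← Finset.sum_neg_distrib]
      refine Finset.sum_congr rfl fun β _ => ?_
      rw [← Finset.sum_neg_distrib]
      refine Finset.sum_congr rfl fun γ _ => ?_
      rw [g2_skew, neg_smul, add_comm]
    have e6 : (2 : ℂ) • T = 0 := by
      rw [two_smul]
      nth_rewrite 2 [e5]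
      abel
    exact (smul_eq_zero.1 e6).resolve_left (by norm_num)
  have e7 : s S k l a ((16 : ℂ) • Hf S ξ φ) = (16 : ℂ) • Hf S ξ (s S k l a φ) := by
    rw [← h7, ← h7', map_sum, Finset.sum_congr rfl fun β _ => e1 β, Finset.sum_add_distrib,
      ← Finset.smul_sum, e4, smul_zero, add_zero]
  rw [map_smul] at e7
  exact (smul_right_injective F (by norm_num : (16 : ℂ) ≠ 0) e7).symm

/-- the matrix of `s` -/
noncomputable def DD (k l : Fin 9) (a : Fin d → ℝ) : Matrix (Fin 16 × Fin d) (Fin 16 × Fin d) ℝ :=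
  fun p q => -(1 / 4) * (if p.2 = q.2 then (S.g2 k l p.1 q.1).re else 0) -
    1 / 2 * (if p.1 = q.1 then ∑ C, a C * S.f C p.2 q.2 else 0)

lemma DD_skew (k l : Fin 9) (a : Fin d → ℝ) : (DD S k l a).transpose = -DD S k l a := by
  ext p q
  rw [Matrix.transpose_apply, Matrix.neg_apply]
  unfold DD
  have h1 : (S.g2 k l q.1 p.1).re = -(S.g2 k l p.1 q.1).re := by
    rw [g2_skew S k l p.1 q.1, Complex.neg_re]
  have h2 : ∑ C, a C * S.f C q.2 p.2 = -∑ C, a C * S.f C p.2 q.2 := by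
    rw [← Finset.sum_neg_distrib]
    refine Finset.sum_congr rfl fun C _ => ?_
    rw [S.f_swap' C p.2 q.2]
    ring
  by_cases h3 : p.2 = q.2
  · by_cases h4 : p.1 = q.1
    · rw [if_pos h3, if_pos h3.symm, if_pos h4, if_pos h4.symm, h1, h2]
      ring
    · rw [if_pos h3, if_pos h3.symm, if_neg h4, if_neg (Ne.symm h4), h1]
      ring
  · by_cases h4 : p.1 = q.1
    · rw [if_neg h3, if_neg (Ne.symm h3), if_pos h4, if_pos h4.symm, h2]
      ring
    · rw [if_neg h3, if_neg (Ne.symm h3), if_neg h4, if_neg (Ne.symm h4)]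
      ring

lemma s_eq (k l : Fin 9) (a : Fin d → ℝ) : s S k l a = Complex.I • bD S (DD S k l a) := by
  have hre : ∀ α β, S.g2 k l α β = ((S.g2 k l α β).re : ℂ) := fun α β =>
    Complex.ext (by simp) (by simp [S.g2_im k l α β])
  have e1 : S.Skl k l = Complex.I • ∑ p : Fin 16 × Fin d, ∑ q : Fin 16 × Fin d,
      ((-(1 / 4) * (if p.2 = q.2 then (S.g2 k l p.1 q.1).re else 0) : ℝ) : ℂ) •
        (S.th p.1 p.2 * S.th q.1 q.2) := by
    unfold Setup.Skl CS.tot CS.bil CS.vec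
    rw [Finset.smul_sum, Finset.smul_sum, Fintype.sum_prod_type_right]
    refine Finset.sum_congr rfl fun A _ => ?_
    rw [Finset.smul_sum]
    refine Finset.sum_congr rfl fun α _ => ?_
    rw [Finset.mul_sum, Finset.smul_sum, Finset.smul_sum, Fintype.sum_prod_type_right]
    rw [Finset.sum_eq_single A]
    · refine Finset.sum_congr rfl fun β _ => ?_
      rw [if_pos rfl, mul_smul_comm, smul_smul, smul_smul]
      congr 1
      conv_lhs => rw [hre α β]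
      push_cast
      ring
    · intro B _ hB
      refine Finset.sum_eq_zero fun β _ => ?_
      rw [if_neg (Ne.symm hB)]
      simp
    · intro h; exact absurd (Finset.mem_univ _) h
  have e2 : ∑ C, (a C : ℂ) • S.cS C = Complex.I • ∑ p : Fin 16 × Fin d, ∑ q : Fin 16 × Fin d,
      ((-(1 / 2 * (if p.1 = q.1 then ∑ C, a C * S.f C p.2 q.2 else 0)) : ℝ) : ℂ) •
        (S.th p.1 p.2 * S.th q.1 q.2) := by
    have e3 : ∀ A B, (∑ C, (a C : ℂ) * (S.f C A B : ℂ)) = ((∑ C, a C * S.f C A B : ℝ) : ℂ) := by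
      intro A B
      push_cast
      rfl
    have e4 : ∑ C, (a C : ℂ) • S.cS C = (-Complex.I / 2) • ∑ A, ∑ B,
        ((∑ C, a C * S.f C A B : ℝ) : ℂ) • S.bil 1 A B := by
      unfold Setup.cS
      have : ∀ C, (a C : ℂ) • (-Complex.I / 2) • ∑ D, ∑ E, (S.f C D E : ℂ) • S.bil 1 D E =
          (-Complex.I / 2) • ∑ D, ∑ E, ((a C : ℂ) * (S.f C D E : ℂ)) • S.bil 1 D E := by
        intro C
        rw [smul_comm, Finset.smul_sum]
        congr 1
        refine Finset.sum_congr rfl fun D _ => ?_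
        rw [Finset.smul_sum]
        refine Finset.sum_congr rfl fun E _ => ?_
        rw [smul_smul]
      rw [Finset.sum_congr rfl fun C _ => this C, ← Finset.smul_sum, Finset.sum_comm]
      congr 1
      refine Finset.sum_congr rfl fun A _ => ?_
      rw [Finset.sum_comm]
      refine Finset.sum_congr rfl fun B _ => ?_
      rw [← Finset.sum_smul, e3]
    rw [e4, Finset.smul_sum, Finset.smul_sum, Fintype.sum_prod_type_right]
    refine Finset.sum_congr rfl fun A _ => ?_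
    rw [Finset.smul_sum]
    have e5 : ∀ B, (-Complex.I / 2) • ((∑ C, a C * S.f C A B : ℝ) : ℂ) • S.bil 1 A B =
        ∑ α, (Complex.I * ((-(1 / 2 * ∑ C, a C * S.f C A B) : ℝ) : ℂ)) • (S.th α A * S.th α B) := by
      intro B
      have e6 : S.bil 1 A B = ∑ α, S.th α A * S.th α B := by
        unfold CS.bil
        exact Finset.sum_congr rfl fun α _ => by rw [S.vec_one]
      rw [e6, smul_smul, Finset.smul_sum]
      refine Finset.sum_congr rfl fun α _ => ?_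
      congr 1
      push_cast
      ring
    rw [Finset.sum_congr rfl fun B _ => e5 B, Finset.sum_comm]
    refine Finset.sum_congr rfl fun α _ => ?_
    rw [Finset.smul_sum, Fintype.sum_prod_type]
    rw [Finset.sum_eq_single α]
    · refine Finset.sum_congr rfl fun B _ => ?_
      rw [if_pos rfl, smul_smul]
    · intro β _ hβ
      refine Finset.sum_eq_zero fun B _ => ?_
      rw [if_neg (Ne.symm hβ)]
      simp
    · intro h; exact absurd (Finset.mem_univ _) h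
  unfold s bD DD
  rw [e1, e2, ← smul_add, ← Finset.sum_add_distrib]
  congr 1
  refine Finset.sum_congr rfl fun p _ => ?_
  rw [← Finset.sum_add_distrib]
  refine Finset.sum_congr rfl fun q _ => ?_
  rw [← add_smul, ← Complex.ofReal_add, ← sub_eq_add_neg]

lemma re3 {x y z : ℂ} (hx : x.im = 0) (hy : y.im = 0) (hz : z.im = 0) :
    (x * y * z).re = x.re * y.re * z.re := by
  simp [Complex.mul_re, Complex.mul_im, hx, hy, hz]

lemma re2 {x z : ℂ} (hx : x.im = 0) (hz : z.im = 0) : (x * z).re = x.re * z.re := by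
  simp [Complex.mul_re, hx, hz]

/-- conjugation by a gamma matrix not in the plane -/
lemma g2_conj {j k l : Fin 9} (hk : j ≠ k) (hl : j ≠ l) : S.g j * S.g2 k l * S.g j = S.g2 k l := by
  have h1 : S.g j * S.g k = -(S.g k * S.g j) := by
    have := S.g_anti j k
    rw [if_neg hk] at this
    exact eq_neg_of_add_eq_zero_left this
  have h2 : S.g j * S.g l = -(S.g l * S.g j) := by
    have := S.g_anti j l
    rw [if_neg hl] at this
    exact eq_neg_of_add_eq_zero_left this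
  have h3 : S.g j * S.g j = 1 := S.g_sq j
  unfold CS.g2
  rw [mul_smul_comm, smul_mul_assoc]
  congr 1
  have h4 : ∀ a b : Matrix (Fin 16) (Fin 16) ℂ, S.g j * a = -(a * S.g j) → S.g j * b = -(b * S.g j) →
      S.g j * (a * b) * S.g j = a * b := by
    intro a b ha hb
    calc S.g j * (a * b) * S.g j = (S.g j * a) * b * S.g j := by simp only [mul_assoc]
      _ = -(a * (S.g j * b) * S.g j) := by rw [ha]; simp only [neg_mul, mul_assoc]
      _ = a * b * (S.g j * S.g j) := by rw [hb]; simp only [mul_neg, neg_mul, neg_neg, mul_assoc]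
      _ = a * b := by rw [h3, mul_one]
  rw [mul_sub, sub_mul, h4 _ _ h1 h2, h4 _ _ h2 h1]

lemma DD_conj {j k l : Fin 9} (hk : j ≠ k) (hl : j ≠ l) (a : Fin d → ℝ) (α β : Fin 16)
    (A B : Fin d) : ∑ α', ∑ β', (S.g j α α').re * DD S k l a (α', A) (β', B) * (S.g j β' β).re =
      DD S k l a (α, A) (β, B) := by
  have h1 : ∑ α', ∑ β', (S.g j α α').re * (S.g2 k l α' β').re * (S.g j β' β).re =
      (S.g2 k l α β).re := by
    have e1 : S.g2 k l α β = ∑ α', ∑ β', S.g j α α' * S.g2 k l α' β' * S.g j β' β := by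
      conv_lhs => rw [← g2_conj S hk hl]
      rw [Matrix.mul_apply]
      simp only [Matrix.mul_apply, Finset.sum_mul]
      exact Finset.sum_comm
    conv_rhs => rw [e1]
    rw [Complex.re_sum]
    refine Finset.sum_congr rfl fun α' _ => ?_
    rw [Complex.re_sum]
    refine Finset.sum_congr rfl fun β' _ => ?_
    rw [re3 (S.g_real j α α') (S.g2_im k l α' β') (S.g_real j β' β)]
  have h2 : ∑ α', (S.g j α α').re * (S.g j α' β).re = if α = β then 1 else 0 := by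
    have e1 := congrFun (congrFun (S.g_sq j) α) β
    rw [Matrix.mul_apply, Matrix.one_apply] at e1
    have e2 := congrArg Complex.re e1
    rw [Complex.re_sum] at e2
    rw [← Finset.sum_congr rfl fun α' _ => re2 (S.g_real j α α') (S.g_real j α' β), e2]
    split_ifs <;> simp
  have h3 : ∀ α' β', (S.g j α α').re * DD S k l a (α', A) (β', B) * (S.g j β' β).re =
      -(1 / 4) * (if A = B then 1 else 0) *
        ((S.g j α α').re * (S.g2 k l α' β').re * (S.g j β' β).re) -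
      1 / 2 * (∑ C, a C * S.f C A B) *
        (if α' = β' then (S.g j α α').re * (S.g j β' β).re else 0) := by
    intro α' β'
    unfold DD
    simp only []
    by_cases h4 : A = B
    · by_cases h5 : α' = β'
      · rw [if_pos h4, if_pos h4, if_pos h5, if_pos h5]; ring
      · rw [if_pos h4, if_pos h4, if_neg h5, if_neg h5]; ring
    · by_cases h5 : α' = β'
      · rw [if_neg h4, if_neg h4, if_pos h5, if_pos h5]; ring
      · rw [if_neg h4, if_neg h4, if_neg h5, if_neg h5]; ring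
  simp only [h3, Finset.sum_sub_distrib, ← Finset.mul_sum]
  rw [h1]
  have h6 : ∑ α', ∑ β', (if α' = β' then (S.g j α α').re * (S.g j β' β).re else 0) =
      if α = β then 1 else 0 := by
    rw [← h2]
    refine Finset.sum_congr rfl fun α' _ => ?_
    rw [Finset.sum_ite_eq]
    simp
  rw [h6]
  unfold DD
  simp only []
  by_cases h4 : A = B
  · by_cases h5 : α = β
    · rw [if_pos h4, if_pos h4, if_pos h5, if_pos h5]; ring
    · rw [if_pos h4, if_pos h4, if_neg h5, if_neg h5]; ring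
  · by_cases h5 : α = β
    · rw [if_neg h4, if_neg h4, if_pos h5, if_pos h5]; ring
    · rw [if_neg h4, if_neg h4, if_neg h5, if_neg h5]; ring

lemma exists_j (k l : Fin 9) : ∃ j : Fin 9, 3 ≤ j.val ∧ j ≠ k ∧ j ≠ l := by
  revert k l
  decide

end JK

/-- **G17** -/
theorem jKill {d : ℕ} {F : Type*} [NormedAddCommGroup F] [InnerProductSpace ℂ F]
    [FiniteDimensional ℂ F] (S : Setup d F) (h13 : VacDStmt S) : JKillStmt S := by
  intro ξ hV E Ω hΩ k l hkl a hξ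
  obtain ⟨j, hj, hjk, hjl⟩ := JK.exists_j k l
  have h1 : bD S (JK.DD S k l a) Ω = 0 := by
    refine h13 ξ hV E Ω hΩ _ (JK.DD_skew S k l a) (fun v => ?_) j hj
      (fun α β A B => JK.DD_conj S hjk hjl a α β A B)
    have h2 := JK.s_comm S hkl hV hξ v
    rw [JK.s_eq, _root_.smul_apply, _root_.smul_apply, map_smul] at h2
    exact smul_right_injective F Complex.I_ne_zero h2
  rw [← JK.s_apply, JK.s_eq, _root_.smul_apply, h1, smul_zero]

end Vale.Agent.P353.AN.G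
end

section

/-! # P353, all `N`, block C: mass operator in rotated frames and on the slice (`FrameStmt`) -/

open MeasureTheory Filter Topology
open scoped ContDiff Matrix

namespace Vale.Agent.P353.Z.AN

variable {d : ℕ} {F : Type*} [NormedAddCommGroup F] [InnerProductSpace ℂ F]

lemma frm_mass (S : Setup d F) : S.IsMass (N0 S) where
  real := by
    intro i α β
    rw [N0, Matrix.smul_apply, smul_eq_mul, Complex.mul_im, S.esa_gGam_real, Complex.ofReal_im]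
    ring
  tr := by
    intro i j
    rw [N0, Matrix.transpose_smul, Matrix.mul_smul, Matrix.trace_smul, U.En.trace_gGg, smul_zero]
  pos := by
    intro y
    have h : ∀ i j, ((N0 S i * (N0 S j).transpose).trace).re = if i = j then 16 * aw i ^ 2 else 0 := by
      intro i j
      rw [N0, N0, Matrix.transpose_smul, Matrix.mul_smul, Matrix.smul_mul, Matrix.trace_smul,
        Matrix.trace_smul, U.En.trace_gGgG]
      by_cases hij : i = j
      · subst hij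
        rw [if_pos rfl, if_pos rfl, smul_eq_mul, smul_eq_mul, ← mul_assoc, ← Complex.ofReal_mul,
          Complex.re_ofReal_mul]
        norm_num
        ring
      · rw [if_neg hij, if_neg hij]
        simp
    have h2 : ∀ i, ∑ j, y i * y j * ((N0 S i * (N0 S j).transpose).trace).re =
        16 * (aw i ^ 2 * y i ^ 2) := by
      intro i
      rw [Finset.sum_eq_single i]
      · rw [h, if_pos rfl]; ring
      · intro j _ hj
        rw [h, if_neg (Ne.symm hj), mul_zero]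
      · intro hi; exact absurd (Finset.mem_univ _) hi
    simp only [h2]
    rw [← Finset.mul_sum]
    refine mul_le_mul_of_nonneg_left (Finset.sum_le_sum fun i _ => ?_) (by norm_num)
    have h3 : 1 ≤ aw i ^ 2 := by
      unfold aw
      split_ifs <;> norm_num
    nlinarith [sq_nonneg (y i)]

lemma frm_MM (S : Setup d F) (β : Fin 16) (x : Cfg d) : S.MM β x = S.Mx (N0 S) β x := by
  simp only [Setup.MM, Setup.Mx, N0, S.vec_smul, smul_smul]
  refine Finset.sum_congr rfl fun i _ => Finset.sum_congr rfl fun A _ => ?_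
  rw [Complex.ofReal_mul, mul_comm]

lemma frm_vec_rot (S : Setup d F) (R : Matrix (Fin 9) (Fin 9) ℝ) (hR : R * R.transpose = 1)
    (O : Matrix (Fin d) (Fin d) ℝ) (hO : O * O.transpose = 1) (N : Matrix (Fin 16) (Fin 16) ℂ)
    (A : Fin d) (β : Fin 16) :
    (S.rot R hR O hO).vec N A β = ∑ B, (O A B : ℂ) • S.vec N B β := by
  simp only [CS.vec, Setup.rot, Finset.smul_sum]
  rw [Finset.sum_comm]
  refine Finset.sum_congr rfl fun B _ => Finset.sum_congr rfl fun γ _ => ?_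
  rw [smul_comm]

lemma frm_orth {n : ℕ} (O : Matrix (Fin n) (Fin n) ℝ) (hO : O * O.transpose = 1) (k l : Fin n) :
    ∑ i, O i k * O i l = if k = l then 1 else 0 := by
  have hO' : O.transpose * O = 1 := mul_eq_one_comm.1 hO
  have := congrFun (congrFun hO' k) l
  rw [Matrix.mul_apply, Matrix.one_apply] at this
  simpa [Matrix.transpose_apply] using this

lemma frm_orth' {n : ℕ} (O : Matrix (Fin n) (Fin n) ℝ) (hO : O * O.transpose = 1) (k l : Fin n) :
    ∑ i, O k i * O l i = if k = l then 1 else 0 := by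
  have := congrFun (congrFun hO k) l
  rw [Matrix.mul_apply, Matrix.one_apply] at this
  simpa [Matrix.transpose_apply] using this

lemma frm_rot_mass (S : Setup d F) (N : Fin 9 → Matrix (Fin 16) (Fin 16) ℂ)
    (R : Matrix (Fin 9) (Fin 9) ℝ) (hR : R * R.transpose = 1)
    (O : Matrix (Fin d) (Fin d) ℝ) (hO : O * O.transpose = 1) (h : S.IsMass N) :
    (S.rot R hR O hO).IsMass (rotN R N) where
  real := by
    intro i α β
    rw [rotN, Matrix.sum_apply, Complex.im_sum]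
    refine Finset.sum_eq_zero fun j _ => ?_
    rw [Matrix.smul_apply, smul_eq_mul, Complex.mul_im, Complex.ofReal_im, h.real]
    ring
  tr := by
    intro i j
    have e : (S.rot R hR O hO).g i = ∑ k, (R i k : ℂ) • S.g k := rfl
    rw [e, rotN, Matrix.transpose_sum, Finset.sum_mul_sum, Matrix.trace_sum]
    refine Finset.sum_eq_zero fun k _ => ?_
    rw [Matrix.trace_sum]
    refine Finset.sum_eq_zero fun l _ => ?_
    rw [Matrix.transpose_smul, Matrix.smul_mul, Matrix.mul_smul, Matrix.trace_smul,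
      Matrix.trace_smul, h.tr, smul_zero, smul_zero]
  pos := by
    intro y
    set z : Fin 9 → ℝ := fun k => ∑ i, y i * R i k with hz
    have h1 : ∑ k, z k ^ 2 = ∑ i, y i ^ 2 := by
      have e1 : ∀ k, z k ^ 2 = ∑ i, ∑ j, y i * y j * (R i k * R j k) := by
        intro k
        rw [hz, sq, Finset.sum_mul_sum]
        exact Finset.sum_congr rfl fun i _ => Finset.sum_congr rfl fun j _ => by ring
      simp only [e1]
      rw [Finset.sum_comm]
      refine Finset.sum_congr rfl fun i _ => ?_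
      rw [Finset.sum_comm]
      simp only [← Finset.mul_sum, frm_orth' R hR, mul_ite, mul_one, mul_zero, Finset.sum_ite_eq,
        Finset.mem_univ, if_true]
      ring
    have h2 : ∑ i, ∑ j, y i * y j * ((rotN R N i * (rotN R N j).transpose).trace).re =
        ∑ k, ∑ l, z k * z l * ((N k * (N l).transpose).trace).re := by
      have e2 : ∀ i j, ((rotN R N i * (rotN R N j).transpose).trace).re =
          ∑ k, ∑ l, R i k * R j l * ((N k * (N l).transpose).trace).re := by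
        intro i j
        rw [rotN, rotN, Matrix.transpose_sum, Finset.sum_mul_sum, Matrix.trace_sum, Complex.re_sum]
        refine Finset.sum_congr rfl fun k _ => ?_
        rw [Matrix.trace_sum, Complex.re_sum]
        refine Finset.sum_congr rfl fun l _ => ?_
        rw [Matrix.transpose_smul, Matrix.smul_mul, Matrix.mul_smul, Matrix.trace_smul,
          Matrix.trace_smul, smul_eq_mul, smul_eq_mul, ← mul_assoc, ← Complex.ofReal_mul,
          Complex.re_ofReal_mul]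
      have e3 : ∀ k l, z k * z l = ∑ i, ∑ j, y i * y j * (R i k * R j l) := by
        intro k l
        rw [hz, Finset.sum_mul_sum]
        exact Finset.sum_congr rfl fun i _ => Finset.sum_congr rfl fun j _ => by ring
      simp only [e2, e3, Finset.mul_sum, Finset.sum_mul]
      rw [Finset.sum_congr rfl fun i _ => Finset.sum_comm]
      rw [Finset.sum_comm]
      refine Finset.sum_congr rfl fun k _ => ?_
      rw [Finset.sum_congr rfl fun i _ => Finset.sum_comm]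
      rw [Finset.sum_comm]
      refine Finset.sum_congr rfl fun l _ => ?_
      exact Finset.sum_congr rfl fun i _ => Finset.sum_congr rfl fun j _ => by ring
    rw [h2, ← h1]
    exact h.pos z

lemma frm_rot_Mx (S : Setup d F) (N : Fin 9 → Matrix (Fin 16) (Fin 16) ℂ)
    (R : Matrix (Fin 9) (Fin 9) ℝ) (hR : R * R.transpose = 1)
    (O : Matrix (Fin d) (Fin d) ℝ) (hO : O * O.transpose = 1) (β : Fin 16) (x : Cfg d) :
    (S.rot R hR O hO).Mx (rotN R N) β (rox R O x) = S.Mx N β x := by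
  have e1 : ∀ i A, (((rox R O x) (i, A) : ℝ) : ℂ) • (S.rot R hR O hO).vec (rotN R N i) A β =
      ∑ j, ∑ B, ∑ k, ∑ C, (((R i j * R i k) * (O A B * O A C) * x (j, B) : ℝ) : ℂ) •
        S.vec (N k) C β := by
    intro i A
    rw [frm_vec_rot]
    have e0 : (rox R O x) (i, A) = ∑ j, ∑ B, R i j * O A B * x (j, B) := rfl
    rw [e0, Complex.ofReal_sum, Finset.sum_smul]
    refine Finset.sum_congr rfl fun j _ => ?_
    rw [Complex.ofReal_sum, Finset.sum_smul]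
    refine Finset.sum_congr rfl fun B _ => ?_
    simp only [rotN, S.vec_sum, S.vec_smul, Finset.smul_sum, smul_smul]
    rw [Finset.sum_comm]
    refine Finset.sum_congr rfl fun k _ => Finset.sum_congr rfl fun C _ => ?_
    congr 1
    push_cast
    ring
  have e2 : ∀ (j k : Fin 9) (B C : Fin d),
      ∑ i, ∑ A, (((R i j * R i k) * (O A B * O A C) * x (j, B) : ℝ) : ℂ) • S.vec (N k) C β =
        if j = k then (if B = C then ((x (j, B) : ℝ) : ℂ) • S.vec (N k) C β else 0) else 0 := by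
    intro j k B C
    have e3 : ∑ i, ∑ A, ((R i j * R i k) * (O A B * O A C) * x (j, B)) =
        (if j = k then 1 else 0) * (if B = C then 1 else 0) * x (j, B) := by
      rw [← frm_orth R hR j k, ← frm_orth O hO B C, Finset.sum_mul_sum, Finset.sum_mul]
      exact Finset.sum_congr rfl fun i _ => by rw [Finset.sum_mul]
    simp only [← Finset.sum_smul, ← Complex.ofReal_sum]
    rw [e3]
    by_cases hjk : j = k
    · by_cases hBC : B = C
      · simp [hjk, hBC]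
      · simp [hBC]
    · simp [hjk]
  unfold Setup.Mx
  simp only [e1]
  have e4 : ∑ i, ∑ A, ∑ j, ∑ B, ∑ k, ∑ C,
      (((R i j * R i k) * (O A B * O A C) * x (j, B) : ℝ) : ℂ) • S.vec (N k) C β =
      ∑ j, ∑ B, ∑ k, ∑ C, ∑ i, ∑ A,
        (((R i j * R i k) * (O A B * O A C) * x (j, B) : ℝ) : ℂ) • S.vec (N k) C β := by
    rw [Finset.sum_congr rfl fun i _ => Finset.sum_comm, Finset.sum_comm]
    refine Finset.sum_congr rfl fun j _ => ?_
    rw [Finset.sum_congr rfl fun i _ => Finset.sum_comm, Finset.sum_comm]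
    refine Finset.sum_congr rfl fun B _ => ?_
    rw [Finset.sum_congr rfl fun i _ => Finset.sum_comm, Finset.sum_comm]
    refine Finset.sum_congr rfl fun k _ => ?_
    rw [Finset.sum_congr rfl fun i _ => Finset.sum_comm, Finset.sum_comm]
  rw [e4]
  simp only [e2]
  refine Finset.sum_congr rfl fun j _ => Finset.sum_congr rfl fun B _ => ?_
  rw [Finset.sum_eq_single j]
  · simp
  · intro k _ hk
    simp [Ne.symm hk]
  · intro hj; exact absurd (Finset.mem_univ _) hj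

lemma frm_emb (S : Setup d F) (N : Fin 9 → Matrix (Fin 16) (Fin 16) ℂ) {dh dm : ℕ}
    (φ : Spl dh dm d) (β : Fin 16) (y : Cfg dh) (w : Wsp dm) :
    S.Mx N β (emb φ y w) = S.Mh φ N β y + S.Mw φ N β w := by
  unfold Setup.Mx Setup.Mh Setup.Mw
  rw [← Finset.sum_add_distrib]
  refine Finset.sum_congr rfl fun i _ => ?_
  rw [dec_sum φ]
  simp only [dec_emb_inl, dec_emb_inr]

/-- **C-Frame** -/
theorem frame_stmt (S : Setup d F) : FrameStmt S := by
  refine ⟨frm_mass S, frm_MM S, fun N => ⟨fun R hR O hO h => ⟨frm_rot_mass S N R hR O hO h,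
    frm_rot_Mx S N R hR O hO⟩, fun dh dm φ => ⟨frm_emb S N φ, ?_⟩⟩⟩
  intro hs hD u hu hG m β y w hdet
  have h1 := hD dh dm φ hs u hu hG β y w hdet
  have h2 : S.res φ (fun x => S.Q β u x + (m : ℂ) • S.Mx N β x (u x)) y w =
      S.res φ (S.Q β u) y w + (m : ℂ) • S.Mx N β (emb φ y w) (S.res φ u y w) := by
    simp only [Setup.res, smul_add, map_smul]
    rw [smul_comm]
  rw [h2, h1, frm_emb, Setup.QS, Setup.Qhm, _root_.add_apply, smul_add]
  abel

end Vale.Agent.P353.Z.AN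
end

section

/-! # P353, all `N`, block E: covariance under rotations of the vector index (EG-Rot) -/

open MeasureTheory Filter Topology Matrix
open scoped ContDiff

namespace Vale.Agent.P353.Z.AE

variable {d dh dm r ds n : ℕ} {F : Type*} [NormedAddCommGroup F] [InnerProductSpace ℂ F]
  {R₀ : Matrix (Fin 9) (Fin 9) ℝ}

/-- two setups with the same data are equal -/
theorem rg666_ext {T T' : Setup n F} (hg : T.g = T'.g) (hth : T.th = T'.th) (hκ : T.κ = T'.κ)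
    (hf : T.f = T'.f) : T = T' := by
  obtain ⟨⟨g, th, _, _, _⟩, κ, _, f, _, _, _, _, _⟩ := T
  obtain ⟨⟨g', th', _, _, _⟩, κ', _, f', _, _, _, _, _⟩ := T'
  simp only at hg hth hκ hf
  subst hg
  subst hth
  subst hκ
  subst hf
  rfl

/-- contraction with an orthogonal matrix, operators and vectors -/
theorem rg666_con (hR : R₀ * R₀ᵀ = 1) (L : Fin 9 → F →L[ℂ] F) (p : Fin 9 → F) :
    ∑ i, (∑ j, (R₀ i j : ℂ) • L j) (∑ k, (R₀ i k : ℂ) • p k) = ∑ j, L j (p j) := by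
  have h1 : ∀ i, (∑ j, (R₀ i j : ℂ) • L j) (∑ k, (R₀ i k : ℂ) • p k) =
      ∑ j, ∑ k, ((R₀ i j : ℂ) * (R₀ i k : ℂ)) • L j (p k) := by
    intro i
    simp only [_root_.sum_apply, _root_.smul_apply, map_sum, map_smul, Finset.smul_sum, smul_smul]
    rw [Finset.sum_comm]
    refine Finset.sum_congr rfl fun j _ => Finset.sum_congr rfl fun k _ => ?_
    rw [mul_comm]
  simp only [h1]
  rw [Finset.sum_comm]
  refine Finset.sum_congr rfl fun j _ => ?_
  rw [Finset.sum_comm]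
  simp only [← Finset.sum_smul, AN.rt_orthc hR, ite_smul, one_smul, zero_smul, Finset.sum_ite_eq,
    Finset.mem_univ, if_true]

/-- norms: contraction with an orthogonal matrix -/
theorem rg666_nrm (hR : R₀ * R₀ᵀ = 1) (p : Fin 9 → F) :
    ∑ i, ‖∑ j, (R₀ i j : ℂ) • p j‖ ^ 2 = ∑ j, ‖p j‖ ^ 2 := by
  have h1 : ∀ v : F, ((‖v‖ ^ 2 : ℝ) : ℂ) = inner ℂ v v := by
    intro v
    rw [inner_self_eq_norm_sq_to_K]
    norm_cast
  have h2 : ((∑ i, ‖∑ j, (R₀ i j : ℂ) • p j‖ ^ 2 : ℝ) : ℂ) = ((∑ j, ‖p j‖ ^ 2 : ℝ) : ℂ) := by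
    rw [Complex.ofReal_sum, Complex.ofReal_sum]
    simp only [h1]
    have h3 : ∀ i, inner ℂ (∑ j, (R₀ i j : ℂ) • p j) (∑ j, (R₀ i j : ℂ) • p j) =
        ∑ j, ∑ k, ((R₀ i j : ℂ) * (R₀ i k : ℂ)) * inner ℂ (p j) (p k) := by
      intro i
      rw [sum_inner]
      refine Finset.sum_congr rfl fun j _ => ?_
      rw [inner_sum]
      refine Finset.sum_congr rfl fun k _ => ?_
      rw [inner_smul_left, inner_smul_right, Complex.conj_ofReal]
      ring
    simp only [h3]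
    rw [Finset.sum_comm]
    refine Finset.sum_congr rfl fun j _ => ?_
    rw [Finset.sum_comm]
    simp only [← Finset.sum_mul, AN.rt_orthc hR, ite_mul, one_mul, zero_mul, Finset.sum_ite_eq,
      Finset.mem_univ, if_true]
  exact Complex.ofReal_injective h2

theorem rg666_pd (R₀ : Matrix (Fin 9) (Fin 9) ℝ) (v : Cfg n → F) (hv : Differentiable ℝ v)
    (i : Fin 9) (A : Fin n) (x : Cfg n) :
    pd i A (fun z => v (rox R₀ᵀ 1 z)) x = ∑ j, (R₀ i j : ℂ) • pd j A v (rox R₀ᵀ 1 x) := by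
  rw [AN.rt_pd R₀ᵀ 1 v hv i A x]
  refine Finset.sum_congr rfl fun j _ => ?_
  rw [Matrix.transpose_apply]
  congr 1
  rw [Finset.sum_eq_single A]
  · simp
  · intro B _ hB
    rw [Matrix.one_apply_ne hB]
    simp
  · simp

theorem rg666_vec (S : Setup d F) (hR : R₀ * R₀ᵀ = 1)
    (h1 : (1 : Matrix (Fin d) (Fin d) ℝ) * (1 : Matrix (Fin d) (Fin d) ℝ)ᵀ = 1)
    (N : Matrix (Fin 16) (Fin 16) ℂ) (A : Fin d) (β : Fin 16) :
    (S.rot R₀ hR 1 h1).vec N A β = S.vec N A β := by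
  rw [AN.rt_vec, Finset.sum_eq_single A]
  · simp
  · intro B _ hB
    rw [Matrix.one_apply_ne hB.symm]
    simp
  · simp

/-- the internal setup of the rotated setup is the rotated internal setup -/
theorem rg666_int (S : Setup d F) (φ : Spl dh dm d) (ψ : Spl r ds dh) (hφ : S.IsSub φ) (hc : S.IsCen φ ψ)
    (hR : R₀ * R₀ᵀ = 1) (h1 : (1 : Matrix (Fin d) (Fin d) ℝ) * (1 : Matrix (Fin d) (Fin d) ℝ)ᵀ = 1)
    (hφ' : (S.rot R₀ hR 1 h1).IsSub φ) (hc' : (S.rot R₀ hR 1 h1).IsCen φ ψ)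
    (h2 : (1 : Matrix (Fin ds) (Fin ds) ℝ) * (1 : Matrix (Fin ds) (Fin ds) ℝ)ᵀ = 1) :
    (S.rot R₀ hR 1 h1).int φ ψ hφ' hc' = (S.int φ ψ hφ hc).rot R₀ hR 1 h2 := by
  have hth : ∀ (m : ℕ) (T : Setup m F) (h3 : (1 : Matrix (Fin m) (Fin m) ℝ) * (1 : Matrix (Fin m) (Fin m) ℝ)ᵀ = 1)
      (α : Fin 16) (A : Fin m), (T.rot R₀ hR 1 h3).th α A = T.th α A := by
    intro m T h3 α A
    show ∑ B, ((1 : Matrix (Fin m) (Fin m) ℝ) A B : ℂ) • T.th α B = T.th α A
    rw [Finset.sum_eq_single A]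
    · simp
    · intro B _ hB
      rw [Matrix.one_apply_ne hB.symm]
      simp
    · simp
  refine rg666_ext rfl ?_ rfl ?_
  · funext α A
    rw [hth]
    exact hth d S h1 α _
  · funext A B C
    rw [AX.rot_f]
    exact AX.rot_f S R₀ hR h1 _ _ _

omit [InnerProductSpace ℂ F] in
theorem rg666_nsq (hR : R₀ * R₀ᵀ = 1) (u : Cfg n → F) :
    nsq (fun x => u (rox R₀ᵀ 1 x)) = nsq u := by
  have hmp := AN.rt_mp (AN.gb969_hR' hR) (AN.gb969_one n)
  have he : MeasurableEmbedding (rox R₀ᵀ 1 : Cfg n → Cfg n) :=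
    (AN.rtE R₀ᵀ (AN.gb969_hR' hR) 1 (AN.gb969_one n)).toHomeomorph.measurableEmbedding
  exact hmp.integral_comp he (fun x => ‖u x‖ ^ 2)

theorem rg666_tst (hR : R₀ * R₀ᵀ = 1) {u : Cfg n → F} (hu : Setup.Tst u) :
    Setup.Tst (fun x => u (rox R₀ᵀ 1 x)) := by
  refine ⟨hu.1.comp (AN.rtE R₀ᵀ (AN.gb969_hR' hR) 1 (AN.gb969_one n)).contDiff, ?_⟩
  exact hu.2.comp_homeomorph (AN.rtE R₀ᵀ (AN.gb969_hR' hR) 1 (AN.gb969_one n)).toHomeomorph

theorem rg666_Q (S : Setup n F) (hR : R₀ * R₀ᵀ = 1)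
    (h1 : (1 : Matrix (Fin n) (Fin n) ℝ) * (1 : Matrix (Fin n) (Fin n) ℝ)ᵀ = 1) {u : Cfg n → F}
    (hu : Setup.Tst u) (β : Fin 16) (x : Cfg n) :
    (S.rot R₀ hR 1 h1).Q β (fun x => u (rox R₀ᵀ 1 x)) x = S.Q β u (rox R₀ᵀ 1 x) := by
  have h2 := AN.rt_Q S hR h1 (fun x => u (rox R₀ᵀ 1 x)) ((rg666_tst hR hu).1.differentiable (by simp)) β
    (rox R₀ᵀ 1 x)
  rw [AN.gb969_inv' hR] at h2
  rw [h2]
  simp only [AN.gb969_inv hR]

theorem rg666_grad (hR : R₀ * R₀ᵀ = 1) {u : Cfg n → F} (hu : Setup.Tst u) :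
    ∑ i, ∑ A, nsq (pd i A (fun x => u (rox R₀ᵀ 1 x))) = ∑ i, ∑ A, nsq (pd i A u) := by
  rw [Finset.sum_comm, Finset.sum_comm (s := Finset.univ) (t := Finset.univ)
    (f := fun (i : Fin 9) (A : Fin n) => nsq (pd i A u))]
  refine Finset.sum_congr rfl fun A _ => ?_
  have hi : ∀ v : Cfg n → F, Setup.Tst v → ∀ i, Integrable (fun x => ‖pd i A v x‖ ^ 2) := fun v hv i =>
    memLp_norm_sq_int (hv.pd i A).memLp
  have h1 : ∀ v : Cfg n → F, Setup.Tst v → ∑ i, nsq (pd i A v) = ∫ x, ∑ i, ‖pd i A v x‖ ^ 2 := by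
    intro v hv
    rw [integral_finsetSum _ fun i _ => hi v hv i]
    rfl
  rw [h1 _ (rg666_tst hR hu), h1 u hu]
  have h2 : ∀ x, ∑ i, ‖pd i A (fun x => u (rox R₀ᵀ 1 x)) x‖ ^ 2 =
      ∑ i, ‖pd i A u (rox R₀ᵀ 1 x)‖ ^ 2 := by
    intro x
    simp only [rg666_pd R₀ u (hu.1.differentiable (by simp))]
    exact rg666_nrm hR fun j => pd j A u (rox R₀ᵀ 1 x)
  simp only [h2]
  have hmp := AN.rt_mp (AN.gb969_hR' hR) (AN.gb969_one n)
  have he : MeasurableEmbedding (rox R₀ᵀ 1 : Cfg n → Cfg n) :=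
    (AN.rtE R₀ᵀ (AN.gb969_hR' hR) 1 (AN.gb969_one n)).toHomeomorph.measurableEmbedding
  exact hmp.integral_comp he (fun x => ∑ i, ‖pd i A u x‖ ^ 2)

theorem rg666_IZm (T : Setup n F) (hR : R₀ * R₀ᵀ = 1)
    (h1 : (1 : Matrix (Fin n) (Fin n) ℝ) * (1 : Matrix (Fin n) (Fin n) ℝ)ᵀ = 1) (K : Submodule ℂ F)
    (o : Cfg n → F) (ho : IZm T K o) : IZm (T.rot R₀ hR 1 h1) K (fun s => o (rox R₀ᵀ 1 s)) := by
  refine ⟨ho.mem.comp_measurePreserving (AN.rt_mp (AN.gb969_hR' hR) (AN.gb969_one n)), fun R hR1 hRt => ?_⟩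
  obtain ⟨η, Φ, h⟩ := ho.app R hR1 hRt
  refine ⟨η, fun n s => Φ n (rox R₀ᵀ 1 s), ?_⟩
  refine { eta := h.eta, eta_lim := h.eta_lim, intf := ?_, lim := ?_, grad := ?_, en := ?_ }
  · intro n
    refine ⟨rg666_tst hR (h.intf n).tst, fun s => (h.intf n).val _, fun s hs => ?_⟩
    have := (h.intf n).sup _ hs
    rwa [AN.rt_norm (AN.gb969_hR' hR) (AN.gb969_one _)] at this
  · refine h.lim.congr fun n => ?_
    exact (rg666_nsq hR fun s => Φ n s - o s).symm
  · refine h.grad.congr fun n => ?_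
    rw [rg666_grad hR (h.intf n).tst]
  · refine h.en.congr fun n => ?_
    congr 1
    refine Finset.sum_congr rfl fun β _ => ?_
    have h3 : (T.rot R₀ hR 1 h1).Q β (fun s => Φ n (rox R₀ᵀ 1 s)) = fun x => T.Q β (Φ n) (rox R₀ᵀ 1 x) :=
      funext fun x => rg666_Q T hR h1 (h.intf n).tst β x
    rw [h3, rg666_nsq hR]

theorem rg666_DF (S : Setup d F) (φ : Spl dh dm d) (ψ : Spl r ds dh) (hR : R₀ * R₀ᵀ = 1)
    (h1 : (1 : Matrix (Fin d) (Fin d) ℝ) * (1 : Matrix (Fin d) (Fin d) ℝ)ᵀ = 1)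
    (N : Fin 9 → Matrix (Fin 16) (Fin 16) ℂ) (μ : ℝ) (β : Fin 16) (a : Cfg r → Cfg ds → F)
    (ha : ∀ s, Differentiable ℝ fun y => a y s) (y : Cfg r) (s : Cfg ds) :
    (S.rot R₀ hR 1 h1).DF φ ψ (AN.rotN R₀ N) μ β (fun y s => a (rox R₀ᵀ 1 y) (rox R₀ᵀ 1 s)) y s =
      S.DF φ ψ N μ β a (rox R₀ᵀ 1 y) (rox R₀ᵀ 1 s) := by
  unfold Setup.DF
  congr 2
  · rw [Finset.sum_comm, Finset.sum_comm (s := Finset.univ) (t := Finset.univ)
      (f := fun (i : Fin 9) (A : Fin r) => S.vec (S.g i) (φ (Sum.inl (ψ (Sum.inl A)))) β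
        (pd i A (fun y' => a y' (rox R₀ᵀ 1 s)) (rox R₀ᵀ 1 y)))]
    refine Finset.sum_congr rfl fun A _ => ?_
    rw [← rg666_con hR (fun j => S.vec (S.g j) (φ (Sum.inl (ψ (Sum.inl A)))) β)
      (fun j => pd j A (fun y' => a y' (rox R₀ᵀ 1 s)) (rox R₀ᵀ 1 y))]
    refine Finset.sum_congr rfl fun i _ => ?_
    have h2 : pd i A (fun y' => a (rox R₀ᵀ 1 y') (rox R₀ᵀ 1 s)) y =
        ∑ j, (R₀ i j : ℂ) • pd j A (fun y' => a y' (rox R₀ᵀ 1 s)) (rox R₀ᵀ 1 y) :=
      rg666_pd R₀ (fun y' => a y' (rox R₀ᵀ 1 s)) (ha _) i A y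
    have h3 : (S.rot R₀ hR 1 h1).vec ((S.rot R₀ hR 1 h1).g i) (φ (Sum.inl (ψ (Sum.inl A)))) β =
        ∑ j, (R₀ i j : ℂ) • S.vec (S.g j) (φ (Sum.inl (ψ (Sum.inl A)))) β := by
      rw [rg666_vec]
      have h0 : (S.rot R₀ hR 1 h1).g i = ∑ j, (R₀ i j : ℂ) • S.g j := rfl
      rw [h0, CS.vec_sum]
      refine Finset.sum_congr rfl fun j _ => ?_
      rw [CS.vec_smul]
    rw [h2, h3]
  · rw [Finset.sum_comm, Finset.sum_comm (s := Finset.univ) (t := Finset.univ)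
      (f := fun (i : Fin 9) (A : Fin r) => (((rox R₀ᵀ 1 y) (i, A) : ℝ) : ℂ) •
        S.vec (N i) (φ (Sum.inl (ψ (Sum.inl A)))) β (a (rox R₀ᵀ 1 y) (rox R₀ᵀ 1 s)))]
    refine Finset.sum_congr rfl fun A _ => ?_
    rw [← AN.rt_con (K := ℂ) (M := F) (fun i j => (R₀ i j : ℂ)) (AN.rt_orthc hR)
      (fun j => (((rox R₀ᵀ 1 y) (j, A) : ℝ) : ℂ))
      (fun j => S.vec (N j) (φ (Sum.inl (ψ (Sum.inl A)))) β (a (rox R₀ᵀ 1 y) (rox R₀ᵀ 1 s)))]
    refine Finset.sum_congr rfl fun i _ => ?_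
    have h2 : ((y (i, A) : ℝ) : ℂ) = ∑ k, (R₀ i k : ℂ) * (((rox R₀ᵀ 1 y) (k, A) : ℝ) : ℂ) := by
      have h4 : y (i, A) = rox R₀ 1 (rox R₀ᵀ 1 y) (i, A) := by rw [AN.gb969_inv' hR]
      rw [AN.gb969_apply] at h4
      rw [h4]
      push_cast
      rfl
    have h3 : (S.rot R₀ hR 1 h1).vec (AN.rotN R₀ N i) (φ (Sum.inl (ψ (Sum.inl A)))) β =
        ∑ j, (R₀ i j : ℂ) • S.vec (N j) (φ (Sum.inl (ψ (Sum.inl A)))) β := by
      rw [rg666_vec]
      unfold AN.rotN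
      rw [CS.vec_sum]
      refine Finset.sum_congr rfl fun j _ => ?_
      rw [CS.vec_smul]
    rw [h2, h3]
    simp only [_root_.sum_apply, _root_.smul_apply]

theorem rg666_ZL (S : Setup d F) (φ : Spl dh dm d) (ψ : Spl r ds dh) (hR : R₀ * R₀ᵀ = 1)
    (h1 : (1 : Matrix (Fin d) (Fin d) ℝ) * (1 : Matrix (Fin d) (Fin d) ℝ)ᵀ = 1)
    (Om : Cfg r → Matrix (Fin dm) (Fin dm) ℝ) (χ : Cfg r × Cfg ds × Cfg dm → ℝ) (R : ℝ)
    (a : Cfg r → Cfg ds → F) (u : Cfg d → F) :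
    ZL (S.rot R₀ hR 1 h1) φ ψ (fun y => Om (rox R₀ᵀ 1 y))
      (fun q => χ (rox R₀ᵀ 1 q.1, rox R₀ᵀ 1 q.2.1, rox R₀ᵀ 1 q.2.2)) R
      (fun y s => a (rox R₀ᵀ 1 y) (rox R₀ᵀ 1 s)) (fun x => u (rox R₀ᵀ 1 x)) = ZL S φ ψ Om χ R a u := by
  have hmp := AN.rt_mp hR (AN.gb969_one d)
  have he : MeasurableEmbedding (rox R₀ 1 : Cfg d → Cfg d) :=
    (AN.rtE R₀ hR 1 (AN.gb969_one d)).toHomeomorph.measurableEmbedding
  unfold ZL
  rw [← hmp.integral_comp he]
  refine integral_congr_ae (Eventually.of_forall fun x => ?_)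
  simp only [AN.Zb, AN.gb969_zy, AN.gb969_pm, AN.gb969_hz, AN.gb969_hs, ← AN.gb969_smul, AN.gb969_inv hR,
    AN.bG, AN.gb969_qX hR]
  rfl

/-- **EG-Rot** -/
theorem rotG (S : Setup d F) (φ : Spl dh dm d) (ψ : Spl r ds dh) : RotGStmt S φ ψ := by
  intro hφ hc R₀ hR h1
  have hφ' : (S.rot R₀ hR 1 h1).IsSub φ := by
    intro A B C
    rw [AX.rot_f]
    exact hφ A B C
  have hc' : (S.rot R₀ hR 1 h1).IsCen φ ψ := by
    intro A B C
    rw [AX.rot_f]
    exact hc A B C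
  have hFr := AN.frame_stmt S
  refine ⟨hφ', hc', ?_, ?_, ?_, ?_, ?_, ?_⟩
  · intro y₀ h8
    refine ⟨hφ', ?_, ?_⟩
    · intro i B C
      rw [← ψ.sum_comp, Fintype.sum_sum_type]
      have e1 : ∀ b : Fin ds, (cmb ψ y₀ 0 : Cfg dh) (i, ψ (Sum.inr b)) = 0 := by
        intro b
        simp [cmb]
      have e2 : ∀ b : Fin r, (S.rot R₀ hR 1 h1).f (φ (Sum.inl (ψ (Sum.inl b)))) (φ (Sum.inl B))
          (φ (Sum.inl C)) = 0 := fun b => hc' b B C
      simp [e1, e2]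
    · have h2 : (S.rot R₀ hR 1 h1).Dy φ 8 (cmb ψ y₀ 0) = S.Dz φ ψ y₀ 8 :=
        congrFun (AX.rot_Dz S φ ψ R₀ hR h1 y₀) 8
      rw [h2]
      exact h8
  · intro N hN
    exact ((hFr.2.2 N).1 R₀ hR 1 h1 hN).1
  · intro N m β u hu
    have h3 := AN.gb969_GInv S hR h1 (u := u) ⟨hu.tst, hu.inv⟩
    refine ⟨⟨h3.1, h3.2⟩, rg666_nsq hR u, ?_⟩
    funext x
    unfold QN
    rw [rg666_Q S hR h1 hu.tst β x]
    congr 3
    have h4 := AN.frm_rot_Mx S N R₀ hR 1 h1 β (rox R₀ᵀ 1 x)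
    rwa [AN.gb969_inv' hR] at h4
  · intro K o ho
    rw [rg666_int S φ ψ hφ hc hR h1 hφ' hc' (AN.gb969_one ds)]
    simp only [← AX.rox_one]
    exact rg666_IZm _ hR _ K o ho
  · intro N μ β ζ o hζ y s
    simp only [← AX.rox_one]
    have h2 := rg666_DF S φ ψ hR h1 N μ β (pp ζ o) (fun s => by
      unfold pp
      exact (hζ.differentiable (by simp)).smul_const (o s)) y s
    exact h2
  · intro Om χ R a u
    simp only [← AX.rox_one]
    exact rg666_ZL S φ ψ hR h1 Om χ R a u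

end Vale.Agent.P353.Z.AE
end

section

/-! # P353, all `N`, block E: EG-Dir, a good direction (helper731) -/

open MeasureTheory Filter Topology Matrix
open scoped ContDiff

namespace Vale.Agent.P353.Z.AE

open Vale.Agent.P353.Z.AN.StdA

/-- the matrix `M` as an operator -/
noncomputable def dirLn {n : ℕ} (M : Matrix (Fin n) (Fin n) ℝ) : Ec n →ₗ[ℝ] Ec n where
  toFun v := WithLp.toLp 2 (M *ᵥ v.ofLp)
  map_add' v w := by
    ext C
    simp [Matrix.mulVec_add]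
  map_smul' c v := by
    ext C
    simp [Matrix.mulVec_smul]

private lemma dirLn_apply {n : ℕ} (M : Matrix (Fin n) (Fin n) ℝ) (v : Ec n) (C : Fin n) :
    dirLn M v C = ∑ B, M C B * v B := rfl

private lemma dirLn_skew {n : ℕ} {M : Matrix (Fin n) (Fin n) ℝ} (hM : Mᵀ = -M) (v w : Ec n) :
    inner ℝ (dirLn M v) w = - inner ℝ v (dirLn M w) := by
  rw [inner_Ec, inner_Ec]
  simp only [dirLn_apply, Finset.sum_mul, Finset.mul_sum]
  rw [Finset.sum_comm, ← Finset.sum_neg_distrib]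
  refine Finset.sum_congr rfl fun B _ => ?_
  rw [← Finset.sum_neg_distrib]
  refine Finset.sum_congr rfl fun C _ => ?_
  have h : M C B = - M B C := by
    have := congrFun (congrFun hM B) C
    rwa [Matrix.transpose_apply, Matrix.neg_apply] at this
  rw [h]
  ring

private lemma dirLn_comm {n : ℕ} {M P : Matrix (Fin n) (Fin n) ℝ} (h : M * P = P * M) (v : Ec n) :
    dirLn M (dirLn P v) = dirLn P (dirLn M v) := by
  have h1 : dirLn M (dirLn P v) = WithLp.toLp 2 (M *ᵥ (P *ᵥ v.ofLp)) := rfl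
  have h2 : dirLn P (dirLn M v) = WithLp.toLp 2 (P *ᵥ (M *ᵥ v.ofLp)) := rfl
  rw [h1, h2, Matrix.mulVec_mulVec, Matrix.mulVec_mulVec, h]

private lemma dirLn_sum {n : ℕ} (D : Fin 9 → Matrix (Fin n) (Fin n) ℝ) (e : Fin 9 → ℝ) (v : Ec n) :
    dirLn (∑ j, e j • D j) v = ∑ j, e j • dirLn (D j) v := by
  have h : dirLn (∑ j, e j • D j) v = WithLp.toLp 2 ((∑ j, e j • D j) *ᵥ v.ofLp) := rfl
  rw [h, Matrix.sum_mulVec, WithLp.toLp_sum]
  refine Finset.sum_congr rfl fun j _ => ?_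
  rw [Matrix.smul_mulVec, WithLp.toLp_smul]
  rfl

private lemma dir_skew_sum {n : ℕ} {D : Fin 9 → Matrix (Fin n) (Fin n) ℝ} (h : ∀ i, (D i)ᵀ = -D i) (e : Fin 9 → ℝ) :
    (∑ j, e j • D j)ᵀ = -(∑ j, e j • D j) := by
  rw [Matrix.transpose_sum, ← Finset.sum_neg_distrib]
  exact Finset.sum_congr rfl fun j _ => by rw [Matrix.transpose_smul, h j, smul_neg]

private lemma dir_comm_sum {n : ℕ} {D : Fin 9 → Matrix (Fin n) (Fin n) ℝ} (h : ∀ i j, D i * D j = D j * D i)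
    (e : Fin 9 → ℝ) (a : Fin 9) : (∑ j, e j • D j) * D a = D a * (∑ j, e j • D j) := by
  rw [Finset.sum_mul, Finset.mul_sum]
  exact Finset.sum_congr rfl fun j _ => by rw [Matrix.smul_mul, Matrix.mul_smul, h j a]

private lemma dir_exists_comb {n : ℕ} {D : Fin 9 → Matrix (Fin n) (Fin n) ℝ} (hs : ∀ i, (D i)ᵀ = -D i)
    (hc : ∀ i j, D i * D j = D j * D i) (s : Finset (Fin 9)) :
    ∃ e : Fin 9 → ℝ, ∀ v, dirLn (∑ j, e j • D j) v = 0 → ∀ i ∈ s, dirLn (D i) v = 0 := by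
  induction s using Finset.induction_on with
  | empty => exact ⟨0, fun v _ i hi => by simp at hi⟩
  | insert a s ha ih =>
    obtain ⟨e, he⟩ := ih
    obtain ⟨t, ht⟩ := exists_ker (dirLn (∑ j, e j • D j)) (dirLn (D a)) (dirLn_skew (dir_skew_sum hs e))
      (dirLn_skew (hs a)) (dirLn_comm (dir_comm_sum hc e a))
    refine ⟨e + Pi.single a t, fun v hv => ?_⟩
    have h1 : dirLn (∑ j, (e + Pi.single a t : Fin 9 → ℝ) j • D j) v = dirLn (∑ j, e j • D j) v + t • dirLn (D a) v := by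
      rw [dirLn_sum, dirLn_sum]
      simp only [Pi.add_apply, add_smul, Finset.sum_add_distrib]
      congr 1
      rw [Finset.sum_eq_single a]
      · simp
      · intro b _ hb
        simp [hb]
      · simp
    rw [h1] at hv
    obtain ⟨h2, h3⟩ := ht v hv
    intro i hi
    rcases Finset.mem_insert.1 hi with rfl | hi
    · exact h3
    · exact he v h2 i hi

private lemma dir_exists_unit {n : ℕ} {D : Fin 9 → Matrix (Fin n) (Fin n) ℝ} (hs : ∀ i, (D i)ᵀ = -D i)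
    (hc : ∀ i j, D i * D j = D j * D i) :
    ∃ e : EuclideanSpace ℝ (Fin 9), ‖e‖ = 1 ∧ ∀ v, dirLn (∑ j, e j • D j) v = 0 → ∀ i, dirLn (D i) v = 0 := by
  obtain ⟨e, he⟩ := dir_exists_comb hs hc Finset.univ
  have he' : ∀ v, dirLn (∑ j, e j • D j) v = 0 → ∀ i, dirLn (D i) v = 0 :=
    fun v hv i => he v hv i (Finset.mem_univ i)
  by_cases h0 : e = 0
  · refine ⟨EuclideanSpace.single 0 1, by simp, fun v _ i => he' v ?_ i⟩
    rw [dirLn_sum, h0]
    simp
  · set E : EuclideanSpace ℝ (Fin 9) := WithLp.toLp 2 e with hE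
    have hE0 : E ≠ 0 := by
      intro h
      apply h0
      funext i
      have := congrArg (fun z : EuclideanSpace ℝ (Fin 9) => z i) h
      simpa [hE] using this
    have hn : ‖E‖ ≠ 0 := norm_ne_zero_iff.2 hE0
    refine ⟨‖E‖⁻¹ • E, by rw [norm_smul, norm_inv, norm_norm, inv_mul_cancel₀ hn], fun v hv i => he' v ?_ i⟩
    rw [dirLn_sum] at hv ⊢
    have h2 : ∑ j, (‖E‖⁻¹ • E) j • dirLn (D j) v = ‖E‖⁻¹ • ∑ j, e j • dirLn (D j) v := by
      rw [Finset.smul_sum]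
      exact Finset.sum_congr rfl fun j _ => by rw [PiLp.smul_apply, smul_eq_mul, mul_smul]
    rw [h2] at hv
    exact (smul_eq_zero.1 hv).resolve_left (inv_ne_zero hn)

/-- **EG-Dir** -/
theorem dirS : DirStmt := by
  intro n D hs hc hdet
  obtain ⟨e, he1, he⟩ := dir_exists_unit hs hc
  obtain ⟨R, hR, hR8⟩ := exists_rot e he1
  refine ⟨R, hR, fun h0 => hdet ?_⟩
  obtain ⟨z, hz0, hz⟩ := Matrix.exists_mulVec_eq_zero_iff.2 h0
  have h1 : dirLn (∑ j, e j • D j) (WithLp.toLp 2 z) = 0 := by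
    have h2 : dirLn (∑ j, e j • D j) (WithLp.toLp 2 z) = WithLp.toLp 2 ((∑ j, e j • D j) *ᵥ z) := rfl
    have h3 : (∑ j, R 8 j • D j) = ∑ j, e j • D j := Finset.sum_congr rfl fun j _ => by rw [hR8]
    rw [h2, ← h3, hz, WithLp.toLp_zero]
  have h4 : ∀ i, D i *ᵥ z = 0 := by
    intro i
    have h5 := he _ h1 i
    have h6 : dirLn (D i) (WithLp.toLp 2 z) = WithLp.toLp 2 (D i *ᵥ z) := rfl
    rw [h6] at h5
    exact congrArg WithLp.ofLp h5
  refine Matrix.exists_mulVec_eq_zero_iff.1 ⟨z, hz0, ?_⟩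
  rw [Matrix.sum_mulVec]
  refine Finset.sum_eq_zero fun i _ => ?_
  rw [← Matrix.mulVec_mulVec, h4 i, Matrix.mulVec_zero]

end Vale.Agent.P353.Z.AE
end

section

/-! # P353, all `N`, block GL15: uniform bound of the global functional over compact sets of regular points -/

open MeasureTheory Filter Topology
open scoped ContDiff ENNReal

namespace Vale.Agent.P353.Z.AN

variable {d dh dm r ds : ℕ} {F : Type*} [NormedAddCommGroup F] [InnerProductSpace ℂ F]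

/-- the uniform bound for functions supported over `A` -/
def glk_P (S : Setup d F) (φ : Spl dh dm d) (ψ : Spz r ds dh) (A : Set (Cfg r)) : Prop :=
  ∃ δ C R₁ : ℝ, 0 < δ ∧ 0 < C ∧ 0 < R₁ ∧ ∀ R : ℝ, R₁ ≤ R →
  ∀ b : Cfg r × Cfg ds × Cfg dm → F, StronglyMeasurable b →
  (∀ q, b q ≠ 0 → q.1 ∈ A ∧ ‖q.2.1‖ ≤ δ * R ∧ ‖q.2.2‖ ≤ δ * (R * Real.sqrt R)) → MemLp b 2 (wM r ds dm) →
  ∀ u : Cfg d → F, Setup.Tst u → (∀ C x, S.G C u x = 0) →
    ‖∫ x, inner ℂ (Zb φ ψ b R x) (u x)‖ₑ ≤ ENNReal.ofReal C * eLpNorm b 2 (wM r ds dm) * eLpNorm u 2 volume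

theorem glk_anti (S : Setup d F) (φ : Spl dh dm d) (ψ : Spz r ds dh) (η : Cfg r) (i : Fin 9) :
    (Dz S φ ψ η i).transpose = -Dz S φ ψ η i := by
  have h : Dz S φ ψ η i = DM (AX.Mz S φ (spsw ψ)) η i := (congrFun (AX.DM_Dz S φ ψ η) i).symm
  rw [h]
  simp only [DM, Matrix.transpose_sum, Matrix.transpose_smul, AX.Mz_anti, smul_neg, Finset.sum_neg_distrib]

theorem glk_comm (S : Setup d F) (φ : Spl dh dm d) (ψ : Spz r ds dh) (hs : S.IsSub φ) (hc : IsZ S φ ψ) (η : Cfg r)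
    (i j : Fin 9) : Dz S φ ψ η i * Dz S φ ψ η j = Dz S φ ψ η j * Dz S φ ψ η i := by
  have h : ∀ i, Dz S φ ψ η i = DM (AX.Mz S φ (spsw ψ)) η i := fun i => (congrFun (AX.DM_Dz S φ ψ η) i).symm
  rw [h, h]
  simp only [DM, Finset.sum_mul_sum, smul_mul_smul_comm]
  rw [Finset.sum_comm]
  refine Finset.sum_congr rfl fun a _ => Finset.sum_congr rfl fun b _ => ?_
  rw [AX.Mz_comm S φ (spsw ψ) hs (fun A B C => hc A B C), mul_comm]

/-- at a regular point the sum of squares is invertible -/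
theorem glk_sq {n : ℕ} (D : Fin 9 → Matrix (Fin n) (Fin n) ℝ) (ha : ∀ i, (D i).transpose = -D i)
    (hr : ∀ x : Fin n → ℝ, (∀ i, (D i).mulVec x = 0) → x = 0) : (∑ i, D i * D i).det ≠ 0 := by
  intro h0
  obtain ⟨z, hz0, hz⟩ := Matrix.exists_mulVec_eq_zero_iff.2 h0
  apply hz0
  apply hr
  have h1 : ∀ i, dotProduct z ((D i * D i).mulVec z) = - dotProduct ((D i).mulVec z) ((D i).mulVec z) := by
    intro i
    rw [← Matrix.mulVec_mulVec, Matrix.dotProduct_mulVec, ← Matrix.mulVec_transpose, ha, Matrix.neg_mulVec,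
      neg_dotProduct]
  have h2 : ∑ i, dotProduct ((D i).mulVec z) ((D i).mulVec z) = 0 := by
    have h3 : dotProduct z ((∑ i, D i * D i).mulVec z) = 0 := by rw [hz, dotProduct_zero]
    rw [Matrix.sum_mulVec, dotProduct_sum] at h3
    simp only [h1, Finset.sum_neg_distrib] at h3
    linarith
  have h4 : ∀ i, 0 ≤ dotProduct ((D i).mulVec z) ((D i).mulVec z) := fun i =>
    Finset.sum_nonneg fun j _ => mul_self_nonneg _
  intro i
  have h5 := (Finset.sum_eq_zero_iff_of_nonneg fun i _ => h4 i).1 h2 i (Finset.mem_univ i)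
  exact dotProduct_self_eq_zero.1 h5

/-- a good frame at a regular point -/
theorem glk_frame (S : Setup d F) (φ : Spl dh dm d) (ψ : Spz r ds dh) (hs : S.IsSub φ) (hc : IsZ S φ ψ) (η : Cfg r)
    (hη : η ∈ Reg S φ ψ) : ∃ (R₀ : Matrix (Fin 9) (Fin 9) ℝ) (hR : R₀ * R₀.transpose = 1),
      Std (S.rot R₀ hR 1 (gb969_one d)) φ (cmb ψ (rox R₀ 1 η) 0) := by
  obtain ⟨R₀, hR, hdet⟩ := AE.dirS dm (Dz S φ ψ η) (glk_anti S φ ψ η) (glk_comm S φ ψ hs hc η)
    (glk_sq _ (glk_anti S φ ψ η) hη)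
  refine ⟨R₀, hR, ?_⟩
  obtain ⟨-, -, h3, -⟩ := AE.rotG S φ ψ hs hc R₀ hR (gb969_one d)
  refine h3 (rox R₀ 1 η) ?_
  have h4 : S.Dz φ ψ (rox R₀ 1 η) 8 = ∑ j, R₀ 8 j • Dz S φ ψ η j := by
    rw [← AX.DM_Dz, AX.rox_one, AX.DM_rz]
    refine Finset.sum_congr rfl fun j _ => ?_
    rw [AX.DM_Dz]
    rfl
  rw [h4]
  exact hdet

/-- weighted norm of a rotated function -/
theorem glk_nrm {R₀ : Matrix (Fin 9) (Fin 9) ℝ} (hR : R₀ * R₀.transpose = 1) {b : Cfg r × Cfg ds × Cfg dm → F}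
    (hb : StronglyMeasurable b) :
    StronglyMeasurable (fun q : Cfg r × Cfg ds × Cfg dm =>
      b (rox R₀.transpose 1 q.1, rox R₀.transpose 1 q.2.1, rox R₀.transpose 1 q.2.2)) ∧
    eLpNorm (fun q : Cfg r × Cfg ds × Cfg dm =>
      b (rox R₀.transpose 1 q.1, rox R₀.transpose 1 q.2.1, rox R₀.transpose 1 q.2.2)) 2 (wM r ds dm) ≤
      eLpNorm b 2 (wM r ds dm) := by
  have hR' := gb969_hR' hR
  have hmp : MeasurePreserving (fun q : Cfg r × Cfg ds × Cfg dm =>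
      ((rox R₀.transpose 1 q.1, rox R₀.transpose 1 q.2.1, rox R₀.transpose 1 q.2.2) : Cfg r × Cfg ds × Cfg dm))
      ((volume : Measure (Cfg r)).prod ((volume : Measure (Cfg ds)).prod (volume : Measure (Cfg dm))))
      ((volume : Measure (Cfg r)).prod ((volume : Measure (Cfg ds)).prod (volume : Measure (Cfg dm)))) :=
    (rt_mp hR' (gb969_one r)).prod ((rt_mp hR' (gb969_one ds)).prod (rt_mp hR' (gb969_one dm)))
  have hb' : StronglyMeasurable (fun q : Cfg r × Cfg ds × Cfg dm =>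
      b (rox R₀.transpose 1 q.1, rox R₀.transpose 1 q.2.1, rox R₀.transpose 1 q.2.2)) :=
    hb.comp_measurable hmp.measurable
  refine ⟨hb', glu_le_of_sq (le_of_eq ?_)⟩
  rw [← glu_w_sq hb, glu_w_lint (hb'.enorm.pow_const 2)]
  have hg : Measurable fun q : Cfg r × Cfg ds × Cfg dm =>
      ENNReal.ofReal ((1 + ‖q.2.2‖ ^ 2) ^ (dm + 1)) * ‖b q‖ₑ ^ 2 :=
    (glu_w_meas r ds dm).mul (hb.enorm.pow_const 2)
  rw [← hmp.lintegral_comp hg]
  refine lintegral_congr fun q => ?_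
  rw [rt_norm hR' (gb969_one dm)]

/-- the local bound -/
theorem glk_loc (S : Setup d F) (φ : Spl dh dm d) (ψ : Spz r ds dh) (hF : FiniteDimensional ℂ F) (η : Cfg r)
    (R₀ : Matrix (Fin 9) (Fin 9) ℝ) (hR : R₀ * R₀.transpose = 1) (hB : GluBdStmt (S.rot R₀ hR 1 (gb969_one d)))
    (hstd : Std (S.rot R₀ hR 1 (gb969_one d)) φ (cmb ψ (rox R₀ 1 η) 0)) :
    ∃ δ : ℝ, 0 < δ ∧ glk_P S φ ψ (Metric.closedBall η δ) := by
  obtain ⟨δ, C, R₁, hδ, hC, hR₁, H⟩ := hB hF dh dm r ds φ ψ (rox R₀ 1 η) hstd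
  refine ⟨δ, hδ, δ, C, R₁, hδ, hC, hR₁, ?_⟩
  intro R hRR b hb hsup hbm u hu hG
  obtain ⟨hb', hn⟩ := glk_nrm hR hb
  have hR' := gb969_hR' hR
  have hu' := gb969_GInv S hR (gb969_one d) (u := u) ⟨hu, hG⟩
  have h := H R hRR _ hb' (fun q hq => ?_) ⟨hb'.aestronglyMeasurable, lt_of_le_of_lt hn hbm.2⟩ _ hu'.1 hu'.2
  · have e1 : ∫ x, inner ℂ (Zb φ ψ (fun q : Cfg r × Cfg ds × Cfg dm =>
        b (rox R₀.transpose 1 q.1, rox R₀.transpose 1 q.2.1, rox R₀.transpose 1 q.2.2)) R x)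
        (u (rox R₀.transpose 1 x)) = ∫ x, inner ℂ (Zb φ ψ b R x) (u x) := by
      have hmp := rt_mp hR (gb969_one d)
      have he : MeasurableEmbedding (rox R₀ 1 : Cfg d → Cfg d) :=
        (rtE R₀ hR 1 (gb969_one d)).toHomeomorph.measurableEmbedding
      rw [← hmp.integral_comp he]
      refine integral_congr_ae (Eventually.of_forall fun x => ?_)
      simp only [Zb, gb969_zy, gb969_pm, gb969_hz, gb969_hs, ← gb969_smul, gb969_inv hR]
    have e2 : eLpNorm (fun x => u (rox R₀.transpose 1 x)) 2 volume = eLpNorm u 2 volume :=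
      eLpNorm_comp_measurePreserving hu.1.continuous.aestronglyMeasurable (rt_mp hR' (gb969_one d))
    rw [e1, e2] at h
    exact h.trans (mul_le_mul' (mul_le_mul' le_rfl hn) le_rfl)
  · obtain ⟨h1, h2, h3⟩ := hsup _ hq
    simp only at h1 h2 h3
    rw [rt_norm hR' (gb969_one _)] at h2 h3
    refine ⟨?_, h2, h3⟩
    rw [Metric.mem_closedBall, dist_eq_norm] at h1
    have h6 : rox R₀ 1 (rox R₀.transpose 1 q.1 - η) = q.1 - rox R₀ 1 η := by
      have h7 := (rtE R₀ hR (1 : Matrix (Fin r) (Fin r) ℝ) (gb969_one r)).map_sub (rox R₀.transpose 1 q.1) η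
      have h8 : rox R₀ 1 (rox R₀.transpose 1 q.1 - η) =
        rox R₀ 1 (rox R₀.transpose 1 q.1) - rox R₀ 1 η := h7
      rw [h8, gb969_inv' hR]
    rw [← h6, rt_norm hR (gb969_one r)]
    exact h1

theorem glk_union (S : Setup d F) (φ : Spl dh dm d) (ψ : Spz r ds dh) {A B : Set (Cfg r)} (hA : MeasurableSet A)
    (h1 : glk_P S φ ψ A) (h2 : glk_P S φ ψ B) : glk_P S φ ψ (A ∪ B) := by
  obtain ⟨δ₁, C₁, r₁, hδ₁, hC₁, hr₁, H₁⟩ := h1
  obtain ⟨δ₂, C₂, r₂, hδ₂, hC₂, hr₂, H₂⟩ := h2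
  refine ⟨min δ₁ δ₂, C₁ + C₂, max r₁ r₂, lt_min hδ₁ hδ₂, by positivity, lt_max_of_lt_left hr₁, ?_⟩
  intro R hR b hb hsup hbm u hu hG
  have hR1 : r₁ ≤ R := (le_max_left _ _).trans hR
  have hR2 : r₂ ≤ R := (le_max_right _ _).trans hR
  have hR0 : 0 < R := hr₁.trans_le hR1
  set T : Set (Cfg r × Cfg ds × Cfg dm) := {q | q.1 ∈ A} with hT
  have hTm : MeasurableSet T := measurable_fst hA
  have hb1 : StronglyMeasurable (T.indicator b) := hb.indicator hTm
  have hb2 : StronglyMeasurable (Tᶜ.indicator b) := hb.indicator hTm.compl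
  have hm1 : MemLp (T.indicator b) 2 (wM r ds dm) := hbm.indicator hTm
  have hm2 : MemLp (Tᶜ.indicator b) 2 (wM r ds dm) := hbm.indicator hTm.compl
  have hs : 0 ≤ R * Real.sqrt R := mul_nonneg hR0.le (Real.sqrt_nonneg _)
  have k1 := H₁ R hR1 (T.indicator b) hb1 (fun q hq => ?_) hm1 u hu hG
  · have k2 := H₂ R hR2 (Tᶜ.indicator b) hb2 (fun q hq => ?_) hm2 u hu hG
    · have i1 : Integrable (fun x => inner ℂ (Zb φ ψ (T.indicator b) R x) (u x)) :=
        glu_int (glu_memLp φ ψ R hR0 (hm1.mono_measure (glu_w_le r ds dm))) hu.memLp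
      have i2 : Integrable (fun x => inner ℂ (Zb φ ψ (Tᶜ.indicator b) R x) (u x)) :=
        glu_int (glu_memLp φ ψ R hR0 (hm2.mono_measure (glu_w_le r ds dm))) hu.memLp
      have e1 : ∫ x, inner ℂ (Zb φ ψ b R x) (u x) = (∫ x, inner ℂ (Zb φ ψ (T.indicator b) R x) (u x)) +
          ∫ x, inner ℂ (Zb φ ψ (Tᶜ.indicator b) R x) (u x) := by
        rw [← integral_add i1 i2]
        refine integral_congr_ae (ae_of_all _ fun x => ?_)
        simp only
        rw [← inner_add_left]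
        congr 1
        unfold Zb
        rw [← smul_add]
        congr 1
        have h3 := Set.indicator_self_add_compl T b
        exact (congrFun h3 _).symm
      rw [e1]
      refine (enorm_add_le _ _).trans ((add_le_add k1 k2).trans ?_)
      have n1 : eLpNorm (T.indicator b) 2 (wM r ds dm) ≤ eLpNorm b 2 (wM r ds dm) := eLpNorm_indicator_le _
      have n2 : eLpNorm (Tᶜ.indicator b) 2 (wM r ds dm) ≤ eLpNorm b 2 (wM r ds dm) := eLpNorm_indicator_le _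
      rw [ENNReal.ofReal_add hC₁.le hC₂.le, add_mul, add_mul]
      exact add_le_add (mul_le_mul' (mul_le_mul' le_rfl n1) le_rfl) (mul_le_mul' (mul_le_mul' le_rfl n2) le_rfl)
    · have hqT : q ∈ Tᶜ := by
        by_contra h
        exact hq (Set.indicator_of_notMem h b)
      rw [Set.indicator_of_mem hqT] at hq
      obtain ⟨g1, g2, g3⟩ := hsup q hq
      refine ⟨g1.resolve_left hqT, g2.trans ?_, g3.trans ?_⟩
      · exact mul_le_mul_of_nonneg_right (min_le_right _ _) hR0.le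
      · exact mul_le_mul_of_nonneg_right (min_le_right _ _) hs
  · have hqT : q ∈ T := by
      by_contra h
      exact hq (Set.indicator_of_notMem h b)
    rw [Set.indicator_of_mem hqT] at hq
    obtain ⟨g1, g2, g3⟩ := hsup q hq
    refine ⟨hqT, g2.trans ?_, g3.trans ?_⟩
    · exact mul_le_mul_of_nonneg_right (min_le_left _ _) hR0.le
    · exact mul_le_mul_of_nonneg_right (min_le_left _ _) hs

theorem glk_empty (S : Setup d F) (φ : Spl dh dm d) (ψ : Spz r ds dh) : glk_P S φ ψ ∅ := by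
  refine ⟨1, 1, 1, one_pos, one_pos, one_pos, fun R _ b _ hsup _ u _ _ => ?_⟩
  have h0 : ∀ q, b q = 0 := by
    intro q
    by_contra h
    exact (hsup q h).1
  have h1 : ∫ x, inner ℂ (Zb φ ψ b R x) (u x) = 0 := by
    simp [Zb, h0]
  rw [h1]
  simp

/-- **GL15** uniform bound over compact sets of regular points -/
theorem gluK_stmt (S : Setup d F) : (∀ S' : Setup d F, GluBdStmt S') → RotStmt S → GluKStmt S := by
  intro hB _ hF dh dm r ds φ ψ K hs hc hK hKR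
  have key : ∃ A : Set (Cfg r), MeasurableSet A ∧ K ⊆ A ∧ glk_P S φ ψ A := by
    refine hK.induction_on (p := fun s => ∃ A : Set (Cfg r), MeasurableSet A ∧ s ⊆ A ∧ glk_P S φ ψ A) ?_ ?_ ?_ ?_
    · exact ⟨∅, MeasurableSet.empty, le_rfl, glk_empty S φ ψ⟩
    · rintro s t hst ⟨A, hA, h1, h2⟩
      exact ⟨A, hA, hst.trans h1, h2⟩
    · rintro s t ⟨A, hA, h1, h2⟩ ⟨B, hB, h3, h4⟩
      exact ⟨A ∪ B, hA.union hB, Set.union_subset_union h1 h3, glk_union S φ ψ hA h2 h4⟩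
    · intro η hη
      obtain ⟨R₀, hR, hstd⟩ := glk_frame S φ ψ hs hc η (hKR hη)
      obtain ⟨δ, hδ, h1⟩ := glk_loc S φ ψ hF η R₀ hR (hB _) hstd
      exact ⟨Metric.closedBall η δ, mem_nhdsWithin_of_mem_nhds (Metric.closedBall_mem_nhds η hδ),
        Metric.closedBall η δ, measurableSet_closedBall, le_rfl, h1⟩
  obtain ⟨A, -, hKA, δ, C, R₁, hδ, hC, hR₁, H⟩ := key
  refine ⟨δ, C, R₁, hδ, hC, hR₁, fun R hR b hb hsup hbm u hu hG => ?_⟩
  exact H R hR b hb (fun q hq => ⟨hKA (hsup q hq).1, (hsup q hq).2⟩) hbm u hu hG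

end Vale.Agent.P353.Z.AN
end

section

/-! # P353, all `N`, block E: EG-GLim, the global limit equation (helper7) -/

open MeasureTheory Filter Topology Matrix
open scoped ContDiff Manifold

namespace Vale.Agent.P353.Z.AE

variable {d dh dm r ds : ℕ} {F : Type*} [NormedAddCommGroup F] [InnerProductSpace ℂ F]

private theorem gl7_tt {R : Matrix (Fin 9) (Fin 9) ℝ} (hR : R * Rᵀ = 1) : Rᵀ * Rᵀᵀ = 1 := by
  rw [Matrix.transpose_transpose]
  exact mul_eq_one_comm.1 hR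

private theorem gl7_nrz {n : ℕ} {R : Matrix (Fin 9) (Fin 9) ℝ} (hR : R * Rᵀ = 1) (y : Cfg n) :
    ‖AX.rz R y‖ = ‖y‖ := by
  have hR' : Rᵀ * R = 1 := mul_eq_one_comm.1 hR
  have h : ∀ v : Fin 9 → ℝ, ∑ i, (∑ j, R i j * v j) ^ 2 = ∑ j, v j ^ 2 := by
    intro v
    have h1 : (R *ᵥ v) ⬝ᵥ (R *ᵥ v) = v ⬝ᵥ v := by
      rw [Matrix.dotProduct_mulVec, Matrix.vecMul_mulVec, hR', Matrix.vecMul_one]
    simpa only [dotProduct, Matrix.mulVec, sq] using h1
  have h2 : ‖AX.rz R y‖ ^ 2 = ‖y‖ ^ 2 := by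
    rw [EuclideanSpace.norm_sq_eq, EuclideanSpace.norm_sq_eq, Fintype.sum_prod_type, Fintype.sum_prod_type]
    rw [Finset.sum_comm, Finset.sum_comm (s := (Finset.univ : Finset (Fin 9)))]
    refine Finset.sum_congr rfl fun A _ => ?_
    have h3 := h fun j => y (j, A)
    simpa only [AX.rz, Real.norm_eq_abs, sq_abs] using h3
  exact (sq_eq_sq₀ (norm_nonneg _) (norm_nonneg _)).1 h2

private theorem gl7_DMa (M : Fin r → Matrix (Fin dm) (Fin dm) ℝ) (h : ∀ a, (M a)ᵀ = -M a) (η : Cfg r) (i : Fin 9) :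
    (DM M η i)ᵀ = -DM M η i := by
  simp only [DM, Matrix.transpose_sum, Matrix.transpose_smul, h, smul_neg, Finset.sum_neg_distrib]

private theorem gl7_DMc (M : Fin r → Matrix (Fin dm) (Fin dm) ℝ) (h : ∀ a b, M a * M b = M b * M a) (η : Cfg r)
    (i j : Fin 9) : DM M η i * DM M η j = DM M η j * DM M η i := by
  simp only [DM, Finset.sum_mul_sum, smul_mul_smul_comm]
  rw [Finset.sum_comm]
  refine Finset.sum_congr rfl fun a _ => Finset.sum_congr rfl fun b _ => ?_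
  rw [h, mul_comm]

/-- the limit equation for cut-offs supported in `W` -/
private def gl7_P (S : Setup d F) (φ : Spl dh dm d) (ψ : Spl r ds dh) (hφ : S.IsSub φ) (hc : S.IsCen φ ψ)
    (N : Fin 9 → Matrix (Fin 16) (Fin 16) ℂ) (Om : Cfg r → Matrix (Fin dm) (Fin dm) ℝ) (K : Submodule ℂ F)
    (U : Cfg r → F →L[ℂ] F) (W : Set (Cfg r)) (δ : ℝ) : Prop :=
  ∀ ζ : Cfg r → ℂ, ContDiff ℝ ∞ ζ → HasCompactSupport ζ → tsupport ζ ⊆ W → ∀ μ : ℝ, 0 ≤ μ → ∀ o : Cfg ds → F,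
    IZm (S.int φ ψ hφ hc) K o → ∀ (R : ℕ → ℝ) (u : ℕ → Cfg d → F) (C : ℝ), SqN S N μ C R u →
    ∀ χ : ℕ → Cfg r × Cfg ds × Cfg dm → ℝ, CutA δ R χ → ∀ β,
      Tendsto (fun n => (R n : ℂ) * ZL S φ ψ Om (χ n) (R n) (fun η s => U η (pp ζ o η s)) (QN S N (μ / R n ^ 2) β (u n)) -
        ZL S φ ψ Om (χ n) (R n) (fun η s => U η (S.DF φ ψ N μ β (pp ζ o) η s)) (u n)) atTop (𝓝 0)

private theorem gl7_cut {δ δ' : ℝ} (h : δ ≤ δ') {R : ℕ → ℝ} (hR : ∀ n, 1 ≤ R n) {χ : ℕ → Cfg r × Cfg ds × Cfg dm → ℝ}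
    (hχ : CutA δ R χ) : CutA δ' R χ where
  meas := hχ.meas
  bd := hχ.bd
  lim := hχ.lim
  sup := fun n q hq => by
    have hR0 : 0 ≤ R n := zero_le_one.trans (hR n)
    obtain ⟨h1, h2⟩ := hχ.sup n q hq
    exact ⟨h1.trans (mul_le_mul_of_nonneg_right h hR0),
      h2.trans (mul_le_mul_of_nonneg_right h (mul_nonneg hR0 (Real.sqrt_nonneg _)))⟩

/-- the local statement at a point off the collisions -/
private theorem gl7_loc (S : Setup d F) (φ : Spl dh dm d) (ψ : Spl r ds dh) (hL : ∀ S' : Setup d F, LocZStmt S' φ ψ)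
    (hF : FiniteDimensional ℂ F) (hφ : S.IsSub φ) (hc : S.IsCen φ ψ)
    (N : Fin 9 → Matrix (Fin 16) (Fin 16) ℂ) (hN : S.IsMass N) (L : Finset (Fin r → ℝ))
    (Om : Cfg r → Matrix (Fin dm) (Fin dm) ℝ) (K : Submodule ℂ F) (U : Cfg r → F →L[ℂ] F)
    (hBun : AX.Bun S φ (AX.Mz S φ (spsw ψ)) L Om K U) (z : Cfg r) (hz : z ∉ Coll L) :
    ∃ δ : ℝ, 0 < δ ∧ gl7_P S φ ψ hφ hc N Om K U (Metric.ball z δ) δ := by
  have h1 : (1 : Matrix (Fin d) (Fin d) ℝ) * (1 : Matrix (Fin d) (Fin d) ℝ)ᵀ = 1 := by simp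
  have ha := AX.Mz_anti S φ (spsw ψ)
  have hm := AX.Mz_comm S φ (spsw ψ) hφ (fun A B C => hc A B C)
  obtain ⟨R₀, hR₀, hdet⟩ := dirS dm (DM (AX.Mz S φ (spsw ψ)) z) (gl7_DMa _ ha z) (gl7_DMc _ hm z) (hBun.det z hz)
  have hR₀t : R₀ᵀ * R₀ᵀᵀ = 1 := gl7_tt hR₀
  obtain ⟨hφ', hc', hstd, hmass, hGI, hIZ, hDF, hZL⟩ := rotG S φ ψ hφ hc R₀ hR₀ h1
  set y₀ : Cfg r := AX.rz R₀ z with hy₀
  have hback : AX.rz R₀ᵀ y₀ = z := by
    have := AX.rz_rz hR₀t z
    rwa [Matrix.transpose_transpose] at this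
  have h8 : (S.Dz φ ψ y₀ 8).det ≠ 0 := by
    rw [← AX.DM_Dz, hy₀, AX.DM_rz]
    exact hdet
  have hV := AX.vfr S φ ψ hBun R₀ hR₀ h1
  have hy₀G : y₀ ∈ {y : Cfg r | AX.rz R₀ᵀ y ∉ Coll L ∧ (S.Dz φ ψ y 8).det ≠ 0} := by
    refine ⟨?_, h8⟩
    rw [hback]
    exact hz
  obtain ⟨δ, hδ, hloc⟩ := hL (S.rot R₀ hR₀ 1 h1) hF hφ' hc' (AN.rotN R₀ N) (hmass N hN) _ _ _ K hV y₀ hy₀G
  refine ⟨δ, hδ, fun ζ hζ hζc hζs μ hμ o ho R u C hu χ hχ β => ?_⟩
  have hnm : ∀ {n : ℕ} (y : Cfg n), ‖AX.rz R₀ᵀ y‖ = ‖y‖ := fun y => gl7_nrz hR₀t y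
  have hct : ∀ {n : ℕ}, Continuous fun y : Cfg n => AX.rz R₀ᵀ y := fun {n} => (AX.rzL n R₀ᵀ).continuous
  have hsm : ∀ {n : ℕ}, ContDiff ℝ ∞ fun y : Cfg n => AX.rz R₀ᵀ y := fun {n} => (AX.rzL n R₀ᵀ).contDiff
  have hsup : tsupport (fun y' => ζ (AX.rz R₀ᵀ y')) ⊆ Metric.ball y₀ δ := by
    intro y hy
    have h2 : AX.rz R₀ᵀ y ∈ tsupport ζ := by
      have h3 : tsupport (fun y' => ζ (AX.rz R₀ᵀ y')) ⊆ (fun y' => AX.rz R₀ᵀ y') ⁻¹' tsupport ζ :=
        closure_minimal (fun y' hy' => subset_tsupport _ hy') ((isClosed_tsupport ζ).preimage hct)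
      exact h3 hy
    have h4 := hζs h2
    rw [Metric.mem_ball, dist_eq_norm] at h4 ⊢
    have h3 : AX.rz R₀ᵀ y - z = AX.rz R₀ᵀ (y - y₀) := by
      rw [← hback]
      exact ((AX.rzL r R₀ᵀ).map_sub y y₀).symm
    rwa [h3, hnm] at h4
  have hSq : SqN (S.rot R₀ hR₀ 1 h1) (AN.rotN R₀ N) μ C R (fun n x => u n (rox R₀ᵀ 1 x)) := by
    refine ⟨hu.one, hu.lim, fun n => (hGI N 0 0 (u n) (hu.gi n)).1, fun n => ?_, fun n => ?_⟩
    · rw [(hGI N 0 0 (u n) (hu.gi n)).2.1]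
      exact hu.nrm n
    · have h2 : ∀ β, nsq (QN (S.rot R₀ hR₀ 1 h1) (AN.rotN R₀ N) (μ / R n ^ 2) β (fun x => u n (rox R₀ᵀ 1 x))) =
          nsq (QN S N (μ / R n ^ 2) β (u n)) := by
        intro β
        rw [(hGI N _ β (u n) (hu.gi n)).2.2]
        exact (hGI N 0 0 _ (qInv S N (μ / R n ^ 2) β (u n) (hu.gi n))).2.1
      simp only [h2]
      exact hu.en n
  have hcut : CutA δ R (fun n (q : Cfg r × Cfg ds × Cfg dm) => χ n (AX.rz R₀ᵀ q.1, AX.rz R₀ᵀ q.2.1, AX.rz R₀ᵀ q.2.2)) := by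
    refine ⟨fun n => ?_, fun n q => hχ.bd n _, fun q => hχ.lim _, fun n q hq => ?_⟩
    · refine (hχ.meas n).comp ?_
      exact ((hct.comp continuous_fst).prodMk ((hct.comp (continuous_fst.comp continuous_snd)).prodMk
        (hct.comp (continuous_snd.comp continuous_snd)))).measurable
    · have h2 := hχ.sup n _ hq
      simpa only [hnm] using h2
  have key := hloc (fun y' => ζ (AX.rz R₀ᵀ y')) (hζ.comp hsm) hsup μ hμ (fun s => o (AX.rz R₀ᵀ s)) (hIZ K o ho) R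
    (fun n x => u n (rox R₀ᵀ 1 x)) C hSq _ hcut β
  refine key.congr fun n => ?_
  have e1 := hZL Om (χ n) (R n) (fun η s => U η (pp ζ o η s)) (QN S N (μ / R n ^ 2) β (u n))
  have e2 := hZL Om (χ n) (R n) (fun η s => U η (S.DF φ ψ N μ β (pp ζ o) η s)) (u n)
  rw [← e1, ← e2]
  have e3 : QN (S.rot R₀ hR₀ 1 h1) (AN.rotN R₀ N) (μ / R n ^ 2) β (fun x => u n (rox R₀ᵀ 1 x)) =
      fun x => QN S N (μ / R n ^ 2) β (u n) (rox R₀ᵀ 1 x) := (hGI N _ β (u n) (hu.gi n)).2.2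
  have e4 : (fun (η : Cfg r) (s : Cfg ds) => U (AX.rz R₀ᵀ η) ((S.rot R₀ hR₀ 1 h1).DF φ ψ (AN.rotN R₀ N) μ β
      (pp (fun y' => ζ (AX.rz R₀ᵀ y')) (fun s => o (AX.rz R₀ᵀ s))) η s)) =
      fun η s => U (AX.rz R₀ᵀ η) (S.DF φ ψ N μ β (pp ζ o) (AX.rz R₀ᵀ η) (AX.rz R₀ᵀ s)) := by
    funext η s
    rw [hDF N μ β ζ o hζ η s]
  rw [e3, e4]
  rfl

private theorem gl7_add (S : Setup d F) (φ : Spl dh dm d) (ψ : Spl r ds dh) (Om : Cfg r → Matrix (Fin dm) (Fin dm) ℝ)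
    (χ : Cfg r × Cfg ds × Cfg dm → ℝ) (R : ℝ) (a b : Cfg r → Cfg ds → F) (u : Cfg d → F)
    (ha : Integrable (fun x => inner ℂ (AN.Zb φ ψ (fun q => ((χ q : ℝ) : ℂ) • AN.bG S.κ Om a q) R x) (u x)))
    (hb : Integrable (fun x => inner ℂ (AN.Zb φ ψ (fun q => ((χ q : ℝ) : ℂ) • AN.bG S.κ Om b q) R x) (u x))) :
    ZL S φ ψ Om χ R (fun η s => a η s + b η s) u = ZL S φ ψ Om χ R a u + ZL S φ ψ Om χ R b u := by
  rw [ZL, ZL, ZL, ← integral_add ha hb]
  refine integral_congr_ae (ae_of_all _ fun x => ?_)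
  simp only [AN.Zb, AN.bG, smul_add, inner_add_left]

/-- splitting a smooth function supported in `W₁ ∪ W₂` -/
private theorem gl7_split {W₁ W₂ : Set (Cfg r)} (h₁ : IsOpen W₁) (h₂ : IsOpen W₂) {ζ : Cfg r → ℂ} (hζ : ContDiff ℝ ∞ ζ)
    (hζc : HasCompactSupport ζ) (hζs : tsupport ζ ⊆ W₁ ∪ W₂) : ∃ ζ₁ ζ₂ : Cfg r → ℂ, ContDiff ℝ ∞ ζ₁ ∧ ContDiff ℝ ∞ ζ₂ ∧
      tsupport ζ₁ ⊆ W₁ ∧ tsupport ζ₂ ⊆ W₂ ∧ tsupport ζ₁ ⊆ tsupport ζ ∧ tsupport ζ₂ ⊆ tsupport ζ ∧
      ∀ y, ζ y = ζ₁ y + ζ₂ y := by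
  have hA : IsCompact (tsupport ζ \ W₂) := hζc.isCompact.diff h₂
  have hAW : tsupport ζ \ W₂ ⊆ W₁ := fun y hy => (hζs hy.1).resolve_right hy.2
  obtain ⟨L₁, hL₁, hAL, hLW⟩ := exists_compact_between hA h₁ hAW
  obtain ⟨L₂, hL₂, hLL, hL₂W⟩ := exists_compact_between hL₁ h₁ hLW
  obtain ⟨κ, hκ0, hκ1, hκ⟩ := exists_contMDiffMap_zero_one_of_isClosed (n := ⊤) 𝓘(ℝ, Cfg r)
    (isOpen_interior (s := L₂)).isClosed_compl hL₁.isClosed
    (Set.disjoint_left.2 fun x hx hx' => hx (hLL hx'))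
  have hκs : ContDiff ℝ ∞ (κ : Cfg r → ℝ) := κ.contMDiff.contDiff
  have hκc : ContDiff ℝ ∞ fun y => ((κ y : ℝ) : ℂ) := Complex.ofRealCLM.contDiff.comp hκs
  refine ⟨fun y => ((κ y : ℝ) : ℂ) * ζ y, fun y => (1 - ((κ y : ℝ) : ℂ)) * ζ y, hκc.mul hζ,
    (contDiff_const.sub hκc).mul hζ, ?_, ?_, tsupport_mul_subset_right, tsupport_mul_subset_right, fun y => by ring⟩
  · refine (closure_minimal ?_ hL₂.isClosed).trans hL₂W
    intro y hy
    by_contra hn
    apply hy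
    have hn' : y ∉ interior L₂ := fun h => hn (interior_subset (s := L₂) h)
    have : κ y = 0 := hκ0 hn'
    simp [this]
  · have hcl : IsClosed (tsupport ζ ∩ (interior L₁)ᶜ) := (isClosed_tsupport ζ).inter isOpen_interior.isClosed_compl
    refine (closure_minimal ?_ hcl).trans ?_
    · intro y hy
      refine ⟨subset_tsupport _ (right_ne_zero_of_mul hy), fun hi => hy ?_⟩
      have : κ y = 1 := hκ1 (interior_subset (s := L₁) hi)
      simp [this]
    · rintro y ⟨hy1, hy2⟩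
      by_contra hn
      exact hy2 (hAL ⟨hy1, hn⟩)

/-- gluing -/
private theorem gl7_union (S : Setup d F) (φ : Spl dh dm d) (ψ : Spl r ds dh) (hI : ZIntStmt S φ ψ)
    (hF : FiniteDimensional ℂ F) (hφ : S.IsSub φ) (hc : S.IsCen φ ψ)
    (N : Fin 9 → Matrix (Fin 16) (Fin 16) ℂ) (L : Finset (Fin r → ℝ))
    (Om : Cfg r → Matrix (Fin dm) (Fin dm) ℝ) (K : Submodule ℂ F) (U : Cfg r → F →L[ℂ] F)
    (hBun : AX.Bun S φ (AX.Mz S φ (spsw ψ)) L Om K U) {W₁ W₂ : Set (Cfg r)} (h₁ : IsOpen W₁) (h₂ : IsOpen W₂)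
    (hd₁ : W₁ ⊆ (Coll L)ᶜ) (hd₂ : W₂ ⊆ (Coll L)ᶜ) {δ : ℝ} (hP₁ : gl7_P S φ ψ hφ hc N Om K U W₁ δ)
    (hP₂ : gl7_P S φ ψ hφ hc N Om K U W₂ δ) : gl7_P S φ ψ hφ hc N Om K U (W₁ ∪ W₂) δ := by
  intro ζ hζ hζc hζs μ hμ o ho R u C hu χ hχ β
  obtain ⟨ζ₁, ζ₂, s₁, s₂, t₁, t₂, v₁, v₂, hsum⟩ := gl7_split h₁ h₂ hζ hζc hζs
  have c₁ : HasCompactSupport ζ₁ := hζc.of_isClosed_subset (isClosed_tsupport _) v₁
  have c₂ : HasCompactSupport ζ₂ := hζc.of_isClosed_subset (isClosed_tsupport _) v₂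
  have k₁ := hP₁ ζ₁ s₁ c₁ t₁ μ hμ o ho R u C hu χ hχ β
  have k₂ := hP₂ ζ₂ s₂ c₂ t₂ μ hμ o ho R u C hu χ hχ β
  have hUo : IsOpen (Coll L)ᶜ := hBun.closed.isOpen_compl
  have hUc : ContinuousOn U (Coll L)ᶜ := hBun.U_smooth.continuousOn
  have hζU : tsupport ζ ⊆ (Coll L)ᶜ := hζs.trans (Set.union_subset hd₁ hd₂)
  have hdis : Disjoint (tsupport ζ) (Coll L) := Set.disjoint_left.2 fun y hy => hζU hy
  have hint := (hI hF hφ hc L Om K U hBun (tsupport ζ) hζc hdis).2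
  -- integrability
  have hi : ∀ ζ' : Cfg r → ℂ, ContDiff ℝ ∞ ζ' → HasCompactSupport ζ' → tsupport ζ' ⊆ tsupport ζ → ∀ (n : ℕ) (v : Cfg d → F),
      Setup.Tst v → Integrable (fun x => inner ℂ (AN.Zb φ ψ (fun q => ((χ n q : ℝ) : ℂ) •
        AN.bG S.κ Om (fun η s => U η (pp ζ' o η s)) q) (R n) x) (v x)) ∧
      Integrable (fun x => inner ℂ (AN.Zb φ ψ (fun q => ((χ n q : ℝ) : ℂ) •
        AN.bG S.κ Om (fun η s => U η (S.DF φ ψ N μ β (pp ζ' o) η s)) q) (R n) x) (v x)) := by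
    intro ζ' hs' hc' ht' n v hv
    constructor
    · refine hint _ (LocZ518.mem_sec hUo hUc hs'.continuous hc' (ht'.trans hζU) (ContinuousLinearMap.id ℂ F) ho.mem) ?_
        (R n) (χ n) v (hu.one n) (hχ.meas n) (hχ.bd n) hv
      intro η s h
      by_contra hn
      apply h
      have h0 : ζ' η = 0 := image_eq_zero_of_notMem_tsupport fun h' => hn (ht' h')
      simp [pp, h0]
    · refine hint _ (LocZ518.mem_DF hUo hUc N μ β hs' hc' (ht'.trans hζU) ho.mem) ?_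
        (R n) (χ n) v (hu.one n) (hχ.meas n) (hχ.bd n) hv
      intro η s h
      by_contra hn
      apply h
      rw [LocZ518.DF_zero S φ ψ N μ β hs' o (fun h' => hn (ht' h')), map_zero]
  have e1 : (fun (η : Cfg r) (s : Cfg ds) => U η (pp ζ o η s)) =
      fun η s => U η (pp ζ₁ o η s) + U η (pp ζ₂ o η s) := by
    funext η s
    rw [← map_add]
    congr 1
    simp only [pp, hsum, add_smul]
  have hfun : ζ = fun y => ζ₁ y + ζ₂ y := funext hsum
  have e2 : (fun (η : Cfg r) (s : Cfg ds) => U η (S.DF φ ψ N μ β (pp ζ o) η s)) =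
      fun η s => U η (S.DF φ ψ N μ β (pp ζ₁ o) η s) + U η (S.DF φ ψ N μ β (pp ζ₂ o) η s) := by
    funext η s
    rw [← map_add]
    congr 1
    rw [LocZ518.DF_pp S φ ψ N μ β hζ, LocZ518.DF_pp S φ ψ N μ β s₁, LocZ518.DF_pp S φ ψ N μ β s₂]
    have e3 : ∀ e, fderiv ℝ ζ η e = fderiv ℝ ζ₁ η e + fderiv ℝ ζ₂ η e := by
      intro e
      rw [hfun, fderiv_fun_add (s₁.differentiable (by simp) η) (s₂.differentiable (by simp) η)]
      rfl
    simp only [e3, hsum, mul_add, add_smul, Finset.sum_add_distrib, smul_add]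
    abel
  rw [e1, e2]
  have hk := k₁.add k₂
  rw [add_zero] at hk
  refine hk.congr fun n => ?_
  have hQ := (qInv S N (μ / R n ^ 2) β (u n) (hu.gi n)).tst
  rw [gl7_add S φ ψ Om (χ n) (R n) _ _ _ (hi ζ₁ s₁ c₁ v₁ n _ hQ).1 (hi ζ₂ s₂ c₂ v₂ n _ hQ).1,
    gl7_add S φ ψ Om (χ n) (R n) _ _ _ (hi ζ₁ s₁ c₁ v₁ n _ (hu.gi n).tst).2 (hi ζ₂ s₂ c₂ v₂ n _ (hu.gi n).tst).2]
  ring

/-- **EG-GLim** global limit equation -/
theorem gLim (S : Setup d F) (φ : Spl dh dm d) (ψ : Spl r ds dh) (hL : ∀ S' : Setup d F, LocZStmt S' φ ψ)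
    (hI : ZIntStmt S φ ψ) : GLimStmt S φ ψ := by
  intro hF hφ hc N hN L Om K U hBun ζ hζ hζc hdis
  have main : ∃ W : Set (Cfg r), IsOpen W ∧ tsupport ζ ⊆ W ∧ W ⊆ (Coll L)ᶜ ∧ ∃ δ : ℝ, 0 < δ ∧
      gl7_P S φ ψ hφ hc N Om K U W δ := by
    have hmono : ∀ (W : Set (Cfg r)) (δ δ' : ℝ), δ' ≤ δ → gl7_P S φ ψ hφ hc N Om K U W δ →
        gl7_P S φ ψ hφ hc N Om K U W δ' := by
      intro W δ δ' hδ h ζ' h1 h2 h3 μ hμ o ho R u C hu χ hχ β
      exact h ζ' h1 h2 h3 μ hμ o ho R u C hu χ (gl7_cut hδ hu.one hχ) β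
    refine hζc.isCompact.induction_on (p := fun s => ∃ W : Set (Cfg r), IsOpen W ∧ s ⊆ W ∧ W ⊆ (Coll L)ᶜ ∧
      ∃ δ : ℝ, 0 < δ ∧ gl7_P S φ ψ hφ hc N Om K U W δ) ?_ ?_ ?_ ?_
    · refine ⟨∅, isOpen_empty, subset_rfl, Set.empty_subset _, 1, one_pos, ?_⟩
      intro ζ' h1 h2 h3 μ hμ o ho R u C hu χ hχ β
      have h0 : ∀ y, y ∉ tsupport ζ' := fun y hy => h3 hy
      have e1 : ∀ n (v : Cfg d → F), ZL S φ ψ Om (χ n) (R n) (fun η s => U η (pp ζ' o η s)) v = 0 := by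
        intro n v
        have : ∀ η, ζ' η = 0 := fun η => image_eq_zero_of_notMem_tsupport (h0 η)
        simp [ZL, AN.Zb, AN.bG, pp, this]
      have e2 : ∀ n (v : Cfg d → F),
          ZL S φ ψ Om (χ n) (R n) (fun η s => U η (S.DF φ ψ N μ β (pp ζ' o) η s)) v = 0 := by
        intro n v
        have : ∀ η s, S.DF φ ψ N μ β (pp ζ' o) η s = 0 := fun η s => LocZ518.DF_zero S φ ψ N μ β h1 o (h0 η) s
        simp [ZL, AN.Zb, AN.bG, this]
      simp [e1, e2]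
    · rintro s t hst ⟨W, h1, h2, h3⟩
      exact ⟨W, h1, hst.trans h2, h3⟩
    · rintro s t ⟨W₁, o₁, i₁, d₁, δ₁, p₁, q₁⟩ ⟨W₂, o₂, i₂, d₂, δ₂, p₂, q₂⟩
      refine ⟨W₁ ∪ W₂, o₁.union o₂, Set.union_subset_union i₁ i₂, Set.union_subset d₁ d₂, min δ₁ δ₂, lt_min p₁ p₂, ?_⟩
      exact gl7_union S φ ψ hI hF hφ hc N L Om K U hBun o₁ o₂ d₁ d₂ (hmono _ _ _ (min_le_left _ _) q₁)
        (hmono _ _ _ (min_le_right _ _) q₂)
    · intro z hz
      have hzc : z ∉ Coll L := Set.disjoint_left.1 hdis hz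
      obtain ⟨δ, hδ, hP⟩ := gl7_loc S φ ψ hL hF hφ hc N hN L Om K U hBun z hzc
      refine ⟨Metric.ball z δ ∩ (Coll L)ᶜ, mem_nhdsWithin_of_mem_nhds ?_, Metric.ball z δ ∩ (Coll L)ᶜ, ?_, subset_rfl,
        Set.inter_subset_right, δ, hδ, ?_⟩
      · exact Filter.inter_mem (Metric.ball_mem_nhds z hδ) (hBun.closed.isOpen_compl.mem_nhds hzc)
      · exact Metric.isOpen_ball.inter hBun.closed.isOpen_compl
      · intro ζ' h1 h2 h3
        exact hP ζ' h1 h2 (h3.trans Set.inter_subset_left)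
  obtain ⟨W, hW, hζW, hWd, δ, hδ, hP⟩ := main
  exact ⟨δ, hδ, fun μ hμ o ho R u C hu χ hχ β => hP ζ hζ hζc hζW μ hμ o ho R u C hu χ hχ β⟩

end Vale.Agent.P353.Z.AE
end

section

/-! # P353, all `N`, block E, E-Loc: limit equation on the slice (helper962) -/

open MeasureTheory Filter Topology Matrix
open scoped ContDiff

namespace Vale.Agent.P353.Z.AE

set_option linter.unusedSectionVars false

variable {d dh dm r ds : ℕ} {F : Type*} [NormedAddCommGroup F] [InnerProductSpace ℂ F]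

/-! ### monotonicity of the bounds -/

theorem loc962_bz {S : Setup d F} {φ : Spl dh dm d} {ψ : Spl r ds dh} {U : Set (Cfg r)}
    {Om : Cfg r → Matrix (Fin dm) (Fin dm) ℝ} {y₀ : Cfg r} {ε ε' C C' : ℝ}
    (h : BzFacts S φ ψ U Om y₀ ε C) (he : ε' ≤ ε) (hC : C ≤ C') (hC0 : 0 < C) :
    BzFacts S φ ψ U Om y₀ ε' C' := by
  have key : ∀ R : ℝ, 0 < R → ∀ y : Cfg r, ‖y - R • y₀‖ ≤ ε' * R → ‖y - R • y₀‖ ≤ ε * R :=
    fun R hR y hy => hy.trans (mul_le_mul_of_nonneg_right he hR.le)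
  have hC' : 0 < C' := hC0.trans_le hC
  have pos : ∀ R : ℝ, 0 < R → ∀ y : Cfg r, ‖y - R • y₀‖ ≤ ε' * R → ∀ w, 0 ≤ S.bz φ ψ Om y w :=
    fun R hR y hy w => (h.pos y (h.inU R hR y (key R hR y hy)) w).le
  refine ⟨fun R hR y hy => h.inU R hR y (key R hR y hy), h.sm, h.pos, h.ev, h.int, h.norm, ?_, ?_, ?_, ?_, ?_,
    h.orth⟩
  · intro R hR y hy w
    refine (h.up R hR y (key R hR y hy) w).trans ?_
    have h1 : Real.exp (-(R * ‖w‖ ^ 2 / C)) ≤ Real.exp (-(R * ‖w‖ ^ 2 / C')) := by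
      apply Real.exp_le_exp.2
      apply neg_le_neg
      exact div_le_div_of_nonneg_left (by positivity) hC0 hC
    have h2 : C * Real.sqrt R ^ (4 * dm) ≤ C' * Real.sqrt R ^ (4 * dm) :=
      mul_le_mul_of_nonneg_right hC (by positivity)
    exact mul_le_mul h2 h1 (Real.exp_nonneg _) (by positivity)
  · intro R hR y hy w j B
    refine (h.dw R hR y (key R hR y hy) w j B).trans ?_
    refine mul_le_mul_of_nonneg_right ?_ (pos R hR y hy w)
    refine mul_le_mul_of_nonneg_right ?_ (norm_nonneg _)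
    exact mul_le_mul_of_nonneg_right hC hR.le
  · intro R hR y hy w i A
    refine (h.dy R hR y (key R hR y hy) w i A).trans ?_
    refine mul_le_mul_of_nonneg_right ?_ (pos R hR y hy w)
    exact mul_le_mul_of_nonneg_right hC (by positivity)
  · intro R hR y hy k hk
    refine (h.mom R hR y (key R hR y hy) k hk).trans ?_
    exact mul_le_mul_of_nonneg_right hC (by positivity)
  · intro δ hδ
    obtain ⟨C1, h1⟩ := h.tail δ hδ
    exact ⟨C1, fun R hR y hy k hk => h1 R hR y (key R (by linarith) y hy) k hk⟩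

theorem loc962_co {S : Setup d F} {φ : Spl dh dm d} {Y : Cfg dh} {e C C' : ℝ} (h : S.CoefBd φ Y e C)
    (hC : C ≤ C') : S.CoefBd φ Y e C' := by
  refine ⟨h.det, fun R hR y hy i B E => ?_, fun R hR y hy B E => ?_, fun R hR y hy j B E i A => ?_,
    fun R hR y hy w hw v β => ?_⟩
  · exact (h.dy R hR y hy i B E).trans (mul_le_mul_of_nonneg_right hC hR.le)
  · exact (h.inv R hR y hy B E).trans (div_le_div_of_nonneg_right hC hR.le)
  · exact (h.dcf R hR y hy j B E i A).trans (div_le_div_of_nonneg_right hC hR.le)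
  · refine (h.rem R hR y hy w hw v β).trans (mul_le_mul_of_nonneg_right hC ?_)
    have h1 : 0 ≤ (∑ i, ∑ A, ‖py i A v y w‖) + ∑ j, ∑ B, ‖pw j B v y w‖ :=
      add_nonneg (Finset.sum_nonneg fun _ _ => Finset.sum_nonneg fun _ _ => norm_nonneg _)
        (Finset.sum_nonneg fun _ _ => Finset.sum_nonneg fun _ _ => norm_nonneg _)
    have h2 : 0 ≤ ‖w‖ / R := by positivity
    have h3 : 0 ≤ (1 / R + ‖w‖ ^ 2) * ‖v y w‖ := by positivity
    have h4 := mul_nonneg h2 h1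
    linarith

/-! ### the internal supercharge preserves the internal functions -/

theorem loc962_K {S : Setup d F} {φ : Spl dh dm d} {ψ : Spl r ds dh} {U : Set (Cfg r)}
    {Om : Cfg r → Matrix (Fin dm) (Fin dm) ℝ} {V : Cfg r → F →L[ℂ] F} {K : Submodule ℂ F}
    (hV : S.VFr φ ψ U Om V K) {y₀ : Cfg r} (hy : y₀ ∈ U) (α : Fin 16) (A : Fin dh) (v : F) (hv : v ∈ K) :
    S.th α (φ (Sum.inl A)) v ∈ K := by
  have h1 := (hV.v_m y₀ hy v).1 hv
  have h2 := (f0S S φ (S.Dz φ ψ y₀) (Om y₀)).1 α A (V y₀ v) h1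
  rw [← hV.v_th y₀ hy] at h2
  exact (hV.v_m y₀ hy _).2 h2

theorem loc962_vec {S : Setup d F} {φ : Spl dh dm d} {ψ : Spl r ds dh} (hφ : S.IsSub φ) (hc : S.IsCen φ ψ)
    {K : Submodule ℂ F} (hK : ∀ (α : Fin 16) (A : Fin dh) (v : F), v ∈ K → S.th α (φ (Sum.inl A)) v ∈ K)
    (X : Matrix (Fin 16) (Fin 16) ℂ) (A : Fin ds) (β : Fin 16) (v : F) (hv : v ∈ K) :
    (S.int φ ψ hφ hc).vec X A β v ∈ K := by
  unfold CS.vec
  simp only [_root_.sum_apply, _root_.smul_apply]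
  refine Submodule.sum_mem _ fun γ _ => Submodule.smul_mem _ _ ?_
  exact hK γ (ψ (Sum.inr A)) v hv

theorem loc962_pd [FiniteDimensional ℂ F] {n : ℕ} {K : Submodule ℂ F} {Φ : Cfg n → F}
    (hΦ : ContDiff ℝ ∞ Φ) (hK : ∀ s, Φ s ∈ K) (i : Fin 9) (A : Fin n) (s : Cfg n) :
    pd i A Φ s ∈ K := by
  have h1 : Φ = fun s => K.starProjection (Φ s) := by
    funext s
    exact (Submodule.starProjection_eq_self_iff.2 (hK s)).symm
  have hd : DifferentiableAt ℝ Φ s := hΦ.contDiffAt.differentiableAt (by simp)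
  have h2 : HasFDerivAt (fun s => K.starProjection (Φ s))
      (((K.starProjection).restrictScalars ℝ).comp (fderiv ℝ Φ s)) s :=
    ((K.starProjection).restrictScalars ℝ).hasFDerivAt.comp s hd.hasFDerivAt
  have h3 : pd i A Φ s = K.starProjection (fderiv ℝ Φ s (EuclideanSpace.single (i, A) 1)) := by
    have h4 : fderiv ℝ Φ s = (((K.starProjection).restrictScalars ℝ).comp (fderiv ℝ Φ s)) := by
      conv_lhs => rw [h1]
      exact h2.fderiv
    change fderiv ℝ Φ s (EuclideanSpace.single (i, A) 1) = _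
    conv_lhs => rw [h4]
    rfl
  rw [h3]
  exact Submodule.starProjection_apply_mem _ _

theorem loc962_sup {n : ℕ} {Φ : Cfg n → F} {a : ℝ} (hs : ∀ s, Φ s ≠ 0 → ‖s‖ ≤ a) (s : Cfg n)
    (h : ¬ ‖s‖ ≤ a) : Φ s = 0 ∧ ∀ i A, pd i A Φ s = 0 := by
  have h1 : Φ =ᶠ[𝓝 s] fun _ => 0 := by
    have ho : {z : Cfg n | a < ‖z‖} ∈ 𝓝 s :=
      (isOpen_lt continuous_const continuous_norm).mem_nhds (not_le.1 h)
    filter_upwards [ho] with z hz
    by_contra hne
    exact absurd (hs z hne) (not_le.2 hz)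
  refine ⟨h1.self_of_nhds, fun i A => ?_⟩
  change fderiv ℝ Φ s (EuclideanSpace.single (i, A) 1) = 0
  rw [h1.fderiv_eq]
  simp

theorem loc962_int {S : Setup d F} {φ : Spl dh dm d} {ψ : Spl r ds dh} [FiniteDimensional ℂ F]
    (hφ : S.IsSub φ) (hc : S.IsCen φ ψ) {U : Set (Cfg r)}
    {Om : Cfg r → Matrix (Fin dm) (Fin dm) ℝ} {V : Cfg r → F →L[ℂ] F} {K : Submodule ℂ F}
    (hV : S.VFr φ ψ U Om V K) {y₀ : Cfg r} (hy : y₀ ∈ U) {η R : ℝ} {Φ : Cfg ds → F} (h : IntF K η R Φ)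
    (β : Fin 16) : IntF K η R ((S.int φ ψ hφ hc).Q β Φ) := by
  have hK := fun (α : Fin 16) (A : Fin dh) (v : F) (hv : v ∈ K) => loc962_K hV hy α A v hv
  refine ⟨Setup.Tst.Q (S.int φ ψ hφ hc) h.tst β, fun s => ?_, fun s hs => ?_⟩
  · unfold Setup.Q Setup.W
    simp only [_root_.sum_apply, _root_.smul_apply]
    refine Submodule.add_mem _ (Submodule.smul_mem _ _ ?_) (Submodule.smul_mem _ _ ?_)
    · exact Submodule.sum_mem _ fun i _ => Submodule.sum_mem _ fun A _ =>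
        loc962_vec hφ hc hK _ _ _ _ (loc962_pd h.tst.1 h.val i A s)
    · exact Submodule.sum_mem _ fun A _ => Submodule.sum_mem _ fun i _ => Submodule.sum_mem _ fun j _ =>
        Submodule.smul_mem _ _ (loc962_vec hφ hc hK _ _ _ _ (h.val s))
  · by_contra hn
    obtain ⟨h0, h1⟩ := loc962_sup h.sup s hn
    apply hs
    unfold Setup.Q
    simp [h0, h1]

/-! ### symmetry of the full operator -/

/-- the mass term -/
noncomputable def loc962_MT (S : Setup d F) (φ : Spl dh dm d) (N : Fin 9 → Matrix (Fin 16) (Fin 16) ℂ) (m : ℝ)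
    (β : Fin 16) (v : Cfg dh → Wsp dm → F) (y : Cfg dh) (w : Wsp dm) : F :=
  ((m : ℝ) : ℂ) • (S.Mh φ N β y (v y w) + S.Mw φ N β w (v y w))

theorem loc962_MT_sm (S : Setup d F) (φ : Spl dh dm d) (N : Fin 9 → Matrix (Fin 16) (Fin 16) ℂ)
    (hN : ∀ i α β, (N i α β).im = 0) (m : ℝ) (β : Fin 16) (hA : AN.CalcA dh dm F) (hB : AN.CalcB dh dm F) :
    AN.Op687.Sm (loc962_MT S φ N m β) := by
  have h : loc962_MT S φ N m β = fun (v : Cfg dh → Wsp dm → F) y w =>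
      (∑ i, ∑ A, ((m * y (i, A) : ℝ) : ℂ) • S.vec (N i) (φ (Sum.inl A)) β (v y w)) +
      ∑ i, ∑ B, ((m * wt w i B : ℝ) : ℂ) • S.vec (N i) (φ (Sum.inr B)) β (v y w) := by
    funext v y w
    unfold loc962_MT Setup.Mh Setup.Mw
    simp only [smul_add, Finset.smul_sum, _root_.sum_apply, _root_.smul_apply, smul_smul, Complex.ofReal_mul]
  rw [h]
  refine AN.Op687.sm_add hA hB ?_ ?_
  · exact AN.Op687.sm_sum hA hB _ _ fun i => AN.Op687.sm_sum hA hB _ _ fun A =>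
      AN.Op687.sm_mul hA (fun y _ => m * y (i, A)) (contDiff_const.mul (AN.Sy.contDiff_y _)) _
        (S.vec_symm _ (hN i) _ _)
  · exact AN.Op687.sm_sum hA hB _ _ fun i => AN.Op687.sm_sum hA hB _ _ fun B =>
      AN.Op687.sm_mul hA (fun _ w => m * wt w i B) (contDiff_const.mul (AN.Sy.contDiff_wt i B)) _
        (S.vec_symm _ (hN i) _ _)

theorem loc962_QS (S : Setup d F) (φ : Spl dh dm d) (N : Fin 9 → Matrix (Fin 16) (Fin 16) ℂ) (m : ℝ)
    (β : Fin 16) (v : Cfg dh → Wsp dm → F) (y : Cfg dh) (w : Wsp dm) :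
    S.QS φ N m β v y w = AN.Qs S φ β v y w + loc962_MT S φ N m β v y w := by
  unfold Setup.QS Setup.Qhm AN.Qs loc962_MT
  rw [smul_add]
  abel

theorem loc962_Qh (S : Setup d F) (φ : Spl dh dm d) (N : Fin 9 → Matrix (Fin 16) (Fin 16) ℂ)
    (β : Fin 16) (v : Cfg dh → Wsp dm → F) : S.Qhm φ N 0 β v = S.Qh φ β v := by
  funext y w
  unfold Setup.Qhm
  simp

theorem loc962_ts {S : Setup d F} {φ : Spl dh dm d} {Y : Cfg dh} {ε C R : ℝ} (hb : S.CoefBd φ Y ε C)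
    (hR : 0 < R) {v : Cfg dh → Wsp dm → F} (hv : Tst2 v) (hs : Sup2 Y ε R v) : AN.Ts S φ v := by
  refine ⟨hv.1, hv.2, ?_⟩
  have hcl : IsClosed {p : Cfg dh × Wsp dm | ‖p.1 - R • Y‖ ≤ ε * R} :=
    isClosed_le (by fun_prop) continuous_const
  intro p hp
  have h1 : p ∈ {p : Cfg dh × Wsp dm | ‖p.1 - R • Y‖ ≤ ε * R} := by
    refine closure_minimal ?_ hcl hp
    intro q hq
    exact (hs q.1 q.2 hq).1
  exact hb.det R hR p.1 h1

theorem loc962_symm {S : Setup d F} {φ : Spl dh dm d} (hφ : S.IsSub φ) (hSy : AN.SymStmt S)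
    (hA : AN.CalcA dh dm F) (hB : AN.CalcB dh dm F) {N : Fin 9 → Matrix (Fin 16) (Fin 16) ℂ}
    (hN : ∀ i α β, (N i α β).im = 0) {Y : Cfg dh} {ε C R : ℝ} (hb : S.CoefBd φ Y ε C)
    (hop : AN.OpFacts S φ N Y ε) (hR : 0 < R) (m : ℝ) (β : Fin 16) {u v : Cfg dh → Wsp dm → F}
    (hu : Tst2 u) (hus : Sup2 Y ε R u) (hv : Tst2 v) (hvs : Sup2 Y ε R v) :
    ip2 u (S.QS φ N m β v) = ip2 (S.QS φ N m β u) v := by
  have hm := loc962_MT_sm S φ N hN m β hA hB
  have hq : ∀ v : Cfg dh → Wsp dm → F, Tst2 v → Sup2 Y ε R v → Tst2 (AN.Qs S φ β v) := by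
    intro v hv hvs
    have h1 := hop.th v hv 0 β
    rw [loc962_Qh] at h1
    exact hA.add _ _ (hA.add _ _ h1 (hop.t1 R hR v hv hvs β)) (hop.tr R hR v hv hvs β)
  have e : ∀ v : Cfg dh → Wsp dm → F, S.QS φ N m β v = fun y w => AN.Qs S φ β v y w + loc962_MT S φ N m β v y w := by
    intro v
    funext y w
    exact loc962_QS S φ N m β v y w
  have h2 : ip2 (AN.Qs S φ β u) v = ip2 u (AN.Qs S φ β v) :=
    hSy dh dm φ hφ u v (loc962_ts hb hR hu hus) (hv.1.contDiffOn) β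
  rw [e, e, hB.ip_add u _ _ hu (hq v hv hvs) (hm.1 v hv),
    AN.Op687.ip_add_left hB _ _ v (hq u hu hus) (hm.1 u hu) hv, h2, hm.2 u v hu hv]

/-! ### the errors -/

/-- all errors of a decomposition are negligible -/
theorem loc962_err [FiniteDimensional ℂ F] {S : Setup d F} {φ : Spl dh dm d} {ψ : Spl r ds dh}
    {Om : Cfg r → Matrix (Fin dm) (Fin dm) ℝ} {y₀ : Cfg r} {ε C CΦ : ℝ} (hA : AN.CalcA dh dm F)
    (hB : AN.CalcB dh dm F)
    {R η : ℕ → ℝ} {Φ : ℕ → Cfg ds → F} {v T M : ℕ → Cfg dh → Wsp dm → F} (hC : 0 ≤ C)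
    (hR : Tendsto R atTop atTop) (hR1 : ∀ n, 1 ≤ R n) (hη0 : Tendsto η atTop (𝓝 0))
    (hΦ : ∀ n, nsq (Φ n) ≤ CΦ) (hd : Tendsto (fun n => (∑ i, ∑ A, nsq (pd i A (Φ n))) / R n) atTop (𝓝 0))
    (hv : ∀ n, Tst2 (v n))
    (hneg : ∀ (E : ℕ → Cfg dh → Wsp dm → F) (C' : ℝ), (∀ n, Tst2 (E n)) →
      (∀ n, Sup2 (cmb ψ y₀ 0) ε (R n) (E n)) →
      (Tendsto (fun n => R n ^ 2 * ns2 (E n)) atTop (𝓝 0) ∨
      ((∀ n, R n ^ 2 * ns2 (E n) ≤ C') ∧ (∀ n x w, E n x w ≠ 0 → ‖spt ψ x‖ ≤ η n * R n) ∧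
        Tendsto (fun n => R n ^ 2 * ∫ x, ‖vc S φ ψ Om (E n) x‖ ^ 2) atTop (𝓝 0)) ∨
      ((∀ n x w, E n x (-w) = -E n x w) ∧ Tendsto (fun n => ns2 (E n) / R n) atTop (𝓝 0))) →
      Tendsto (fun n => (R n : ℂ) * ip2 (E n) (v n)) atTop (𝓝 0))
    (hT : ∀ n, Tst2 (T n))
    (hdec : ∀ n, DecE S φ ψ Om y₀ ε (T n) (M n) C (η n) (R n) (Φ n)) :
    (∀ n, Tst2 (M n)) ∧
      Tendsto (fun n => (R n : ℂ) * (ip2 (T n) (v n) - ip2 (M n) (v n))) atTop (𝓝 0) := by
  choose X1 X2 X3 t1 t2 t3 s1 s2 s3 he b1 b2 p2 c2 o3 b3 using hdec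
  have hnn : ∀ n, 0 ≤ nsq (Φ n) := fun n => integral_nonneg fun x => by positivity
  have hnp : ∀ n, 0 ≤ ∑ i, ∑ A, nsq (pd i A (Φ n)) := fun n =>
    Finset.sum_nonneg fun i _ => Finset.sum_nonneg fun A _ => integral_nonneg fun x => by positivity
  have hn1 : ∀ n, nsq (Φ n) ≤ CΦ := hΦ
  have hRp : ∀ n, 0 < R n := fun n => lt_of_lt_of_le one_pos (hR1 n)
  have hRi : Tendsto (fun n => 1 / R n) atTop (𝓝 0) := by
    simp only [one_div]
    exact hR.inv_tendsto_atTop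
  have hη2 : Tendsto (fun n => η n ^ 2) atTop (𝓝 0) := by
    simpa using hη0.pow 2
  -- the main term is a test function
  have hM : ∀ n, M n = fun y w => ((T n y w - X1 n y w) - X2 n y w) - X3 n y w := by
    intro n
    funext y w
    rw [he n y w]
    abel
  have tM : ∀ n, Tst2 (M n) := by
    intro n
    rw [hM n]
    exact hA.sub _ _ (hA.sub _ _ (hA.sub _ _ (hT n) (t1 n)) (t2 n)) (t3 n)
  refine ⟨tM, ?_⟩
  have e : ∀ n, (R n : ℂ) * (ip2 (T n) (v n) - ip2 (M n) (v n)) =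
      (R n : ℂ) * ip2 (X1 n) (v n) + (R n : ℂ) * ip2 (X2 n) (v n) + (R n : ℂ) * ip2 (X3 n) (v n) := by
    intro n
    have h1 : T n = fun y w => ((M n y w + X1 n y w) + X2 n y w) + X3 n y w := by
      funext y w
      exact he n y w
    rw [h1, AN.Op687.ip_add_left hB (fun y w => (M n y w + X1 n y w) + X2 n y w) _ _
        (hA.add _ _ (hA.add _ _ (tM n) (t1 n)) (t2 n)) (t3 n) (hv n),
      AN.Op687.ip_add_left hB (fun y w => M n y w + X1 n y w) _ _ (hA.add _ _ (tM n) (t1 n)) (t2 n) (hv n),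
      AN.Op687.ip_add_left hB _ _ _ (tM n) (t1 n) (hv n)]
    ring
  simp only [e]
  have z1 : Tendsto (fun n => (R n : ℂ) * ip2 (X1 n) (v n)) atTop (𝓝 0) := by
    refine hneg X1 0 t1 s1 (Or.inl ?_)
    refine squeeze_zero (fun n => mul_nonneg (sq_nonneg _) (hB.nonneg _)) (fun n => b1 n) ?_
    have h1 : Tendsto (fun n => C * ((η n ^ 2 + 1 / R n) * CΦ + (∑ i, ∑ A, nsq (pd i A (Φ n))) / R n)) atTop
        (𝓝 0) := by
      have := (((hη2.add hRi).mul_const CΦ).add hd).const_mul C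
      simpa using this
    refine squeeze_zero (fun n => ?_) (fun n => ?_) h1
    · have := hRp n
      have := hnn n
      have := hnp n
      positivity
    · have h2 : 0 ≤ η n ^ 2 + 1 / R n := by
        have := hRp n
        positivity
      refine mul_le_mul_of_nonneg_left (add_le_add (mul_le_mul_of_nonneg_left (hΦ n) h2) (le_of_eq ?_)) hC
      ring
  have z2 : Tendsto (fun n => (R n : ℂ) * ip2 (X2 n) (v n)) atTop (𝓝 0) := by
    refine hneg X2 (C * CΦ) t2 s2 (Or.inr (Or.inl ⟨fun n => ?_, p2, ?_⟩))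
    · exact (b2 n).trans (mul_le_mul_of_nonneg_left (hn1 n) hC)
    · refine squeeze_zero (fun n => mul_nonneg (sq_nonneg _) (integral_nonneg fun x => by positivity))
        (fun n => c2 n) ?_
      have h1 : Tendsto (fun n => C * (1 / R n) * CΦ) atTop (𝓝 0) := by
        have := (hRi.const_mul C).mul_const CΦ
        simpa using this
      refine squeeze_zero (fun n => ?_) (fun n => ?_) h1
      · have := hRp n
        have := hnn n
        positivity
      · have h2 : 0 ≤ C * (1 / R n) := by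
          have := hRp n
          positivity
        have h3 : C / R n = C * (1 / R n) := by ring
        rw [h3]
        exact mul_le_mul_of_nonneg_left (hn1 n) h2
  have z3 : Tendsto (fun n => (R n : ℂ) * ip2 (X3 n) (v n)) atTop (𝓝 0) := by
    refine hneg X3 0 t3 s3 (Or.inr (Or.inr ⟨o3, ?_⟩))
    have h1 : Tendsto (fun n => C * η n ^ 2 * CΦ) atTop (𝓝 0) := by
      have := (hη2.const_mul C).mul_const CΦ
      simpa using this
    refine squeeze_zero (fun n => div_nonneg (hB.nonneg _) (hRp n).le) (fun n => ?_) h1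
    rw [div_le_iff₀ (hRp n)]
    refine (b3 n).trans ?_
    have h2 : 0 ≤ C * η n ^ 2 * R n := by
      have := hRp n
      positivity
    calc C * η n ^ 2 * R n * nsq (Φ n) ≤ C * η n ^ 2 * R n * CΦ := mul_le_mul_of_nonneg_left (hn1 n) h2
      _ = C * η n ^ 2 * CΦ * R n := by ring
  have z := (z1.add z2).add z3
  simpa using z

/-- the main terms -/
theorem loc962_alg (hA : AN.CalcA dh dm F) (hB : AN.CalcB dh dm F) {R : ℝ} (hR : R ≠ 0)
    {A0 A1 P v : Cfg dh → Wsp dm → F} (tP : Tst2 P) (tv : Tst2 v)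
    (mH : Tst2 (fun x w => ((R⁻¹ : ℝ) : ℂ) • A0 x w + P x w))
    (mM : Tst2 (fun x w => ((R⁻¹ : ℝ) : ℂ) • (A1 x w - A0 x w))) :
    (R : ℂ) * (ip2 (fun x w => ((R⁻¹ : ℝ) : ℂ) • A0 x w + P x w) v +
      ip2 (fun x w => ((R⁻¹ : ℝ) : ℂ) • (A1 x w - A0 x w)) v) = ip2 A1 v + (R : ℂ) * ip2 P v := by
  have t0 : Tst2 (fun x w => ((R⁻¹ : ℝ) : ℂ) • A0 x w) := by
    have := hA.sub _ _ mH tP
    simpa using this
  have e1 : ip2 (fun x w => ((R⁻¹ : ℝ) : ℂ) • A0 x w + P x w) v = ip2 (fun x w => ((R⁻¹ : ℝ) : ℂ) • A0 x w) v +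
      ip2 P v := AN.Op687.ip_add_left hB _ _ _ t0 tP tv
  have e2 : ip2 (fun x w => ((R⁻¹ : ℝ) : ℂ) • A1 x w) v =
      ip2 (fun x w => ((R⁻¹ : ℝ) : ℂ) • (A1 x w - A0 x w)) v + ip2 (fun x w => ((R⁻¹ : ℝ) : ℂ) • A0 x w) v := by
    rw [← AN.Op687.ip_add_left hB _ _ _ mM t0 tv]
    congr 1
    funext x w
    rw [smul_sub]
    abel
  have e3 : ip2 (fun x w => ((R⁻¹ : ℝ) : ℂ) • A1 x w) v = ((R⁻¹ : ℝ) : ℂ) * ip2 A1 v := by
    rw [AN.Op687.ip_smul_left, Complex.conj_ofReal]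
  have e4 : (R : ℂ) * ((R⁻¹ : ℝ) : ℂ) = 1 := by
    rw [← Complex.ofReal_mul, mul_inv_cancel₀ hR, Complex.ofReal_one]
  rw [e1]
  calc (R : ℂ) * (ip2 (fun x w => ((R⁻¹ : ℝ) : ℂ) • A0 x w) v + ip2 P v +
        ip2 (fun x w => ((R⁻¹ : ℝ) : ℂ) • (A1 x w - A0 x w)) v) =
        (R : ℂ) * (ip2 (fun x w => ((R⁻¹ : ℝ) : ℂ) • (A1 x w - A0 x w)) v +
          ip2 (fun x w => ((R⁻¹ : ℝ) : ℂ) • A0 x w) v) + (R : ℂ) * ip2 P v := by ring
    _ = ((R : ℂ) * ((R⁻¹ : ℝ) : ℂ)) * ip2 A1 v + (R : ℂ) * ip2 P v := by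
        rw [← e2, e3]
        ring
    _ = ip2 A1 v + (R : ℂ) * ip2 P v := by rw [e4, one_mul]

/-- **E-Loc** -/
theorem loc (S : Setup d F) (φ : Spl dh dm d) (ψ : Spl r ds dh) : AN.CalcA dh dm F → AN.CalcB dh dm F →
    AN.OpStmt S φ → AN.SymStmt S → NegStmt S φ ψ → TRStmt S φ ψ → DecHStmt S φ ψ → Dec1Stmt S φ ψ →
    DecRStmt S φ ψ → DecMStmt S φ ψ → BzStmt S φ ψ → AN.CoefStmt S φ → AN.OutStmt S φ → LocStmt S φ ψ := by
  intro hA hB hOp hSy hNg hTR hH h1 hRr hM hBz hCo hOut hF hφ hc N hN U Om V K hV y₀ hy hSt c hct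
  obtain ⟨εB, CB, hεB, hCB, hBf⟩ := hBz hφ hc U Om V K hV y₀ hy
  obtain ⟨εC, CC, hεC, hCC, hCf⟩ := hCo (cmb ψ y₀ 0) hSt
  obtain ⟨εN, hεN, hNf⟩ := hNg hF hφ hc U Om V K hV y₀ hy hSt
  obtain ⟨Om', εO, R0, CO, -, -, hεO, hR0, hCO, hOf⟩ := hOut hF N hN (cmb ψ y₀ 0) hSt
  obtain ⟨ε0, hε0, leB, leC, leN, leO⟩ : ∃ ε0 : ℝ, 0 < ε0 ∧ ε0 ≤ εB ∧ ε0 ≤ εC ∧ ε0 ≤ εN ∧ ε0 ≤ εO :=
    ⟨min (min εB εC) (min εN εO), lt_min (lt_min hεB hεC) (lt_min hεN hεO),
      (min_le_left _ _).trans (min_le_left _ _), (min_le_left _ _).trans (min_le_right _ _),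
      (min_le_right _ _).trans (min_le_left _ _), (min_le_right _ _).trans (min_le_right _ _)⟩
  obtain ⟨C0, hC0, lCB, lCC⟩ : ∃ C0 : ℝ, 0 < C0 ∧ CB ≤ C0 ∧ CC ≤ C0 :=
    ⟨max CB CC, lt_max_of_lt_left hCB, le_max_left _ _, le_max_right _ _⟩
  have hBf' : BzFacts S φ ψ U Om y₀ ε0 C0 := loc962_bz hBf leB lCB hCB
  have hCf' : S.CoefBd φ (cmb ψ y₀ 0) ε0 C0 := loc962_co (AN.co359_mono hCf leC) lCC
  have hop := hOp N hN.real (cmb ψ y₀ 0) ε0 C0 hε0 hCf'
  refine ⟨ε0, hε0, ?_⟩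
  intro ε hε hεle ζ hζ hζs μ hμ
  obtain ⟨CH, hCH, dH⟩ := hH hF hφ hc U Om V K hV y₀ ε0 C0 hy hε0 hC0 hBf' hCf' c hct ε hε hεle ζ hζ hζs
  obtain ⟨C1, hC1, d1⟩ := h1 hF hφ hc U Om V K hV y₀ ε0 C0 hy hε0 hC0 hBf' hCf' c hct ε hε hεle ζ hζ hζs
  obtain ⟨CR, hCR, dR⟩ := hRr hF hφ hc U Om V K hV y₀ ε0 C0 hy hε0 hC0 hBf' hCf' c hct ε hε hεle ζ hζ hζs
  obtain ⟨CM, hCM, dM⟩ := hM N μ hμ hF hφ hc U Om V K hV y₀ ε0 C0 hy hε0 hC0 hBf' hCf' c hct ε hε hεle ζ hζ hζs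
  have key : ∀ (R η : ℕ → ℝ) (Φ : ℕ → Cfg ds → F) (v : ℕ → Cfg dh → Wsp dm → F) (C : ℝ),
      Tendsto R atTop atTop → (∀ n, 1 ≤ R n) → (∀ n, 0 < η n ∧ η n ≤ ε / 2) → Tendsto η atTop (𝓝 0) →
      (∀ n, IntF K (η n) (R n) (Φ n)) → (∀ n, nsq (Φ n) ≤ C) →
      Tendsto (fun n => (∑ i, ∑ A, nsq (pd i A (Φ n))) / R n) atTop (𝓝 0) →
      Tendsto (fun n => R n ^ 2 * ∑ β, nsq ((S.int φ ψ hφ hc).Q β (Φ n))) atTop (𝓝 0) →
      (∀ n, Tst2 (v n)) → (∀ n, Sup2 (cmb ψ y₀ 0) ε (R n) (v n)) → (∀ n, ns2 (v n) ≤ C) →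
      (∀ n, R n ^ 2 * S.ES φ N (μ / R n ^ 2) (v n) ≤ C) → (∀ n, R0 ≤ R n) → (∀ n, μ ≤ R n) →
      ∀ β, Tendsto (fun n => (R n : ℂ) * ip2 (S.TR φ ψ Om V c ε (R n) (pp ζ (Φ n))) (S.QS φ N (μ / R n ^ 2) β (v n)) -
        ip2 (S.TR φ ψ Om V c ε (R n) (S.DF φ ψ N μ β (pp ζ (Φ n)))) (v n)) atTop (𝓝 0) := by
    intro R η Φ v C hR hR1 hη hη0 hI hΦ hd hQ hv hvs hvn hvE hRR hμR β
    have hRp : ∀ n, 0 < R n := fun n => lt_of_lt_of_le one_pos (hR1 n)
    have hC : 0 ≤ C := (hB.nonneg (v 0)).trans (hvn 0)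
    -- the energy of the off-diagonal part
    have hE1 : ∀ n, R n ^ 2 * S.E1 φ (v n) ≤ CO * (C + (1 + μ ^ 2) * C) := by
      intro n
      have hm0 : 0 ≤ μ / R n ^ 2 := div_nonneg hμ (sq_nonneg _)
      have hm1 : μ / R n ^ 2 ≤ 1 := by
        rw [div_le_one (pow_pos (hRp n) 2)]
        nlinarith [hμR n, hR1 n]
      have a1 := (hOf ε hε (hεle.trans leO) (R n) (hRR n) (μ / R n ^ 2) hm0 hm1 (v n) (hv n) (hvs n)).1
      have a2 : 0 ≤ S.EH φ N (μ / R n ^ 2) (v n) := Finset.sum_nonneg fun β _ => hB.nonneg _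
      have a3 : S.E1 φ (v n) ≤ CO * (S.ES φ N (μ / R n ^ 2) (v n) +
        (1 / R n ^ 2 + (μ / R n ^ 2) ^ 2 / R n) * ns2 (v n)) := by linarith
      have a4 := mul_le_mul_of_nonneg_left a3 (sq_nonneg (R n))
      refine a4.trans ?_
      have a5 : R n ^ 2 * (CO * (S.ES φ N (μ / R n ^ 2) (v n) +
          (1 / R n ^ 2 + (μ / R n ^ 2) ^ 2 / R n) * ns2 (v n))) =
          CO * (R n ^ 2 * S.ES φ N (μ / R n ^ 2) (v n) + (1 + μ ^ 2 / R n ^ 3) * ns2 (v n)) := by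
        have := (hRp n).ne'
        field_simp
      rw [a5]
      refine mul_le_mul_of_nonneg_left (add_le_add (hvE n) ?_) hCO.le
      have a6 : μ ^ 2 / R n ^ 3 ≤ μ ^ 2 := div_le_self (sq_nonneg _) (one_le_pow₀ (hR1 n))
      exact mul_le_mul (by linarith) (hvn n) (hB.nonneg _) (by positivity)
    -- negligible errors
    have hneg : ∀ (E : ℕ → Cfg dh → Wsp dm → F) (C' : ℝ), (∀ n, Tst2 (E n)) →
        (∀ n, Sup2 (cmb ψ y₀ 0) ε (R n) (E n)) →
        (Tendsto (fun n => R n ^ 2 * ns2 (E n)) atTop (𝓝 0) ∨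
        ((∀ n, R n ^ 2 * ns2 (E n) ≤ C') ∧ (∀ n x w, E n x w ≠ 0 → ‖spt ψ x‖ ≤ η n * R n) ∧
          Tendsto (fun n => R n ^ 2 * ∫ x, ‖vc S φ ψ Om (E n) x‖ ^ 2) atTop (𝓝 0)) ∨
        ((∀ n x w, E n x (-w) = -E n x w) ∧ Tendsto (fun n => ns2 (E n) / R n) atTop (𝓝 0))) →
        Tendsto (fun n => (R n : ℂ) * ip2 (E n) (v n)) atTop (𝓝 0) := by
      intro E C' tE sE hE
      refine hNf R η E v (max C (max C' (CO * (C + (1 + μ ^ 2) * C)))) hR (fun n => (hη n).1) hη0 hR1 tE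
        (fun n => AN.su359_mono (sE n) (hRp n) (hεle.trans leN)) hv
        (fun n => AN.su359_mono (hvs n) (hRp n) (hεle.trans leN)) (fun n => (hvn n).trans (le_max_left _ _))
        (fun n => (hE1 n).trans ((le_max_right _ _).trans (le_max_right _ _))) ?_
      rcases hE with h | ⟨h1, h2, h3⟩ | h
      · exact Or.inl h
      · exact Or.inr (Or.inl ⟨fun n => (h1 n).trans ((le_max_left _ _).trans (le_max_right _ _)), h2, h3⟩)
      · exact Or.inr (Or.inr h)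
    -- trial functions
    have hT := fun n => hTR hφ hc U Om V K hV y₀ ε0 C0 hε0 hBf' c hct ε hε hεle ζ hζ hζs (R n) (η n) (hR1 n)
      (hη n).1.le (hη n).2 (Φ n) (hI n)
    have hP := fun n => hTR hφ hc U Om V K hV y₀ ε0 C0 hε0 hBf' c hct ε hε hεle ζ hζ hζs (R n) (η n) (hR1 n)
      (hη n).1.le (hη n).2 ((S.int φ ψ hφ hc).Q β (Φ n)) (loc962_int hφ hc hV hy (hI n) β)
    have hTs : ∀ n, Sup2 (cmb ψ y₀ 0) ε0 (R n) (S.TR φ ψ Om V c ε (R n) (pp ζ (Φ n))) := fun n =>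
      AN.su359_mono (hT n).2.1 (hRp n) hεle
    have hvs0 : ∀ n, Sup2 (cmb ψ y₀ 0) ε0 (R n) (v n) := fun n => AN.su359_mono (hvs n) (hRp n) hεle
    have zP : Tendsto (fun n => (R n : ℂ) *
        ip2 (S.TR φ ψ Om V c ε (R n) (pp ζ ((S.int φ ψ hφ hc).Q β (Φ n)))) (v n)) atTop (𝓝 0) := by
      refine hneg _ 0 (fun n => (hP n).1) (fun n => (hP n).2.1) (Or.inl ?_)
      have z0 : Tendsto (fun n => (∫ y, ‖ζ y‖ ^ 2) * (R n ^ 2 * ∑ β, nsq ((S.int φ ψ hφ hc).Q β (Φ n)))) atTop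
          (𝓝 0) := by
        have := hQ.const_mul (∫ y, ‖ζ y‖ ^ 2)
        simpa using this
      refine squeeze_zero (fun n => mul_nonneg (sq_nonneg _) (hB.nonneg _)) (fun n => ?_) z0
      have b1 := (hP n).2.2.2
      have b2 : nsq ((S.int φ ψ hφ hc).Q β (Φ n)) ≤ ∑ β, nsq ((S.int φ ψ hφ hc).Q β (Φ n)) :=
        Finset.single_le_sum (f := fun β => nsq ((S.int φ ψ hφ hc).Q β (Φ n)))
          (fun β _ => integral_nonneg fun x => by positivity) (Finset.mem_univ β)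
      have b3 : 0 ≤ ∫ y, ‖ζ y‖ ^ 2 := integral_nonneg fun x => by positivity
      calc R n ^ 2 * ns2 (S.TR φ ψ Om V c ε (R n) (pp ζ ((S.int φ ψ hφ hc).Q β (Φ n)))) ≤
          R n ^ 2 * ((∫ y, ‖ζ y‖ ^ 2) * ∑ β, nsq ((S.int φ ψ hφ hc).Q β (Φ n))) :=
            mul_le_mul_of_nonneg_left (b1.trans (mul_le_mul_of_nonneg_left b2 b3)) (sq_nonneg _)
        _ = (∫ y, ‖ζ y‖ ^ 2) * (R n ^ 2 * ∑ β, nsq ((S.int φ ψ hφ hc).Q β (Φ n))) := by ring
    -- the four decompositions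
    have hm := fun n => loc962_MT_sm S φ N hN.real (μ / R n ^ 2) β hA hB
    have tH : ∀ n, Tst2 (S.Qh φ β (S.TR φ ψ Om V c ε (R n) (pp ζ (Φ n)))) := by
      intro n
      have := hop.th _ (hT n).1 0 β
      rwa [loc962_Qh] at this
    obtain ⟨mH, zH⟩ := loc962_err hA hB hCH hR hR1 hη0 hΦ hd hv hneg tH
      (fun n => dH (R n) (η n) (hR1 n) (hη n).1.le (hη n).2 (Φ n) (hI n) β)
    have t1 : ∀ n, Tst2 (S.Q1 φ β (S.TR φ ψ Om V c ε (R n) (pp ζ (Φ n)))) := fun n =>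
      hop.t1 (R n) (hRp n) _ (hT n).1 (hTs n) β
    obtain ⟨-, z1⟩ := loc962_err hA hB hC1 hR hR1 hη0 hΦ hd hv hneg t1
      (fun n => d1 (R n) (η n) (hR1 n) (hη n).1.le (hη n).2 (Φ n) (hI n) β)
    have tR : ∀ n, Tst2 (S.Qr φ β (S.TR φ ψ Om V c ε (R n) (pp ζ (Φ n)))) := fun n =>
      hop.tr (R n) (hRp n) _ (hT n).1 (hTs n) β
    obtain ⟨-, zR⟩ := loc962_err hA hB hCR hR hR1 hη0 hΦ hd hv hneg tR
      (fun n => dR (R n) (η n) (hR1 n) (hη n).1.le (hη n).2 (Φ n) (hI n) β)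
    have tM : ∀ n, Tst2 (loc962_MT S φ N (μ / R n ^ 2) β (S.TR φ ψ Om V c ε (R n) (pp ζ (Φ n)))) := fun n =>
      (hm n).1 _ (hT n).1
    obtain ⟨mM, zM⟩ := loc962_err hA hB hCM hR hR1 hη0 hΦ hd hv hneg tM
      (fun n => dM (R n) (η n) (hR1 n) (hη n).1.le (hη n).2 (Φ n) (hI n) β)
    have z := (((zH.add z1).add zR).add zM).add zP
    simp only [add_zero] at z
    refine z.congr fun n => ?_
    have s := loc962_symm hφ hSy hA hB hN.real hCf' hop (hRp n) (μ / R n ^ 2) β (hT n).1 (hTs n) (hv n) (hvs0 n)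
    have q : ip2 (S.QS φ N (μ / R n ^ 2) β (S.TR φ ψ Om V c ε (R n) (pp ζ (Φ n)))) (v n) =
        ip2 (S.Qh φ β (S.TR φ ψ Om V c ε (R n) (pp ζ (Φ n)))) (v n) +
        ip2 (S.Q1 φ β (S.TR φ ψ Om V c ε (R n) (pp ζ (Φ n)))) (v n) +
        ip2 (S.Qr φ β (S.TR φ ψ Om V c ε (R n) (pp ζ (Φ n)))) (v n) +
        ip2 (loc962_MT S φ N (μ / R n ^ 2) β (S.TR φ ψ Om V c ε (R n) (pp ζ (Φ n)))) (v n) := by
      rw [← AN.Op687.ip_add_left hB _ _ _ (tH n) (t1 n) (hv n),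
        ← AN.Op687.ip_add_left hB _ _ _ (hA.add _ _ (tH n) (t1 n)) (tR n) (hv n),
        ← AN.Op687.ip_add_left hB _ _ _ (hA.add _ _ (hA.add _ _ (tH n) (t1 n)) (tR n)) (tM n) (hv n)]
      congr 1
      funext x w
      exact loc962_QS S φ N (μ / R n ^ 2) β _ x w
    have m := loc962_alg hA hB (hRp n).ne' (hP n).1 (hv n) (mH n) (mM n)
    have o : ip2 (fun (_ : Cfg dh) (_ : Wsp dm) => (0 : F)) (v n) = 0 := by
      unfold ip2
      simp
    rw [s, q, o]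
    linear_combination (-1 : ℂ) * m
  intro R η Φ v C hR hR1 hη hη0 hI hΦ hd hQ hv hvs hvn hvE β
  obtain ⟨n0, hn0⟩ := (tendsto_atTop.1 hR (max R0 μ)).exists_forall_of_atTop
  rw [← tendsto_add_atTop_iff_nat n0]
  have hs := tendsto_add_atTop_nat n0
  exact key (fun n => R (n + n0)) (fun n => η (n + n0)) (fun n => Φ (n + n0)) (fun n => v (n + n0)) C
    (hR.comp hs) (fun n => hR1 _) (fun n => hη _) (hη0.comp hs) (fun n => hI _) (fun n => hΦ _) (hd.comp hs) (hQ.comp hs)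
    (fun n => hv _) (fun n => hvs _) (fun n => hvn _) (fun n => hvE _)
    (fun n => (le_max_left _ _).trans (hn0 _ (Nat.le_add_left _ _)))
    (fun n => (le_max_right _ _).trans (hn0 _ (Nat.le_add_left _ _))) β

end Vale.Agent.P353.Z.AE
end

section

/-! # P353, all `N`, block TW4: summation over dyadic scales -/

open MeasureTheory Filter Topology
open scoped ContDiff

namespace Vale.Agent.P353.Z.AT

variable {d dh dm : ℕ} {F : Type*} [NormedAddCommGroup F] [InnerProductSpace ℂ F]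

/-- at most three dyadic shells contain a given radius -/
theorem sm827_card (s₀ : ℝ) (hs : 0 < s₀) (r : ℝ) (K : ℕ) :
    ((Finset.range K).filter (fun k => 2 ^ k * s₀ / 2 < r ∧ r < 4 * (2 ^ k * s₀))).card ≤ 3 := by
  classical
  set J := (Finset.range K).filter (fun k => 2 ^ k * s₀ / 2 < r ∧ r < 4 * (2 ^ k * s₀)) with hJ
  rcases J.eq_empty_or_nonempty with h | h
  · rw [h]; simp
  · have h0 := Finset.min'_mem J h
    set k0 := J.min' h with hk0
    have h0' := (Finset.mem_filter.1 h0).2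
    have hsub : J ⊆ Finset.Ico k0 (k0 + 3) := by
      intro k hk
      have hk1 : k0 ≤ k := Finset.min'_le J k hk
      have hk2 := (Finset.mem_filter.1 hk).2
      rw [Finset.mem_Ico]
      refine ⟨hk1, ?_⟩
      by_contra hlt
      push Not at hlt
      have h3 : (2 : ℝ) ^ (k0 + 3) ≤ 2 ^ k := pow_le_pow_right₀ (by norm_num) hlt
      have h4 : (2 : ℝ) ^ (k0 + 3) = 8 * 2 ^ k0 := by rw [pow_add]; norm_num; ring
      have h5 : 8 * 2 ^ k0 * s₀ ≤ 2 ^ k * s₀ := by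
        rw [← h4]; exact mul_le_mul_of_nonneg_right h3 hs.le
      linarith [hk2.1, h0'.2]
    calc J.card ≤ (Finset.Ico k0 (k0 + 3)).card := Finset.card_le_card hsub
      _ = 3 := by simp

theorem sm827_meas (s t : ℝ) : MeasurableSet (AD.shl d s t) :=
  (measurableSet_lt measurable_const measurable_norm).inter
    (measurableSet_lt measurable_norm measurable_const)

/-- the shells `(s_k/2, 4 s_k)` overlap at most three times -/
theorem sm827_ov {f : Cfg d → ℝ} (hf : Integrable f) (h0 : ∀ x, 0 ≤ f x) (s₀ : ℝ) (hs : 0 < s₀) (K : ℕ) :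
    ∑ k ∈ Finset.range K, ∫ x in AD.shl d (2 ^ k * s₀ / 2) (4 * (2 ^ k * s₀)), f x ≤ 3 * ∫ x, f x := by
  classical
  have hm : ∀ k : ℕ, MeasurableSet (AD.shl d (2 ^ k * s₀ / 2) (4 * (2 ^ k * s₀))) :=
    fun k => sm827_meas _ _
  calc ∑ k ∈ Finset.range K, ∫ x in AD.shl d (2 ^ k * s₀ / 2) (4 * (2 ^ k * s₀)), f x
      = ∑ k ∈ Finset.range K, ∫ x, (AD.shl d (2 ^ k * s₀ / 2) (4 * (2 ^ k * s₀))).indicator f x :=
        Finset.sum_congr rfl fun k _ => (integral_indicator (hm k)).symm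
    _ = ∫ x, ∑ k ∈ Finset.range K, (AD.shl d (2 ^ k * s₀ / 2) (4 * (2 ^ k * s₀))).indicator f x :=
        (integral_finsetSum _ fun k _ => hf.indicator (hm k)).symm
    _ ≤ ∫ x, 3 * f x := by
        refine integral_mono (integrable_finsetSum _ fun k _ => hf.indicator (hm k)) (hf.const_mul 3)
          fun x => ?_
        have h1 : ∀ k : ℕ, (AD.shl d (2 ^ k * s₀ / 2) (4 * (2 ^ k * s₀))).indicator f x =
            if 2 ^ k * s₀ / 2 < ‖x‖ ∧ ‖x‖ < 4 * (2 ^ k * s₀) then f x else 0 := by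
          intro k
          by_cases hk : 2 ^ k * s₀ / 2 < ‖x‖ ∧ ‖x‖ < 4 * (2 ^ k * s₀)
          · have hk' : x ∈ AD.shl d (2 ^ k * s₀ / 2) (4 * (2 ^ k * s₀)) := hk
            rw [Set.indicator_of_mem hk', if_pos hk]
          · have hk' : x ∉ AD.shl d (2 ^ k * s₀ / 2) (4 * (2 ^ k * s₀)) := hk
            rw [Set.indicator_of_notMem hk', if_neg hk]
        change ∑ k ∈ Finset.range K, (AD.shl d (2 ^ k * s₀ / 2) (4 * (2 ^ k * s₀))).indicator f x ≤ 3 * f x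
        simp only [h1]
        rw [← Finset.sum_filter, Finset.sum_const, nsmul_eq_mul]
        refine mul_le_mul_of_nonneg_right ?_ (h0 x)
        exact_mod_cast sm827_card s₀ hs ‖x‖ K
    _ = 3 * ∫ x, f x := integral_const_mul _ _

/-- dyadic decomposition of the second moment -/
theorem sm827_split {u : Cfg d → F} (hu : Setup.Tst u) (s₀ : ℝ) (hs : 0 < s₀) :
    ∃ K : ℕ, (∫ x, ‖x‖ ^ 2 * ‖u x‖ ^ 2) ≤ s₀ ^ 2 * nsq u +
      ∑ k ∈ Finset.range K, 4 * (2 ^ k * s₀) ^ 2 *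
        AD.mas u {x | 2 ^ k * s₀ ≤ ‖x‖ ∧ ‖x‖ ≤ 2 * (2 ^ k * s₀)} := by
  classical
  obtain ⟨B, hB⟩ := hu.2.isCompact.isBounded.exists_norm_le
  obtain ⟨K, hK⟩ := pow_unbounded_of_one_lt (B / s₀) (by norm_num : (1 : ℝ) < 2)
  refine ⟨K, ?_⟩
  have hBK : B < 2 ^ K * s₀ := by rwa [div_lt_iff₀ hs] at hK
  have hi := hu.norm_sq_int
  have hi2 : Integrable (fun x => ‖x‖ ^ 2 * ‖u x‖ ^ 2) := Setup.Tst.mul_norm_sq_int (by fun_prop) hu
  have hm : ∀ k : ℕ, MeasurableSet {x : Cfg d | 2 ^ k * s₀ ≤ ‖x‖ ∧ ‖x‖ ≤ 2 * (2 ^ k * s₀)} :=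
    fun k => (measurableSet_le measurable_const measurable_norm).inter
      (measurableSet_le measurable_norm measurable_const)
  have hint : ∀ k : ℕ, Integrable (fun x => 4 * (2 ^ k * s₀) ^ 2 *
      ({x : Cfg d | 2 ^ k * s₀ ≤ ‖x‖ ∧ ‖x‖ ≤ 2 * (2 ^ k * s₀)}).indicator (fun x => ‖u x‖ ^ 2) x) :=
    fun k => (hi.indicator (hm k)).const_mul _
  have hpt : ∀ x, ‖x‖ ^ 2 * ‖u x‖ ^ 2 ≤ s₀ ^ 2 * ‖u x‖ ^ 2 + ∑ k ∈ Finset.range K, 4 * (2 ^ k * s₀) ^ 2 *
      ({x : Cfg d | 2 ^ k * s₀ ≤ ‖x‖ ∧ ‖x‖ ≤ 2 * (2 ^ k * s₀)}).indicator (fun x => ‖u x‖ ^ 2) x := by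
    intro x
    have hnn : ∀ k ∈ Finset.range K, 0 ≤ 4 * (2 ^ k * s₀) ^ 2 *
        ({x : Cfg d | 2 ^ k * s₀ ≤ ‖x‖ ∧ ‖x‖ ≤ 2 * (2 ^ k * s₀)}).indicator (fun x => ‖u x‖ ^ 2) x :=
      fun k _ => mul_nonneg (by positivity) (Set.indicator_nonneg (fun x _ => by positivity) x)
    have hsn := Finset.sum_nonneg hnn
    have hsq : 0 ≤ ‖u x‖ ^ 2 := by positivity
    rcases le_or_gt ‖x‖ s₀ with h | h
    · have h1 : ‖x‖ ^ 2 ≤ s₀ ^ 2 := pow_le_pow_left₀ (norm_nonneg _) h 2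
      have h2 := mul_le_mul_of_nonneg_right h1 hsq
      linarith
    · by_cases hx : u x = 0
      · have h1 : ‖x‖ ^ 2 * ‖u x‖ ^ 2 = 0 := by rw [hx]; simp
        have h2 : 0 ≤ s₀ ^ 2 * ‖u x‖ ^ 2 := by positivity
        linarith
      · have hxB : ‖x‖ ≤ B := hB x (subset_tsupport _ hx)
        obtain ⟨n, hn1, hn2⟩ := exists_nat_pow_near (x := ‖x‖ / s₀) (y := 2)
          (by rw [le_div_iff₀ hs]; linarith) (by norm_num)
        rw [le_div_iff₀ hs] at hn1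
        rw [div_lt_iff₀ hs] at hn2
        have hnK : n < K := by
          by_contra hlt
          push Not at hlt
          have h3 : (2 : ℝ) ^ K ≤ 2 ^ n := pow_le_pow_right₀ (by norm_num) hlt
          have h4 := mul_le_mul_of_nonneg_right h3 hs.le
          linarith
        have hle : ‖x‖ ≤ 2 * (2 ^ n * s₀) := by
          rw [pow_succ] at hn2; linarith
        have h5 := Finset.single_le_sum hnn (Finset.mem_range.2 hnK)
        have h6 : 4 * (2 ^ n * s₀) ^ 2 *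
          ({x : Cfg d | 2 ^ n * s₀ ≤ ‖x‖ ∧ ‖x‖ ≤ 2 * (2 ^ n * s₀)}).indicator (fun x => ‖u x‖ ^ 2) x =
            4 * (2 ^ n * s₀) ^ 2 * ‖u x‖ ^ 2 := by
          rw [Set.indicator_of_mem (show x ∈ {x : Cfg d | 2 ^ n * s₀ ≤ ‖x‖ ∧ ‖x‖ ≤ 2 * (2 ^ n * s₀)} from ⟨hn1, hle⟩)]
        rw [h6] at h5
        have h7 : ‖x‖ ^ 2 ≤ 4 * (2 ^ n * s₀) ^ 2 := by
          have := pow_le_pow_left₀ (norm_nonneg x) hle 2
          linarith [this, (by ring : (2 * (2 ^ n * s₀)) ^ 2 = 4 * (2 ^ n * s₀) ^ 2)]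
        have h8 := mul_le_mul_of_nonneg_right h7 hsq
        have h9 : 0 ≤ s₀ ^ 2 * ‖u x‖ ^ 2 := by positivity
        linarith
  calc (∫ x, ‖x‖ ^ 2 * ‖u x‖ ^ 2) ≤ ∫ x, (s₀ ^ 2 * ‖u x‖ ^ 2 + ∑ k ∈ Finset.range K, 4 * (2 ^ k * s₀) ^ 2 *
        ({x : Cfg d | 2 ^ k * s₀ ≤ ‖x‖ ∧ ‖x‖ ≤ 2 * (2 ^ k * s₀)}).indicator (fun x => ‖u x‖ ^ 2) x) :=
        integral_mono hi2 ((hi.const_mul _).add (integrable_finsetSum _ fun k _ => hint k)) hpt
    _ = s₀ ^ 2 * nsq u + ∑ k ∈ Finset.range K, 4 * (2 ^ k * s₀) ^ 2 *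
        AD.mas u {x | 2 ^ k * s₀ ≤ ‖x‖ ∧ ‖x‖ ≤ 2 * (2 ^ k * s₀)} := by
        rw [integral_add (hi.const_mul _) (integrable_finsetSum _ fun k _ => hint k),
          integral_const_mul, integral_finsetSum _ fun k _ => hint k]
        congr 1
        refine Finset.sum_congr rfl fun k _ => ?_
        rw [integral_const_mul, integral_indicator (hm k)]
        rfl

/-- **TW4** -/
theorem sm4 (S : Setup d F) : SumStmt S := by
  rintro ⟨R₁, C, hR, hC, hsh⟩
  refine ⟨R₁ ^ 2 + 24 * C, by positivity, fun m hm hm1 u hu => ?_⟩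
  have hR0 : 0 < R₁ := by linarith
  set q : ℝ := Real.sqrt m with hq
  have hq0 : 0 < q := Real.sqrt_pos.2 hm
  have hqq : q ^ 2 = m := Real.sq_sqrt hm.le
  have hq1 : q ≤ 1 := by
    rw [hq]; exact Real.sqrt_le_one.2 hm1
  set s₀ : ℝ := R₁ / q with hs0
  have hs : 0 < s₀ := by positivity
  have hsR : R₁ ≤ s₀ := by
    rw [hs0, le_div_iff₀ hq0]
    nlinarith
  have hsq : s₀ ^ 2 = R₁ ^ 2 / m := by rw [hs0, div_pow, hqq]
  have hms : m * s₀ ^ 2 = R₁ ^ 2 := by rw [hsq]; field_simp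
  obtain ⟨K, hK⟩ := sm827_split hu.1 s₀ hs
  have hen : ∀ (A : Set (Cfg d)), 0 ≤ enm S m u A := fun A =>
    Finset.sum_nonneg fun β _ => integral_nonneg fun x => sq_nonneg _
  have hmas : ∀ (A : Set (Cfg d)), 0 ≤ AD.mas u A := fun A => integral_nonneg fun x => sq_nonneg _
  have hk : ∀ k ∈ Finset.range K, m ^ 2 * (4 * (2 ^ k * s₀) ^ 2 *
      AD.mas u {x | 2 ^ k * s₀ ≤ ‖x‖ ∧ ‖x‖ ≤ 2 * (2 ^ k * s₀)}) ≤
      4 * C * enm S m u (AD.shl d (2 ^ k * s₀ / 2) (4 * (2 ^ k * s₀))) +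
        8 * C * m * AD.mas u (AD.shl d (2 ^ k * s₀ / 2) (4 * (2 ^ k * s₀))) := by
    intro k _
    have h1 : s₀ ≤ 2 ^ k * s₀ := by
      have : (1 : ℝ) ≤ 2 ^ k := one_le_pow₀ (by norm_num)
      nlinarith
    have h2 := hsh (2 ^ k * s₀) (hsR.trans h1) m hm hm1 u hu
    have h3 : 1 / (2 ^ k * s₀) ^ 2 ≤ m := by
      rw [div_le_iff₀ (by positivity)]
      have h4 : s₀ ^ 2 ≤ (2 ^ k * s₀) ^ 2 := pow_le_pow_left₀ hs.le h1 2
      have h5 := mul_le_mul_of_nonneg_left h4 hm.le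
      rw [hms] at h5
      have h6 : 1 ≤ R₁ ^ 2 := one_le_pow₀ hR
      linarith
    have h4 : (1 / (2 ^ k * s₀) ^ 2 + m) * AD.mas u (AD.shl d (2 ^ k * s₀ / 2) (4 * (2 ^ k * s₀))) ≤
        2 * m * AD.mas u (AD.shl d (2 ^ k * s₀ / 2) (4 * (2 ^ k * s₀))) :=
      mul_le_mul_of_nonneg_right (by linarith) (hmas _)
    have h5 := mul_le_mul_of_nonneg_left h4 hC
    have h6 : C * (enm S m u (AD.shl d (2 ^ k * s₀ / 2) (4 * (2 ^ k * s₀))) +
        (1 / (2 ^ k * s₀) ^ 2 + m) * AD.mas u (AD.shl d (2 ^ k * s₀ / 2) (4 * (2 ^ k * s₀)))) ≤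
        C * enm S m u (AD.shl d (2 ^ k * s₀ / 2) (4 * (2 ^ k * s₀))) +
          C * (2 * m * AD.mas u (AD.shl d (2 ^ k * s₀ / 2) (4 * (2 ^ k * s₀)))) := by
      rw [mul_add]; linarith
    have h7 := h2.trans h6
    calc m ^ 2 * (4 * (2 ^ k * s₀) ^ 2 * AD.mas u {x | 2 ^ k * s₀ ≤ ‖x‖ ∧ ‖x‖ ≤ 2 * (2 ^ k * s₀)})
        = 4 * (m ^ 2 * (2 ^ k * s₀) ^ 2 *
            AD.mas u {x | 2 ^ k * s₀ ≤ ‖x‖ ∧ ‖x‖ ≤ 2 * (2 ^ k * s₀)}) := by ring
      _ ≤ 4 * (C * enm S m u (AD.shl d (2 ^ k * s₀ / 2) (4 * (2 ^ k * s₀))) +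
          C * (2 * m * AD.mas u (AD.shl d (2 ^ k * s₀ / 2) (4 * (2 ^ k * s₀))))) :=
          mul_le_mul_of_nonneg_left h7 (by norm_num)
      _ = _ := by ring
  have hsum1 : ∑ k ∈ Finset.range K, enm S m u (AD.shl d (2 ^ k * s₀ / 2) (4 * (2 ^ k * s₀))) ≤
      3 * S.en m u := by
    unfold enm Setup.en nsq
    rw [Finset.sum_comm, Finset.mul_sum]
    exact Finset.sum_le_sum fun β _ => sm827_ov (U.HB.Tst_Qm S m β hu.1).norm_sq_int
      (fun x => sq_nonneg _) s₀ hs K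
  have hsum2 : ∑ k ∈ Finset.range K, AD.mas u (AD.shl d (2 ^ k * s₀ / 2) (4 * (2 ^ k * s₀))) ≤
      3 * nsq u := sm827_ov hu.1.norm_sq_int (fun x => sq_nonneg _) s₀ hs K
  have hE : 0 ≤ S.en m u := Finset.sum_nonneg fun β _ => integral_nonneg fun x => sq_nonneg _
  have hN : 0 ≤ nsq u := integral_nonneg fun x => sq_nonneg _
  calc m ^ 2 * (∫ x, ‖x‖ ^ 2 * ‖u x‖ ^ 2)
      ≤ m ^ 2 * (s₀ ^ 2 * nsq u + ∑ k ∈ Finset.range K, 4 * (2 ^ k * s₀) ^ 2 *
        AD.mas u {x | 2 ^ k * s₀ ≤ ‖x‖ ∧ ‖x‖ ≤ 2 * (2 ^ k * s₀)}) :=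
        mul_le_mul_of_nonneg_left hK (by positivity)
    _ = m * (m * s₀ ^ 2) * nsq u + ∑ k ∈ Finset.range K, m ^ 2 * (4 * (2 ^ k * s₀) ^ 2 *
        AD.mas u {x | 2 ^ k * s₀ ≤ ‖x‖ ∧ ‖x‖ ≤ 2 * (2 ^ k * s₀)}) := by
        rw [mul_add, Finset.mul_sum]; ring
    _ ≤ m * R₁ ^ 2 * nsq u + ∑ k ∈ Finset.range K,
        (4 * C * enm S m u (AD.shl d (2 ^ k * s₀ / 2) (4 * (2 ^ k * s₀))) +
        8 * C * m * AD.mas u (AD.shl d (2 ^ k * s₀ / 2) (4 * (2 ^ k * s₀)))) := by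
        rw [hms]
        exact add_le_add le_rfl (Finset.sum_le_sum hk)
    _ = m * R₁ ^ 2 * nsq u +
        (4 * C * ∑ k ∈ Finset.range K, enm S m u (AD.shl d (2 ^ k * s₀ / 2) (4 * (2 ^ k * s₀))) +
        8 * C * m * ∑ k ∈ Finset.range K, AD.mas u (AD.shl d (2 ^ k * s₀ / 2) (4 * (2 ^ k * s₀)))) := by
        rw [Finset.sum_add_distrib, Finset.mul_sum, Finset.mul_sum]
    _ ≤ m * R₁ ^ 2 * nsq u + (4 * C * (3 * S.en m u) + 8 * C * m * (3 * nsq u)) := by
        gcongr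
    _ ≤ (R₁ ^ 2 + 24 * C) * (S.en m u + m * nsq u) := by
        have h1 : 0 ≤ R₁ ^ 2 * S.en m u := by positivity
        have h2 : 0 ≤ C * S.en m u := by positivity
        nlinarith

end Vale.Agent.P353.Z.AT
end

section

/-! # P353, all `N`, block JN: N3, rotated frames at regular points of the stratum -/

open MeasureTheory Filter Topology Matrix
open scoped ContDiff

namespace Vale.Agent.P353.Z.AJ

variable {d dh dm ds dz : ℕ} {F : Type*} [NormedAddCommGroup F] [InnerProductSpace ℂ F]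

/-- a matrix as an operator on the Euclidean space -/
private noncomputable def rg_op (D : Matrix (Fin dm) (Fin dm) ℝ) : AN.StdA.Ec dm →ₗ[ℝ] AN.StdA.Ec dm where
  toFun v := WithLp.toLp 2 fun B => ∑ C, D B C * v C
  map_add' v w := by
    ext B
    simp [mul_add, Finset.sum_add_distrib]
  map_smul' c v := by
    ext B
    simp only [PiLp.smul_apply, smul_eq_mul, RingHom.id_apply, Finset.mul_sum]
    exact Finset.sum_congr rfl fun C _ => by ring

private lemma rg_op_apply (D : Matrix (Fin dm) (Fin dm) ℝ) (v : AN.StdA.Ec dm) (B : Fin dm) :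
    rg_op D v B = ∑ C, D B C * v C := rfl

private lemma rg_skew (D : Matrix (Fin dm) (Fin dm) ℝ) (h : Dᵀ = -D) (v w : AN.StdA.Ec dm) :
    inner ℝ (rg_op D v) w = - inner ℝ v (rg_op D w) := by
  rw [AN.StdA.inner_Ec, AN.StdA.inner_Ec]
  simp only [rg_op_apply, Finset.sum_mul, Finset.mul_sum]
  rw [Finset.sum_comm, ← Finset.sum_neg_distrib]
  refine Finset.sum_congr rfl fun C _ => ?_
  rw [← Finset.sum_neg_distrib]
  refine Finset.sum_congr rfl fun B _ => ?_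
  have h1 : D B C = - D C B := by
    have := congrFun (congrFun h C) B
    rwa [Matrix.transpose_apply, Matrix.neg_apply] at this
  rw [h1]
  ring

private lemma rg_add (D E : Matrix (Fin dm) (Fin dm) ℝ) (v : AN.StdA.Ec dm) :
    rg_op (D + E) v = rg_op D v + rg_op E v := by
  ext B
  simp only [rg_op_apply, PiLp.add_apply, Matrix.add_apply, add_mul, Finset.sum_add_distrib]

private lemma rg_smul (c : ℝ) (D : Matrix (Fin dm) (Fin dm) ℝ) (v : AN.StdA.Ec dm) :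
    rg_op (c • D) v = c • rg_op D v := by
  ext B
  simp only [rg_op_apply, PiLp.smul_apply, Matrix.smul_apply, smul_eq_mul, Finset.mul_sum]
  exact Finset.sum_congr rfl fun C _ => by ring

private lemma rg_mul (D E : Matrix (Fin dm) (Fin dm) ℝ) (v : AN.StdA.Ec dm) :
    rg_op (D * E) v = rg_op D (rg_op E v) := by
  ext B
  simp only [rg_op_apply, Matrix.mul_apply, Finset.sum_mul, Finset.mul_sum]
  rw [Finset.sum_comm]
  exact Finset.sum_congr rfl fun C _ => Finset.sum_congr rfl fun G _ => by ring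

private lemma rg_comb (D : Fin 9 → Matrix (Fin dm) (Fin dm) ℝ) (ha : ∀ i, (D i)ᵀ = -D i)
    (hc : ∀ i j, D i * D j = D j * D i) (s : Finset (Fin 9)) :
    ∃ e : Fin 9 → ℝ, ∀ v, rg_op (∑ j, e j • D j) v = 0 → ∀ i ∈ s, rg_op (D i) v = 0 := by
  induction s using Finset.induction_on with
  | empty => exact ⟨0, fun v _ i hi => by simp at hi⟩
  | insert a s ha' ih =>
    obtain ⟨e, he⟩ := ih
    have hE : (∑ j, e j • D j)ᵀ = -(∑ j, e j • D j) := by
      simp only [Matrix.transpose_sum, Matrix.transpose_smul, ha, smul_neg, Finset.sum_neg_distrib]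
    have hEc : (∑ j, e j • D j) * D a = D a * (∑ j, e j • D j) := by
      rw [Finset.sum_mul, Finset.mul_sum]
      exact Finset.sum_congr rfl fun j _ => by rw [smul_mul_assoc, mul_smul_comm, hc]
    obtain ⟨t, ht⟩ := AN.StdA.exists_ker (rg_op (∑ j, e j • D j)) (rg_op (D a)) (rg_skew _ hE)
      (rg_skew _ (ha a)) (fun v => by rw [← rg_mul, ← rg_mul, hEc])
    refine ⟨e + Pi.single a t, fun v hv => ?_⟩
    have h1 : ∑ j, (e + Pi.single a t : Fin 9 → ℝ) j • D j = (∑ j, e j • D j) + t • D a := by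
      simp only [Pi.add_apply, add_smul, Finset.sum_add_distrib]
      congr 1
      rw [Finset.sum_eq_single a]
      · simp
      · intro b _ hb
        simp [hb]
      · simp
    rw [h1, rg_add, rg_smul] at hv
    obtain ⟨h2, h3⟩ := ht v hv
    intro i hi
    rcases Finset.mem_insert.1 hi with rfl | hi
    · exact h3
    · exact he v h2 i hi

private lemma rg_unit (D : Fin 9 → Matrix (Fin dm) (Fin dm) ℝ) (ha : ∀ i, (D i)ᵀ = -D i)
    (hc : ∀ i j, D i * D j = D j * D i) (hdet : (∑ i, D i * D i).det ≠ 0) :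
    ∃ e : EuclideanSpace ℝ (Fin 9), ‖e‖ = 1 ∧ (∑ j, e j • D j).det ≠ 0 := by
  have key : ∃ e : EuclideanSpace ℝ (Fin 9), ‖e‖ = 1 ∧
      ∀ v, rg_op (∑ j, e j • D j) v = 0 → ∀ i, rg_op (D i) v = 0 := by
    obtain ⟨e, he⟩ := rg_comb D ha hc Finset.univ
    have he' : ∀ v, rg_op (∑ j, e j • D j) v = 0 → ∀ i, rg_op (D i) v = 0 :=
      fun v hv i => he v hv i (Finset.mem_univ i)
    by_cases h0 : e = 0
    · refine ⟨EuclideanSpace.single 0 1, by simp, fun v _ i => he' v ?_ i⟩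
      rw [h0]
      ext B
      simp [rg_op_apply]
    · set E : EuclideanSpace ℝ (Fin 9) := WithLp.toLp 2 e with hE
      have hE0 : E ≠ 0 := by
        intro h
        apply h0
        funext i
        have := congrArg (fun z : EuclideanSpace ℝ (Fin 9) => z i) h
        simpa [hE] using this
      have hn : ‖E‖ ≠ 0 := norm_ne_zero_iff.2 hE0
      refine ⟨‖E‖⁻¹ • E, by rw [norm_smul, norm_inv, norm_norm, inv_mul_cancel₀ hn], fun v hv i => he' v ?_ i⟩
      have h2 : ∑ j, (‖E‖⁻¹ • E) j • D j = ‖E‖⁻¹ • ∑ j, e j • D j := by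
        rw [Finset.smul_sum]
        exact Finset.sum_congr rfl fun j _ => by rw [PiLp.smul_apply, smul_eq_mul, mul_smul]
      rw [h2, rg_smul] at hv
      exact (smul_eq_zero.1 hv).resolve_left (inv_ne_zero hn)
  obtain ⟨e, he1, he⟩ := key
  refine ⟨e, he1, fun hd => ?_⟩
  obtain ⟨z, hz0, hz⟩ := Matrix.exists_mulVec_eq_zero_iff.2 hd
  apply hdet
  have hz' : rg_op (∑ j, e j • D j) (WithLp.toLp 2 z) = 0 := by
    ext B
    exact congrFun hz B
  have h1 : ∀ i, D i *ᵥ z = 0 := by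
    intro i
    have h2 := he _ hz' i
    funext B
    exact congrArg (fun w : AN.StdA.Ec dm => w B) h2
  refine Matrix.exists_mulVec_eq_zero_iff.1 ⟨z, hz0, ?_⟩
  rw [Matrix.sum_mulVec]
  refine Finset.sum_eq_zero fun i _ => ?_
  rw [← Matrix.mulVec_mulVec, h1, Matrix.mulVec_zero]

/-- **N3** rotated frames at regular points of the stratum -/
theorem reg (S : Setup d F) : RegStmt S := by
  intro dh dm ds dz φ ψ z₀ h η₀ hdet h1
  have hA := AX.Mz_anti S φ ψ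
  have hC := AX.Mz_comm S φ ψ h.std.sub h.cen
  have hanti : ∀ i, (AD.Dz S φ ψ η₀ i)ᵀ = - AD.Dz S φ ψ η₀ i := by
    intro i
    rw [← AX.DM_Mz]
    simp only [DM, Matrix.transpose_sum, Matrix.transpose_smul, hA, smul_neg, Finset.sum_neg_distrib]
  have hcomm : ∀ i j, AD.Dz S φ ψ η₀ i * AD.Dz S φ ψ η₀ j = AD.Dz S φ ψ η₀ j * AD.Dz S φ ψ η₀ i := by
    intro i j
    rw [← AX.DM_Mz]
    simp only [DM, Finset.sum_mul_sum, smul_mul_smul_comm]
    rw [Finset.sum_comm]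
    refine Finset.sum_congr rfl fun a _ => Finset.sum_congr rfl fun b _ => ?_
    rw [hC, mul_comm]
  obtain ⟨e, he1, hed⟩ := rg_unit _ hanti hcomm hdet
  obtain ⟨R, hR, hR8⟩ := AN.StdA.exists_rot e he1
  refine ⟨R, hR, ⟨⟨?_, ?_, ?_⟩, ?_, ?_⟩⟩
  · intro A B C
    rw [AX.rot_f]
    exact h.std.sub A B C
  · intro i B C
    simp only [AX.rot_f]
    rw [← ψ.sum_comp, Fintype.sum_sum_type]
    simp [AD.cmb, h.cen]
  · have h2 : (S.rot R hR 1 h1).Dy φ 8 (AD.cmb ψ 0 (rox R 1 η₀)) = ∑ j, e j • AD.Dz S φ ψ η₀ j := by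
      have h3 : (S.rot R hR 1 h1).Dy φ 8 (AD.cmb ψ 0 (rox R 1 η₀)) = AD.Dz S φ ψ (rox R 1 η₀) 8 := by
        ext B C
        simp only [AD.Dz, Setup.Dy, Setup.Dm, Matrix.of_apply, AX.rot_f]
      rw [h3, ← AX.DM_Mz, AX.rox_one, AX.DM_rz, AX.DM_Mz]
      exact Finset.sum_congr rfl fun j _ => by rw [hR8]
    rw [h2]
    exact hed
  · intro A B C
    rw [AX.rot_f]
    exact h.cen A B C
  · intro v hv
    refine h.less v fun B C => ?_
    have h2 := hv B C
    simp only [AX.rot_f] at h2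
    exact h2

end Vale.Agent.P353.Z.AJ
end
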