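import Mathlib
import Vale.Agent.P353.BdA.B2
import Vale.Agent.P353.BdZ.B17
import Vale.Agent.P353.BdA.B4
import Vale.Agent.P353.BdA.B12
import Vale.Agent.P353.BdA.B9
import Vale.Agent.P353.BdA.B1
import Vale.Agent.P353.BdA.B5
import Vale.Agent.P353.BdA.B19

set_option linter.all false

section

/-! # P353, all `N`, block G: G05 (angular momentum triples for all partitions) -/

namespace Vale.Agent.P353.AN.G.RepAux

open Matrix Finset Polynomial

/-- ladder relations -/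
structure Lad {m : Type*} [Fintype m] (z p : Matrix m m ℂ) : Prop where
  hz : z.conjTranspose = z
  c1 : p * p.conjTranspose - p.conjTranspose * p = (2 : ℂ) • z
  c2 : z * p - p * z = p

noncomputable def sz (n : ℕ) : Matrix (Fin n) (Fin n) ℂ :=
  Matrix.diagonal fun k => ((n : ℂ) - 1) / 2 - (k.val : ℂ)

noncomputable def sp (n : ℕ) : Matrix (Fin n) (Fin n) ℂ := fun a b =>
  if a.val + 1 = b.val then
    ((Real.sqrt (((a.val : ℝ) + 1) * ((n : ℝ) - 1 - a.val)) : ℝ) : ℂ) else 0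

lemma sp_sq (n : ℕ) (a : Fin n) :
    ((Real.sqrt (((a.val : ℝ) + 1) * ((n : ℝ) - 1 - a.val)) : ℝ) : ℂ) *
      ((Real.sqrt (((a.val : ℝ) + 1) * ((n : ℝ) - 1 - a.val)) : ℝ) : ℂ) =
      ((a.val : ℂ) + 1) * ((n : ℂ) - 1 - a.val) := by
  rw [← Complex.ofReal_mul, Real.mul_self_sqrt]
  · push_cast; ring
  · have h1 : (a.val : ℝ) + 1 ≤ n := by exact_mod_cast a.2
    have h2 : (0 : ℝ) ≤ a.val := by positivity
    apply mul_nonneg <;> linarith

lemma sp_mul (n : ℕ) : sp n * (sp n).conjTranspose =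
    Matrix.diagonal fun a => ((a.val : ℂ) + 1) * ((n : ℂ) - 1 - a.val) := by
  ext a b
  rw [Matrix.mul_apply, Matrix.diagonal_apply]
  simp only [Matrix.conjTranspose_apply, sp]
  by_cases hab : a = b
  · subst hab
    rw [if_pos rfl]
    by_cases h : a.val + 1 < n
    · rw [Finset.sum_eq_single (⟨a.val + 1, h⟩ : Fin n)]
      · rw [if_pos rfl, Complex.star_def, Complex.conj_ofReal, sp_sq]
      · intro c _ hc
        have : ¬ (a.val + 1 = c.val) := fun h' => hc (Fin.ext h'.symm)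
        rw [if_neg this, zero_mul]
      · intro h'; exact absurd (Finset.mem_univ _) h'
    · have hn : a.val + 1 = n := by have := a.2; omega
      rw [Finset.sum_eq_zero]
      · have : (n : ℂ) = (a.val : ℂ) + 1 := by exact_mod_cast hn.symm
        rw [this]; ring
      · intro c _
        have : ¬ (a.val + 1 = c.val) := by have := c.2; omega
        rw [if_neg this, zero_mul]
  · rw [if_neg hab]
    refine Finset.sum_eq_zero fun c _ => ?_
    by_cases h1 : a.val + 1 = c.val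
    · have h2 : ¬ (b.val + 1 = c.val) := fun h' => hab (Fin.ext (by omega))
      rw [if_neg h2, star_zero, mul_zero]
    · rw [if_neg h1, zero_mul]

lemma spH_mul (n : ℕ) : (sp n).conjTranspose * sp n =
    Matrix.diagonal fun a => (a.val : ℂ) * ((n : ℂ) - a.val) := by
  ext a b
  rw [Matrix.mul_apply, Matrix.diagonal_apply]
  simp only [Matrix.conjTranspose_apply, sp]
  by_cases hab : a = b
  · subst hab
    rw [if_pos rfl]
    by_cases h : 0 < a.val
    · have hlt : a.val - 1 < n := by have := a.2; omega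
      rw [Finset.sum_eq_single (⟨a.val - 1, hlt⟩ : Fin n)]
      · have h1 : (⟨a.val - 1, hlt⟩ : Fin n).val + 1 = a.val := by simp; omega
        rw [if_pos h1, Complex.star_def, Complex.conj_ofReal, sp_sq]
        have h2 : (((⟨a.val - 1, hlt⟩ : Fin n).val : ℕ) : ℂ) = (a.val : ℂ) - 1 := by
          have : (((⟨a.val - 1, hlt⟩ : Fin n).val + 1 : ℕ) : ℂ) = (a.val : ℂ) := by rw [h1]
          push_cast at this
          rw [← this]; ring
        rw [h2]; ring
      · intro c _ hc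
        have : ¬ (c.val + 1 = a.val) := fun h' => hc (Fin.ext (by simp; omega))
        rw [if_neg this, mul_zero]
      · intro h'; exact absurd (Finset.mem_univ _) h'
    · have hn : a.val = 0 := by omega
      rw [Finset.sum_eq_zero]
      · rw [hn]; simp
      · intro c _
        have : ¬ (c.val + 1 = a.val) := by omega
        rw [if_neg this, mul_zero]
  · rw [if_neg hab]
    refine Finset.sum_eq_zero fun c _ => ?_
    by_cases h1 : c.val + 1 = a.val
    · have h2 : ¬ (c.val + 1 = b.val) := fun h' => hab (Fin.ext (by omega))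
      rw [if_neg h2, mul_zero]
    · rw [if_neg h1, star_zero, zero_mul]

lemma lad_spin (n : ℕ) : Lad (sz n) (sp n) where
  hz := by
    rw [sz, Matrix.diagonal_conjTranspose]
    congr 1
    ext k
    simp
  c1 := by
    rw [sp_mul, spH_mul, sz, Matrix.diagonal_sub, ← Matrix.diagonal_smul]
    congr 1
    ext k
    simp only [Pi.smul_apply, smul_eq_mul]
    ring
  c2 := by
    ext a b
    rw [Matrix.sub_apply, sz, Matrix.diagonal_mul, Matrix.mul_diagonal]
    unfold sp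
    split_ifs with h
    · have : (b.val : ℂ) = (a.val : ℂ) + 1 := by exact_mod_cast h.symm
      rw [this]; ring
    · ring

lemma Lad.block {ι : Type*} [Fintype ι] [DecidableEq ι] (n : ι → ℕ) :
    Lad (Matrix.blockDiagonal' fun i => sz (n i)) (Matrix.blockDiagonal' fun i => sp (n i)) where
  hz := by
    rw [Matrix.blockDiagonal'_conjTranspose]
    congr 1
    ext1 i
    exact (lad_spin (n i)).hz
  c1 := by
    rw [Matrix.blockDiagonal'_conjTranspose, ← Matrix.blockDiagonal'_mul,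
      ← Matrix.blockDiagonal'_mul, ← Matrix.blockDiagonal'_sub, ← Matrix.blockDiagonal'_smul]
    congr 1
    ext1 i
    exact (lad_spin (n i)).c1
  c2 := by
    rw [← Matrix.blockDiagonal'_mul, ← Matrix.blockDiagonal'_mul, ← Matrix.blockDiagonal'_sub]
    congr 1
    ext1 i
    exact (lad_spin (n i)).c2

lemma Lad.reindex {m m' : Type*} [Fintype m] [Fintype m'] (e : m ≃ m')
    {z p : Matrix m m ℂ} (h : Lad z p) : Lad (Matrix.reindex e e z) (Matrix.reindex e e p) where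
  hz := by
    rw [Matrix.conjTranspose_reindex, h.hz]
  c1 := by
    rw [Matrix.conjTranspose_reindex]
    simp only [Matrix.reindex_apply]
    rw [Matrix.submatrix_mul_equiv, Matrix.submatrix_mul_equiv]
    exact congrArg (fun M : Matrix m m ℂ => M.submatrix e.symm e.symm) h.c1
  c2 := by
    simp only [Matrix.reindex_apply]
    rw [Matrix.submatrix_mul_equiv, Matrix.submatrix_mul_equiv]
    exact congrArg (fun M : Matrix m m ℂ => M.submatrix e.symm e.symm) h.c2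

/-- the triple of a ladder pair -/
noncomputable def tri {m : Type*} [Fintype m] (z p : Matrix m m ℂ) : Fin 3 → Matrix m m ℂ :=
  ![(1 / 2 : ℂ) • (p + p.conjTranspose), (-(Complex.I / 2)) • (p - p.conjTranspose), z]

open Vale.Agent.P353.Z.U in
lemma Lad.jt {N : ℕ} {z p : Matrix (Fin N) (Fin N) ℂ} (h : Lad z p) : Cnt.JT (tri z p) := by
  have hc3 : z * p.conjTranspose - p.conjTranspose * z = -p.conjTranspose := by
    have := congrArg Matrix.conjTranspose h.c2
    rw [Matrix.conjTranspose_sub, Matrix.conjTranspose_mul, Matrix.conjTranspose_mul, h.hz] at this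
    rw [← neg_sub, this]
  have e1 : z * p = p * z + p := by rw [← sub_eq_iff_eq_add', h.c2]
  have e2 : z * p.conjTranspose = p.conjTranspose * z - p.conjTranspose := by
    rw [sub_eq_add_neg, ← sub_eq_iff_eq_add', hc3]
  have e3 : p * p.conjTranspose = p.conjTranspose * p + (2 : ℂ) • z := by
    rw [← sub_eq_iff_eq_add', h.c1]
  constructor
  · intro k
    fin_cases k
    · show ((1 / 2 : ℂ) • (p + p.conjTranspose)).conjTranspose = (1 / 2 : ℂ) • (p + p.conjTranspose)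
      rw [Matrix.conjTranspose_smul, Matrix.conjTranspose_add, Matrix.conjTranspose_conjTranspose,
        add_comm]
      simp
    · show ((-(Complex.I / 2)) • (p - p.conjTranspose)).conjTranspose =
        (-(Complex.I / 2)) • (p - p.conjTranspose)
      rw [Matrix.conjTranspose_smul, Matrix.conjTranspose_sub, Matrix.conjTranspose_conjTranspose]
      have : star (-(Complex.I / 2)) = Complex.I / 2 := by
        simp only [Complex.star_def, map_neg, map_div₀, Complex.conj_I, map_ofNat]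
        ring
      rw [this]
      module
    · exact h.hz
  · intro k
    fin_cases k
    · show ((-(Complex.I / 2)) • (p - p.conjTranspose)) * z -
        z * ((-(Complex.I / 2)) • (p - p.conjTranspose)) =
        Complex.I • ((1 / 2 : ℂ) • (p + p.conjTranspose))
      rw [Matrix.smul_mul, Matrix.mul_smul, Matrix.sub_mul, Matrix.mul_sub, e1, e2]
      module
    · show z * ((1 / 2 : ℂ) • (p + p.conjTranspose)) - ((1 / 2 : ℂ) • (p + p.conjTranspose)) * z =
        Complex.I • ((-(Complex.I / 2)) • (p - p.conjTranspose))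
      rw [Matrix.smul_mul, Matrix.mul_smul, Matrix.add_mul, Matrix.mul_add, e1, e2, smul_smul]
      have : Complex.I * (-(Complex.I / 2)) = 1 / 2 := by
        have := Complex.I_mul_I
        linear_combination (-1 / 2 : ℂ) * this
      rw [this]
      module
    · show ((1 / 2 : ℂ) • (p + p.conjTranspose)) * ((-(Complex.I / 2)) • (p - p.conjTranspose)) -
        ((-(Complex.I / 2)) • (p - p.conjTranspose)) * ((1 / 2 : ℂ) • (p + p.conjTranspose)) =
        Complex.I • z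
      simp only [Matrix.smul_mul, Matrix.mul_smul, Matrix.add_mul, Matrix.mul_add, Matrix.sub_mul,
        Matrix.mul_sub, e3]
      module

/-- number of weights `s/2` in the spin of dimension `n` -/
def gs (s n : ℕ) : ℕ := ((Finset.range n).filter fun k => s + 1 + 2 * k = n).card

open Classical in
lemma gs_eq (s n : ℕ) : gs s n = gs (s + 2) n + if n = s + 1 then 1 else 0 := by
  have h0 : ∀ s n : ℕ, gs s n = if ∃ k, s + 1 + 2 * k = n then 1 else 0 := by
    intro s n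
    unfold gs
    split_ifs with h
    · obtain ⟨k, hk⟩ := h
      rw [Finset.card_eq_one]
      refine ⟨k, ?_⟩
      ext j
      simp only [Finset.mem_filter, Finset.mem_range, Finset.mem_singleton]
      omega
    · rw [Finset.card_eq_zero, Finset.filter_eq_empty_iff]
      intro k _ hk
      exact h ⟨k, hk⟩
  rw [h0, h0]
  by_cases h1 : n = s + 1
  · rw [if_pos h1, if_pos ⟨0, by omega⟩, if_neg]
    rintro ⟨k, hk⟩
    omega
  · rw [if_neg h1, add_zero]
    by_cases h2 : ∃ k, s + 1 + 2 * k = n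
    · rw [if_pos h2, if_pos]
      obtain ⟨k, hk⟩ := h2
      exact ⟨k - 1, by omega⟩
    · rw [if_neg h2, if_neg]
      rintro ⟨k, hk⟩
      exact h2 ⟨k + 1, by omega⟩

lemma parts_eq {P P' : Multiset ℕ} (h0 : 0 ∉ P) (h0' : 0 ∉ P')
    (h : ∀ s, (P.map (gs s)).sum = (P'.map (gs s)).sum) : P = P' := by
  have key : ∀ (Q : Multiset ℕ) (s : ℕ),
      (Q.map (gs s)).sum = (Q.map (gs (s + 2))).sum + Q.count (s + 1) := by
    intro Q s
    induction Q using Multiset.induction_on with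
    | empty => simp
    | cons a Q ih =>
      rw [Multiset.map_cons, Multiset.sum_cons, Multiset.map_cons, Multiset.sum_cons, ih,
        Multiset.count_cons, gs_eq s a]
      have : (if s + 1 = a then 1 else 0 : ℕ) = if a = s + 1 then 1 else 0 := by
        by_cases h : a = s + 1
        · rw [if_pos h, if_pos h.symm]
        · rw [if_neg h, if_neg (fun h' => h h'.symm)]
      rw [this]
      ring
  ext a
  rcases Nat.eq_zero_or_pos a with rfl | ha
  · rw [Multiset.count_eq_zero_of_notMem h0, Multiset.count_eq_zero_of_notMem h0']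
  · obtain ⟨s, rfl⟩ : ∃ s, a = s + 1 := ⟨a - 1, by omega⟩
    have h1 := key P s
    have h2 := key P' s
    rw [h s, h (s + 2)] at h1
    omega

/-- weights of a list of spins -/
noncomputable def wt (L : List ℕ) (q : Σ i : Fin L.length, Fin (L.get i)) : ℂ :=
  ((L.get q.1 : ℂ) - 1) / 2 - (q.2.val : ℂ)

open Classical in
lemma count_wt (L : List ℕ) (s : ℕ) :
    (Finset.univ.val.map (wt L)).count ((s : ℂ) / 2) = (L.map (gs s)).sum := by
  rw [Multiset.count_map]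
  have h1 : (Multiset.filter (fun a => (s : ℂ) / 2 = wt L a) Finset.univ.val).card =
      ∑ q : (Σ i : Fin L.length, Fin (L.get i)), if (s : ℂ) / 2 = wt L q then 1 else 0 := by
    rw [← Finset.card_filter]
    rfl
  rw [h1, Fintype.sum_sigma]
  have h2 : ∀ i : Fin L.length, (∑ k : Fin (L.get i), if (s : ℂ) / 2 = wt L ⟨i, k⟩ then 1 else 0)
      = gs s (L.get i) := by
    intro i
    rw [gs, Finset.card_filter, ← Fin.sum_univ_eq_sum_range (fun k => if s + 1 + 2 * k = L.get i then 1 else 0)]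
    refine Finset.sum_congr rfl fun k _ => ?_
    have : ((s : ℂ) / 2 = wt L ⟨i, k⟩) ↔ s + 1 + 2 * k.val = L.get i := by
      unfold wt
      constructor
      · intro h
        have h' : ((s + 1 + 2 * k.val : ℕ) : ℂ) = ((L.get i : ℕ) : ℂ) := by
          push_cast
          linear_combination 2 * h
        exact_mod_cast h'
      · intro h
        have h' : ((s + 1 + 2 * k.val : ℕ) : ℂ) = ((L.get i : ℕ) : ℂ) := by rw [h]
        push_cast at h'
        linear_combination (1 / 2 : ℂ) * h'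
    by_cases hh : s + 1 + 2 * k.val = L.get i
    · rw [if_pos hh, if_pos (this.2 hh)]
    · rw [if_neg hh, if_neg (fun h => hh (this.1 h))]
  rw [Finset.sum_congr rfl fun i _ => h2 i]
  exact Fin.sum_univ_fun_getElem L (gs s)


lemma charpoly_conj' {N : ℕ} (A U W : Matrix (Fin N) (Fin N) ℂ) (h1 : U * W = 1) (h2 : W * U = 1) :
    (U * A * W).charpoly = A.charpoly := by
  have h3 : U⁻¹ = W := Matrix.inv_eq_right_inv h1
  have h4 := Matrix.charpoly_units_conj (⟨U, W, h1, h2⟩ : (Matrix (Fin N) (Fin N) ℂ)ˣ) A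
  rw [← h3]
  exact h4

lemma sum_toList' (P : Multiset ℕ) (f : ℕ → ℕ) : (P.map f).sum = (P.toList.map f).sum := by
  conv_lhs => rw [← Multiset.coe_toList P]
  rw [Multiset.map_coe, Multiset.sum_coe]

/-- index equivalence -/
noncomputable def ie {N : ℕ} (π : Nat.Partition N) :
    (Σ i : Fin π.parts.toList.length, Fin (π.parts.toList.get i)) ≃ Fin N :=
  Fintype.equivFinOfCardEq (by
    rw [Fintype.card_sigma]
    simp only [Fintype.card_fin]
    have h1 : ∑ i, π.parts.toList.get i = π.parts.toList.sum :=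
      Fin.sum_univ_getElem π.parts.toList
    rw [h1, Multiset.sum_toList, π.parts_sum])

noncomputable def zz {N : ℕ} (π : Nat.Partition N) : Matrix (Fin N) (Fin N) ℂ :=
  Matrix.reindex (ie π) (ie π) (Matrix.blockDiagonal' fun i => sz (π.parts.toList.get i))

noncomputable def pp {N : ℕ} (π : Nat.Partition N) : Matrix (Fin N) (Fin N) ℂ :=
  Matrix.reindex (ie π) (ie π) (Matrix.blockDiagonal' fun i => sp (π.parts.toList.get i))

lemma zz_charpoly {N : ℕ} (π : Nat.Partition N) :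
    (zz π).charpoly.roots = Finset.univ.val.map (wt π.parts.toList) := by
  rw [zz, Matrix.charpoly_reindex]
  have h1 : (Matrix.blockDiagonal' fun i => sz (π.parts.toList.get i)) =
      Matrix.diagonal (wt π.parts.toList) := by
    unfold sz
    rw [Matrix.blockDiagonal'_diagonal]
    rfl
  rw [h1, Matrix.charpoly_diagonal, ← Polynomial.roots_multiset_prod_X_sub_C
    (Finset.univ.val.map (wt π.parts.toList)), Multiset.map_map]
  rfl

end Vale.Agent.P353.AN.G.RepAux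

namespace Vale.Agent.P353.AN.G

open Vale.Agent.P353.Z.U

/-- **G05** -/
theorem rep (N : ℕ) : RepStmt N := by
  refine ⟨fun π => RepAux.tri (RepAux.zz π) (RepAux.pp π), fun π => ?_, fun π π' V h => ?_⟩
  · exact (RepAux.Lad.reindex (RepAux.ie π) (RepAux.Lad.block _)).jt
  · have h2 : RepAux.zz π' = V.val * RepAux.zz π * V.val.conjTranspose := h 2
    have hV := (Matrix.mem_specialUnitaryGroup_iff.1 V.2).1
    have hu1 : V.val * V.val.conjTranspose = 1 := Matrix.mem_unitaryGroup_iff.1 hV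
    have hu2 : V.val.conjTranspose * V.val = 1 := Matrix.mem_unitaryGroup_iff'.1 hV
    have h3 : (RepAux.zz π').charpoly = (RepAux.zz π).charpoly := by
      rw [h2]
      exact RepAux.charpoly_conj' _ _ _ hu1 hu2
    have h4 := congrArg Polynomial.roots h3
    rw [RepAux.zz_charpoly, RepAux.zz_charpoly] at h4
    have h5 : π.parts = π'.parts := by
      refine RepAux.parts_eq (fun h0 => lt_irrefl _ (π.parts_pos h0))
        (fun h0 => lt_irrefl _ (π'.parts_pos h0)) fun s => ?_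
      classical
      have e1 := RepAux.count_wt π.parts.toList s
      have e2 := RepAux.count_wt π'.parts.toList s
      rw [h4] at e2
      have e3 := e1.symm.trans e2
      rw [RepAux.sum_toList', RepAux.sum_toList', e3]
    exact Nat.Partition.ext h5

end Vale.Agent.P353.AN.G
end

section

/-! # P353, all `N`: the theorem for the model as posed (BR3) -/

open MeasureTheory Filter Topology
open scoped ContDiff

namespace Vale.Agent.P353.Z.Fin1

variable {N d : ℕ} {F : Type*} [NormedAddCommGroup F] [InnerProductSpace ℂ F]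

/-- **BR3** the theorem for the model as posed -/
theorem top_of (M : BFSS.Model N d F) : TopOfStmt M := by
  intro hN hOne hBack
  have : FiniteDimensional ℂ F := U.finiteDimensional_of_model M
  obtain ⟨S, hS⟩ := U.setS M
  obtain ⟨Ψ₀, hZ, hne, huniq⟩ := hOne S hS
  refine ⟨fun x => Ψ₀ x, hBack S hS Ψ₀ hZ, ?_, ?_⟩
  · intro h
    refine hne ?_
    rw [Lp.eq_zero_iff_ae_eq_zero]
    exact h
  · intro Ψ hΨ
    have hm : MemLp Ψ 2 (volume : Measure (Cfg d)) := hΨ.1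
    obtain ⟨c, hc⟩ := huniq _ (U.bridge_of_gauss M (U.gaussLaw M) S hS Ψ hm hΨ)
    refine ⟨c, ?_⟩
    have h1 : ∀ᵐ x ∂(volume : Measure (Cfg d)), (hm.toLp Ψ : Cfg d → F) x = Ψ x := hm.coeFn_toLp
    have h2 : ∀ᵐ x ∂(volume : Measure (Cfg d)), (c • Ψ₀ : Lp F 2 _) x = c • Ψ₀ x :=
      Lp.coeFn_smul c Ψ₀
    rw [BFSS.leb]
    filter_upwards [h1, h2] with x hx1 hx2
    rw [← hx1, hc, hx2]

end Vale.Agent.P353.Z.Fin1
end

section

/-! # P353, all `N`: change of the universe of the fermion space (UNIV) -/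

open MeasureTheory Filter Topology
open scoped ContDiff

namespace Vale.Agent.P353.Z.Fin1

universe u v

section UVRel

variable {N d : ℕ} {F : Type u} [NormedAddCommGroup F] [InnerProductSpace ℂ F]
  {E : Type v} [NormedAddCommGroup E] [InnerProductSpace ℂ E]

/-- two models are intertwined by a unitary map -/
structure UVRel (M : BFSS.Model N d F) (M' : BFSS.Model N d E) (e : F ≃ₗᵢ[ℂ] E) : Prop where
  hT : M'.T = M.T
  hf : M'.f = M.f
  hg : M'.γ = M.γ
  hth : ∀ α A v, M'.θ α A (e v) = e (M.θ α A v)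
  hS : ∀ U v, M'.S U (e v) = e (M.S U v)

theorem UVRel.symm {M : BFSS.Model N d F} {M' : BFSS.Model N d E} {e : F ≃ₗᵢ[ℂ] E}
    (h : UVRel M M' e) : UVRel M' M e.symm where
  hT := h.hT.symm
  hf := h.hf.symm
  hg := h.hg.symm
  hth := fun α A v => by
    apply e.injective
    rw [← h.hth, e.apply_symm_apply, e.apply_symm_apply]
  hS := fun U v => by
    apply e.injective
    rw [← h.hS, e.apply_symm_apply, e.apply_symm_apply]

/-- the unitary map as a real continuous linear equivalence -/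
noncomputable def uvR (e : F ≃ₗᵢ[ℂ] E) : F ≃L[ℝ] E where
  toLinearEquiv := e.toLinearEquiv.restrictScalars ℝ
  continuous_toFun := e.continuous
  continuous_invFun := e.symm.continuous

theorem uv_pd (e : F ≃ₗᵢ[ℂ] E) (i : Fin 9) (A : Fin d) (w : BFSS.Conf d → F) (x : BFSS.Conf d) :
    BFSS.pd i A (fun y => e (w y)) x = e (BFSS.pd i A w x) := by
  unfold BFSS.pd lineDeriv
  have h := (uvR e).comp_fderiv (f := fun t : ℝ => w (x + t • EuclideanSpace.single (i, A) 1)) (x := (0 : ℝ))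
  have h2 := congrArg (fun L : ℝ →L[ℝ] E => L 1) h
  exact h2

theorem uv_Q {M : BFSS.Model N d F} {M' : BFSS.Model N d E} {e : F ≃ₗᵢ[ℂ] E}
    (h : UVRel M M' e) (α : Fin 16) (w : BFSS.Conf d → F) (x : BFSS.Conf d) :
    M'.Q α (fun y => e (w y)) x = e (M.Q α w x) := by
  unfold BFSS.Model.Q BFSS.Model.γ2
  rw [h.hf, h.hg]
  simp only [uv_pd, h.hth, map_add, map_smul, map_sum]

theorem uv_act {M : BFSS.Model N d F} {M' : BFSS.Model N d E} {e : F ≃ₗᵢ[ℂ] E}
    (h : UVRel M M' e) (U : BFSS.SU N) (x : BFSS.Conf d) : M'.act U x = M.act U x := by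
  unfold BFSS.Model.act
  rw [h.hT]

theorem uv_core {M : BFSS.Model N d F} {M' : BFSS.Model N d E} {e : F ≃ₗᵢ[ℂ] E}
    (h : UVRel M M' e) {w : BFSS.Conf d → F} (hw : M.IsCore w) : M'.IsCore (fun x => e (w x)) := by
  refine ⟨?_, ?_, ?_⟩
  · exact (uvR e).contDiff.comp hw.1
  · exact hw.2.1.comp_left (g := e) e.map_zero
  · intro U x
    change e (w (M'.act U x)) = M'.S U (e (w x))
    rw [uv_act h, hw.2.2, h.hS]

theorem uv_form {M : BFSS.Model N d F} {M' : BFSS.Model N d E} {e : F ≃ₗᵢ[ℂ] E}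
    (h : UVRel M M' e) (φ w : BFSS.Conf d → F) :
    M'.form (fun x => e (φ x)) (fun x => e (w x)) = M.form φ w := by
  unfold BFSS.Model.form
  simp only [uv_Q h, LinearIsometryEquiv.inner_map_map]

theorem uv_zes {M : BFSS.Model N d F} {M' : BFSS.Model N d E} {e : F ≃ₗᵢ[ℂ] E}
    (h : UVRel M M' e) {Ψ : BFSS.Conf d → F} (hΨ : M.IsZeroEnergyState Ψ) :
    M'.IsZeroEnergyState (fun x => e (Ψ x)) := by
  obtain ⟨hm, w, hw, h1, h2, h3⟩ := hΨ
  refine ⟨?_, fun n x => e (w n x), fun n => uv_core h (hw n), ?_, ?_, ?_⟩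
  · exact (e.toContinuousLinearEquiv : F →L[ℂ] E).comp_memLp' hm
  · have : ∀ n x, ‖e (w n x) - e (Ψ x)‖ = ‖w n x - Ψ x‖ := fun n x => by
      rw [← map_sub, e.norm_map]
    simpa only [this] using h1
  · have : ∀ p : ℕ × ℕ, M'.form (fun x => e (w p.1 x) - e (w p.2 x)) (fun x => e (w p.1 x) - e (w p.2 x)) =
        M.form (fun x => w p.1 x - w p.2 x) fun x => w p.1 x - w p.2 x := fun p => by
      rw [← uv_form h]
      simp only [map_sub]
    simpa only [this] using h2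
  · intro φ hφ
    have hc : M.IsCore (fun x => e.symm (φ x)) := uv_core h.symm hφ
    have h4 := h3 _ hc
    have : ∀ n, M'.form φ (fun x => e (w n x)) = M.form (fun x => e.symm (φ x)) (w n) := fun n => by
      rw [← uv_form h]
      simp only [LinearIsometryEquiv.apply_symm_apply]
    simpa only [this] using h4

/-- uniqueness is transported by a unitary intertwiner -/
theorem uv_uniq {M : BFSS.Model N d F} {M' : BFSS.Model N d E} {e : F ≃ₗᵢ[ℂ] E}
    (h : UVRel M M' e) (hU : Uniq M') : Uniq M := by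
  obtain ⟨Φ, hZ, hne, hun⟩ := hU
  refine ⟨fun x => e.symm (Φ x), uv_zes h.symm hZ, ?_, ?_⟩
  · intro h0
    refine hne ?_
    filter_upwards [h0] with x hx
    exact e.symm.injective (by rw [hx, map_zero])
  · intro Ψ hΨ
    obtain ⟨c, hc⟩ := hun _ (uv_zes h hΨ)
    refine ⟨c, ?_⟩
    filter_upwards [hc] with x hx
    rw [← map_smul, ← hx, e.symm_apply_apply]

/-- the transported model -/
noncomputable def uvMod (M : BFSS.Model N d F) (e : F ≃ₗᵢ[ℂ] E) : BFSS.Model N d E where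
  dim_eq := M.dim_eq
  T := M.T
  T_hermitian := M.T_hermitian
  T_traceless := M.T_traceless
  T_orthonormal := M.T_orthonormal
  f := M.f
  T_comm := M.T_comm
  γ := M.γ
  γ_symm := M.γ_symm
  γ_anticomm := M.γ_anticomm
  θ := fun α A => ((e.toContinuousLinearEquiv : F →L[ℂ] E).comp (M.θ α A)).comp
    (e.symm.toContinuousLinearEquiv : E →L[ℂ] F)
  θ_selfAdjoint := fun α A v w => by
    change inner ℂ (e (M.θ α A (e.symm v))) w = inner ℂ v (e (M.θ α A (e.symm w)))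
    have h1 : inner ℂ (e (M.θ α A (e.symm v))) w = inner ℂ (M.θ α A (e.symm v)) (e.symm w) := by
      conv_lhs => rw [← e.apply_symm_apply w]
      rw [e.inner_map_map]
    have h2 : inner ℂ v (e (M.θ α A (e.symm w))) = inner ℂ (e.symm v) (M.θ α A (e.symm w)) := by
      conv_lhs => rw [← e.apply_symm_apply v]
      rw [e.inner_map_map]
    rw [h1, h2, M.θ_selfAdjoint]
  θ_anticomm := fun α A β B v => by
    change e (M.θ α A (e.symm (e (M.θ β B (e.symm v))))) + e (M.θ β B (e.symm (e (M.θ α A (e.symm v))))) = _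
    rw [e.symm_apply_apply, e.symm_apply_apply, ← map_add, M.θ_anticomm]
    split_ifs
    · rw [e.apply_symm_apply]
    · rw [map_zero]
  θ_irreducible := fun W hW => by
    have h1 := M.θ_irreducible (W.comap (e.toLinearEquiv : F →ₗ[ℂ] E)) (fun α A v hv => by
      rw [Submodule.mem_comap] at hv ⊢
      have h2 := hW α A _ hv
      change e (M.θ α A (e.symm (e v))) ∈ W at h2
      rw [e.symm_apply_apply] at h2
      exact h2)
    rcases h1 with h1 | h1
    · left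
      rw [Submodule.eq_bot_iff]
      intro x hx
      have h2 : e.symm x ∈ W.comap (e.toLinearEquiv : F →ₗ[ℂ] E) := by
        rw [Submodule.mem_comap]
        change e (e.symm x) ∈ W
        rwa [e.apply_symm_apply]
      rw [h1, Submodule.mem_bot] at h2
      have h3 := congrArg e h2
      rwa [e.apply_symm_apply, map_zero] at h3
    · right
      rw [Submodule.eq_top_iff']
      intro x
      have h2 : e.symm x ∈ W.comap (e.toLinearEquiv : F →ₗ[ℂ] E) := by
        rw [h1]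
        exact Submodule.mem_top
      rw [Submodule.mem_comap] at h2
      change e (e.symm x) ∈ W at h2
      rwa [e.apply_symm_apply] at h2
  nontrivial := by
    obtain ⟨v, hv⟩ := M.nontrivial
    exact ⟨e v, fun h => hv (by rw [← e.symm_apply_apply v, h, map_zero])⟩
  S := fun U => ((e.toContinuousLinearEquiv : F →L[ℂ] E).comp (M.S U)).comp
    (e.symm.toContinuousLinearEquiv : E →L[ℂ] F)
  S_mul := fun U U' v => by
    change e (M.S (U * U') (e.symm v)) = e (M.S U (e.symm (e (M.S U' (e.symm v)))))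
    rw [e.symm_apply_apply, M.S_mul]
  S_isometry := fun U v => by
    change ‖e (M.S U (e.symm v))‖ = ‖v‖
    rw [e.norm_map, M.S_isometry, e.symm.norm_map]
  S_continuous := fun v => e.continuous.comp (M.S_continuous (e.symm v))
  S_rotates := fun U α A v => by
    change e (M.S U (e.symm (e (M.θ α A (e.symm v))))) =
      ∑ B, (BFSS.adCoeff M.T U B A : ℂ) • e (M.θ α B (e.symm (e (M.S U (e.symm v)))))
    rw [e.symm_apply_apply, M.S_rotates, map_sum]
    refine Finset.sum_congr rfl fun B _ => ?_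
    rw [map_smul, e.symm_apply_apply]

theorem uvMod_rel (M : BFSS.Model N d F) (e : F ≃ₗᵢ[ℂ] E) : UVRel M (uvMod M e) e where
  hT := rfl
  hf := rfl
  hg := rfl
  hth := fun α A v => by
    change e (M.θ α A (e.symm (e v))) = e (M.θ α A v)
    rw [e.symm_apply_apply]
  hS := fun U v => by
    change e (M.S U (e.symm (e v))) = e (M.S U v)
    rw [e.symm_apply_apply]

end UVRel

/-- **UNIV** -/
theorem univS : UnivStmt.{u} := by
  intro h0 N d F _ _ M hN
  have : FiniteDimensional ℂ F := U.finiteDimensional_of_model M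
  exact uv_uniq (uvMod_rel M (stdOrthonormalBasis ℂ F).repr) (h0 N d _ _ hN)

end Vale.Agent.P353.Z.Fin1
end

section

/-! # P353, all `N`, block D, L7: families of normalised Gaussians (abstract part, second prover helper6) -/

open MeasureTheory Filter Topology Matrix
open scoped ContDiff

namespace Vale.Agent.P353.Z.AD.GnB

set_option linter.unusedSectionVars false

variable {ι : Type*} [Fintype ι] [DecidableEq ι] {E : Type*} [NormedAddCommGroup E] [NormedSpace ℝ E]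

/-- quadratic form with matrix `A z` -/
noncomputable def qa (A : E → Matrix ι ι ℝ) (z : E) (w : EuclideanSpace ℝ ι) : ℝ :=
  (fun p => w p) ⬝ᵥ (A z *ᵥ fun p => w p)

/-- normalised Gaussian -/
noncomputable def ga (A : E → Matrix ι ι ℝ) (z : E) (w : EuclideanSpace ℝ ι) : ℝ :=
  Real.exp (-(1 / 2) * qa A z w) / Real.sqrt (∫ w' : EuclideanSpace ℝ ι, Real.exp (-(1 / 2) * qa A z w') ^ 2)

/-- the normalisation factor -/
noncomputable def nrm (A : E → Matrix ι ι ℝ) (z : E) : ℝ :=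
  1 / Real.sqrt ((Real.sqrt (A z).det)⁻¹ * Real.pi ^ ((Fintype.card ι : ℝ) / 2))

lemma qa_sum (A : E → Matrix ι ι ℝ) (z : E) (w : EuclideanSpace ℝ ι) :
    qa A z w = ∑ p, ∑ q, w p * w q * A z p q := by
  unfold qa
  simp only [dotProduct, mulVec, Finset.mul_sum]
  refine Finset.sum_congr rfl fun p _ => Finset.sum_congr rfl fun q _ => ?_
  ring

lemma qa_smul (A : E → Matrix ι ι ℝ) (z : E) (t : ℝ) (w : EuclideanSpace ℝ ι) :
    qa A z (t • w) = t ^ 2 * qa A z w := by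
  rw [qa_sum, qa_sum, Finset.mul_sum]
  refine Finset.sum_congr rfl fun p _ => ?_
  rw [Finset.mul_sum]
  refine Finset.sum_congr rfl fun q _ => ?_
  simp only [PiLp.smul_apply, smul_eq_mul]
  ring

lemma qa_neg (A : E → Matrix ι ι ℝ) (z : E) (w : EuclideanSpace ℝ ι) : qa A z (-w) = qa A z w := by
  have := qa_smul A z (-1) w
  simpa using this

/-- Gaussian integral of a positive definite matrix -/
lemma gauss_pd (M : Matrix ι ι ℝ) (hs : Mᵀ = M) (hp : ∀ v : ι → ℝ, v ≠ 0 → 0 < v ⬝ᵥ (M *ᵥ v)) :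
    0 < M.det ∧ Integrable (fun w : EuclideanSpace ℝ ι => Real.exp (-((fun p => w p) ⬝ᵥ (M *ᵥ fun p => w p)))) ∧
    ∫ w : EuclideanSpace ℝ ι, Real.exp (-((fun p => w p) ⬝ᵥ (M *ᵥ fun p => w p))) =
      (Real.sqrt M.det)⁻¹ * Real.pi ^ ((Fintype.card ι : ℝ) / 2) := by
  have hPD : M.PosDef := by
    refine Matrix.PosDef.of_dotProduct_mulVec_pos ?_ ?_
    · rw [Matrix.IsHermitian, Matrix.conjTranspose_eq_transpose_of_trivial]
      exact hs
    · intro v hv
      simpa using hp v hv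
  obtain ⟨B, hBp, hB', -⟩ := OmPf.omp_sqrt hPD
  have hBt : Bᵀ = B := by
    have := hBp.1
    rwa [Matrix.IsHermitian, Matrix.conjTranspose_eq_transpose_of_trivial] at this
  have hB : M = Bᵀ * B := by rw [hBt, hB']
  have hdet : M.det = B.det ^ 2 := by
    rw [hB, Matrix.det_mul, Matrix.det_transpose, sq]
  have hMd := hPD.det_pos
  have hBd : B.det ≠ 0 := by
    intro h
    rw [hdet, h] at hMd
    simp at hMd
  have hq : ∀ w : EuclideanSpace ℝ ι, (fun p => w p) ⬝ᵥ (M *ᵥ fun p => w p) = ∑ p, (B *ᵥ fun q => w q) p ^ 2 := by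
    intro w
    rw [hB, ← mulVec_mulVec, dotProduct_mulVec, vecMul_transpose]
    simp only [dotProduct, sq]
  obtain ⟨h1, h2⟩ := AX.GsA.lin_gauss B hBd
  refine ⟨hMd, ?_, ?_⟩
  · simpa only [hq] using h1
  · simp only [hq]
    rw [h2, hdet, Real.sqrt_sq_eq_abs]

variable {A : E → Matrix ι ι ℝ} {U : Set E}

lemma qa_cd (hA : ∀ p q, ContDiffOn ℝ ∞ (fun z => A z p q) U) :
    ContDiffOn ℝ ∞ (fun p : E × EuclideanSpace ℝ ι => qa A p.1 p.2) {p | p.1 ∈ U} := by
  have h : (fun p : E × EuclideanSpace ℝ ι => qa A p.1 p.2) =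
      fun x => ∑ p, ∑ q, x.2 p * x.2 q * A x.1 p q := by
    funext x
    exact qa_sum A x.1 x.2
  rw [h]
  refine ContDiffOn.sum fun p _ => ContDiffOn.sum fun q _ => ?_
  refine ContDiffOn.mul (ContDiffOn.mul ?_ ?_) ?_
  · exact ((EuclideanSpace.proj (𝕜 := ℝ) p).contDiff.comp contDiff_snd).contDiffOn
  · exact ((EuclideanSpace.proj (𝕜 := ℝ) q).contDiff.comp contDiff_snd).contDiffOn
  · exact (hA p q).comp contDiff_fst.contDiffOn fun x hx => hx

lemma det_cd (hA : ∀ p q, ContDiffOn ℝ ∞ (fun z => A z p q) U) :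
    ContDiffOn ℝ ∞ (fun z => (A z).det) U := by
  have h : (fun z => (A z).det) = fun z => ∑ σ : Equiv.Perm ι, ((Equiv.Perm.sign σ : ℤ) : ℝ) * ∏ i, A z (σ i) i := by
    funext z
    rw [Matrix.det_apply']
  rw [h]
  refine ContDiffOn.sum fun σ _ => ?_
  refine contDiffOn_const.mul ?_
  exact contDiffOn_prod fun i _ => hA (σ i) i

section PD

variable (hA : ∀ p q, ContDiffOn ℝ ∞ (fun z => A z p q) U) (hs : ∀ z ∈ U, (A z)ᵀ = A z)
  (hp : ∀ z ∈ U, ∀ v : ι → ℝ, v ≠ 0 → 0 < v ⬝ᵥ (A z *ᵥ v))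

lemma exp_sq (A : E → Matrix ι ι ℝ) (z : E) (w : EuclideanSpace ℝ ι) :
    Real.exp (-(1 / 2) * qa A z w) ^ 2 = Real.exp (-((fun p => w p) ⬝ᵥ (A z *ᵥ fun p => w p))) := by
  rw [← Real.exp_nat_mul]
  congr 1
  unfold qa
  push_cast
  ring

include hs hp in
lemma int_val {z : E} (hz : z ∈ U) :
    ∫ w' : EuclideanSpace ℝ ι, Real.exp (-(1 / 2) * qa A z w') ^ 2 =
      (Real.sqrt (A z).det)⁻¹ * Real.pi ^ ((Fintype.card ι : ℝ) / 2) := by
  simp only [exp_sq]
  exact (gauss_pd (A z) (hs z hz) (hp z hz)).2.2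

include hs hp in
lemma int_pos {z : E} (hz : z ∈ U) : 0 < (Real.sqrt (A z).det)⁻¹ * Real.pi ^ ((Fintype.card ι : ℝ) / 2) := by
  have h := (gauss_pd (A z) (hs z hz) (hp z hz)).1
  have h2 : 0 < Real.sqrt (A z).det := Real.sqrt_pos.2 h
  have h3 : 0 < Real.pi ^ ((Fintype.card ι : ℝ) / 2) := Real.rpow_pos_of_pos Real.pi_pos _
  positivity

include hs hp in
lemma ga_eq {z : E} (hz : z ∈ U) (w : EuclideanSpace ℝ ι) :
    ga A z w = nrm A z * Real.exp (-(1 / 2) * qa A z w) := by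
  unfold ga nrm
  rw [int_val hs hp hz]
  ring

include hs hp in
lemma nrm_pos {z : E} (hz : z ∈ U) : 0 < nrm A z := by
  unfold nrm
  have := Real.sqrt_pos.2 (int_pos hs hp hz)
  positivity

include hA hs hp in
lemma nrm_cd : ContDiffOn ℝ ∞ (fun z => nrm A z) U := by
  unfold nrm
  refine ContDiffOn.div contDiffOn_const ?_ fun z hz => (Real.sqrt_pos.2 (int_pos hs hp hz)).ne'
  refine ContDiffOn.sqrt ?_ fun z hz => (int_pos hs hp hz).ne'
  refine ContDiffOn.mul ?_ contDiffOn_const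
  refine ContDiffOn.inv ?_ fun z hz => (Real.sqrt_pos.2 (gauss_pd (A z) (hs z hz) (hp z hz)).1).ne'
  exact ContDiffOn.sqrt (det_cd hA) fun z hz => (gauss_pd (A z) (hs z hz) (hp z hz)).1.ne'

include hA hs hp in
/-- (1) smoothness -/
theorem ga_cd : ContDiffOn ℝ ∞ (fun p : E × EuclideanSpace ℝ ι => ga A p.1 p.2) {p | p.1 ∈ U} := by
  have h : ContDiffOn ℝ ∞ (fun p : E × EuclideanSpace ℝ ι => nrm A p.1 * Real.exp (-(1 / 2) * qa A p.1 p.2)) {p | p.1 ∈ U} := by
    refine ContDiffOn.mul ((nrm_cd hA hs hp).comp contDiff_fst.contDiffOn fun x hx => hx) ?_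
    exact ContDiffOn.exp (contDiffOn_const.mul (qa_cd hA))
  exact h.congr fun p hp' => ga_eq hs hp hp' p.2

include hs hp in
/-- (3) normalisation -/
theorem ga_norm {z : E} (hz : z ∈ U) : ∫ w : EuclideanSpace ℝ ι, ga A z w ^ 2 = 1 := by
  unfold ga
  simp only [div_pow]
  rw [integral_div, Real.sq_sqrt (integral_nonneg fun w => by positivity), div_self]
  rw [int_val hs hp hz]
  exact (int_pos hs hp hz).ne'

theorem ga_even (A : E → Matrix ι ι ℝ) (z : E) (w : EuclideanSpace ℝ ι) : ga A z (-w) = ga A z w := by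
  unfold ga
  rw [qa_neg]

include hA hp in
lemma qa_low {K : Set E} (hK : IsCompact K) (hKU : K ⊆ U) :
    ∃ c : ℝ, 0 < c ∧ ∀ z ∈ K, ∀ w : EuclideanSpace ℝ ι, c * ‖w‖ ^ 2 ≤ qa A z w := by
  have hzero : ∀ z, qa A z 0 = 0 := by
    intro z
    have := qa_smul A z 0 0
    simpa using this
  have hcomp : IsCompact (K ×ˢ Metric.sphere (0 : EuclideanSpace ℝ ι) 1) := hK.prod (isCompact_sphere _ _)
  have hcont : ContinuousOn (fun p : E × EuclideanSpace ℝ ι => qa A p.1 p.2) (K ×ˢ Metric.sphere (0 : EuclideanSpace ℝ ι) 1) :=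
    (qa_cd hA).continuousOn.mono fun p hp' => hKU hp'.1
  rcases (K ×ˢ Metric.sphere (0 : EuclideanSpace ℝ ι) 1).eq_empty_or_nonempty with he | hne
  · refine ⟨1, one_pos, fun z hz w => ?_⟩
    by_cases hw : w = 0
    · rw [hw, hzero]; simp
    · exfalso
      have hn : 0 < ‖w‖ := norm_pos_iff.2 hw
      have : ((z, ‖w‖⁻¹ • w) : E × EuclideanSpace ℝ ι) ∈ K ×ˢ Metric.sphere (0 : EuclideanSpace ℝ ι) 1 := by
        refine ⟨hz, ?_⟩
        rw [mem_sphere_zero_iff_norm, norm_smul, norm_inv, norm_norm, inv_mul_cancel₀ hn.ne']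
      rw [he] at this
      exact this
  · obtain ⟨p0, hp0, hmin⟩ := hcomp.exists_isMinOn hne hcont
    refine ⟨qa A p0.1 p0.2, ?_, fun z hz w => ?_⟩
    · refine hp p0.1 (hKU hp0.1) _ ?_
      intro h
      have h1 : p0.2 = 0 := by
        ext p
        exact congrFun h p
      have h2 := hp0.2
      rw [h1] at h2
      simp at h2
    · by_cases hw : w = 0
      · rw [hw, hzero]; simp
      have hn : 0 < ‖w‖ := norm_pos_iff.2 hw
      have h1 := hmin (show ((z, ‖w‖⁻¹ • w) : E × EuclideanSpace ℝ ι) ∈ K ×ˢ Metric.sphere (0 : EuclideanSpace ℝ ι) 1 from by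
        refine ⟨hz, ?_⟩
        rw [mem_sphere_zero_iff_norm, norm_smul, norm_inv, norm_norm, inv_mul_cancel₀ hn.ne'])
      simp only [Set.mem_ofPred_eq, qa_smul] at h1
      calc qa A p0.1 p0.2 * ‖w‖ ^ 2 ≤ (‖w‖⁻¹ ^ 2 * qa A z w) * ‖w‖ ^ 2 :=
            mul_le_mul_of_nonneg_right h1 (by positivity)
        _ = qa A z w := by field_simp

/-- bound of a continuous function on a compact set -/
lemma bdK {K : Set E} (hK : IsCompact K) {X : Type*} [NormedAddCommGroup X] {f : E → X} (hf : ContinuousOn f K) :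
    ∃ C : ℝ, 0 ≤ C ∧ ∀ z ∈ K, ‖f z‖ ≤ C := by
  obtain ⟨C, hC⟩ := hK.exists_bound_of_continuousOn hf
  exact ⟨max C 0, le_max_right _ _, fun z hz => (hC z hz).trans (le_max_left _ _)⟩

lemma qa_hasD (hU : IsOpen U) (hA : ∀ p q, ContDiffOn ℝ ∞ (fun z => A z p q) U) {z : E} (hz : z ∈ U)
    (w : EuclideanSpace ℝ ι) :
    HasFDerivAt (fun z => qa A z w) (∑ p, ∑ q, (w p * w q) • fderiv ℝ (fun z => A z p q) z) z := by
  have h : (fun z => qa A z w) = fun z => ∑ p, ∑ q, w p * w q * A z p q := by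
    funext z
    exact qa_sum A z w
  rw [h]
  refine HasFDerivAt.fun_sum fun p _ => HasFDerivAt.fun_sum fun q _ => ?_
  have h1 : HasFDerivAt (fun z => A z p q) (fderiv ℝ (fun z => A z p q) z) z :=
    (((hA p q).contDiffAt (hU.mem_nhds hz)).differentiableAt (by simp)).hasFDerivAt
  exact h1.const_mul (w p * w q)

include hA hs hp in
/-- (2) bounds on compact sets -/
theorem ga_bd (hU : IsOpen U) {K : Set E} (hK : IsCompact K) (hKU : K ⊆ U) :
    ∃ c C : ℝ, 0 < c ∧ 0 < C ∧ ∀ z ∈ K, ∀ w : EuclideanSpace ℝ ι,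
      (0 ≤ ga A z w ∧ ga A z w ≤ C * Real.exp (-(c * ‖w‖ ^ 2))) ∧
      ∀ v : E, |fderiv ℝ (fun z => ga A z w) z v| ≤ C * ‖v‖ * Real.exp (-(c * ‖w‖ ^ 2)) := by
  obtain ⟨c, hc, hlow⟩ := qa_low hA hp hK hKU
  obtain ⟨C0, hC0, hN⟩ := bdK hK ((nrm_cd hA hs hp).continuousOn.mono hKU)
  obtain ⟨C1, hC1, hN1⟩ := bdK hK (((nrm_cd hA hs hp).continuousOn_fderiv_of_isOpen hU (by simp)).mono hKU)
  have hD : ∀ p q, ∃ C : ℝ, 0 ≤ C ∧ ∀ z ∈ K, ‖fderiv ℝ (fun z => A z p q) z‖ ≤ C := fun p q =>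
    bdK hK (((hA p q).continuousOn_fderiv_of_isOpen hU (by simp)).mono hKU)
  choose CD hCD hCDb using hD
  set C2 : ℝ := ∑ p, ∑ q, CD p q with hC2
  have hC2n : 0 ≤ C2 := Finset.sum_nonneg fun p _ => Finset.sum_nonneg fun q _ => hCD p q
  have hexp : ∀ z ∈ K, ∀ w : EuclideanSpace ℝ ι, Real.exp (-(1 / 2) * qa A z w) ≤
      Real.exp (-(c / 4 * ‖w‖ ^ 2)) * Real.exp (-(c / 4 * ‖w‖ ^ 2)) := by
    intro z hz w
    rw [← Real.exp_add, Real.exp_le_exp]
    have := hlow z hz w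
    linarith
  have hle1 : ∀ w : EuclideanSpace ℝ ι, Real.exp (-(c / 4 * ‖w‖ ^ 2)) ≤ 1 := by
    intro w
    rw [Real.exp_le_one_iff]
    have : 0 ≤ c / 4 * ‖w‖ ^ 2 := by positivity
    linarith
  have hsq : ∀ w : EuclideanSpace ℝ ι, ‖w‖ ^ 2 * Real.exp (-(c / 4 * ‖w‖ ^ 2)) ≤ 4 / c := by
    intro w
    have h1 := Real.add_one_le_exp (c / 4 * ‖w‖ ^ 2)
    rw [Real.exp_neg, ← div_eq_mul_inv, div_le_iff₀ (Real.exp_pos _)]
    have h2 : 4 / c * (c / 4 * ‖w‖ ^ 2 + 1) ≤ 4 / c * Real.exp (c / 4 * ‖w‖ ^ 2) :=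
      mul_le_mul_of_nonneg_left h1 (by positivity)
    have h3 : 4 / c * (c / 4 * ‖w‖ ^ 2 + 1) = ‖w‖ ^ 2 + 4 / c := by field_simp
    have h4 : 0 < 4 / c := by positivity
    linarith
  refine ⟨c / 4, C0 + C1 + C0 * C2 * (4 / c) + 1, by positivity, by positivity, fun z hz w => ⟨⟨?_, ?_⟩, fun v => ?_⟩⟩
  · rw [ga_eq hs hp (hKU hz)]
    have := nrm_pos hs hp (hKU hz)
    positivity
  · rw [ga_eq hs hp (hKU hz)]
    have h1 := nrm_pos hs hp (hKU hz)
    have h2 : nrm A z ≤ C0 := by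
      have := hN z hz
      rwa [Real.norm_eq_abs, abs_of_pos h1] at this
    calc nrm A z * Real.exp (-(1 / 2) * qa A z w) ≤ C0 * (Real.exp (-(c / 4 * ‖w‖ ^ 2)) * Real.exp (-(c / 4 * ‖w‖ ^ 2))) :=
          mul_le_mul h2 (hexp z hz w) (Real.exp_pos _).le hC0
      _ ≤ C0 * (1 * Real.exp (-(c / 4 * ‖w‖ ^ 2))) := by
          refine mul_le_mul_of_nonneg_left ?_ hC0
          exact mul_le_mul_of_nonneg_right (hle1 w) (Real.exp_pos _).le
      _ ≤ (C0 + C1 + C0 * C2 * (4 / c) + 1) * Real.exp (-(c / 4 * ‖w‖ ^ 2)) := by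
          rw [one_mul]
          refine mul_le_mul_of_nonneg_right ?_ (Real.exp_pos _).le
          have : 0 ≤ C0 * C2 * (4 / c) := by positivity
          linarith
  · have hz' := hKU hz
    have hev : (fun z => ga A z w) =ᶠ[𝓝 z] fun z => nrm A z * Real.exp (-(1 / 2) * qa A z w) := by
      filter_upwards [hU.mem_nhds hz'] with y hy
      exact ga_eq hs hp hy w
    have hd1 : HasFDerivAt (fun z => nrm A z) (fderiv ℝ (fun z => nrm A z) z) z :=
      (((nrm_cd hA hs hp).contDiffAt (hU.mem_nhds hz')).differentiableAt (by simp)).hasFDerivAt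
    have hd2 := qa_hasD hU hA hz' w
    have hd3 := hd1.mul ((hd2.const_mul (-(1 / 2))).exp)
    have hfd : fderiv ℝ (fun z => ga A z w) z = _ := (hd3.congr_of_eventuallyEq hev).fderiv
    rw [hfd]
    set L : E →L[ℝ] ℝ := ∑ p, ∑ q, (w p * w q) • fderiv ℝ (fun z => A z p q) z with hL
    have hwp : ∀ p, |w p| ≤ ‖w‖ := fun p => by
      rw [← Real.norm_eq_abs]
      exact PiLp.norm_apply_le w p
    have hLv : |L v| ≤ C2 * ‖w‖ ^ 2 * ‖v‖ := by
      rw [hL]
      simp only [_root_.sum_apply, _root_.smul_apply, smul_eq_mul]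
      calc |∑ p, ∑ q, w p * w q * (fderiv ℝ (fun z => A z p q) z) v|
          ≤ ∑ p, |∑ q, w p * w q * (fderiv ℝ (fun z => A z p q) z) v| := Finset.abs_sum_le_sum_abs _ _
        _ ≤ ∑ p, ∑ q, |w p * w q * (fderiv ℝ (fun z => A z p q) z) v| :=
            Finset.sum_le_sum fun p _ => Finset.abs_sum_le_sum_abs _ _
        _ ≤ ∑ p, ∑ q, (CD p q * ‖w‖ ^ 2 * ‖v‖) := by
            refine Finset.sum_le_sum fun p _ => Finset.sum_le_sum fun q _ => ?_
            rw [abs_mul, abs_mul]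
            have h1 : |w p| * |w q| ≤ ‖w‖ * ‖w‖ := mul_le_mul (hwp p) (hwp q) (abs_nonneg _) (norm_nonneg _)
            have h2 : |(fderiv ℝ (fun z => A z p q) z) v| ≤ CD p q * ‖v‖ := by
              rw [← Real.norm_eq_abs]
              exact (ContinuousLinearMap.le_opNorm _ _).trans
                (mul_le_mul_of_nonneg_right (hCDb p q z hz) (norm_nonneg _))
            calc |w p| * |w q| * |(fderiv ℝ (fun z => A z p q) z) v| ≤ (‖w‖ * ‖w‖) * (CD p q * ‖v‖) :=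
                  mul_le_mul h1 h2 (abs_nonneg _) (by positivity)
              _ = CD p q * ‖w‖ ^ 2 * ‖v‖ := by ring
        _ = C2 * ‖w‖ ^ 2 * ‖v‖ := by
            rw [hC2]
            simp only [Finset.sum_mul]
    have hNv : |(fderiv ℝ (fun z => nrm A z) z) v| ≤ C1 * ‖v‖ := by
      rw [← Real.norm_eq_abs]
      exact (ContinuousLinearMap.le_opNorm _ _).trans (mul_le_mul_of_nonneg_right (hN1 z hz) (norm_nonneg _))
    have hN0 : |nrm A z| ≤ C0 := by
      rw [← Real.norm_eq_abs]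
      exact hN z hz
    have hev2 : (nrm A z • Real.exp (-(1 / 2) * qa A z w) • (-(1 / 2) : ℝ) • L +
        Real.exp (-(1 / 2) * qa A z w) • fderiv ℝ (fun z => nrm A z) z) v =
        Real.exp (-(1 / 2) * qa A z w) * (-(1 / 2) * nrm A z * L v + (fderiv ℝ (fun z => nrm A z) z) v) := by
      simp only [_root_.add_apply, _root_.smul_apply, smul_eq_mul]
      ring
    have hgoal : |Real.exp (-(1 / 2) * qa A z w) * (-(1 / 2) * nrm A z * L v + (fderiv ℝ (fun z => nrm A z) z) v)| ≤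
        (C0 + C1 + C0 * C2 * (4 / c) + 1) * ‖v‖ * Real.exp (-(c / 4 * ‖w‖ ^ 2)) := by
      rw [abs_mul, abs_of_pos (Real.exp_pos _)]
      have h1 : |-(1 / 2) * nrm A z * L v + (fderiv ℝ (fun z => nrm A z) z) v| ≤
          C0 * C2 * ‖w‖ ^ 2 * ‖v‖ + C1 * ‖v‖ := by
        refine (abs_add_le _ _).trans (add_le_add ?_ hNv)
        rw [abs_mul, abs_mul]
        have h2 : |(-(1 / 2) : ℝ)| * |nrm A z| ≤ C0 := by
          rw [abs_neg, abs_of_pos (by norm_num : (0 : ℝ) < 1 / 2)]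
          have := abs_nonneg (nrm A z)
          linarith
        calc |(-(1 / 2) : ℝ)| * |nrm A z| * |L v| ≤ C0 * (C2 * ‖w‖ ^ 2 * ‖v‖) :=
              mul_le_mul h2 hLv (abs_nonneg _) hC0
          _ = C0 * C2 * ‖w‖ ^ 2 * ‖v‖ := by ring
      set e : ℝ := Real.exp (-(c / 4 * ‖w‖ ^ 2)) with he
      have he0 : 0 < e := Real.exp_pos _
      calc Real.exp (-(1 / 2) * qa A z w) * |-(1 / 2) * nrm A z * L v + (fderiv ℝ (fun z => nrm A z) z) v|
          ≤ (e * e) * (C0 * C2 * ‖w‖ ^ 2 * ‖v‖ + C1 * ‖v‖) :=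
            mul_le_mul (hexp z hz w) h1 (abs_nonneg _) (by positivity)
        _ = (C0 * C2 * (‖w‖ ^ 2 * e) + C1 * e) * ‖v‖ * e := by ring
        _ ≤ (C0 * C2 * (4 / c) + C1 * 1) * ‖v‖ * e := by
            refine mul_le_mul_of_nonneg_right (mul_le_mul_of_nonneg_right (add_le_add ?_ ?_) (norm_nonneg _)) he0.le
            · exact mul_le_mul_of_nonneg_left (hsq w) (by positivity)
            · exact mul_le_mul_of_nonneg_left (hle1 w) hC1
        _ ≤ (C0 + C1 + C0 * C2 * (4 / c) + 1) * ‖v‖ * e := by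
            refine mul_le_mul_of_nonneg_right (mul_le_mul_of_nonneg_right ?_ (norm_nonneg _)) he0.le
            linarith
    rw [← hev2] at hgoal
    convert hgoal using 2

end PD

end Vale.Agent.P353.Z.AD.GnB
end

section

/-! # P353, all `N`, block D, L7: the matrix of the boson vacuum at the scalar points -/

open MeasureTheory Filter Topology Matrix
open scoped ContDiff

namespace Vale.Agent.P353.Z.AD.GnC

set_option linter.unusedSectionVars false

variable {d dh dm ds dz : ℕ} {F : Type*} [NormedAddCommGroup F] [InnerProductSpace ℂ F]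

lemma wt_last (w : Wsp dm) : wt w (Fin.last 8) = 0 := by
  funext B
  unfold wt
  rw [Fin.lastCases_last]
  rfl

lemma wt_cast (w : Wsp dm) (j : Fin 8) : wt w j.castSucc = fun B => w (j, B) := by
  funext B
  unfold wt
  rw [Fin.lastCases_castSucc]

lemma wt_add (v w : Wsp dm) (i : Fin 9) : wt (v + w) i = wt v i + wt w i := by
  induction i using Fin.lastCases with
  | last => rw [wt_last, wt_last, wt_last, add_zero]
  | cast j =>
    rw [wt_cast, wt_cast, wt_cast]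
    rfl

lemma wt_smul (c : ℝ) (w : Wsp dm) (i : Fin 9) : wt (c • w) i = c • wt w i := by
  induction i using Fin.lastCases with
  | last => rw [wt_last, wt_last, smul_zero]
  | cast j =>
    rw [wt_cast, wt_cast]
    rfl

variable {D : Fin 9 → Matrix (Fin dm) (Fin dm) ℝ} {Om : Matrix (Fin dm) (Fin dm) ℝ}

lemma VV_add (v w : Wsp dm) (i : Fin 9) : VV D (v + w) i = VV D v i + VV D w i := by
  unfold VV sV
  simp only [wt_add, Matrix.mulVec_add, Finset.sum_add_distrib]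
  abel

lemma VV_smul (c : ℝ) (w : Wsp dm) (i : Fin 9) : VV D (c • w) i = c • VV D w i := by
  unfold VV sV
  simp only [wt_smul, Matrix.mulVec_smul, ← Finset.smul_sum, smul_sub]

/-- linear map `w ↦ V_i(w)` -/
noncomputable def VL (D : Fin 9 → Matrix (Fin dm) (Fin dm) ℝ) (i : Fin 9) : Wsp dm →ₗ[ℝ] (Fin dm → ℝ) where
  toFun w := VV D w i
  map_add' v w := VV_add v w i
  map_smul' c w := VV_smul c w i

lemma VV_sum (w : Wsp dm) (i : Fin 9) : VV D w i = ∑ p, w p • VV D (EuclideanSpace.single p 1) i := by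
  have h : w = ∑ p, w p • (EuclideanSpace.single p (1 : ℝ) : Wsp dm) := by
    have := (EuclideanSpace.basisFun (Fin 8 × Fin dm) ℝ).sum_repr w
    simpa using this.symm
  have h2 : VL D i w = ∑ p, w p • VL D i (EuclideanSpace.single p 1) := by
    conv_lhs => rw [h]
    simp only [map_sum, map_smul]
  exact h2

/-- matrix of the quadratic form `qf` -/
noncomputable def mQ (D : Fin 9 → Matrix (Fin dm) (Fin dm) ℝ) (Om : Matrix (Fin dm) (Fin dm) ℝ) :
    Matrix (Fin 8 × Fin dm) (Fin 8 × Fin dm) ℝ :=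
  Matrix.of fun p q => ∑ i, VV D (EuclideanSpace.single p 1) i ⬝ᵥ (Om *ᵥ VV D (EuclideanSpace.single q 1) i)

lemma mQ_qf (w : Wsp dm) : (fun p => w p) ⬝ᵥ (mQ D Om *ᵥ fun p => w p) = qf D Om w := by
  unfold qf
  have h : ∀ i : Fin 9, VV D w i ⬝ᵥ (Om *ᵥ VV D w i) = ∑ p, ∑ q, w p * w q *
      (VV D (EuclideanSpace.single p 1) i ⬝ᵥ (Om *ᵥ VV D (EuclideanSpace.single q 1) i)) := by
    intro i
    conv_lhs => rw [VV_sum w i]
    rw [Matrix.mulVec_sum, dotProduct_sum]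
    simp only [sum_dotProduct, smul_dotProduct, Matrix.mulVec_smul, dotProduct_smul, smul_eq_mul]
    rw [Finset.sum_comm]
    refine Finset.sum_congr rfl fun p _ => ?_
    rw [Finset.mul_sum]
    refine Finset.sum_congr rfl fun q _ => ?_
    ring
  have h0 : (fun p => w p) ⬝ᵥ (mQ D Om *ᵥ fun p => w p) = ∑ p, ∑ q, w p * w q * mQ D Om p q :=
    GnB.qa_sum (E := ℝ) (fun _ => mQ D Om) 0 w
  rw [h0, Finset.sum_congr rfl fun i _ => h i, Finset.sum_comm (s := (Finset.univ : Finset (Fin 9)))]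
  refine Finset.sum_congr rfl fun p _ => ?_
  rw [Finset.sum_comm (s := (Finset.univ : Finset (Fin 9)))]
  refine Finset.sum_congr rfl fun q _ => ?_
  rw [← Finset.mul_sum]
  rfl

lemma mQ_symm (hO : Omᵀ = Om) : (mQ D Om)ᵀ = mQ D Om := by
  ext p q
  simp only [Matrix.transpose_apply, mQ, Matrix.of_apply]
  refine Finset.sum_congr rfl fun i _ => ?_
  rw [dotProduct_mulVec, ← mulVec_transpose, hO, dotProduct_comm]

section Smooth

variable {E : Type*} [NormedAddCommGroup E] [NormedSpace ℝ E] {U : Set E}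

lemma mul_cd {ι : Type*} [Fintype ι] {M N : E → Matrix ι ι ℝ} (hM : ∀ p q, ContDiffOn ℝ ∞ (fun z => M z p q) U)
    (hN : ∀ p q, ContDiffOn ℝ ∞ (fun z => N z p q) U) (p q : ι) : ContDiffOn ℝ ∞ (fun z => (M z * N z) p q) U := by
  simp only [Matrix.mul_apply]
  exact ContDiffOn.sum fun k _ => (hM p k).mul (hN k q)

lemma mv_cd {ι : Type*} [Fintype ι] {M : E → Matrix ι ι ℝ} {v : E → ι → ℝ}
    (hM : ∀ p q, ContDiffOn ℝ ∞ (fun z => M z p q) U)
    (hv : ∀ p, ContDiffOn ℝ ∞ (fun z => v z p) U) (p : ι) : ContDiffOn ℝ ∞ (fun z => (M z *ᵥ v z) p) U := by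
  simp only [Matrix.mulVec, dotProduct]
  exact ContDiffOn.sum fun k _ => (hM p k).mul (hv k)

lemma inv_cd {ι : Type*} [Fintype ι] [DecidableEq ι] {M : E → Matrix ι ι ℝ}
    (hM : ∀ p q, ContDiffOn ℝ ∞ (fun z => M z p q) U) (hd : ∀ z ∈ U, (M z).det ≠ 0) (p q : ι) :
    ContDiffOn ℝ ∞ (fun z => (M z)⁻¹ p q) U := by
  have h : (fun z => (M z)⁻¹ p q) = fun z => ((M z).det)⁻¹ * ((M z).updateRow q (Pi.single p 1)).det := by
    funext z
    rw [Matrix.inv_def, Matrix.smul_apply, smul_eq_mul, Matrix.adjugate_apply, Ring.inverse_eq_inv']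
  rw [h]
  refine ((GnB.det_cd hM).inv hd).mul (GnB.det_cd fun a b => ?_)
  by_cases hq : a = q
  · subst hq
    have : (fun z => (M z).updateRow a (Pi.single p 1) a b) = fun _ => (Pi.single p 1 : ι → ℝ) b := by
      funext z
      rw [Matrix.updateRow_self]
    rw [this]
    exact contDiffOn_const
  · have : (fun z => (M z).updateRow q (Pi.single p 1) a b) = fun z => M z a b := by
      funext z
      rw [Matrix.updateRow_ne hq]
    rw [this]
    exact hM a b

lemma mQ_cd {Df : E → Fin 9 → Matrix (Fin dm) (Fin dm) ℝ} {Of : E → Matrix (Fin dm) (Fin dm) ℝ}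
    (hD : ∀ i p q, ContDiffOn ℝ ∞ (fun z => Df z i p q) U) (hO : ∀ p q, ContDiffOn ℝ ∞ (fun z => Of z p q) U)
    (h8 : ∀ z ∈ U, (Df z 8).det ≠ 0) (ht : ∀ z ∈ U, (t2 (Df z)).det ≠ 0) (p q : Fin 8 × Fin dm) :
    ContDiffOn ℝ ∞ (fun z => mQ (Df z) (Of z) p q) U := by
  have hT : ∀ i p q, ContDiffOn ℝ ∞ (fun z => tI (Df z) i p q) U := by
    intro i p q
    unfold tI
    exact mul_cd (fun a b => inv_cd (hD 8) h8 a b) (hD i) p q
  have ht2 : ∀ p q, ContDiffOn ℝ ∞ (fun z => t2 (Df z) p q) U := by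
    intro p q
    unfold t2
    simp only [Matrix.sum_apply]
    exact ContDiffOn.sum fun i _ => mul_cd (hT i) (hT i) p q
  have hsV : ∀ (w : Wsp dm) B, ContDiffOn ℝ ∞ (fun z => sV (Df z) w B) U := by
    intro w B
    unfold sV
    refine mv_cd (fun a b => inv_cd ht2 ht a b) (fun a => ?_) B
    simp only [Finset.sum_apply]
    exact ContDiffOn.sum fun i _ => mv_cd (v := fun _ => wt w i) (hT i) (fun b => contDiffOn_const) a
  have hV : ∀ (w : Wsp dm) i B, ContDiffOn ℝ ∞ (fun z => VV (Df z) w i B) U := by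
    intro w i B
    unfold VV
    simp only [Pi.sub_apply]
    exact contDiffOn_const.sub (mv_cd (hT i) (fun b => hsV w b) B)
  unfold mQ
  simp only [Matrix.of_apply, dotProduct]
  refine ContDiffOn.sum fun i _ => ContDiffOn.sum fun B _ => ?_
  exact (hV _ i B).mul (mv_cd hO (fun b => hV _ i b) B)

end Smooth

section Dz

variable (S : Setup d F) (φ : Spl dh dm d) (ψ : Spl ds dz dh)

lemma cmb_cd (x : Fin 9 × Fin dh) : ContDiff ℝ ∞ (fun yz : Cfg dz => cmb ψ 0 yz x) := by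
  obtain ⟨i, A⟩ := x
  unfold cmb
  simp only
  rcases ψ.symm A with a | b
  · simp only [Sum.elim_inl]
    exact contDiff_const
  · simp only [Sum.elim_inr]
    exact (EuclideanSpace.proj (𝕜 := ℝ) ((i, b) : Fin 9 × Fin dz)).contDiff

lemma Dz_cd (i : Fin 9) (p q : Fin dm) : ContDiff ℝ ∞ (fun yz : Cfg dz => Dz S φ ψ yz i p q) := by
  unfold Dz Setup.Dy Setup.Dm
  simp only [Matrix.of_apply]
  exact ContDiff.sum fun A _ => contDiff_const.mul (cmb_cd ψ (i, A))

/-- the scalar points with invertible `D_8` -/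
def Ud : Set (Cfg dz) := {yz | (S.Dy φ 8 (cmb ψ 0 yz)).det ≠ 0}

lemma Ud_open : IsOpen (Ud S φ ψ) := by
  have h : ContDiffOn ℝ ∞ (fun yz : Cfg dz => (Dz S φ ψ yz 8).det) Set.univ :=
    GnB.det_cd fun p q => (Dz_cd S φ ψ 8 p q).contDiffOn
  exact isOpen_ne_fun (continuousOn_univ.1 h.continuousOn) continuous_const

/-- the matrix of the boson vacuum -/
noncomputable def mA (yz : Cfg dz) : Matrix (Fin 8 × Fin dm) (Fin 8 × Fin dm) ℝ :=
  mQ (Dz S φ ψ yz) (omc S.κ (Dz S φ ψ yz))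

lemma qa_eq (yz : Cfg dz) (w : Wsp dm) :
    GnB.qa (mA S φ ψ) yz w = qf (Dz S φ ψ yz) (omc S.κ (Dz S φ ψ yz)) w := mQ_qf w

theorem gn_eq (yz : Cfg dz) (w : Wsp dm) : gn S φ ψ yz w = GnB.ga (mA S φ ψ) yz w := by
  unfold gn GnB.ga gR
  simp only [qa_eq]

variable [FiniteDimensional ℂ F] {S φ ψ} (hS : ScalStmt S) {z₀ : Cfg dz} (h : Std2 S φ ψ z₀)

include hS h in
theorem mA_symm {yz : Cfg dz} (hy : yz ∈ Ud S φ ψ) : (mA S φ ψ yz)ᵀ = mA S φ ψ yz := by
  obtain ⟨h1, -, -, -⟩ := hS inferInstance dh dm ds dz φ ψ z₀ h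
  exact mQ_symm (h1 yz hy).2.symm

include hS h in
theorem mA_pos {yz : Cfg dz} (hy : yz ∈ Ud S φ ψ) (v : Fin 8 × Fin dm → ℝ) (hv : v ≠ 0) :
    0 < v ⬝ᵥ (mA S φ ψ yz *ᵥ v) := by
  obtain ⟨h1, -, -, -⟩ := hS inferInstance dh dm ds dz φ ψ z₀ h
  obtain ⟨hF, hO⟩ := h1 yz hy
  obtain ⟨M, -, hM, -, c, hc, hlow⟩ := qfS dm S.κ _ _ S.κ_pos hF hO
  have h2 := mQ_qf (D := Dz S φ ψ yz) (Om := omc S.κ (Dz S φ ψ yz)) (WithLp.toLp 2 v)
  change v ⬝ᵥ (mQ (Dz S φ ψ yz) (omc S.κ (Dz S φ ψ yz)) *ᵥ v) = _ at h2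
  unfold mA
  rw [h2, hM]
  have h3 : (WithLp.toLp 2 v : Wsp dm) ≠ 0 := by
    intro h4
    apply hv
    funext p
    have := congrArg (fun w : Wsp dm => w p) h4
    simpa using this
  have h4 : 0 < ‖(WithLp.toLp 2 v : Wsp dm)‖ := norm_pos_iff.2 h3
  exact lt_of_lt_of_le (by positivity) (hlow _)

include hS h in
theorem mA_cd (p q : Fin 8 × Fin dm) : ContDiffOn ℝ ∞ (fun yz => mA S φ ψ yz p q) (Ud S φ ψ) := by
  obtain ⟨h1, -, h3, -⟩ := hS inferInstance dh dm ds dz φ ψ z₀ h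
  refine mQ_cd (fun i p q => (Dz_cd S φ ψ i p q).contDiffOn) h3 (fun z hz => hz) (fun z hz => ?_) p q
  obtain ⟨hF, hO⟩ := h1 z hz
  exact (alg dm S.κ _ _ S.κ_pos hF hO).2.2.2.2.2.1

end Dz

end Vale.Agent.P353.Z.AD.GnC
end

section

/-! # P353, all `N`, block D, L7: the normalised boson vacuum near a standard position -/

open MeasureTheory Filter Topology Matrix
open scoped ContDiff

namespace Vale.Agent.P353.Z.AD

set_option linter.unusedSectionVars false

variable {d dh dm ds dz : ℕ} {F : Type*} [NormedAddCommGroup F] [InnerProductSpace ℂ F]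

namespace GnE

lemma cmb_apply (ψ : Spl ds dz dh) (yz : Cfg dz) (i : Fin 9) (A : Fin dh) :
    cmb ψ 0 yz (i, A) = Sum.elim (fun _ => (0 : ℝ)) (fun B => yz (i, B)) (ψ.symm A) := rfl

lemma cmb_smul (ψ : Spl ds dz dh) (R : ℝ) (yz : Cfg dz) : cmb ψ 0 (R • yz) = R • cmb ψ 0 yz := by
  ext ⟨i, A⟩
  rw [PiLp.smul_apply, cmb_apply, cmb_apply]
  rcases ψ.symm A with a | b
  · simp
  · simp

lemma cmb_sub (ψ : Spl ds dz dh) (a b : Cfg dz) : cmb ψ 0 a - cmb ψ 0 b = cmb ψ 0 (a - b) := by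
  ext ⟨i, A⟩
  rw [PiLp.sub_apply, cmb_apply, cmb_apply, cmb_apply]
  rcases ψ.symm A with a | b
  · simp
  · simp

lemma cmb_norm (ψ : Spl ds dz dh) (yz : Cfg dz) : ‖cmb ψ 0 yz‖ = ‖yz‖ := by
  have h : ‖cmb ψ 0 yz‖ ^ 2 = ‖yz‖ ^ 2 := by
    rw [EuclideanSpace.real_norm_sq_eq, EuclideanSpace.real_norm_sq_eq, Fintype.sum_prod_type, Fintype.sum_prod_type]
    refine Finset.sum_congr rfl fun i _ => ?_
    rw [← ψ.sum_comp, Fintype.sum_sum_type]
    simp [cmb_apply]
  exact (sq_eq_sq₀ (norm_nonneg _) (norm_nonneg _)).1 h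

lemma Dy_smul (S : Setup d F) (φ : Spl dh dm d) (i : Fin 9) (R : ℝ) (y : Cfg dh) :
    S.Dy φ i (R • y) = R • S.Dy φ i y := by
  ext B C
  simp only [Setup.Dy, Setup.Dm, Matrix.of_apply, Matrix.smul_apply, PiLp.smul_apply, smul_eq_mul, Finset.mul_sum]
  refine Finset.sum_congr rfl fun A _ => ?_
  ring

lemma Dz_smul (S : Setup d F) (φ : Spl dh dm d) (ψ : Spl ds dz dh) (R : ℝ) (yz : Cfg dz) :
    Dz S φ ψ (R • yz) = fun i => R • Dz S φ ψ yz i := by
  funext i
  unfold Dz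
  rw [cmb_smul, Dy_smul]

lemma Ud_smul (S : Setup d F) (φ : Spl dh dm d) (ψ : Spl ds dz dh) {R : ℝ} (hR : 0 < R) {yz : Cfg dz} :
    R • yz ∈ GnC.Ud S φ ψ ↔ yz ∈ GnC.Ud S φ ψ := by
  change (S.Dy φ 8 (cmb ψ 0 (R • yz))).det ≠ 0 ↔ (S.Dy φ 8 (cmb ψ 0 yz)).det ≠ 0
  rw [cmb_smul, Dy_smul, Matrix.det_smul, mul_ne_zero_iff]
  exact ⟨fun h => h.2, fun h => ⟨by positivity, h⟩⟩

lemma mat_inv_smul {R : ℝ} (hR : R ≠ 0) (M : Matrix (Fin dm) (Fin dm) ℝ) : (R • M)⁻¹ = R⁻¹ • M⁻¹ := by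
  by_cases h : IsUnit M.det
  · exact Matrix.inv_smul' M (Units.mk0 R hR) h
  · rw [Matrix.nonsing_inv_apply_not_isUnit _ h, smul_zero]
    refine Matrix.nonsing_inv_apply_not_isUnit _ ?_
    rw [Matrix.det_smul]
    intro h1
    exact h (isUnit_of_mul_isUnit_right h1)

lemma tI_smul {D : Fin 9 → Matrix (Fin dm) (Fin dm) ℝ} {R : ℝ} (hR : R ≠ 0) :
    tI (fun i => R • D i) = tI D := by
  funext i
  unfold tI
  rw [mat_inv_smul hR, smul_mul_smul_comm, inv_mul_cancel₀ hR, one_smul]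

lemma VV_smulD {D : Fin 9 → Matrix (Fin dm) (Fin dm) ℝ} {R : ℝ} (hR : R ≠ 0) (w : Wsp dm) (i : Fin 9) :
    VV (fun i => R • D i) w i = VV D w i := by
  unfold VV sV t2
  rw [tI_smul hR]

lemma qf_smul {D : Fin 9 → Matrix (Fin dm) (Fin dm) ℝ} (Om : Matrix (Fin dm) (Fin dm) ℝ) {R : ℝ} (hR : 0 < R)
    (w : Wsp dm) : qf (fun i => R • D i) (R • Om) w = qf D Om (Real.sqrt R • w) := by
  unfold qf
  simp only [VV_smulD hR.ne', GnC.VV_smul, Matrix.mulVec_smul, Matrix.smul_mulVec, smul_dotProduct, dotProduct_smul,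
    smul_eq_mul]
  refine Finset.sum_congr rfl fun i _ => ?_
  rw [← mul_assoc, Real.mul_self_sqrt hR.le]

lemma w_int {R : ℝ} (hR : 0 < R) (u : Wsp dm → ℝ) :
    ∫ w, u (Real.sqrt R • w) = (Real.sqrt R ^ (8 * dm))⁻¹ * ∫ w, u w := by
  have h := Measure.integral_comp_smul (volume : Measure (Wsp dm)) u (Real.sqrt R)
  have hf : Module.finrank ℝ (Wsp dm) = 8 * dm := by simp
  rw [hf] at h
  rw [h, abs_of_nonneg, smul_eq_mul]
  have := Real.sqrt_nonneg R
  positivity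

lemma sqrt_pow8 {R : ℝ} (hR : 0 < R) : Real.sqrt ((Real.sqrt R ^ (8 * dm))⁻¹) = (R ^ (2 * dm))⁻¹ := by
  rw [Real.sqrt_inv]
  congr 1
  have h : Real.sqrt R ^ (8 * dm) = (R ^ (2 * dm)) ^ 2 := by
    rw [show 8 * dm = 2 * (2 * dm * 2) by ring, pow_mul, Real.sq_sqrt hR.le, ← pow_mul]
  rw [h, Real.sqrt_sq (by positivity)]

/-- homogeneity of the normalised vacuum -/
lemma gn_scale (S : Setup d F) (φ : Spl dh dm d) (ψ : Spl ds dz dh) (yz : Cfg dz) {R : ℝ} (hR : 0 < R)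
    (hom : omc S.κ (Dz S φ ψ (R • yz)) = R • omc S.κ (Dz S φ ψ yz)) (w : Wsp dm) :
    gn S φ ψ (R • yz) w = R ^ (2 * dm) * gn S φ ψ yz (Real.sqrt R • w) := by
  have hg : ∀ w', gR (Dz S φ ψ (R • yz)) (omc S.κ (Dz S φ ψ (R • yz))) 1 w' =
      gR (Dz S φ ψ yz) (omc S.κ (Dz S φ ψ yz)) 1 (Real.sqrt R • w') := by
    intro w'
    unfold gR
    rw [hom, Dz_smul, qf_smul _ hR]
  unfold gn
  simp only [hg]
  rw [w_int hR (fun w' => gR (Dz S φ ψ yz) (omc S.κ (Dz S φ ψ yz)) 1 w' ^ 2), Real.sqrt_mul (by positivity),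
    sqrt_pow8 hR]
  have hp : (R ^ (2 * dm) : ℝ) ≠ 0 := by positivity
  field_simp

lemma fd_scale {E : Type*} [NormedAddCommGroup E] [NormedSpace ℝ E] (g g' : E → ℝ) (k r : ℝ) (y v : E)
    (h : g =ᶠ[𝓝 y] fun z => k * g' (r • z)) (hd : DifferentiableAt ℝ g' (r • y)) :
    fderiv ℝ g y v = k * (r * fderiv ℝ g' (r • y) v) := by
  have h1 : HasFDerivAt (fun z : E => r • z) (r • ContinuousLinearMap.id ℝ E) y :=
    (ContinuousLinearMap.hasFDerivAt (r • ContinuousLinearMap.id ℝ E))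
  have h2 : HasFDerivAt (fun z : E => g' (r • z)) ((fderiv ℝ g' (r • y)).comp (r • ContinuousLinearMap.id ℝ E)) y :=
    HasFDerivAt.comp y hd.hasFDerivAt h1
  have h3 := (h2.const_mul k).congr_of_eventuallyEq h
  rw [h3.fderiv]
  simp

lemma scaled_bd {E : Type*} [NormedAddCommGroup E] [NormedSpace ℝ E] (g : E → Wsp dm → ℝ) {U K : Set E}
    (hU : IsOpen U) (hKU : K ⊆ U) {c C : ℝ}
    (hbd : ∀ z ∈ K, ∀ w, (0 ≤ g z w ∧ g z w ≤ C * Real.exp (-(c * ‖w‖ ^ 2))) ∧
      ∀ v, |fderiv ℝ (fun z => g z w) z v| ≤ C * ‖v‖ * Real.exp (-(c * ‖w‖ ^ 2)))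
    (hdiff : ∀ z ∈ U, ∀ w, DifferentiableAt ℝ (fun z => g z w) z) {R : ℝ} (hR : 0 < R)
    (hsc : ∀ z ∈ U, ∀ w, g z w = R ^ (2 * dm) * g (R⁻¹ • z) (Real.sqrt R • w)) {y : E} (hyU : y ∈ U)
    (hyK : R⁻¹ • y ∈ K) :
    (∀ w, 0 ≤ g y w ∧ g y w ≤ C * R ^ (2 * dm) * Real.exp (-(c * R * ‖w‖ ^ 2))) ∧
      ∀ w v, |fderiv ℝ (fun z => g z w) y v| ≤ C / R * (R ^ (2 * dm) * Real.exp (-(c * R * ‖w‖ ^ 2))) * ‖v‖ := by
  have hnw : ∀ w : Wsp dm, c * ‖Real.sqrt R • w‖ ^ 2 = c * R * ‖w‖ ^ 2 := by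
    intro w
    rw [norm_smul, mul_pow, Real.norm_eq_abs, sq_abs, Real.sq_sqrt hR.le]
    ring
  refine ⟨fun w => ⟨?_, ?_⟩, fun w v => ?_⟩
  · rw [hsc y hyU w]
    exact mul_nonneg (by positivity) (hbd _ hyK _).1.1
  · rw [hsc y hyU w, mul_comm C, mul_assoc, ← hnw w]
    exact mul_le_mul_of_nonneg_left (hbd _ hyK _).1.2 (by positivity)
  · have hev : (fun z => g z w) =ᶠ[𝓝 y] fun z => R ^ (2 * dm) * g (R⁻¹ • z) (Real.sqrt R • w) := by
      filter_upwards [hU.mem_nhds hyU] with z hz'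
      exact hsc z hz' w
    rw [fd_scale _ (fun z => g z (Real.sqrt R • w)) _ _ y v hev (hdiff _ (hKU hyK) _)]
    have h8 := (hbd _ hyK (Real.sqrt R • w)).2 v
    rw [hnw] at h8
    rw [abs_mul, abs_mul, abs_of_pos (by positivity : (0 : ℝ) < R ^ (2 * dm)), abs_of_pos (inv_pos.2 hR)]
    calc R ^ (2 * dm) * (R⁻¹ * |fderiv ℝ (fun z => g z (Real.sqrt R • w)) (R⁻¹ • y) v|)
        ≤ R ^ (2 * dm) * (R⁻¹ * (C * ‖v‖ * Real.exp (-(c * R * ‖w‖ ^ 2)))) := by
          refine mul_le_mul_of_nonneg_left (mul_le_mul_of_nonneg_left h8 (by positivity)) (by positivity)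
      _ = C / R * (R ^ (2 * dm) * Real.exp (-(c * R * ‖w‖ ^ 2))) * ‖v‖ := by
          rw [div_eq_mul_inv]
          ring

lemma slice_diff {E W : Type*} [NormedAddCommGroup E] [NormedSpace ℝ E] [NormedAddCommGroup W] [NormedSpace ℝ W]
    (g : E → W → ℝ) {U : Set E} (hU : IsOpen U)
    (h : ContDiffOn ℝ ∞ (fun p : E × W => g p.1 p.2) {p | p.1 ∈ U}) {z : E} (hz : z ∈ U) (w : W) :
    DifferentiableAt ℝ (fun z => g z w) z := by
  have h5 : ContDiffOn ℝ ∞ (fun z => g z w) U :=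
    h.comp (f := fun z => (z, w)) (contDiff_id.prodMk contDiff_const).contDiffOn fun z hz' => hz'
  exact (h5.contDiffAt (hU.mem_nhds hz)).differentiableAt (by simp)

lemma radius {S : Setup d F} {φ : Spl dh dm d} {ψ : Spl ds dz dh} {z₀ : Cfg dz} (h : Std2 S φ ψ z₀) :
    ∃ e : ℝ, 0 < e ∧ (∀ y : Cfg dh, ‖y - cmb ψ 0 z₀‖ ≤ 4 * e → (S.Dy φ 8 y).det ≠ 0) ∧
      Metric.closedBall z₀ e ⊆ GnC.Ud S φ ψ := by
  have hdetc : Continuous fun y : Cfg dh => (S.Dy φ 8 y).det := by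
    have hc : ContDiffOn ℝ ∞ (fun y : Cfg dh => (S.Dy φ 8 y).det) Set.univ := by
      refine GnB.det_cd fun p q => ContDiff.contDiffOn ?_
      unfold Setup.Dy Setup.Dm
      simp only [Matrix.of_apply]
      exact ContDiff.sum fun A _ => contDiff_const.mul (EuclideanSpace.proj (𝕜 := ℝ) (((8 : Fin 9), A) : Fin 9 × Fin dh)).contDiff
    exact continuousOn_univ.1 hc.continuousOn
  obtain ⟨e, he, hball⟩ := Metric.isOpen_iff.1 (isOpen_ne_fun hdetc continuous_const) (cmb ψ 0 z₀) h.std.inv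
  have hdet : ∀ y : Cfg dh, ‖y - cmb ψ 0 z₀‖ ≤ 4 * (e / 8) → (S.Dy φ 8 y).det ≠ 0 := by
    intro y hy
    refine hball ?_
    rw [Metric.mem_ball, dist_eq_norm]
    linarith
  refine ⟨e / 8, by positivity, hdet, fun z hz => ?_⟩
  refine hdet _ ?_
  rw [cmb_sub, cmb_norm, ← dist_eq_norm]
  have := Metric.mem_closedBall.1 hz
  linarith

end GnE

/-- **L7** -/
theorem gnOf (S : Setup d F) : GnOfStmt S := by
  intro hS _ hfin dh dm ds dz φ ψ z₀ h
  obtain ⟨h1, h2, -, -⟩ := hS hfin dh dm ds dz φ ψ z₀ h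
  have hA := GnC.mA_cd hS h
  have hs : ∀ z ∈ GnC.Ud S φ ψ, (GnC.mA S φ ψ z)ᵀ = GnC.mA S φ ψ z := fun z hz => GnC.mA_symm hS h hz
  have hp : ∀ z ∈ GnC.Ud S φ ψ, ∀ v : Fin 8 × Fin dm → ℝ, v ≠ 0 → 0 < v ⬝ᵥ (GnC.mA S φ ψ z *ᵥ v) :=
    fun z hz v hv => GnC.mA_pos hS h hz v hv
  have hUo := GnC.Ud_open S φ ψ
  obtain ⟨e, he, hdet, hKU⟩ := GnE.radius h
  obtain ⟨c, C, hc, hC, hbd⟩ := GnB.ga_bd hA hs hp hUo (isCompact_closedBall z₀ e) hKU
  have hgn : gn S φ ψ = GnB.ga (GnC.mA S φ ψ) := by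
    funext yz w
    exact GnC.gn_eq S φ ψ yz w
  have hcd : ContDiffOn ℝ ∞ (fun p : Cfg dz × Wsp dm => gn S φ ψ p.1 p.2) {p | p.1 ∈ GnC.Ud S φ ψ} := by
    rw [hgn]
    exact GnB.ga_cd hA hs hp
  refine ⟨e, c, C, he, hc, hC, hdet, hcd, fun R yz hR hyz => ?_⟩
  have hz : R⁻¹ • yz ∈ Metric.closedBall z₀ e := by
    rw [Metric.mem_closedBall, dist_eq_norm]
    have h3 : R⁻¹ • yz - z₀ = R⁻¹ • (yz - R • z₀) := by
      rw [smul_sub, smul_smul, inv_mul_cancel₀ hR.ne', one_smul]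
    rw [h3, norm_smul, norm_inv, Real.norm_eq_abs, abs_of_pos hR, inv_mul_le_iff₀ hR]
    linarith
  have hyU : yz ∈ GnC.Ud S φ ψ := by
    have := (GnE.Ud_smul S φ ψ hR).2 (hKU hz)
    rwa [smul_smul, mul_inv_cancel₀ hR.ne', one_smul] at this
  have hsc : ∀ z ∈ GnC.Ud S φ ψ, ∀ w, gn S φ ψ z w = R ^ (2 * dm) * gn S φ ψ (R⁻¹ • z) (Real.sqrt R • w) := by
    intro z hz w
    have hz' : R⁻¹ • z ∈ GnC.Ud S φ ψ := (GnE.Ud_smul S φ ψ (inv_pos.2 hR)).2 hz
    have h4 := GnE.gn_scale S φ ψ (R⁻¹ • z) hR (h2 _ hz' R hR).1 w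
    rwa [smul_smul, mul_inv_cancel₀ hR.ne', one_smul] at h4
  have hdf : ∀ z ∈ GnC.Ud S φ ψ, ∀ w, DifferentiableAt ℝ (fun z => gn S φ ψ z w) z := by
    intro z hz w
    exact GnE.slice_diff (gn S φ ψ) hUo hcd hz w
  rw [← hgn] at hbd
  obtain ⟨h6, h7⟩ := GnE.scaled_bd (gn S φ ψ) hUo hKU hbd hdf hR hsc hyU hz
  refine ⟨?_, ?_, h6, fun i A w => ?_⟩
  · rw [hgn]
    exact GnB.ga_norm hs hp hyU
  · intro w
    rw [hgn]
    exact GnB.ga_even _ _ _
  · have h8 := h7 w (EuclideanSpace.single (i, A) 1)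
    rwa [EuclideanSpace.norm_single, norm_one, mul_one] at h8

end Vale.Agent.P353.Z.AD
end

section

/-! # P353, all `N`, block E: the normalised slice Gaussian near a ray (E-Bz, helper348)

`∫ exp(-⟨w, M w⟩) = det(M)^{-1/2} ∫ exp(-|w|²)` (`M = BᵀB`), hence the normalisation is smooth in the central point; the bounds are
proved near `y₀` and transported to scale `R` by `b(Ry, w) = R^{2 dm} b(y, √R w)`. -/

open MeasureTheory Filter Topology Matrix
open scoped ContDiff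

namespace Vale.Agent.P353.Z.AE

variable {d dh dm r ds : ℕ} {F : Type*} [NormedAddCommGroup F] [InnerProductSpace ℂ F]

section Bz1

/-- matrix of a linear map of the fibre -/
private noncomputable def ebzA (M : Wsp dm →L[ℝ] Wsp dm) : Matrix (Fin 8 × Fin dm) (Fin 8 × Fin dm) ℝ :=
  Matrix.of fun p q => M (EuclideanSpace.single q 1) p

private theorem ebz_mulVec (M : Wsp dm →L[ℝ] Wsp dm) (w : Wsp dm) (p : Fin 8 × Fin dm) :
    M w p = (ebzA M *ᵥ (w : Fin 8 × Fin dm → ℝ)) p := by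
  have hv : w = ∑ q, w q • (EuclideanSpace.single q (1 : ℝ) : Wsp dm) := by
    ext p
    simp [Pi.single_apply]
  conv_lhs => rw [hv]
  rw [map_sum, WithLp.ofLp_sum, Finset.sum_apply]
  simp only [map_smul, PiLp.smul_apply, smul_eq_mul, Matrix.mulVec, dotProduct, ebzA, Matrix.of_apply]
  exact Finset.sum_congr rfl fun q _ => mul_comm _ _

private theorem ebz_inner (M : Wsp dm →L[ℝ] Wsp dm) (w v : Wsp dm) :
    inner ℝ w (M v) = (w : Fin 8 × Fin dm → ℝ) ⬝ᵥ (ebzA M *ᵥ (v : Fin 8 × Fin dm → ℝ)) := by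
  rw [PiLp.inner_apply]
  simp only [RCLike.inner_apply, conj_trivial, dotProduct, ebz_mulVec]
  exact Finset.sum_congr rfl fun q _ => mul_comm _ _

private theorem ebz_gint (M : Wsp dm →L[ℝ] Wsp dm) (hs : ∀ v w, inner ℝ (M v) w = inner ℝ v (M w))
    {c : ℝ} (hc : 0 < c) (hM : ∀ w, c * ‖w‖ ^ 2 ≤ inner ℝ w (M w)) :
    0 < (ebzA M).det ∧ ∫ w : Wsp dm, Real.exp (-inner ℝ w (M w)) =
      (Real.sqrt (ebzA M).det)⁻¹ * ∫ w : Wsp dm, Real.exp (-‖w‖ ^ 2) := by
  have hps : (ebzA M).PosSemidef := by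
    refine Matrix.PosSemidef.of_dotProduct_mulVec_nonneg ?_ fun x => ?_
    · ext p q
      simp only [Matrix.conjTranspose_apply, ebzA, Matrix.of_apply, star_trivial]
      have h := hs (EuclideanSpace.single p 1) (EuclideanSpace.single q 1)
      rw [EuclideanSpace.inner_single_right, EuclideanSpace.inner_single_left] at h
      simpa using h
    · have h := hM (WithLp.toLp 2 x)
      rw [ebz_inner] at h
      simp only [star_trivial]
      exact le_trans (by positivity) h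
  open scoped MatrixOrder in
  obtain ⟨B, hB⟩ := CStarAlgebra.nonneg_iff_eq_star_mul_self.mp hps.nonneg
  have hB' : ebzA M = Bᵀ * B := by
    rw [hB, Matrix.star_eq_conjTranspose]
    congr 1
  have hdet : (ebzA M).det = B.det ^ 2 := by
    rw [hB', Matrix.det_mul, Matrix.det_transpose, sq]
  have hinj : ∀ v : Fin 8 × Fin dm → ℝ, ebzA M *ᵥ v = 0 → v = 0 := by
    intro v hv
    have h := hM (WithLp.toLp 2 v)
    rw [ebz_inner] at h
    change c * ‖WithLp.toLp 2 v‖ ^ 2 ≤ v ⬝ᵥ (ebzA M *ᵥ v) at h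
    rw [hv, dotProduct_zero] at h
    have h2 : ‖(WithLp.toLp 2 v : Wsp dm)‖ ^ 2 ≤ 0 := by
      by_contra h3
      have := mul_pos hc (not_le.1 h3)
      linarith
    have h3 : (WithLp.toLp 2 v : Wsp dm) = 0 := by
      have : ‖(WithLp.toLp 2 v : Wsp dm)‖ = 0 := by
        have := sq_nonneg ‖(WithLp.toLp 2 v : Wsp dm)‖
        exact pow_eq_zero_iff (two_ne_zero) |>.1 (le_antisymm h2 this)
      exact norm_eq_zero.1 this
    have h4 := congrArg (WithLp.ofLp) h3
    simpa using h4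
  have hdne : (ebzA M).det ≠ 0 := by
    intro h0
    obtain ⟨v, hv0, hv⟩ := Matrix.exists_mulVec_eq_zero_iff.2 h0
    exact hv0 (hinj v hv)
  have hBne : B.det ≠ 0 := by
    intro h0
    exact hdne (by rw [hdet, h0]; ring)
  have hdpos : 0 < (ebzA M).det := by
    rw [hdet]
    positivity
  refine ⟨hdpos, ?_⟩
  let T : Wsp dm →ₗ[ℝ] Wsp dm := Matrix.toEuclideanLin B
  have hTdet : LinearMap.det T = B.det := by
    simp only [T]
    rw [Matrix.toEuclideanLin_eq_toLin_orthonormal, LinearMap.det_toLin]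
  have hT : ∀ w : Wsp dm, inner ℝ w (M w) = ‖T w‖ ^ 2 := by
    intro w
    rw [ebz_inner, hB', ← Matrix.mulVec_mulVec, Matrix.dotProduct_mulVec, Matrix.vecMul_transpose,
      ← real_inner_self_eq_norm_sq, PiLp.inner_apply]
    simp only [T, dotProduct, Matrix.ofLp_toLpLin, Matrix.toLin'_apply, RCLike.inner_apply, conj_trivial]
  have hm : Measure.map T (volume : Measure (Wsp dm)) = ENNReal.ofReal |(LinearMap.det T)⁻¹| • volume :=
    Measure.map_linearMap_addHaar_eq_smul_addHaar volume (by rw [hTdet]; exact hBne)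
  have hTc : Continuous T := T.continuous_of_finiteDimensional
  calc ∫ w : Wsp dm, Real.exp (-inner ℝ w (M w)) = ∫ w : Wsp dm, Real.exp (-‖T w‖ ^ 2) := by
        simp only [hT]
    _ = ∫ w, Real.exp (-‖w‖ ^ 2) ∂(Measure.map T (volume : Measure (Wsp dm))) := by
        rw [integral_map hTc.aemeasurable]
        exact (Continuous.aestronglyMeasurable (by fun_prop))
    _ = _ := by
        rw [hm, integral_smul_measure, ENNReal.toReal_ofReal (abs_nonneg _), hTdet, hdet, Real.sqrt_sq_eq_abs,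
          abs_inv, smul_eq_mul]

private theorem ebz_iexp {c : ℝ} (hc : 0 < c) : Integrable fun w : Wsp dm => Real.exp (-c * ‖w‖ ^ 2) := by
  have h := GaussianFourier.integrable_cexp_neg_mul_sq_norm_add (V := Wsp dm) (b := (c : ℂ))
    (by simpa using hc) 0 (0 : Wsp dm)
  have h2 := h.re
  refine h2.congr (ae_of_all _ fun w => ?_)
  simp only [zero_mul, add_zero]
  have : (-(c : ℂ) * (‖w‖ : ℂ) ^ 2) = ((-c * ‖w‖ ^ 2 : ℝ) : ℂ) := by push_cast; ring
  rw [this, ← Complex.ofReal_exp, RCLike.re_to_complex, Complex.ofReal_re]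

/-- polynomial times Gaussian -/
private theorem ebz_ipow {c : ℝ} (hc : 0 < c) (k : ℕ) :
    Integrable fun w : Wsp dm => ‖w‖ ^ (2 * k) * Real.exp (-c * ‖w‖ ^ 2) := by
  refine ((ebz_iexp (dm := dm) (half_pos hc)).const_mul ((2 / c) ^ k * (k.factorial : ℝ))).mono'
    (Continuous.aestronglyMeasurable (by fun_prop)) (ae_of_all _ fun w => ?_)
  rw [Real.norm_of_nonneg (by positivity)]
  have h1 := Real.pow_div_factorial_le_exp (x := c / 2 * ‖w‖ ^ 2) (by positivity) k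
  have hk : (0 : ℝ) < k.factorial := by exact_mod_cast Nat.factorial_pos k
  rw [div_le_iff₀ hk, mul_pow, ← pow_mul] at h1
  have h2 : ‖w‖ ^ (2 * k) ≤ (2 / c) ^ k * (Real.exp (c / 2 * ‖w‖ ^ 2) * (k.factorial : ℝ)) := by
    have h3 := mul_le_mul_of_nonneg_left h1 (by positivity : (0 : ℝ) ≤ (2 / c) ^ k)
    rw [← mul_assoc, ← mul_pow] at h3
    have h4 : 2 / c * (c / 2) = 1 := by field_simp
    rwa [h4, one_pow, one_mul] at h3
  calc ‖w‖ ^ (2 * k) * Real.exp (-c * ‖w‖ ^ 2)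
      ≤ ((2 / c) ^ k * (Real.exp (c / 2 * ‖w‖ ^ 2) * (k.factorial : ℝ))) * Real.exp (-c * ‖w‖ ^ 2) :=
        mul_le_mul_of_nonneg_right h2 (Real.exp_pos _).le
    _ = (2 / c) ^ k * (k.factorial : ℝ) * (Real.exp (c / 2 * ‖w‖ ^ 2) * Real.exp (-c * ‖w‖ ^ 2)) := by ring
    _ = _ := by
        rw [← Real.exp_add]
        congr 2
        ring

end Bz1

section Bz2

variable {Y : Type*} [NormedAddCommGroup Y] [NormedSpace ℝ Y]

/-- smooth family of positive forms -/
private structure EbzH (U : Set Y) (M : Y → (Wsp dm →L[ℝ] Wsp dm)) : Prop where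
  opn : IsOpen U
  sm : ContDiffOn ℝ ∞ M U
  sy : ∀ y ∈ U, ∀ v w, inner ℝ (M y v) w = inner ℝ v (M y w)
  co : ∀ y ∈ U, ∃ c : ℝ, 0 < c ∧ ∀ w, c * ‖w‖ ^ 2 ≤ inner ℝ w (M y w)

/-- normalisation -/
private noncomputable def ebzN (M : Y → (Wsp dm →L[ℝ] Wsp dm)) (y : Y) : ℝ :=
  (Real.sqrt (∫ w : Wsp dm, Real.exp (-inner ℝ w (M y w))))⁻¹

/-- normalised Gaussian -/
private noncomputable def ebzG (M : Y → (Wsp dm →L[ℝ] Wsp dm)) (y : Y) (w : Wsp dm) : ℝ :=
  ebzN M y * Real.exp (-(1 / 2) * inner ℝ w (M y w))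

variable {U : Set Y} {M : Y → (Wsp dm →L[ℝ] Wsp dm)}

private theorem ebz_zpos (H : EbzH U M) {y : Y} (hy : y ∈ U) :
    0 < ∫ w : Wsp dm, Real.exp (-inner ℝ w (M y w)) := by
  obtain ⟨c, hc, h⟩ := H.co y hy
  exact (Poi.gauss_facts (M y) hc h).2.2.1

private theorem ebz_npos (H : EbzH U M) {y : Y} (hy : y ∈ U) : 0 < ebzN M y :=
  inv_pos.2 (Real.sqrt_pos.2 (ebz_zpos H hy))

private theorem ebz_det_sm (h : ContDiffOn ℝ ∞ M U) : ContDiffOn ℝ ∞ (fun y => (ebzA (M y)).det) U := by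
  simp only [Matrix.det_apply']
  refine ContDiffOn.sum fun σ _ => ?_
  refine contDiffOn_const.mul ?_
  refine contDiffOn_prod fun i _ => ?_
  exact (EuclideanSpace.proj (𝕜 := ℝ) (σ i)).contDiff.comp_contDiffOn (h.clm_apply contDiffOn_const)

private theorem ebz_n_sm (H : EbzH U M) : ContDiffOn ℝ ∞ (ebzN M) U := by
  have e : ∀ y ∈ U, ebzN M y = (Real.sqrt ((Real.sqrt (ebzA (M y)).det)⁻¹ *
      ∫ w : Wsp dm, Real.exp (-‖w‖ ^ 2)))⁻¹ := by
    intro y hy
    obtain ⟨c, hc, h⟩ := H.co y hy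
    unfold ebzN
    rw [(ebz_gint (M y) (H.sy y hy) hc h).2]
  have hd : ∀ y ∈ U, 0 < (ebzA (M y)).det := by
    intro y hy
    obtain ⟨c, hc, h⟩ := H.co y hy
    exact (ebz_gint (M y) (H.sy y hy) hc h).1
  have hK : 0 < ∫ w : Wsp dm, Real.exp (-‖w‖ ^ 2) := by
    have h := ebz_iexp (dm := dm) one_pos
    have h2 : (fun w : Wsp dm => Real.exp (-1 * ‖w‖ ^ 2)) = fun w => Real.exp (-‖w‖ ^ 2) := by
      funext w
      rw [neg_one_mul]
    rw [h2] at h
    exact integral_exp_pos h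
  refine ContDiffOn.congr ?_ e
  have h1 : ContDiffOn ℝ ∞ (fun y => (Real.sqrt (ebzA (M y)).det)⁻¹) U :=
    ((ebz_det_sm H.sm).sqrt fun y hy => (hd y hy).ne').inv fun y hy => (Real.sqrt_pos.2 (hd y hy)).ne'
  refine ((h1.mul contDiffOn_const).sqrt fun y hy => ?_).inv fun y hy => ?_
  · exact (mul_pos (inv_pos.2 (Real.sqrt_pos.2 (hd y hy))) hK).ne'
  · exact (Real.sqrt_pos.2 (mul_pos (inv_pos.2 (Real.sqrt_pos.2 (hd y hy))) hK)).ne'

private theorem ebz_g_sm (H : EbzH U M) :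
    ContDiffOn ℝ ∞ (fun p : Y × Wsp dm => ebzG M p.1 p.2) (U ×ˢ Set.univ) := by
  have h1 : ContDiffOn ℝ ∞ (fun p : Y × Wsp dm => ebzN M p.1) (U ×ˢ Set.univ) :=
    (ebz_n_sm H).comp contDiffOn_fst fun p hp => hp.1
  have h2 : ContDiffOn ℝ ∞ (fun p : Y × Wsp dm => M p.1) (U ×ˢ Set.univ) :=
    H.sm.comp contDiffOn_fst fun p hp => hp.1
  have h3 : ContDiffOn ℝ ∞ (fun p : Y × Wsp dm => M p.1 p.2) (U ×ˢ Set.univ) := h2.clm_apply contDiffOn_snd
  exact h1.mul ((contDiffOn_const.mul (contDiffOn_snd.inner ℝ h3)).exp)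

private theorem ebz_g_pos (H : EbzH U M) {y : Y} (hy : y ∈ U) (w : Wsp dm) : 0 < ebzG M y w :=
  mul_pos (ebz_npos H hy) (Real.exp_pos _)

omit [NormedAddCommGroup Y] [NormedSpace ℝ Y] in
private theorem ebz_g_sq (y : Y) (w : Wsp dm) :
    ebzG M y w ^ 2 = ebzN M y ^ 2 * Real.exp (-inner ℝ w (M y w)) := by
  unfold ebzG
  rw [mul_pow, ← Real.exp_nat_mul]
  congr 2
  push_cast
  ring

private theorem ebz_norm (H : EbzH U M) {y : Y} (hy : y ∈ U) : ∫ w, ebzG M y w ^ 2 = 1 := by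
  simp only [ebz_g_sq]
  rw [integral_const_mul]
  unfold ebzN
  rw [inv_pow, Real.sq_sqrt (ebz_zpos H hy).le]
  exact inv_mul_cancel₀ (ebz_zpos H hy).ne'

/-- local bounds -/
private structure EbzL (U : Set Y) (M : Y → (Wsp dm →L[ℝ] Wsp dm)) (y : Y) (c C : ℝ) : Prop where
  mem : y ∈ U
  low : ∀ w, c * ‖w‖ ^ 2 ≤ inner ℝ w (M y w)
  up : ‖M y‖ ≤ C
  dup : ‖fderiv ℝ M y‖ ≤ C
  nup : ebzN M y ≤ C
  dn : ‖fderiv ℝ (ebzN M) y‖ ≤ C * ebzN M y

private theorem ebz_loc (H : EbzH U M) {y₀ : Y} (hy : y₀ ∈ U) : ∃ ε c C : ℝ, 0 < ε ∧ 0 < c ∧ 0 < C ∧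
    ∀ y, ‖y - y₀‖ ≤ ε → EbzL U M y c C := by
  obtain ⟨c, hc, hlow⟩ := H.co y₀ hy
  have hn : U ∈ 𝓝 y₀ := H.opn.mem_nhds hy
  have cM : ContinuousAt M y₀ := H.sm.continuousOn.continuousAt hn
  have cdM : ContinuousAt (fderiv ℝ M) y₀ :=
    (H.sm.continuousOn_fderiv_of_isOpen H.opn (by simp)).continuousAt hn
  have cN : ContinuousAt (ebzN M) y₀ := (ebz_n_sm H).continuousOn.continuousAt hn
  have cdN : ContinuousAt (fderiv ℝ (ebzN M)) y₀ :=
    ((ebz_n_sm H).continuousOn_fderiv_of_isOpen H.opn (by simp)).continuousAt hn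
  have cq : ContinuousAt (fun y => ‖fderiv ℝ (ebzN M) y‖ / ebzN M y) y₀ :=
    cdN.norm.div cN (ebz_npos H hy).ne'
  have e1 : ∀ᶠ y in 𝓝 y₀, ‖M y - M y₀‖ < c / 2 := by
    have := Metric.continuousAt_iff'.1 cM (c / 2) (half_pos hc)
    simpa only [dist_eq_norm] using this
  have cdM' : ContinuousAt (fun y => ‖fderiv ℝ M y‖) y₀ :=
    ContinuousAt.comp (g := fun z : Y →L[ℝ] (Wsp dm →L[ℝ] Wsp dm) => ‖z‖)
      (continuous_norm (E := Y →L[ℝ] (Wsp dm →L[ℝ] Wsp dm))).continuousAt cdM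
  have e2 : ∀ᶠ y in 𝓝 y₀, ‖fderiv ℝ M y‖ < ‖fderiv ℝ M y₀‖ + 1 :=
    cdM'.eventually_lt continuousAt_const (lt_add_one _)
  have e3 : ∀ᶠ y in 𝓝 y₀, ebzN M y < ebzN M y₀ + 1 := cN.eventually_lt continuousAt_const (lt_add_one _)
  have e4 : ∀ᶠ y in 𝓝 y₀, ‖fderiv ℝ (ebzN M) y‖ / ebzN M y < ‖fderiv ℝ (ebzN M) y₀‖ / ebzN M y₀ + 1 :=
    cq.eventually_lt continuousAt_const (lt_add_one _)
  have e5 : ∀ᶠ y in 𝓝 y₀, y ∈ U := hn
  obtain ⟨ε, hε, hb⟩ := Metric.nhds_basis_closedBall.eventually_iff.1 (e1.and (e2.and (e3.and (e4.and e5))))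
  have p1 : 0 ≤ ‖M y₀‖ := norm_nonneg _
  have p2 : 0 ≤ ‖fderiv ℝ M y₀‖ := norm_nonneg (E := Y →L[ℝ] (Wsp dm →L[ℝ] Wsp dm)) _
  have p3 : 0 < ebzN M y₀ := ebz_npos H hy
  have p4 : 0 ≤ ‖fderiv ℝ (ebzN M) y₀‖ / ebzN M y₀ := by positivity
  refine ⟨ε, c / 2, ‖M y₀‖ + c / 2 + (‖fderiv ℝ M y₀‖ + 1) + (ebzN M y₀ + 1) +
    (‖fderiv ℝ (ebzN M) y₀‖ / ebzN M y₀ + 1), hε, half_pos hc, by positivity, fun y hy' => ?_⟩
  obtain ⟨b1, b2, b3, b4, b5⟩ := hb (by rw [Metric.mem_closedBall, dist_eq_norm]; exact hy')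
  have pN : 0 < ebzN M y := ebz_npos H b5
  refine ⟨b5, fun w => ?_, ?_, by linarith, by linarith, ?_⟩
  · have h1 := hlow w
    have h2 : inner ℝ w (M y w) = inner ℝ w (M y₀ w) + inner ℝ w ((M y - M y₀) w) := by
      rw [_root_.sub_apply, inner_sub_right]
      ring
    have h3 : |inner ℝ w ((M y - M y₀) w)| ≤ c / 2 * ‖w‖ ^ 2 := by
      calc |inner ℝ w ((M y - M y₀) w)| ≤ ‖w‖ * ‖(M y - M y₀) w‖ := abs_real_inner_le_norm _ _
        _ ≤ ‖w‖ * (‖M y - M y₀‖ * ‖w‖) :=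
            mul_le_mul_of_nonneg_left ((M y - M y₀).le_opNorm w) (norm_nonneg _)
        _ ≤ ‖w‖ * (c / 2 * ‖w‖) := by gcongr
        _ = _ := by ring
    have h4 := (abs_le.1 h3).1
    rw [h2]
    nlinarith
  · have h1 : ‖M y‖ ≤ ‖M y₀‖ + ‖M y - M y₀‖ := by
      have := norm_add_le (M y₀) (M y - M y₀)
      rwa [add_sub_cancel] at this
    linarith
  · rw [div_lt_iff₀ pN] at b4
    refine b4.le.trans (mul_le_mul_of_nonneg_right ?_ pN.le)
    linarith

private theorem ebz_up {y : Y} {c C : ℝ} (L : EbzL U M y c C) (w : Wsp dm) (hC : 0 ≤ C) :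
    ebzG M y w ≤ C * Real.exp (-(c / 2) * ‖w‖ ^ 2) := by
  unfold ebzG
  refine mul_le_mul L.nup (Real.exp_le_exp.2 ?_) (Real.exp_pos _).le hC
  have := L.low w
  linarith

private theorem ebz_sq_up (H : EbzH U M) {y : Y} {c C : ℝ} (L : EbzL U M y c C) (hC : 0 ≤ C) (k : ℕ) (w : Wsp dm) :
    (‖w‖ ^ k * ebzG M y w) ^ 2 ≤ C ^ 2 * (‖w‖ ^ (2 * k) * Real.exp (-c * ‖w‖ ^ 2)) := by
  have h1 := ebz_up L w hC
  have h2 := (ebz_g_pos H L.mem w).le
  have h3 : ebzG M y w ^ 2 ≤ (C * Real.exp (-(c / 2) * ‖w‖ ^ 2)) ^ 2 := pow_le_pow_left₀ h2 h1 2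
  have h4 : (C * Real.exp (-(c / 2) * ‖w‖ ^ 2)) ^ 2 = C ^ 2 * Real.exp (-c * ‖w‖ ^ 2) := by
    rw [mul_pow, ← Real.exp_nat_mul]
    congr 2
    push_cast
    ring
  rw [h4] at h3
  calc (‖w‖ ^ k * ebzG M y w) ^ 2 = ‖w‖ ^ (2 * k) * ebzG M y w ^ 2 := by
        rw [mul_pow, ← pow_mul, mul_comm k 2]
    _ ≤ ‖w‖ ^ (2 * k) * (C ^ 2 * Real.exp (-c * ‖w‖ ^ 2)) := mul_le_mul_of_nonneg_left h3 (by positivity)
    _ = _ := by ring

omit [NormedAddCommGroup Y] [NormedSpace ℝ Y] in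
private theorem ebz_g_cont (y : Y) : Continuous (ebzG M y) := by
  unfold ebzG
  fun_prop

private theorem ebz_int (H : EbzH U M) {y : Y} {c C : ℝ} (L : EbzL U M y c C) (hc : 0 < c) (hC : 0 ≤ C) (k : ℕ) :
    Integrable fun w : Wsp dm => (‖w‖ ^ k * ebzG M y w) ^ 2 := by
  refine ((ebz_ipow (dm := dm) hc k).const_mul (C ^ 2)).mono' ?_ (ae_of_all _ fun w => ?_)
  · have := ebz_g_cont (M := M) y
    exact Continuous.aestronglyMeasurable (by fun_prop)
  · rw [Real.norm_of_nonneg (sq_nonneg _)]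
    exact ebz_sq_up H L hC k w

private theorem ebz_mom (H : EbzH U M) {y : Y} {c C : ℝ} (L : EbzL U M y c C) (hc : 0 < c) (hC : 0 ≤ C) (k : ℕ) :
    ∫ w : Wsp dm, (‖w‖ ^ k * ebzG M y w) ^ 2 ≤
      C ^ 2 * ∫ w : Wsp dm, ‖w‖ ^ (2 * k) * Real.exp (-c * ‖w‖ ^ 2) := by
  rw [← integral_const_mul]
  exact integral_mono (ebz_int H L hc hC k) ((ebz_ipow hc k).const_mul _) fun w => ebz_sq_up H L hC k w

/-- fibre derivative -/
private theorem ebz_dw (H : EbzH U M) {y : Y} (hy : y ∈ U) (w e : Wsp dm) :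
    fderiv ℝ (ebzG M y) w e = -inner ℝ e (M y w) * ebzG M y w := by
  have h1 : HasFDerivAt (fun w : Wsp dm => inner ℝ w (M y w))
      ((fderivInnerCLM ℝ (w, M y w)).comp ((ContinuousLinearMap.id ℝ (Wsp dm)).prod (M y))) w :=
    (hasFDerivAt_id w).inner ℝ (M y).hasFDerivAt
  have h2 : HasFDerivAt (ebzG M y) _ w := ((h1.const_mul (-(1 / 2))).exp).const_mul (ebzN M y)
  rw [h2.fderiv]
  have h3 : inner ℝ w (M y e) = inner ℝ e (M y w) := by
    rw [← H.sy y hy w e, real_inner_comm]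
  simp only [_root_.smul_apply, ContinuousLinearMap.comp_apply, ContinuousLinearMap.prod_apply,
    ContinuousLinearMap.id_apply, fderivInnerCLM_apply, smul_eq_mul, h3, ebzG]
  ring

/-- base derivative -/
private theorem ebz_dy (H : EbzH U M) {y : Y} (hy : y ∈ U) (w : Wsp dm) :
    DifferentiableAt ℝ (fun y' => ebzG M y' w) y ∧ ∀ e, fderiv ℝ (fun y' => ebzG M y' w) y e =
      fderiv ℝ (ebzN M) y e * Real.exp (-(1 / 2) * inner ℝ w (M y w)) -
        1 / 2 * inner ℝ w (fderiv ℝ M y e w) * ebzG M y w := by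
  have hn : U ∈ 𝓝 y := H.opn.mem_nhds hy
  have dM : HasFDerivAt M (fderiv ℝ M y) y :=
    ((H.sm.contDiffAt hn).differentiableAt (by simp)).hasFDerivAt
  have dN : HasFDerivAt (ebzN M) (fderiv ℝ (ebzN M) y) y :=
    (((ebz_n_sm H).contDiffAt hn).differentiableAt (by simp)).hasFDerivAt
  have h1 : HasFDerivAt (fun y' => M y' w) ((ContinuousLinearMap.apply ℝ (Wsp dm) w).comp (fderiv ℝ M y)) y :=
    (ContinuousLinearMap.apply ℝ (Wsp dm) w).hasFDerivAt.comp y dM
  have h2 : HasFDerivAt (fun y' => inner ℝ w (M y' w))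
      ((innerSL ℝ w).comp ((ContinuousLinearMap.apply ℝ (Wsp dm) w).comp (fderiv ℝ M y))) y :=
    (innerSL ℝ w).hasFDerivAt.comp y h1
  have h3 : HasFDerivAt (fun y' => ebzG M y' w) _ y := dN.mul ((h2.const_mul (-(1 / 2))).exp)
  refine ⟨h3.differentiableAt, fun e => ?_⟩
  rw [h3.fderiv]
  simp only [_root_.smul_apply, _root_.add_apply, ContinuousLinearMap.comp_apply,
    ContinuousLinearMap.apply_apply, innerSL_apply_apply, smul_eq_mul, ebzG]
  ring

private theorem ebz_dy_le (H : EbzH U M) {y : Y} {c C : ℝ} (L : EbzL U M y c C) (w : Wsp dm) (e : Y) :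
    |fderiv ℝ (fun y' => ebzG M y' w) y e| ≤ C * (1 + ‖w‖ ^ 2) * ‖e‖ * ebzG M y w := by
  rw [(ebz_dy H L.mem w).2 e]
  have pN := ebz_npos H L.mem
  have pG := ebz_g_pos H L.mem w
  have h1 : |fderiv ℝ (ebzN M) y e * Real.exp (-(1 / 2) * inner ℝ w (M y w))| ≤ C * ‖e‖ * ebzG M y w := by
    rw [abs_mul, abs_of_pos (Real.exp_pos _)]
    unfold ebzG
    have h2 : |fderiv ℝ (ebzN M) y e| ≤ C * ebzN M y * ‖e‖ :=
      ((fderiv ℝ (ebzN M) y).le_opNorm e).trans (mul_le_mul_of_nonneg_right L.dn (norm_nonneg _))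
    calc _ ≤ (C * ebzN M y * ‖e‖) * Real.exp (-(1 / 2) * inner ℝ w (M y w)) :=
          mul_le_mul_of_nonneg_right h2 (Real.exp_pos _).le
      _ = _ := by ring
  have h2 : |1 / 2 * inner ℝ w (fderiv ℝ M y e w) * ebzG M y w| ≤ C * ‖w‖ ^ 2 * ‖e‖ * ebzG M y w := by
    rw [abs_mul, abs_of_pos pG, abs_mul]
    refine mul_le_mul_of_nonneg_right ?_ pG.le
    have h3 : |inner ℝ w (fderiv ℝ M y e w)| ≤ C * ‖w‖ ^ 2 * ‖e‖ := by
      calc |inner ℝ w (fderiv ℝ M y e w)| ≤ ‖w‖ * ‖fderiv ℝ M y e w‖ := abs_real_inner_le_norm _ _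
        _ ≤ ‖w‖ * (‖fderiv ℝ M y e‖ * ‖w‖) :=
            mul_le_mul_of_nonneg_left ((fderiv ℝ M y e).le_opNorm w) (norm_nonneg _)
        _ ≤ ‖w‖ * ((C * ‖e‖) * ‖w‖) := by
            have := ((fderiv ℝ M y).le_opNorm e).trans (mul_le_mul_of_nonneg_right L.dup (norm_nonneg _))
            gcongr
        _ = _ := by ring
    have h4 : |(1 / 2 : ℝ)| = 1 / 2 := abs_of_pos (by norm_num)
    rw [h4]
    have := abs_nonneg (inner ℝ w (fderiv ℝ M y e w))
    linarith
  calc _ ≤ |fderiv ℝ (ebzN M) y e * Real.exp (-(1 / 2) * inner ℝ w (M y w))| +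
        |1 / 2 * inner ℝ w (fderiv ℝ M y e w) * ebzG M y w| := abs_sub _ _
    _ ≤ C * ‖e‖ * ebzG M y w + C * ‖w‖ ^ 2 * ‖e‖ * ebzG M y w := add_le_add h1 h2
    _ = _ := by ring

/-- orthogonality -/
private theorem ebz_orth (H : EbzH U M) {y : Y} (hy : y ∈ U) (e : Y) :
    ∫ w, ebzG M y w * fderiv ℝ (fun y' => ebzG M y' w) y e = 0 := by
  obtain ⟨ε, c, C, hε, hc, hC, hl⟩ := ebz_loc H hy
  have hst : ∀ t ∈ Metric.ball (0 : ℝ) (ε / (‖e‖ + 1)), EbzL U M (y + t • e) c C := by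
    intro t ht
    refine hl _ ?_
    rw [add_sub_cancel_left, norm_smul]
    rw [mem_ball_zero_iff, lt_div_iff₀ (by positivity)] at ht
    nlinarith [norm_nonneg t, norm_nonneg e]
  have hpos : 0 < ε / (‖e‖ + 1) := by positivity
  have h0 : y + (0 : ℝ) • e = y := by rw [zero_smul, add_zero]
  have key := hasDerivAt_integral_of_dominated_loc_of_deriv_le (μ := (volume : Measure (Wsp dm)))
    (F := fun (t : ℝ) w => ebzG M (y + t • e) w ^ 2)
    (F' := fun (t : ℝ) w => 2 * (ebzG M (y + t • e) w * fderiv ℝ (fun y' => ebzG M y' w) (y + t • e) e))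
    (x₀ := (0 : ℝ)) (s := Metric.ball (0 : ℝ) (ε / (‖e‖ + 1)))
    (bound := fun w => 2 * C * ‖e‖ * C ^ 2 * (‖w‖ ^ (2 * 0) * Real.exp (-c * ‖w‖ ^ 2)) +
      2 * C * ‖e‖ * C ^ 2 * (‖w‖ ^ (2 * 1) * Real.exp (-c * ‖w‖ ^ 2)))
    (Metric.ball_mem_nhds _ hpos) ?_ ?_ ?_ ?_ ?_ ?_
  · have h1 : (fun t : ℝ => ∫ w, ebzG M (y + t • e) w ^ 2) =ᶠ[𝓝 0] fun _ => 1 := by
      filter_upwards [Metric.ball_mem_nhds (0 : ℝ) hpos] with t ht
      exact ebz_norm H (hst t ht).mem
    have h2 := h1.hasDerivAt_iff.1 key.2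
    have h3 := h2.unique (hasDerivAt_const (0 : ℝ) (1 : ℝ))
    simp only [h0] at h3
    rw [integral_const_mul] at h3
    linarith
  · refine Eventually.of_forall fun t => ?_
    have := ebz_g_cont (M := M) (y + t • e)
    exact Continuous.aestronglyMeasurable (by fun_prop)
  · have := ebz_int H (hst 0 (Metric.mem_ball_self hpos)) hc hC.le 0
    simpa using this
  · simp only [h0]
    have h1 : (fun w => 2 * (ebzG M y w * fderiv ℝ (fun y' => ebzG M y' w) y e)) = fun w =>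
        2 * (ebzG M y w * (fderiv ℝ (ebzN M) y e * Real.exp (-(1 / 2) * inner ℝ w (M y w)) -
        1 / 2 * inner ℝ w (fderiv ℝ M y e w) * ebzG M y w)) := by
      funext w
      rw [(ebz_dy H hy w).2 e]
    rw [h1]
    have := ebz_g_cont (M := M) y
    exact Continuous.aestronglyMeasurable (by fun_prop)
  · refine ae_of_all _ fun w t ht => ?_
    have L := hst t ht
    have pG := ebz_g_pos H L.mem w
    rw [Real.norm_eq_abs, abs_mul, abs_mul, abs_of_pos pG, abs_two]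
    have h1 := ebz_dy_le H L w e
    have h2 := ebz_sq_up H L hC.le 0 w
    simp only [pow_zero, one_mul, mul_zero] at h2
    simp only [pow_zero, one_mul, mul_zero, mul_one]
    calc 2 * (ebzG M (y + t • e) w * |fderiv ℝ (fun y' => ebzG M y' w) (y + t • e) e|)
        ≤ 2 * (ebzG M (y + t • e) w * (C * (1 + ‖w‖ ^ 2) * ‖e‖ * ebzG M (y + t • e) w)) := by gcongr
      _ = 2 * C * ‖e‖ * (1 + ‖w‖ ^ 2) * ebzG M (y + t • e) w ^ 2 := by ring
      _ ≤ 2 * C * ‖e‖ * (1 + ‖w‖ ^ 2) * (C ^ 2 * Real.exp (-c * ‖w‖ ^ 2)) := by gcongr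
      _ = _ := by ring
  · exact ((ebz_ipow hc 0).const_mul _).add ((ebz_ipow hc 1).const_mul _)
  · refine ae_of_all _ fun w t ht => ?_
    have L := hst t ht
    have h1 : HasDerivAt (fun t : ℝ => y + t • e) e t := by
      simpa using ((hasDerivAt_id t).smul_const e).const_add y
    have h2' : HasFDerivAt (fun y' => ebzG M y' w) (fderiv ℝ (fun y' => ebzG M y' w) (y + t • e)) (y + t • e) :=
      (ebz_dy H L.mem w).1.hasFDerivAt
    have h2 : HasDerivAt (fun t : ℝ => ebzG M (y + t • e) w)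
        (fderiv ℝ (fun y' => ebzG M y' w) (y + t • e) e) t :=
      HasFDerivAt.comp_hasDerivAt (l := fun y' => ebzG M y' w) (f := fun t : ℝ => y + t • e) t h2' h1
    have h3 := h2.pow 2
    refine h3.congr_deriv ?_
    push_cast
    ring

/-- scaling -/
private theorem ebz_sc (hh : ∀ y ∈ U, ∀ t : ℝ, 0 < t → M (t • y) = t • M y) {y : Y} (hy : y ∈ U)
    {R : ℝ} (hR : 0 < R) (w : Wsp dm) :
    ebzG M (R • y) w = Real.sqrt R ^ (4 * dm) * ebzG M y (Real.sqrt R • w) := by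
  have hsR : 0 < Real.sqrt R := Real.sqrt_pos.2 hR
  have e : ∀ w : Wsp dm, inner ℝ w (M (R • y) w) = inner ℝ (Real.sqrt R • w) (M y (Real.sqrt R • w)) := by
    intro w
    rw [hh y hy R hR, _root_.smul_apply, map_smul, inner_smul_left, inner_smul_right, inner_smul_right,
      conj_trivial, ← mul_assoc, Real.mul_self_sqrt hR.le]
  have hfr : Module.finrank ℝ (Wsp dm) = 8 * dm := by
    rw [finrank_euclideanSpace, Fintype.card_prod, Fintype.card_fin, Fintype.card_fin]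
  have h1 : ebzN M (R • y) = Real.sqrt R ^ (4 * dm) * ebzN M y := by
    unfold ebzN
    simp only [e]
    rw [Measure.integral_comp_smul (volume : Measure (Wsp dm)) (fun w => Real.exp (-inner ℝ w (M y w))), hfr,
      smul_eq_mul, abs_of_pos (inv_pos.2 (pow_pos hsR _)),
      Real.sqrt_mul (inv_pos.2 (pow_pos hsR _)).le, mul_inv, Real.sqrt_inv, inv_inv]
    congr 1
    have h2 : Real.sqrt R ^ (8 * dm) = (Real.sqrt R ^ (4 * dm)) ^ 2 := by
      rw [← pow_mul]
      congr 1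
      ring
    rw [h2, Real.sqrt_sq (pow_pos hsR _).le]
  unfold ebzG
  rw [h1, e w, mul_assoc]

private theorem ebz_msc (hh : ∀ y ∈ U, ∀ t : ℝ, 0 < t → M (t • y) = t • M y) {y : Y} (hy : y ∈ U)
    {R : ℝ} (hR : 0 < R) (k : ℕ) :
    ∫ w, (‖w‖ ^ k * ebzG M (R • y) w) ^ 2 = (1 / R) ^ k * ∫ w, (‖w‖ ^ k * ebzG M y w) ^ 2 := by
  have hsR : 0 < Real.sqrt R := Real.sqrt_pos.2 hR
  have hfr : Module.finrank ℝ (Wsp dm) = 8 * dm := by
    rw [finrank_euclideanSpace, Fintype.card_prod, Fintype.card_fin, Fintype.card_fin]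
  have e : ∀ w : Wsp dm, (‖w‖ ^ k * ebzG M (R • y) w) ^ 2 = (Real.sqrt R ^ (8 * dm) * (1 / R) ^ k) *
      (‖Real.sqrt R • w‖ ^ k * ebzG M y (Real.sqrt R • w)) ^ 2 := by
    intro w
    rw [ebz_sc hh hy hR, norm_smul, Real.norm_of_nonneg hsR.le]
    have h2 : Real.sqrt R ^ (8 * dm) = (Real.sqrt R ^ (4 * dm)) ^ 2 := by
      rw [← pow_mul]
      congr 1
      ring
    have h3 : (1 / R) ^ k * (Real.sqrt R ^ k) ^ 2 = 1 := by
      rw [← pow_mul, mul_comm k 2, pow_mul, Real.sq_sqrt hR.le, ← mul_pow, one_div_mul_cancel hR.ne', one_pow]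
    rw [h2]
    calc _ = (Real.sqrt R ^ (4 * dm)) ^ 2 * ((‖w‖ ^ k) ^ 2 * ebzG M y (Real.sqrt R • w) ^ 2) * 1 := by ring
      _ = (Real.sqrt R ^ (4 * dm)) ^ 2 * ((‖w‖ ^ k) ^ 2 * ebzG M y (Real.sqrt R • w) ^ 2) *
          ((1 / R) ^ k * (Real.sqrt R ^ k) ^ 2) := by rw [h3]
      _ = _ := by ring
  simp only [e]
  rw [integral_const_mul, Measure.integral_comp_smul (volume : Measure (Wsp dm))
    (fun w => (‖w‖ ^ k * ebzG M y w) ^ 2), hfr, smul_eq_mul, abs_of_pos (inv_pos.2 (pow_pos hsR _))]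
  have : Real.sqrt R ^ (8 * dm) * (Real.sqrt R ^ (8 * dm))⁻¹ = 1 := mul_inv_cancel₀ (pow_pos hsR _).ne'
  calc _ = (Real.sqrt R ^ (8 * dm) * (Real.sqrt R ^ (8 * dm))⁻¹) *
        ((1 / R) ^ k * ∫ w, (‖w‖ ^ k * ebzG M y w) ^ 2) := by ring
    _ = _ := by rw [this, one_mul]

/-- all facts at scale `R` for the model Gaussian -/
private theorem ebz_all (H : EbzH U M) (hh : ∀ y ∈ U, ∀ t : ℝ, 0 < t → M (t • y) = t • M y)
    (hcone : ∀ y ∈ U, ∀ t : ℝ, 0 < t → t • y ∈ U) {y₀ : Y} (hy₀ : y₀ ∈ U) : ∃ ε C : ℝ, 0 < ε ∧ 0 < C ∧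
    (∀ R : ℝ, 0 < R → ∀ y : Y, ‖y - R • y₀‖ ≤ ε * R → y ∈ U ∧
      (∀ w, ebzG M y w ≤ C * Real.sqrt R ^ (4 * dm) * Real.exp (-(R * ‖w‖ ^ 2 / C))) ∧
      (∀ (w e : Wsp dm), ‖e‖ ≤ 1 → |fderiv ℝ (ebzG M y) w e| ≤ C * R * ‖w‖ * ebzG M y w) ∧
      (∀ (w : Wsp dm) (e : Y), ‖e‖ ≤ 1 →
        |fderiv ℝ (fun y' => ebzG M y' w) y e| ≤ C * (1 / R + ‖w‖ ^ 2) * ebzG M y w) ∧
      (∀ k : ℕ, k ≤ 12 → ∫ w, (‖w‖ ^ k * ebzG M y w) ^ 2 ≤ C * (1 / R) ^ k)) := by
  obtain ⟨ε, c, C, hε, hc, hC, hl⟩ := ebz_loc H hy₀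
  let J : ℕ → ℝ := fun k => ∫ w : Wsp dm, ‖w‖ ^ (2 * k) * Real.exp (-c * ‖w‖ ^ 2)
  have hJ : ∀ k, 0 ≤ J k := fun k => integral_nonneg fun w => by positivity
  have hJs : ∀ k, k ≤ 12 → J k ≤ ∑ k ∈ Finset.range 13, J k := fun k hk =>
    Finset.single_le_sum (fun i _ => hJ i) (Finset.mem_range.2 (by omega))
  have hJt : 0 ≤ ∑ k ∈ Finset.range 13, J k := Finset.sum_nonneg fun i _ => hJ i
  let Ct : ℝ := C + 2 / c + C ^ 2 * ∑ k ∈ Finset.range 13, J k
  have hCC : C ≤ Ct := by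
    have : 0 < 2 / c := by positivity
    have h2 : 0 ≤ C ^ 2 * ∑ k ∈ Finset.range 13, J k := by positivity
    simp only [Ct]
    linarith
  have hCt : 0 < Ct := hC.trans_le hCC
  have hc2 : 1 / Ct ≤ c / 2 := by
    rw [div_le_div_iff₀ hCt two_pos, one_mul]
    have h2 : 0 ≤ C ^ 2 * ∑ k ∈ Finset.range 13, J k := by positivity
    have h3 : 2 / c ≤ Ct := by
      simp only [Ct]
      linarith
    rw [div_le_iff₀ hc] at h3
    linarith
  refine ⟨ε, Ct, hε, hCt, fun R hR y hyR => ?_⟩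
  have hsR : 0 < Real.sqrt R := Real.sqrt_pos.2 hR
  obtain ⟨y', hy'⟩ : ∃ y', y' = R⁻¹ • y := ⟨_, rfl⟩
  have hyy : y = R • y' := by rw [hy', smul_smul, mul_inv_cancel₀ hR.ne', one_smul]
  have L : EbzL U M y' c C := by
    refine hl y' ?_
    have h1 : y' - y₀ = R⁻¹ • (y - R • y₀) := by
      rw [smul_sub, smul_smul, inv_mul_cancel₀ hR.ne', one_smul, hy']
    rw [h1, norm_smul, norm_inv, Real.norm_of_nonneg hR.le, inv_mul_le_iff₀ hR]
    linarith
  have hyU : y ∈ U := by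
    rw [hyy]
    exact hcone _ L.mem R hR
  refine ⟨hyU, fun w => ?_, fun w e he => ?_, fun w e he => ?_, fun k hk => ?_⟩
  · rw [hyy, ebz_sc hh L.mem hR]
    have h1 := ebz_up L (Real.sqrt R • w) hC.le
    rw [norm_smul, Real.norm_of_nonneg hsR.le, mul_pow, Real.sq_sqrt hR.le] at h1
    have h2 : Real.exp (-(c / 2) * (R * ‖w‖ ^ 2)) ≤ Real.exp (-(R * ‖w‖ ^ 2 / Ct)) := by
      refine Real.exp_le_exp.2 ?_
      have h3 : 0 ≤ R * ‖w‖ ^ 2 := by positivity
      have h4 := mul_le_mul_of_nonneg_right hc2 h3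
      have h5 : R * ‖w‖ ^ 2 / Ct = 1 / Ct * (R * ‖w‖ ^ 2) := by ring
      rw [h5]
      linarith
    calc Real.sqrt R ^ (4 * dm) * ebzG M y' (Real.sqrt R • w)
        ≤ Real.sqrt R ^ (4 * dm) * (C * Real.exp (-(c / 2) * (R * ‖w‖ ^ 2))) :=
          mul_le_mul_of_nonneg_left h1 (pow_pos hsR _).le
      _ ≤ Real.sqrt R ^ (4 * dm) * (Ct * Real.exp (-(R * ‖w‖ ^ 2 / Ct))) := by gcongr
      _ = _ := by ring
  · rw [ebz_dw H hyU, abs_mul, abs_neg, abs_of_pos (ebz_g_pos H hyU w)]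
    refine mul_le_mul_of_nonneg_right ?_ (ebz_g_pos H hyU w).le
    have h1 : ‖M y‖ ≤ Ct * R := by
      rw [hyy, hh y' L.mem R hR, norm_smul, Real.norm_of_nonneg hR.le, mul_comm]
      exact mul_le_mul_of_nonneg_right (L.up.trans hCC) hR.le
    calc |inner ℝ e (M y w)| ≤ ‖e‖ * ‖M y w‖ := abs_real_inner_le_norm _ _
      _ ≤ 1 * (‖M y‖ * ‖w‖) := mul_le_mul he ((M y).le_opNorm w) (norm_nonneg _) zero_le_one
      _ ≤ 1 * (Ct * R * ‖w‖) := by gcongr
      _ = _ := one_mul _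
  · have h1 : (fun y'' => ebzG M y'' w) =ᶠ[𝓝 y]
        fun y'' => Real.sqrt R ^ (4 * dm) * ebzG M (R⁻¹ • y'') (Real.sqrt R • w) := by
      filter_upwards [H.opn.mem_nhds hyU] with z hz
      have hz' : R⁻¹ • z ∈ U := hcone z hz _ (inv_pos.2 hR)
      have h2 := ebz_sc hh hz' hR w
      rwa [smul_smul, mul_inv_cancel₀ hR.ne', one_smul] at h2
    have h2 : HasFDerivAt (fun y'' : Y => R⁻¹ • y'') (R⁻¹ • ContinuousLinearMap.id ℝ Y) y :=
      (hasFDerivAt_id y).const_smul R⁻¹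
    have h3 : HasFDerivAt (fun z => ebzG M z (Real.sqrt R • w))
        (fderiv ℝ (fun z => ebzG M z (Real.sqrt R • w)) y') (R⁻¹ • y) := by
      rw [← hy']
      exact (ebz_dy H L.mem (Real.sqrt R • w)).1.hasFDerivAt
    have h4 := (h3.comp y h2).const_mul (Real.sqrt R ^ (4 * dm))
    have h5 : fderiv ℝ (fun y'' => ebzG M y'' w) y e = Real.sqrt R ^ (4 * dm) *
        (R⁻¹ * fderiv ℝ (fun z => ebzG M z (Real.sqrt R • w)) y' e) := by
      rw [h1.fderiv_eq]
      have h6 : fderiv ℝ (fun y'' => Real.sqrt R ^ (4 * dm) * ebzG M (R⁻¹ • y'') (Real.sqrt R • w)) y =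
        Real.sqrt R ^ (4 * dm) • ((fderiv ℝ (fun z => ebzG M z (Real.sqrt R • w)) y').comp
          (R⁻¹ • ContinuousLinearMap.id ℝ Y)) := h4.fderiv
      rw [h6]
      simp only [_root_.smul_apply, ContinuousLinearMap.comp_apply, ContinuousLinearMap.id_apply,
        map_smul, smul_eq_mul]
    rw [h5, abs_mul, abs_mul, abs_of_pos (pow_pos hsR _), abs_of_pos (inv_pos.2 hR)]
    have h6 := ebz_dy_le H L (Real.sqrt R • w) e
    rw [norm_smul, Real.norm_of_nonneg hsR.le, mul_pow, Real.sq_sqrt hR.le] at h6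
    have pG := ebz_g_pos H L.mem (Real.sqrt R • w)
    have h7 : C * (1 + R * ‖w‖ ^ 2) * ‖e‖ * ebzG M y' (Real.sqrt R • w) ≤
        Ct * (1 + R * ‖w‖ ^ 2) * 1 * ebzG M y' (Real.sqrt R • w) := by gcongr
    calc Real.sqrt R ^ (4 * dm) * (R⁻¹ * |fderiv ℝ (fun z => ebzG M z (Real.sqrt R • w)) y' e|)
        ≤ Real.sqrt R ^ (4 * dm) * (R⁻¹ * (Ct * (1 + R * ‖w‖ ^ 2) * 1 * ebzG M y' (Real.sqrt R • w))) := by
          have := h6.trans h7
          gcongr
      _ = Ct * (1 / R + ‖w‖ ^ 2) * (Real.sqrt R ^ (4 * dm) * ebzG M y' (Real.sqrt R • w)) := by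
          field_simp
      _ = _ := by rw [hyy, ebz_sc hh L.mem hR]
  · rw [hyy, ebz_msc hh L.mem hR, mul_comm]
    refine mul_le_mul_of_nonneg_right ?_ (by positivity)
    refine (ebz_mom H L hc hC.le k).trans ?_
    have h1 : C ^ 2 * J k ≤ C ^ 2 * ∑ k ∈ Finset.range 13, J k :=
      mul_le_mul_of_nonneg_left (hJs k hk) (by positivity)
    have : 0 < 2 / c := by positivity
    simp only [Ct]
    change C ^ 2 * J k ≤ _
    linarith

end Bz2

section Bz3

variable {D : Fin 9 → Matrix (Fin dm) (Fin dm) ℝ} {Om : Matrix (Fin dm) (Fin dm) ℝ}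

private theorem ebz_wt_neg (w : Wsp dm) (i : Fin 9) : wt (-w) i = -wt w i := by
  funext B
  unfold wt
  refine Fin.lastCases ?_ (fun j => ?_) i
  · rw [Fin.lastCases_last, Pi.neg_apply, Fin.lastCases_last, neg_zero]
  · rw [Fin.lastCases_castSucc, Pi.neg_apply, Fin.lastCases_castSucc, PiLp.neg_apply]

private theorem ebz_VV_neg (w : Wsp dm) (i : Fin 9) : VV D (-w) i = -VV D w i := by
  have h1 : sV D (-w) = -sV D w := by
    unfold sV
    simp only [ebz_wt_neg, Matrix.mulVec_neg, Finset.sum_neg_distrib]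
  unfold VV
  rw [h1, ebz_wt_neg, Matrix.mulVec_neg]
  abel

private theorem ebz_gR_neg (w : Wsp dm) : gR D Om 1 (-w) = gR D Om 1 w := by
  unfold gR qf
  simp only [ebz_VV_neg, Matrix.mulVec_neg, neg_dotProduct_neg]

end Bz3

/-- **E-Bz** -/
theorem bzf (S : Setup d F) (φ : Spl dh dm d) (ψ : Spl r ds dh) : MzStmt S φ ψ → BzStmt S φ ψ := by
  intro hMz hφ hc U Om V K hV y₀ hy₀
  obtain ⟨-, M, hMc, hMs, hMq, hMh, -, hMp⟩ := hMz hφ hc U Om V K hV
  have H : EbzH U M := ⟨hV.opn, hMc, hMs, hMp⟩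
  have hbz : ∀ y ∈ U, ∀ w, S.bz φ ψ Om y w = ebzG M y w := by
    intro y hy w
    unfold Setup.bz ebzG ebzN gR
    simp only [hMq y hy]
    rw [div_eq_mul_inv, mul_comm]
    have h1 : ∀ w' : Wsp dm, Real.exp (-(1 / 2) * inner ℝ w' (M y w')) ^ 2 =
        Real.exp (-inner ℝ w' (M y w')) := by
      intro w'
      rw [← Real.exp_nat_mul]
      congr 1
      push_cast
      ring
    simp only [h1]
  have hbzf : ∀ y ∈ U, (fun w => S.bz φ ψ Om y w) = ebzG M y := fun y hy => funext fun w => hbz y hy w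
  have hbzd : ∀ y ∈ U, ∀ w, fderiv ℝ (fun y' => S.bz φ ψ Om y' w) y = fderiv ℝ (fun y' => ebzG M y' w) y := by
    intro y hy w
    refine Filter.EventuallyEq.fderiv_eq ?_
    filter_upwards [hV.opn.mem_nhds hy] with z hz
    exact hbz z hz w
  obtain ⟨ε, C, hε, hC, hall⟩ := ebz_all H hMh hV.cone hy₀
  refine ⟨ε, C, hε, hC, ?_⟩
  have hsgl : ∀ (j : Fin 8) (B : Fin dm), ‖(EuclideanSpace.single (j, B) (1 : ℝ) : Wsp dm)‖ ≤ 1 := by
    intro j B
    rw [PiLp.norm_single, norm_one]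
  have hsgl' : ∀ (i : Fin 9) (A : Fin r), ‖(EuclideanSpace.single (i, A) (1 : ℝ) : Cfg r)‖ ≤ 1 := by
    intro i A
    rw [PiLp.norm_single, norm_one]
  refine ⟨fun R hR y hy => (hall R hR y hy).1, (ebz_g_sm H).congr fun p hp => hbz p.1 hp.1 p.2, ?_, ?_, ?_, ?_,
    ?_, ?_, ?_, ?_, ?_, ?_⟩
  · intro y hy w
    rw [hbz y hy]
    exact ebz_g_pos H hy w
  · intro y w
    unfold Setup.bz
    rw [ebz_gR_neg]
  · intro y hy k
    obtain ⟨ε', c', C', hε', hc', hC', hl⟩ := ebz_loc H hy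
    simp only [hbz y hy]
    exact ebz_int H (hl y (by rw [sub_self, norm_zero]; linarith)) hc' hC'.le k
  · intro y hy
    simp only [hbz y hy]
    exact ebz_norm H hy
  · intro R hR y hy w
    rw [hbz y (hall R hR y hy).1]
    exact (hall R hR y hy).2.1 w
  · intro R hR y hy w j B
    rw [hbzf y (hall R hR y hy).1, hbz y (hall R hR y hy).1]
    exact (hall R hR y hy).2.2.1 w _ (hsgl j B)
  · intro R hR y hy w i A
    rw [hbzd y (hall R hR y hy).1, hbz y (hall R hR y hy).1]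
    exact (hall R hR y hy).2.2.2.1 w _ (hsgl' i A)
  · intro R hR y hy k hk
    simp only [hbz y (hall R hR y hy).1]
    exact (hall R hR y hy).2.2.2.2 k (by omega)
  · intro δ hδ
    refine ⟨(δ ^ 8)⁻¹ * C, fun R hR1 y hy k hk => ?_⟩
    have hR : 0 < R := by linarith
    have hyU := (hall R hR y hy).1
    obtain ⟨ε', c', C', hε', hc', hC', hl⟩ := ebz_loc H hyU
    have hint := ebz_int H (hl y (by rw [sub_self, norm_zero]; linarith)) hc' hC'.le (k + 4)
    simp only [hbz y hyU]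
    have hδR : 0 < δ * R := mul_pos hδ hR
    calc ∫ w, (if δ * R ≤ ‖w‖ then (‖w‖ ^ k * ebzG M y w) ^ 2 else 0)
        ≤ ∫ w, ((δ * R) ^ 8)⁻¹ * (‖w‖ ^ (k + 4) * ebzG M y w) ^ 2 := by
          refine integral_mono_of_nonneg (ae_of_all _ fun w => ?_) (hint.const_mul _) (ae_of_all _ fun w => ?_)
          · simp only [Pi.zero_apply]
            split_ifs
            · positivity
            · exact le_rfl
          · simp only
            split_ifs with h
            · have h1 : (δ * R) ^ 8 ≤ ‖w‖ ^ 8 := pow_le_pow_left₀ hδR.le h 8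
              rw [inv_mul_eq_div, le_div_iff₀ (pow_pos hδR 8)]
              calc (‖w‖ ^ k * ebzG M y w) ^ 2 * (δ * R) ^ 8 ≤ (‖w‖ ^ k * ebzG M y w) ^ 2 * ‖w‖ ^ 8 :=
                    mul_le_mul_of_nonneg_left h1 (sq_nonneg _)
                _ = _ := by ring
            · positivity
      _ = ((δ * R) ^ 8)⁻¹ * ∫ w, (‖w‖ ^ (k + 4) * ebzG M y w) ^ 2 := integral_const_mul _ _
      _ ≤ ((δ * R) ^ 8)⁻¹ * (C * (1 / R) ^ (k + 4)) :=
          mul_le_mul_of_nonneg_left ((hall R hR y hy).2.2.2.2 (k + 4) (by omega)) (by positivity)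
      _ ≤ ((δ * R) ^ 8)⁻¹ * (C * 1) := by
          have h1 : (1 / R) ^ (k + 4) ≤ 1 := pow_le_one₀ (by positivity) (by rw [div_le_one hR]; exact hR1)
          gcongr
      _ = (δ ^ 8)⁻¹ * C * (1 / R) ^ 8 := by
          rw [mul_pow, mul_inv, one_div, inv_pow]
          ring
  · intro y hy i A
    simp only [hbz y hy, hbzd y hy]
    exact ebz_orth H hy _

end Vale.Agent.P353.Z.AE
end

section

/-! # P353, all `N`, block E: second moments of the slice Gaussian (E-Cov, helper803) -/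

open MeasureTheory Filter Topology Matrix
open scoped ContDiff

namespace Vale.Agent.P353.Z.AE

variable {d dh dm r ds : ℕ} {F : Type*} [NormedAddCommGroup F] [InnerProductSpace ℂ F]

section Cv

variable {κ : ℝ} {D : Fin 9 → Matrix (Fin dm) (Fin dm) ℝ} {Om : Matrix (Fin dm) (Fin dm) ℝ}

private theorem cv_wt_cast (w : Wsp dm) (j : Fin 8) (B : Fin dm) : wt w j.castSucc B = w (j, B) := by
  unfold wt
  rw [Fin.lastCases_castSucc]

private theorem cv_wt_last (w : Wsp dm) (B : Fin dm) : wt w 8 B = 0 := by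
  show wt w (Fin.last 8) B = 0
  unfold wt
  rw [Fin.lastCases_last]

/-- recognise `VV` -/
private theorem cv_VV (ht : (t2 D).det ≠ 0) (w : Wsp dm) (V : Fin 9 → Fin dm → ℝ) (b : Fin dm → ℝ)
    (hV : ∑ k, tI D k *ᵥ V k = 0) (hw : ∀ k, wt w k = V k + tI D k *ᵥ b) (k : Fin 9) :
    VV D w k = V k := by
  have h1 : sV D w = b := by
    unfold sV
    have h2 : ∑ i, tI D i *ᵥ wt w i = t2 D *ᵥ b := by
      simp only [hw, Matrix.mulVec_add, Finset.sum_add_distrib, hV, zero_add, Matrix.mulVec_mulVec]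
      rw [← Matrix.sum_mulVec]
      rfl
    rw [h2, Matrix.mulVec_mulVec, Matrix.nonsing_inv_mul _ (isUnit_iff_ne_zero.2 ht),
      Matrix.one_mulVec]
  unfold VV
  rw [h1, hw, add_sub_cancel_right]

/-- the column of the inverse matrix -/
private noncomputable def cvN (D : Fin 9 → Matrix (Fin dm) (Fin dm) ℝ)
    (Oi : Matrix (Fin dm) (Fin dm) ℝ) (i : Fin 8) (B : Fin dm) : Wsp dm :=
  WithLp.toLp 2 fun p => (if p.1 = i then Oi p.2 B else 0) +
    (tI D p.1.castSucc * (tI D i.castSucc * Oi)) p.2 B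

private theorem cv_N_VV (ht : (t2 D).det ≠ 0) (h8 : tI D 8 = 1) (Oi : Matrix (Fin dm) (Fin dm) ℝ)
    (i : Fin 8) (B : Fin dm) (j : Fin 8) :
    VV D (cvN D Oi i B) j.castSucc = if j = i then Oi *ᵥ Pi.single B 1 else 0 := by
  have key := cv_VV ht (cvN D Oi i B)
    (fun k => (if k = i.castSucc then Oi *ᵥ Pi.single B 1 else 0) -
      (if k = 8 then tI D i.castSucc *ᵥ (Oi *ᵥ Pi.single B 1) else 0))
    (tI D i.castSucc *ᵥ (Oi *ᵥ Pi.single B 1)) ?_ ?_ j.castSucc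
  · rw [key]
    have h1 : j.castSucc ≠ (8 : Fin 9) := by
      intro h
      have := congrArg Fin.val h
      simp at this
      omega
    simp only [if_neg h1, sub_zero, Fin.castSucc_inj]
  · simp only [Matrix.mulVec_sub, Finset.sum_sub_distrib]
    have e1 : ∀ (k k' : Fin 9) (v : Fin dm → ℝ), tI D k *ᵥ (if k = k' then v else 0) =
        if k = k' then tI D k *ᵥ v else 0 := by
      intro k k' v
      split_ifs
      · rfl
      · exact Matrix.mulVec_zero _
    simp only [e1, Finset.sum_ite_eq', Finset.mem_univ, if_true, h8, Matrix.one_mulVec, sub_self]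
  · intro k
    refine Fin.lastCases ?_ (fun l => ?_) k
    · funext C
      have h0 : wt (cvN D Oi i B) (Fin.last 8) C = 0 := cv_wt_last _ _
      rw [h0]
      have h1 : (8 : Fin 9) ≠ i.castSucc := fun h => (Fin.castSucc_lt_last i).ne h.symm
      have h2 : (Fin.last 8 : Fin 9) = 8 := rfl
      simp only [h2, if_neg h1, if_true, h8, Matrix.one_mulVec, zero_sub, Pi.add_apply,
        Pi.neg_apply, neg_add_cancel]
    · funext C
      rw [cv_wt_cast]
      have h1 : l.castSucc ≠ (8 : Fin 9) := fun h => (Fin.castSucc_lt_last l).ne h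
      simp only [if_neg h1, sub_zero, Fin.castSucc_inj, Pi.add_apply, cvN, Matrix.mulVec_mulVec,
        ← mul_assoc, Matrix.mulVec_single_one]
      congr 1
      split_ifs <;> rfl

/-- integration by parts -/
private theorem cv_ibp (M : Wsp dm →L[ℝ] Wsp dm) (hs : ∀ v w, inner ℝ (M v) w = inner ℝ v (M w))
    {c : ℝ} (hc : 0 < c) (hM : ∀ w, c * ‖w‖ ^ 2 ≤ inner ℝ w (M w)) (a b : Wsp dm) :
    ∫ w, inner ℝ b w * (inner ℝ (M a) w * Real.exp (-inner ℝ w (M w))) =
      (1 / 2) * inner ℝ b a * ∫ w : Wsp dm, Real.exp (-inner ℝ w (M w)) := by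
  obtain ⟨i1, i2, -, -⟩ := Poi.gauss_facts M hc hM
  have hq : Continuous fun w : Wsp dm => inner ℝ w (M w) := by fun_prop
  have hG : Continuous fun w : Wsp dm => Real.exp (-inner ℝ w (M w)) := hq.neg.rexp
  have hd : ∀ w : Wsp dm, HasFDerivAt (fun w : Wsp dm => Real.exp (-inner ℝ w (M w)))
      (Real.exp (-inner ℝ w (M w)) • -((fderivInnerCLM ℝ (w, M w)).comp
        ((ContinuousLinearMap.id ℝ (Wsp dm)).prod M))) w := by
    intro w
    exact (((hasFDerivAt_id w).inner ℝ M.hasFDerivAt).neg).exp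
  have hda : ∀ w : Wsp dm, fderiv ℝ (fun w : Wsp dm => Real.exp (-inner ℝ w (M w))) w a =
      (-2) * (inner ℝ (M a) w * Real.exp (-inner ℝ w (M w))) := by
    intro w
    rw [(hd w).fderiv]
    have h1 : inner ℝ w (M a) = inner ℝ (M a) w := real_inner_comm _ _
    have h2 : inner ℝ a (M w) = inner ℝ (M a) w := (hs a w).symm
    simp only [_root_.smul_apply, _root_.neg_apply,
      ContinuousLinearMap.comp_apply, ContinuousLinearMap.prod_apply,
      ContinuousLinearMap.id_apply, fderivInnerCLM_apply, smul_eq_mul, h1, h2]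
    ring
  have hbb : ∀ w : Wsp dm, fderiv ℝ (fun w : Wsp dm => inner ℝ b w) w a = inner ℝ b a := by
    intro w
    have : HasFDerivAt (fun w : Wsp dm => inner ℝ b w) (innerSL ℝ b) w :=
      (innerSL ℝ b).hasFDerivAt
    rw [this.fderiv]
    rfl
  have i3 : Integrable fun w : Wsp dm => inner ℝ b w * (inner ℝ (M a) w *
      Real.exp (-inner ℝ w (M w))) := by
    refine (i2.const_mul (‖b‖ * ‖M a‖)).mono' ?_ (Eventually.of_forall fun w => ?_)
    · exact (Continuous.mul (by fun_prop) (Continuous.mul (by fun_prop) hG)).aestronglyMeasurable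
    · rw [norm_mul, norm_mul, Real.norm_of_nonneg (Real.exp_pos _).le]
      have h1 := norm_inner_le_norm (𝕜 := ℝ) b w
      have h2 := norm_inner_le_norm (𝕜 := ℝ) (M a) w
      calc ‖inner ℝ b w‖ * (‖inner ℝ (M a) w‖ * Real.exp (-inner ℝ w (M w)))
          ≤ (‖b‖ * ‖w‖) * ((‖M a‖ * ‖w‖) * Real.exp (-inner ℝ w (M w))) := by
            gcongr
        _ = ‖b‖ * ‖M a‖ * (Real.exp (-inner ℝ w (M w)) * ‖w‖ ^ 2) := by ring
  have i4 : Integrable fun w : Wsp dm => inner ℝ b w * Real.exp (-inner ℝ w (M w)) := by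
    refine ((i1.add i2).const_mul ‖b‖).mono' ?_ (Eventually.of_forall fun w => ?_)
    · exact (Continuous.mul (by fun_prop) hG).aestronglyMeasurable
    · rw [norm_mul, Real.norm_of_nonneg (Real.exp_pos _).le]
      have h1 := norm_inner_le_norm (𝕜 := ℝ) b w
      have h2 : ‖w‖ ≤ 1 + ‖w‖ ^ 2 := by nlinarith [sq_nonneg (‖w‖ - 1), norm_nonneg w]
      calc ‖inner ℝ b w‖ * Real.exp (-inner ℝ w (M w))
          ≤ (‖b‖ * (1 + ‖w‖ ^ 2)) * Real.exp (-inner ℝ w (M w)) := by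
            have := h1.trans (mul_le_mul_of_nonneg_left h2 (norm_nonneg b))
            gcongr
        _ = ‖b‖ * ((Real.exp (-inner ℝ w (M w))) + Real.exp (-inner ℝ w (M w)) * ‖w‖ ^ 2) := by
            ring
  have h := integral_mul_fderiv_eq_neg_fderiv_mul_of_integrable (μ := volume)
    (f := fun w : Wsp dm => inner ℝ b w) (g := fun w : Wsp dm => Real.exp (-inner ℝ w (M w)))
    (v := a) ?_ ?_ i4 ?_ ?_
  · simp only [hda, hbb] at h
    rw [integral_const_mul] at h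
    have h3 : ∀ w : Wsp dm, inner ℝ b w * ((-2) * (inner ℝ (M a) w *
        Real.exp (-inner ℝ w (M w)))) = (-2) * (inner ℝ b w * (inner ℝ (M a) w *
        Real.exp (-inner ℝ w (M w)))) := fun w => by ring
    simp only [h3] at h
    rw [integral_const_mul] at h
    linarith
  · simp only [hbb]
    exact i1.const_mul _
  · simp only [hda]
    refine (i3.const_mul (-2)).congr (Eventually.of_forall fun w => ?_)
    simp only []
    ring
  · exact fun w _ => ((innerSL ℝ b).hasFDerivAt (x := w)).differentiableAt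
  · exact fun w _ => (hd w).differentiableAt

private theorem cv_main (hκ : 0 < κ) (hA : AlgStmt) (hQ : QFStmt) (hD : Frz D) (hO : IsOm κ D Om)
    (i j : Fin 8) (B C : Fin dm) :
    ∫ w : Wsp dm, w (i, B) * w (j, C) * gR D Om 1 w ^ 2 =
      (1 / 2) * ((if j = i then Om⁻¹ C B else 0) +
        (tI D j.castSucc * (tI D i.castSucc * Om⁻¹)) C B) * ∫ w : Wsp dm, gR D Om 1 w ^ 2 := by
  obtain ⟨-, -, h8, -, -, ht, -⟩ := hA dm κ D Om hκ hD hO
  obtain ⟨M, hs, hq, hM, c, hc, hc2⟩ := hQ dm κ D Om hκ hD hO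
  have hG : ∀ w : Wsp dm, gR D Om 1 w ^ 2 = Real.exp (-inner ℝ w (M w)) := by
    intro w
    unfold gR
    rw [← Real.exp_nat_mul, hq]
    congr 1
    push_cast
    ring
  have hdet : Om.det ≠ 0 := by
    intro h0
    obtain ⟨v, hv, h1⟩ := Matrix.exists_mulVec_eq_zero_iff.2 h0
    have := hO.pos v hv
    rw [h1, dotProduct_zero] at this
    exact lt_irrefl _ this
  have hMN : M (cvN D Om⁻¹ i B) = EuclideanSpace.single (i, B) 1 := by
    ext ⟨l, E⟩
    rw [hM, cv_N_VV ht h8]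
    by_cases hl : l = i
    · subst hl
      rw [if_pos rfl, Matrix.mulVec_mulVec, Matrix.mul_nonsing_inv _ (isUnit_iff_ne_zero.2 hdet),
        Matrix.one_mulVec]
      simp [Pi.single_apply]
    · rw [if_neg hl, Matrix.mulVec_zero]
      simp [hl]
  have key := cv_ibp M hs hc hc2 (cvN D Om⁻¹ i B) (EuclideanSpace.single (j, C) 1)
  rw [hMN] at key
  simp only [hG]
  have e1 : ∀ (p : Fin 8 × Fin dm) (w : Wsp dm),
      inner ℝ (EuclideanSpace.single p (1 : ℝ)) w = w p := by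
    intro p w
    rw [EuclideanSpace.inner_single_left]
    simp
  simp only [e1] at key
  have e2 : ∀ w : Wsp dm, w (i, B) * w (j, C) * Real.exp (-inner ℝ w (M w)) =
      w (j, C) * (w (i, B) * Real.exp (-inner ℝ w (M w))) := fun w => by ring
  simp only [e2]
  rw [key]
  rfl

end Cv

/-- **E-Cov** -/
theorem cov (S : Setup d F) (φ : Spl dh dm d) : AlgStmt → QFStmt → CovStmt S φ := by
  intro hA hQ D Om hD hO i j B C
  obtain ⟨hsy, hcm, h8, hTO, -, ht, -⟩ := hA dm S.κ D Om S.κ_pos hD hO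
  have hdet : Om.det ≠ 0 := by
    intro h0
    obtain ⟨v, hv, h1⟩ := Matrix.exists_mulVec_eq_zero_iff.2 h0
    have := hO.pos v hv
    rw [h1, dotProduct_zero] at this
    exact lt_irrefl _ this
  have hu := isUnit_iff_ne_zero.2 hdet
  have hOi : (Om⁻¹)ᵀ = Om⁻¹ := by
    rw [Matrix.transpose_nonsing_inv, hO.symm]
  have hTOi : ∀ i, tI D i * Om⁻¹ = Om⁻¹ * tI D i := by
    intro i
    calc tI D i * Om⁻¹ = (Om⁻¹ * Om) * tI D i * Om⁻¹ := by
          rw [Matrix.nonsing_inv_mul _ hu, one_mul]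
      _ = Om⁻¹ * (Om * tI D i) * Om⁻¹ := by simp only [mul_assoc]
      _ = Om⁻¹ * tI D i * (Om * Om⁻¹) := by rw [← hTO i]; simp only [mul_assoc]
      _ = Om⁻¹ * tI D i := by rw [Matrix.mul_nonsing_inv _ hu, mul_one]
  refine Fin.lastCases ?_ (fun j' => ?_) j
  · have h0 : ∀ (w : Wsp dm) (E : Fin dm), wt w (Fin.last 8) E = 0 := fun w E => cv_wt_last w E
    simp only [h0, mul_zero, zero_mul]
  · refine Fin.lastCases ?_ (fun i' => ?_) i
    · have h0 : ∀ (w : Wsp dm) (E : Fin dm), wt w (Fin.last 8) E = 0 := fun w E => cv_wt_last w E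
      simp only [h0, zero_mul]
    · simp only [cv_wt_cast]
      rw [cv_main S.κ_pos hA hQ hD hO, cv_main S.κ_pos hA hQ hD hO]
      have e1 : Om⁻¹ C B = Om⁻¹ B C := by
        conv_lhs => rw [← hOi]
        rfl
      have e2 : (tI D j'.castSucc * (tI D i'.castSucc * Om⁻¹))ᵀ =
          tI D j'.castSucc * (tI D i'.castSucc * Om⁻¹) := by
        rw [Matrix.transpose_mul, Matrix.transpose_mul, hOi, hsy, hsy, ← hTOi, mul_assoc,
          ← hTOi, ← mul_assoc, ← mul_assoc, hcm]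
      have e3 : (tI D j'.castSucc * (tI D i'.castSucc * Om⁻¹)) C B =
          (tI D j'.castSucc * (tI D i'.castSucc * Om⁻¹)) B C := by
        conv_lhs => rw [← e2]
        rfl
      rw [e1, e3]

end Vale.Agent.P353.Z.AE
end
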