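import Mathlib
import Vale.Agent.P353.BdA.B1
import Vale.Agent.P353.BdA.B12
import Vale.Agent.P353.BdA.B5
import Vale.Agent.P353.BdA.B7
import Vale.Agent.P353.BdA.B19

set_option linter.all false

section

/-! # P353, all `N`, block D, L5: bilinears commuting with the `D_i` kill the fermionic vacuum -/

open MeasureTheory Filter Topology Matrix Kronecker
open scoped ContDiff

namespace Vale.Agent.P353.Z.AD

open LamPf

variable {d dh dm : ℕ} {F : Type*} [NormedAddCommGroup F] [InnerProductSpace ℂ F]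

namespace VacSpinPf

variable (S : Setup d F) (D : Fin 9 → Matrix (Fin dm) (Fin dm) ℝ) (Om : Matrix (Fin dm) (Fin dm) ℝ)
  (φ : Spl dh dm d)

/-- the fermion `θ_p` -/
noncomputable def thp (p : Fin 16 × Fin dm) : F →L[ℂ] F := S.th p.1 (φ (Sum.inr p.2))

lemma thp_anti (p q : Fin 16 × Fin dm) (v : F) :
    thp S φ p (thp S φ q v) + thp S φ q (thp S φ p v) = if p = q then v else 0 := by
  have h := congrArg (fun T : F →L[ℂ] F => T v) (S.th_anti p.1 (φ (Sum.inr p.2)) q.1 (φ (Sum.inr q.2)))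
  have h1 : (p.1 = q.1 ∧ φ (Sum.inr p.2) = φ (Sum.inr q.2)) ↔ p = q := by
    rw [EmbeddingLike.apply_eq_iff_eq, Sum.inr.injEq, Prod.ext_iff]
  change _ = _ at h
  simp only [h1] at h
  change thp S φ p (thp S φ q v) + thp S φ q (thp S φ p v) = _ at h
  rw [h]
  split_ifs <;> simp

lemma sum_sym (M : Matrix (Fin 16 × Fin dm) (Fin 16 × Fin dm) ℂ) (hM : Mᵀ = M) (v : F) :
    (2 : ℂ) • ∑ p, ∑ q, M p q • thp S φ p (thp S φ q v) = M.trace • v := by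
  have h1 : ∑ p, ∑ q, M p q • thp S φ p (thp S φ q v) =
      ∑ p, ∑ q, M p q • thp S φ q (thp S φ p v) := by
    rw [Finset.sum_comm]
    refine Finset.sum_congr rfl fun p _ => Finset.sum_congr rfl fun q _ => ?_
    have : M q p = M p q := congrFun (congrFun hM p) q
    rw [this]
  rw [two_smul]
  nth_rw 2 [h1]
  rw [← Finset.sum_add_distrib, Matrix.trace, Finset.sum_smul]
  refine Finset.sum_congr rfl fun p _ => ?_
  rw [← Finset.sum_add_distrib]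
  simp only [← smul_add, thp_anti, smul_ite, smul_zero, Finset.sum_ite_eq, Finset.mem_univ, if_true,
    Matrix.diag_apply]

lemma Tm_mul (A B : Matrix (Fin 16 × Fin dm) (Fin 16 × Fin dm) ℂ) (r : Fin 16 × Fin dm) (v : F) :
    Tm S φ (A * B) r v = ∑ p, A r p • Tm S φ B p v := by
  simp only [Tm, _root_.sum_apply, _root_.smul_apply, Finset.smul_sum, smul_smul, mul_apply,
    Finset.sum_smul]
  rw [Finset.sum_comm]

lemma trace_g (i : Fin 9) : (S.g i).trace = 0 := by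
  obtain ⟨j, hj⟩ := exists_ne i
  have h1 : S.g i * S.g j + S.g j * S.g i = 0 := by
    rw [S.g_anti, if_neg hj.symm]
  have h2 : S.g j * S.g j = 1 := by
    have := S.g_anti j j
    rw [if_pos rfl, ← two_smul ℂ] at this
    have h3 : (2 : Matrix (Fin 16) (Fin 16) ℂ) = (2 : ℂ) • 1 := by
      ext a b
      simp [Matrix.ofNat_apply, Matrix.one_apply]
    rw [h3] at this
    exact smul_right_injective _ (two_ne_zero (α := ℂ)) this
  have h3 : (S.g i).trace = (S.g j * S.g i * S.g j).trace := by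
    rw [Matrix.trace_mul_comm, ← mul_assoc, h2, one_mul]
  have h4 : S.g j * S.g i * S.g j = - S.g i := by
    rw [eq_neg_of_add_eq_zero_right h1, neg_mul, mul_assoc, h2, mul_one]
  rw [h4, Matrix.trace_neg] at h3
  exact self_eq_neg.1 h3

end VacSpinPf

open VacSpinPf in
/-- **L5** -/
theorem vacSpin (S : Setup d F) (φ : Spl dh dm d) : VacSpinStmt S φ := by
  intro D Om hD hO A hA hAD v hv
  have hOD : ∀ i, D i * Om = Om * D i := by
    intro i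
    refine hO.comm (D i) ?_
    rw [Finset.mul_sum, Finset.sum_mul]
    refine Finset.sum_congr rfl fun j _ => ?_
    rw [← mul_assoc, hD.comm i j, mul_assoc, hD.comm i j, mul_assoc]
  have hAO : A * Om = Om * A := by
    refine hO.comm A ?_
    rw [Finset.mul_sum, Finset.sum_mul]
    refine Finset.sum_congr rfl fun j _ => ?_
    rw [← mul_assoc, hAD j, mul_assoc, hAD j, mul_assoc]
  have hpd : Om.PosDef := by
    refine PosDef.of_dotProduct_mulVec_pos ?_ ?_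
    · change Omᴴ = Om
      rw [conjTranspose_eq_transpose_of_trivial, hO.symm]
    · intro v hv
      rw [star_trivial]
      exact hO.pos v hv
  have hOu : IsUnit Om.det := isUnit_iff_ne_zero.2 hpd.det_pos.ne'
  have hinv : ∀ X : Matrix (Fin dm) (Fin dm) ℝ, X * Om = Om * X → X * Om⁻¹ = Om⁻¹ * X := by
    intro X hX
    have h1 : Om⁻¹ * (X * Om) * Om⁻¹ = Om⁻¹ * (Om * X) * Om⁻¹ := by rw [hX]
    rw [← mul_assoc Om⁻¹ Om, nonsing_inv_mul _ hOu, one_mul, mul_assoc Om⁻¹, mul_assoc X,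
      mul_nonsing_inv _ hOu, mul_one] at h1
    exact h1.symm
  have hOi : (Om⁻¹)ᵀ = Om⁻¹ := by rw [transpose_nonsing_inv, hO.symm]
  set K : Matrix (Fin 16 × Fin dm) (Fin 16 × Fin dm) ℂ := Complex.I • (l1 Om⁻¹ * S.PP D) with hK
  -- the vacuum equation
  have hvK : ∀ p, thp S φ p v = Tm S φ K p v := by
    intro p
    have h1 : Tm S φ (l1 Om⁻¹ * S.Lam D Om) p v = 0 := by
      rw [Tm_mul]
      refine Finset.sum_eq_zero fun q _ => ?_
      have : Tm S φ (S.Lam D Om) q v = 0 := hv q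
      rw [this, smul_zero]
    have h2 : l1 Om⁻¹ * S.Lam D Om = (1 / 2 : ℂ) • (1 - K) := by
      rw [Lam_eq, mul_smul_comm, mul_sub, l1_mul, nonsing_inv_mul _ hOu, l1_one, mul_smul_comm]
    rw [h2] at h1
    have h3 : Tm S φ ((1 / 2 : ℂ) • (1 - K)) p v = (1 / 2 : ℂ) • (thp S φ p v - Tm S φ K p v) := by
      simp only [Tm, _root_.sum_apply, _root_.smul_apply, Matrix.smul_apply, Matrix.sub_apply,
        sub_smul, smul_eq_mul, mul_smul, Finset.sum_sub_distrib, Finset.smul_sum, smul_sub]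
      simp only [Matrix.one_apply, ite_smul, one_smul, zero_smul, smul_ite, smul_zero,
        Finset.sum_ite_eq, Finset.mem_univ, if_true, _root_.sub_apply, _root_.sum_apply,
        _root_.smul_apply]
      rfl
    rw [h3] at h1
    have h4 := (smul_eq_zero.1 h1).resolve_left (by norm_num)
    exact sub_eq_zero.1 h4
  -- the form of the product
  have hM : l1 A * K = (Complex.I * (S.κ : ℂ)) • ∑ i, S.g i ⊗ₖ lc (A * Om⁻¹ * D i) := by
    rw [hK, mul_smul_comm, ← mul_assoc, l1_mul, PP_eq, mul_smul_comm, smul_smul, Finset.mul_sum]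
    congr 1
    refine Finset.sum_congr rfl fun i _ => ?_
    rw [l1, ← mul_kronecker_mul, one_mul, ← lc_mul]
  have hMt : (l1 A * K)ᵀ = l1 A * K := by
    rw [hM, transpose_smul, transpose_sum]
    congr 1
    refine Finset.sum_congr rfl fun i _ => ?_
    have h1 : (A * Om⁻¹ * D i)ᵀ = A * Om⁻¹ * D i := by
      rw [transpose_mul, transpose_mul, hOi, hA, hD.anti i, neg_mul, mul_neg, mul_neg, neg_neg,
        ← hinv A hAO, ← mul_assoc, ← hAD i, mul_assoc, hinv (D i) (hOD i), ← mul_assoc]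
    rw [← kroneckerMap_transpose, S.g_symm, lc, ← transpose_map, h1]
  have hMtr : (l1 A * K).trace = 0 := by
    rw [hM, trace_smul, trace_sum]
    have : ∀ i, (S.g i ⊗ₖ lc (A * Om⁻¹ * D i)).trace = 0 := by
      intro i
      rw [trace_kronecker, trace_g, zero_mul]
    simp only [this, Finset.sum_const_zero, smul_zero]
  have h5 : ∑ p, ∑ q, (l1 A * K) p q • thp S φ p (thp S φ q v) = 0 := by
    have := sum_sym S φ (l1 A * K) hMt v
    rw [hMtr, zero_smul] at this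
    exact (smul_eq_zero.1 this).resolve_left two_ne_zero
  have h6 : ∑ p, ∑ q, l1 A p q • thp S φ p (thp S φ q v) =
      ∑ p, ∑ q, (l1 A * K) p q • thp S φ p (thp S φ q v) := by
    refine Finset.sum_congr rfl fun p _ => ?_
    have h7 : ∀ q, thp S φ p (thp S φ q v) = ∑ r, K q r • thp S φ p (thp S φ r v) := by
      intro q
      rw [hvK q, Tm, _root_.sum_apply, map_sum]
      refine Finset.sum_congr rfl fun r _ => ?_
      rw [_root_.smul_apply, map_smul]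
      rfl
    conv_lhs =>
      enter [2, q]
      rw [h7 q]
    simp only [Finset.smul_sum, smul_smul, mul_apply, Finset.sum_smul]
    rw [Finset.sum_comm]
  rw [← h6] at h5
  rw [← h5, Fintype.sum_prod_type]
  refine Finset.sum_congr rfl fun α _ => Finset.sum_congr rfl fun B _ => ?_
  rw [Fintype.sum_prod_type, Finset.sum_eq_single α]
  · refine Finset.sum_congr rfl fun C _ => ?_
    simp [l1, lc, kroneckerMap_apply, thp]
  · intro β _ hβ
    refine Finset.sum_eq_zero fun C _ => ?_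
    simp [l1, lc, kroneckerMap_apply, Ne.symm hβ]
  · intro h
    exact absurd (Finset.mem_univ _) h

end Vale.Agent.P353.Z.AD
end

section

/-! # P353, all `N`, block GL4: pairing of a functional supported in the tube with a gauge invariant function -/

open MeasureTheory Filter Topology
open scoped ContDiff

namespace Vale.Agent.P353.Z.AN

variable {d dh dm r ds : ℕ} {F : Type*} [NormedAddCommGroup F] [InnerProductSpace ℂ F]

theorem pr489_exm_cont (φ : Spl dh dm d) :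
    Continuous (exm φ : EuclideanSpace ℝ (Fin dm) → Fin d → ℝ) := by
  refine continuous_pi fun A => ?_
  unfold exm
  rcases φ.symm A with x | B
  · simp only [Sum.elim_inl]
    exact continuous_const
  · simp only [Sum.elim_inr]
    fun_prop

theorem pr489_tub_cont (S : Setup d F) (φ : Spl dh dm d) :
    Continuous (fun q : EuclideanSpace ℝ (Fin dm) × (Cfg dh × Wsp dm) => tub S φ q.1 q.2) := by
  have h := (dexp_stmt S).2.1.continuous
  exact h.comp (((pr489_exm_cont φ).comp continuous_fst).prodMk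
    ((tbf_continuous_emb φ).comp continuous_snd))

theorem pr489_nb_open (y₀ : Cfg dh) (dm : ℕ) (R ε : ℝ) : IsOpen (Nb y₀ dm R ε) := by
  unfold Nb
  refine IsOpen.and ?_ ?_
  · exact isOpen_lt (by fun_prop) continuous_const
  · exact isOpen_lt (by fun_prop) continuous_const

/-- the density is integrable on the box -/
theorem pr489_fin (S : Setup d F) (φ : Spl dh dm d) (y₀ : Cfg dh) (R ε ρ : ℝ)
    (j : EuclideanSpace ℝ (Fin dm) → ℝ) (hj : Continuous j) :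
    ∫⁻ q in (Metric.ball (0 : EuclideanSpace ℝ (Fin dm)) ρ) ×ˢ (Nb y₀ dm R ε),
      ENNReal.ofReal (S.Jd φ q.2.1 * j q.1) ∂(volume.prod (volume.prod volume)) < ⊤ := by
  have hK : IsCompact ((Metric.closedBall (0 : EuclideanSpace ℝ (Fin dm)) ρ) ×ˢ
      ((Metric.closedBall (R • y₀) (ε * R)) ×ˢ (Metric.closedBall (0 : Wsp dm) (ε * R)))) :=
    (isCompact_closedBall _ _).prod ((isCompact_closedBall _ _).prod (isCompact_closedBall _ _))
  have hc : Continuous (fun q : EuclideanSpace ℝ (Fin dm) × (Cfg dh × Wsp dm) => S.Jd φ q.2.1 * j q.1) :=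
    ((tbf_continuous_Jd S φ).comp (continuous_fst.comp continuous_snd)).mul (hj.comp continuous_fst)
  have hi : IntegrableOn (fun q : EuclideanSpace ℝ (Fin dm) × (Cfg dh × Wsp dm) => S.Jd φ q.2.1 * j q.1)
      ((Metric.closedBall (0 : EuclideanSpace ℝ (Fin dm)) ρ) ×ˢ
      ((Metric.closedBall (R • y₀) (ε * R)) ×ˢ (Metric.closedBall (0 : Wsp dm) (ε * R))))
      (volume.prod (volume.prod volume)) := hc.continuousOn.integrableOn_compact hK
  refine (hi.mono_set ?_).lintegral_lt_top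
  intro q hq
  refine ⟨Metric.ball_subset_closedBall hq.1, ?_, ?_⟩
  · rw [Metric.mem_closedBall, dist_eq_norm]
    exact hq.2.1.le
  · rw [Metric.mem_closedBall, dist_zero_right]
    exact hq.2.2.le

theorem pair_stmt (S : Setup d F) : TubeJStmt S → EqvStmt S → MeaStmt S → PairStmt S := by
  intro hT hE _ hfd dh dm φ y₀ hS
  have : CompleteSpace F := FiniteDimensional.complete ℂ F
  obtain ⟨ε₀, ρ₀, hε₀, hρ₀, j, hj, hj0, hj1, hform⟩ := hT dh dm φ y₀ hS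
  obtain ⟨hn, hadj, hspc, hsp0, heq⟩ := hE hfd
  refine ⟨ε₀, ρ₀, hε₀, hρ₀, j, hj, hj0, hj1, ?_⟩
  intro ε ρ hε hε' hρ hρ' R hR
  obtain ⟨hl, hi⟩ := hform ε ρ hε hε' hρ hρ' R hR
  refine ⟨hl, ?_⟩
  intro Z u hZm hZ2 hsupp hu hG
  set B : Set (EuclideanSpace ℝ (Fin dm)) := Metric.ball 0 ρ with hB
  set N : Set (Cfg dh × Wsp dm) := Nb y₀ dm R ε with hN
  set T : Set (Cfg d) := Tube S φ y₀ R ε ρ with hTd
  have hNo : IsOpen N := pr489_nb_open y₀ dm R ε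
  have hBN : MeasurableSet (B ×ˢ N) := Metric.isOpen_ball.measurableSet.prod hNo.measurableSet
  have htub := pr489_tub_cont S φ (dh := dh)
  -- the tube has finite volume
  have hTfin : volume T < ⊤ := by
    have h1 := hl (fun _ => 1) measurable_const
    rw [setLIntegral_one] at h1
    rw [h1]
    simp only [one_mul]
    exact pr489_fin S φ y₀ R ε ρ j hj
  have : IsFiniteMeasure (volume.restrict T) := ⟨by rwa [Measure.restrict_apply_univ]⟩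
  have hZ1 : Integrable Z (volume.restrict T) :=
    memLp_one_iff_integrable.1 ((hZ2.restrict T).mono_exponent (by norm_num))
  have hZl : ∫⁻ x in T, ‖Z x‖ₑ < ⊤ := hZ1.hasFiniteIntegral
  have hl2 := hl (fun x => ‖Z x‖ₑ) hZm.enorm
  -- the vector valued integrand
  set Ψ : EuclideanSpace ℝ (Fin dm) × (Cfg dh × Wsp dm) → F := fun q =>
    ((S.Jd φ q.2.1 * j q.1 : ℝ) : ℂ) • spn S (-(exm φ q.1)) (Z (tub S φ q.1 q.2)) with hΨ
  have hJ0 : ∀ y : Cfg dh, 0 ≤ S.Jd φ y := fun y => abs_nonneg _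
  have hJc := tbf_continuous_Jd S φ (dh := dh)
  have hΨm : StronglyMeasurable Ψ := by
    have m1 : StronglyMeasurable (fun q : EuclideanSpace ℝ (Fin dm) × (Cfg dh × Wsp dm) =>
        Z (tub S φ q.1 q.2)) := hZm.comp_measurable htub.measurable
    have m2 : StronglyMeasurable (fun q : EuclideanSpace ℝ (Fin dm) × (Cfg dh × Wsp dm) =>
        spn S (-(exm φ q.1))) :=
      (hspc.comp ((pr489_exm_cont φ).comp continuous_fst).neg).stronglyMeasurable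
    have m3 : StronglyMeasurable (fun q : EuclideanSpace ℝ (Fin dm) × (Cfg dh × Wsp dm) =>
        spn S (-(exm φ q.1)) (Z (tub S φ q.1 q.2))) :=
      (isBoundedBilinearMap_apply (𝕜 := ℂ) (E := F) (F := F)).continuous.comp_stronglyMeasurable
        (m2.prodMk m1)
    have m4 : StronglyMeasurable (fun q : EuclideanSpace ℝ (Fin dm) × (Cfg dh × Wsp dm) =>
        ((S.Jd φ q.2.1 * j q.1 : ℝ) : ℂ)) :=
      (Complex.continuous_ofReal.comp ((hJc.comp (continuous_fst.comp continuous_snd)).mul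
        (hj.comp continuous_fst))).stronglyMeasurable
    exact m4.smul m3
  have hΨn : ∀ q, ‖Ψ q‖ₑ = ‖Z (tub S φ q.1 q.2)‖ₑ * ENNReal.ofReal (S.Jd φ q.2.1 * j q.1) := by
    intro q
    rw [hΨ]
    simp only
    rw [enorm_smul, mul_comm, ← ofReal_norm (spn S _ _), hn, ofReal_norm,
      ← ofReal_norm (((S.Jd φ q.2.1 * j q.1 : ℝ) : ℂ)), Complex.norm_real,
      Real.norm_of_nonneg (mul_nonneg (hJ0 _) (hj0 _))]
  have hΨi : Integrable Ψ ((volume.prod (volume.prod volume)).restrict (B ×ˢ N)) := by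
    refine ⟨hΨm.aestronglyMeasurable, ?_⟩
    rw [hasFiniteIntegral_iff_enorm]
    simp only [hΨn]
    rw [← hl2]
    exact hZl
  obtain ⟨C, hC⟩ := hu.2.exists_bound_of_continuous hu.1.continuous
  have hemb := tbf_continuous_emb φ (d := d) (dh := dh) (dm := dm)
  have huc : Continuous fun p : Cfg dh × Wsp dm => u (emb φ p.1 p.2) := hu.1.continuous.comp hemb
  -- the scalar integrand
  have hscal : ∀ q : EuclideanSpace ℝ (Fin dm) × (Cfg dh × Wsp dm),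
      ((S.Jd φ q.2.1 * j q.1 : ℝ) : ℂ) * inner ℂ (Z (tub S φ q.1 q.2)) (u (tub S φ q.1 q.2)) =
        inner ℂ (Ψ q) (u (emb φ q.2.1 q.2.2)) := by
    intro q
    have e1 : u (tub S φ q.1 q.2) = spn S (exm φ q.1) (u (emb φ q.2.1 q.2.2)) :=
      heq u hu.1 hG (exm φ q.1) (emb φ q.2.1 q.2.2)
    have e2 := hadj (-(exm φ q.1)) (Z (tub S φ q.1 q.2)) (u (emb φ q.2.1 q.2.2))
    rw [neg_neg] at e2
    rw [e1, ← e2, hΨ]
    simp only
    rw [inner_smul_left, Complex.conj_ofReal]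
  have hsi : Integrable (fun q => inner ℂ (Ψ q) (u (emb φ q.2.1 q.2.2)))
      ((volume.prod (volume.prod volume)).restrict (B ×ˢ N)) := by
    refine (hΨi.norm.mul_const C).mono' ?_ ?_
    · exact hΨi.aestronglyMeasurable.inner (huc.comp continuous_snd).aestronglyMeasurable
    · refine ae_of_all _ fun q => (norm_inner_le_norm _ _).trans ?_
      exact mul_le_mul_of_nonneg_left (hC _) (norm_nonneg _)
  have hrestr : ((volume : Measure (EuclideanSpace ℝ (Fin dm))).prod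
      ((volume : Measure (Cfg dh)).prod (volume : Measure (Wsp dm)))).restrict (B ×ˢ N) =
      ((volume : Measure (EuclideanSpace ℝ (Fin dm))).restrict B).prod
        (((volume : Measure (Cfg dh)).prod (volume : Measure (Wsp dm))).restrict N) :=
    (Measure.prod_restrict B N).symm
  rw [hrestr] at hΨi hsi
  calc ∫ x, inner ℂ (Z x) (u x) = ∫ x in T, inner ℂ (Z x) (u x) := by
        refine (setIntegral_eq_integral_of_forall_compl_eq_zero fun x hx => ?_).symm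
        have : Z x = 0 := by
          by_contra h
          exact hx (hsupp x h)
        rw [this, inner_zero_left]
    _ = ∫ q in B ×ˢ N, inner ℂ (Ψ q) (u (emb φ q.2.1 q.2.2)) ∂(volume.prod (volume.prod volume)) := by
        rw [hi]
        exact integral_congr_ae (ae_of_all _ hscal)
    _ = ∫ p in N, (∫ a in B, inner ℂ (Ψ (a, p)) (u (emb φ p.1 p.2))) ∂(volume.prod volume) := by
        rw [hrestr]
        exact integral_prod_symm _ hsi
    _ = ∫ p in N, inner ℂ (Zt S φ j ρ Z p) (S.res φ u p.1 p.2) ∂(volume.prod volume) := by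
        refine integral_congr_ae ?_
        filter_upwards [hΨi.prod_left_ae] with p hp
        have h1 : ∫ a in B, inner ℂ (Ψ (a, p)) (u (emb φ p.1 p.2)) =
            inner ℂ (∫ a in B, Ψ (a, p)) (u (emb φ p.1 p.2)) := by
          have h2 := integral_inner (𝕜 := ℂ) hp (u (emb φ p.1 p.2))
          have h3 : ∀ a, inner ℂ (Ψ (a, p)) (u (emb φ p.1 p.2)) =
              (starRingEnd ℂ) (inner ℂ (u (emb φ p.1 p.2)) (Ψ (a, p))) := fun a =>
            (inner_conj_symm _ _).symm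
          simp_rw [h3]
          rw [integral_conj, h2, inner_conj_symm]
        have h4 : ∫ a in B, Ψ (a, p) = ((Real.sqrt (S.Jd φ p.1) : ℝ) : ℂ) • Zt S φ j ρ Z p := by
          unfold Zt
          rw [smul_smul, ← Complex.ofReal_mul, Real.mul_self_sqrt (hJ0 _), ← integral_smul]
          refine integral_congr_ae (ae_of_all _ fun a => ?_)
          simp only [hΨ]
          rw [smul_smul, ← Complex.ofReal_mul]
        rw [h1, h4, Setup.res, inner_smul_left, inner_smul_right, Complex.conj_ofReal]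

end Vale.Agent.P353.Z.AN
end

section

/-! # P353, all `N`, block E: E-DecH, the block diagonal supercharge applied to the trial function (helper213) -/

open MeasureTheory Filter Topology Matrix
open scoped ContDiff

namespace Vale.Agent.P353.Z.AE.DecH213

variable {d dh dm r ds : ℕ} {F : Type*} [NormedAddCommGroup F] [InnerProductSpace ℂ F]

section Alg

variable (S : Setup d F) (φ : Spl dh dm d) (ψ : Spl r ds dh)

/-- commutation of the frame with the block diagonal fermions -/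
lemma vec_V (A : Fin dh) (N : Matrix (Fin 16) (Fin 16) ℂ) (β : Fin 16) (B : F →L[ℂ] F)
    (h : ∀ α A v, B (S.th α (φ (Sum.inl A)) v) = S.th α (φ (Sum.inl A)) (B v)) (v : F) :
    B (S.vec N (φ (Sum.inl A)) β v) = S.vec N (φ (Sum.inl A)) β (B v) := by
  simp [CS.vec, h]

/-- potential of `h` -/
noncomputable def Wh (β : Fin 16) (x : Cfg dh) (v : F) : F :=
  (1 / 2 : ℂ) • ∑ A, ∑ i, ∑ j,
    ((S.κ * ∑ B, ∑ C, S.f (φ (Sum.inl A)) (φ (Sum.inl B)) (φ (Sum.inl C)) * x (i, B) * x (j, C) : ℝ) : ℂ) •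
      S.vec (S.g2 i j) (φ (Sum.inl A)) β v

lemma f_cen1 (hc : S.IsCen φ ψ) (a : Fin r) (B C : Fin dh) :
    S.f (φ (Sum.inl (ψ (Sum.inl a)))) (φ (Sum.inl B)) (φ (Sum.inl C)) = 0 := hc a B C

lemma f_cen2 (hc : S.IsCen φ ψ) (a : Fin r) (A C : Fin dh) :
    S.f (φ (Sum.inl A)) (φ (Sum.inl (ψ (Sum.inl a)))) (φ (Sum.inl C)) = 0 := by
  rw [S.f_cyc]
  exact hc a C A

lemma f_cen3 (hc : S.IsCen φ ψ) (a : Fin r) (A B : Fin dh) :
    S.f (φ (Sum.inl A)) (φ (Sum.inl B)) (φ (Sum.inl (ψ (Sum.inl a)))) = 0 := by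
  rw [S.f_cyc, S.f_cyc]
  exact hc a A B

/-- the potential only sees the internal part -/
lemma Wh_eq (hφ : S.IsSub φ) (hc : S.IsCen φ ψ) (β : Fin 16) (x : Cfg dh) (v : F) :
    Wh S φ β x v = (S.int φ ψ hφ hc).W β (spt ψ x) v := by
  have h1 : (S.int φ ψ hφ hc).W β (spt ψ x) v = (1 / 2 : ℂ) • ∑ A : Fin ds, ∑ i, ∑ j,
      ((S.κ * ∑ B : Fin ds, ∑ C : Fin ds, S.f (φ (Sum.inl (ψ (Sum.inr A)))) (φ (Sum.inl (ψ (Sum.inr B))))
        (φ (Sum.inl (ψ (Sum.inr C)))) * x (i, ψ (Sum.inr B)) * x (j, ψ (Sum.inr C)) : ℝ) : ℂ) •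
        S.vec (S.g2 i j) (φ (Sum.inl (ψ (Sum.inr A)))) β v := by
    simp only [Setup.W, _root_.smul_apply, _root_.sum_apply]
    rfl
  rw [h1, Wh, ← ψ.sum_comp, Fintype.sum_sum_type]
  congr 1
  have h2 : ∑ a : Fin r, ∑ i, ∑ j, ((S.κ * ∑ B, ∑ C, S.f (φ (Sum.inl (ψ (Sum.inl a)))) (φ (Sum.inl B)) (φ (Sum.inl C)) *
      x (i, B) * x (j, C) : ℝ) : ℂ) • S.vec (S.g2 i j) (φ (Sum.inl (ψ (Sum.inl a)))) β v = 0 := by
    simp only [f_cen1 S φ ψ hc, zero_mul, Finset.sum_const_zero, mul_zero, Complex.ofReal_zero, zero_smul]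
  rw [h2, zero_add]
  refine Finset.sum_congr rfl fun A _ => Finset.sum_congr rfl fun i _ => Finset.sum_congr rfl fun j _ => ?_
  congr 3
  rw [← ψ.sum_comp, Fintype.sum_sum_type]
  simp only [f_cen2 S φ ψ hc, zero_mul, Finset.sum_const_zero, zero_add]
  refine Finset.sum_congr rfl fun B _ => ?_
  rw [← ψ.sum_comp, Fintype.sum_sum_type]
  simp only [f_cen3 S φ ψ hc, zero_mul, Finset.sum_const_zero, zero_add]

lemma Wh_V (β : Fin 16) (x : Cfg dh) (B : F →L[ℂ] F)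
    (h : ∀ α A v, B (S.th α (φ (Sum.inl A)) v) = S.th α (φ (Sum.inl A)) (B v)) (v : F) :
    B (Wh S φ β x v) = Wh S φ β x (B v) := by
  unfold Wh
  simp only [map_smul, map_sum, vec_V S φ _ _ β B h]

lemma Wh_smul (β : Fin 16) (x : Cfg dh) (k : ℂ) (v : F) : Wh S φ β x (k • v) = k • Wh S φ β x v := by
  unfold Wh
  simp only [map_smul, Finset.smul_sum]
  refine Finset.sum_congr rfl fun A _ => Finset.sum_congr rfl fun i _ => Finset.sum_congr rfl fun j _ => ?_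
  rw [smul_comm k, smul_comm k]

lemma Wh_zero (β : Fin 16) (x : Cfg dh) : Wh S φ β x 0 = 0 := by
  unfold Wh
  simp only [map_zero, smul_zero, Finset.sum_const_zero]

/-- `Q^h` with the colour sum split -/
lemma Qh_eq (β : Fin 16) (T : Cfg dh → Wsp dm → F) (x : Cfg dh) (w : Wsp dm) :
    S.Qh φ β T x w = (∑ i, ∑ a, (-Complex.I) • S.vec (S.g i) (φ (Sum.inl (ψ (Sum.inl a)))) β (py i (ψ (Sum.inl a)) T x w)) +
      (∑ i, ∑ b, (-Complex.I) • S.vec (S.g i) (φ (Sum.inl (ψ (Sum.inr b)))) β (py i (ψ (Sum.inr b)) T x w)) +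
      Wh S φ β x (T x w) := by
  unfold Setup.Qh Wh
  congr 1
  rw [Finset.smul_sum, ← Finset.sum_add_distrib]
  refine Finset.sum_congr rfl fun i _ => ?_
  rw [← ψ.sum_comp, Fintype.sum_sum_type, smul_add, Finset.smul_sum, Finset.smul_sum]

/-- `Q` of the internal setup -/
lemma intQ_eq (hφ : S.IsSub φ) (hc : S.IsCen φ ψ) (β : Fin 16) (Φ : Cfg ds → F) (x : Cfg dh) :
    (S.int φ ψ hφ hc).Q β Φ (spt ψ x) = (∑ i, ∑ b, (-Complex.I) •
      S.vec (S.g i) (φ (Sum.inl (ψ (Sum.inr b)))) β (pd i b Φ (spt ψ x))) + Wh S φ β x (Φ (spt ψ x)) := by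
  rw [Wh_eq S φ ψ hφ hc]
  unfold Setup.Q
  rw [Finset.smul_sum]
  congr 1
  refine Finset.sum_congr rfl fun i _ => ?_
  rw [Finset.smul_sum]
  rfl

end Alg

section Main

variable (S : Setup d F) (φ : Spl dh dm d) (ψ : Spl r ds dh)
  (Om : Cfg r → Matrix (Fin dm) (Fin dm) ℝ) (V : Cfg r → F →L[ℂ] F) (c : ℝ → ℝ) (ε R : ℝ) (ζ : Cfg r → ℂ) (Φ : Cfg ds → F)

/-- coefficient `κ_R χ b` -/
noncomputable def cb (x : Cfg dh) (w : Wsp dm) : ℝ :=
  (Real.sqrt R ^ (9 * r))⁻¹ * c (‖w‖ ^ 2 / (ε * R) ^ 2) * S.bz φ ψ Om (zpt ψ x) w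

/-- coefficient `κ_R χ ∂b` -/
noncomputable def cd (e : Cfg r) (x : Cfg dh) (w : Wsp dm) : ℝ :=
  (Real.sqrt R ^ (9 * r))⁻¹ * c (‖w‖ ^ 2 / (ε * R) ^ 2) * fderiv ℝ (fun y' => S.bz φ ψ Om y' w) (zpt ψ x) e

/-- profile at `x` -/
noncomputable def uu (x : Cfg dh) : F := ζ (R⁻¹ • zpt ψ x) • Φ (spt ψ x)

/-- `-i(γ^iθ^a)_β V u` -/
noncomputable def v1 (β : Fin 16) (i : Fin 9) (a : Fin r) (x : Cfg dh) : F :=
  (-Complex.I) • S.vec (S.g i) (φ (Sum.inl (ψ (Sum.inl a)))) β (V (zpt ψ x) (uu ψ R ζ Φ x))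

/-- `-i(γ^iθ^a)_β (∂V) u` -/
noncomputable def v2 (β : Fin 16) (i : Fin 9) (a : Fin r) (x : Cfg dh) : F :=
  (-Complex.I) • S.vec (S.g i) (φ (Sum.inl (ψ (Sum.inl a)))) β
    ((fderiv ℝ V (zpt ψ x) (EuclideanSpace.single (i, a) 1)) (uu ψ R ζ Φ x))

/-- the excited error term -/
noncomputable def X2 (β : Fin 16) (x : Cfg dh) (w : Wsp dm) : F :=
  ∑ i, ∑ a, (((cd S φ ψ Om c ε R (EuclideanSpace.single (i, a) 1) x w : ℝ) : ℂ) • v1 S φ ψ V R ζ Φ β i a x +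
    ((cb S φ ψ Om c ε R x w : ℝ) : ℂ) • v2 S φ ψ V R ζ Φ β i a x)

variable {S φ ψ Om V c ε R ζ Φ} {U : Set (Cfg r)} {K : Submodule ℂ F} {y₀ : Cfg r} {ε0 C0 : ℝ}

lemma py_inl (hV : S.VFr φ ψ U Om V K) (bf : BzFacts S φ ψ U Om y₀ ε0 C0) (hε : 0 < ε) (hε0 : ε ≤ ε0)
    (hζ : ContDiff ℝ ∞ ζ) (hζs : tsupport ζ ⊆ Metric.ball y₀ (ε / 2)) (hΦ : ContDiff ℝ ∞ Φ) (hR : 1 ≤ R)
    (i : Fin 9) (a : Fin r) (x : Cfg dh) (w : Wsp dm) :
    py i (ψ (Sum.inl a)) (S.TR φ ψ Om V c ε R (pp ζ Φ)) x w =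
      (((cd S φ ψ Om c ε R (EuclideanSpace.single (i, a) 1) x w : ℝ) : ℂ) • V (zpt ψ x) (uu ψ R ζ Φ x) +
      ((cb S φ ψ Om c ε R x w : ℝ) : ℂ) • (fderiv ℝ V (zpt ψ x) (EuclideanSpace.single (i, a) 1)) (uu ψ R ζ Φ x)) +
      ((cb S φ ψ Om c ε R x w : ℝ) : ℂ) • V (zpt ψ x) (((R⁻¹ : ℝ) : ℂ) •
        fderiv ℝ ζ (R⁻¹ • zpt ψ x) (EuclideanSpace.single (i, a) 1) • Φ (spt ψ x)) := by
  have h := TR_fderiv hV bf hε hε0 hζ hζs hΦ hR c x w (EuclideanSpace.single (i, ψ (Sum.inl a)) 1)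
  rw [zpt_single_inl, spt_single_inl] at h
  rw [py, pd, h]
  simp only [map_zero, smul_zero, add_zero, smul_add]
  rw [← add_assoc]
  rfl

lemma py_inr (hV : S.VFr φ ψ U Om V K) (bf : BzFacts S φ ψ U Om y₀ ε0 C0) (hε : 0 < ε) (hε0 : ε ≤ ε0)
    (hζ : ContDiff ℝ ∞ ζ) (hζs : tsupport ζ ⊆ Metric.ball y₀ (ε / 2)) (hΦ : ContDiff ℝ ∞ Φ) (hR : 1 ≤ R)
    (i : Fin 9) (b : Fin ds) (x : Cfg dh) (w : Wsp dm) :
    py i (ψ (Sum.inr b)) (S.TR φ ψ Om V c ε R (pp ζ Φ)) x w =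
      ((cb S φ ψ Om c ε R x w : ℝ) : ℂ) • V (zpt ψ x) (ζ (R⁻¹ • zpt ψ x) • pd i b Φ (spt ψ x)) := by
  have h := TR_fderiv hV bf hε hε0 hζ hζs hΦ hR c x w (EuclideanSpace.single (i, ψ (Sum.inr b)) 1)
  rw [zpt_single_inr, spt_single_inr] at h
  rw [py, pd, h]
  simp only [map_zero, mul_zero, Complex.ofReal_zero, zero_smul, smul_zero, zero_add, _root_.zero_apply]
  rfl

/-- the decomposition -/
lemma dec_eq (hφ : S.IsSub φ) (hc : S.IsCen φ ψ) (hV : S.VFr φ ψ U Om V K) (bf : BzFacts S φ ψ U Om y₀ ε0 C0)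
    (hε : 0 < ε) (hε0 : ε ≤ ε0)
    (hζ : ContDiff ℝ ∞ ζ) (hζs : tsupport ζ ⊆ Metric.ball y₀ (ε / 2)) (hΦ : ContDiff ℝ ∞ Φ) (hR : 1 ≤ R)
    (β : Fin 16) (x : Cfg dh) (w : Wsp dm) :
    S.Qh φ β (S.TR φ ψ Om V c ε R (pp ζ Φ)) x w =
      (((R⁻¹ : ℝ) : ℂ) • S.TR φ ψ Om V c ε R (S.DF φ ψ (fun _ => 0) 0 β (pp ζ Φ)) x w +
        S.TR φ ψ Om V c ε R (pp ζ ((S.int φ ψ hφ hc).Q β Φ)) x w) + X2 S φ ψ Om V c ε R ζ Φ β x w := by
  have hTR : ∀ a : Cfg r → Cfg ds → F, S.TR φ ψ Om V c ε R a x w =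
      ((cb S φ ψ Om c ε R x w : ℝ) : ℂ) • V (zpt ψ x) (a (R⁻¹ • zpt ψ x) (spt ψ x)) := fun a => rfl
  have hDF : S.DF φ ψ (fun _ => 0) 0 β (pp ζ Φ) (R⁻¹ • zpt ψ x) (spt ψ x) =
      ∑ i, ∑ a, (-Complex.I) • S.vec (S.g i) (φ (Sum.inl (ψ (Sum.inl a)))) β
        (fderiv ℝ ζ (R⁻¹ • zpt ψ x) (EuclideanSpace.single (i, a) 1) • Φ (spt ψ x)) := by
    unfold Setup.DF
    rw [Complex.ofReal_zero, zero_smul, add_zero, Finset.smul_sum]
    refine Finset.sum_congr rfl fun i _ => ?_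
    rw [Finset.smul_sum]
    refine Finset.sum_congr rfl fun a _ => ?_
    congr 2
    unfold pd pp
    have h1 := ((hζ.differentiable (by simp)) (R⁻¹ • zpt ψ x)).hasFDerivAt.smul_const (Φ (spt ψ x))
    rw [h1.fderiv]
    rfl
  rw [Qh_eq S φ ψ]
  simp only [py_inl hV bf hε hε0 hζ hζs hΦ hR, py_inr hV bf hε hε0 hζ hζs hΦ hR, hTR, hDF]
  have hpp : ∀ Ψ : Cfg ds → F, pp ζ Ψ (R⁻¹ • zpt ψ x) (spt ψ x) = ζ (R⁻¹ • zpt ψ x) • Ψ (spt ψ x) := fun _ => rfl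
  simp only [hpp, intQ_eq S φ ψ hφ hc]
  by_cases hp : R⁻¹ • zpt ψ x ∈ tsupport ζ
  · have hyU : zpt ψ x ∈ U := trf_inU S φ ψ U Om y₀ ε0 C0 bf ε hε hε0 R hR _ (hζs hp)
    have hcm := hV.v_th _ hyU
    have e1 : ((R⁻¹ : ℝ) : ℂ) • ((cb S φ ψ Om c ε R x w : ℝ) : ℂ) • V (zpt ψ x)
        (∑ i, ∑ a, (-Complex.I) • S.vec (S.g i) (φ (Sum.inl (ψ (Sum.inl a)))) β
          (fderiv ℝ ζ (R⁻¹ • zpt ψ x) (EuclideanSpace.single (i, a) 1) • Φ (spt ψ x))) =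
        ∑ i, ∑ a, (-Complex.I) • S.vec (S.g i) (φ (Sum.inl (ψ (Sum.inl a)))) β
          (((cb S φ ψ Om c ε R x w : ℝ) : ℂ) • V (zpt ψ x) (((R⁻¹ : ℝ) : ℂ) •
            fderiv ℝ ζ (R⁻¹ • zpt ψ x) (EuclideanSpace.single (i, a) 1) • Φ (spt ψ x))) := by
      rw [map_sum, Finset.smul_sum, Finset.smul_sum]
      refine Finset.sum_congr rfl fun i _ => ?_
      rw [map_sum, Finset.smul_sum, Finset.smul_sum]
      refine Finset.sum_congr rfl fun a _ => ?_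
      simp only [map_smul, vec_V S φ _ _ β _ hcm, smul_smul]
      congr 1
      ring
    have e2 : ((cb S φ ψ Om c ε R x w : ℝ) : ℂ) • V (zpt ψ x) (ζ (R⁻¹ • zpt ψ x) •
        ((∑ i, ∑ b, (-Complex.I) • S.vec (S.g i) (φ (Sum.inl (ψ (Sum.inr b)))) β (pd i b Φ (spt ψ x))) +
          Wh S φ β x (Φ (spt ψ x)))) =
        (∑ i, ∑ b, (-Complex.I) • S.vec (S.g i) (φ (Sum.inl (ψ (Sum.inr b)))) β
          (((cb S φ ψ Om c ε R x w : ℝ) : ℂ) • V (zpt ψ x) (ζ (R⁻¹ • zpt ψ x) • pd i b Φ (spt ψ x)))) +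
        Wh S φ β x (((cb S φ ψ Om c ε R x w : ℝ) : ℂ) • V (zpt ψ x) (ζ (R⁻¹ • zpt ψ x) • Φ (spt ψ x))) := by
      rw [smul_add, map_add, smul_add]
      congr 1
      · rw [Finset.smul_sum, map_sum, Finset.smul_sum]
        refine Finset.sum_congr rfl fun i _ => ?_
        rw [Finset.smul_sum, map_sum, Finset.smul_sum]
        refine Finset.sum_congr rfl fun b _ => ?_
        simp only [map_smul, vec_V S φ _ _ β _ hcm, smul_smul]
        congr 1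
        ring
      · rw [map_smul, Wh_V S φ β x _ hcm, map_smul, Wh_smul, Wh_smul]
    rw [e1, e2]
    unfold X2 v1 v2
    simp only [map_add, smul_add, Finset.sum_add_distrib, map_smul]
    have e3 : ∀ (k : ℂ) (t : F), (-Complex.I) • k • t = k • (-Complex.I) • t := fun k t => smul_comm _ _ _
    simp only [e3]
    abel
  · have h0 : ζ (R⁻¹ • zpt ψ x) = 0 := image_eq_zero_of_notMem_tsupport hp
    have h1 : fderiv ℝ ζ (R⁻¹ • zpt ψ x) = 0 := fderiv_of_notMem_tsupport (𝕜 := ℝ) hp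
    have h2 : uu ψ R ζ Φ x = 0 := by
      unfold uu
      rw [h0, zero_smul]
    unfold X2 v1 v2
    simp [h0, h1, h2, Wh_zero]

end Main

section Smooth

variable {S : Setup d F} {φ : Spl dh dm d} {ψ : Spl r ds dh}
  {Om : Cfg r → Matrix (Fin dm) (Fin dm) ℝ} {V : Cfg r → F →L[ℂ] F} {c : ℝ → ℝ} {ε R : ℝ} {ζ : Cfg r → ℂ} {Φ : Cfg ds → F}
  {U : Set (Cfg r)} {K : Submodule ℂ F} {y₀ : Cfg r} {ε0 C0 : ℝ}

lemma bz_at (hU : IsOpen U) (bf : BzFacts S φ ψ U Om y₀ ε0 C0) {q : Cfg r × Wsp dm} (hq : q.1 ∈ U) :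
    ContDiffAt ℝ ∞ (fun q : Cfg r × Wsp dm => S.bz φ ψ Om q.1 q.2) q :=
  bf.sm.contDiffAt ((hU.prod isOpen_univ).mem_nhds ⟨hq, Set.mem_univ _⟩)

lemma dbz_at (hU : IsOpen U) (bf : BzFacts S φ ψ U Om y₀ ε0 C0) (e : Cfg r) {q : Cfg r × Wsp dm} (hq : q.1 ∈ U) :
    ContDiffAt ℝ ∞ (fun q : Cfg r × Wsp dm => fderiv ℝ (fun y' => S.bz φ ψ Om y' q.2) q.1 e) q := by
  have hO : IsOpen (U ×ˢ (Set.univ : Set (Wsp dm))) := hU.prod isOpen_univ
  have h1 : ContDiffOn ℝ ∞ (fderiv ℝ fun p : Cfg r × Wsp dm => S.bz φ ψ Om p.1 p.2) (U ×ˢ (Set.univ : Set (Wsp dm))) :=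
    bf.sm.fderiv_of_isOpen hO (by simp)
  have h2 : ContDiffOn ℝ ∞ (fun q : Cfg r × Wsp dm =>
      fderiv ℝ (fun p : Cfg r × Wsp dm => S.bz φ ψ Om p.1 p.2) q (e, 0)) (U ×ˢ (Set.univ : Set (Wsp dm))) :=
    h1.clm_apply contDiffOn_const
  have h3 : ∀ q ∈ U ×ˢ (Set.univ : Set (Wsp dm)), fderiv ℝ (fun y' => S.bz φ ψ Om y' q.2) q.1 e =
      fderiv ℝ (fun p : Cfg r × Wsp dm => S.bz φ ψ Om p.1 p.2) q (e, 0) := by
    intro q hq
    have hd : DifferentiableAt ℝ (fun p : Cfg r × Wsp dm => S.bz φ ψ Om p.1 p.2) (q.1, q.2) :=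
      (bz_at hU bf (q := q) hq.1).differentiableAt (by simp)
    have h5 : HasFDerivAt (fun y' => S.bz φ ψ Om y' q.2) _ q.1 :=
      HasFDerivAt.comp (f := fun y' : Cfg r => (y', q.2)) (g := fun p : Cfg r × Wsp dm => S.bz φ ψ Om p.1 p.2) q.1
        hd.hasFDerivAt (hasFDerivAt_prodMk_left (𝕜 := ℝ) q.1 q.2)
    rw [h5.fderiv]
    rfl
  exact (h2.congr h3).contDiffAt (hO.mem_nhds ⟨hq, Set.mem_univ _⟩)

lemma ct_at (hct : IsCt c) (q : Cfg dh × Wsp dm) :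
    ContDiffAt ℝ ∞ (fun q : Cfg dh × Wsp dm => c (‖q.2‖ ^ 2 / (ε * R) ^ 2)) q := by
  have h1 : ContDiff ℝ ∞ (fun q : Cfg dh × Wsp dm => c (‖q.2‖ ^ 2 / (ε * R) ^ 2)) :=
    hct.sm.comp (((contDiff_norm_sq ℝ).comp contDiff_snd).div_const _)
  exact h1.contDiffAt

lemma zp_at (q : Cfg dh × Wsp dm) : ContDiffAt ℝ ∞ (fun q : Cfg dh × Wsp dm => (zpt ψ q.1, q.2)) q :=
  (((zpt_smooth ψ).comp contDiff_fst).prodMk contDiff_snd).contDiffAt

lemma cb_at (hU : IsOpen U) (bf : BzFacts S φ ψ U Om y₀ ε0 C0) (hct : IsCt c) {q : Cfg dh × Wsp dm}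
    (hq : zpt ψ q.1 ∈ U) : ContDiffAt ℝ ∞ (fun q : Cfg dh × Wsp dm => ((cb S φ ψ Om c ε R q.1 q.2 : ℝ) : ℂ)) q := by
  have h3 : ContDiffAt ℝ ∞ (fun q : Cfg dh × Wsp dm => S.bz φ ψ Om (zpt ψ q.1) q.2) q :=
    ContDiffAt.comp (g := fun q : Cfg r × Wsp dm => S.bz φ ψ Om q.1 q.2)
      (f := fun q : Cfg dh × Wsp dm => (zpt ψ q.1, q.2)) q (bz_at hU bf hq) (zp_at q)
  have h4 : ContDiffAt ℝ ∞ (fun q : Cfg dh × Wsp dm => cb S φ ψ Om c ε R q.1 q.2) q :=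
    (contDiffAt_const.mul (ct_at hct q)).mul h3
  exact Complex.ofRealCLM.contDiff.contDiffAt.comp q h4

lemma cd_at (hU : IsOpen U) (bf : BzFacts S φ ψ U Om y₀ ε0 C0) (hct : IsCt c) (e : Cfg r) {q : Cfg dh × Wsp dm}
    (hq : zpt ψ q.1 ∈ U) : ContDiffAt ℝ ∞ (fun q : Cfg dh × Wsp dm => ((cd S φ ψ Om c ε R e q.1 q.2 : ℝ) : ℂ)) q := by
  have h3 : ContDiffAt ℝ ∞ (fun q : Cfg dh × Wsp dm => fderiv ℝ (fun y' => S.bz φ ψ Om y' q.2) (zpt ψ q.1) e) q :=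
    ContDiffAt.comp (g := fun q : Cfg r × Wsp dm => fderiv ℝ (fun y' => S.bz φ ψ Om y' q.2) q.1 e)
      (f := fun q : Cfg dh × Wsp dm => (zpt ψ q.1, q.2)) q (dbz_at hU bf e hq) (zp_at q)
  have h4 : ContDiffAt ℝ ∞ (fun q : Cfg dh × Wsp dm => cd S φ ψ Om c ε R e q.1 q.2) q :=
    (contDiffAt_const.mul (ct_at hct q)).mul h3
  exact Complex.ofRealCLM.contDiff.contDiffAt.comp q h4

lemma uu_at (hζ : ContDiff ℝ ∞ ζ) (hΦ : ContDiff ℝ ∞ Φ) (q : Cfg dh × Wsp dm) :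
    ContDiffAt ℝ ∞ (fun q : Cfg dh × Wsp dm => uu ψ R ζ Φ q.1) q := by
  have h1 : ContDiff ℝ ∞ (fun q : Cfg dh × Wsp dm => ζ ((R⁻¹ • zptL ψ) q.1)) :=
    hζ.comp ((R⁻¹ • zptL ψ).contDiff.comp contDiff_fst)
  have h2 : ContDiff ℝ ∞ (fun q : Cfg dh × Wsp dm => Φ (spt ψ q.1)) := hΦ.comp ((spt_smooth ψ).comp contDiff_fst)
  exact (h1.smul h2).contDiffAt

lemma clm_at (A : F →L[ℂ] F) {g : Cfg dh × Wsp dm → F} {q : Cfg dh × Wsp dm} (hg : ContDiffAt ℝ ∞ g q) :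
    ContDiffAt ℝ ∞ (fun q => (-Complex.I) • A (g q)) q :=
  (((-Complex.I) • A).restrictScalars ℝ).contDiff.contDiffAt.comp q hg

lemma X2_at (hV : S.VFr φ ψ U Om V K) (bf : BzFacts S φ ψ U Om y₀ ε0 C0) (hct : IsCt c)
    (hζ : ContDiff ℝ ∞ ζ) (hΦ : ContDiff ℝ ∞ Φ) (β : Fin 16) (q : Cfg dh × Wsp dm) (hq : zpt ψ q.1 ∈ U) :
    ContDiffAt ℝ ∞ (fun q : Cfg dh × Wsp dm => X2 S φ ψ Om V c ε R ζ Φ β q.1 q.2) q := by
  unfold X2
  refine ContDiffAt.sum fun i _ => ContDiffAt.sum fun a _ => ?_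
  have hz : ContDiffAt ℝ ∞ (fun q : Cfg dh × Wsp dm => zpt ψ q.1) q :=
    ((zpt_smooth ψ).comp contDiff_fst).contDiffAt
  have hu := uu_at (dm := dm) (ψ := ψ) (R := R) hζ hΦ q
  have h1 : ContDiffAt ℝ ∞ (fun q : Cfg dh × Wsp dm => v1 S φ ψ V R ζ Φ β i a q.1) q :=
    clm_at _ (trf_V V U hV.opn hV.v_c (fun q : Cfg dh × Wsp dm => zpt ψ q.1) _ q hz hu hq)
  have hW : ContDiffOn ℝ ∞ (fun y => fderiv ℝ V y (EuclideanSpace.single (i, a) 1)) U :=
    (hV.v_c.fderiv_of_isOpen hV.opn (by simp)).clm_apply contDiffOn_const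
  have h2 : ContDiffAt ℝ ∞ (fun q : Cfg dh × Wsp dm => v2 S φ ψ V R ζ Φ β i a q.1) q :=
    clm_at _ (trf_V (fun y => fderiv ℝ V y (EuclideanSpace.single (i, a) 1)) U hV.opn hW
      (fun q : Cfg dh × Wsp dm => zpt ψ q.1) _ q hz hu hq)
  exact ((cd_at hV.opn bf hct _ hq).smul h1).add ((cb_at hV.opn bf hct hq).smul h2)

lemma X2_ne (hct : IsCt c) (hε : 0 < ε) (hR : 0 < R) (β : Fin 16) (x : Cfg dh) (w : Wsp dm)
    (h : X2 S φ ψ Om V c ε R ζ Φ β x w ≠ 0) :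
    R⁻¹ • zpt ψ x ∈ tsupport ζ ∧ Φ (spt ψ x) ≠ 0 ∧ ‖w‖ ≤ ε * R := by
  refine ⟨?_, ?_, ?_⟩
  · by_contra hc
    apply h
    have h0 : ζ (R⁻¹ • zpt ψ x) = 0 := image_eq_zero_of_notMem_tsupport hc
    have h2 : uu ψ R ζ Φ x = 0 := by
      unfold uu
      rw [h0, zero_smul]
    unfold X2 v1 v2
    simp [h2]
  · intro hc
    apply h
    have h2 : uu ψ R ζ Φ x = 0 := by
      unfold uu
      rw [hc, smul_zero]
    unfold X2 v1 v2
    simp [h2]
  · by_contra hc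
    push Not at hc
    apply h
    have h10 : 0 < ε * R := mul_pos hε hR
    have h3 : c (‖w‖ ^ 2 / (ε * R) ^ 2) = 0 := by
      apply hct.zero
      rw [le_div_iff₀ (by positivity), one_mul]
      exact pow_le_pow_left₀ h10.le hc.le 2
    unfold X2 cb cd
    simp [h3]

lemma X2_tst (hV : S.VFr φ ψ U Om V K) (bf : BzFacts S φ ψ U Om y₀ ε0 C0) (hct : IsCt c) (hε : 0 < ε) (hε0 : ε ≤ ε0)
    (hζ : ContDiff ℝ ∞ ζ) (hζs : tsupport ζ ⊆ Metric.ball y₀ (ε / 2)) (hΦ : Setup.Tst Φ) (hR : 1 ≤ R) (β : Fin 16) :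
    Tst2 (X2 S φ ψ Om V c ε R ζ Φ β) := by
  have hR0 : 0 < R := lt_of_lt_of_le one_pos hR
  refine tst2_of (ψ := ψ) (U := U) hζs hR0 (fun y hy => trf_inU S φ ψ U Om y₀ ε0 C0 bf ε hε hε0 R hR _ (hζs hy)) hΦ.2
    (fun q hq => X2_at hV bf hct hζ hΦ.1 β q hq) (ε := ε) fun x w h => ?_
  obtain ⟨h1, h2, h3⟩ := X2_ne hct hε hR0 β x w h
  exact ⟨h1, subset_tsupport _ h2, h3⟩

end Smooth

section Bd

variable {S : Setup d F} {φ : Spl dh dm d} {ψ : Spl r ds dh}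
  {Om : Cfg r → Matrix (Fin dm) (Fin dm) ℝ} {V : Cfg r → F →L[ℂ] F} {c : ℝ → ℝ} {ε R : ℝ} {ζ : Cfg r → ℂ} {Φ : Cfg ds → F}
  {U : Set (Cfg r)} {K : Submodule ℂ F} {y₀ : Cfg r} {ε0 C0 : ℝ}

/-- sum of the operator norms -/
noncomputable def Th (S : Setup d F) (φ : Spl dh dm d) (ψ : Spl r ds dh) : ℝ :=
  ∑ β, ∑ i, ∑ a, ‖(S.vec (S.g i) (φ (Sum.inl (ψ (Sum.inl a)))) β : F →L[ℂ] F)‖

lemma Th_nonneg (S : Setup d F) (φ : Spl dh dm d) (ψ : Spl r ds dh) : 0 ≤ Th S φ ψ :=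
  Finset.sum_nonneg fun _ _ => Finset.sum_nonneg fun _ _ => Finset.sum_nonneg fun _ _ => norm_nonneg _

lemma Th_le (S : Setup d F) (φ : Spl dh dm d) (ψ : Spl r ds dh) (β : Fin 16) :
    ∑ i, ∑ a, ‖(S.vec (S.g i) (φ (Sum.inl (ψ (Sum.inl a)))) β : F →L[ℂ] F)‖ ≤ Th S φ ψ :=
  Finset.single_le_sum (f := fun β => ∑ i, ∑ a, ‖(S.vec (S.g i) (φ (Sum.inl (ψ (Sum.inl a)))) β : F →L[ℂ] F)‖)
    (fun _ _ => Finset.sum_nonneg fun _ _ => Finset.sum_nonneg fun _ _ => norm_nonneg _) (Finset.mem_univ β)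

lemma v1_le (hV : S.VFr φ ψ U Om V K) (β : Fin 16) (i : Fin 9) (a : Fin r) (x : Cfg dh) (hx : zpt ψ x ∈ U) :
    ‖v1 S φ ψ V R ζ Φ β i a x‖ ≤ ‖(S.vec (S.g i) (φ (Sum.inl (ψ (Sum.inl a)))) β : F →L[ℂ] F)‖ *
      (‖ζ (R⁻¹ • zpt ψ x)‖ * ‖Φ (spt ψ x)‖) := by
  unfold v1
  rw [norm_smul, norm_neg, Complex.norm_I, one_mul]
  refine (ContinuousLinearMap.le_opNorm _ _).trans ?_
  rw [hV.v_n _ hx, uu, norm_smul]

lemma v2_le {C1 : ℝ} (β : Fin 16) (i : Fin 9) (a : Fin r) (x : Cfg dh)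
    (hb : ∀ (e : Cfg r) (v : F), ‖(fderiv ℝ V (zpt ψ x) e) v‖ ≤ C1 / R * ‖e‖ * ‖v‖) :
    ‖v2 S φ ψ V R ζ Φ β i a x‖ ≤ ‖(S.vec (S.g i) (φ (Sum.inl (ψ (Sum.inl a)))) β : F →L[ℂ] F)‖ *
      (C1 / R * (‖ζ (R⁻¹ • zpt ψ x)‖ * ‖Φ (spt ψ x)‖)) := by
  unfold v2
  rw [norm_smul, norm_neg, Complex.norm_I, one_mul]
  refine (ContinuousLinearMap.le_opNorm _ _).trans (mul_le_mul_of_nonneg_left ?_ (norm_nonneg _))
  refine (hb _ _).trans ?_
  rw [uu, norm_smul]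
  simp

lemma near {x : Cfg dh} (hε0 : ε ≤ ε0) (hε : 0 < ε) (hR : 0 < R) (hζs : tsupport ζ ⊆ Metric.ball y₀ (ε / 2))
    (hx : R⁻¹ • zpt ψ x ∈ tsupport ζ) : ‖zpt ψ x - R • y₀‖ ≤ ε0 * R := by
  have h1 := hζs hx
  rw [Metric.mem_ball, dist_eq_norm] at h1
  have h2 : zpt ψ x - R • y₀ = R • (R⁻¹ • zpt ψ x - y₀) := by
    rw [smul_sub, smul_smul, mul_inv_cancel₀ hR.ne', one_smul]
  rw [h2, norm_smul, Real.norm_of_nonneg hR.le, mul_comm]
  exact mul_le_mul_of_nonneg_right (by linarith) hR.le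

/-- pointwise bound of the error term -/
lemma X2_le (hV : S.VFr φ ψ U Om V K) (bf : BzFacts S φ ψ U Om y₀ ε0 C0) (hct : IsCt c) (hε : 0 < ε) (hε0 : ε ≤ ε0)
    (hC0 : 0 < C0) (hζs : tsupport ζ ⊆ Metric.ball y₀ (ε / 2)) (hR : 1 ≤ R) {C1 : ℝ} (hC1 : 0 ≤ C1)
    (hb : ∀ y : Cfg r, R⁻¹ • y ∈ tsupport ζ → ∀ (e : Cfg r) (v : F), ‖(fderiv ℝ V y e) v‖ ≤ C1 / R * ‖e‖ * ‖v‖)
    (β : Fin 16) (x : Cfg dh) (w : Wsp dm) :
    ‖X2 S φ ψ Om V c ε R ζ Φ β x w‖ ≤ Th S φ ψ * ((Real.sqrt R ^ (9 * r))⁻¹ *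
      ((C0 + C1) * (1 / R + ‖w‖ ^ 2) * S.bz φ ψ Om (zpt ψ x) w) * (‖ζ (R⁻¹ • zpt ψ x)‖ * ‖Φ (spt ψ x)‖)) := by
  have hR0 : 0 < R := lt_of_lt_of_le one_pos hR
  have hk : 0 ≤ (Real.sqrt R ^ (9 * r))⁻¹ := by positivity
  by_cases hp : R⁻¹ • zpt ψ x ∈ tsupport ζ
  · have hyU : zpt ψ x ∈ U := trf_inU S φ ψ U Om y₀ ε0 C0 bf ε hε hε0 R hR _ (hζs hp)
    have hnr := near (ψ := ψ) hε0 hε hR0 hζs hp
    have hbz := bf.pos _ hyU w
    have hχ := hct.bd (‖w‖ ^ 2 / (ε * R) ^ 2)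
    have hcb : |cb S φ ψ Om c ε R x w| ≤ (Real.sqrt R ^ (9 * r))⁻¹ * S.bz φ ψ Om (zpt ψ x) w := by
      unfold cb
      rw [abs_of_nonneg (mul_nonneg (mul_nonneg hk hχ.1) hbz.le)]
      refine mul_le_mul_of_nonneg_right ?_ hbz.le
      exact mul_le_of_le_one_right hk hχ.2
    have hcd : ∀ (i : Fin 9) (a : Fin r), |cd S φ ψ Om c ε R (EuclideanSpace.single (i, a) 1) x w| ≤
        (Real.sqrt R ^ (9 * r))⁻¹ * (C0 * (1 / R + ‖w‖ ^ 2) * S.bz φ ψ Om (zpt ψ x) w) := by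
      intro i a
      unfold cd
      rw [abs_mul, abs_of_nonneg (mul_nonneg hk hχ.1)]
      refine mul_le_mul (mul_le_of_le_one_right hk hχ.2) (bf.dy R hR0 _ hnr w i a) (abs_nonneg _) hk
    have hz : 0 ≤ ‖ζ (R⁻¹ • zpt ψ x)‖ * ‖Φ (spt ψ x)‖ := by positivity
    have hterm : ∀ (i : Fin 9) (a : Fin r), ‖(((cd S φ ψ Om c ε R (EuclideanSpace.single (i, a) 1) x w : ℝ) : ℂ) •
        v1 S φ ψ V R ζ Φ β i a x + ((cb S φ ψ Om c ε R x w : ℝ) : ℂ) • v2 S φ ψ V R ζ Φ β i a x)‖ ≤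
        ‖(S.vec (S.g i) (φ (Sum.inl (ψ (Sum.inl a)))) β : F →L[ℂ] F)‖ * ((Real.sqrt R ^ (9 * r))⁻¹ *
      ((C0 + C1) * (1 / R + ‖w‖ ^ 2) * S.bz φ ψ Om (zpt ψ x) w) * (‖ζ (R⁻¹ • zpt ψ x)‖ * ‖Φ (spt ψ x)‖)) := by
      intro i a
      have h1 := v1_le (R := R) (ζ := ζ) (Φ := Φ) hV β i a x hyU
      have h2 := v2_le (S := S) (φ := φ) (R := R) (ζ := ζ) (Φ := Φ) β i a x (hb _ hp)
      have h3 := hcd i a
      set T := ‖(S.vec (S.g i) (φ (Sum.inl (ψ (Sum.inl a)))) β : F →L[ℂ] F)‖ with hT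
      have hT0 : 0 ≤ T := norm_nonneg _
      refine (norm_add_le _ _).trans ?_
      rw [norm_smul, norm_smul, Complex.norm_real, Complex.norm_real, Real.norm_eq_abs, Real.norm_eq_abs]
      have e1 := mul_le_mul h3 h1 (norm_nonneg _) (by positivity)
      have e2 := mul_le_mul hcb h2 (norm_nonneg _) (by positivity)
      refine (add_le_add e1 e2).trans ?_
      have e3 : C1 / R ≤ C1 * (1 / R + ‖w‖ ^ 2) := by
        rw [mul_add, mul_one_div]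
        have : 0 ≤ C1 * ‖w‖ ^ 2 := by positivity
        linarith
      have e4 : (Real.sqrt R ^ (9 * r))⁻¹ * S.bz φ ψ Om (zpt ψ x) w * (T * (C1 / R * (‖ζ (R⁻¹ • zpt ψ x)‖ * ‖Φ (spt ψ x)‖))) ≤
          (Real.sqrt R ^ (9 * r))⁻¹ * S.bz φ ψ Om (zpt ψ x) w *
            (T * (C1 * (1 / R + ‖w‖ ^ 2) * (‖ζ (R⁻¹ • zpt ψ x)‖ * ‖Φ (spt ψ x)‖))) := by
        refine mul_le_mul_of_nonneg_left ?_ (by positivity)
        refine mul_le_mul_of_nonneg_left ?_ hT0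
        exact mul_le_mul_of_nonneg_right e3 hz
      refine (add_le_add le_rfl e4).trans (le_of_eq ?_)
      ring
    unfold X2
    refine (norm_sum_le _ _).trans ?_
    refine (Finset.sum_le_sum fun i _ => norm_sum_le _ _).trans ?_
    refine (Finset.sum_le_sum fun i _ => Finset.sum_le_sum fun a _ => hterm i a).trans ?_
    simp only [← Finset.sum_mul]
    refine mul_le_mul_of_nonneg_right (Th_le S φ ψ β) ?_
    positivity
  · have h0 : ζ (R⁻¹ • zpt ψ x) = 0 := image_eq_zero_of_notMem_tsupport hp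
    have h2 : X2 S φ ψ Om V c ε R ζ Φ β x w = 0 := by
      by_contra hne
      exact hp (X2_ne hct hε hR0 β x w hne).1
    rw [h2, h0]
    simp

lemma zeta_int (hζ : ContDiff ℝ ∞ ζ) (hζs : tsupport ζ ⊆ Metric.ball y₀ (ε / 2)) :
    Integrable fun y : Cfg r => ‖ζ y‖ ^ 2 := by
  have hc : HasCompactSupport ζ := tsupp_compact hζs
  refine (hζ.continuous.norm.pow 2).integrable_of_hasCompactSupport ?_
  refine hc.mono fun y hy => ?_
  simp only [Function.mem_support] at hy ⊢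
  intro h0
  exact hy (by simp [h0])

lemma Phi_int (hΦ : Setup.Tst Φ) : Integrable fun s : Cfg ds => ‖Φ s‖ ^ 2 := by
  refine (hΦ.1.continuous.norm.pow 2).integrable_of_hasCompactSupport ?_
  refine hΦ.2.mono fun y hy => ?_
  simp only [Function.mem_support] at hy ⊢
  intro h0
  exact hy (by simp [h0])

/-- `L²` bound of the error term -/
lemma X2_ns (hV : S.VFr φ ψ U Om V K) (bf : BzFacts S φ ψ U Om y₀ ε0 C0) (hct : IsCt c) (hε : 0 < ε) (hε0 : ε ≤ ε0)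
    (hC0 : 0 < C0) (hζ : ContDiff ℝ ∞ ζ) (hζs : tsupport ζ ⊆ Metric.ball y₀ (ε / 2)) (hΦ : Setup.Tst Φ)
    (hR : 1 ≤ R) {C1 : ℝ} (hC1 : 0 ≤ C1)
    (hb : ∀ y : Cfg r, R⁻¹ • y ∈ tsupport ζ → ∀ (e : Cfg r) (v : F), ‖(fderiv ℝ V y e) v‖ ≤ C1 / R * ‖e‖ * ‖v‖)
    (β : Fin 16) :
    R ^ 2 * ns2 (X2 S φ ψ Om V c ε R ζ Φ β) ≤ ((Th S φ ψ * (C0 + C1)) ^ 2 * (4 * C0) * ∫ y, ‖ζ y‖ ^ 2) * nsq Φ := by
  have hR0 : 0 < R := lt_of_lt_of_le one_pos hR
  have hk : 0 ≤ (Real.sqrt R ^ (9 * r))⁻¹ := by positivity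
  set Q := (Th S φ ψ * (C0 + C1)) ^ 2 with hQ
  have hQ0 : 0 ≤ Q := sq_nonneg _
  have hmain : ns2 (X2 S φ ψ Om V c ε R ζ Φ β) ≤ (Q * (4 * C0) / R ^ 2) * ((∫ y, ‖ζ y‖ ^ 2) * ∫ s, ‖Φ s‖ ^ 2) := by
    refine ns2_le_prodG ψ (X2_tst hV bf hct hε hε0 hζ hζs hΦ hR β) hR0 (a := fun y => ‖ζ y‖ ^ 2)
      (b := fun s => ‖Φ s‖ ^ 2)
      (G := fun y w => Q * (2 / R ^ 2 * (‖w‖ ^ 0 * S.bz φ ψ Om y w) ^ 2 + 2 * (‖w‖ ^ 2 * S.bz φ ψ Om y w) ^ 2))
      (fun y => by positivity) (fun s => by positivity) (zeta_int hζ hζs) (Phi_int hΦ) ?_ ?_ ?_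
    · intro y hy
      have hy' : R⁻¹ • y ∈ tsupport ζ := by
        refine subset_tsupport _ ?_
        intro h0
        apply hy
        simp [h0]
      have hyU : y ∈ U := trf_inU S φ ψ U Om y₀ ε0 C0 bf ε hε hε0 R hR _ (hζs hy')
      exact (((bf.int y hyU 0).const_mul _).add ((bf.int y hyU 2).const_mul _)).const_mul _
    · intro y hy
      have hy' : R⁻¹ • y ∈ tsupport ζ := by
        refine subset_tsupport _ ?_
        intro h0
        apply hy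
        simp [h0]
      have hyU : y ∈ U := trf_inU S φ ψ U Om y₀ ε0 C0 bf ε hε hε0 R hR _ (hζs hy')
      have hnr : ‖y - R • y₀‖ ≤ ε0 * R := by
        have := near (ψ := (Equiv.sumEmpty (Fin r) (Fin 0) : Spl r 0 r)) (x := cmb (Equiv.sumEmpty (Fin r) (Fin 0)) y 0)
          hε0 hε hR0 hζs (by rw [zpt_cmb]; exact hy')
        rwa [zpt_cmb] at this
      rw [integral_const_mul, integral_add ((bf.int y hyU 0).const_mul _) ((bf.int y hyU 2).const_mul _),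
        integral_const_mul, integral_const_mul]
      have h1 := bf.mom R hR0 y hnr 0 (by norm_num)
      have h2 := bf.mom R hR0 y hnr 2 (by norm_num)
      rw [pow_zero, mul_one] at h1
      have h3 : Q * (2 / R ^ 2 * (∫ w, (‖w‖ ^ 0 * S.bz φ ψ Om y w) ^ 2) + 2 * ∫ w, (‖w‖ ^ 2 * S.bz φ ψ Om y w) ^ 2) ≤
          Q * (2 / R ^ 2 * C0 + 2 * (C0 * (1 / R) ^ 2)) := by
        refine mul_le_mul_of_nonneg_left (add_le_add ?_ ?_) hQ0
        · exact mul_le_mul_of_nonneg_left h1 (by positivity)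
        · exact mul_le_mul_of_nonneg_left h2 (by norm_num)
      refine h3.trans (le_of_eq ?_)
      field_simp
      ring
    · intro x w
      have h1 := X2_le (R := R) (Φ := Φ) hV bf hct hε hε0 hC0 hζs hR hC1 hb β x w
      have h2 := pow_le_pow_left₀ (norm_nonneg _) h1 2
      refine h2.trans ?_
      have h3 : (1 / R + ‖w‖ ^ 2) ^ 2 ≤ 2 / R ^ 2 + 2 * ‖w‖ ^ 4 := by
        have h4 : (2 : ℝ) / R ^ 2 = 2 * (1 / R) ^ 2 := by
          field_simp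
        rw [h4]
        nlinarith [sq_nonneg (1 / R - ‖w‖ ^ 2)]
      have h5 : 0 ≤ ((Real.sqrt R ^ (9 * r))⁻¹) ^ 2 * (‖ζ (R⁻¹ • zpt ψ x)‖ ^ 2 * ‖Φ (spt ψ x)‖ ^ 2) * Q *
          S.bz φ ψ Om (zpt ψ x) w ^ 2 := by positivity
      calc (Th S φ ψ * ((Real.sqrt R ^ (9 * r))⁻¹ * ((C0 + C1) * (1 / R + ‖w‖ ^ 2) * S.bz φ ψ Om (zpt ψ x) w) *
          (‖ζ (R⁻¹ • zpt ψ x)‖ * ‖Φ (spt ψ x)‖))) ^ 2
          = (((Real.sqrt R ^ (9 * r))⁻¹) ^ 2 * (‖ζ (R⁻¹ • zpt ψ x)‖ ^ 2 * ‖Φ (spt ψ x)‖ ^ 2) * Q *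
          S.bz φ ψ Om (zpt ψ x) w ^ 2) * (1 / R + ‖w‖ ^ 2) ^ 2 := by
            rw [hQ]
            ring
        _ ≤ (((Real.sqrt R ^ (9 * r))⁻¹) ^ 2 * (‖ζ (R⁻¹ • zpt ψ x)‖ ^ 2 * ‖Φ (spt ψ x)‖ ^ 2) * Q *
          S.bz φ ψ Om (zpt ψ x) w ^ 2) * (2 / R ^ 2 + 2 * ‖w‖ ^ 4) := mul_le_mul_of_nonneg_left h3 h5
        _ = _ := by ring
  have hR2 : 0 < R ^ 2 := by positivity
  calc R ^ 2 * ns2 (X2 S φ ψ Om V c ε R ζ Φ β)
      ≤ R ^ 2 * ((Q * (4 * C0) / R ^ 2) * ((∫ y, ‖ζ y‖ ^ 2) * ∫ s, ‖Φ s‖ ^ 2)) :=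
        mul_le_mul_of_nonneg_left hmain hR2.le
    _ = (Q * (4 * C0) * ∫ y, ‖ζ y‖ ^ 2) * nsq Φ := by
        unfold nsq
        field_simp

end Bd

section Vac

variable {S : Setup d F} {φ : Spl dh dm d} {ψ : Spl r ds dh}
  {Om : Cfg r → Matrix (Fin dm) (Fin dm) ℝ} {V : Cfg r → F →L[ℂ] F} {c : ℝ → ℝ} {ε R : ℝ} {ζ : Cfg r → ℂ} {Φ : Cfg ds → F}
  {U : Set (Cfg r)} {K : Submodule ℂ F} {y₀ : Cfg r} {ε0 C0 : ℝ}

/-- the vacuum component of `(γθ)(∂V)u` vanishes -/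
lemma proj_v2 [FiniteDimensional ℂ F] (hV : S.VFr φ ψ U Om V K) (β : Fin 16) (i : Fin 9) (a : Fin r) (x : Cfg dh)
    (hx : zpt ψ x ∈ U) (hK : Φ (spt ψ x) ∈ K) :
    (S.F0 φ (S.Dz φ ψ (zpt ψ x)) (Om (zpt ψ x))).starProjection (v2 S φ ψ V R ζ Φ β i a x) = 0 := by
  rw [Submodule.starProjection_apply_eq_zero_iff, Submodule.mem_orthogonal]
  intro v hv
  have key : ∀ v' ∈ S.F0 φ (S.Dz φ ψ (zpt ψ x)) (Om (zpt ψ x)),
      inner ℂ v' ((fderiv ℝ V (zpt ψ x) (EuclideanSpace.single (i, a) 1)) (uu ψ R ζ Φ x)) = 0 := by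
    intro v' hv'
    obtain ⟨k, hk⟩ := hV.v_s _ hx v'
    have hkK : k ∈ K := (hV.v_m _ hx k).2 (by rw [hk]; exact hv')
    rw [← hk, uu, map_smul, inner_smul_right, hV.par _ hx i a _ hK _ hkK, mul_zero]
  unfold v2
  rw [inner_smul_right]
  have h1 : S.vec (S.g i) (φ (Sum.inl (ψ (Sum.inl a)))) β
      ((fderiv ℝ V (zpt ψ x) (EuclideanSpace.single (i, a) 1)) (uu ψ R ζ Φ x)) =
      ∑ γ, S.g i β γ • S.th γ (φ (Sum.inl (ψ (Sum.inl a))))
        ((fderiv ℝ V (zpt ψ x) (EuclideanSpace.single (i, a) 1)) (uu ψ R ζ Φ x)) := by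
    simp only [CS.vec, _root_.sum_apply, _root_.smul_apply]
  rw [h1, inner_sum]
  have h2 : ∀ γ, inner ℂ v (S.g i β γ • S.th γ (φ (Sum.inl (ψ (Sum.inl a))))
        ((fderiv ℝ V (zpt ψ x) (EuclideanSpace.single (i, a) 1)) (uu ψ R ζ Φ x))) = 0 := by
    intro γ
    rw [inner_smul_right, ← S.th_sa, key _ ((f0S S φ _ _).1 γ _ v hv), mul_zero]
  simp only [h2, Finset.sum_const_zero, mul_zero]

/-- the overlap of the Gaussian with its cut off derivative -/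
lemma ov_le (hV : S.VFr φ ψ U Om V K) (bf : BzFacts S φ ψ U Om y₀ ε0 C0) (hct : IsCt c) (hε : 0 < ε) (hC0 : 0 < C0)
    {C' : ℝ} (hC' : ∀ R : ℝ, 1 ≤ R → ∀ y : Cfg r, ‖y - R • y₀‖ ≤ ε0 * R → ∀ k : ℕ, k ≤ 8 →
      ∫ w, (if ε / 2 * R ≤ ‖w‖ then (‖w‖ ^ k * S.bz φ ψ Om y w) ^ 2 else 0) ≤ C' * (1 / R) ^ 8)
    (hR : 1 ≤ R) (i : Fin 9) (a : Fin r) (x : Cfg dh) (hx : zpt ψ x ∈ U) (hn : ‖zpt ψ x - R • y₀‖ ≤ ε0 * R) :
    Integrable (fun w => S.bz φ ψ Om (zpt ψ x) w * cd S φ ψ Om c ε R (EuclideanSpace.single (i, a) 1) x w) ∧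
    Integrable (fun w => S.bz φ ψ Om (zpt ψ x) w * cb S φ ψ Om c ε R x w) ∧
    |∫ w, S.bz φ ψ Om (zpt ψ x) w * cd S φ ψ Om c ε R (EuclideanSpace.single (i, a) 1) x w| ≤
      (Real.sqrt R ^ (9 * r))⁻¹ * (2 * C0 * C' * (1 / R) ^ 8) := by
  have hR0 : 0 < R := lt_of_lt_of_le one_pos hR
  have hk : 0 ≤ (Real.sqrt R ^ (9 * r))⁻¹ := by positivity
  set y := zpt ψ x with hy
  set D : Wsp dm → ℝ := fun w => fderiv ℝ (fun y' => S.bz φ ψ Om y' w) y (EuclideanSpace.single (i, a) 1) with hD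
  have hbc : Continuous fun w => S.bz φ ψ Om y w := by
    rw [continuous_iff_continuousAt]
    intro w
    exact (bz_at hV.opn bf (q := (y, w)) hx).continuousAt.comp
      (f := fun w : Wsp dm => (y, w)) (by fun_prop : Continuous fun w : Wsp dm => (y, w)).continuousAt
  have hDc : Continuous D := by
    rw [continuous_iff_continuousAt]
    intro w
    exact (dbz_at hV.opn bf (EuclideanSpace.single (i, a) 1) (q := (y, w)) hx).continuousAt.comp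
      (f := fun w : Wsp dm => (y, w)) (by fun_prop : Continuous fun w : Wsp dm => (y, w)).continuousAt
  have hχc : Continuous fun w : Wsp dm => c (‖w‖ ^ 2 / (ε * R) ^ 2) :=
    hct.sm.continuous.comp (by fun_prop)
  have hb0 : ∀ w, 0 < S.bz φ ψ Om y w := bf.pos y hx
  have hDb : ∀ w, |S.bz φ ψ Om y w * D w| ≤ C0 * (1 / R) * (‖w‖ ^ 0 * S.bz φ ψ Om y w) ^ 2 +
      C0 * (‖w‖ ^ 1 * S.bz φ ψ Om y w) ^ 2 := by
    intro w
    rw [abs_mul, abs_of_pos (hb0 w)]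
    refine (mul_le_mul_of_nonneg_left (bf.dy R hR0 y hn w i a) (hb0 w).le).trans (le_of_eq ?_)
    ring
  have hgi : Integrable fun w => C0 * (1 / R) * (‖w‖ ^ 0 * S.bz φ ψ Om y w) ^ 2 +
      C0 * (‖w‖ ^ 1 * S.bz φ ψ Om y w) ^ 2 := ((bf.int y hx 0).const_mul _).add ((bf.int y hx 1).const_mul _)
  have hi1 : Integrable fun w => S.bz φ ψ Om y w * D w :=
    hgi.mono' (hbc.mul hDc).aestronglyMeasurable (Eventually.of_forall fun w => hDb w)
  have hi2 : Integrable fun w => (c (‖w‖ ^ 2 / (ε * R) ^ 2) - 1) * (S.bz φ ψ Om y w * D w) := by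
    refine hi1.bdd_mul (c := 1) (hχc.sub continuous_const).aestronglyMeasurable (Eventually.of_forall fun w => ?_)
    rw [Real.norm_eq_abs, abs_le]
    have := hct.bd (‖w‖ ^ 2 / (ε * R) ^ 2)
    constructor <;> linarith
  have e1 : ∀ w, S.bz φ ψ Om y w * cd S φ ψ Om c ε R (EuclideanSpace.single (i, a) 1) x w =
      (Real.sqrt R ^ (9 * r))⁻¹ * ((c (‖w‖ ^ 2 / (ε * R) ^ 2) - 1) * (S.bz φ ψ Om y w * D w) +
        S.bz φ ψ Om y w * D w) := by
    intro w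
    unfold cd
    rw [hD]
    ring
  have hi3 : Integrable fun w => S.bz φ ψ Om y w * cb S φ ψ Om c ε R x w := by
    have h1 : Integrable fun w => (S.bz φ ψ Om y w) ^ 2 := by
      have := bf.int y hx 0
      simpa only [pow_zero, one_mul] using this
    have h2 : Integrable fun w => c (‖w‖ ^ 2 / (ε * R) ^ 2) * (S.bz φ ψ Om y w) ^ 2 := by
      refine h1.bdd_mul (c := 1) hχc.aestronglyMeasurable (Eventually.of_forall fun w => ?_)
      rw [Real.norm_eq_abs, abs_le]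
      have := hct.bd (‖w‖ ^ 2 / (ε * R) ^ 2)
      constructor <;> linarith
    refine (h2.const_mul ((Real.sqrt R ^ (9 * r))⁻¹)).congr (Eventually.of_forall fun w => ?_)
    unfold cb
    ring
  refine ⟨?_, hi3, ?_⟩
  · simp only [e1]
    exact (hi2.add hi1).const_mul _
  · simp only [e1]
    rw [integral_const_mul, integral_add hi2 hi1, bf.orth y hx i a, add_zero, abs_mul, abs_of_nonneg hk]
    refine mul_le_mul_of_nonneg_left ?_ hk
    have hmeas : MeasurableSet {w : Wsp dm | ε / 2 * R ≤ ‖w‖} := measurableSet_le measurable_const measurable_norm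
    have hit : ∀ k : ℕ, Integrable fun w : Wsp dm => if ε / 2 * R ≤ ‖w‖ then (‖w‖ ^ k * S.bz φ ψ Om y w) ^ 2 else 0 := by
      intro k
      refine ((bf.int y hx k).indicator hmeas).congr (Eventually.of_forall fun w => ?_)
      simp only [Set.indicator_apply, Set.mem_ofPred_eq]
    have hpt : ∀ w, ‖(c (‖w‖ ^ 2 / (ε * R) ^ 2) - 1) * (S.bz φ ψ Om y w * D w)‖ ≤
        C0 * (1 / R) * (if ε / 2 * R ≤ ‖w‖ then (‖w‖ ^ 0 * S.bz φ ψ Om y w) ^ 2 else 0) +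
        C0 * (if ε / 2 * R ≤ ‖w‖ then (‖w‖ ^ 1 * S.bz φ ψ Om y w) ^ 2 else 0) := by
      intro w
      by_cases hw : ε / 2 * R ≤ ‖w‖
      · rw [if_pos hw, if_pos hw, norm_mul]
        refine le_trans ?_ (hDb w)
        rw [Real.norm_eq_abs, Real.norm_eq_abs]
        refine mul_le_of_le_one_left (abs_nonneg _) ?_
        rw [abs_le]
        have := hct.bd (‖w‖ ^ 2 / (ε * R) ^ 2)
        constructor <;> linarith
      · rw [if_neg hw, if_neg hw]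
        push Not at hw
        have h10 : 0 < ε * R := mul_pos hε hR0
        have h3 : c (‖w‖ ^ 2 / (ε * R) ^ 2) = 1 := by
          apply hct.one
          rw [div_le_iff₀ (by positivity)]
          have := pow_le_pow_left₀ (norm_nonneg w) hw.le 2
          nlinarith
        rw [h3]
        simp
    have hsum : Integrable fun w : Wsp dm =>
        C0 * (1 / R) * (if ε / 2 * R ≤ ‖w‖ then (‖w‖ ^ 0 * S.bz φ ψ Om y w) ^ 2 else 0) +
        C0 * (if ε / 2 * R ≤ ‖w‖ then (‖w‖ ^ 1 * S.bz φ ψ Om y w) ^ 2 else 0) :=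
      ((hit 0).const_mul _).add ((hit 1).const_mul _)
    refine (norm_integral_le_of_norm_le hsum (Eventually.of_forall hpt)).trans ?_
    rw [integral_add ((hit 0).const_mul _) ((hit 1).const_mul _), integral_const_mul, integral_const_mul]
    have h0 := hC' R hR y hn 0 (by norm_num)
    have h1 := hC' R hR y hn 1 (by norm_num)
    have h00 : 0 ≤ ∫ w : Wsp dm, (if ε / 2 * R ≤ ‖w‖ then (‖w‖ ^ 0 * S.bz φ ψ Om y w) ^ 2 else 0) :=
      integral_nonneg fun w => by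
        by_cases hw : ε / 2 * R ≤ ‖w‖
        · simp only [if_pos hw, Pi.zero_apply]
          positivity
        · simp only [if_neg hw, Pi.zero_apply, le_refl]
    have hR1 : 1 / R ≤ 1 := by
      rw [div_le_one hR0]
      exact hR
    calc C0 * (1 / R) * (∫ w : Wsp dm, (if ε / 2 * R ≤ ‖w‖ then (‖w‖ ^ 0 * S.bz φ ψ Om y w) ^ 2 else 0)) +
        C0 * (∫ w : Wsp dm, (if ε / 2 * R ≤ ‖w‖ then (‖w‖ ^ 1 * S.bz φ ψ Om y w) ^ 2 else 0))
        ≤ C0 * 1 * (C' * (1 / R) ^ 8) + C0 * (C' * (1 / R) ^ 8) := by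
          refine add_le_add ?_ (mul_le_mul_of_nonneg_left h1 hC0.le)
          exact mul_le_mul (mul_le_mul_of_nonneg_left hR1 hC0.le) h0 h00 (by positivity)
      _ = 2 * C0 * C' * (1 / R) ^ 8 := by ring

lemma vc_le [FiniteDimensional ℂ F] (hV : S.VFr φ ψ U Om V K) (bf : BzFacts S φ ψ U Om y₀ ε0 C0) (hct : IsCt c)
    (hε : 0 < ε) (hε0 : ε ≤ ε0) (hC0 : 0 < C0) (hζs : tsupport ζ ⊆ Metric.ball y₀ (ε / 2))
    {C' : ℝ} (hC'0 : 0 ≤ C') (hC' : ∀ R : ℝ, 1 ≤ R → ∀ y : Cfg r, ‖y - R • y₀‖ ≤ ε0 * R → ∀ k : ℕ, k ≤ 8 →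
      ∫ w, (if ε / 2 * R ≤ ‖w‖ then (‖w‖ ^ k * S.bz φ ψ Om y w) ^ 2 else 0) ≤ C' * (1 / R) ^ 8)
    (hR : 1 ≤ R) (hK : ∀ s, Φ s ∈ K) (β : Fin 16) (x : Cfg dh) :
    ‖vc S φ ψ Om (X2 S φ ψ Om V c ε R ζ Φ β) x‖ ≤
      Th S φ ψ * (((Real.sqrt R ^ (9 * r))⁻¹ * (2 * C0 * C' * (1 / R) ^ 8)) *
        (‖ζ (R⁻¹ • zpt ψ x)‖ * ‖Φ (spt ψ x)‖)) := by
  have hR0 : 0 < R := lt_of_lt_of_le one_pos hR
  have hk : 0 ≤ (Real.sqrt R ^ (9 * r))⁻¹ := by positivity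
  by_cases hp : R⁻¹ • zpt ψ x ∈ tsupport ζ
  · have hyU : zpt ψ x ∈ U := trf_inU S φ ψ U Om y₀ ε0 C0 bf ε hε hε0 R hR _ (hζs hp)
    have hnr := near (ψ := ψ) hε0 hε hR0 hζs hp
    have hov := fun (i : Fin 9) (a : Fin r) => ov_le hV bf hct hε hC0 hC' hR i a x hyU hnr
    have e1 : ∀ w, ((S.bz φ ψ Om (zpt ψ x) w : ℝ) : ℂ) • X2 S φ ψ Om V c ε R ζ Φ β x w =
        ∑ i, ∑ a, (((S.bz φ ψ Om (zpt ψ x) w * cd S φ ψ Om c ε R (EuclideanSpace.single (i, a) 1) x w : ℝ) : ℂ) •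
          v1 S φ ψ V R ζ Φ β i a x +
          ((S.bz φ ψ Om (zpt ψ x) w * cb S φ ψ Om c ε R x w : ℝ) : ℂ) • v2 S φ ψ V R ζ Φ β i a x) := by
      intro w
      unfold X2
      simp only [Finset.smul_sum, smul_add, smul_smul, Complex.ofReal_mul]
    have hi1 : ∀ (i : Fin 9) (a : Fin r), Integrable fun w =>
        ((S.bz φ ψ Om (zpt ψ x) w * cd S φ ψ Om c ε R (EuclideanSpace.single (i, a) 1) x w : ℝ) : ℂ) •
          v1 S φ ψ V R ζ Φ β i a x := fun i a => (hov i a).1.ofReal.smul_const _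
    have hi2 : ∀ (i : Fin 9) (a : Fin r), Integrable fun w =>
        ((S.bz φ ψ Om (zpt ψ x) w * cb S φ ψ Om c ε R x w : ℝ) : ℂ) • v2 S φ ψ V R ζ Φ β i a x :=
      fun i a => (hov i a).2.1.ofReal.smul_const _
    have hi3 : ∀ (i : Fin 9) (a : Fin r), Integrable fun w =>
        (((S.bz φ ψ Om (zpt ψ x) w * cd S φ ψ Om c ε R (EuclideanSpace.single (i, a) 1) x w : ℝ) : ℂ) •
          v1 S φ ψ V R ζ Φ β i a x +
        ((S.bz φ ψ Om (zpt ψ x) w * cb S φ ψ Om c ε R x w : ℝ) : ℂ) • v2 S φ ψ V R ζ Φ β i a x) :=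
      fun i a => (hi1 i a).add (hi2 i a)
    have e2 : ∫ w, ((S.bz φ ψ Om (zpt ψ x) w : ℝ) : ℂ) • X2 S φ ψ Om V c ε R ζ Φ β x w =
        ∑ i, ∑ a, (((∫ w, S.bz φ ψ Om (zpt ψ x) w * cd S φ ψ Om c ε R (EuclideanSpace.single (i, a) 1) x w : ℝ) : ℂ) •
          v1 S φ ψ V R ζ Φ β i a x +
          ((∫ w, S.bz φ ψ Om (zpt ψ x) w * cb S φ ψ Om c ε R x w : ℝ) : ℂ) • v2 S φ ψ V R ζ Φ β i a x) := by
      simp only [e1]
      rw [integral_finsetSum _ fun i _ => integrable_finsetSum _ fun a _ => hi3 i a]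
      refine Finset.sum_congr rfl fun i _ => ?_
      rw [integral_finsetSum _ fun a _ => hi3 i a]
      refine Finset.sum_congr rfl fun a _ => ?_
      rw [integral_add (hi1 i a) (hi2 i a), integral_smul_const, integral_smul_const, integral_complex_ofReal,
        integral_complex_ofReal]
    unfold vc
    rw [e2]
    simp only [map_sum, map_add, map_smul, proj_v2 hV β _ _ x hyU (hK _), smul_zero, add_zero]
    refine (norm_sum_le _ _).trans ?_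
    refine (Finset.sum_le_sum fun i _ => norm_sum_le _ _).trans ?_
    have hterm : ∀ (i : Fin 9) (a : Fin r),
        ‖((∫ w, S.bz φ ψ Om (zpt ψ x) w * cd S φ ψ Om c ε R (EuclideanSpace.single (i, a) 1) x w : ℝ) : ℂ) •
          (S.F0 φ (S.Dz φ ψ (zpt ψ x)) (Om (zpt ψ x))).starProjection (v1 S φ ψ V R ζ Φ β i a x)‖ ≤
        ‖(S.vec (S.g i) (φ (Sum.inl (ψ (Sum.inl a)))) β : F →L[ℂ] F)‖ *
        (((Real.sqrt R ^ (9 * r))⁻¹ * (2 * C0 * C' * (1 / R) ^ 8)) * (‖ζ (R⁻¹ • zpt ψ x)‖ * ‖Φ (spt ψ x)‖)) := by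
      intro i a
      rw [norm_smul, Complex.norm_real, Real.norm_eq_abs]
      have h1 := (Submodule.norm_starProjection_apply_le (S.F0 φ (S.Dz φ ψ (zpt ψ x)) (Om (zpt ψ x)))
        (v1 S φ ψ V R ζ Φ β i a x)).trans (v1_le (R := R) (ζ := ζ) (Φ := Φ) hV β i a x hyU)
      refine (mul_le_mul (hov i a).2.2 h1 (norm_nonneg _) (by positivity)).trans (le_of_eq ?_)
      ring
    refine (Finset.sum_le_sum fun i _ => Finset.sum_le_sum fun a _ => hterm i a).trans ?_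
    simp only [← Finset.sum_mul]
    refine mul_le_mul_of_nonneg_right (Th_le S φ ψ β) ?_
    positivity
  · have h0 : ∀ w, X2 S φ ψ Om V c ε R ζ Φ β x w = 0 := by
      intro w
      by_contra hne
      exact hp (X2_ne hct hε hR0 β x w hne).1
    have h1 : vc S φ ψ Om (X2 S φ ψ Om V c ε R ζ Φ β) x = 0 := by
      unfold vc
      simp only [h0, smul_zero, integral_zero, map_zero]
    rw [h1, norm_zero]
    have := Th_nonneg S φ ψ
    positivity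

end Vac

end Vale.Agent.P353.Z.AE.DecH213

namespace Vale.Agent.P353.Z.AE

variable {d dh dm r ds : ℕ} {F : Type*} [NormedAddCommGroup F] [InnerProductSpace ℂ F]

open DecH213

/-- **E-DecH** -/
theorem decH2 (S : Setup d F) (φ : Spl dh dm d) (ψ : Spl r ds dh) : DecHStmt S φ ψ := by
  intro hF hφ hc U Om V K hV y₀ ε0 C0 hy₀ hε0 hC0 bf cbd c hct ε hε hεε0 ζ hζ hζs
  have hsU : tsupport ζ ⊆ U := by
    intro y hy
    have h1 := hζs hy
    exact trf_inU S φ ψ U Om y₀ ε0 C0 bf ε hε hεε0 1 le_rfl y (by rwa [inv_one, one_smul])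
  obtain ⟨C1, hC1, hC1b⟩ := V_bd hV (tsupp_compact hζs) hsU
  obtain ⟨C', hC'⟩ := bf.tail (ε / 2) (by positivity)
  have hC'' : ∀ R : ℝ, 1 ≤ R → ∀ y : Cfg r, ‖y - R • y₀‖ ≤ ε0 * R → ∀ k : ℕ, k ≤ 8 →
      ∫ w, (if ε / 2 * R ≤ ‖w‖ then (‖w‖ ^ k * S.bz φ ψ Om y w) ^ 2 else 0) ≤ max C' 0 * (1 / R) ^ 8 := by
    intro R hR y hy k hk
    refine (hC' R hR y hy k hk).trans ?_
    exact mul_le_mul_of_nonneg_right (le_max_left _ _) (by positivity)
  have hI : 0 ≤ ∫ y, ‖ζ y‖ ^ 2 := integral_nonneg fun y => by positivity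
  set A1 := (Th S φ ψ * (C0 + C1)) ^ 2 * (4 * C0) * ∫ y, ‖ζ y‖ ^ 2 with hA1
  set A2 := (Th S φ ψ * (2 * C0 * max C' 0)) ^ 2 * ∫ y, ‖ζ y‖ ^ 2 with hA2
  have hA10 : 0 ≤ A1 := by positivity
  have hA20 : 0 ≤ A2 := by positivity
  have hz : Tst2 (fun (_ : Cfg dh) (_ : Wsp dm) => (0 : F)) := ⟨contDiff_const, HasCompactSupport.zero⟩
  have hzs : ∀ (Y : Cfg dh) (ε R : ℝ), Sup2 Y ε R (fun (_ : Cfg dh) (_ : Wsp dm) => (0 : F)) :=
    fun Y ε R y w h => absurd rfl h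
  have hzn : ns2 (fun (_ : Cfg dh) (_ : Wsp dm) => (0 : F)) = 0 := by
    unfold ns2
    simp
  refine ⟨A1 + A2, by positivity, fun R η hR hη hηε Φ hΦ β => ?_⟩
  have hR0 : 0 < R := lt_of_lt_of_le one_pos hR
  have hN : 0 ≤ nsq Φ := nsq_nonneg Φ
  have hDn : 0 ≤ ∑ i, ∑ A, nsq (pd i A Φ) := Finset.sum_nonneg fun _ _ => Finset.sum_nonneg fun _ _ => nsq_nonneg _
  refine ⟨fun _ _ => 0, X2 S φ ψ Om V c ε R ζ Φ β, fun _ _ => 0, hz,
    X2_tst hV bf hct hε hεε0 hζ hζs hΦ.tst hR β, hz, hzs _ _ _, ?_, hzs _ _ _, ?_, ?_, ?_, ?_, ?_, ?_, ?_⟩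
  · refine sup2_of hζs hR0 hηε fun x w h => ?_
    obtain ⟨h1, h2, h3⟩ := X2_ne hct hε hR0 β x w h
    exact ⟨h1, hΦ.sup _ h2, h3⟩
  · intro x w
    rw [dec_eq hφ hc hV bf hε hεε0 hζ hζs hΦ.tst.1 hR β x w, add_zero, add_zero]
  · rw [hzn, mul_zero]
    positivity
  · refine (X2_ns hV bf hct hε hεε0 hC0 hζ hζs hΦ.tst hR hC1 (fun y hy => hC1b R hR0 y hy) β).trans ?_
    refine mul_le_mul_of_nonneg_right ?_ hN
    linarith
  · intro x w h
    exact hΦ.sup _ (X2_ne hct hε hR0 β x w h).2.1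
  · have h1 : ∫ x, ‖vc S φ ψ Om (X2 S φ ψ Om V c ε R ζ Φ β) x‖ ^ 2 ≤
        ((Th S φ ψ * (2 * C0 * max C' 0 * (1 / R) ^ 8)) ^ 2) * ((∫ y, ‖ζ y‖ ^ 2) * ∫ s, ‖Φ s‖ ^ 2) := by
      refine int_le_prod ψ hR0 (a := fun y => ‖ζ y‖ ^ 2) (b := fun s => ‖Φ s‖ ^ 2) (zeta_int hζ hζs) (Phi_int hΦ.tst)
        (fun x => by positivity) fun x => ?_
      have h2 := vc_le hV bf hct hε hεε0 hC0 hζs (le_max_right C' 0) hC'' hR hΦ.val β x
      refine (pow_le_pow_left₀ (norm_nonneg _) h2 2).trans (le_of_eq ?_)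
      ring
    have hRi : (1 / R) ^ 16 * R ^ 2 ≤ 1 / R := by
      have h3 : (1 / R) ^ 16 * R ^ 2 = (1 / R) ^ 13 * (1 / R) := by
        field_simp
      rw [h3]
      have h4 : (1 / R) ^ 13 ≤ 1 := pow_le_one₀ (by positivity) (by rw [div_le_one hR0]; exact hR)
      exact mul_le_of_le_one_left (by positivity) h4
    calc R ^ 2 * ∫ x, ‖vc S φ ψ Om (X2 S φ ψ Om V c ε R ζ Φ β) x‖ ^ 2
        ≤ R ^ 2 * (((Th S φ ψ * (2 * C0 * max C' 0 * (1 / R) ^ 8)) ^ 2) * ((∫ y, ‖ζ y‖ ^ 2) * ∫ s, ‖Φ s‖ ^ 2)) :=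
          mul_le_mul_of_nonneg_left h1 (by positivity)
      _ = A2 * nsq Φ * ((1 / R) ^ 16 * R ^ 2) := by
          rw [hA2]
          unfold nsq
          ring
      _ ≤ A2 * nsq Φ * (1 / R) := mul_le_mul_of_nonneg_left hRi (by positivity)
      _ = A2 / R * nsq Φ := by ring
      _ ≤ (A1 + A2) / R * nsq Φ := by
          refine mul_le_mul_of_nonneg_right ?_ hN
          exact div_le_div_of_nonneg_right (by linarith) hR0.le
  · intro x w
    rw [neg_zero]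
  · rw [hzn]
    positivity

end Vale.Agent.P353.Z.AE
end

section

/-! # P353, all `N`, block E: the remainder at a central point has no vacuum-vacuum part (task E-QrVac) -/

open MeasureTheory Filter Topology Matrix
open scoped ContDiff

namespace Vale.Agent.P353.Z.AE

variable {d dh dm r ds : ℕ} {F : Type*} [NormedAddCommGroup F] [InnerProductSpace ℂ F]

/-! ### the frozen data at a central point -/

/-- `ad` of the central basis vector `a` on `m` -/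
private noncomputable def qv_Mz (S : Setup d F) (φ : Spl dh dm d) (ψ : Spl r ds dh) (a : Fin r) :
    Matrix (Fin dm) (Fin dm) ℝ :=
  Matrix.of fun B C => S.f (φ (Sum.inr B)) (φ (Sum.inl (ψ (Sum.inl a)))) (φ (Sum.inr C))

private theorem qv_Dz (S : Setup d F) (φ : Spl dh dm d) (ψ : Spl r ds dh) (y : Cfg r) (i : Fin 9) :
    S.Dz φ ψ y i = ∑ a, y (i, a) • qv_Mz S φ ψ a := by
  ext B C
  simp only [qv_Mz, Setup.Dz, Setup.Dy, Setup.Dm, cmb, Matrix.sum_apply, Matrix.smul_apply, Matrix.of_apply,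
    smul_eq_mul]
  rw [← ψ.sum_comp, Fintype.sum_sum_type]
  simp [mul_comm]

private theorem qv_Mz_anti (S : Setup d F) (φ : Spl dh dm d) (ψ : Spl r ds dh) (a : Fin r) :
    (qv_Mz S φ ψ a)ᵀ = -qv_Mz S φ ψ a := by
  ext B C
  simp only [qv_Mz, Matrix.transpose_apply, Matrix.of_apply, Matrix.neg_apply]
  rw [S.f_cyc, S.f_swap]

private theorem qv_Mz_comm (S : Setup d F) (φ : Spl dh dm d) (ψ : Spl r ds dh) (hs : S.IsSub φ)
    (hc : S.IsCen φ ψ) (a b : Fin r) : qv_Mz S φ ψ a * qv_Mz S φ ψ b = qv_Mz S φ ψ b * qv_Mz S φ ψ a := by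
  ext B D
  simp only [qv_Mz, Matrix.mul_apply, Matrix.of_apply]
  have hj := S.f_jac (φ (Sum.inl (ψ (Sum.inl a)))) (φ (Sum.inr B)) (φ (Sum.inl (ψ (Sum.inl b)))) (φ (Sum.inr D))
  rw [← φ.sum_comp, Fintype.sum_sum_type] at hj
  have h1 : ∀ E : Fin dh, S.f (φ (Sum.inl (ψ (Sum.inl a)))) (φ (Sum.inr B)) (φ (Sum.inl E)) = 0 := by
    intro E
    rw [S.f_cyc, S.f_cyc]
    exact hs _ _ _
  have h2 : ∀ E : Fin dh, S.f (φ (Sum.inr B)) (φ (Sum.inl (ψ (Sum.inl b)))) (φ (Sum.inl E)) = 0 := by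
    intro E
    rw [S.f_cyc]
    exact hs _ _ _
  have h3 : ∀ E : Fin dh, S.f (φ (Sum.inl (ψ (Sum.inl b)))) (φ (Sum.inl (ψ (Sum.inl a)))) (φ (Sum.inl E)) = 0 :=
    fun E => hc _ _ _
  have h4 : ∀ E : Fin dm, S.f (φ (Sum.inl (ψ (Sum.inl b)))) (φ (Sum.inl (ψ (Sum.inl a)))) (φ (Sum.inr E)) = 0 :=
    fun E => hs _ _ _
  simp only [h1, h2, h3, h4, zero_mul, add_zero, Finset.sum_const_zero, zero_add] at hj
  have h5 : ∀ E : Fin dm, S.f (φ (Sum.inl (ψ (Sum.inl a)))) (φ (Sum.inr B)) (φ (Sum.inr E)) =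
      -S.f (φ (Sum.inr B)) (φ (Sum.inl (ψ (Sum.inl a)))) (φ (Sum.inr E)) := fun E => S.f_swap _ _ _
  simp only [h5, Finset.sum_add_distrib, neg_mul, Finset.sum_neg_distrib] at hj
  linarith

/-- the matrices `D_i` at a central point with `D_8` invertible are frozen -/
theorem qv_frz (S : Setup d F) (φ : Spl dh dm d) (ψ : Spl r ds dh) (hs : S.IsSub φ) (hc : S.IsCen φ ψ)
    (y : Cfg r) (hy : (S.Dz φ ψ y 8).det ≠ 0) : Frz (S.Dz φ ψ y) := by
  refine ⟨?_, ?_, hy⟩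
  · intro i
    simp only [qv_Dz, Matrix.transpose_sum, Matrix.transpose_smul, qv_Mz_anti, smul_neg, Finset.sum_neg_distrib]
  · intro i j
    simp only [qv_Dz, Finset.sum_mul_sum, smul_mul_smul_comm]
    rw [Finset.sum_comm]
    refine Finset.sum_congr rfl fun a _ => Finset.sum_congr rfl fun b _ => ?_
    rw [qv_Mz_comm S φ ψ hs hc, mul_comm]

/-! ### the trace identity -/

private theorem qv_inv_comm {n : ℕ} {A B : Matrix (Fin n) (Fin n) ℝ} (hA : A.det ≠ 0) (h : A * B = B * A) :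
    A⁻¹ * B = B * A⁻¹ := by
  have hu : IsUnit A.det := isUnit_iff_ne_zero.2 hA
  calc A⁻¹ * B = A⁻¹ * (B * A) * A⁻¹ := by
        rw [Matrix.mul_assoc, Matrix.mul_assoc, Matrix.mul_nonsing_inv _ hu, Matrix.mul_one]
    _ = A⁻¹ * (A * B) * A⁻¹ := by rw [h]
    _ = B * A⁻¹ := by rw [← Matrix.mul_assoc A⁻¹, Matrix.nonsing_inv_mul _ hu, Matrix.one_mul]

private theorem qv_Om_det {κ : ℝ} {D : Fin 9 → Matrix (Fin dm) (Fin dm) ℝ} {Om : Matrix (Fin dm) (Fin dm) ℝ}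
    (hO : IsOm κ D Om) : Om.det ≠ 0 := by
  intro h0
  obtain ⟨w, hw, hw0⟩ := Matrix.exists_mulVec_eq_zero_iff.2 h0
  have := hO.pos w hw
  rw [hw0, dotProduct_zero] at this
  exact lt_irrefl _ this

/-- `X = D_8⁻¹ Ω⁻¹ D_k` is symmetric -/
private theorem qv_X {κ : ℝ} {D : Fin 9 → Matrix (Fin dm) (Fin dm) ℝ} {Om : Matrix (Fin dm) (Fin dm) ℝ}
    (hF : Frz D) (hO : IsOm κ D Om) (k : Fin 9) :
    (((D 8)⁻¹)ᵀ * (Om⁻¹ * D k))ᵀ = ((D 8)⁻¹)ᵀ * (Om⁻¹ * D k) := by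
  have hOd := qv_Om_det hO
  have hDD : ∀ i, D i * (∑ i, D i * D i) = (∑ i, D i * D i) * D i := by
    intro i
    rw [Finset.mul_sum, Finset.sum_mul]
    refine Finset.sum_congr rfl fun j _ => ?_
    rw [← Matrix.mul_assoc, hF.comm i j, Matrix.mul_assoc, hF.comm i j, Matrix.mul_assoc]
  have hDO : ∀ i, D i * Om = Om * D i := fun i => hO.comm _ (hDD i)
  have h1 : Om⁻¹ * D k = D k * Om⁻¹ := qv_inv_comm hOd (hDO k).symm
  have h2 : Om⁻¹ * D 8 = D 8 * Om⁻¹ := qv_inv_comm hOd (hDO 8).symm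
  have h3 : (D 8)⁻¹ * Om⁻¹ = Om⁻¹ * (D 8)⁻¹ := qv_inv_comm hF.inv h2.symm
  have h4 : (D 8)⁻¹ * D k = D k * (D 8)⁻¹ := qv_inv_comm hF.inv (hF.comm 8 k)
  have hOt : (Om⁻¹)ᵀ = Om⁻¹ := by rw [Matrix.transpose_nonsing_inv, hO.symm]
  have hu : IsUnit (D 8).det := isUnit_iff_ne_zero.2 hF.inv
  have hDt : ((D 8)⁻¹)ᵀ = -(D 8)⁻¹ := by
    rw [Matrix.transpose_nonsing_inv, hF.anti]
    refine Matrix.inv_eq_left_inv ?_
    rw [neg_mul_neg, Matrix.nonsing_inv_mul _ hu]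
  rw [Matrix.transpose_mul, Matrix.transpose_mul, Matrix.transpose_transpose, hF.anti, hOt, hDt,
    Matrix.neg_mul, Matrix.neg_mul, Matrix.neg_mul]
  congr 1
  calc D k * Om⁻¹ * (D 8)⁻¹ = D k * (Om⁻¹ * (D 8)⁻¹) := Matrix.mul_assoc _ _ _
    _ = D k * ((D 8)⁻¹ * Om⁻¹) := by rw [h3]
    _ = (D k * (D 8)⁻¹) * Om⁻¹ := (Matrix.mul_assoc _ _ _).symm
    _ = ((D 8)⁻¹ * D k) * Om⁻¹ := by rw [h4]
    _ = (D 8)⁻¹ * (D k * Om⁻¹) := Matrix.mul_assoc _ _ _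
    _ = (D 8)⁻¹ * (Om⁻¹ * D k) := by rw [h1]

/-- a symmetric matrix is orthogonal to an antisymmetric one -/
private theorem qv_sa {n : ℕ} (X M : Matrix (Fin n) (Fin n) ℝ) (hX : Xᵀ = X) (hM : ∀ B C, M B C = -M C B) :
    ∑ C, ∑ E, M C E * X C E = 0 := by
  have h1 : ∑ C, ∑ E, M C E * X C E = -∑ C, ∑ E, M C E * X C E := by
    conv_lhs => rw [Finset.sum_comm]
    rw [← Finset.sum_neg_distrib]
    refine Finset.sum_congr rfl fun C _ => ?_
    rw [← Finset.sum_neg_distrib]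
    refine Finset.sum_congr rfl fun E _ => ?_
    have h2 : X E C = X C E := by
      conv_lhs => rw [← hX]
      rfl
    rw [hM E C, h2]
    ring
  linarith

private theorem qv_tr {κ : ℝ} {D : Fin 9 → Matrix (Fin dm) (Fin dm) ℝ} {Om : Matrix (Fin dm) (Fin dm) ℝ}
    (hF : Frz D) (hO : IsOm κ D Om) (k : Fin 9) (M : Matrix (Fin dm) (Fin dm) ℝ) (hM : ∀ B C, M B C = -M C B) :
    ∑ B, ∑ C, (D 8)⁻¹ B C * ∑ E, M C E * ∑ B', Om⁻¹ B B' * D k B' E = 0 := by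
  have h1 := qv_sa (((D 8)⁻¹)ᵀ * (Om⁻¹ * D k)) M (qv_X hF hO k) hM
  rw [← h1, Finset.sum_comm]
  refine Finset.sum_congr rfl fun C _ => ?_
  simp only [Finset.mul_sum, Matrix.mul_apply, Matrix.transpose_apply]
  rw [Finset.sum_comm]
  refine Finset.sum_congr rfl fun E _ => Finset.sum_congr rfl fun B _ => Finset.sum_congr rfl fun B' _ => ?_
  ring

/-! ### the spin part -/

private theorem qv_anti (S : Setup d F) (φ : Spl dh dm d) (γ : Fin 16) (B : Fin dm) (α : Fin 16) (A : Fin dh) (u : F) :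
    S.th γ (φ (Sum.inr B)) (S.th α (φ (Sum.inl A)) u) =
      -S.th α (φ (Sum.inl A)) (S.th γ (φ (Sum.inr B)) u) := by
  have h := congrArg (fun T : F →L[ℂ] F => T u) (S.th_anti γ (φ (Sum.inr B)) α (φ (Sum.inl A)))
  have h2 : ¬ (γ = α ∧ φ (Sum.inr B) = φ (Sum.inl A)) := by
    rintro ⟨_, h⟩
    exact absurd (φ.injective h) (by simp)
  rw [if_neg h2] at h
  exact eq_neg_of_add_eq_zero_left h

private theorem qv_vec (S : Setup d F) (N : Matrix (Fin 16) (Fin 16) ℂ) (A : Fin d) (β : Fin 16) (u v' : F) :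
    inner ℂ v' (S.vec N A β u) = ∑ γ, N β γ * inner ℂ v' (S.th γ A u) := by
  simp only [CS.vec, _root_.sum_apply, _root_.smul_apply, inner_sum, inner_smul_right]

private theorem qv_cSa (S : Setup d F) (C : Fin d) (v : F) :
    S.cS C v = (-Complex.I / 2) • ∑ D, ∑ E, (S.f C D E : ℂ) • ∑ α, S.th α D (S.th α E v) := by
  simp only [Setup.cS, CS.bil, CS.vec_one, _root_.sum_apply, _root_.smul_apply]
  rfl

private theorem qv_ex {n : ℕ} (d : Fin n → Fin n → ℂ) (c : ℂ) (g : Fin 9 → ℂ) (t : Fin n → Fin n → Fin 9 → ℂ) :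
    ∑ B, ∑ C, d B C * (c * ∑ k, g k * t B C k) = c * ∑ k, g k * ∑ B, ∑ C, d B C * t B C k := by
  simp only [Finset.mul_sum]
  rw [Finset.sum_comm_cycle]
  refine Finset.sum_congr rfl fun k _ => Finset.sum_congr rfl fun B _ => Finset.sum_congr rfl fun C _ => ?_
  ring

private theorem qv_ex2 {n m : ℕ} (d : Fin n → Fin n → ℂ) (c : ℂ) (f : Fin n → Fin m → Fin n → ℂ)
    (g : Fin 16 → ℂ) (b : Fin 16 → Fin n → Fin 16 → Fin n → ℂ) (a : Fin 16 → Fin m → ℂ) :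
    ∑ B, ∑ C, d B C * (c * ∑ A, ∑ E, f C A E * ∑ γ, g γ * ∑ α, b γ B α E * a α A) =
      c * ∑ A, ∑ γ, g γ * ∑ α, a α A * ∑ B, ∑ C, d B C * ∑ E, f C A E * b γ B α E := by
  have h1 : ∀ B C, d B C * (c * ∑ A, ∑ E, f C A E * ∑ γ, g γ * ∑ α, b γ B α E * a α A) =
      ∑ A, ∑ γ, ∑ α, (c * (g γ * a α A)) * (d B C * ∑ E, f C A E * b γ B α E) := by
    intro B C
    simp only [Finset.mul_sum]
    refine Finset.sum_congr rfl fun A _ => ?_
    rw [Finset.sum_comm]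
    refine Finset.sum_congr rfl fun γ _ => ?_
    rw [Finset.sum_comm]
    refine Finset.sum_congr rfl fun α _ => Finset.sum_congr rfl fun E _ => ?_
    ring
  simp only [h1]
  rw [Finset.sum_comm_cycle, Finset.mul_sum]
  refine Finset.sum_congr rfl fun A _ => ?_
  rw [Finset.sum_comm_cycle, Finset.mul_sum]
  refine Finset.sum_congr rfl fun γ _ => ?_
  rw [Finset.sum_comm_cycle, Finset.mul_sum, Finset.mul_sum]
  refine Finset.sum_congr rfl fun α _ => ?_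
  rw [Finset.mul_sum, Finset.mul_sum, Finset.mul_sum]
  refine Finset.sum_congr rfl fun B _ => ?_
  rw [Finset.mul_sum, Finset.mul_sum, Finset.mul_sum]
  refine Finset.sum_congr rfl fun C _ => ?_
  ring

section Spin

variable (S : Setup d F) (φ : Spl dh dm d) {D : Fin 9 → Matrix (Fin dm) (Fin dm) ℝ}
  {Om : Matrix (Fin dm) (Fin dm) ℝ} {v v' : F}

private theorem qv_three (hW : WickStmt S φ) (hF : Frz D) (hO : IsOm S.κ D Om) (hv : v ∈ S.F0 φ D Om)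
    (hv' : v' ∈ S.F0 φ D Om) (γ : Fin 16) (B : Fin dm) (α : Fin 16) (A : Fin dh) (E : Fin dm) :
    inner ℂ v' (S.th γ (φ (Sum.inr B)) (S.th α (φ (Sum.inl A)) (S.th α (φ (Sum.inr E)) v))) =
      -((1 / 2 : ℂ) * ((if (γ, B) = (α, E) then 1 else 0) -
        Complex.I * ∑ B', ((Om⁻¹ B B' : ℝ) : ℂ) * S.PP D (γ, B') (α, E)) *
        inner ℂ v' (S.th α (φ (Sum.inl A)) v)) := by
  rw [qv_anti, inner_neg_right, ← S.th_sa]
  have h1 := (f0S S φ D Om).1 α A v' hv'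
  have h2 := (hW D Om hF hO v hv _ h1 (γ, B) (α, E) (γ, B)).2.1
  rw [S.th_sa α (φ (Sum.inl A)) v' v] at h2
  rw [← h2]

/-- the spin part of the Gauss law between vacua -/
private theorem qv_cS (hs : S.IsSub φ) (hW : WickStmt S φ) (hF : Frz D) (hO : IsOm S.κ D Om)
    (hv : v ∈ S.F0 φ D Om) (hv' : v' ∈ S.F0 φ D Om) (β : Fin 16) (B C : Fin dm) :
    inner ℂ v' (S.vec (S.g 8) (φ (Sum.inr B)) β (S.cS (φ (Sum.inr C)) v)) =
      (Complex.I / 2) * ∑ A, ∑ E, (S.f (φ (Sum.inr C)) (φ (Sum.inl A)) (φ (Sum.inr E)) : ℂ) *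
        ∑ γ, S.g 8 β γ * ∑ α, ((if (γ, B) = (α, E) then 1 else 0) -
          Complex.I * ∑ B', ((Om⁻¹ B B' : ℝ) : ℂ) * S.PP D (γ, B') (α, E)) *
            inner ℂ v' (S.th α (φ (Sum.inl A)) v) := by
  set J : Fin d → Fin d → ℂ := fun G E => ∑ γ, S.g 8 β γ * ∑ α,
    inner ℂ v' (S.th γ (φ (Sum.inr B)) (S.th α G (S.th α E v))) with hJ
  have h1 : inner ℂ v' (S.vec (S.g 8) (φ (Sum.inr B)) β (S.cS (φ (Sum.inr C)) v)) =
      (-Complex.I / 2) * ∑ G, ∑ E, (S.f (φ (Sum.inr C)) G E : ℂ) * J G E := by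
    rw [qv_cSa, map_smul, inner_smul_right]
    congr 1
    simp only [map_sum, map_smul, inner_sum, inner_smul_right]
    refine Finset.sum_congr rfl fun G _ => Finset.sum_congr rfl fun E _ => ?_
    congr 1
    simp only [qv_vec, hJ, Finset.mul_sum]
    rw [Finset.sum_comm]
  have h2 : ∀ (G E : Fin dm), J (φ (Sum.inr G)) (φ (Sum.inr E)) = 0 := by
    intro G E
    simp only [hJ]
    refine Finset.sum_eq_zero fun γ _ => ?_
    rw [Finset.sum_eq_zero, mul_zero]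
    intro α _
    exact (hW D Om hF hO v hv v' hv' (γ, B) (α, G) (α, E)).2.2
  have h3 : ∀ (A : Fin dh) (E : Fin dm), J (φ (Sum.inr E)) (φ (Sum.inl A)) = -J (φ (Sum.inl A)) (φ (Sum.inr E)) := by
    intro A E
    simp only [hJ]
    rw [← Finset.sum_neg_distrib]
    refine Finset.sum_congr rfl fun γ _ => ?_
    rw [← mul_neg, ← Finset.sum_neg_distrib]
    congr 1
    refine Finset.sum_congr rfl fun α _ => ?_
    rw [qv_anti S φ α E α A v, map_neg, inner_neg_right]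
  have h4 : ∀ (A A' : Fin dh), S.f (φ (Sum.inr C)) (φ (Sum.inl A)) (φ (Sum.inl A')) = 0 := by
    intro A A'
    rw [S.f_cyc]
    exact hs _ _ _
  have h5 : ∀ (A : Fin dh) (E : Fin dm), S.f (φ (Sum.inr C)) (φ (Sum.inr E)) (φ (Sum.inl A)) =
      -S.f (φ (Sum.inr C)) (φ (Sum.inl A)) (φ (Sum.inr E)) := fun A E => S.f_swap' _ _ _
  have h6 : ∑ G, ∑ E, (S.f (φ (Sum.inr C)) G E : ℂ) * J G E =
      2 * ∑ A, ∑ E, (S.f (φ (Sum.inr C)) (φ (Sum.inl A)) (φ (Sum.inr E)) : ℂ) * J (φ (Sum.inl A)) (φ (Sum.inr E)) := by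
    rw [← φ.sum_comp, Fintype.sum_sum_type]
    have h7 : ∀ G : Fin d, ∑ E, (S.f (φ (Sum.inr C)) G E : ℂ) * J G E =
        (∑ A, (S.f (φ (Sum.inr C)) G (φ (Sum.inl A)) : ℂ) * J G (φ (Sum.inl A))) +
          ∑ E, (S.f (φ (Sum.inr C)) G (φ (Sum.inr E)) : ℂ) * J G (φ (Sum.inr E)) := by
      intro G
      rw [← φ.sum_comp, Fintype.sum_sum_type]
    simp only [h7, h4, h2, h3, h5, Complex.ofReal_zero, zero_mul, mul_zero, Finset.sum_const_zero, zero_add, add_zero,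
      Complex.ofReal_neg, neg_mul_neg]
    rw [Finset.sum_comm (s := (Finset.univ : Finset (Fin dm))) (t := (Finset.univ : Finset (Fin dh))), two_mul]
  rw [h1, h6]
  simp only [hJ, qv_three S φ hW hF hO hv hv']
  rw [← mul_assoc, Finset.mul_sum, Finset.mul_sum]
  refine Finset.sum_congr rfl fun A _ => ?_
  rw [Finset.mul_sum, Finset.mul_sum]
  refine Finset.sum_congr rfl fun E _ => ?_
  simp only [Finset.mul_sum]
  refine Finset.sum_congr rfl fun γ _ => Finset.sum_congr rfl fun α _ => ?_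
  ring

private theorem qv_spin (hs : S.IsSub φ) (hW : WickStmt S φ) (hF : Frz D) (hO : IsOm S.κ D Om)
    (hv : v ∈ S.F0 φ D Om) (hv' : v' ∈ S.F0 φ D Om) (β : Fin 16) :
    ∑ B, ∑ C, (((D 8)⁻¹ B C : ℝ) : ℂ) *
        inner ℂ v' (S.vec (S.g 8) (φ (Sum.inr B)) β (S.cS (φ (Sum.inr C)) v)) =
      (Complex.I / 2) * ∑ A, ((∑ B, ∑ C, (D 8)⁻¹ B C *
        S.f (φ (Sum.inr C)) (φ (Sum.inl A)) (φ (Sum.inr B)) : ℝ) : ℂ) *
          inner ℂ v' (S.vec (S.g 8) (φ (Sum.inl A)) β v) := by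
  -- the bracket
  have hb : ∀ (A : Fin dh) (γ α : Fin 16), ∑ B, ∑ C, (((D 8)⁻¹ B C : ℝ) : ℂ) *
      ∑ E, (S.f (φ (Sum.inr C)) (φ (Sum.inl A)) (φ (Sum.inr E)) : ℂ) * ((if (γ, B) = (α, E) then 1 else 0) -
          Complex.I * ∑ B', ((Om⁻¹ B B' : ℝ) : ℂ) * S.PP D (γ, B') (α, E)) =
      if γ = α then ((∑ B, ∑ C, (D 8)⁻¹ B C * S.f (φ (Sum.inr C)) (φ (Sum.inl A)) (φ (Sum.inr B)) : ℝ) : ℂ) else 0 := by
    intro A γ α
    have e1 : ∀ B C, ∑ E, (S.f (φ (Sum.inr C)) (φ (Sum.inl A)) (φ (Sum.inr E)) : ℂ) *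
        ((if (γ, B) = (α, E) then 1 else 0) -
          Complex.I * ∑ B', ((Om⁻¹ B B' : ℝ) : ℂ) * S.PP D (γ, B') (α, E)) =
        (if γ = α then (S.f (φ (Sum.inr C)) (φ (Sum.inl A)) (φ (Sum.inr B)) : ℂ) else 0) -
          Complex.I * S.κ * ∑ k, S.g k γ α * ((∑ E, S.f (φ (Sum.inr C)) (φ (Sum.inl A)) (φ (Sum.inr E)) *
            ∑ B', Om⁻¹ B B' * D k B' E : ℝ) : ℂ) := by
      intro B C
      simp only [mul_sub, Finset.sum_sub_distrib]
      congr 1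
      · by_cases h : γ = α
        · subst h
          rw [if_pos rfl, Finset.sum_eq_single B]
          · simp
          · intro E _ hE
            rw [if_neg (by simpa using fun h => hE h.symm), mul_zero]
          · intro h; exact absurd (Finset.mem_univ _) h
        · rw [if_neg h]
          refine Finset.sum_eq_zero fun E _ => ?_
          rw [if_neg (fun e => h (congrArg Prod.fst e)), mul_zero]
      · simp only [Setup.PP, Matrix.of_apply]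
        push_cast
        simp only [Finset.mul_sum]
        rw [Finset.sum_comm_cycle]
        refine Finset.sum_congr rfl fun k _ => Finset.sum_congr rfl fun E _ =>
          Finset.sum_congr rfl fun B' _ => ?_
        ring
    have e2 : ∑ B, ∑ C, (((D 8)⁻¹ B C : ℝ) : ℂ) *
        ∑ E, (S.f (φ (Sum.inr C)) (φ (Sum.inl A)) (φ (Sum.inr E)) : ℂ) * ((if (γ, B) = (α, E) then 1 else 0) -
          Complex.I * ∑ B', ((Om⁻¹ B B' : ℝ) : ℂ) * S.PP D (γ, B') (α, E)) =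
        (∑ B, ∑ C, (((D 8)⁻¹ B C : ℝ) : ℂ) *
          (if γ = α then (S.f (φ (Sum.inr C)) (φ (Sum.inl A)) (φ (Sum.inr B)) : ℂ) else 0)) -
        ∑ B, ∑ C, (((D 8)⁻¹ B C : ℝ) : ℂ) * (Complex.I * S.κ * ∑ k, S.g k γ α *
          ((∑ E, S.f (φ (Sum.inr C)) (φ (Sum.inl A)) (φ (Sum.inr E)) * ∑ B', Om⁻¹ B B' * D k B' E : ℝ) : ℂ)) := by
      rw [← Finset.sum_sub_distrib]
      refine Finset.sum_congr rfl fun B _ => ?_
      rw [← Finset.sum_sub_distrib]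
      refine Finset.sum_congr rfl fun C _ => ?_
      rw [e1, mul_sub]
    rw [e2, qv_ex]
    have e3 : ∀ k, ∑ B, ∑ C, (((D 8)⁻¹ B C : ℝ) : ℂ) *
        ((∑ E, S.f (φ (Sum.inr C)) (φ (Sum.inl A)) (φ (Sum.inr E)) * ∑ B', Om⁻¹ B B' * D k B' E : ℝ) : ℂ) = 0 := by
      intro k
      have e4 := qv_tr hF hO k (Matrix.of fun C E => S.f (φ (Sum.inr C)) (φ (Sum.inl A)) (φ (Sum.inr E)))
        (fun B C => by
          simp only [Matrix.of_apply]
          rw [S.f_cyc, S.f_swap])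
      simp only [Matrix.of_apply] at e4
      rw [← Complex.ofReal_zero, ← e4, Complex.ofReal_sum]
      refine Finset.sum_congr rfl fun B _ => ?_
      rw [Complex.ofReal_sum]
      refine Finset.sum_congr rfl fun C _ => ?_
      rw [Complex.ofReal_mul]
    simp only [e3, mul_zero, Finset.sum_const_zero, sub_zero]
    by_cases h : γ = α
    · simp only [if_pos h]
      push_cast
      rfl
    · simp only [if_neg h, mul_zero, Finset.sum_const_zero]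
  simp only [qv_cS S φ hs hW hF hO hv hv']
  rw [qv_ex2 (fun B C => (((D 8)⁻¹ B C : ℝ) : ℂ)) (Complex.I / 2)
    (fun C A E => (S.f (φ (Sum.inr C)) (φ (Sum.inl A)) (φ (Sum.inr E)) : ℂ)) (fun γ => S.g 8 β γ)
    (fun γ B α E => ((if (γ, B) = (α, E) then 1 else 0) -
          Complex.I * ∑ B', ((Om⁻¹ B B' : ℝ) : ℂ) * S.PP D (γ, B') (α, E)))
    (fun α A => inner ℂ v' (S.th α (φ (Sum.inl A)) v))]
  simp only [hb]
  congr 1
  refine Finset.sum_congr rfl fun A _ => ?_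
  rw [qv_vec, Finset.mul_sum]
  refine Finset.sum_congr rfl fun γ _ => ?_
  rw [Finset.sum_eq_single γ]
  · rw [if_pos rfl]
    ring
  · intro α _ hα
    rw [if_neg (fun h => hα h.symm), mul_zero]
  · intro h; exact absurd (Finset.mem_univ _) h

end Spin

/-! ### the Gaussian -/

private theorem qv_gR {κ : ℝ} (hκ : 0 < κ) {D : Fin 9 → Matrix (Fin dm) (Fin dm) ℝ} {Om : Matrix (Fin dm) (Fin dm) ℝ}
    (hF : Frz D) (hO : IsOm κ D Om) : (∀ w, DifferentiableAt ℝ (fun w => gR D Om 1 w) w) ∧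
    ∀ (i j : Fin 9) (B C : Fin dm), Integrable (fun w : Wsp dm => wt w i B * wt w j C * gR D Om 1 w ^ 2) := by
  obtain ⟨M, -, hM2, -, c, hc, hM4⟩ := qfS dm κ D Om hκ hF hO
  have hg0 : ∀ w, gR D Om 1 w = Real.exp (-(1 / 2) * inner ℝ w (M w)) := fun w => by rw [gR, hM2]
  have hwt : ∀ (w : Wsp dm) i B, |wt w i B| ≤ ‖w‖ := by
    intro w i B
    induction i using Fin.lastCases with
    | last => simp only [wt, Fin.lastCases_last, abs_zero]; exact norm_nonneg _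
    | cast j =>
      simp only [wt, Fin.lastCases_castSucc]
      exact PiLp.norm_apply_le w (j, B)
  have hwc : ∀ i B, Continuous fun w : Wsp dm => wt w i B := by
    intro i B
    induction i using Fin.lastCases with
    | last => simp only [wt, Fin.lastCases_last]; exact continuous_const
    | cast j => simp only [wt, Fin.lastCases_castSucc]; exact (EuclideanSpace.proj (𝕜 := ℝ) (j, B)).continuous
  refine ⟨fun w => ?_, fun i j B C => ?_⟩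
  · simp only [hg0]
    exact ((DifferentiableAt.inner ℝ differentiableAt_id M.differentiableAt).const_mul _).exp
  · have h1 := (Poi.gauss_facts M hc hM4).2.1
    have hg : ∀ w, gR D Om 1 w ^ 2 = Real.exp (-inner ℝ w (M w)) := by
      intro w
      rw [hg0, ← Real.exp_nat_mul]
      congr 1
      push_cast
      ring
    simp only [hg]
    have hq : Continuous fun w : Wsp dm => inner ℝ w (M w) := by fun_prop
    refine h1.mono' (((hwc i B).mul (hwc j C)).mul hq.neg.rexp).aestronglyMeasurable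
      (Eventually.of_forall fun w => ?_)
    rw [Real.norm_eq_abs, abs_mul, abs_mul, abs_of_pos (Real.exp_pos _), mul_comm, pow_two]
    exact mul_le_mul_of_nonneg_left
      (mul_le_mul (hwt w i B) (hwt w j C) (abs_nonneg _) (norm_nonneg _)) (Real.exp_pos _).le

private theorem qv_pw {g : Wsp dm → ℝ} (hg : ∀ w, DifferentiableAt ℝ g w) (v : F) (j : Fin 8) (G : Fin dm)
    (y : Cfg dh) (w : Wsp dm) : pw j G (fun _ w' => ((g w' : ℝ) : ℂ) • v) y w =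
      ((fderiv ℝ g w (EuclideanSpace.single (j, G) 1) : ℝ) : ℂ) • v := by
  unfold pw
  have h1 : (fun w' => ((g w' : ℝ) : ℂ) • v) = fun w' => g w' • v := by
    funext w'
    exact Complex.coe_smul _ _
  have h2 : fderiv ℝ (fun w' => g w' • v) w = (fderiv ℝ g w).smulRight v := fderiv_smul_const (hg w) v
  rw [h1, h2, Complex.coe_smul]
  rfl

private theorem qv_py {g : Wsp dm → ℝ} (v : F) (i : Fin 9) (A : Fin dh)
    (y : Cfg dh) (w : Wsp dm) : py i A (fun _ w' => ((g w' : ℝ) : ℂ) • v) y w = 0 := by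
  unfold py pd
  simp

section Pt

variable (S : Setup d F) (φ : Spl dh dm d) {D : Fin 9 → Matrix (Fin dm) (Fin dm) ℝ}
  {Om : Matrix (Fin dm) (Fin dm) ℝ} {v v' : F}

/-- the remainder between vacua, pointwise: only the `w w θ^h` term survives -/
private theorem qv_pt (hs : S.IsSub φ) (hW : WickStmt S φ) (hF : Frz D) (hO : IsOm S.κ D Om)
    (hv : v ∈ S.F0 φ D Om) (hv' : v' ∈ S.F0 φ D Om) (y : Cfg dh) (hD : ∀ i, S.Dy φ i y = D i) (β : Fin 16)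
    (g : Wsp dm → ℝ) (hg : ∀ w, DifferentiableAt ℝ g w) (w : Wsp dm) :
    inner ℂ (((g w : ℝ) : ℂ) • v') (S.Qr φ β (fun _ w' => ((g w' : ℝ) : ℂ) • v) y w) =
      (1 / 2 : ℂ) * ∑ A, ∑ i, ∑ j, ((S.κ * ∑ B, ∑ C, S.f (φ (Sum.inl A)) (φ (Sum.inr B)) (φ (Sum.inr C)) *
        (wt w i B * wt w j C * g w ^ 2) : ℝ) : ℂ) * inner ℂ v' (S.vec (S.g2 i j) (φ (Sum.inl A)) β v) := by
  have h1 : ∀ (N : Matrix (Fin 16) (Fin 16) ℂ) (B : Fin dm), inner ℂ v' (S.vec N (φ (Sum.inr B)) β v) = 0 := by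
    intro N B
    rw [qv_vec]
    refine Finset.sum_eq_zero fun γ _ => ?_
    rw [(hW D Om hF hO v hv v' hv' (γ, B) (γ, B) (γ, B)).1, mul_zero]
  have h2 : ∀ A, fderiv ℝ (fun y' => Real.log (S.Jd φ y')) y (EuclideanSpace.single ((8 : Fin 9), A) 1) =
      ∑ B, ∑ C, (D 8)⁻¹ B C * S.f (φ (Sum.inr C)) (φ (Sum.inl A)) (φ (Sum.inr B)) := by
    intro A
    rw [AN.Sy.logJ S φ (by rw [hD]; exact hF.inv) A, hD]
  have h3 := qv_spin S φ hs hW hF hO hv hv' β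
  unfold Setup.Qr
  simp only [qv_py, qv_pw hg, hD, h2, smul_zero, Finset.sum_const_zero, zero_add]
  rw [inner_smul_left, Complex.conj_ofReal]
  simp only [inner_add_right, inner_smul_right, map_add, map_sum, map_smul, smul_add, inner_sum, h1, mul_zero,
    Finset.sum_const_zero, zero_add, add_zero]
  have e1 : ∑ B, ∑ C, (((D 8)⁻¹ B C : ℝ) : ℂ) * (Complex.I * (((g w : ℝ) : ℂ) *
      inner ℂ v' (S.vec (S.g 8) (φ (Sum.inr B)) β (S.cS (φ (Sum.inr C)) v)))) =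
      Complex.I * ((g w : ℝ) : ℂ) * ∑ B, ∑ C, (((D 8)⁻¹ B C : ℝ) : ℂ) *
        inner ℂ v' (S.vec (S.g 8) (φ (Sum.inr B)) β (S.cS (φ (Sum.inr C)) v)) := by
    simp only [Finset.mul_sum]
    refine Finset.sum_congr rfl fun B _ => Finset.sum_congr rfl fun C _ => ?_
    ring
  have e2 : ∑ A, ((∑ B, ∑ C, (D 8)⁻¹ B C *
        S.f (φ (Sum.inr C)) (φ (Sum.inl A)) (φ (Sum.inr B)) : ℝ) : ℂ) *
          (((g w : ℝ) : ℂ) * inner ℂ v' (S.vec (S.g 8) (φ (Sum.inl A)) β v)) =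
      ((g w : ℝ) : ℂ) * ∑ A, ((∑ B, ∑ C, (D 8)⁻¹ B C *
        S.f (φ (Sum.inr C)) (φ (Sum.inl A)) (φ (Sum.inr B)) : ℝ) : ℂ) *
          inner ℂ v' (S.vec (S.g 8) (φ (Sum.inl A)) β v) := by
    rw [Finset.mul_sum]
    refine Finset.sum_congr rfl fun A _ => ?_
    ring
  have e3 : ∑ A, ∑ i, ∑ j, ((S.κ * ∑ B, ∑ C, S.f (φ (Sum.inl A)) (φ (Sum.inr B)) (φ (Sum.inr C)) *
        (wt w i B * wt w j C * g w ^ 2) : ℝ) : ℂ) * inner ℂ v' (S.vec (S.g2 i j) (φ (Sum.inl A)) β v) =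
      ((g w : ℝ) : ℂ) * ∑ A, ∑ i, ∑ j, ((S.κ * ∑ B, ∑ C, S.f (φ (Sum.inl A)) (φ (Sum.inr B)) (φ (Sum.inr C)) *
        wt w i B * wt w j C : ℝ) : ℂ) * (((g w : ℝ) : ℂ) * inner ℂ v' (S.vec (S.g2 i j) (φ (Sum.inl A)) β v)) := by
    simp only [Finset.mul_sum (s := (Finset.univ : Finset (Fin dh))),
      Finset.mul_sum (s := (Finset.univ : Finset (Fin 9)))]
    refine Finset.sum_congr rfl fun A _ => Finset.sum_congr rfl fun i _ => Finset.sum_congr rfl fun j _ => ?_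
    have e4 : (S.κ * ∑ B, ∑ C, S.f (φ (Sum.inl A)) (φ (Sum.inr B)) (φ (Sum.inr C)) *
        (wt w i B * wt w j C * g w ^ 2)) = (S.κ * ∑ B, ∑ C, S.f (φ (Sum.inl A)) (φ (Sum.inr B)) (φ (Sum.inr C)) *
        wt w i B * wt w j C) * g w ^ 2 := by
      simp only [Finset.mul_sum, Finset.sum_mul]
      refine Finset.sum_congr rfl fun B _ => Finset.sum_congr rfl fun C _ => ?_
      ring
    rw [e4, Complex.ofReal_mul, Complex.ofReal_pow]
    ring
  rw [e1, h3, e2, e3]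
  set T := ∑ A, ((∑ B, ∑ C, (D 8)⁻¹ B C *
        S.f (φ (Sum.inr C)) (φ (Sum.inl A)) (φ (Sum.inr B)) : ℝ) : ℂ) *
          inner ℂ v' (S.vec (S.g 8) (φ (Sum.inl A)) β v)
  linear_combination (((g w : ℝ) : ℂ) ^ 2 * (Complex.I / 2) * T) * Complex.I_mul_I

end Pt

/-- **E-QrVac** -/
theorem qrVac (S : Setup d F) (φ : Spl dh dm d) (ψ : Spl r ds dh) :
    CovStmt S φ → WickStmt S φ → QrVacStmt S φ ψ := by
  intro hCov hW hs hc y Om hy hO v hv v' hv' β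
  have hF : Frz (S.Dz φ ψ y) := qv_frz S φ ψ hs hc y hy
  obtain ⟨hd, hi⟩ := qv_gR S.κ_pos hF hO
  have h1 : ∀ w, inner ℂ (((gR (S.Dz φ ψ y) Om 1 w : ℝ) : ℂ) • v')
      (S.Qr φ β (fun _ w' => ((gR (S.Dz φ ψ y) Om 1 w' : ℝ) : ℂ) • v) (cmb ψ y 0) w) =
      ∑ A, ∑ i, ∑ j, ((S.κ * ∑ B, ∑ C, S.f (φ (Sum.inl A)) (φ (Sum.inr B)) (φ (Sum.inr C)) *
        (wt w i B * wt w j C * gR (S.Dz φ ψ y) Om 1 w ^ 2) : ℝ) : ℂ) *
          ((1 / 2 : ℂ) * inner ℂ v' (S.vec (S.g2 i j) (φ (Sum.inl A)) β v)) := by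
    intro w
    rw [qv_pt S φ hs hW hF hO hv hv' (cmb ψ y 0) (fun i => rfl) β _ hd w]
    simp only [Finset.mul_sum (s := (Finset.univ : Finset (Fin dh))),
      Finset.mul_sum (s := (Finset.univ : Finset (Fin 9)))]
    refine Finset.sum_congr rfl fun A _ => Finset.sum_congr rfl fun i _ => Finset.sum_congr rfl fun j _ => ?_
    ring
  have h2 : ∀ (A : Fin dh) (i j : Fin 9) (B C : Fin dm), Integrable fun w : Wsp dm =>
      S.f (φ (Sum.inl A)) (φ (Sum.inr B)) (φ (Sum.inr C)) * (wt w i B * wt w j C * gR (S.Dz φ ψ y) Om 1 w ^ 2) :=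
    fun A i j B C => (hi i j B C).const_mul _
  have h3 : ∀ (A : Fin dh) (i j : Fin 9), Integrable fun w : Wsp dm =>
      S.κ * ∑ B, ∑ C, S.f (φ (Sum.inl A)) (φ (Sum.inr B)) (φ (Sum.inr C)) *
        (wt w i B * wt w j C * gR (S.Dz φ ψ y) Om 1 w ^ 2) := fun A i j =>
    (integrable_finsetSum _ fun B _ => integrable_finsetSum _ fun C _ => h2 A i j B C).const_mul _
  have h4 : ∀ (A : Fin dh) (i j : Fin 9), ∫ w : Wsp dm,
      S.κ * ∑ B, ∑ C, S.f (φ (Sum.inl A)) (φ (Sum.inr B)) (φ (Sum.inr C)) *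
        (wt w i B * wt w j C * gR (S.Dz φ ψ y) Om 1 w ^ 2) = 0 := by
    intro A i j
    rw [integral_const_mul, integral_finsetSum _ fun B _ => integrable_finsetSum _ fun C _ => h2 A i j B C]
    simp only [integral_finsetSum _ fun C _ => h2 A i j _ C, integral_const_mul]
    rw [mul_eq_zero]
    right
    have h5 := qv_sa (Matrix.of fun B C : Fin dm => ∫ w, wt w i B * wt w j C * gR (S.Dz φ ψ y) Om 1 w ^ 2)
      (Matrix.of fun B C : Fin dm => S.f (φ (Sum.inl A)) (φ (Sum.inr B)) (φ (Sum.inr C)))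
      (by
        ext B C
        exact hCov _ _ hF hO i j C B)
      (fun B C => S.f_swap' _ _ _)
    exact h5
  simp only [h1]
  have h6 : ∀ (A : Fin dh) (i j : Fin 9), Integrable fun w : Wsp dm =>
      ((S.κ * ∑ B, ∑ C, S.f (φ (Sum.inl A)) (φ (Sum.inr B)) (φ (Sum.inr C)) *
        (wt w i B * wt w j C * gR (S.Dz φ ψ y) Om 1 w ^ 2) : ℝ) : ℂ) *
          ((1 / 2 : ℂ) * inner ℂ v' (S.vec (S.g2 i j) (φ (Sum.inl A)) β v)) := fun A i j =>
    ((h3 A i j).ofReal (𝕜 := ℂ)).mul_const _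
  rw [integral_finsetSum _ fun A _ => integrable_finsetSum _ fun i _ => integrable_finsetSum _ fun j _ =>
    h6 A i j]
  refine Finset.sum_eq_zero fun A _ => ?_
  rw [integral_finsetSum _ fun i _ => integrable_finsetSum _ fun j _ => h6 A i j]
  refine Finset.sum_eq_zero fun i _ => ?_
  rw [integral_finsetSum _ fun j _ => h6 A i j]
  refine Finset.sum_eq_zero fun j _ => ?_
  rw [integral_mul_const, integral_complex_ofReal, h4, Complex.ofReal_zero, zero_mul]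

end Vale.Agent.P353.Z.AE
end
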