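import Mathlib
import Vale.Agent.P353.BdA.B2

set_option linter.all false

section

/-! # P353, all `N`, block G: G04 Gap3 -/

namespace Vale.Agent.P353.AN.G

open Matrix

variable {d : ℕ}

private lemma g3_eig (D0 D1 D2 : Matrix (Fin d) (Fin d) ℝ) (w0 w1 w2 : Fin d → ℝ) (y : ℝ)
    (c1 : D2 * D0 - D0 * D2 = D1) (c2 : D0 * D1 - D1 * D0 = D2)
    (h0 : D1.mulVec w2 - D2.mulVec w1 = y • w0) (h1 : D2.mulVec w0 - D0.mulVec w2 = y • w1)
    (h2 : D0.mulVec w1 - D1.mulVec w0 = y • w2)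
    (hd : D0.mulVec w0 + D1.mulVec w1 + D2.mulVec w2 = 0) :
    D0.mulVec (D0.mulVec w0) + D1.mulVec (D1.mulVec w0) + D2.mulVec (D2.mulVec w0) = (y - y ^ 2) • w0 := by
  have e1 : y • D1.mulVec w2 = D1.mulVec (D0.mulVec w1) - D1.mulVec (D1.mulVec w0) := by
    rw [← Matrix.mulVec_smul, ← h2, Matrix.mulVec_sub]
  have e2 : y • D2.mulVec w1 = D2.mulVec (D2.mulVec w0) - D2.mulVec (D0.mulVec w2) := by
    rw [← Matrix.mulVec_smul, ← h1, Matrix.mulVec_sub]
  have e3 : D0.mulVec (D1.mulVec w1) - D1.mulVec (D0.mulVec w1) = D2.mulVec w1 := by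
    rw [Matrix.mulVec_mulVec, Matrix.mulVec_mulVec, ← Matrix.sub_mulVec, c2]
  have e4 : D2.mulVec (D0.mulVec w2) - D0.mulVec (D2.mulVec w2) = D1.mulVec w2 := by
    rw [Matrix.mulVec_mulVec, Matrix.mulVec_mulVec, ← Matrix.sub_mulVec, c1]
  have e5 : D0.mulVec (D0.mulVec w0) + D0.mulVec (D1.mulVec w1) + D0.mulVec (D2.mulVec w2) = 0 := by
    rw [← Matrix.mulVec_add, ← Matrix.mulVec_add, hd, Matrix.mulVec_zero]
  funext A
  have e1' := congrFun e1 A
  have e2' := congrFun e2 A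
  have e3' := congrFun e3 A
  have e4' := congrFun e4 A
  have e5' := congrFun e5 A
  have h0' := congrFun h0 A
  simp only [Pi.add_apply, Pi.sub_apply, Pi.zero_apply, Pi.smul_apply, smul_eq_mul] at *
  linear_combination e1' - e2' - e3' + e4' + e5' - (y - 1) * h0'

private lemma g3_pos (D0 D1 D2 : Matrix (Fin d) (Fin d) ℝ) (t0 : D0.transpose = -D0)
    (t1 : D1.transpose = -D1) (t2 : D2.transpose = -D2) (w : Fin d → ℝ)
    (h : D0.mulVec (D0.mulVec w) + D1.mulVec (D1.mulVec w) + D2.mulVec (D2.mulVec w) = 0) :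
    D0.mulVec w = 0 ∧ D1.mulVec w = 0 ∧ D2.mulVec w = 0 := by
  have key : ∀ D : Matrix (Fin d) (Fin d) ℝ, D.transpose = -D →
      w ⬝ᵥ D.mulVec (D.mulVec w) = -(D.mulVec w ⬝ᵥ D.mulVec w) := by
    intro D hD
    rw [Matrix.dotProduct_mulVec, ← Matrix.mulVec_transpose, hD, Matrix.neg_mulVec,
      neg_dotProduct]
  have h1 : w ⬝ᵥ (D0.mulVec (D0.mulVec w) + D1.mulVec (D1.mulVec w) +
      D2.mulVec (D2.mulVec w)) = 0 := by
    rw [h, dotProduct_zero]
  rw [dotProduct_add, dotProduct_add, key D0 t0, key D1 t1, key D2 t2] at h1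
  have n0 : 0 ≤ D0.mulVec w ⬝ᵥ D0.mulVec w := Finset.sum_nonneg fun i _ => mul_self_nonneg _
  have n1 : 0 ≤ D1.mulVec w ⬝ᵥ D1.mulVec w := Finset.sum_nonneg fun i _ => mul_self_nonneg _
  have n2 : 0 ≤ D2.mulVec w ⬝ᵥ D2.mulVec w := Finset.sum_nonneg fun i _ => mul_self_nonneg _
  exact ⟨dotProduct_self_eq_zero.1 (by linarith), dotProduct_self_eq_zero.1 (by linarith),
    dotProduct_self_eq_zero.1 (by linarith)⟩

/-- vector components -/
private def gvec (x : EuclideanSpace ℝ (Fin 3 × Fin d)) (k : Fin 3) : Fin d → ℝ := fun A => x (k, A)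

/-- the curl operator -/
private noncomputable def gT (D : Fin 3 → Matrix (Fin d) (Fin d) ℝ) :
    EuclideanSpace ℝ (Fin 3 × Fin d) →ₗ[ℝ] EuclideanSpace ℝ (Fin 3 × Fin d) where
  toFun x := WithLp.toLp 2 fun p =>
    (D (p.1 + 1)).mulVec (gvec x (p.1 + 2)) p.2 - (D (p.1 + 2)).mulVec (gvec x (p.1 + 1)) p.2
  map_add' := by
    intro x y
    ext p
    have h : ∀ k, gvec (x + y) k = gvec x k + gvec y k := fun k => rfl
    simp only [h, Matrix.mulVec_add, Pi.add_apply, PiLp.add_apply]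
    ring
  map_smul' := by
    intro c x
    ext p
    have h : ∀ k, gvec (c • x) k = c • gvec x k := fun k => rfl
    simp only [h, Matrix.mulVec_smul, Pi.smul_apply, PiLp.smul_apply, smul_eq_mul, RingHom.id_apply]
    ring

private lemma gT_vec (D : Fin 3 → Matrix (Fin d) (Fin d) ℝ) (x : EuclideanSpace ℝ (Fin 3 × Fin d)) (k : Fin 3) :
    gvec (gT D x) k = (D (k + 1)).mulVec (gvec x (k + 2)) - (D (k + 2)).mulVec (gvec x (k + 1)) := rfl

private lemma g_inner (x y : EuclideanSpace ℝ (Fin 3 × Fin d)) :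
    inner ℝ x y = ∑ k, gvec x k ⬝ᵥ gvec y k := by
  rw [PiLp.inner_apply, Fintype.sum_prod_type]
  refine Finset.sum_congr rfl fun k _ => Finset.sum_congr rfl fun A _ => ?_
  simp [gvec, mul_comm]

private lemma g_e1 : (0 : Fin 3) + 1 = 1 := rfl
private lemma g_e2 : (0 : Fin 3) + 2 = 2 := rfl
private lemma g_e3 : (1 : Fin 3) + 1 = 2 := rfl
private lemma g_e4 : (1 : Fin 3) + 2 = 0 := rfl
private lemma g_e5 : (2 : Fin 3) + 1 = 0 := rfl
private lemma g_e6 : (2 : Fin 3) + 2 = 1 := rfl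

private lemma gT_symm (D : Fin 3 → Matrix (Fin d) (Fin d) ℝ) (hD : ∀ k, (D k).transpose = -D k) :
    (gT D).IsSymmetric := by
  have key : ∀ k (a b : Fin d → ℝ), (D k).mulVec a ⬝ᵥ b = -(a ⬝ᵥ (D k).mulVec b) := by
    intro k a b
    rw [Matrix.dotProduct_mulVec, ← Matrix.mulVec_transpose, hD, Matrix.neg_mulVec, neg_dotProduct, neg_neg]
  intro x y
  rw [g_inner, g_inner]
  simp only [gT_vec, sub_dotProduct, dotProduct_sub, key, Fin.sum_univ_three, g_e1, g_e2, g_e3, g_e4, g_e5, g_e6]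
  ring

/-- divergence free vectors -/
private def gX (D : Fin 3 → Matrix (Fin d) (Fin d) ℝ) : Submodule ℝ (EuclideanSpace ℝ (Fin 3 × Fin d)) where
  carrier := {x | ∑ k, (D k).mulVec (gvec x k) = 0}
  add_mem' := by
    intro x y hx hy
    have h : ∀ k, gvec (x + y) k = gvec x k + gvec y k := fun k => rfl
    show ∑ k, (D k).mulVec (gvec (x + y) k) = 0
    simp only [h, Matrix.mulVec_add, Finset.sum_add_distrib]
    rw [show ∑ k, (D k).mulVec (gvec x k) = 0 from hx, show ∑ k, (D k).mulVec (gvec y k) = 0 from hy, add_zero]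
  zero_mem' := by
    have h : ∀ k, gvec (0 : EuclideanSpace ℝ (Fin 3 × Fin d)) k = 0 := fun k => rfl
    show ∑ k, (D k).mulVec (gvec 0 k) = 0
    simp [h]
  smul_mem' := by
    intro c x hx
    have h : ∀ k, gvec (c • x) k = c • gvec x k := fun k => rfl
    show ∑ k, (D k).mulVec (gvec (c • x) k) = 0
    simp only [h, Matrix.mulVec_smul, ← Finset.smul_sum]
    rw [show ∑ k, (D k).mulVec (gvec x k) = 0 from hx, smul_zero]

private lemma gT_mem (D : Fin 3 → Matrix (Fin d) (Fin d) ℝ)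
    (hc : ∀ k, D (k + 1) * D (k + 2) - D (k + 2) * D (k + 1) = D k) :
    ∀ x ∈ gX D, gT D x ∈ gX D := by
  intro x hx
  have hx' : ∑ k, (D k).mulVec (gvec x k) = 0 := hx
  show ∑ k, (D k).mulVec (gvec (gT D x) k) = 0
  have c0 := hc 0
  have c1 := hc 1
  have c2 := hc 2
  rw [g_e1, g_e2] at c0
  rw [g_e3, g_e4] at c1
  rw [g_e5, g_e6] at c2
  rw [← hx']
  simp only [gT_vec, Fin.sum_univ_three, g_e1, g_e2, g_e3, g_e4, g_e5, g_e6, Matrix.mulVec_sub, Matrix.mulVec_mulVec]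
  have a0 : (D 0).mulVec (gvec x 0) = (D 1 * D 2).mulVec (gvec x 0) - (D 2 * D 1).mulVec (gvec x 0) := by
    rw [← Matrix.sub_mulVec, c0]
  have a1 : (D 1).mulVec (gvec x 1) = (D 2 * D 0).mulVec (gvec x 1) - (D 0 * D 2).mulVec (gvec x 1) := by
    rw [← Matrix.sub_mulVec, c1]
  have a2 : (D 2).mulVec (gvec x 2) = (D 0 * D 1).mulVec (gvec x 2) - (D 1 * D 0).mulVec (gvec x 2) := by
    rw [← Matrix.sub_mulVec, c2]
  rw [a0, a1, a2]
  abel

theorem gap3 (d : ℕ) (h : CasStmt d) : Gap3Stmt d := by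
  intro D hD hc w hw
  set x : EuclideanSpace ℝ (Fin 3 × Fin d) := WithLp.toLp 2 fun p => w p.1 p.2 with hx
  have hxv : ∀ k, gvec x k = w k := fun k => rfl
  have hxX : x ∈ gX D := by
    show ∑ k, (D k).mulVec (gvec x k) = 0
    exact hw
  have hsym := gT_symm D hD
  have hinv := gT_mem D hc
  have hTX := hsym.restrict_invariant hinv
  set TX := (gT D).restrict hinv with hTXdef
  set b := hTX.eigenvectorBasis rfl with hb
  have hev : ∀ i, 1 / 4 ≤ (1 - hTX.eigenvalues rfl i) ^ 2 := by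
    intro i
    set y := hTX.eigenvalues rfl i with hy
    set v : EuclideanSpace ℝ (Fin 3 × Fin d) := ((b i : gX D) : EuclideanSpace ℝ (Fin 3 × Fin d)) with hv
    have hv0 : v ≠ 0 := by
      intro h0
      have h1 : b i = 0 := Subtype.ext h0
      exact b.orthonormal.ne_zero i h1
    have hTv : gT D v = y • v := by
      have := congrArg (Subtype.val) (hTX.apply_eigenvectorBasis rfl i)
      exact this
    have hvX : ∑ k, (D k).mulVec (gvec v k) = 0 := (b i).2
    have hk : ∀ k, (D (k + 1)).mulVec (gvec v (k + 2)) - (D (k + 2)).mulVec (gvec v (k + 1)) = y • gvec v k := by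
      intro k
      rw [← gT_vec, hTv]
      rfl
    have hcas : ∀ k, (∑ j, (D j * D j).mulVec (gvec v k)) = (y - y ^ 2) • gvec v k := by
      intro k
      have c0 := hc 0
      have c1 := hc 1
      have c2 := hc 2
      have k0 := hk 0
      have k1 := hk 1
      have k2 := hk 2
      rw [g_e1, g_e2] at c0 k0
      rw [g_e3, g_e4] at c1 k1
      rw [g_e5, g_e6] at c2 k2
      rw [Fin.sum_univ_three] at hvX
      simp only [Fin.sum_univ_three, ← Matrix.mulVec_mulVec]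
      fin_cases k
      · exact g3_eig (D 0) (D 1) (D 2) _ _ _ y c1 c2 k0 k1 k2 hvX
      · have := g3_eig (D 1) (D 2) (D 0) _ _ _ y c2 c0 k1 k2 k0 (by rw [← hvX]; abel)
        show (D 0).mulVec ((D 0).mulVec (gvec v 1)) + (D 1).mulVec ((D 1).mulVec (gvec v 1)) +
          (D 2).mulVec ((D 2).mulVec (gvec v 1)) = (y - y ^ 2) • gvec v 1
        rw [← this]
        abel
      · have := g3_eig (D 2) (D 0) (D 1) _ _ _ y c0 c1 k2 k0 k1 (by rw [← hvX]; abel)
        show (D 0).mulVec ((D 0).mulVec (gvec v 2)) + (D 1).mulVec ((D 1).mulVec (gvec v 2)) +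
          (D 2).mulVec ((D 2).mulVec (gvec v 2)) = (y - y ^ 2) • gvec v 2
        rw [← this]
        abel
    obtain ⟨k, hk0⟩ : ∃ k, gvec v k ≠ 0 := by
      by_contra hcon
      push Not at hcon
      apply hv0
      ext p
      exact congrFun (hcon p.1) p.2
    have h1 := h D hD hc (y ^ 2 - y) (gvec v k) hk0 (by rw [hcas k, ← neg_smul]; congr 1; ring)
    rcases h1 with h1 | h1
    · have hy0 : y = 0 := by
        by_contra hyne
        have hz : ∀ k, gvec v k = 0 := by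
          intro k
          have hD0 : ∀ k, (D 0).mulVec (gvec v k) = 0 ∧ (D 1).mulVec (gvec v k) = 0 ∧ (D 2).mulVec (gvec v k) = 0 := by
            intro k
            apply g3_pos (D 0) (D 1) (D 2) (hD 0) (hD 1) (hD 2)
            have := hcas k
            simp only [Fin.sum_univ_three, ← Matrix.mulVec_mulVec] at this
            rw [this, show y - y ^ 2 = 0 by linarith, zero_smul]
          have hDall : ∀ j k, (D j).mulVec (gvec v k) = 0 := by
            intro j k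
            fin_cases j
            · exact (hD0 k).1
            · exact (hD0 k).2.1
            · exact (hD0 k).2.2
          have := hk k
          rw [hDall, hDall, sub_zero] at this
          exact (smul_eq_zero.1 this.symm).resolve_left hyne
        exact hk0 (hz k)
      rw [hy0]
      norm_num
    · have h2 : 0 ≤ (y - 3 / 2) * (y + 1 / 2) := by nlinarith
      by_cases h3 : y ≤ 1 / 2
      · by_cases h4 : y + 1 / 2 ≤ 0
        · nlinarith
        · nlinarith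
      · by_cases h4 : 3 / 2 ≤ y
        · nlinarith
        · nlinarith
  have hmain : ‖(⟨x, hxX⟩ : gX D)‖ ^ 2 ≤ 4 * ‖(⟨x, hxX⟩ : gX D) - TX ⟨x, hxX⟩‖ ^ 2 := by
    set X0 : gX D := ⟨x, hxX⟩
    have e1 : ‖X0‖ ^ 2 = ∑ i, (b.repr X0 i) ^ 2 := by
      rw [← b.repr.norm_map, EuclideanSpace.norm_sq_eq]
      simp
    have e2 : ‖X0 - TX X0‖ ^ 2 = ∑ i, ((1 - hTX.eigenvalues rfl i) * b.repr X0 i) ^ 2 := by
      rw [← b.repr.norm_map, EuclideanSpace.norm_sq_eq]
      refine Finset.sum_congr rfl fun i _ => ?_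
      rw [map_sub, PiLp.sub_apply, hTX.eigenvectorBasis_apply_self_apply rfl X0 i]
      simp only [Real.norm_eq_abs, sq_abs, RCLike.ofReal_real_eq_id, id]
      ring
    rw [e1, e2, Finset.mul_sum]
    refine Finset.sum_le_sum fun i _ => ?_
    have := hev i
    rw [mul_pow]
    nlinarith [sq_nonneg (b.repr X0 i)]
  have hn1 : ‖(⟨x, hxX⟩ : gX D)‖ ^ 2 = ∑ k, ∑ A, w k A ^ 2 := by
    rw [Submodule.coe_norm, EuclideanSpace.norm_sq_eq, Fintype.sum_prod_type]
    simp [hx]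
  have hn2 : ‖(⟨x, hxX⟩ : gX D) - TX ⟨x, hxX⟩‖ ^ 2 = ∑ k, ∑ A,
      (w k A - ((D (k + 1)).mulVec (w (k + 2)) A - (D (k + 2)).mulVec (w (k + 1)) A)) ^ 2 := by
    have : (((⟨x, hxX⟩ : gX D) - TX ⟨x, hxX⟩ : gX D) : EuclideanSpace ℝ (Fin 3 × Fin d)) = x - gT D x := rfl
    rw [Submodule.coe_norm, this, EuclideanSpace.norm_sq_eq, Fintype.sum_prod_type]
    refine Finset.sum_congr rfl fun k _ => Finset.sum_congr rfl fun A _ => ?_
    rw [Real.norm_eq_abs, sq_abs]
    rfl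
  rw [hn1, hn2] at hmain
  exact hmain

end Vale.Agent.P353.AN.G
end

section

/-! # P353, all `N`, block G: `[H_f, N_β(a)]` (G09), by direct computation -/

open MeasureTheory Filter Topology
open scoped ContDiff Matrix

namespace Vale.Agent.P353.AN.G

open Vale.Agent.P353.Z Vale.Agent.P353.Z.U

namespace LinN

section alg

variable {d : ℕ} {R : Type*} [Ring R] [Algebra ℂ R] (S : CS d R)

/-- commutator of `(Nθ^D)_β` with a bilinear -/
lemma vec_comm_bil (N M : Matrix (Fin 16) (Fin 16) ℂ) (D A B : Fin d) (β : Fin 16) :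
    S.vec N D β * S.bil M A B - S.bil M A B * S.vec N D β =
      (if D = A then S.vec (N * M) B β else 0) - (if D = B then S.vec (N * Mᵀ) A β else 0) := by
  have hb : S.bil M A B = ∑ δ, S.vec 1 A δ * S.vec M B δ := by
    rw [S.sum_vec_mul_vec]; simp
  rw [hb, Finset.mul_sum, Finset.sum_mul, ← Finset.sum_sub_distrib]
  have h1 : ∀ δ, S.vec N D β * (S.vec 1 A δ * S.vec M B δ) -
      S.vec 1 A δ * S.vec M B δ * S.vec N D β =
      (if D = A then (N β δ) • S.vec M B δ else 0) -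
        (if D = B then ((N * Mᵀ) β δ) • S.vec 1 A δ else 0) := by
    intro δ
    have e1 := S.vec_anti N 1 D A β δ
    have e2 := S.vec_anti N M D B β δ
    have : S.vec N D β * (S.vec 1 A δ * S.vec M B δ) -
      S.vec 1 A δ * S.vec M B δ * S.vec N D β =
      (S.vec N D β * S.vec 1 A δ + S.vec 1 A δ * S.vec N D β) * S.vec M B δ -
      S.vec 1 A δ * (S.vec N D β * S.vec M B δ + S.vec M B δ * S.vec N D β) := by
      noncomm_ring
    rw [this, e1, e2]
    congr 1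
    · by_cases h : D = A
      · simp [h]
      · simp [h]
    · by_cases h : D = B
      · simp [h]
      · simp [h]
  rw [Finset.sum_congr rfl fun δ _ => h1 δ, Finset.sum_sub_distrib]
  congr 1
  · by_cases h : D = A
    · simp only [if_pos h]
      rw [S.vec_mul]
    · simp [h]
  · by_cases h : D = B
    · simp only [if_pos h, CS.vec_one]
      rfl
    · simp [h]

end alg

variable {d : ℕ} {F : Type*} [NormedAddCommGroup F] [InnerProductSpace ℂ F] (S : Setup d F)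

/-- `X_A(x) = x_i^A γ^i` -/
noncomputable def XX (x : Cfg d) (A : Fin d) : Matrix (Fin 16) (Fin 16) ℂ :=
  ∑ i, (x (i, A) : ℂ) • S.g i

lemma XX_transpose (x : Cfg d) (A : Fin d) : (XX S x A)ᵀ = XX S x A := by
  unfold XX
  rw [Matrix.transpose_sum]
  exact Finset.sum_congr rfl fun i _ => by rw [Matrix.transpose_smul, S.g_symm]

lemma XX_anti (x y : Cfg d) (A B : Fin d) : XX S x A * XX S y B + XX S y B * XX S x A =
    (2 : ℂ) • ((∑ i, (x (i, A) : ℂ) * (y (i, B) : ℂ)) • (1 : Matrix (Fin 16) (Fin 16) ℂ)) := by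
  have h1 : XX S x A * XX S y B =
      ∑ i, ∑ j, ((x (i, A) : ℂ) * (y (j, B) : ℂ)) • (S.g i * S.g j) := by
    simp only [XX, Finset.sum_mul, Finset.mul_sum, smul_mul_smul_comm]
    exact Finset.sum_comm
  have h2 : XX S y B * XX S x A =
      ∑ i, ∑ j, ((x (i, A) : ℂ) * (y (j, B) : ℂ)) • (S.g j * S.g i) := by
    simp only [XX, Finset.sum_mul, Finset.mul_sum, smul_mul_smul_comm]
    refine Finset.sum_congr rfl fun i _ => Finset.sum_congr rfl fun j _ => ?_
    rw [mul_comm]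
  rw [h1, h2, ← Finset.sum_add_distrib]
  simp only [← Finset.sum_add_distrib, ← smul_add, S.g_anti]
  have h3 : ∀ i, ∑ j, ((x (i, A) : ℂ) * (y (j, B) : ℂ)) •
      (if i = j then (2 : Matrix (Fin 16) (Fin 16) ℂ) else 0) =
      ((x (i, A) : ℂ) * (y (i, B) : ℂ)) • (2 : Matrix (Fin 16) (Fin 16) ℂ) := by
    intro i
    simp
  rw [Finset.sum_congr rfl fun i _ => h3 i, ← Finset.sum_smul, smul_smul, mul_comm, mul_smul]
  congr 1
  rw [← one_add_one_eq_two, ← one_add_one_eq_two, add_smul, one_smul]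

lemma XX_comm (x y : Cfg d) (A B : Fin d) : (1 / 2 : ℂ) • (XX S x A * XX S y B -
    XX S y B * XX S x A) = ∑ i, ∑ j, ((x (i, A) : ℂ) * (y (j, B) : ℂ)) • S.g2 i j := by
  have h1 : XX S x A * XX S y B =
      ∑ i, ∑ j, ((x (i, A) : ℂ) * (y (j, B) : ℂ)) • (S.g i * S.g j) := by
    simp only [XX, Finset.sum_mul, Finset.mul_sum, smul_mul_smul_comm]
    exact Finset.sum_comm
  have h2 : XX S y B * XX S x A =
      ∑ i, ∑ j, ((x (i, A) : ℂ) * (y (j, B) : ℂ)) • (S.g j * S.g i) := by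
    simp only [XX, Finset.sum_mul, Finset.mul_sum, smul_mul_smul_comm]
    refine Finset.sum_congr rfl fun i _ => Finset.sum_congr rfl fun j _ => ?_
    rw [mul_comm]
  rw [h1, h2, ← Finset.sum_sub_distrib, Finset.smul_sum]
  refine Finset.sum_congr rfl fun i _ => ?_
  rw [← Finset.sum_sub_distrib, Finset.smul_sum]
  refine Finset.sum_congr rfl fun j _ => ?_
  rw [← smul_sub, smul_comm]
  rfl

lemma B_eq (β : Fin 16) (a : Cfg d) : S.B β a = ∑ A, S.vec (XX S a A) A β := by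
  unfold Setup.B XX
  rw [Finset.sum_comm]
  refine Finset.sum_congr rfl fun A _ => ?_
  rw [S.vec_sum]
  exact Finset.sum_congr rfl fun i _ => (S.vec_smul _ _ _ _).symm

lemma MM_eq (β : Fin 16) (a : Cfg d) : S.MM β a =
    ∑ A, S.vec (∑ i, ((aw i * a (i, A) : ℝ) : ℂ) • (S.g i * S.Gam)) A β := by
  unfold Setup.MM
  rw [Finset.sum_comm]
  refine Finset.sum_congr rfl fun A _ => ?_
  rw [S.vec_sum]
  exact Finset.sum_congr rfl fun i _ => (S.vec_smul _ _ _ _).symm

lemma DW_eq (ξ : Cfg d) (β : Fin 16) (a : Cfg d) : S.DW ξ β a =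
    (S.κ : ℂ) • ∑ A, ∑ B, ∑ C, (S.f A B C : ℂ) •
      S.vec ((1 / 2 : ℂ) • (XX S ξ B * XX S a C - XX S a C * XX S ξ B)) A β := by
  unfold Setup.DW
  congr 1
  refine Finset.sum_congr rfl fun A _ => Finset.sum_congr rfl fun B _ =>
    Finset.sum_congr rfl fun C _ => ?_
  rw [XX_comm, S.vec_sum, Finset.smul_sum]
  refine Finset.sum_congr rfl fun i _ => ?_
  rw [S.vec_sum, Finset.smul_sum]
  refine Finset.sum_congr rfl fun j _ => ?_
  rw [S.vec_smul, smul_smul]
  congr 1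
  ring

lemma Fx_eq (ξ : Cfg d) : S.Fx ξ = (Complex.I / 2 * (S.κ : ℂ)) • ∑ A, ∑ B, ∑ C,
    (S.f A B C : ℂ) • S.bil (XX S ξ C) A B := by
  unfold Setup.Fx
  congr 1
  rw [Finset.sum_comm]
  refine Finset.sum_congr rfl fun A _ => ?_
  rw [Finset.sum_comm]
  refine Finset.sum_congr rfl fun B _ => ?_
  rw [Finset.sum_comm]
  refine Finset.sum_congr rfl fun C _ => ?_
  unfold XX
  rw [S.bil_sum, Finset.smul_sum]
  refine Finset.sum_congr rfl fun q _ => ?_
  rw [S.bil_smul, smul_smul]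

/-- commutator of `F(ξ)` with `(Nθ^D)_β` -/
lemma Fx_vec (ξ : Cfg d) (N : Matrix (Fin 16) (Fin 16) ℂ) (D : Fin d) (β : Fin 16) :
    S.Fx ξ * S.vec N D β - S.vec N D β * S.Fx ξ =
      -((Complex.I * (S.κ : ℂ)) • ∑ B, ∑ C, (S.f D B C : ℂ) • S.vec (N * XX S ξ C) B β) := by
  have h1 : ∑ A, ∑ B, ∑ C, (S.f A B C : ℂ) • (S.bil (XX S ξ C) A B * S.vec N D β -
      S.vec N D β * S.bil (XX S ξ C) A B) =
      -((2 : ℂ) • ∑ B, ∑ C, (S.f D B C : ℂ) • S.vec (N * XX S ξ C) B β) := by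
    have h2 : ∀ A B C, (S.f A B C : ℂ) • (S.bil (XX S ξ C) A B * S.vec N D β -
        S.vec N D β * S.bil (XX S ξ C) A B) =
        (if D = B then (S.f A B C : ℂ) • S.vec (N * XX S ξ C) A β else 0) -
        (if D = A then (S.f A B C : ℂ) • S.vec (N * XX S ξ C) B β else 0) := by
      intro A B C
      have h3 := vec_comm_bil S.toCS N (XX S ξ C) D A B β
      rw [XX_transpose] at h3
      rw [← neg_sub, h3, neg_sub, smul_sub]
      congr 1
      · split_ifs <;> simp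
      · split_ifs <;> simp
    simp only [h2, Finset.sum_sub_distrib]
    have h4 : ∑ A, ∑ B, ∑ C, (if D = B then (S.f A B C : ℂ) • S.vec (N * XX S ξ C) A β else 0) =
        -∑ B, ∑ C, (S.f D B C : ℂ) • S.vec (N * XX S ξ C) B β := by
      rw [← Finset.sum_neg_distrib]
      refine Finset.sum_congr rfl fun A _ => ?_
      rw [Finset.sum_comm, ← Finset.sum_neg_distrib]
      refine Finset.sum_congr rfl fun C _ => ?_
      rw [Finset.sum_ite_eq Finset.univ D]
      simp only [Finset.mem_univ, if_true]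
      rw [S.f_swap A D C]
      push_cast
      rw [neg_smul]
    have h5 : ∑ A, ∑ B, ∑ C, (if D = A then (S.f A B C : ℂ) • S.vec (N * XX S ξ C) B β else 0) =
        ∑ B, ∑ C, (S.f D B C : ℂ) • S.vec (N * XX S ξ C) B β := by
      have h6 : ∀ A, ∑ B, ∑ C, (if D = A then (S.f A B C : ℂ) • S.vec (N * XX S ξ C) B β else 0) =
          if D = A then ∑ B, ∑ C, (S.f A B C : ℂ) • S.vec (N * XX S ξ C) B β else 0 := by
        intro A
        split_ifs
        · rfl
        · simp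
      rw [Finset.sum_congr rfl fun A _ => h6 A, Finset.sum_ite_eq Finset.univ D]
      simp
    rw [h4, h5, two_smul]
    abel
  rw [Fx_eq, smul_mul_assoc, mul_smul_comm, ← smul_sub]
  have h7 : (∑ A, ∑ B, ∑ C, (S.f A B C : ℂ) • S.bil (XX S ξ C) A B) * S.vec N D β -
      S.vec N D β * (∑ A, ∑ B, ∑ C, (S.f A B C : ℂ) • S.bil (XX S ξ C) A B) =
      ∑ A, ∑ B, ∑ C, (S.f A B C : ℂ) • (S.bil (XX S ξ C) A B * S.vec N D β -
      S.vec N D β * S.bil (XX S ξ C) A B) := by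
    simp only [Finset.sum_mul, Finset.mul_sum, smul_sub, Finset.sum_sub_distrib,
      smul_mul_assoc, mul_smul_comm]
  rw [h7, h1, smul_neg, smul_smul]
  congr 2
  ring

/-- `[F(ξ), N_β(a)] = i (DW)_β(a)` for `a` orthogonal to the gauge directions -/
lemma Fx_B (ξ a : Cfg d) (ha : S.Perp ξ a) (β : Fin 16) :
    S.Fx ξ * S.B β a - S.B β a * S.Fx ξ = Complex.I • S.DW ξ β a := by
  have h0 : S.Fx ξ * S.B β a - S.B β a * S.Fx ξ =
      -((Complex.I * (S.κ : ℂ)) • ∑ A, ∑ B, ∑ C, (S.f A B C : ℂ) •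
        S.vec (XX S a C * XX S ξ B) A β) := by
    rw [B_eq, Finset.mul_sum, Finset.sum_mul, ← Finset.sum_sub_distrib]
    rw [Finset.sum_congr rfl fun D _ => Fx_vec S ξ (XX S a D) D β, Finset.sum_neg_distrib,
      ← Finset.smul_sum]
    congr 2
    rw [Finset.sum_comm]
    refine Finset.sum_congr rfl fun B _ => ?_
    rw [Finset.sum_comm]
    refine Finset.sum_congr rfl fun C _ => Finset.sum_congr rfl fun D _ => ?_
    rw [S.f_cyc D B C]
  rw [h0, DW_eq, smul_smul, ← smul_neg]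
  congr 1
  rw [← Finset.sum_neg_distrib]
  refine Finset.sum_congr rfl fun A _ => ?_
  -- for each colour `A`
  have h1 : ∀ B C, S.vec (XX S a C * XX S ξ B) A β =
      -S.vec ((1 / 2 : ℂ) • (XX S ξ B * XX S a C - XX S a C * XX S ξ B)) A β +
        (∑ i, (ξ (i, B) : ℂ) * (a (i, C) : ℂ)) • S.vec 1 A β := by
    intro B C
    have h2 := XX_anti S ξ a B C
    have h3 : XX S a C * XX S ξ B =
        -((1 / 2 : ℂ) • (XX S ξ B * XX S a C - XX S a C * XX S ξ B)) +
          (∑ i, (ξ (i, B) : ℂ) * (a (i, C) : ℂ)) • (1 : Matrix (Fin 16) (Fin 16) ℂ) := by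
      have h4 : (∑ i, (ξ (i, B) : ℂ) * (a (i, C) : ℂ)) • (1 : Matrix (Fin 16) (Fin 16) ℂ) =
          (1 / 2 : ℂ) • (XX S ξ B * XX S a C + XX S a C * XX S ξ B) := by
        rw [h2, smul_smul]
        norm_num
      rw [h4, ← smul_neg, ← smul_add]
      have h5 : -(XX S ξ B * XX S a C - XX S a C * XX S ξ B) +
          (XX S ξ B * XX S a C + XX S a C * XX S ξ B) = (2 : ℂ) • (XX S a C * XX S ξ B) := by
        rw [two_smul]; abel
      rw [h5, smul_smul]
      norm_num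
    conv_lhs => rw [h3]
    rw [S.vec_add, S.vec_neg, S.vec_smul (∑ i, (ξ (i, B) : ℂ) * (a (i, C) : ℂ))]
  have h6 : ∑ B, ∑ C, (S.f A B C : ℂ) • ((∑ i, (ξ (i, B) : ℂ) * (a (i, C) : ℂ)) • S.vec 1 A β) =
      0 := by
    simp only [smul_smul, ← Finset.sum_smul]
    have h7 := ha A
    have h8 : ∑ B, ∑ C, (S.f A B C : ℂ) * (∑ i, (ξ (i, B) : ℂ) * (a (i, C) : ℂ)) =
        ((∑ i, ∑ B, ∑ C, S.f A B C * ξ (i, B) * a (i, C) : ℝ) : ℂ) := by
      push_cast
      rw [Finset.sum_comm (s := (Finset.univ : Finset (Fin 9)))]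
      refine Finset.sum_congr rfl fun B _ => ?_
      rw [Finset.sum_comm (s := (Finset.univ : Finset (Fin 9)))]
      refine Finset.sum_congr rfl fun C _ => ?_
      rw [Finset.mul_sum]
      exact Finset.sum_congr rfl fun i _ => by ring
    rw [h8, h7]
    simp
  simp only [h1, smul_add, smul_neg, Finset.sum_add_distrib, Finset.sum_neg_distrib] 
  rw [h6, add_zero, neg_neg]

/-- `[FG, N_β(a)]` -/
lemma FG_B (β : Fin 16) (a : Cfg d) : S.FG * S.B β a - S.B β a * S.FG =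
    -((2 * Complex.I) • ∑ A, S.vec (XX S a A * S.Gam) A β) := by
  have h1 : ∀ A, S.tot S.Gam * S.vec (XX S a A) A β - S.vec (XX S a A) A β * S.tot S.Gam =
      -((2 : ℂ) • S.vec (XX S a A * S.Gam) A β) := by
    intro A
    rw [← S.vec_comm_tot (XX S a A) S.Gam S.Gam_transpose A β]
    abel
  unfold Setup.FG
  rw [smul_mul_assoc, mul_smul_comm, ← smul_sub, B_eq, Finset.mul_sum, Finset.sum_mul,
    ← Finset.sum_sub_distrib, Finset.sum_congr rfl fun A _ => h1 A, Finset.sum_neg_distrib,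
    ← Finset.smul_sum, smul_neg, smul_smul]
  congr 2
  ring

lemma gam_id (i : Fin 9) : (3 / 2 : ℂ) • (S.g i * S.Gam) =
    ((aw i : ℝ) : ℂ) • (S.g i * S.Gam) - (1 / 2 : ℂ) • (S.Gam * S.g i) := by
  by_cases hi : i.val < 3
  · rw [← S.g_Gam_comm hi, ← sub_smul]
    congr 1
    simp only [aw, if_pos hi]
    norm_num
  · have h2 : S.Gam * S.g i = -(S.g i * S.Gam) := by
      rw [S.g_Gam_anti (not_lt.1 hi), neg_neg]
    rw [h2, smul_neg, sub_neg_eq_add, ← add_smul]
    congr 1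
    simp only [aw, if_neg hi]
    norm_num

lemma Gam_B (β : Fin 16) (a : Cfg d) : (3 / 2 : ℂ) • ∑ A, S.vec (XX S a A * S.Gam) A β =
    S.MM β a - (1 / 2 : ℂ) • ∑ γ, S.Gam β γ • S.B γ a := by
  have h1 : ∑ γ, S.Gam β γ • S.B γ a = ∑ A, S.vec (S.Gam * XX S a A) A β := by
    simp only [B_eq, Finset.smul_sum]
    rw [Finset.sum_comm]
    exact Finset.sum_congr rfl fun A _ => (S.vec_mul _ _ _ _).symm
  rw [h1, MM_eq, Finset.smul_sum, Finset.smul_sum, ← Finset.sum_sub_distrib]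
  refine Finset.sum_congr rfl fun A _ => ?_
  rw [← S.vec_smul, ← S.vec_smul, ← S.vec_sub]
  congr 1
  unfold XX
  rw [Finset.sum_mul, Finset.mul_sum, Finset.smul_sum, Finset.smul_sum, ← Finset.sum_sub_distrib]
  refine Finset.sum_congr rfl fun i _ => ?_
  rw [Matrix.smul_mul, Matrix.mul_smul, smul_comm, gam_id, smul_sub, smul_smul]
  congr 1
  · congr 1
    push_cast
    ring
  · rw [smul_comm]

end LinN

open LinN in
/-- **G09** -/
theorem linN {d : ℕ} {F : Type*} [NormedAddCommGroup F] [InnerProductSpace ℂ F] (S : Setup d F) :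
    LinNStmt S := by
  intro ξ _ a ha β v
  have h1 := Fx_B S ξ a ha β
  have h2 := FG_B S β a
  have h3 := Gam_B S β a
  have h4 : Hf S ξ * S.B β a - S.B β a * Hf S ξ =
      Complex.I • Lb S ξ β a - (Complex.I / 2) • ∑ γ, S.Gam β γ • S.B γ a := by
    have e1 : Hf S ξ * S.B β a - S.B β a * Hf S ξ =
        (S.Fx ξ * S.B β a - S.B β a * S.Fx ξ) -
          (3 / 4 : ℂ) • (S.FG * S.B β a - S.B β a * S.FG) := by
      unfold Hf
      rw [sub_mul, mul_sub, smul_mul_assoc, mul_smul_comm, smul_sub]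
      abel
    rw [e1, h1, h2, smul_neg, sub_neg_eq_add, smul_smul]
    have e2 : (3 / 4 * (2 * Complex.I) : ℂ) = Complex.I * (3 / 2) := by ring
    rw [e2, mul_smul, h3]
    unfold Lb
    rw [smul_sub, smul_smul, smul_add]
    have e3 : (Complex.I * (1 / 2) : ℂ) = Complex.I / 2 := by ring
    rw [e3]
    abel
  have h5 := congrArg (fun T : F →L[ℂ] F => T v) h4
  simpa using h5

end Vale.Agent.P353.AN.G
end

section

/-! # P353, all `N`, block G: G10 `[H_f, L_β(a)] = -iN_β(K²a) - (i/2)(ΓL(a))_β` -/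

open MeasureTheory Filter Topology
open scoped ContDiff

namespace Vale.Agent.P353.AN.G

open Vale.Agent.P353.Z Vale.Agent.P353.Z.U

namespace LinLP

variable {d : ℕ} {F : Type*} [NormedAddCommGroup F] [InnerProductSpace ℂ F] (S : Setup d F)

/-- derivative of `V_1` at `x` in direction `e` -/
noncomputable def dV (x e : Cfg d) : ℝ :=
  (∑ k, ∑ A, S.GG 1 k A x * S.LG x k A e) +
    (∑ i : Fin 9, ∑ A, if i.val < 3 then 0 else x (i, A) * e (i, A)) +
    (1 / 2) * (∑ i : Fin 9, ∑ j : Fin 9, ∑ A,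
      if i.val < 3 ∧ j.val < 3 then 0 else S.FF A i j x * S.LF x A i j e)

/-- polarisation of `hq` -/
noncomputable def hb (ξ x e : Cfg d) : ℝ :=
  (∑ k, ∑ A, S.LG ξ k A x * S.LG ξ k A e) +
    (∑ i : Fin 9, ∑ A, if i.val < 3 then 0 else x (i, A) * e (i, A)) +
    (1 / 2) * (∑ i : Fin 9, ∑ j : Fin 9, ∑ A,
      if i.val < 3 ∧ j.val < 3 then 0 else S.LF ξ A i j x * S.LF ξ A i j e)

lemma LF_smul (ξ : Cfg d) (A : Fin d) (i j : Fin 9) (t : ℝ) (e : Cfg d) :
    S.LF ξ A i j (t • e) = t * S.LF ξ A i j e := by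
  simp only [Setup.LF, Finset.mul_sum]
  refine Finset.sum_congr rfl fun B _ => Finset.sum_congr rfl fun C _ => ?_
  simp only [PiLp.smul_apply, smul_eq_mul]
  ring

lemma LF_add (ξ : Cfg d) (A : Fin d) (i j : Fin 9) (x e : Cfg d) :
    S.LF ξ A i j (x + e) = S.LF ξ A i j x + S.LF ξ A i j e := by
  unfold Setup.LF
  rw [← mul_add, ← Finset.sum_add_distrib]
  congr 1
  refine Finset.sum_congr rfl fun B _ => ?_
  rw [← Finset.sum_add_distrib]
  refine Finset.sum_congr rfl fun C _ => ?_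
  simp only [PiLp.add_apply]
  ring

lemma LF_left (ξ a : Cfg d) (A : Fin d) (i j : Fin 9) (t : ℝ) (e : Cfg d) :
    S.LF (ξ + t • a) A i j e = S.LF ξ A i j e + t * S.LF a A i j e := by
  simp only [Setup.LF, Finset.mul_sum, ← Finset.sum_add_distrib]
  refine Finset.sum_congr rfl fun B _ => Finset.sum_congr rfl fun C _ => ?_
  simp only [PiLp.add_apply, PiLp.smul_apply, smul_eq_mul]
  ring

lemma FF_smul (A : Fin d) (i j : Fin 9) (t : ℝ) (e : Cfg d) :
    S.FF A i j (t • e) = t ^ 2 * S.FF A i j e := by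
  simp only [Setup.FF, Finset.mul_sum]
  refine Finset.sum_congr rfl fun B _ => Finset.sum_congr rfl fun C _ => ?_
  simp only [PiLp.smul_apply, smul_eq_mul]
  ring

lemma LG_add (ξ : Cfg d) (k : Fin 3) (A : Fin d) (x e : Cfg d) :
    S.LG ξ k A (x + e) = S.LG ξ k A x + S.LG ξ k A e := by
  unfold Setup.LG
  rw [LF_add, PiLp.add_apply]
  ring

lemma dFF (A : Fin d) (i j : Fin 9) (x e : Cfg d) :
    HasDerivAt (fun s : ℝ => S.FF A i j (x + s • e)) (S.LF x A i j e) 0 := by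
  have h : (fun s : ℝ => S.FF A i j (x + s • e)) =
      fun s => S.FF A i j x + s * S.LF x A i j e + s ^ 2 * S.FF A i j e := by
    funext s
    rw [hes_FF_add, LF_smul, FF_smul]
  rw [h]
  have h2 := (((hasDerivAt_id (0 : ℝ)).mul_const (S.LF x A i j e)).const_add
    (S.FF A i j x)).fun_add ((hasDerivAt_pow 2 (0 : ℝ)).mul_const (S.FF A i j e))
  simpa using h2

lemma dco (i : Fin 9) (A : Fin d) (x e : Cfg d) :
    HasDerivAt (fun s : ℝ => (x + s • e) (i, A)) (e (i, A)) 0 := by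
  have h : (fun s : ℝ => (x + s • e) (i, A)) = fun s => x (i, A) + s * e (i, A) := by
    funext s
    simp
  rw [h]
  simpa using ((hasDerivAt_id (0 : ℝ)).mul_const (e (i, A))).const_add (x (i, A))

lemma dGG (k : Fin 3) (A : Fin d) (x e : Cfg d) :
    HasDerivAt (fun s : ℝ => S.GG 1 k A (x + s • e)) (S.LG x k A e) 0 := by
  unfold Setup.GG Setup.LG
  have h := (dFF S A (Setup.c3 (k + 1)) (Setup.c3 (k + 2)) x e).fun_add
    ((dco (Setup.c3 k) A x e).const_mul (2 * 1))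
  simpa using h

lemma dLF (A : Fin d) (i j : Fin 9) (ξ a e : Cfg d) :
    HasDerivAt (fun t : ℝ => S.LF (ξ + t • a) A i j e) (S.LF a A i j e) 0 := by
  have h : (fun t : ℝ => S.LF (ξ + t • a) A i j e) =
      fun t => S.LF ξ A i j e + t * S.LF a A i j e := by
    funext t
    rw [LF_left]
  rw [h]
  simpa using ((hasDerivAt_id (0 : ℝ)).mul_const (S.LF a A i j e)).const_add (S.LF ξ A i j e)

lemma dLG (k : Fin 3) (A : Fin d) (ξ a e : Cfg d) :
    HasDerivAt (fun t : ℝ => S.LG (ξ + t • a) k A e)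
      (S.LF a A (Setup.c3 (k + 1)) (Setup.c3 (k + 2)) e) 0 := by
  unfold Setup.LG
  exact (dLF S A (Setup.c3 (k + 1)) (Setup.c3 (k + 2)) ξ a e).add_const _

lemma dVm (x e : Cfg d) : HasDerivAt (fun s : ℝ => S.Vm 1 (x + s • e)) (dV S x e) 0 := by
  have h : (fun s : ℝ => S.Vm 1 (x + s • e)) = fun s =>
      (1 / 2) * (∑ k, ∑ A, S.GG 1 k A (x + s • e) ^ 2) +
    (1 / 2) * (∑ i : Fin 9, ∑ A, if i.val < 3 then 0 else (x + s • e) (i, A) ^ 2) +
    (1 / 4) * (∑ i : Fin 9, ∑ j : Fin 9, ∑ A,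
      if i.val < 3 ∧ j.val < 3 then 0 else S.FF A i j (x + s • e) ^ 2) := by
    funext s
    rw [sq_stmt S 1 (x + s • e)]
    norm_num
  rw [h]
  have h1 : HasDerivAt (fun s : ℝ => ∑ k, ∑ A, S.GG 1 k A (x + s • e) ^ 2)
      (∑ k, ∑ A, 2 * (S.GG 1 k A x * S.LG x k A e)) 0 := by
    refine HasDerivAt.fun_sum fun k _ => HasDerivAt.fun_sum fun A _ => ?_
    have h2 := (dGG S k A x e).fun_pow 2
    simpa [mul_assoc] using h2
  have h3 : HasDerivAt (fun s : ℝ => ∑ i : Fin 9, ∑ A, if i.val < 3 then 0 else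
      (x + s • e) (i, A) ^ 2)
      (∑ i : Fin 9, ∑ A, if i.val < 3 then 0 else 2 * (x (i, A) * e (i, A))) 0 := by
    refine HasDerivAt.fun_sum fun i _ => HasDerivAt.fun_sum fun A _ => ?_
    by_cases hi : i.val < 3
    · simp only [if_pos hi]
      exact hasDerivAt_const _ _
    · simp only [if_neg hi]
      have h2 := (dco i A x e).fun_pow 2
      simpa [mul_assoc] using h2
  have h4 : HasDerivAt (fun s : ℝ => ∑ i : Fin 9, ∑ j : Fin 9, ∑ A,
      if i.val < 3 ∧ j.val < 3 then 0 else S.FF A i j (x + s • e) ^ 2)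
      (∑ i : Fin 9, ∑ j : Fin 9, ∑ A, if i.val < 3 ∧ j.val < 3 then 0 else
        2 * (S.FF A i j x * S.LF x A i j e)) 0 := by
    refine HasDerivAt.fun_sum fun i _ => HasDerivAt.fun_sum fun j _ =>
      HasDerivAt.fun_sum fun A _ => ?_
    by_cases hi : i.val < 3 ∧ j.val < 3
    · simp only [if_pos hi]
      exact hasDerivAt_const _ _
    · simp only [if_neg hi]
      have h2 := (dFF S A i j x e).fun_pow 2
      simpa [mul_assoc] using h2
  have h5 := ((h1.const_mul (1 / 2)).fun_add (h3.const_mul (1 / 2))).fun_add (h4.const_mul (1 / 4))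
  refine h5.congr_deriv ?_
  unfold dV
  have e1 : ∑ k, ∑ A, 2 * (S.GG 1 k A x * S.LG x k A e) =
      2 * ∑ k, ∑ A, S.GG 1 k A x * S.LG x k A e := by
    simp only [Finset.mul_sum]
  have e2 : (∑ i : Fin 9, ∑ A, if i.val < 3 then 0 else 2 * (x (i, A) * e (i, A))) =
      2 * ∑ i : Fin 9, ∑ A, if i.val < 3 then 0 else x (i, A) * e (i, A) := by
    simp only [Finset.mul_sum, mul_ite, mul_zero]
  have e3 : (∑ i : Fin 9, ∑ j : Fin 9, ∑ A, if i.val < 3 ∧ j.val < 3 then 0 else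
        2 * (S.FF A i j x * S.LF x A i j e)) =
      2 * ∑ i : Fin 9, ∑ j : Fin 9, ∑ A, if i.val < 3 ∧ j.val < 3 then 0 else
        S.FF A i j x * S.LF x A i j e := by
    simp only [Finset.mul_sum, mul_ite, mul_zero]
  rw [e1, e2, e3]
  ring

lemma line_gen {f : Cfg d → ℝ} {x e : Cfg d} {c : ℝ} (hf : DifferentiableAt ℝ f x)
    (h : HasDerivAt (fun s : ℝ => f (x + s • e)) c 0) : fderiv ℝ f x e = c := by
  have h2 : HasDerivAt (fun t : ℝ => x + t • e) e 0 := by
    simpa using ((hasDerivAt_id (0 : ℝ)).smul_const e).const_add x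
  have h3 : HasFDerivAt f (fderiv ℝ f x) (x + (0 : ℝ) • e) := by simpa using hf.hasFDerivAt
  have h4 : HasDerivAt (fun s : ℝ => f (x + s • e)) (fderiv ℝ f x e) 0 :=
    h3.comp_hasDerivAt (0 : ℝ) h2
  exact h4.unique h

lemma fderiv_Vm (x e : Cfg d) : fderiv ℝ (S.Vm 1) x e = dV S x e :=
  line_gen ((S.esa_contDiff_Vm 1).differentiable (by simp) x) (dVm S x e)

/-- the gradient of `V_1` along a line through a zero -/
lemma ddV {ξ : Cfg d} (h : S.Vm 1 ξ = 0) (a e : Cfg d) :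
    HasDerivAt (fun t : ℝ => dV S (ξ + t • a) e) (hb S ξ a e) 0 := by
  obtain ⟨z1, z2, z3⟩ := hes_zero S h
  unfold dV hb
  refine HasDerivAt.fun_add (HasDerivAt.fun_add ?_ ?_) (HasDerivAt.const_mul _ ?_)
  · refine HasDerivAt.fun_sum fun k _ => HasDerivAt.fun_sum fun A _ => ?_
    have h1 := (dGG S k A ξ a).fun_mul (dLG S k A ξ a e)
    simpa [z1] using h1
  · refine HasDerivAt.fun_sum fun i _ => HasDerivAt.fun_sum fun A _ => ?_
    by_cases hi : i.val < 3
    · simp only [if_pos hi]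
      exact hasDerivAt_const _ _
    · simp only [if_neg hi]
      exact (dco i A ξ a).mul_const _
  · refine HasDerivAt.fun_sum fun i _ => HasDerivAt.fun_sum fun j _ =>
      HasDerivAt.fun_sum fun A _ => ?_
    by_cases hi : i.val < 3 ∧ j.val < 3
    · simp only [if_pos hi]
      exact hasDerivAt_const _ _
    · simp only [if_neg hi]
      have h1 := (dFF S A i j ξ a).fun_mul (dLF S A i j ξ a e)
      simpa [z3 i j A hi] using h1

lemma hq_add (ξ a e : Cfg d) : S.hq ξ (a + e) = S.hq ξ a + S.hq ξ e + hb S ξ a e := by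
  unfold Setup.hq hb
  have e1 : ∑ k, ∑ A, S.LG ξ k A (a + e) ^ 2 = (∑ k, ∑ A, S.LG ξ k A a ^ 2) +
      (∑ k, ∑ A, S.LG ξ k A e ^ 2) + 2 * ∑ k, ∑ A, S.LG ξ k A a * S.LG ξ k A e := by
    simp only [Finset.mul_sum, ← Finset.sum_add_distrib]
    refine Finset.sum_congr rfl fun k _ => Finset.sum_congr rfl fun A _ => ?_
    rw [LG_add]
    ring
  have e2 : (∑ i : Fin 9, ∑ A, if i.val < 3 then 0 else (a + e) (i, A) ^ 2) =
      (∑ i : Fin 9, ∑ A, if i.val < 3 then 0 else a (i, A) ^ 2) +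
      (∑ i : Fin 9, ∑ A, if i.val < 3 then 0 else e (i, A) ^ 2) +
      2 * ∑ i : Fin 9, ∑ A, if i.val < 3 then 0 else a (i, A) * e (i, A) := by
    simp only [Finset.mul_sum, ← Finset.sum_add_distrib]
    refine Finset.sum_congr rfl fun k _ => Finset.sum_congr rfl fun A _ => ?_
    split_ifs
    · ring
    · rw [PiLp.add_apply]
      ring
  have e3 : (∑ i : Fin 9, ∑ j : Fin 9, ∑ A, if i.val < 3 ∧ j.val < 3 then 0 else
        S.LF ξ A i j (a + e) ^ 2) =
      (∑ i : Fin 9, ∑ j : Fin 9, ∑ A, if i.val < 3 ∧ j.val < 3 then 0 else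
        S.LF ξ A i j a ^ 2) +
      (∑ i : Fin 9, ∑ j : Fin 9, ∑ A, if i.val < 3 ∧ j.val < 3 then 0 else
        S.LF ξ A i j e ^ 2) +
      2 * ∑ i : Fin 9, ∑ j : Fin 9, ∑ A, if i.val < 3 ∧ j.val < 3 then 0 else
        S.LF ξ A i j a * S.LF ξ A i j e := by
    simp only [Finset.mul_sum, ← Finset.sum_add_distrib]
    refine Finset.sum_congr rfl fun i _ => Finset.sum_congr rfl fun j _ =>
      Finset.sum_congr rfl fun A _ => ?_
    split_ifs
    · ring
    · rw [LF_add]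
      ring
  rw [e1, e2, e3]
  ring

lemma hb_K {ξ : Cfg d} {K : Cfg d →L[ℝ] Cfg d} (hK : S.IsK ξ K) (a : Cfg d) (i : Fin 9)
    (A : Fin d) : hb S ξ a (EuclideanSpace.single (i, A) 1) = K (K a) (i, A) := by
  set e : Cfg d := EuclideanSpace.single (i, A) 1 with he
  have h1 := hq_add S ξ a e
  have h2 : ‖K (a + e)‖ ^ 2 = ‖K a‖ ^ 2 + 2 * inner ℝ (K a) (K e) + ‖K e‖ ^ 2 := by
    rw [map_add]
    exact norm_add_sq_real _ _
  rw [hK.sq, hK.sq, hK.sq] at h2
  have h3 : inner ℝ (K a) (K e) = inner ℝ (K (K a)) e := (hK.symm (K a) e).symm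
  have h4 : inner ℝ (K (K a)) e = K (K a) (i, A) := by
    rw [he, EuclideanSpace.inner_single_right]
    simp
  rw [h3, h4] at h2
  linarith

/-- `Fx` is linear -/
lemma Fx_line (x a : Cfg d) (t : ℝ) : S.Fx (x + t • a) = S.Fx x + (t : ℂ) • S.Fx a := by
  simp only [Setup.Fx, Finset.smul_sum, ← Finset.sum_add_distrib]
  refine Finset.sum_congr rfl fun q _ => Finset.sum_congr rfl fun A _ =>
    Finset.sum_congr rfl fun B _ => Finset.sum_congr rfl fun C _ => ?_
  simp only [smul_smul, ← add_smul]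
  congr 1
  simp only [PiLp.add_apply, PiLp.smul_apply, smul_eq_mul]
  push_cast
  ring

lemma W_line (β : Fin 16) (x a : Cfg d) (t : ℝ) :
    S.W β (x + t • a) = S.W β x + (t : ℂ) • S.DW x β a + ((t : ℂ) ^ 2) • S.W β a := by
  have h := lm_W_affine S β 1 t x a
  rw [one_smul] at h
  rw [h]
  push_cast
  simp

lemma MM_line (β : Fin 16) (x a : Cfg d) (t : ℝ) :
    S.MM β (x + t • a) = S.MM β x + (t : ℂ) • S.MM β a := by
  have h := lm_MM_affine S β 1 t x a
  rw [one_smul] at h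
  rw [h]
  push_cast
  simp

lemma DW_line (β : Fin 16) (x a e : Cfg d) (t : ℝ) :
    S.DW (x + t • a) β e = S.DW x β e + (t : ℂ) • S.DW a β e := by
  have h := lmT_left S β 1 t x a e
  rw [one_smul] at h
  rw [lm_DW, lm_DW, lm_DW, h]
  push_cast
  module

lemma pd_const (i : Fin 9) (A : Fin d) (φ : F) (x : Cfg d) :
    pd i A (fun _ : Cfg d => φ) x = 0 := by
  unfold pd
  rw [fderiv_fun_const]
  simp

/-- supercharge on constants -/
lemma Qm_const (β : Fin 16) (φ : F) (x : Cfg d) :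
    S.Qm 1 β (fun _ => φ) x = S.W β x φ + S.MM β x φ := by
  simp [Setup.Qm, Setup.Q, pd_const]

lemma G_const (C : Fin d) (φ : F) (x : Cfg d) : S.G C (fun _ => φ) x = S.cS C φ := by
  simp [Setup.G, pd_const]

lemma pd_pd_const (i : Fin 9) (A : Fin d) (φ : F) (x : Cfg d) :
    pd i A (pd i A (fun _ : Cfg d => φ)) x = 0 := by
  have h : pd i A (fun _ : Cfg d => φ) = fun _ => (0 : F) := funext fun y => pd_const i A φ y
  rw [h, pd_const]

lemma Hm_const (φ : F) (x : Cfg d) :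
    S.Hm 1 (fun _ => φ) x = ((S.Vm 1 x : ℝ) : ℂ) • φ + Hf S x φ := by
  simp only [Setup.Hm, pd_pd_const, Hf]
  simp [add_sub_assoc]

lemma Hf_line (x a : Cfg d) (t : ℝ) : Hf S (x + t • a) = Hf S x + (t : ℂ) • S.Fx a := by
  unfold Hf
  rw [Fx_line]
  abel

lemma pd_Qm_const (β : Fin 16) (φ : F) (i : Fin 9) (A : Fin d) (x : Cfg d) :
    pd i A (S.Qm 1 β (fun _ => φ)) x = S.DW x β (EuclideanSpace.single (i, A) 1) φ +
      S.MM β (EuclideanSpace.single (i, A) 1) φ := by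
  unfold pd
  refine line_fderiv (b := S.W β (EuclideanSpace.single (i, A) 1) φ)
    ((HB.contDiff_Qm S 1 β contDiff_const).differentiable (by simp) x) fun t => ?_
  rw [Qm_const, Qm_const, W_line, MM_line]
  simp only [_root_.add_apply, _root_.smul_apply]
  module

lemma pd_pd_Qm_const (β : Fin 16) (φ : F) (i : Fin 9) (A : Fin d) (x : Cfg d) :
    pd i A (pd i A (S.Qm 1 β (fun _ => φ))) x =
      S.DW (EuclideanSpace.single (i, A) 1) β (EuclideanSpace.single (i, A) 1) φ := by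
  have h : ContDiff ℝ ∞ (pd i A (S.Qm 1 β (fun _ => φ))) :=
    contDiff_pd (HB.contDiff_Qm S 1 β contDiff_const)
  rw [pd]
  refine line_fderiv (b := (0 : F)) (h.differentiable (by simp) x) fun t => ?_
  rw [pd_Qm_const, pd_Qm_const, DW_line]
  simp only [_root_.add_apply, _root_.smul_apply]
  module

lemma pd_Hm_const (φ : F) (i : Fin 9) (A : Fin d) (x : Cfg d) :
    pd i A (S.Hm 1 (fun _ => φ)) x =
      ((dV S x (EuclideanSpace.single (i, A) 1) : ℝ) : ℂ) • φ +
        S.Fx (EuclideanSpace.single (i, A) 1) φ := by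
  have h : S.Hm 1 (fun _ => φ) = fun y => ((S.Vm 1 y : ℝ) : ℂ) • φ + Hf S y φ :=
    funext fun y => Hm_const S φ y
  have hF : ContDiff ℝ ∞ (fun y => Hf S y φ) := by
    have h1 : ContDiff ℝ ∞ (fun y => S.Fx y φ) :=
      Setup.contDiff_clm_apply' (contDiff_Fx S) contDiff_const
    have h2 : (fun y => Hf S y φ) = fun y => S.Fx y φ - ((3 / 4 : ℂ) • S.FG) φ := by
      funext y
      simp [Hf]
    rw [h2]
    exact h1.sub contDiff_const
  have hV : ContDiff ℝ ∞ (fun y => ((S.Vm 1 y : ℝ) : ℂ) • φ) :=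
    (Setup.contDiff_ofReal (S.esa_contDiff_Vm 1)).smul contDiff_const
  rw [h, pd_add (hV.differentiable (by simp) x) (hF.differentiable (by simp) x),
    pd_rsmul ((S.esa_contDiff_Vm 1).differentiable (by simp) x) (differentiableAt_const φ),
    pd_const, smul_zero, add_zero, fderiv_Vm]
  congr 1
  unfold pd
  refine line_fderiv (b := (0 : F)) (hF.differentiable (by simp) x) fun t => ?_
  rw [Hf_line]
  simp

/-- constant term -/
noncomputable def c0 (β : Fin 16) (φ : F) : F :=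
  (-(1 / 2) : ℂ) • ∑ i : Fin 9, ∑ A : Fin d,
      S.DW (EuclideanSpace.single (i, A) 1) β (EuclideanSpace.single (i, A) 1) φ +
    Complex.I • ∑ i, ∑ A, S.vec (S.g i) A β (S.Fx (EuclideanSpace.single (i, A) 1) φ) +
    (Complex.I * S.κ) • ∑ C, S.th β C (S.cS C φ)

/-- `A4` on constants -/
lemma a4_const (h4 : A4Stmt S) (β : Fin 16) (φ : F) (x : Cfg d) :
    c0 S β φ + (Hf S x (S.W β x φ + S.MM β x φ) - (S.W β x (Hf S x φ) + S.MM β x (Hf S x φ))) +
      Complex.I • ∑ i, ∑ A, ((dV S x (EuclideanSpace.single (i, A) 1) : ℝ) : ℂ) •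
        S.vec (S.g i) A β φ +
      (Complex.I / 2) • ∑ γ, S.Gam β γ • (S.W γ x φ + S.MM γ x φ) = 0 := by
  have h := h4 1 β (fun _ => φ) contDiff_const x
  have e1 : S.Hm 1 (S.Qm 1 β (fun _ => φ)) x =
      (-(1 / 2) : ℂ) • ∑ i : Fin 9, ∑ A : Fin d,
        S.DW (EuclideanSpace.single (i, A) 1) β (EuclideanSpace.single (i, A) 1) φ +
      ((S.Vm 1 x : ℝ) : ℂ) • (S.W β x φ + S.MM β x φ) +
      Hf S x (S.W β x φ + S.MM β x φ) := by
    simp only [Setup.Hm, pd_pd_Qm_const, Qm_const, Hf]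
    simp [add_sub_assoc]
  have e2 : S.Qm 1 β (S.Hm 1 (fun _ => φ)) x =
      (-Complex.I) • ∑ i, ∑ A, ((dV S x (EuclideanSpace.single (i, A) 1) : ℝ) : ℂ) •
        S.vec (S.g i) A β φ +
      (-Complex.I) • ∑ i, ∑ A, S.vec (S.g i) A β (S.Fx (EuclideanSpace.single (i, A) 1) φ) +
      ((S.Vm 1 x : ℝ) : ℂ) • (S.W β x φ + S.MM β x φ) +
      (S.W β x (Hf S x φ) + S.MM β x (Hf S x φ)) := by
    simp only [Setup.Qm, Setup.Q, pd_Hm_const, Hm_const, map_add, map_smul, smul_add,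
      Finset.sum_add_distrib, Complex.ofReal_one, one_smul]
    abel
  rw [e1, e2] at h
  simp only [Qm_const, G_const] at h
  unfold c0
  have h' := sub_eq_zero.2 h
  rw [← h']
  simp only [Complex.ofReal_one, mul_one]
  module

end LinLP

open LinLP in
/-- **G10 LinL** -/
theorem linL {d : ℕ} {F : Type*} [NormedAddCommGroup F] [InnerProductSpace ℂ F] (S : Setup d F)
    (h4 : A4Stmt S) (hcr : CritStmt S) : LinLStmt S := by
  intro ξ hξ K hK a β v
  obtain ⟨P, hP⟩ : ∃ P, P = Hf S ξ (Lb S ξ β a v) - Lb S ξ β a (Hf S ξ v) +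
    (Complex.I / 2) • ∑ γ, S.Gam β γ • Lb S ξ γ a v := ⟨_, rfl⟩
  obtain ⟨Q, hQ⟩ : ∃ Q, Q = Hf S ξ (S.W β a v) + S.Fx a (Lb S ξ β a v) -
    S.W β a (Hf S ξ v) - Lb S ξ β a (S.Fx a v) +
    (Complex.I / 2) • ∑ γ, S.Gam β γ • S.W γ a v := ⟨_, rfl⟩
  obtain ⟨R, hR⟩ : ∃ R, R = S.Fx a (S.W β a v) - S.W β a (S.Fx a v) := ⟨_, rfl⟩
  have hT : ∀ (γ : Fin 16) (t : ℝ) (w : F), S.W γ (ξ + t • a) w + S.MM γ (ξ + t • a) w =
      (t : ℂ) • Lb S ξ γ a w + ((t : ℂ) ^ 2) • S.W γ a w := by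
    intro γ t w
    have h1 : S.W γ ξ w + S.MM γ ξ w = 0 := by
      rw [← _root_.add_apply, hcr ξ hξ γ]
      rfl
    rw [W_line, MM_line]
    simp only [_root_.add_apply, _root_.smul_apply, Lb, smul_add]
    rw [show S.W γ ξ w + (t : ℂ) • S.DW ξ γ a w + (t : ℂ) ^ 2 • S.W γ a w +
      (S.MM γ ξ w + (t : ℂ) • S.MM γ a w) = (S.W γ ξ w + S.MM γ ξ w) +
      ((t : ℂ) • S.MM γ a w + (t : ℂ) • S.DW ξ γ a w + (t : ℂ) ^ 2 • S.W γ a w) by abel, h1,
      zero_add]
  have hI : ∀ t : ℝ, c0 S β v + (t : ℂ) • P + ((t : ℂ) ^ 2) • Q + ((t : ℂ) ^ 3) • R +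
      Complex.I • ∑ i, ∑ A, ((dV S (ξ + t • a) (EuclideanSpace.single (i, A) 1) : ℝ) : ℂ) •
        S.vec (S.g i) A β v = 0 := by
    intro t
    have h := a4_const S h4 β v (ξ + t • a)
    have hG : ∑ γ, S.Gam β γ • ((t : ℂ) • Lb S ξ γ a v + ((t : ℂ) ^ 2) • S.W γ a v) =
        (t : ℂ) • (∑ γ, S.Gam β γ • Lb S ξ γ a v) +
          ((t : ℂ) ^ 2) • ∑ γ, S.Gam β γ • S.W γ a v := by
      rw [Finset.smul_sum, Finset.smul_sum, ← Finset.sum_add_distrib]
      refine Finset.sum_congr rfl fun γ _ => ?_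
      module
    simp only [hT, Hf_line] at h
    rw [hG] at h
    rw [← h, hP, hQ, hR]
    simp only [_root_.add_apply, _root_.smul_apply, map_add, map_smul]
    module
  have hd : HasDerivAt (fun t : ℝ => c0 S β v + (t : ℂ) • P + ((t : ℂ) ^ 2) • Q +
      ((t : ℂ) ^ 3) • R +
      Complex.I • ∑ i, ∑ A, ((dV S (ξ + t • a) (EuclideanSpace.single (i, A) 1) : ℝ) : ℂ) •
        S.vec (S.g i) A β v)
      (P + Complex.I • ∑ i, ∑ A, ((K (K a) (i, A) : ℝ) : ℂ) • S.vec (S.g i) A β v) 0 := by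
    have h5 : HasDerivAt (fun t : ℝ => (t : ℂ)) 1 (0 : ℝ) := by
      simpa using (hasDerivAt_id (0 : ℝ)).ofReal_comp
    have h6 : HasDerivAt (fun t : ℝ => (t : ℂ) ^ 2) 0 (0 : ℝ) := by
      simpa using h5.fun_pow 2
    have h7 : HasDerivAt (fun t : ℝ => (t : ℂ) ^ 3) 0 (0 : ℝ) := by
      simpa using h5.fun_pow 3
    have h8 : HasDerivAt (fun t : ℝ => ∑ i, ∑ A,
        ((dV S (ξ + t • a) (EuclideanSpace.single (i, A) 1) : ℝ) : ℂ) • S.vec (S.g i) A β v)
        (∑ i, ∑ A, ((K (K a) (i, A) : ℝ) : ℂ) • S.vec (S.g i) A β v) 0 := by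
      refine HasDerivAt.fun_sum fun i _ => HasDerivAt.fun_sum fun A _ => ?_
      have h9 := ddV S hξ a (EuclideanSpace.single (i, A) 1)
      rw [hb_K S hK] at h9
      exact h9.ofReal_comp.smul_const _
    have h10 := ((((h5.smul_const P).const_add (c0 S β v)).fun_add (h6.smul_const Q)).fun_add
      (h7.smul_const R)).fun_add (h8.const_smul Complex.I)
    simpa using h10
  have h0 : HasDerivAt (fun t : ℝ => c0 S β v + (t : ℂ) • P + ((t : ℂ) ^ 2) • Q +
      ((t : ℂ) ^ 3) • R +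
      Complex.I • ∑ i, ∑ A, ((dV S (ξ + t • a) (EuclideanSpace.single (i, A) 1) : ℝ) : ℂ) •
        S.vec (S.g i) A β v) 0 0 := by
    rw [funext hI]
    exact hasDerivAt_const _ _
  have h1 := hd.unique h0
  have h2 : S.B β (K (K a)) v = ∑ i, ∑ A, ((K (K a) (i, A) : ℝ) : ℂ) • S.vec (S.g i) A β v := by
    simp only [Setup.B, _root_.sum_apply, _root_.smul_apply]
  rw [← h2, hP] at h1
  rw [← sub_eq_zero, ← h1]
  module

end Vale.Agent.P353.AN.G
end

section

/-! # P353, all `N`, block G: G13 `VacD`: symmetry bilinears kill the vacuum -/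

open MeasureTheory Filter Topology
open scoped ContDiff Matrix Kronecker

namespace Vale.Agent.P353.AN.G

open Vale.Agent.P353.Z Vale.Agent.P353.Z.U

namespace VacDPf

section Spec

variable {P : Type*} [Fintype P] [DecidableEq P]

/-- eigenbasis of `iR` for a real antisymmetric invertible matrix `R` -/
theorem spec (R : Matrix P P ℝ) (hR : R.transpose = -R)
    (hinv : ∀ z : P → ℝ, R.mulVec z = 0 → z = 0) : ∃ (e : P → P → ℂ) (lam : P → ℝ),
    (∀ j p, Complex.I * ∑ q, (R p q : ℂ) * e j q = (lam j : ℂ) * e j p) ∧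
    (∀ j, lam j ≠ 0) ∧ (∀ z : P → ℂ, ∃ c : P → ℂ, z = ∑ j, c j • e j) := by
  obtain ⟨A, hAd⟩ : ∃ A : Matrix P P ℂ, A = Matrix.of fun p q => Complex.I * (R p q : ℂ) :=
    ⟨_, rfl⟩
  have hAe : ∀ p q, A p q = Complex.I * (R p q : ℂ) := fun p q => by rw [hAd]; rfl
  have hRs : ∀ p q, R q p = -R p q := fun p q => by
    have := congrFun (congrFun hR p) q
    simpa using this
  have hA : A.IsHermitian := by
    ext p q
    rw [Matrix.conjTranspose_apply, hAe, hAe, hRs p q]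
    simp
  let E := hA.eigenvectorBasis
  let e : P → P → ℂ := fun j p => E j p
  let lam : P → ℝ := hA.eigenvalues
  have hE : ∀ j p, ∑ q, A p q * e j q = (lam j : ℂ) * e j p := by
    intro j p
    have h := congrFun (hA.mulVec_eigenvectorBasis j) p
    simpa [Matrix.mulVec, dotProduct] using h
  have hexp : ∀ z : P → ℂ, z = ∑ j, (∑ p, z p * (starRingEnd ℂ) (e j p)) • e j := by
    intro z
    have h := E.sum_repr' (WithLp.toLp 2 z)
    have h1 := congrArg (fun w : EuclideanSpace ℂ P => (WithLp.ofLp w : P → ℂ)) h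
    simp only [WithLp.ofLp_sum, WithLp.ofLp_smul] at h1
    refine h1.symm.trans (Finset.sum_congr rfl fun j _ => ?_)
    rw [PiLp.inner_apply]
    rfl
  have hn : ∀ j, ∑ p, e j p * (starRingEnd ℂ) (e j p) = 1 := by
    intro j
    have h := E.orthonormal.1 j
    have h1 : inner ℂ (E j) (E j) = (1 : ℂ) := by
      rw [inner_self_eq_norm_sq_to_K, h]; simp
    rw [PiLp.inner_apply] at h1
    exact h1
  have hIR : ∀ j p, Complex.I * ∑ q, (R p q : ℂ) * e j q = (lam j : ℂ) * e j p := by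
    intro j p
    rw [← hE j p, Finset.mul_sum]
    refine Finset.sum_congr rfl fun q _ => ?_
    rw [hAe]
    ring
  refine ⟨e, lam, hIR, ?_, fun z => ⟨_, hexp z⟩⟩
  intro j hj
  have h1 : ∀ p, ∑ q, (R p q : ℂ) * e j q = 0 := fun p => by
    have h := hIR j p
    rw [hj, Complex.ofReal_zero, zero_mul] at h
    rcases mul_eq_zero.1 h with h | h
    · exact absurd h Complex.I_ne_zero
    · exact h
  have hre : (fun q => (e j q).re) = 0 := by
    apply hinv
    funext p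
    have := congrArg Complex.re (h1 p)
    simpa [Matrix.mulVec, dotProduct] using this
  have him : (fun q => (e j q).im) = 0 := by
    apply hinv
    funext p
    have := congrArg Complex.im (h1 p)
    simpa [Matrix.mulVec, dotProduct] using this
  have h0 : ∀ p, e j p = 0 := fun p => Complex.ext (congrFun hre p) (congrFun him p)
  have h2 := hn j
  simp [h0] at h2

end Spec

variable {d : ℕ} {F : Type*} [NormedAddCommGroup F] [InnerProductSpace ℂ F]

lemma QuaT_single (S : Setup d F) (q : Fin 16 × Fin d) (v : F) :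
    QuaT S (Pi.single q 1) v = S.th q.1 q.2 v := by
  unfold QuaT
  rw [Finset.sum_eq_single q]
  · rw [Pi.single_eq_same, one_smul]
  · intro p _ hp
    rw [Pi.single_eq_of_ne hp, zero_smul]
  · intro h
    exact absurd (Finset.mem_univ q) h

lemma th_QuaT (S : Setup d F) (q : Fin 16 × Fin d) (z : Fin 16 × Fin d → ℂ) (v : F) :
    S.th q.1 q.2 (QuaT S z v) = z q • v - QuaT S z (S.th q.1 q.2 v) := by
  have h := QuaT_anti S (Pi.single q 1) z v
  rw [QuaT_single, QuaT_single] at h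
  have h1 : ∑ p, (Pi.single q 1 : Fin 16 × Fin d → ℂ) p * z p = z q := by
    rw [Finset.sum_eq_single q]
    · rw [Pi.single_eq_same, one_mul]
    · intro p _ hp
      rw [Pi.single_eq_of_ne hp, zero_mul]
    · intro h
      exact absurd (Finset.mem_univ q) h
  rw [h1] at h
  rw [← h]
  abel

lemma QuaT_add (S : Setup d F) (a b : Fin 16 × Fin d → ℂ) (v : F) :
    QuaT S (a + b) v = QuaT S a v + QuaT S b v := by
  unfold QuaT
  rw [← Finset.sum_add_distrib]
  exact Finset.sum_congr rfl fun p _ => by rw [Pi.add_apply, add_smul]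

lemma QuaT_smul (S : Setup d F) (c : ℂ) (a : Fin 16 × Fin d → ℂ) (v : F) :
    QuaT S (c • a) v = c • QuaT S a v := by
  unfold QuaT
  rw [Finset.smul_sum]
  exact Finset.sum_congr rfl fun p _ => by rw [Pi.smul_apply, smul_eq_mul, mul_smul]

lemma QuaT_sum (S : Setup d F) {ι : Type*} (s : Finset ι) (a : ι → Fin 16 × Fin d → ℂ) (v : F) :
    QuaT S (∑ i ∈ s, a i) v = ∑ i ∈ s, QuaT S (a i) v := by
  unfold QuaT
  rw [Finset.sum_comm]
  refine Finset.sum_congr rfl fun p _ => ?_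
  rw [Finset.sum_apply, Finset.sum_smul]

lemma QuaT_vadd (S : Setup d F) (a : Fin 16 × Fin d → ℂ) (v w : F) :
    QuaT S a (v + w) = QuaT S a v + QuaT S a w := by
  unfold QuaT
  rw [← Finset.sum_add_distrib]
  exact Finset.sum_congr rfl fun p _ => by rw [map_add, smul_add]

lemma QuaT_vsmul (S : Setup d F) (a : Fin 16 × Fin d → ℂ) (c : ℂ) (v : F) :
    QuaT S a (c • v) = c • QuaT S a v := by
  unfold QuaT
  rw [Finset.smul_sum]
  exact Finset.sum_congr rfl fun p _ => by rw [map_smul, smul_comm]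

lemma QuaT_vsum (S : Setup d F) {ι : Type*} (s : Finset ι) (a : Fin 16 × Fin d → ℂ)
    (v : ι → F) : QuaT S a (∑ i ∈ s, v i) = ∑ i ∈ s, QuaT S a (v i) := by
  unfold QuaT
  rw [Finset.sum_comm]
  refine Finset.sum_congr rfl fun p _ => ?_
  rw [map_sum, Finset.smul_sum]

/-- the quadratic fermionic operator `i∑R_{pq}θ_pθ_q` -/
noncomputable def HR (S : Setup d F) (R : Matrix (Fin 16 × Fin d) (Fin 16 × Fin d) ℝ) (v : F) : F :=
  Complex.I • ∑ p : Fin 16 × Fin d, ∑ q : Fin 16 × Fin d,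
    (R p q : ℂ) • S.th p.1 p.2 (S.th q.1 q.2 v)

/-- `[i∑R_{pq}θ_pθ_q, θ(z)] = θ(2iRz)` -/
lemma comm (S : Setup d F) (R : Matrix (Fin 16 × Fin d) (Fin 16 × Fin d) ℝ) (hR : Rᵀ = -R)
    (z : Fin 16 × Fin d → ℂ) (v : F) :
    HR S R (QuaT S z v) = QuaT S z (HR S R v) +
      (2 : ℂ) • QuaT S (fun p => Complex.I * ∑ q, (R p q : ℂ) * z q) v := by
  have hRs : ∀ p q, R q p = -R p q := fun p q => by
    have := congrFun (congrFun hR p) q
    simpa using this
  have h1 : ∀ p q : Fin 16 × Fin d, S.th p.1 p.2 (S.th q.1 q.2 (QuaT S z v)) =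
      z q • S.th p.1 p.2 v - z p • S.th q.1 q.2 v + QuaT S z (S.th p.1 p.2 (S.th q.1 q.2 v)) := by
    intro p q
    rw [th_QuaT, map_sub, map_smul, th_QuaT]
    abel
  have h2 : ∑ p : Fin 16 × Fin d, ∑ q : Fin 16 × Fin d,
      (R p q : ℂ) • S.th p.1 p.2 (S.th q.1 q.2 (QuaT S z v)) =
      (∑ p : Fin 16 × Fin d, ∑ q : Fin 16 × Fin d, ((R p q : ℂ) * z q) • S.th p.1 p.2 v) -
      (∑ p : Fin 16 × Fin d, ∑ q : Fin 16 × Fin d, ((R p q : ℂ) * z p) • S.th q.1 q.2 v) +
      ∑ p : Fin 16 × Fin d, ∑ q : Fin 16 × Fin d,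
        (R p q : ℂ) • QuaT S z (S.th p.1 p.2 (S.th q.1 q.2 v)) := by
    simp only [h1, smul_add, smul_sub, smul_smul, Finset.sum_add_distrib, Finset.sum_sub_distrib]
  have h3 : (∑ p : Fin 16 × Fin d, ∑ q : Fin 16 × Fin d, ((R p q : ℂ) * z p) • S.th q.1 q.2 v) =
      -∑ p : Fin 16 × Fin d, ∑ q : Fin 16 × Fin d, ((R p q : ℂ) * z q) • S.th p.1 p.2 v := by
    rw [Finset.sum_comm, ← Finset.sum_neg_distrib]
    refine Finset.sum_congr rfl fun q _ => ?_
    rw [← Finset.sum_neg_distrib]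
    refine Finset.sum_congr rfl fun p _ => ?_
    rw [hRs q p, Complex.ofReal_neg, neg_mul, neg_smul]
  have h4 : ∑ p : Fin 16 × Fin d, ∑ q : Fin 16 × Fin d, ((R p q : ℂ) * z q) • S.th p.1 p.2 v =
      QuaT S (fun p => ∑ q, (R p q : ℂ) * z q) v := by
    unfold QuaT
    refine Finset.sum_congr rfl fun p _ => ?_
    rw [Finset.sum_smul]
  have h5 : QuaT S (fun p => Complex.I * ∑ q, (R p q : ℂ) * z q) v =
      Complex.I • QuaT S (fun p => ∑ q, (R p q : ℂ) * z q) v := by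
    rw [← QuaT_smul]
    rfl
  unfold HR
  rw [h2, h3, h4, h5, QuaT_vsmul, QuaT_vsum]
  simp only [QuaT_vsum, QuaT_vsmul]
  rw [sub_neg_eq_add, smul_add, smul_add]
  module

/-- the bilinear form `⟨Ω, θ(a)θ(b)Ω⟩` -/
noncomputable def BB (S : Setup d F) (Ω : F) (a b : Fin 16 × Fin d → ℂ) : ℂ :=
  inner ℂ Ω (QuaT S a (QuaT S b Ω))

lemma BB_anti (S : Setup d F) {Ω : F} (hΩ : ‖Ω‖ = 1) (a b : Fin 16 × Fin d → ℂ) :
    BB S Ω a b + BB S Ω b a = ∑ p, a p * b p := by
  unfold BB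
  rw [← inner_add_right, QuaT_anti, inner_smul_right, inner_self_eq_norm_sq_to_K, hΩ]
  simp

lemma BB_adj (S : Setup d F) (Ω : F) (a b : Fin 16 × Fin d → ℂ) :
    BB S Ω a b = inner ℂ (QuaT S (fun p => (starRingEnd ℂ) (a p)) Ω) (QuaT S b Ω) := by
  unfold BB
  rw [QuaT_adj]
  simp only [Complex.conj_conj]

section Main

variable (S : Setup d F) {ξ : Cfg d} {E : ℝ} {Ω : F}
  {R : Matrix (Fin 16 × Fin d) (Fin 16 × Fin d) ℝ}

/-- eigenvectors of `iR` with negative eigenvalue annihilate the vacuum -/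
lemma kill (hΩ : IsLow S ξ E Ω) (hR : Rᵀ = -R) (hH : ∀ v, Hf S ξ v = HR S R v)
    {z : Fin 16 × Fin d → ℂ} {μ : ℝ}
    (hz : ∀ p, Complex.I * ∑ q, (R p q : ℂ) * z q = (μ : ℂ) * z p) (hμ : μ < 0) :
    QuaT S z Ω = 0 := by
  have h1 : Hf S ξ (QuaT S z Ω) = ((E + 2 * μ : ℝ) : ℂ) • QuaT S z Ω := by
    rw [hH, comm S R hR, ← hH, hΩ.eig, QuaT_vsmul]
    have h2 : (fun p => Complex.I * ∑ q, (R p q : ℂ) * z q) = (μ : ℂ) • z := by
      funext p
      rw [hz p]
      rfl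
    rw [h2, QuaT_smul, smul_smul, ← add_smul]
    push_cast
    rfl
  have h2 := hΩ.low (QuaT S z Ω)
  rw [h1, inner_smul_right, inner_self_eq_norm_sq_to_K] at h2
  have h3 : (((E + 2 * μ : ℝ) : ℂ) * ((‖QuaT S z Ω‖ : ℂ)) ^ 2).re =
      (E + 2 * μ) * ‖QuaT S z Ω‖ ^ 2 := by
    rw [← Complex.ofReal_pow, ← Complex.ofReal_mul, Complex.ofReal_re]
  have h4 : E * ‖QuaT S z Ω‖ ^ 2 ≤ (E + 2 * μ) * ‖QuaT S z Ω‖ ^ 2 := by
    rw [← h3]
    exact h2
  have h5 : ‖QuaT S z Ω‖ ^ 2 ≤ 0 := by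
    nlinarith [sq_nonneg ‖QuaT S z Ω‖]
  have h6 : ‖QuaT S z Ω‖ = 0 := by
    nlinarith [norm_nonneg (QuaT S z Ω)]
  exact norm_eq_zero.1 h6

/-- conjugates of eigenvectors with positive eigenvalue annihilate the vacuum -/
lemma kill' (hΩ : IsLow S ξ E Ω) (hR : Rᵀ = -R) (hH : ∀ v, Hf S ξ v = HR S R v)
    {z : Fin 16 × Fin d → ℂ} {μ : ℝ}
    (hz : ∀ p, Complex.I * ∑ q, (R p q : ℂ) * z q = (μ : ℂ) * z p) (hμ : 0 < μ) :
    QuaT S (fun p => (starRingEnd ℂ) (z p)) Ω = 0 := by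
  refine kill S hΩ hR hH (μ := -μ) (fun p => ?_) (by linarith)
  have h := congrArg (starRingEnd ℂ) (hz p)
  rw [map_mul, map_mul, map_sum, Complex.conj_I, Complex.conj_ofReal] at h
  simp only [map_mul, Complex.conj_ofReal] at h
  push_cast
  linear_combination -h

/-- `B(Ka,Kb) = B(b,a)` for a real orthogonal involution `K` anticommuting with `R` -/
lemma flip (hΩ : IsLow S ξ E Ω) (hR : Rᵀ = -R)
    (hinv : ∀ z : Fin 16 × Fin d → ℝ, R.mulVec z = 0 → z = 0)
    (hH : ∀ v, Hf S ξ v = HR S R v)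
    (K : (Fin 16 × Fin d → ℂ) →ₗ[ℂ] (Fin 16 × Fin d → ℂ))
    (hK : ∀ z p, ∑ q, (R p q : ℂ) * K z q = -K (fun p => ∑ q, (R p q : ℂ) * z q) p)
    (hK2 : ∀ a b, ∑ p, K a p * K b p = ∑ p, a p * b p)
    (a b : Fin 16 × Fin d → ℂ) : BB S Ω (K a) (K b) = BB S Ω b a := by
  obtain ⟨e, lam, he, hlam, hexp⟩ := spec R hR hinv
  have hKe : ∀ j p, Complex.I * ∑ q, (R p q : ℂ) * K (e j) q = ((-lam j : ℝ) : ℂ) * K (e j) p := by
    intro j p
    have h2 : (fun p => ∑ q, (R p q : ℂ) * e j q) = (-Complex.I * lam j) • e j := by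
      funext r
      have h := he j r
      rw [Pi.smul_apply, smul_eq_mul]
      linear_combination (-Complex.I) * h + (∑ q, (R r q : ℂ) * e j q) * Complex.I_mul_I
    rw [hK, h2, map_smul, Pi.smul_apply, smul_eq_mul]
    push_cast
    linear_combination ((lam j : ℂ) * K (e j) p) * Complex.I_mul_I
  have key : ∀ (j) (a : Fin 16 × Fin d → ℂ), BB S Ω (K a) (K (e j)) = BB S Ω (e j) a := by
    intro j a
    rcases lt_or_gt_of_ne (hlam j) with hj | hj
    · have h1 : QuaT S (e j) Ω = 0 := kill S hΩ hR hH (he j) hj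
      have h2 : QuaT S (fun p => (starRingEnd ℂ) (K (e j) p)) Ω = 0 :=
        kill' S hΩ hR hH (hKe j) (by linarith)
      have h3 : BB S Ω (K (e j)) (K a) = 0 := by
        rw [BB_adj, h2, inner_zero_left]
      have h4 : BB S Ω a (e j) = 0 := by
        unfold BB
        rw [h1]
        unfold QuaT
        simp
      have h5 := BB_anti S hΩ.norm (K (e j)) (K a)
      have h6 := BB_anti S hΩ.norm (e j) a
      rw [hK2, ← h6, h3, h4, zero_add, add_zero] at h5
      exact h5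
    · have h1 : QuaT S (K (e j)) Ω = 0 := kill S hΩ hR hH (hKe j) (by linarith)
      have h2 : QuaT S (fun p => (starRingEnd ℂ) (e j p)) Ω = 0 :=
        kill' S hΩ hR hH (he j) hj
      have h3 : BB S Ω (e j) a = 0 := by
        rw [BB_adj, h2, inner_zero_left]
      have h4 : BB S Ω (K a) (K (e j)) = 0 := by
        unfold BB
        rw [h1]
        unfold QuaT
        simp
      rw [h3, h4]
  obtain ⟨c, hc⟩ := hexp b
  have h1 : BB S Ω (K a) (K b) = ∑ j, c j * BB S Ω (K a) (K (e j)) := by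
    unfold BB
    rw [hc, map_sum, QuaT_sum, QuaT_vsum, inner_sum]
    refine Finset.sum_congr rfl fun j _ => ?_
    rw [map_smul, QuaT_smul, QuaT_vsmul, inner_smul_right]
  have h2 : BB S Ω b a = ∑ j, c j * BB S Ω (e j) a := by
    unfold BB
    rw [hc, QuaT_sum, inner_sum]
    refine Finset.sum_congr rfl fun j _ => ?_
    rw [QuaT_smul, inner_smul_right]
  rw [h1, h2]
  exact Finset.sum_congr rfl fun j _ => by rw [key]

end Main

/-- `Dq ξ q = 0` off `I3` -/
lemma Dq_zero (S : Setup d F) {ξ : Cfg d} (h3 : ∀ i : Fin 9, ∀ A, ¬ i.val < 3 → ξ (i, A) = 0)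
    (q : Fin 9) (hq : ¬ q.val < 3) : InvPf.Dq S ξ q = 0 := by
  ext A B
  simp only [InvPf.Dq, Matrix.of_apply, h3 q _ hq, mul_zero, Finset.sum_const_zero,
    Matrix.zero_apply]

lemma gr_Gr (S : Setup d F) {j : Fin 9} (hj : 3 ≤ j.val) :
    InvPf.gr S j * InvPf.Gr S = -(InvPf.Gr S * InvPf.gr S j) := by
  have n0 : j ≠ 0 := by rintro rfl; simp at hj
  have n1 : j ≠ 1 := by rintro rfl; simp at hj
  have n2 : j ≠ 2 := by
    rintro rfl
    have : ((2 : Fin 9) : ℕ) = 2 := rfl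
    omega
  have a0 := InvPf.gr_ac S n0
  have a1 := InvPf.gr_ac S n1
  have a2 := InvPf.gr_ac S n2
  unfold InvPf.Gr
  calc InvPf.gr S j * (InvPf.gr S 0 * InvPf.gr S 1 * InvPf.gr S 2) =
      (InvPf.gr S j * InvPf.gr S 0) * InvPf.gr S 1 * InvPf.gr S 2 := by noncomm_ring
    _ = -(InvPf.gr S 0 * (InvPf.gr S j * InvPf.gr S 1) * InvPf.gr S 2) := by
      rw [a0]; noncomm_ring
    _ = InvPf.gr S 0 * InvPf.gr S 1 * (InvPf.gr S j * InvPf.gr S 2) := by
      rw [a1]; noncomm_ring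
    _ = -(InvPf.gr S 0 * InvPf.gr S 1 * InvPf.gr S 2 * InvPf.gr S j) := by
      rw [a2]; noncomm_ring

lemma neg_kron (A : Matrix (Fin 16) (Fin 16) ℝ) (B : Matrix (Fin d) (Fin d) ℝ) :
    (-A) ⊗ₖ B = -(A ⊗ₖ B) := by
  ext ⟨α, a⟩ ⟨β, b⟩
  simp only [Matrix.kroneckerMap_apply, Matrix.neg_apply, neg_mul]

/-- `γ^j ⊗ 1` anticommutes with `R` for `j ∈ I6` -/
lemma KR (S : Setup d F) {ξ : Cfg d} (h3 : ∀ i : Fin 9, ∀ A, ¬ i.val < 3 → ξ (i, A) = 0)
    {j : Fin 9} (hj : 3 ≤ j.val) :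
    InvPf.RR S ξ * (InvPf.gr S j ⊗ₖ (1 : Matrix (Fin d) (Fin d) ℝ)) =
      -((InvPf.gr S j ⊗ₖ (1 : Matrix (Fin d) (Fin d) ℝ)) * InvPf.RR S ξ) := by
  have h1 : ∀ q, (InvPf.gr S q ⊗ₖ InvPf.Dq S ξ q) *
      (InvPf.gr S j ⊗ₖ (1 : Matrix (Fin d) (Fin d) ℝ)) =
      -((InvPf.gr S j ⊗ₖ (1 : Matrix (Fin d) (Fin d) ℝ)) *
        (InvPf.gr S q ⊗ₖ InvPf.Dq S ξ q)) := by
    intro q
    by_cases hq : q.val < 3
    · have hne : q ≠ j := by
        intro h
        rw [h] at hq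
        omega
      rw [← Matrix.mul_kronecker_mul, ← Matrix.mul_kronecker_mul, mul_one, one_mul,
        InvPf.gr_ac S hne, neg_kron]
    · rw [Dq_zero S h3 q hq]
      simp
  have h2 : (InvPf.Gr S ⊗ₖ (1 : Matrix (Fin d) (Fin d) ℝ)) *
      (InvPf.gr S j ⊗ₖ (1 : Matrix (Fin d) (Fin d) ℝ)) =
      -((InvPf.gr S j ⊗ₖ (1 : Matrix (Fin d) (Fin d) ℝ)) *
        (InvPf.Gr S ⊗ₖ (1 : Matrix (Fin d) (Fin d) ℝ))) := by
    rw [← Matrix.mul_kronecker_mul, ← Matrix.mul_kronecker_mul, gr_Gr S hj,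
      neg_kron, neg_neg]
  unfold InvPf.RR
  rw [sub_mul, mul_sub, Finset.sum_mul, Finset.mul_sum, Matrix.smul_mul, Matrix.mul_smul, h2,
    Finset.sum_congr rfl fun q _ => h1 q, Finset.sum_neg_distrib, smul_neg]
  abel

/-- the real matrix `γ^j ⊗ 1` -/
noncomputable def GJ (S : Setup d F) (j : Fin 9) :
    Matrix (Fin 16 × Fin d) (Fin 16 × Fin d) ℝ :=
  InvPf.gr S j ⊗ₖ (1 : Matrix (Fin d) (Fin d) ℝ)

lemma GJ_symm (S : Setup d F) (j : Fin 9) (p q : Fin 16 × Fin d) : GJ S j p q = GJ S j q p := by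
  have h2 : InvPf.gr S j p.1 q.1 = InvPf.gr S j q.1 p.1 := by
    have := congrFun (congrFun (InvPf.gr_symm S j) q.1) p.1
    simpa only [Matrix.transpose_apply] using this
  have h4 : (1 : Matrix (Fin d) (Fin d) ℝ) p.2 q.2 = (1 : Matrix (Fin d) (Fin d) ℝ) q.2 p.2 := by
    by_cases h : p.2 = q.2
    · rw [h]
    · rw [Matrix.one_apply_ne h, Matrix.one_apply_ne (Ne.symm h)]
  unfold GJ
  rw [Matrix.kroneckerMap_apply, Matrix.kroneckerMap_apply, h2, h4]

lemma GJ_sq (S : Setup d F) (j : Fin 9) : GJ S j * GJ S j = 1 := by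
  unfold GJ
  rw [← Matrix.mul_kronecker_mul, InvPf.gr_sq, one_mul, Matrix.one_kronecker_one]

lemma sum4 {P : Type*} [Fintype P] (f : P → P → P → P → ℂ) :
    ∑ p, ∑ q, ∑ p', ∑ q', f p q p' q' = ∑ p', ∑ q', ∑ p, ∑ q, f p q p' q' := by
  have h : ∀ p, ∑ q, ∑ p', ∑ q', f p q p' q' = ∑ p', ∑ q', ∑ q, f p q p' q' := fun p => by
    rw [Finset.sum_comm]
    exact Finset.sum_congr rfl fun p' _ => Finset.sum_comm
  rw [Finset.sum_congr rfl fun p _ => h p, Finset.sum_comm]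
  exact Finset.sum_congr rfl fun p' _ => Finset.sum_comm

lemma BB_exp (S : Setup d F) (Ω : F) (a b : Fin 16 × Fin d → ℂ) :
    BB S Ω a b = ∑ p, ∑ q, a p * b q * inner ℂ Ω (S.th p.1 p.2 (S.th q.1 q.2 Ω)) := by
  unfold BB
  rw [QuaT_comp, inner_sum]
  refine Finset.sum_congr rfl fun p _ => ?_
  rw [inner_sum]
  refine Finset.sum_congr rfl fun q _ => ?_
  rw [inner_smul_right]

end VacDPf

open VacDPf in
/-- **G13 VacD** -/
theorem vacD {d : ℕ} {F : Type*} [NormedAddCommGroup F] [InnerProductSpace ℂ F]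
    (S : Setup d F) : VacDStmt S := by
  intro ξ hξ E Ω hΩ D hD hc j hj hsym
  obtain ⟨h1, h2, -⟩ := hes_zero S hξ
  have hR := InvPf.RR_transpose S ξ
  have hinv := InvPf.RR_inj S h1 h2
  have hH : ∀ v, Hf S ξ v = HR S (InvPf.RR S ξ) v := fun v => by
    have := congrArg (fun T : F →L[ℂ] F => T v) (InvPf.op S ξ)
    simpa only [Hf, HR, _root_.sub_apply, _root_.smul_apply, _root_.sum_apply,
      _root_.mul_apply_eq_comp] using this
  -- the involution
  have hKR : InvPf.RR S ξ * GJ S j = -(GJ S j * InvPf.RR S ξ) := KR S h2 hj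
  obtain ⟨K, hKd⟩ : ∃ K : (Fin 16 × Fin d → ℂ) →ₗ[ℂ] (Fin 16 × Fin d → ℂ),
      K = Matrix.mulVecLin ((GJ S j).map Complex.ofRealHom) := ⟨_, rfl⟩
  have hKa : ∀ z p, K z p = ∑ q, (GJ S j p q : ℂ) * z q := fun z p => by
    rw [hKd]
    rfl
  have hK : ∀ z p, ∑ q, (InvPf.RR S ξ p q : ℂ) * K z q =
      -K (fun p => ∑ q, (InvPf.RR S ξ p q : ℂ) * z q) p := by
    intro z p
    have e1 : ∀ r, ∑ q, (InvPf.RR S ξ p q : ℂ) * (GJ S j q r : ℂ) =
        -∑ q, (GJ S j p q : ℂ) * (InvPf.RR S ξ q r : ℂ) := by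
      intro r
      have := congrFun (congrFun hKR p) r
      rw [Matrix.neg_apply, Matrix.mul_apply, Matrix.mul_apply] at this
      exact_mod_cast this
    simp only [hKa, Finset.mul_sum]
    rw [Finset.sum_comm, Finset.sum_comm (f := fun q r => (GJ S j p q : ℂ) * _),
      ← Finset.sum_neg_distrib]
    refine Finset.sum_congr rfl fun r _ => ?_
    have e2 := congrArg (fun w : ℂ => w * z r) (e1 r)
    simp only [neg_mul, Finset.sum_mul] at e2
    simpa only [mul_assoc] using e2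
  have hGG : ∀ q r, ∑ p, (GJ S j p q : ℂ) * (GJ S j p r : ℂ) = if q = r then 1 else 0 := by
    intro q r
    have := congrFun (congrFun (GJ_sq S j) q) r
    rw [Matrix.mul_apply, Matrix.one_apply] at this
    have e : ∑ p, (GJ S j p q) * (GJ S j p r) = if q = r then 1 else 0 := by
      rw [← this]
      exact Finset.sum_congr rfl fun p _ => by rw [GJ_symm S j p q]
    have e2 : ∑ p, (GJ S j p q : ℂ) * (GJ S j p r : ℂ) =
        ((∑ p, GJ S j p q * GJ S j p r : ℝ) : ℂ) := by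
      push_cast
      rfl
    rw [e2, e]
    split_ifs <;> simp
  have hK2 : ∀ a b, ∑ p, K a p * K b p = ∑ p, a p * b p := by
    intro a b
    simp only [hKa, Finset.sum_mul_sum]
    rw [Finset.sum_comm]
    refine Finset.sum_congr rfl fun q _ => ?_
    rw [Finset.sum_comm]
    have e1 : ∀ r, ∑ p, (GJ S j p q : ℂ) * a q * ((GJ S j p r : ℂ) * b r) =
        (if q = r then 1 else 0) * (a q * b r) := by
      intro r
      rw [← hGG, Finset.sum_mul]
      exact Finset.sum_congr rfl fun p _ => by ring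
    rw [Finset.sum_congr rfl fun r _ => e1 r, Finset.sum_eq_single q]
    · rw [if_pos rfl, one_mul]
    · intro r _ hr
      rw [if_neg (Ne.symm hr), zero_mul]
    · intro h
      exact absurd (Finset.mem_univ q) h
  have hflip := flip S hΩ hR hinv hH K hK hK2
  -- coordinates
  obtain ⟨b, hb⟩ : ∃ b : Fin 16 × Fin d → Fin 16 × Fin d → ℂ,
      b = fun p q => inner ℂ Ω (S.th p.1 p.2 (S.th q.1 q.2 Ω)) := ⟨_, rfl⟩
  have hKs : ∀ p q, K (Pi.single q 1) p = (GJ S j p q : ℂ) := by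
    intro p q
    rw [hKa, Finset.sum_eq_single q]
    · rw [Pi.single_eq_same, mul_one]
    · intro r _ hr
      rw [Pi.single_eq_of_ne hr, mul_zero]
    · intro h
      exact absurd (Finset.mem_univ q) h
  have hb1 : ∀ p q, BB S Ω (Pi.single p 1) (Pi.single q 1) = b p q := by
    intro p q
    rw [hb]
    unfold BB
    rw [QuaT_single, QuaT_single]
  have hbf : ∀ p q, ∑ p', ∑ q', (GJ S j p' p : ℂ) * (GJ S j q' q : ℂ) * b p' q' = b q p := by
    intro p q
    have := hflip (Pi.single p 1) (Pi.single q 1)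
    rw [hb1, BB_exp] at this
    rw [← this, hb]
    simp only [hKs]
  have hDs : ∀ p q, D p q = ∑ p', ∑ q', GJ S j p p' * D p' q' * GJ S j q' q := by
    rintro ⟨α, A⟩ ⟨β, B⟩
    rw [← hsym α β A B]
    simp only [Fintype.sum_prod_type, GJ, Matrix.kroneckerMap_apply, InvPf.gr, Matrix.map_apply]
    refine Finset.sum_congr rfl fun α' _ => ?_
    rw [Finset.sum_eq_single A]
    · refine Finset.sum_congr rfl fun β' _ => ?_
      rw [Finset.sum_eq_single B]
      · simp only [Matrix.one_apply_eq, mul_one]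
      · intro B' _ hB'
        rw [Matrix.one_apply_ne hB', mul_zero, mul_zero]
      · intro h
        exact absurd (Finset.mem_univ B) h
    · intro A' _ hA'
      simp only [Matrix.one_apply_ne (Ne.symm hA'), mul_zero, zero_mul, Finset.sum_const_zero]
    · intro h
      exact absurd (Finset.mem_univ A) h
  have hDa : ∀ p q, D q p = -D p q := fun p q => by
    have := congrFun (congrFun hD p) q
    simpa using this
  obtain ⟨T, hT⟩ : ∃ T : ℂ, T = ∑ p, ∑ q, (D p q : ℂ) * b p q := ⟨_, rfl⟩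
  have hT1 : T = ∑ p, ∑ q, (D p q : ℂ) * b q p := by
    have e1 : T = ∑ p, ∑ q, ∑ p', ∑ q',
        (D p' q' : ℂ) * ((GJ S j p p' : ℂ) * (GJ S j q q' : ℂ) * b p q) := by
      rw [hT]
      refine Finset.sum_congr rfl fun p _ => Finset.sum_congr rfl fun q _ => ?_
      rw [hDs p q]
      push_cast
      rw [Finset.sum_mul]
      refine Finset.sum_congr rfl fun p' _ => ?_
      rw [Finset.sum_mul]
      refine Finset.sum_congr rfl fun q' _ => ?_
      rw [GJ_symm S j q' q]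
      ring
    have e2 : ∑ p, ∑ q, (D p q : ℂ) * b q p = ∑ p', ∑ q', ∑ p, ∑ q,
        (D p' q' : ℂ) * ((GJ S j p p' : ℂ) * (GJ S j q q' : ℂ) * b p q) := by
      refine Finset.sum_congr rfl fun p' _ => Finset.sum_congr rfl fun q' _ => ?_
      rw [← hbf p' q', Finset.mul_sum]
      refine Finset.sum_congr rfl fun p _ => ?_
      rw [Finset.mul_sum]
    rw [e1, e2]
    exact sum4 _
  have hT0 : T = 0 := by
    have e1 : T = -T := by
      nth_rewrite 1 [hT1]
      rw [hT, Finset.sum_comm, ← Finset.sum_neg_distrib]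
      refine Finset.sum_congr rfl fun p _ => ?_
      rw [← Finset.sum_neg_distrib]
      refine Finset.sum_congr rfl fun q _ => ?_
      rw [hDa p q, Complex.ofReal_neg, neg_mul]
    have : (2 : ℂ) * T = 0 := by linear_combination e1
    simpa using this
  have hbD : ∀ v, bD S D v = ∑ p : Fin 16 × Fin d, ∑ q : Fin 16 × Fin d,
      (D p q : ℂ) • S.th p.1 p.2 (S.th q.1 q.2 v) := by
    intro v
    simp only [bD, _root_.smul_apply, _root_.sum_apply, _root_.mul_apply_eq_comp]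
  have hin : inner ℂ Ω (bD S D Ω) = T := by
    rw [hbD, inner_sum, hT]
    refine Finset.sum_congr rfl fun p _ => ?_
    rw [inner_sum]
    refine Finset.sum_congr rfl fun q _ => ?_
    rw [inner_smul_right, hb]
  obtain ⟨c, hcΩ⟩ := hΩ.uniq (bD S D Ω) (by rw [hc, hΩ.eig, map_smul])
  have hc0 : c = 0 := by
    have e := hin
    rw [hcΩ, inner_smul_right, inner_self_eq_norm_sq_to_K, hΩ.norm, hT0] at e
    simpa using e
  rw [hcΩ, hc0, zero_smul]

end Vale.Agent.P353.AN.G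
end

section

/-! # P353, all `N`, block G: G14, the gauge rotations fixing `ξ` kill the vacuum -/

open MeasureTheory Filter Topology
open scoped ContDiff

namespace Vale.Agent.P353.AN.G

open Vale.Agent.P353.Z Vale.Agent.P353.Z.U

namespace HK

variable {d : ℕ} {F : Type*} [NormedAddCommGroup F] [InnerProductSpace ℂ F] (S : Setup d F)

/-- `K_{AB} = ∑_C h_C f_{CAB}` -/
noncomputable def hkK (h : Fin d → ℝ) : Matrix (Fin d) (Fin d) ℝ :=
  Matrix.of fun A B => ∑ C, h C * S.f C A B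

lemma hkK_apply (h : Fin d → ℝ) (A B : Fin d) : hkK S h A B = ∑ C, h C * S.f C A B := rfl

lemma hkK_swap (h : Fin d → ℝ) (A B : Fin d) : hkK S h B A = -hkK S h A B := by
  rw [hkK_apply, hkK_apply, ← Finset.sum_neg_distrib]
  refine Finset.sum_congr rfl fun C _ => ?_
  rw [S.f_swap' C A B]
  ring

/-- `δ_{αβ} K_{AB}` -/
noncomputable def hkD (h : Fin d → ℝ) : Matrix (Fin 16 × Fin d) (Fin 16 × Fin d) ℝ :=
  Matrix.of fun p q => if p.1 = q.1 then hkK S h p.2 q.2 else 0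

lemma hkD_apply (h : Fin d → ℝ) (p q : Fin 16 × Fin d) :
    hkD S h p q = if p.1 = q.1 then hkK S h p.2 q.2 else 0 := rfl

lemma hkD_transpose (h : Fin d → ℝ) : (hkD S h).transpose = -hkD S h := by
  ext p q
  rw [Matrix.transpose_apply, Matrix.neg_apply, hkD_apply, hkD_apply]
  by_cases hpq : p.1 = q.1
  · rw [if_pos hpq, if_pos hpq.symm, hkK_swap]
  · rw [if_neg hpq, if_neg (Ne.symm hpq), neg_zero]

lemma hkD_gam (h : Fin d → ℝ) (j : Fin 9) (α β : Fin 16) (A B : Fin d) :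
    ∑ α', ∑ β', (S.g j α α').re * hkD S h (α', A) (β', B) * (S.g j β' β).re =
      hkD S h (α, A) (β, B) := by
  have h1 : ∀ α', ∑ β', (S.g j α α').re * hkD S h (α', A) (β', B) * (S.g j β' β).re =
      (InvPf.gr S j α α' * InvPf.gr S j α' β) * hkK S h A B := by
    intro α'
    rw [Finset.sum_eq_single α']
    · rw [hkD_apply, if_pos rfl]
      simp only [InvPf.gr, Matrix.map_apply]
      ring
    · intro β' _ hβ
      rw [hkD_apply, if_neg (fun hh => hβ hh.symm)]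
      ring
    · intro hh
      exact absurd (Finset.mem_univ _) hh
  rw [Finset.sum_congr rfl fun α' _ => h1 α', ← Finset.sum_mul, ← Matrix.mul_apply, InvPf.gr_sq,
    hkD_apply, Matrix.one_apply]
  by_cases hh : α = β
  · simp [hh]
  · simp [hh]

/-- `∑ h_C 𝒮_C` -/
noncomputable def hkT (h : Fin d → ℝ) : F →L[ℂ] F := ∑ C, (h C : ℂ) • S.cS C

lemma bD_hk (h : Fin d → ℝ) :
    bD S (hkD S h) = ∑ A, ∑ B, ((hkK S h A B : ℝ) : ℂ) • S.bil 1 A B := by
  have h1 := InvPf.kr S 1 ((hkK S h).map (Complex.ofRealHom))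
  simp only [Matrix.map_apply, Complex.ofRealHom_eq_coe] at h1
  rw [← h1]
  unfold bD
  refine Finset.sum_congr rfl fun p _ => Finset.sum_congr rfl fun q _ => ?_
  rw [hkD_apply, Matrix.one_apply]
  by_cases hpq : p.1 = q.1
  · rw [if_pos hpq, if_pos hpq, one_mul]
  · rw [if_neg hpq, if_neg hpq, zero_mul, Complex.ofReal_zero]

lemma hkT_eq (h : Fin d → ℝ) : hkT S h = (-Complex.I / 2) • bD S (hkD S h) := by
  rw [bD_hk]
  unfold hkT Setup.cS
  simp only [hkK_apply, smul_comm _ (-Complex.I / 2), ← Finset.smul_sum]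
  congr 1
  simp only [Finset.smul_sum, smul_smul, Complex.ofReal_sum, Finset.sum_smul, Complex.ofReal_mul]
  rw [Finset.sum_comm]
  refine Finset.sum_congr rfl fun A _ => ?_
  rw [Finset.sum_comm]

lemma hkT_vec (h : Fin d → ℝ) (P : Matrix (Fin 16) (Fin 16) ℂ) (A : Fin d) (b : Fin 16) :
    hkT S h * S.vec P A b - S.vec P A b * hkT S h =
      Complex.I • ∑ E, ((hkK S h A E : ℝ) : ℂ) • S.vec P E b := by
  unfold hkT
  rw [Finset.sum_mul, Finset.mul_sum, ← Finset.sum_sub_distrib]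
  have h1 : ∀ C, (h C : ℂ) • S.cS C * S.vec P A b - S.vec P A b * ((h C : ℂ) • S.cS C) =
      Complex.I • ∑ E, ((h C * S.f C A E : ℝ) : ℂ) • S.vec P E b := by
    intro C
    rw [smul_mul_assoc, mul_smul_comm, ← smul_sub, comm_cS, smul_comm, Finset.smul_sum]
    congr 1
    refine Finset.sum_congr rfl fun E _ => ?_
    rw [smul_smul]
    push_cast
    rfl
  rw [Finset.sum_congr rfl fun C _ => h1 C, ← Finset.smul_sum, Finset.sum_comm]
  congr 1
  refine Finset.sum_congr rfl fun E _ => ?_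
  rw [hkK_apply, ← Finset.sum_smul]
  push_cast
  rfl

lemma hkT_bil (h : Fin d → ℝ) (P : Matrix (Fin 16) (Fin 16) ℂ) (A B : Fin d) :
    hkT S h * S.bil P A B - S.bil P A B * hkT S h =
      Complex.I • (∑ E, ((hkK S h A E : ℝ) : ℂ) • S.bil P E B +
        ∑ E, ((hkK S h B E : ℝ) : ℂ) • S.bil P A E) := by
  have e1 : ∀ α, hkT S h * (S.th α A * S.vec P B α) - S.th α A * S.vec P B α * hkT S h =
      Complex.I • (∑ E, ((hkK S h A E : ℝ) : ℂ) • (S.th α E * S.vec P B α) +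
        ∑ E, ((hkK S h B E : ℝ) : ℂ) • (S.th α A * S.vec P E α)) := by
    intro α
    have a1 := hkT_vec S h 1 A α
    have a2 := hkT_vec S h P B α
    simp only [CS.vec_one] at a1
    have a3 : hkT S h * (S.th α A * S.vec P B α) - S.th α A * S.vec P B α * hkT S h =
        (hkT S h * S.th α A - S.th α A * hkT S h) * S.vec P B α +
          S.th α A * (hkT S h * S.vec P B α - S.vec P B α * hkT S h) := by
      noncomm_ring
    rw [a3, a1, a2, smul_mul_assoc, mul_smul_comm, ← smul_add, Finset.sum_mul, Finset.mul_sum]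
    simp only [smul_mul_assoc, mul_smul_comm]
  unfold CS.bil
  rw [Finset.mul_sum, Finset.sum_mul, ← Finset.sum_sub_distrib, Finset.sum_congr rfl fun α _ => e1 α,
    ← Finset.smul_sum, Finset.sum_add_distrib, Finset.sum_comm]
  congr 1
  congr 1
  · refine Finset.sum_congr rfl fun E _ => ?_
    rw [Finset.smul_sum]
  · rw [Finset.sum_comm]
    refine Finset.sum_congr rfl fun E _ => ?_
    rw [Finset.smul_sum]

lemma hkT_tot (h : Fin d → ℝ) (P : Matrix (Fin 16) (Fin 16) ℂ) :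
    hkT S h * S.tot P = S.tot P * hkT S h := by
  rw [← sub_eq_zero]
  unfold CS.tot
  rw [Finset.mul_sum, Finset.sum_mul, ← Finset.sum_sub_distrib,
    Finset.sum_congr rfl fun A _ => hkT_bil S h P A A, ← Finset.smul_sum, Finset.sum_add_distrib]
  have h1 : ∑ A, ∑ E, ((hkK S h A E : ℝ) : ℂ) • S.bil P E A =
      -∑ A, ∑ E, ((hkK S h A E : ℝ) : ℂ) • S.bil P A E := by
    rw [Finset.sum_comm, ← Finset.sum_neg_distrib]
    refine Finset.sum_congr rfl fun A _ => ?_
    rw [← Finset.sum_neg_distrib]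
    refine Finset.sum_congr rfl fun E _ => ?_
    rw [hkK_swap, Complex.ofReal_neg, neg_smul]
  rw [h1, neg_add_cancel, smul_zero]

/-- matrix of `ad x` -/
noncomputable def hkc (x : Fin d → ℝ) (A B : Fin d) : ℝ := ∑ C, S.f A B C * x C

/-- `K` commutes with `ad x` if `K` kills `x` -/
lemma hk_jac (h : Fin d → ℝ) (x : Fin d → ℝ)
    (hx : ∀ B, ∑ C, ∑ A, h C * S.f C A B * x A = 0) (P Q : Fin d) :
    ∑ X, (hkc S x X Q * hkK S h X P + hkc S x P X * hkK S h X Q) = 0 := by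
  have h1 : ∑ C, ∑ E, (h C * x E) * ∑ X, (S.f E X Q * S.f C P X + S.f E P X * S.f C Q X -
      S.f C X E * S.f X P Q) = 0 := by
    refine Finset.sum_eq_zero fun C _ => Finset.sum_eq_zero fun E _ => ?_
    rw [f_jac4, mul_zero]
  have h2 : ∑ C, ∑ E, (h C * x E) * ∑ X, (S.f E X Q * S.f C P X + S.f E P X * S.f C Q X -
      S.f C X E * S.f X P Q) =
      ∑ X, ∑ C, ∑ E, (h C * x E) * (S.f E X Q * S.f C P X + S.f E P X * S.f C Q X -
      S.f C X E * S.f X P Q) := by
    simp only [Finset.mul_sum]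
    calc _ = ∑ C, ∑ X, ∑ E, (h C * x E) * (S.f E X Q * S.f C P X + S.f E P X * S.f C Q X -
          S.f C X E * S.f X P Q) := Finset.sum_congr rfl fun C _ => Finset.sum_comm
      _ = _ := Finset.sum_comm
  have h3 : ∀ X, ∑ C, ∑ E, (h C * x E) * (S.f E X Q * S.f C P X + S.f E P X * S.f C Q X -
      S.f C X E * S.f X P Q) =
      -(hkc S x X Q * hkK S h X P + hkc S x P X * hkK S h X Q) := by
    intro X
    have a1 : ∑ C, ∑ E, (h C * x E) * (S.f E X Q * S.f C P X) = hkc S x X Q * -hkK S h X P := by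
      rw [← hkK_swap, hkK_apply, hkc, Finset.sum_mul_sum, Finset.sum_comm]
      refine Finset.sum_congr rfl fun C _ => Finset.sum_congr rfl fun E _ => ?_
      rw [S.f_cyc C X Q]
      ring
    have a2 : ∑ C, ∑ E, (h C * x E) * (S.f E P X * S.f C Q X) = hkc S x P X * -hkK S h X Q := by
      rw [← hkK_swap, hkK_apply, hkc, Finset.sum_mul_sum, Finset.sum_comm]
      refine Finset.sum_congr rfl fun C _ => Finset.sum_congr rfl fun E _ => ?_
      rw [S.f_cyc C P X]
      ring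
    have a3 : ∑ C, ∑ E, (h C * x E) * (S.f C X E * S.f X P Q) = 0 := by
      have := hx X
      calc _ = -((∑ C, ∑ A, h C * S.f C A X * x A) * S.f X P Q) := by
            rw [Finset.sum_mul, ← Finset.sum_neg_distrib]
            refine Finset.sum_congr rfl fun C _ => ?_
            rw [Finset.sum_mul, ← Finset.sum_neg_distrib]
            refine Finset.sum_congr rfl fun E _ => ?_
            rw [S.f_swap' C X E]
            ring
        _ = 0 := by rw [this, zero_mul, neg_zero]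
    simp only [mul_sub, mul_add, Finset.sum_sub_distrib, Finset.sum_add_distrib] at a1 a2 a3 ⊢
    rw [a1, a2, a3]
    ring
  rw [h2, Finset.sum_congr rfl fun X _ => h3 X, Finset.sum_neg_distrib, neg_eq_zero] at h1
  exact h1

/-- the colour part of the commutator with `Fx ξ` -/
lemma hk_col {M : Type*} [AddCommGroup M] [Module ℂ M] (h : Fin d → ℝ) (x : Fin d → ℝ)
    (hx : ∀ B, ∑ C, ∑ A, h C * S.f C A B * x A = 0) (b : Fin d → Fin d → M) :
    ∑ A, ∑ B, ((hkc S x A B : ℝ) : ℂ) •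
      (∑ E, ((hkK S h A E : ℝ) : ℂ) • b E B + ∑ E, ((hkK S h B E : ℝ) : ℂ) • b A E) = 0 := by
  have e1 : ∑ A, ∑ B, ((hkc S x A B : ℝ) : ℂ) • ∑ E, ((hkK S h A E : ℝ) : ℂ) • b E B =
      ∑ P, ∑ Q, ∑ X, ((hkc S x X Q * hkK S h X P : ℝ) : ℂ) • b P Q := by
    simp only [Finset.smul_sum, smul_smul, Complex.ofReal_mul]
    calc _ = ∑ B, ∑ A, ∑ E, (((hkc S x A B : ℝ) : ℂ) * ((hkK S h A E : ℝ) : ℂ)) • b E B :=
          Finset.sum_comm
      _ = ∑ B, ∑ E, ∑ A, (((hkc S x A B : ℝ) : ℂ) * ((hkK S h A E : ℝ) : ℂ)) • b E B :=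
          Finset.sum_congr rfl fun B _ => Finset.sum_comm
      _ = _ := Finset.sum_comm
  have e2 : ∑ A, ∑ B, ((hkc S x A B : ℝ) : ℂ) • ∑ E, ((hkK S h B E : ℝ) : ℂ) • b A E =
      ∑ P, ∑ Q, ∑ X, ((hkc S x P X * hkK S h X Q : ℝ) : ℂ) • b P Q := by
    simp only [Finset.smul_sum, smul_smul, Complex.ofReal_mul]
    exact Finset.sum_congr rfl fun A _ => Finset.sum_comm
  simp only [smul_add, Finset.sum_add_distrib]
  rw [e1, e2]
  simp only [← Finset.sum_add_distrib, ← add_smul, ← Complex.ofReal_add]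
  refine Finset.sum_eq_zero fun P _ => Finset.sum_eq_zero fun Q _ => ?_
  rw [← Finset.sum_smul, ← Complex.ofReal_sum, hk_jac S h x hx P Q, Complex.ofReal_zero, zero_smul]

lemma Fx_hk (ξ : Cfg d) : S.Fx ξ = (Complex.I / 2 * (S.κ : ℂ)) • ∑ q, ∑ A, ∑ B,
    ((hkc S (fun C => ξ (q, C)) A B : ℝ) : ℂ) • S.bil (S.g q) A B := by
  unfold Setup.Fx
  congr 1
  refine Finset.sum_congr rfl fun q _ => Finset.sum_congr rfl fun A _ =>
    Finset.sum_congr rfl fun B _ => ?_
  rw [← Finset.sum_smul, hkc]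
  push_cast
  rfl

lemma hkT_Fx (h : Fin d → ℝ) (ξ : Cfg d)
    (hx : ∀ i B, ∑ C, ∑ A, h C * S.f C A B * ξ (i, A) = 0) :
    hkT S h * S.Fx ξ = S.Fx ξ * hkT S h := by
  rw [← sub_eq_zero, Fx_hk, mul_smul_comm, smul_mul_assoc, ← smul_sub, Finset.mul_sum,
    Finset.sum_mul, ← Finset.sum_sub_distrib]
  have h1 : ∀ q, hkT S h * (∑ A, ∑ B, ((hkc S (fun C => ξ (q, C)) A B : ℝ) : ℂ) •
      S.bil (S.g q) A B) - (∑ A, ∑ B, ((hkc S (fun C => ξ (q, C)) A B : ℝ) : ℂ) •
      S.bil (S.g q) A B) * hkT S h = 0 := by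
    intro q
    have h2 := hk_col S h (fun C => ξ (q, C)) (hx q) (fun A B => S.bil (S.g q) A B)
    have h3 : ∀ A B, hkT S h * (((hkc S (fun C => ξ (q, C)) A B : ℝ) : ℂ) • S.bil (S.g q) A B) -
        (((hkc S (fun C => ξ (q, C)) A B : ℝ) : ℂ) • S.bil (S.g q) A B) * hkT S h =
        Complex.I • (((hkc S (fun C => ξ (q, C)) A B : ℝ) : ℂ) •
          (∑ E, ((hkK S h A E : ℝ) : ℂ) • S.bil (S.g q) E B +
            ∑ E, ((hkK S h B E : ℝ) : ℂ) • S.bil (S.g q) A E)) := by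
      intro A B
      rw [mul_smul_comm, smul_mul_assoc, ← smul_sub, hkT_bil, smul_comm]
    simp only [Finset.mul_sum, Finset.sum_mul, ← Finset.sum_sub_distrib, h3, ← Finset.smul_sum]
    rw [h2, smul_zero]
  rw [Finset.sum_eq_zero fun q _ => h1 q, smul_zero]

lemma hkT_Hf (h : Fin d → ℝ) (ξ : Cfg d)
    (hx : ∀ i B, ∑ C, ∑ A, h C * S.f C A B * ξ (i, A) = 0) :
    hkT S h * Hf S ξ = Hf S ξ * hkT S h := by
  unfold Hf Setup.FG
  rw [mul_sub, sub_mul, hkT_Fx S h ξ hx, mul_smul_comm, mul_smul_comm, smul_mul_assoc,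
    smul_mul_assoc, hkT_tot]

lemma bD_hkT (h : Fin d → ℝ) : bD S (hkD S h) = (2 * Complex.I) • hkT S h := by
  rw [hkT_eq, smul_smul]
  have : (2 * Complex.I) * (-Complex.I / 2) = 1 := by
    linear_combination -Complex.I_mul_I
  rw [this, one_smul]

end HK

/-- **G14 HKill** -/
theorem hKill {d : ℕ} {F : Type*} [NormedAddCommGroup F] [InnerProductSpace ℂ F]
    [FiniteDimensional ℂ F] (S : Setup d F) (h13 : VacDStmt S) : HKillStmt S := by
  intro ξ hξ E Ω hΩ h hx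
  have h1 : bD S (HK.hkD S h) Ω = 0 := by
    refine h13 ξ hξ E Ω hΩ (HK.hkD S h) (HK.hkD_transpose S h) (fun v => ?_) 3 (by decide)
      (fun α β A B => HK.hkD_gam S h 3 α β A B)
    have h2 := congrArg (fun T : F →L[ℂ] F => T v) (HK.hkT_Hf S h ξ hx)
    simp only [mul_apply_eq_comp] at h2
    rw [HK.bD_hkT, _root_.smul_apply, _root_.smul_apply, map_smul, h2]
  have h3 : ∑ C, (h C : ℂ) • S.cS C Ω = HK.hkT S h Ω := by
    simp only [HK.hkT, _root_.sum_apply, _root_.smul_apply]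
  rw [h3, HK.hkT_eq, _root_.smul_apply, h1, smul_zero]

end Vale.Agent.P353.AN.G
end

section

/-! # P353, all `N`, block G20: invariance of the trial function -/

open MeasureTheory Filter Topology
open scoped ContDiff

namespace Vale.Agent.P353.AN.G

open Vale.Agent.P353.Z Vale.Agent.P353.Z.U

namespace TvJ935

variable {d : ℕ} {F : Type*} [NormedAddCommGroup F] [InnerProductSpace ℂ F]

lemma vf_apply (S : Setup d F) (k l : Fin 9) (a : Fin d → ℝ) (x : Cfg d) (p : Fin 9 × Fin d) :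
    vf S k l a x p = (if p.1 = l then x (k, p.2) else 0) - (if p.1 = k then x (l, p.2) else 0) +
      ∑ C, ∑ A, a C * S.f C A p.2 * x (p.1, A) := rfl

lemma vf_add (S : Setup d F) (k l : Fin 9) (a : Fin d → ℝ) (x y : Cfg d) :
    vf S k l a (x + y) = vf S k l a x + vf S k l a y := by
  ext p
  rw [PiLp.add_apply, vf_apply, vf_apply, vf_apply]
  simp only [PiLp.add_apply, mul_add, Finset.sum_add_distrib]
  split_ifs <;> ring

lemma vf_smul (S : Setup d F) (k l : Fin 9) (a : Fin d → ℝ) (c : ℝ) (x : Cfg d) :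
    vf S k l a (c • x) = c • vf S k l a x := by
  ext p
  rw [PiLp.smul_apply, vf_apply, vf_apply]
  simp only [PiLp.smul_apply, smul_eq_mul, mul_add, mul_sub, Finset.mul_sum]
  have h : ∀ C A, a C * S.f C A p.2 * (c * x (p.1, A)) = c * (a C * S.f C A p.2 * x (p.1, A)) :=
    fun C A => by ring
  simp only [h]
  split_ifs <;> ring

lemma inner_sum (x y : Cfg d) : inner ℝ x y = ∑ i, ∑ A, x (i, A) * y (i, A) := by
  rw [PiLp.inner_apply, Fintype.sum_prod_type]
  refine Finset.sum_congr rfl fun i _ => Finset.sum_congr rfl fun A _ => ?_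
  simp [mul_comm]

lemma inner_vf (S : Setup d F) (k l : Fin 9) (a : Fin d → ℝ) (x y : Cfg d) :
    inner ℝ (vf S k l a x) y = (∑ A, x (k, A) * y (l, A)) - (∑ A, x (l, A) * y (k, A)) +
      ∑ i, ∑ C, ∑ A, ∑ B, a C * S.f C A B * (x (i, A) * y (i, B)) := by
  rw [inner_sum]
  have h1 : ∀ i B, vf S k l a x (i, B) * y (i, B) = (if i = l then x (k, B) * y (i, B) else 0) -
      (if i = k then x (l, B) * y (i, B) else 0) +
      ∑ C, ∑ A, a C * S.f C A B * (x (i, A) * y (i, B)) := by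
    intro i B
    rw [vf_apply, add_mul, sub_mul, Finset.sum_mul]
    congr 1
    · congr 1
      · split_ifs <;> simp
      · split_ifs <;> simp
    · refine Finset.sum_congr rfl fun C _ => ?_
      rw [Finset.sum_mul]
      refine Finset.sum_congr rfl fun A _ => ?_
      ring
  simp only [h1, Finset.sum_add_distrib, Finset.sum_sub_distrib]
  congr 1
  · congr 1
    · rw [Finset.sum_comm]
      refine Finset.sum_congr rfl fun B _ => ?_
      simp
    · rw [Finset.sum_comm]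
      refine Finset.sum_congr rfl fun B _ => ?_
      simp
  · refine Finset.sum_congr rfl fun i _ => ?_
    rw [Finset.sum_comm]
    refine Finset.sum_congr rfl fun C _ => ?_
    rw [Finset.sum_comm]

lemma inner_vf_anti (S : Setup d F) (k l : Fin 9) (a : Fin d → ℝ) (x y : Cfg d) :
    inner ℝ (vf S k l a x) y + inner ℝ x (vf S k l a y) = 0 := by
  rw [real_inner_comm (vf S k l a y) x, inner_vf, inner_vf]
  have h1 : ∀ i C, ∑ A, ∑ B, a C * S.f C A B * (y (i, A) * x (i, B)) =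
      -∑ A, ∑ B, a C * S.f C A B * (x (i, A) * y (i, B)) := by
    intro i C
    rw [Finset.sum_comm, ← Finset.sum_neg_distrib]
    refine Finset.sum_congr rfl fun A _ => ?_
    rw [← Finset.sum_neg_distrib]
    refine Finset.sum_congr rfl fun B _ => ?_
    rw [S.f_swap' C A B]
    ring
  simp only [h1, Finset.sum_neg_distrib]
  have h2 : ∑ A, y (k, A) * x (l, A) = ∑ A, x (l, A) * y (k, A) :=
    Finset.sum_congr rfl fun A _ => mul_comm _ _
  have h3 : ∑ A, y (l, A) * x (k, A) = ∑ A, x (k, A) * y (l, A) :=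
    Finset.sum_congr rfl fun A _ => mul_comm _ _
  rw [h2, h3]
  ring

lemma clm_eq_sum (T : Cfg d →L[ℝ] ℝ) (y : Cfg d) :
    T y = ∑ i, ∑ A, y (i, A) * T (EuclideanSpace.single (i, A) 1) := by
  have h1 : y = ∑ p : Fin 9 × Fin d, y p • (EuclideanSpace.single p (1 : ℝ) : Cfg d) := by
    ext q
    rw [WithLp.ofLp_sum, Finset.sum_apply]
    rw [Finset.sum_eq_single q]
    · simp
    · intro b _ hb
      simp [Ne.symm hb]
    · simp
  conv_lhs => rw [h1]
  rw [map_sum, Fintype.sum_prod_type]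
  simp

lemma clm_vf (S : Setup d F) (k l : Fin 9) (a : Fin d → ℝ) (x : Cfg d) (T : Cfg d →L[ℝ] ℝ) :
    T (vf S k l a x) = (∑ A, (x (k, A) * T (EuclideanSpace.single (l, A) 1) -
      x (l, A) * T (EuclideanSpace.single (k, A) 1))) +
      ∑ C, a C * ∑ i, ∑ A, ∑ B, S.f C A B * x (i, A) * T (EuclideanSpace.single (i, B) 1) := by
  set y : Cfg d := WithLp.toLp 2 fun p => T (EuclideanSpace.single p 1) with hy
  have h1 : T (vf S k l a x) = inner ℝ (vf S k l a x) y := by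
    rw [clm_eq_sum, inner_sum]
  rw [h1, inner_vf, Finset.sum_sub_distrib]
  congr 1
  rw [Finset.sum_comm]
  refine Finset.sum_congr rfl fun C _ => ?_
  rw [Finset.mul_sum]
  refine Finset.sum_congr rfl fun i _ => ?_
  rw [Finset.mul_sum]
  refine Finset.sum_congr rfl fun A _ => ?_
  rw [Finset.mul_sum]
  refine Finset.sum_congr rfl fun B _ => ?_
  show a C * S.f C A B * (x (i, A) * T (EuclideanSpace.single (i, B) 1)) = _
  ring

/-- first order part -/
lemma J_add_G (S : Setup d F) (k l : Fin 9) (a : Fin d → ℝ) (φ : Cfg d → ℝ) (Ω : F) (x : Cfg d)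
    (hφ : DifferentiableAt ℝ φ x) :
    S.J k l (fun y => ((φ y : ℝ) : ℂ) • Ω) x +
      ∑ C, (a C : ℂ) • S.G C (fun y => ((φ y : ℝ) : ℂ) • Ω) x =
    (-Complex.I) • ((fderiv ℝ φ x (vf S k l a x) : ℝ) : ℂ) • Ω +
      ((φ x : ℝ) : ℂ) • (S.Skl k l Ω + ∑ C, (a C : ℂ) • S.cS C Ω) := by
  have hpd : ∀ i A, pd i A (fun y => ((φ y : ℝ) : ℂ) • Ω) x =
      ((fderiv ℝ φ x (EuclideanSpace.single (i, A) 1) : ℝ) : ℂ) • Ω := by
    intro i A
    rw [pd_rsmul hφ (differentiableAt_const Ω)]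
    have : pd i A (fun _ : Cfg d => Ω) x = 0 := by
      unfold pd
      simp
    rw [this, smul_zero, add_zero]
  unfold Setup.J Setup.G
  simp only [hpd]
  rw [clm_vf]
  simp only [map_smul, smul_add, Finset.sum_add_distrib]
  have h1 : ∀ C, (a C : ℂ) • ((φ x : ℝ) : ℂ) • S.cS C Ω = ((φ x : ℝ) : ℂ) • (a C : ℂ) • S.cS C Ω :=
    fun C => smul_comm _ _ _
  simp only [h1, ← Finset.smul_sum]
  have h2 : ∑ A, ((x (k, A) : ℂ) • ((fderiv ℝ φ x (EuclideanSpace.single (l, A) 1) : ℝ) : ℂ) • Ω -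
      (x (l, A) : ℂ) • ((fderiv ℝ φ x (EuclideanSpace.single (k, A) 1) : ℝ) : ℂ) • Ω) =
      ((∑ A, (x (k, A) * fderiv ℝ φ x (EuclideanSpace.single (l, A) 1) -
      x (l, A) * fderiv ℝ φ x (EuclideanSpace.single (k, A) 1)) : ℝ) : ℂ) • Ω := by
    rw [Complex.ofReal_sum, Finset.sum_smul]
    refine Finset.sum_congr rfl fun A _ => ?_
    rw [smul_smul, smul_smul, ← sub_smul]
    push_cast
    rfl
  have h3 : ∀ C, ∑ i, ∑ A, ∑ B, ((S.f C A B : ℂ) * (x (i, A) : ℂ)) •
      ((fderiv ℝ φ x (EuclideanSpace.single (i, B) 1) : ℝ) : ℂ) • Ω =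
      ((∑ i, ∑ A, ∑ B, S.f C A B * x (i, A) * fderiv ℝ φ x (EuclideanSpace.single (i, B) 1) : ℝ)
        : ℂ) • Ω := by
    intro C
    rw [Complex.ofReal_sum, Finset.sum_smul]
    refine Finset.sum_congr rfl fun i _ => ?_
    rw [Complex.ofReal_sum, Finset.sum_smul]
    refine Finset.sum_congr rfl fun A _ => ?_
    rw [Complex.ofReal_sum, Finset.sum_smul]
    refine Finset.sum_congr rfl fun B _ => ?_
    rw [smul_smul]
    push_cast
    rfl
  rw [h2]
  simp only [h3]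
  have h4 : ∑ C, (a C : ℂ) • (-Complex.I) • ((∑ i, ∑ A, ∑ B, S.f C A B * x (i, A) *
      fderiv ℝ φ x (EuclideanSpace.single (i, B) 1) : ℝ) : ℂ) • Ω =
      (-Complex.I) • ((∑ C, a C * ∑ i, ∑ A, ∑ B, S.f C A B * x (i, A) *
      fderiv ℝ φ x (EuclideanSpace.single (i, B) 1) : ℝ) : ℂ) • Ω := by
    rw [Complex.ofReal_sum, Finset.sum_smul, Finset.smul_sum]
    refine Finset.sum_congr rfl fun C _ => ?_
    rw [smul_comm, smul_smul (a C : ℂ), Complex.ofReal_mul]
  rw [h4]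
  rw [Complex.ofReal_add, add_smul, smul_add]
  abel

lemma hasFDerivAt_om (m : ℝ) (ξ x : Cfg d) :
    HasFDerivAt (om m ξ) (Real.sqrt m • ContinuousLinearMap.id ℝ (Cfg d)) x := by
  unfold om
  exact ((hasFDerivAt_id x).sub_const (m • ξ)).const_smul (Real.sqrt m)

lemma contDiff_cut : ContDiff ℝ ∞ cut := by
  unfold cut
  exact Real.smoothTransition.contDiff.comp (by fun_prop)

/-- the derivative of the cut off Gaussian along `vf` vanishes -/
lemma fderiv_ph (S : Setup d F) (ξ : Cfg d) (K : Cfg d →L[ℝ] Cfg d)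
    (hK : ∀ x y, inner ℝ (K x) y = inner ℝ x (K y)) (k l : Fin 9) (a : Fin d → ℝ)
    (hξ : vf S k l a ξ = 0) (hc : ∀ x, K (vf S k l a x) = vf S k l a (K x)) (m L : ℝ) (hm : 0 < m)
    (x : Cfg d) : DifferentiableAt ℝ (ph m L ξ K) x ∧
      fderiv ℝ (ph m L ξ K) x (vf S k l a x) = 0 := by
  have hs : 0 < Real.sqrt m := Real.sqrt_pos.2 hm
  -- `√m • vf x = vf ω`
  have hv : Real.sqrt m • vf S k l a x = vf S k l a (om m ξ x) := by
    unfold om
    rw [vf_smul, sub_eq_add_neg, vf_add, ← neg_smul, vf_smul, hξ, smul_zero, add_zero]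
  have h1 : HasFDerivAt (fun y => ‖om m ξ y‖ ^ 2)
      (2 • (innerSL ℝ (om m ξ x)).comp (Real.sqrt m • ContinuousLinearMap.id ℝ (Cfg d))) x :=
    (hasFDerivAt_om m ξ x).norm_sq
  have h2 : HasFDerivAt (fun y => qK m ξ K y)
      ((fderivInnerCLM ℝ (om m ξ x, K (om m ξ x))).comp
        ((Real.sqrt m • ContinuousLinearMap.id ℝ (Cfg d)).prod
          (K.comp (Real.sqrt m • ContinuousLinearMap.id ℝ (Cfg d))))) x :=
    (hasFDerivAt_om m ξ x).inner ℝ (K.hasFDerivAt.comp x (hasFDerivAt_om m ξ x))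
  have h3 : HasFDerivAt (fun y => cut (‖om m ξ y‖ ^ 2 / L ^ 2))
      ((deriv cut (‖om m ξ x‖ ^ 2 / L ^ 2)) • ((L ^ 2)⁻¹ •
        (2 • (innerSL ℝ (om m ξ x)).comp (Real.sqrt m • ContinuousLinearMap.id ℝ (Cfg d))))) x := by
    have hd : HasDerivAt cut (deriv cut (‖om m ξ x‖ ^ 2 / L ^ 2)) (‖om m ξ x‖ ^ 2 / L ^ 2) :=
      ((contDiff_cut.differentiable (by simp)) _).hasDerivAt
    have h1' : HasFDerivAt (fun y => ‖om m ξ y‖ ^ 2 / L ^ 2) ((L ^ 2)⁻¹ •
        (2 • (innerSL ℝ (om m ξ x)).comp (Real.sqrt m • ContinuousLinearMap.id ℝ (Cfg d)))) x := by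
      have := h1.const_smul ((L ^ 2)⁻¹)
      refine this.congr_of_eventuallyEq (Eventually.of_forall fun y => ?_)
      show ‖om m ξ y‖ ^ 2 / L ^ 2 = (L ^ 2)⁻¹ • ‖om m ξ y‖ ^ 2
      rw [smul_eq_mul, div_eq_inv_mul]
    exact HasDerivAt.comp_hasFDerivAt (h₂ := cut) (f := fun y => ‖om m ξ y‖ ^ 2 / L ^ 2) x hd h1'
  have h4 : HasFDerivAt (fun y => Real.exp (-(1 / 2) * qK m ξ K y))
      (Real.exp (-(1 / 2) * qK m ξ K x) • ((-(1 / 2) : ℝ) •
      ((fderivInnerCLM ℝ (om m ξ x, K (om m ξ x))).comp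
        ((Real.sqrt m • ContinuousLinearMap.id ℝ (Cfg d)).prod
          (K.comp (Real.sqrt m • ContinuousLinearMap.id ℝ (Cfg d))))))) x :=
    (h2.const_mul (-(1 / 2) : ℝ)).exp
  have h5 := h3.mul h4
  have h6 : HasFDerivAt (ph m L ξ K) _ x := h5
  refine ⟨h6.differentiableAt, ?_⟩
  rw [h6.fderiv]
  have e1 : (2 • (innerSL ℝ (om m ξ x)).comp (Real.sqrt m • ContinuousLinearMap.id ℝ (Cfg d)))
      (vf S k l a x) = 0 := by
    have : inner ℝ (om m ξ x) (vf S k l a (om m ξ x)) = 0 := by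
      have h := inner_vf_anti S k l a (om m ξ x) (om m ξ x)
      have h' := real_inner_comm (om m ξ x) (vf S k l a (om m ξ x))
      linarith
    rw [← hv, inner_smul_right] at this
    simpa using this
  have e2 : ((fderivInnerCLM ℝ (om m ξ x, K (om m ξ x))).comp
        ((Real.sqrt m • ContinuousLinearMap.id ℝ (Cfg d)).prod
          (K.comp (Real.sqrt m • ContinuousLinearMap.id ℝ (Cfg d))))) (vf S k l a x) = 0 := by
    rw [ContinuousLinearMap.comp_apply, ContinuousLinearMap.prod_apply, fderivInnerCLM_apply]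
    simp only [ContinuousLinearMap.smul_apply, ContinuousLinearMap.comp_apply,
      ContinuousLinearMap.id_apply, hv]
    have g1 := inner_vf_anti S k l a (om m ξ x) (K (om m ξ x))
    rw [← hc] at g1
    linarith
  simp only [ContinuousLinearMap.add_apply, ContinuousLinearMap.smul_apply, e1, e2, smul_zero,
    add_zero]

end TvJ935

open TvJ935 in
theorem tvJ {d : ℕ} {F : Type*} [NormedAddCommGroup F] [InnerProductSpace ℂ F]
    (S : Setup d F) : TvJStmt S := by
  intro ξ K hK Ω k l _ a hξ hc hΩ m L hm _ x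
  obtain ⟨h1, h2⟩ := fderiv_ph S ξ K hK k l a hξ hc m L hm x
  have h := J_add_G S k l a (ph m L ξ K) Ω x h1
  unfold tv
  rw [h, h2, hΩ]
  simp

end Vale.Agent.P353.AN.G
end

section

/-! # P353, all `N`, block G30: near constancy of the Gaussian along the group -/

open MeasureTheory Filter Topology
open scoped ContDiff

namespace Vale.Agent.P353.AN.G

open Vale.Agent.P353.Z Vale.Agent.P353.Z.U
open Vale.Agent.P353.Z.Setup (c3)

namespace NearConAux

universe w

variable {N d : ℕ} {F : Type w} [NormedAddCommGroup F] [InnerProductSpace ℂ F]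

/-- `V_1(ξ + t w) / t²` as a continuous function of `t` -/
noncomputable def ncg (S : Setup d F) (ξ w : Cfg d) (t : ℝ) : ℝ :=
  (1 / 2) * (∑ k, ∑ A, (S.LG ξ k A w + t * S.FF A (c3 (k + 1)) (c3 (k + 2)) w) ^ 2) +
    (1 / 2) * (∑ i : Fin 9, ∑ A, if i.val < 3 then 0 else w (i, A) ^ 2) +
    (1 / 4) * (∑ i : Fin 9, ∑ j : Fin 9, ∑ A,
      if i.val < 3 ∧ j.val < 3 then 0 else (S.LF ξ A i j w + t * S.FF A i j w) ^ 2)

lemma ncg_cont (S : Setup d F) (ξ w : Cfg d) : Continuous (ncg S ξ w) := by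
  unfold ncg
  refine ((continuous_const.mul (continuous_finsetSum _ fun k _ => continuous_finsetSum _ fun A _ =>
    ?_)).add continuous_const).add (continuous_const.mul (continuous_finsetSum _ fun i _ =>
      continuous_finsetSum _ fun j _ => continuous_finsetSum _ fun A _ => ?_))
  · exact (continuous_const.add (continuous_id.mul continuous_const)).pow 2
  · split_ifs
    · exact continuous_const
    · exact (continuous_const.add (continuous_id.mul continuous_const)).pow 2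

lemma ncg_zero (S : Setup d F) (ξ w : Cfg d) : ncg S ξ w 0 = S.hq ξ w := by
  unfold ncg Setup.hq
  simp only [zero_mul, add_zero]

lemma FF_smul (S : Setup d F) (A : Fin d) (i j : Fin 9) (t : ℝ) (w : Cfg d) :
    S.FF A i j (t • w) = t ^ 2 * S.FF A i j w := by
  unfold Setup.FF
  have h : ∑ B, ∑ C, S.f A B C * (t • w) (i, B) * (t • w) (j, C) =
      t ^ 2 * ∑ B, ∑ C, S.f A B C * w (i, B) * w (j, C) := by
    simp only [Finset.mul_sum, PiLp.smul_apply, smul_eq_mul]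
    refine Finset.sum_congr rfl fun B _ => Finset.sum_congr rfl fun C _ => ?_
    ring
  rw [h]
  ring

lemma ncg_eq (S : Setup d F) {ξ : Cfg d} (h : S.Vm 1 ξ = 0) (w : Cfg d) (t : ℝ) :
    S.Vm 1 (ξ + t • w) = t ^ 2 * ncg S ξ w t := by
  obtain ⟨h1, h2, h3⟩ := hes_zero S h
  have e1 : ∀ k A, S.GG 1 k A (ξ + t • w) =
      t * (S.LG ξ k A w + t * S.FF A (c3 (k + 1)) (c3 (k + 2)) w) := by
    intro k A
    have h4 := h1 k A
    unfold Setup.GG at h4 ⊢
    unfold Setup.LG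
    rw [hes_FF_add, FF_smul, NearAux.LF_smul, PiLp.add_apply, PiLp.smul_apply, smul_eq_mul]
    linear_combination h4
  have e2 : ∀ (i : Fin 9) A, (if i.val < 3 then 0 else (ξ + t • w) (i, A) ^ 2 : ℝ) =
      t ^ 2 * (if i.val < 3 then 0 else w (i, A) ^ 2 : ℝ) := by
    intro i A
    by_cases hi : i.val < 3
    · rw [if_pos hi, if_pos hi, mul_zero]
    · rw [if_neg hi, if_neg hi, PiLp.add_apply, PiLp.smul_apply, smul_eq_mul, h2 i A hi]
      ring
  have e3 : ∀ (i j : Fin 9) A,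
      (if i.val < 3 ∧ j.val < 3 then 0 else S.FF A i j (ξ + t • w) ^ 2 : ℝ) =
      t ^ 2 * (if i.val < 3 ∧ j.val < 3 then 0 else
        (S.LF ξ A i j w + t * S.FF A i j w) ^ 2 : ℝ) := by
    intro i j A
    by_cases hij : i.val < 3 ∧ j.val < 3
    · rw [if_pos hij, if_pos hij, mul_zero]
    · rw [if_neg hij, if_neg hij, hes_FF_add, FF_smul, NearAux.LF_smul, h3 i j A hij]
      ring
  rw [sq_stmt S 1 (ξ + t • w)]
  unfold ncg
  simp only [e1, e2, e3, mul_pow]
  simp only [← Finset.mul_sum]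
  ring

/-- the quadratic form is invariant under the stabiliser -/
lemma hq_stab (M : BFSS.Model N d F) (h22 : ActStmt M) {S : Setup d F} (hS : Rep M S)
    {ξ : Cfg d} (h : S.Vm 1 ξ = 0) {U : BFSS.SU N} (hU : M.act U ξ = ξ) (x : Cfg d) :
    S.hq ξ (M.act U x) = S.hq ξ x := by
  obtain ⟨-, -, hadd, hsm, -, -, hV⟩ := h22
  have key : ∀ t : ℝ, t ≠ 0 → ncg S ξ (M.act U x) t = ncg S ξ x t := by
    intro t ht
    have h1 : S.Vm 1 (ξ + t • M.act U x) = S.Vm 1 (ξ + t • x) := by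
      have h2 : ξ + t • M.act U x = M.act U (ξ + t • x) := by
        rw [hadd, hsm, hU]
      rw [h2, hV S hS]
    rw [ncg_eq S h, ncg_eq S h] at h1
    exact mul_left_cancel₀ (pow_ne_zero 2 ht) h1
  have hcl : IsClosed {t : ℝ | ncg S ξ (M.act U x) t = ncg S ξ x t} :=
    isClosed_eq (ncg_cont S ξ _) (ncg_cont S ξ _)
  have hde : Dense {t : ℝ | t ≠ 0} := by
    have := dense_compl_singleton (0 : ℝ)
    exact this
  have h0 : (0 : ℝ) ∈ {t : ℝ | ncg S ξ (M.act U x) t = ncg S ξ x t} := by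
    have h3 : closure {t : ℝ | t ≠ 0} ⊆ {t : ℝ | ncg S ξ (M.act U x) t = ncg S ξ x t} :=
      closure_minimal (fun t ht => key t ht) hcl
    exact h3 (hde 0)
  have h4 : ncg S ξ (M.act U x) 0 = ncg S ξ x 0 := h0
  rwa [ncg_zero, ncg_zero] at h4

/-- the action as a linear map -/
noncomputable def actL (M : BFSS.Model N d F) (h22 : ActStmt M) (U : BFSS.SU N) :
    Cfg d →L[ℝ] Cfg d :=
  LinearMap.mkContinuous
    { toFun := fun x => M.act U x
      map_add' := fun x y => h22.2.2.1 U x y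
      map_smul' := fun c x => h22.2.2.2.1 U c x } 1
    (fun x => by
      rw [one_mul]
      exact (h22.2.2.2.2.1 U x).le)

lemma actL_apply (M : BFSS.Model N d F) (h22 : ActStmt M) (U : BFSS.SU N) (x : Cfg d) :
    actL M h22 U x = M.act U x := rfl

lemma act_inner (M : BFSS.Model N d F) (h22 : ActStmt M) (U : BFSS.SU N) (x y : Cfg d) :
    inner ℝ (M.act U x) (M.act U y) = inner ℝ x y := by
  have h : ∀ z, ‖actL M h22 U z‖ = ‖z‖ := fun z => h22.2.2.2.2.1 U z
  have := (LinearMap.norm_map_iff_inner_map_map (𝕜 := ℝ) (actL M h22 U)).1 h x y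
  exact this

/-- a form bound by polarisation -/
lemma sq_pol {K : Cfg d →L[ℝ] Cfg d} (K' : Cfg d →L[ℝ] Cfg d)
    (hK : ∀ x y, inner ℝ (K x) y = inner ℝ x (K y))
    (hK' : ∀ x y, inner ℝ (K' x) y = inner ℝ x (K' y))
    (h : ∀ x, ‖K' x‖ ^ 2 = ‖K x‖ ^ 2) (x : Cfg d) : K' (K' x) = K (K x) := by
  have h1 : ∀ x y, inner ℝ (K' x) (K' y) = inner ℝ (K x) (K y) := by
    intro x y
    have h2 := h (x + y)
    rw [map_add, map_add, norm_add_sq_real, norm_add_sq_real, h x, h y] at h2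
    linarith
  refine ext_inner_right ℝ fun y => ?_
  rw [hK', hK, h1]

/-- the stabiliser commutes with `K` -/
lemma K_comm (M : BFSS.Model N d F) (h2 : SqCommStmt) (h22 : ActStmt M) {S : Setup d F}
    (hS : Rep M S) {ξ : Cfg d} (h : S.Vm 1 ξ = 0) {K : Cfg d →L[ℝ] Cfg d} (hK : S.IsK ξ K)
    {U : BFSS.SU N} (hU : M.act U ξ = ξ) (x : Cfg d) :
    K (M.act U x) = M.act U (K x) := by
  have hinv1 : ∀ y, M.act U⁻¹ (M.act U y) = y := by
    intro y
    rw [← h22.1, inv_mul_cancel, h22.2.1]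
  have hinv2 : ∀ y, M.act U (M.act U⁻¹ y) = y := by
    intro y
    rw [← h22.1, mul_inv_cancel, h22.2.1]
  set K' : Cfg d →L[ℝ] Cfg d := (actL M h22 U⁻¹).comp (K.comp (actL M h22 U)) with hK'
  have hK'a : ∀ y, K' y = M.act U⁻¹ (K (M.act U y)) := fun y => rfl
  have hsym : ∀ x y, inner ℝ (K' x) y = inner ℝ x (K' y) := by
    intro x y
    rw [hK'a, hK'a, ← act_inner M h22 U (M.act U⁻¹ (K (M.act U x))) y, hinv2, hK.symm,
      ← act_inner M h22 U x (M.act U⁻¹ (K (M.act U y))), hinv2]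
  have hn : ∀ x, ‖K' x‖ ^ 2 = ‖K x‖ ^ 2 := by
    intro x
    rw [hK'a, h22.2.2.2.2.1, hK.sq, hK.sq, hq_stab M h22 hS h hU]
  have hsq := sq_pol K' hK.symm hsym hn
  have hc : ∀ y, actL M h22 U (K (K y)) = K (K (actL M h22 U y)) := by
    intro y
    rw [← hsq y, hK'a, hK'a, hinv2, actL_apply, hinv2, actL_apply]
  have := h2 (Cfg d) K (actL M h22 U) hK.symm hK.pos hc x
  exact this.symm

/-- uniform near invariance of the form `⟨w, K w⟩` -/
lemma near_unif (M : BFSS.Model N d F) (h2 : SqCommStmt) (h22 : ActStmt M) {S : Setup d F}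
    (hS : Rep M S) {ξ : Cfg d} (h : S.Vm 1 ξ = 0) {K : Cfg d →L[ℝ] Cfg d} (hK : S.IsK ξ K)
    {ε : ℝ} (hε : 0 < ε) : ∃ δ : ℝ, 0 < δ ∧ ∀ (U : BFSS.SU N) (w : Cfg d),
      ‖M.act U ξ - ξ‖ ≤ δ →
      |inner ℝ (M.act U w) (K (M.act U w)) - inner ℝ w (K w)| ≤ ε * ‖w‖ ^ 2 := by
  have hact : Continuous fun p : BFSS.SU N × Cfg d => M.act p.1 p.2 := h22.2.2.2.2.2.1
  set G : BFSS.SU N × Cfg d → ℝ := fun p =>
    |inner ℝ (M.act p.1 p.2) (K (M.act p.1 p.2)) - inner ℝ p.2 (K p.2)| with hG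
  have hGc : Continuous G := by
    refine Continuous.abs (Continuous.sub ?_ ?_)
    · exact hact.inner (K.continuous.comp hact)
    · exact continuous_snd.inner (K.continuous.comp continuous_snd)
  set C : Set (BFSS.SU N × Cfg d) := (Set.univ ×ˢ Metric.sphere (0 : Cfg d) 1) ∩ {p | ε ≤ G p}
    with hC
  have hCc : IsCompact C := by
    refine (isCompact_univ.prod (isCompact_sphere (0 : Cfg d) 1)).inter_right ?_
    exact isClosed_le continuous_const hGc
  set R : BFSS.SU N × Cfg d → ℝ := fun p => ‖M.act p.1 ξ - ξ‖ with hR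
  have hRc : Continuous R := by
    refine Continuous.norm (Continuous.sub ?_ continuous_const)
    exact hact.comp (continuous_fst.prodMk continuous_const)
  have hpos : ∀ p ∈ C, 0 < R p := by
    rintro ⟨U, w⟩ ⟨-, hp⟩
    by_contra hcon
    have h0 : ‖M.act U ξ - ξ‖ = 0 := le_antisymm (not_lt.1 hcon) (norm_nonneg _)
    have h1 : M.act U ξ = ξ := sub_eq_zero.1 (norm_eq_zero.1 h0)
    have h3 : G (U, w) = 0 := by
      show |inner ℝ (M.act U w) (K (M.act U w)) - inner ℝ w (K w)| = 0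
      rw [K_comm M h2 h22 hS h hK h1, act_inner M h22, sub_self, abs_zero]
    have h4 : ε ≤ G (U, w) := hp
    rw [h3] at h4
    exact absurd h4 (not_le.2 hε)
  have hδ : ∃ δ : ℝ, 0 < δ ∧ ∀ p ∈ C, δ < R p := by
    rcases C.eq_empty_or_nonempty with he | hne
    · exact ⟨1, one_pos, fun p hp => by rw [he] at hp; exact absurd hp (Set.notMem_empty p)⟩
    · obtain ⟨p₀, hp₀, hmin⟩ := hCc.exists_isMinOn hne hRc.continuousOn
      refine ⟨R p₀ / 2, half_pos (hpos p₀ hp₀), fun p hp => ?_⟩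
      have := hmin hp
      have h5 : R p₀ ≤ R p := this
      exact lt_of_lt_of_le (half_lt_self (hpos p₀ hp₀)) h5
  obtain ⟨δ, hδ0, hδ⟩ := hδ
  refine ⟨δ, hδ0, fun U w hUw => ?_⟩
  by_cases hw : w = 0
  · subst hw
    have h0 : M.act U (0 : Cfg d) = 0 := (actL M h22 U).map_zero
    rw [h0]
    simp
  have hnw : 0 < ‖w‖ := norm_pos_iff.2 hw
  obtain ⟨v, hv⟩ : ∃ v : Cfg d, v = ‖w‖⁻¹ • w := ⟨_, rfl⟩
  have hwv : w = ‖w‖ • v := by
    rw [hv, smul_smul, mul_inv_cancel₀ hnw.ne', one_smul]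
  have hv1 : ‖v‖ = 1 := by
    rw [hv, norm_smul, norm_inv, norm_norm, inv_mul_cancel₀ hnw.ne']
  have hGv : G (U, v) < ε := by
    by_contra hcon
    have hmem : (U, v) ∈ C := ⟨⟨Set.mem_univ _, by simpa using hv1⟩, not_lt.1 hcon⟩
    have := hδ _ hmem
    have h6 : δ < ‖M.act U ξ - ξ‖ := this
    exact absurd hUw (not_le.2 h6)
  have hGv' : |inner ℝ (M.act U v) (K (M.act U v)) - inner ℝ v (K v)| < ε := hGv
  have e1 : inner ℝ (M.act U w) (K (M.act U w)) = ‖w‖ ^ 2 * inner ℝ (M.act U v) (K (M.act U v)) := by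
    have h7 : M.act U w = ‖w‖ • M.act U v := by
      conv_lhs => rw [hwv]
      exact h22.2.2.2.1 U ‖w‖ v
    rw [h7, map_smul, inner_smul_left, inner_smul_right]
    simp only [conj_trivial]
    ring
  have e2 : inner ℝ w (K w) = ‖w‖ ^ 2 * inner ℝ v (K v) := by
    obtain ⟨r, hr⟩ : ∃ r : ℝ, r = ‖w‖ := ⟨_, rfl⟩
    rw [← hr] at hwv ⊢
    rw [hwv, map_smul, inner_smul_left, inner_smul_right]
    simp only [conj_trivial]
    ring
  rw [e1, e2, ← mul_sub, abs_mul, abs_of_nonneg (sq_nonneg ‖w‖), mul_comm]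
  exact mul_le_mul_of_nonneg_right hGv'.le (sq_nonneg _)

end NearConAux

open NearConAux in
/-- **G30 NearCon** -/
theorem nearCon {N d : ℕ} {F : Type*} [NormedAddCommGroup F] [InnerProductSpace ℂ F]
    (M : BFSS.Model N d F) (h2 : SqCommStmt) (h22 : ActStmt M) : NearConStmt M := by
  intro S hS ξ hξ K hK L hL
  obtain ⟨C, hC0, hTay⟩ := tay_stmt S
  have hε : 0 < 1 / (4 * L ^ 2) := by positivity
  obtain ⟨δ, hδ0, hδ⟩ := near_unif M h2 h22 hS hξ hK hε
  set q : ℝ := Real.sqrt (4 * C) with hq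
  have hq0 : 0 ≤ q := Real.sqrt_nonneg _
  have hq2 : q ^ 2 = 4 * C := Real.sq_sqrt (by positivity)
  refine ⟨max 1 (max (4 * L / δ) (128 * q * L ^ 3)), lt_of_lt_of_le one_pos (le_max_left _ _),
    fun m hm U x hx hy => ?_⟩
  have hm1 : 1 ≤ m := (le_max_left _ _).trans hm
  have hm2 : 4 * L / δ ≤ m := ((le_max_left _ _).trans (le_max_right _ _)).trans hm
  have hm3 : 128 * q * L ^ 3 ≤ m := ((le_max_right _ _).trans (le_max_right _ _)).trans hm
  have hm0 : 0 < m := lt_of_lt_of_le one_pos hm1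
  obtain ⟨s, hs⟩ : ∃ s : ℝ, s = Real.sqrt m * m := ⟨_, rfl⟩
  have hsm : m ≤ s := by
    have : 1 ≤ Real.sqrt m := Real.one_le_sqrt.2 hm1
    rw [hs]
    nlinarith
  have hs0 : 0 < s := lt_of_lt_of_le hm0 hsm
  -- the displacement
  obtain ⟨a, ha⟩ : ∃ a : Cfg d, a = M.act U ξ - ξ := ⟨_, rfl⟩
  have hUξ : M.act U ξ = ξ + a := by rw [ha]; abel
  have hω : om m ξ (M.act U x) = M.act U (om m ξ x) + s • a := by
    unfold om
    have h1 : M.act U (Real.sqrt m • (x - m • ξ)) =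
        Real.sqrt m • (M.act U x - m • M.act U ξ) := by
      have h3 : x - m • ξ = x + (-m) • ξ := by rw [neg_smul]; abel
      rw [h22.2.2.2.1, h3, h22.2.2.1, h22.2.2.2.1, neg_smul, ← sub_eq_add_neg]
    rw [h1, ha, hs, mul_smul, ← smul_add]
    congr 1
    rw [smul_sub]
    abel
  have hb : ‖s • a‖ ≤ 4 * L := by
    have h3 : s • a = om m ξ (M.act U x) - M.act U (om m ξ x) := by rw [hω]; abel
    rw [h3]
    refine (norm_sub_le _ _).trans ?_
    rw [h22.2.2.2.2.1]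
    linarith
  have hsa : s * ‖a‖ ≤ 4 * L := by
    rwa [norm_smul, Real.norm_of_nonneg hs0.le] at hb
  have hKa : ‖K a‖ ≤ q * ‖a‖ ^ 2 := by
    have h3 := hTay ξ a hξ
    rw [← hUξ, h22.2.2.2.2.2.2 S hS, hξ] at h3
    have h4 : ‖K a‖ ^ 2 ≤ (q * ‖a‖ ^ 2) ^ 2 := by
      rw [hK.sq, mul_pow, hq2]
      nlinarith
    exact (abs_le_of_sq_le_sq' h4 (by positivity)).2
  have hKb : ‖K (s • a)‖ ≤ 16 * q * L ^ 2 / m := by
    rw [map_smul, norm_smul, Real.norm_of_nonneg hs0.le]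
    rw [le_div_iff₀ hm0]
    have h5 : s * ‖K a‖ * m ≤ s * (q * ‖a‖ ^ 2) * s := by
      have := norm_nonneg (K a)
      gcongr
    have h6 : s * (q * ‖a‖ ^ 2) * s = q * (s * ‖a‖) ^ 2 := by ring
    have h7 : (s * ‖a‖) ^ 2 ≤ (4 * L) ^ 2 := by
      have : 0 ≤ s * ‖a‖ := by positivity
      gcongr
    calc s * ‖K a‖ * m ≤ q * (s * ‖a‖) ^ 2 := by rw [← h6]; exact h5
      _ ≤ q * (4 * L) ^ 2 := by gcongr
      _ = 16 * q * L ^ 2 := by ring
  have haδ : ‖M.act U ξ - ξ‖ ≤ δ := by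
    rw [← ha]
    have h8 : 4 * L ≤ m * δ := (div_le_iff₀ hδ0).1 hm2
    have h9 : s * ‖a‖ ≤ s * δ := hsa.trans (h8.trans (by gcongr))
    exact le_of_mul_le_mul_left h9 hs0
  have hnear := hδ U (om m ξ x) haδ
  have hnear2 : |inner ℝ (M.act U (om m ξ x)) (K (M.act U (om m ξ x))) -
      inner ℝ (om m ξ x) (K (om m ξ x))| ≤ 1 := by
    refine hnear.trans ?_
    have h10 : ‖om m ξ x‖ ^ 2 ≤ (2 * L) ^ 2 := by
      have := norm_nonneg (om m ξ x)
      gcongr
    calc 1 / (4 * L ^ 2) * ‖om m ξ x‖ ^ 2 ≤ 1 / (4 * L ^ 2) * (2 * L) ^ 2 := by gcongr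
      _ = 1 := by field_simp; ring
  have hexp : inner ℝ (om m ξ (M.act U x)) (K (om m ξ (M.act U x))) -
      inner ℝ (M.act U (om m ξ x)) (K (M.act U (om m ξ x))) =
      2 * inner ℝ (M.act U (om m ξ x)) (K (s • a)) + inner ℝ (s • a) (K (s • a)) := by
    rw [hω, map_add, inner_add_left, inner_add_right, inner_add_right,
      ← hK.symm (s • a) (M.act U (om m ξ x)), real_inner_comm (M.act U (om m ξ x)) (K (s • a))]
    ring
  have hsmall : |inner ℝ (om m ξ (M.act U x)) (K (om m ξ (M.act U x))) -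
      inner ℝ (M.act U (om m ξ x)) (K (M.act U (om m ξ x)))| ≤ 1 := by
    rw [hexp]
    have h11 : |inner ℝ (M.act U (om m ξ x)) (K (s • a))| ≤ 2 * L * (16 * q * L ^ 2 / m) := by
      refine (abs_real_inner_le_norm _ _).trans ?_
      rw [h22.2.2.2.2.1]
      have := norm_nonneg (K (s • a))
      gcongr
    have h12 : |inner ℝ (s • a) (K (s • a))| ≤ 4 * L * (16 * q * L ^ 2 / m) := by
      refine (abs_real_inner_le_norm _ _).trans ?_
      have := norm_nonneg (K (s • a))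
      gcongr
    have h13 : 8 * L * (16 * q * L ^ 2 / m) ≤ 1 := by
      have : 8 * L * (16 * q * L ^ 2 / m) = (128 * q * L ^ 3) / m := by ring
      rw [this, div_le_one hm0]
      exact hm3
    calc |2 * inner ℝ (M.act U (om m ξ x)) (K (s • a)) + inner ℝ (s • a) (K (s • a))|
        ≤ |2 * inner ℝ (M.act U (om m ξ x)) (K (s • a))| + |inner ℝ (s • a) (K (s • a))| :=
          abs_add_le _ _
      _ = 2 * |inner ℝ (M.act U (om m ξ x)) (K (s • a))| + |inner ℝ (s • a) (K (s • a))| := by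
          rw [abs_mul, abs_two]
      _ ≤ 2 * (2 * L * (16 * q * L ^ 2 / m)) + 4 * L * (16 * q * L ^ 2 / m) := by
          linarith
      _ = 8 * L * (16 * q * L ^ 2 / m) := by ring
      _ ≤ 1 := h13
  unfold qK
  have := abs_add_le (inner ℝ (om m ξ (M.act U x)) (K (om m ξ (M.act U x))) -
      inner ℝ (M.act U (om m ξ x)) (K (M.act U (om m ξ x))))
    (inner ℝ (M.act U (om m ξ x)) (K (M.act U (om m ξ x))) -
      inner ℝ (om m ξ x) (K (om m ξ x)))
  rw [sub_add_sub_cancel] at this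
  linarith

end Vale.Agent.P353.AN.G
end

section

/-! # P353, all `N`, block G, G37: `c_N ≥ p(N)` -/

open MeasureTheory Filter Topology
open scoped ContDiff

namespace Vale.Agent.P353.AN.G

open Vale.Agent.P353.Z Vale.Agent.P353.Z.U

universe w

section

variable {d : ℕ} {F : Type w} [NormedAddCommGroup F] [InnerProductSpace ℂ F]

theorem G37_loc (S : Setup d F) (m : ℝ) (β : Fin 16) {u : Cfg d → F} {x : Cfg d}
    (hx : x ∉ tsupport u) : S.Qm m β u x = 0 := by
  have h0 : u x = 0 := image_eq_zero_of_notMem_tsupport hx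
  have h1 : ∀ i A, pd i A u x = 0 := by
    intro i A
    have : fderiv ℝ u x = 0 := by
      have h := (tsupport_fderiv_subset ℝ (f := u))
      by_contra hne
      exact hx (h (subset_tsupport _ hne))
    simp [pd, this]
  simp [Setup.Qm, Setup.Q, h0, h1]

theorem G37_nsq {k : ℕ} (a : Fin k → ℂ) {v : Fin k → Cfg d → F} (hv : ∀ j, Setup.Tst (v j))
    (hd : ∀ x i j, v i x ≠ 0 → v j x ≠ 0 → i = j) :
    nsq (fun x => ∑ j, a j • v j x) = ∑ j, ‖a j‖ ^ 2 * nsq (v j) := by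
  have h1 : ∀ x, ‖∑ j, a j • v j x‖ ^ 2 = ∑ j, ‖a j‖ ^ 2 * ‖v j x‖ ^ 2 := by
    intro x
    by_cases h : ∃ i, v i x ≠ 0
    · obtain ⟨i, hi⟩ := h
      have h2 : ∀ j, j ≠ i → v j x = 0 := fun j hj => by
        by_contra hne
        exact hj (hd x j i hne hi)
      rw [Finset.sum_eq_single i (fun j _ hj => by rw [h2 j hj, smul_zero])
        (fun h => absurd (Finset.mem_univ i) h),
        Finset.sum_eq_single i (fun j _ hj => by rw [h2 j hj]; simp)
        (fun h => absurd (Finset.mem_univ i) h), norm_smul, mul_pow]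
    · push Not at h
      simp [h]
  have h2 : ∀ j, Integrable (fun x => ‖a j‖ ^ 2 * ‖v j x‖ ^ 2)
      (volume : Measure (Cfg d)) := by
    intro j
    exact (hv j).norm_sq_int.const_mul _
  unfold nsq
  simp only [h1]
  rw [integral_finsetSum _ fun j _ => h2 j]
  refine Finset.sum_congr rfl fun j _ => ?_
  rw [integral_const_mul]

end

section M

variable {N d : ℕ} {F : Type w} [NormedAddCommGroup F] [InnerProductSpace ℂ F]

theorem G37_iso {M : BFSS.Model N d F} (h22 : ActStmt M) (U : BFSS.SU N) (x y : Cfg d) :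
    ‖M.act U x - M.act U y‖ = ‖x - y‖ := by
  obtain ⟨-, -, hadd, hsmul, hnorm, -⟩ := h22
  have h1 : x - y = x + (-1 : ℝ) • y := by rw [neg_one_smul, sub_eq_add_neg]
  rw [← hnorm U (x - y), h1, hadd, hsmul, neg_one_smul, sub_eq_add_neg]

theorem G37_dist {M : BFSS.Model N d F} (h22 : ActStmt M) {p q : Cfg d}
    (h : ∀ U, M.act U p ≠ q) : ∃ η : ℝ, 0 < η ∧ ∀ U V, η ≤ ‖M.act U p - M.act V q‖ := by
  have hc : Continuous fun U : BFSS.SU N => ‖M.act U p - q‖ := by
    have h1 := h22.2.2.2.2.2.1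
    have h3 : Continuous fun U : BFSS.SU N => ((U, p) : BFSS.SU N × Cfg d) :=
      continuous_id.prodMk continuous_const
    have h2 : Continuous ((fun p : BFSS.SU N × Cfg d => M.act p.1 p.2) ∘
      fun U : BFSS.SU N => ((U, p) : BFSS.SU N × Cfg d)) := Continuous.comp h1 h3
    exact (Continuous.sub h2 continuous_const).norm
  obtain ⟨U0, -, hU0⟩ := isCompact_univ.exists_isMinOn (Set.univ_nonempty (α := BFSS.SU N))
    hc.continuousOn
  refine ⟨‖M.act U0 p - q‖, norm_pos_iff.2 (sub_ne_zero.2 (h U0)), fun U V => ?_⟩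
  have h3 : M.act U p = M.act V (M.act (V⁻¹ * U) p) := by
    rw [← h22.1, mul_inv_cancel_left]
  rw [h3, G37_iso h22]
  exact isMinOn_iff.1 hU0 (V⁻¹ * U) (Set.mem_univ _)

/-- **G37 Main** -/
theorem main_stmt [FiniteDimensional ℂ F] (M : BFSS.Model N d F) (h22 : ActStmt M)
    (h35 : ZerStmt M) (h36 : OneStmt M) : GStmt M := by
  classical
  intro hd S hS m' hm' c hc
  obtain ⟨ξ, hz, hξ⟩ := h35 S hS
  choose C m0 hm0 hu using fun π => h36 hd S hS (ξ π) (hz π) 1 one_pos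
  have hη' : ∀ π π' : Nat.Partition N, ∃ η : ℝ, 0 < η ∧
      (π ≠ π' → ∀ U V, η ≤ ‖M.act U (ξ π) - M.act V (ξ π')‖) := by
    intro π π'
    by_cases h : π = π'
    · exact ⟨1, one_pos, fun h' => absurd h h'⟩
    · obtain ⟨η, h1, h2⟩ := G37_dist h22 (p := ξ π) (q := ξ π') fun U hU => h (hξ π π' U hU)
      exact ⟨η, h1, fun _ => h2⟩
  choose η hη0 hη using hη'
  obtain ⟨R, hR⟩ : ∃ R : ℝ, R = 1 + ∑ π, |C π| := ⟨_, rfl⟩
  have hCR : ∀ π, 1 + |C π| ≤ R := fun π => by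
    have := Finset.single_le_sum (f := fun π => |C π|) (fun π _ => abs_nonneg (C π))
      (Finset.mem_univ π)
    linarith
  have hR0 : 0 ≤ R := by
    rw [hR]
    have : 0 ≤ ∑ π, |C π| := Finset.sum_nonneg fun π _ => abs_nonneg (C π)
    linarith
  obtain ⟨m, hm⟩ : ∃ m : ℝ, m = 1 + ∑ π, m0 π + ∑ p : Nat.Partition N × Nat.Partition N,
      (2 * R + 1) / η p.1 p.2 := ⟨_, rfl⟩
  have hs1 : 0 ≤ ∑ π, m0 π := Finset.sum_nonneg fun π _ => (hm0 π).le
  have hs2 : 0 ≤ ∑ p : Nat.Partition N × Nat.Partition N, (2 * R + 1) / η p.1 p.2 :=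
    Finset.sum_nonneg fun p _ => div_nonneg (by linarith) (hη0 _ _).le
  have hm1 : 1 ≤ m := by rw [hm]; linarith
  have hmpos : 0 < m := by linarith
  have hmm : ∀ π, m0 π ≤ m := fun π => by
    have := Finset.single_le_sum (f := m0) (fun π _ => (hm0 π).le) (Finset.mem_univ π)
    rw [hm]
    linarith
  have hmη : ∀ π π', 2 * R + 1 ≤ m * η π π' := fun π π' => by
    have h1 := Finset.single_le_sum (f := fun p : Nat.Partition N × Nat.Partition N =>
      (2 * R + 1) / η p.1 p.2) (fun p _ => div_nonneg (by linarith) (hη0 _ _).le)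
      (Finset.mem_univ (π, π'))
    simp only at h1
    rw [← div_le_iff₀ (hη0 π π'), hm]
    linarith
  choose u hInv hpos hQ hsupp using fun π => hu π m (hmm π)
  have hsq : 1 ≤ Real.sqrt m := Real.one_le_sqrt.2 hm1
  have hn1 : ∀ π x, u π x ≠ 0 → ∃ U, ‖x - m • M.act U (ξ π)‖ ≤ |C π| := by
    intro π x hx
    obtain ⟨U, hU⟩ := hsupp π x hx
    refine ⟨U, hU.trans ?_⟩
    calc C π / Real.sqrt m ≤ |C π| / Real.sqrt m :=
          div_le_div_of_nonneg_right (le_abs_self _) (by linarith)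
      _ ≤ |C π| := div_le_self (abs_nonneg _) hsq
  have hn2 : ∀ π x, x ∈ tsupport (u π) → ∃ U, ‖x - m • M.act U (ξ π)‖ ≤ R := by
    intro π x hx
    obtain ⟨y, hy, hxy⟩ := Metric.mem_closure_iff.1 hx 1 one_pos
    obtain ⟨U, hU⟩ := hn1 π y hy
    refine ⟨U, ?_⟩
    have h1 : x - m • M.act U (ξ π) = (x - y) + (y - m • M.act U (ξ π)) := by abel
    rw [h1]
    refine (norm_add_le _ _).trans ?_
    rw [dist_eq_norm] at hxy
    have := hCR π
    linarith
  have hdis : ∀ π π' x, x ∈ tsupport (u π) → x ∈ tsupport (u π') → π = π' := by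
    intro π π' x h1 h2
    by_contra hne
    obtain ⟨U, hU⟩ := hn2 π x h1
    obtain ⟨V, hV⟩ := hn2 π' x h2
    have h3 := hη π π' hne U V
    have h4 : m * ‖M.act U (ξ π) - M.act V (ξ π')‖ ≤ 2 * R := by
      have h5 : m • M.act U (ξ π) - m • M.act V (ξ π') =
          (x - m • M.act V (ξ π')) - (x - m • M.act U (ξ π)) := by abel
      have h6 := norm_sub_le (x - m • M.act V (ξ π')) (x - m • M.act U (ξ π))
      rw [← h5, ← smul_sub, norm_smul, Real.norm_of_nonneg hmpos.le] at h6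
      linarith
    have h7 := mul_le_mul_of_nonneg_left h3 hmpos.le
    have h8 := hmη π π'
    linarith
  refine Z.U.All.thmB_all S _ m hmpos ?_ m' hm' c hc
  obtain ⟨e⟩ : Nonempty (Fin (Fintype.card (Nat.Partition N)) ≃ Nat.Partition N) :=
    ⟨(Fintype.equivFin _).symm⟩
  refine ⟨fun j => u (e j), fun j => hInv (e j), fun a ha => ?_⟩
  have hT : ∀ j, Setup.Tst (u (e j)) := fun j => (hInv (e j)).1
  have e1 : nsq (fun x => ∑ j, a j • u (e j) x) = ∑ j, ‖a j‖ ^ 2 * nsq (u (e j)) :=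
    G37_nsq a hT fun x i j hi hj =>
      e.injective (hdis _ _ x (subset_tsupport _ hi) (subset_tsupport _ hj))
  have e2 : ∀ β, nsq (S.Qm m β (fun x => ∑ j, a j • u (e j) x)) =
      ∑ j, ‖a j‖ ^ 2 * nsq (S.Qm m β (u (e j))) := by
    intro β
    have h1 : S.Qm m β (fun x => ∑ j, a j • u (e j) x) =
        fun x => ∑ j, a j • S.Qm m β (u (e j)) x :=
      funext fun x => HB.Qm_sum S m β Finset.univ a (fun j => (hT j).1) x
    rw [h1]
    refine G37_nsq a (fun j => HB.Tst_Qm S m β (hT j)) fun x i j hi hj => ?_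
    have hi' : x ∈ tsupport (u (e i)) := by
      by_contra h
      exact hi (G37_loc S m β h)
    have hj' : x ∈ tsupport (u (e j)) := by
      by_contra h
      exact hj (G37_loc S m β h)
    exact e.injective (hdis _ _ x hi' hj')
  have e3 : 0 < nsq (fun x => ∑ j, a j • u (e j) x) := by
    rw [e1]
    obtain ⟨j, hj⟩ : ∃ j, a j ≠ 0 := by
      by_contra h
      push Not at h
      exact ha (funext h)
    refine Finset.sum_pos' (fun i _ => mul_nonneg (by positivity) (hpos _).le) ⟨j,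
      Finset.mem_univ _, ?_⟩
    exact mul_pos (by have := norm_pos_iff.2 hj; positivity) (hpos _)
  have e4 : ∑ β, nsq (S.Qm m β (fun x => ∑ j, a j • u (e j) x)) ≤
      m * nsq (fun x => ∑ j, a j • u (e j) x) := by
    simp only [e2]
    rw [Finset.sum_comm, e1, Finset.mul_sum]
    refine Finset.sum_le_sum fun j _ => ?_
    rw [← Finset.mul_sum]
    have h1 := hQ (e j)
    have h2 : (0 : ℝ) ≤ ‖a j‖ ^ 2 := by positivity
    calc ‖a j‖ ^ 2 * ∑ β, nsq (S.Qm m β (u (e j))) ≤ ‖a j‖ ^ 2 * (1 * m * nsq (u (e j))) :=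
          mul_le_mul_of_nonneg_left h1 h2
      _ = m * (‖a j‖ ^ 2 * nsq (u (e j))) := by ring
  refine e4.trans_lt ?_
  have : m < 8 * m := by linarith
  exact mul_lt_mul_of_pos_right this e3

end M

end Vale.Agent.P353.AN.G
end
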