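import Mathlib
import Vale.Agent.P353.BdA.B1

set_option linter.all false

section

/-! # P353, all `N`, block B: dependence of the fibre supercharge on the matrices -/

open MeasureTheory Filter Topology Matrix
open scoped ContDiff

namespace Vale.Agent.P353.Z

variable {d dh dm : ℕ} {F : Type*} [NormedAddCommGroup F] [InnerProductSpace ℂ F]

/-- entries of the inverse are bounded near an invertible matrix -/
private lemma pert_inv_bdd (M : Matrix (Fin dm) (Fin dm) ℝ) (hM : M.det ≠ 0) :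
    ∃ K e : ℝ, 0 < K ∧ 0 < e ∧ ∀ M' : Matrix (Fin dm) (Fin dm) ℝ, (∀ A B, |M' A B - M A B| ≤ e) →
      M'.det ≠ 0 ∧ ∀ A B, |M'⁻¹ A B| ≤ K := by
  have hdc : Continuous fun N : Matrix (Fin dm) (Fin dm) ℝ => N.det := continuous_id.matrix_det
  have hinv : ∀ A B, ContinuousAt (fun N : Matrix (Fin dm) (Fin dm) ℝ => N⁻¹ A B) M := by
    intro A B
    have h1 : (fun N : Matrix (Fin dm) (Fin dm) ℝ => N⁻¹ A B) =
        fun N => (N.det)⁻¹ * N.adjugate A B := by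
      funext N
      rw [Matrix.inv_def, Matrix.smul_apply, Ring.inverse_eq_inv', smul_eq_mul]
    rw [h1]
    have h2 : Continuous fun N : Matrix (Fin dm) (Fin dm) ℝ => N.adjugate A B :=
      (continuous_id.matrix_adjugate).matrix_elem A B
    exact (hdc.continuousAt.inv₀ hM).mul h2.continuousAt
  set K : ℝ := 1 + ∑ A, ∑ B, |M⁻¹ A B| with hK
  have hKle : ∀ A B, |M⁻¹ A B| < K := by
    intro A B
    have h1 : |M⁻¹ A B| ≤ ∑ B, |M⁻¹ A B| :=
      Finset.single_le_sum (f := fun B => |M⁻¹ A B|) (fun _ _ => abs_nonneg _) (Finset.mem_univ B)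
    have h2 : (∑ B, |M⁻¹ A B|) ≤ ∑ A, ∑ B, |M⁻¹ A B| :=
      Finset.single_le_sum (f := fun A => ∑ B, |M⁻¹ A B|)
        (fun _ _ => Finset.sum_nonneg fun _ _ => abs_nonneg _) (Finset.mem_univ A)
    rw [hK]; linarith
  have hev : ∀ᶠ N in 𝓝 M, N.det ≠ 0 ∧ ∀ A B, |N⁻¹ A B| < K := by
    refine (hdc.continuousAt.eventually_ne hM).and ?_
    rw [eventually_all]; intro A
    rw [eventually_all]; intro B
    exact (hinv A B).abs.eventually_lt continuousAt_const (hKle A B)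
  have hev' : ∀ᶠ N : Fin dm → Fin dm → ℝ in 𝓝 (fun A B => M A B),
      (Matrix.of N).det ≠ 0 ∧ ∀ A B, |(Matrix.of N)⁻¹ A B| < K := hev
  obtain ⟨e, he, hball⟩ := Metric.eventually_nhds_iff.1 hev'
  refine ⟨K, e / 2, ?_, half_pos he, ?_⟩
  · have : 0 ≤ ∑ A, ∑ B, |M⁻¹ A B| :=
      Finset.sum_nonneg fun _ _ => Finset.sum_nonneg fun _ _ => abs_nonneg _
    rw [hK]; linarith
  · intro M' hM'
    have hd : dist (fun A B => M' A B) (fun A B => M A B) < e := by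
      refine lt_of_le_of_lt ((dist_pi_le_iff (half_pos he).le).2 fun A => ?_) (half_lt_self he)
      exact (dist_pi_le_iff (half_pos he).le).2 fun B => by
        rw [Real.dist_eq]; exact hM' A B
    obtain ⟨h1, h2⟩ := hball hd
    exact ⟨h1, fun A B => (h2 A B).le⟩

/-- Lipschitz bound for the entries of the inverse -/
private lemma pert_inv_lip (M M' : Matrix (Fin dm) (Fin dm) ℝ) (hM : M.det ≠ 0) (hM' : M'.det ≠ 0)
    {K ε : ℝ} (hK : 0 ≤ K) (hε : 0 ≤ ε) (h1 : ∀ A B, |M⁻¹ A B| ≤ K) (h2 : ∀ A B, |M'⁻¹ A B| ≤ K)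
    (h3 : ∀ A B, |M' A B - M A B| ≤ ε) (A B : Fin dm) :
    |M'⁻¹ A B - M⁻¹ A B| ≤ dm * (dm * (K * K)) * ε := by
  have key : M'⁻¹ - M⁻¹ = M'⁻¹ * (M - M') * M⁻¹ := by
    rw [Matrix.mul_sub, Matrix.sub_mul, Matrix.nonsing_inv_mul _ (isUnit_iff_ne_zero.2 hM'),
      Matrix.one_mul, Matrix.mul_assoc, Matrix.mul_nonsing_inv _ (isUnit_iff_ne_zero.2 hM),
      Matrix.mul_one]
  have h4 : M'⁻¹ A B - M⁻¹ A B = ∑ Q, (∑ P, M'⁻¹ A P * (M - M') P Q) * M⁻¹ Q B := by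
    rw [← Matrix.sub_apply, key, Matrix.mul_apply]
    simp only [Matrix.mul_apply]
  rw [h4]
  refine (Finset.abs_sum_le_sum_abs _ _).trans ?_
  have h5 : ∀ Q, |(∑ P, M'⁻¹ A P * (M - M') P Q) * M⁻¹ Q B| ≤ (dm * (K * ε)) * K := by
    intro Q
    rw [abs_mul]
    refine mul_le_mul ?_ (h1 Q B) (abs_nonneg _) (by positivity)
    refine (Finset.abs_sum_le_sum_abs _ _).trans ?_
    have h6 : ∀ P, |M'⁻¹ A P * (M - M') P Q| ≤ K * ε := by
      intro P
      rw [abs_mul, Matrix.sub_apply, abs_sub_comm]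
      exact mul_le_mul (h2 A P) (h3 P Q) (abs_nonneg _) hK
    refine (Finset.sum_le_sum fun P _ => h6 P).trans ?_
    rw [Finset.sum_const, Finset.card_univ, Fintype.card_fin, nsmul_eq_mul]
  refine (Finset.sum_le_sum fun Q _ => h5 Q).trans ?_
  rw [Finset.sum_const, Finset.card_univ, Fintype.card_fin, nsmul_eq_mul]
  apply le_of_eq
  ring

private lemma pert_wt (w : Wsp dm) (i : Fin 9) (B : Fin dm) : |wt w i B| ≤ ‖w‖ := by
  unfold wt
  refine Fin.lastCases ?_ (fun j => ?_) i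
  · rw [Fin.lastCases_last, abs_zero]
    exact norm_nonneg _
  · rw [Fin.lastCases_castSucc, ← Real.norm_eq_abs]
    exact PiLp.norm_apply_le w (j, B)

private lemma pert_cont_pf {f : Wsp dm → F} (hf : FT f) (j : Fin 8) (B : Fin dm) :
    Continuous (pf j B f) := by
  have := hf.1.continuous_fderiv (by simp)
  exact this.clm_apply continuous_const

private lemma pert_cs_pf {f : Wsp dm → F} (hf : FT f) (j : Fin 8) (B : Fin dm) :
    HasCompactSupport (pf j B f) := by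
  have h := hf.2.fderiv ℝ
  exact h.comp_left
    (g := fun (v : Wsp dm →L[ℝ] F) => v (EuclideanSpace.single (j, B) (1 : ℝ))) rfl

omit [InnerProductSpace ℂ F] in
private lemma pert_sq_int {f : Wsp dm → F} (h1 : Continuous f) (h2 : HasCompactSupport f) :
    Integrable (fun w => ‖f w‖ ^ 2) (volume : Measure (Wsp dm)) := by
  have h3 : HasCompactSupport (fun w => ‖f w‖ ^ 2) :=
    h2.comp_left (g := fun v : F => ‖v‖ ^ 2) (by simp)
  exact Continuous.integrable_of_hasCompactSupport (h1.norm.pow 2) h3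

private lemma pert_integrable_pf {f : Wsp dm → F} (hf : FT f) (j : Fin 8) (B : Fin dm) :
    Integrable (fun w => ‖pf j B f w‖ ^ 2) (volume : Measure (Wsp dm)) :=
  pert_sq_int (pert_cont_pf hf j B) (pert_cs_pf hf j B)

private lemma pert_integrable_w {f : Wsp dm → F} (hf : FT f) :
    Integrable (fun w : Wsp dm => ‖((‖w‖ : ℝ) : ℂ) • f w‖ ^ 2) (volume : Measure (Wsp dm)) := by
  have h0 : Continuous fun w : Wsp dm => ((‖w‖ : ℝ) : ℂ) :=
    Complex.continuous_ofReal.comp continuous_norm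
  have h1 : Continuous fun w : Wsp dm => ((‖w‖ : ℝ) : ℂ) • f w := h0.smul hf.1.continuous
  have h2 : HasCompactSupport fun w : Wsp dm => ((‖w‖ : ℝ) : ℂ) • f w :=
    HasCompactSupport.smul_left (f := fun w : Wsp dm => ((‖w‖ : ℝ) : ℂ)) hf.2
  exact pert_sq_int h1 h2

/-- difference of the coefficients of the derivative term -/
private lemma pert_coef {K L ε a a' b b' : ℝ} (hK : 0 ≤ K) (hL : 0 ≤ L) (hε : 0 ≤ ε)
    (h1 : |a'| ≤ K) (h2 : |b| ≤ K) (h3 : |a' - a| ≤ L * ε) (h4 : |b' - b| ≤ ε) :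
    |a' * b' - a * b| ≤ (K + L * K) * ε := by
  have : a' * b' - a * b = a' * (b' - b) + (a' - a) * b := by ring
  rw [this]
  refine (abs_add_le _ _).trans ?_
  rw [abs_mul, abs_mul]
  have e1 : |a'| * |b' - b| ≤ K * ε := mul_le_mul h1 h4 (abs_nonneg _) hK
  have e2 : |a' - a| * |b| ≤ (L * ε) * K := mul_le_mul h3 h2 (abs_nonneg _) (by positivity)
  nlinarith

/-- the pointwise estimate -/
private lemma pert_point (S : Setup d F) (φ : Spl dh dm d) (D D' : Fin 9 → Matrix (Fin dm) (Fin dm) ℝ)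
    {K L ε V : ℝ} (hK : 0 ≤ K) (hL : 0 ≤ L) (hε : 0 ≤ ε) (hV : 0 ≤ V) (β : Fin 16)
    (hV8 : ∀ B, ‖S.vec (S.g 8) (φ (Sum.inr B)) β‖ ≤ V)
    (hV2 : ∀ B i j, ‖S.vec (S.g2 i j) (φ (Sum.inr B)) β‖ ≤ V)
    (hD : ∀ i A B, |D i A B| ≤ K) (hI' : ∀ A B, |(D' 8)⁻¹ A B| ≤ K)
    (hI : ∀ A B, |(D' 8)⁻¹ A B - (D 8)⁻¹ A B| ≤ L * ε)
    (hDD : ∀ i A B, |D' i A B - D i A B| ≤ ε) (f : Wsp dm → F) (w : Wsp dm) :
    ‖S.q1 φ D' β f w - S.q1 φ D β f w‖ ≤
      (dm * (V * (dm * ((K + L * K) * ε)))) * (∑ j, ∑ E, ‖pf j E f w‖) +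
      (dm * (9 * (9 * (S.κ * (dm * ε + dm * ε) * V)))) * ‖((‖w‖ : ℝ) : ℂ) • f w‖ := by
  have hsplit : S.q1 φ D' β f w - S.q1 φ D β f w =
      Complex.I • (∑ B, S.vec (S.g 8) (φ (Sum.inr B)) β (∑ C, ∑ j : Fin 8, ∑ E,
        ((((D' 8)⁻¹ B C * D' j.castSucc C E - (D 8)⁻¹ B C * D j.castSucc C E : ℝ)) : ℂ) • pf j E f w)) +
      (1 / 2 : ℂ) • ∑ B, ∑ i, ∑ j,
        ((S.κ * ((∑ C, (D' i B C - D i B C) * wt w j C) - ∑ C, (D' j B C - D j B C) * wt w i C) : ℝ) : ℂ) •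
          S.vec (S.g2 i j) (φ (Sum.inr B)) β (f w) := by
    have e1 : ∀ B, (∑ C, ∑ j : Fin 8, ∑ E,
        ((((D' 8)⁻¹ B C * D' j.castSucc C E - (D 8)⁻¹ B C * D j.castSucc C E : ℝ)) : ℂ) • pf j E f w) =
        (∑ C, (((D' 8)⁻¹ B C : ℝ) : ℂ) • ∑ j : Fin 8, ∑ E, ((D' j.castSucc C E : ℝ) : ℂ) • pf j E f w) -
        ∑ C, (((D 8)⁻¹ B C : ℝ) : ℂ) • ∑ j : Fin 8, ∑ E, ((D j.castSucc C E : ℝ) : ℂ) • pf j E f w := by
      intro B
      rw [← Finset.sum_sub_distrib]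
      refine Finset.sum_congr rfl fun C _ => ?_
      simp only [Finset.smul_sum, smul_smul, ← Finset.sum_sub_distrib, ← sub_smul]
      refine Finset.sum_congr rfl fun j _ => Finset.sum_congr rfl fun E _ => ?_
      push_cast
      rfl
    have e2 : ∀ B i j, ((S.κ * ((∑ C, (D' i B C - D i B C) * wt w j C) -
        ∑ C, (D' j B C - D j B C) * wt w i C) : ℝ) : ℂ) • S.vec (S.g2 i j) (φ (Sum.inr B)) β (f w) =
        ((S.κ * ((∑ C, D' i B C * wt w j C) - ∑ C, D' j B C * wt w i C) : ℝ) : ℂ) •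
          S.vec (S.g2 i j) (φ (Sum.inr B)) β (f w) -
        ((S.κ * ((∑ C, D i B C * wt w j C) - ∑ C, D j B C * wt w i C) : ℝ) : ℂ) •
          S.vec (S.g2 i j) (φ (Sum.inr B)) β (f w) := by
      intro B i j
      rw [← sub_smul, ← Complex.ofReal_sub]
      congr 2
      simp only [sub_mul, Finset.sum_sub_distrib]
      ring
    simp only [e1, e2, map_sub, Finset.sum_sub_distrib, smul_sub]
    unfold Setup.q1
    abel
  rw [hsplit]
  refine (norm_add_le _ _).trans (add_le_add ?_ ?_)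
  · rw [norm_smul, Complex.norm_I, one_mul]
    have a1 : ∀ B, ‖S.vec (S.g 8) (φ (Sum.inr B)) β (∑ C, ∑ j : Fin 8, ∑ E,
        ((((D' 8)⁻¹ B C * D' j.castSucc C E - (D 8)⁻¹ B C * D j.castSucc C E : ℝ)) : ℂ) • pf j E f w)‖ ≤
        V * (dm * (((K + L * K) * ε) * ∑ j, ∑ E, ‖pf j E f w‖)) := by
      intro B
      refine (ContinuousLinearMap.le_opNorm _ _).trans (mul_le_mul (hV8 B) ?_ (norm_nonneg _) hV)
      refine (norm_sum_le _ _).trans ?_
      have a2 : ∀ C, ‖∑ j : Fin 8, ∑ E,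
          ((((D' 8)⁻¹ B C * D' j.castSucc C E - (D 8)⁻¹ B C * D j.castSucc C E : ℝ)) : ℂ) • pf j E f w‖ ≤
          ((K + L * K) * ε) * ∑ j, ∑ E, ‖pf j E f w‖ := by
        intro C
        refine (norm_sum_le _ _).trans ?_
        rw [Finset.mul_sum]
        refine Finset.sum_le_sum fun j _ => ?_
        refine (norm_sum_le _ _).trans ?_
        rw [Finset.mul_sum]
        refine Finset.sum_le_sum fun E _ => ?_
        rw [norm_smul, Complex.norm_real, Real.norm_eq_abs]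
        refine mul_le_mul_of_nonneg_right ?_ (norm_nonneg _)
        exact pert_coef hK hL hε (hI' B C) (hD _ _ _) (hI B C) (hDD _ _ _)
      refine (Finset.sum_le_sum fun C _ => a2 C).trans ?_
      rw [Finset.sum_const, Finset.card_univ, Fintype.card_fin, nsmul_eq_mul]
    refine (norm_sum_le _ _).trans ((Finset.sum_le_sum fun B _ => a1 B).trans ?_)
    rw [Finset.sum_const, Finset.card_univ, Fintype.card_fin, nsmul_eq_mul]
    apply le_of_eq
    ring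
  · rw [norm_smul]
    have b0 : ‖(1 / 2 : ℂ)‖ ≤ 1 := by
      rw [norm_div, norm_one, Complex.norm_ofNat]; norm_num
    have b1 : ∀ i B j, |∑ C, (D' i B C - D i B C) * wt w j C| ≤ dm * ε * ‖w‖ := by
      intro i B j
      refine (Finset.abs_sum_le_sum_abs _ _).trans ?_
      have : ∀ C, |(D' i B C - D i B C) * wt w j C| ≤ ε * ‖w‖ := by
        intro C
        rw [abs_mul]
        exact mul_le_mul (hDD i B C) (pert_wt w j C) (abs_nonneg _) hε
      refine (Finset.sum_le_sum fun C _ => this C).trans ?_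
      rw [Finset.sum_const, Finset.card_univ, Fintype.card_fin, nsmul_eq_mul]
      apply le_of_eq
      ring
    have hnw : ‖((‖w‖ : ℝ) : ℂ) • f w‖ = ‖w‖ * ‖f w‖ := by
      rw [norm_smul, Complex.norm_real, norm_norm]
    have b2 : ∀ B i j, ‖((S.κ * ((∑ C, (D' i B C - D i B C) * wt w j C) -
        ∑ C, (D' j B C - D j B C) * wt w i C) : ℝ) : ℂ) • S.vec (S.g2 i j) (φ (Sum.inr B)) β (f w)‖ ≤
        (S.κ * (dm * ε + dm * ε) * V) * ‖((‖w‖ : ℝ) : ℂ) • f w‖ := by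
      intro B i j
      rw [norm_smul, Complex.norm_real, Real.norm_eq_abs, abs_mul, abs_of_pos S.κ_pos, hnw]
      have c1 : |(∑ C, (D' i B C - D i B C) * wt w j C) - ∑ C, (D' j B C - D j B C) * wt w i C| ≤
          (dm * ε + dm * ε) * ‖w‖ := by
        refine (abs_sub _ _).trans ?_
        have := b1 i B j
        have := b1 j B i
        linarith
      have c2 : ‖S.vec (S.g2 i j) (φ (Sum.inr B)) β (f w)‖ ≤ V * ‖f w‖ :=
        (ContinuousLinearMap.le_opNorm _ _).trans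
          (mul_le_mul_of_nonneg_right (hV2 B i j) (norm_nonneg _))
      calc _ ≤ (S.κ * ((dm * ε + dm * ε) * ‖w‖)) * (V * ‖f w‖) :=
            mul_le_mul (mul_le_mul_of_nonneg_left c1 S.κ_pos.le) c2 (norm_nonneg _)
              (mul_nonneg S.κ_pos.le (by positivity))
        _ = _ := by ring
    have b3 : ‖∑ B, ∑ i, ∑ j,
        ((S.κ * ((∑ C, (D' i B C - D i B C) * wt w j C) - ∑ C, (D' j B C - D j B C) * wt w i C) : ℝ) : ℂ) •
          S.vec (S.g2 i j) (φ (Sum.inr B)) β (f w)‖ ≤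
        (dm * (9 * (9 * (S.κ * (dm * ε + dm * ε) * V)))) * ‖((‖w‖ : ℝ) : ℂ) • f w‖ := by
      refine (norm_sum_le _ _).trans ?_
      have : ∀ B, ‖∑ i, ∑ j,
        ((S.κ * ((∑ C, (D' i B C - D i B C) * wt w j C) - ∑ C, (D' j B C - D j B C) * wt w i C) : ℝ) : ℂ) •
          S.vec (S.g2 i j) (φ (Sum.inr B)) β (f w)‖ ≤
          9 * (9 * ((S.κ * (dm * ε + dm * ε) * V) * ‖((‖w‖ : ℝ) : ℂ) • f w‖)) := by
        intro B
        refine (norm_sum_le _ _).trans ((Finset.sum_le_sum fun i _ => (norm_sum_le _ _).trans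
          (Finset.sum_le_sum fun j _ => b2 B i j)).trans ?_)
        simp only [Finset.sum_const, Finset.card_univ, Fintype.card_fin, nsmul_eq_mul]
        norm_num
      refine (Finset.sum_le_sum fun B _ => this B).trans ?_
      rw [Finset.sum_const, Finset.card_univ, Fintype.card_fin, nsmul_eq_mul]
      apply le_of_eq
      ring
    calc _ ≤ 1 * _ := mul_le_mul_of_nonneg_right b0 (norm_nonneg _)
      _ = _ := one_mul _
      _ ≤ _ := b3

private lemma pert_integrate {f : Wsp dm → F} (hf : FT f) (g : Wsp dm → F) (c : ℝ)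
    (h : ∀ w, ‖g w‖ ^ 2 ≤ c * ((∑ j, ∑ B, ‖pf j B f w‖ ^ 2) + ‖((‖w‖ : ℝ) : ℂ) • f w‖ ^ 2)) :
    nsf g ≤ c * ((∑ j, ∑ B, nsf (pf j B f)) + nsf (fun w => ((‖w‖ : ℝ) : ℂ) • f w)) := by
  have hi1 : ∀ j : Fin 8, Integrable (fun w => ∑ B, ‖pf j B f w‖ ^ 2)
      (volume : Measure (Wsp dm)) := fun j =>
    integrable_finsetSum _ fun B _ => pert_integrable_pf hf j B
  have hi2 : Integrable (fun w => ∑ j, ∑ B, ‖pf j B f w‖ ^ 2) (volume : Measure (Wsp dm)) :=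
    integrable_finsetSum _ fun j _ => hi1 j
  have hi3 : Integrable (fun w : Wsp dm => (∑ j, ∑ B, ‖pf j B f w‖ ^ 2) +
      ‖((‖w‖ : ℝ) : ℂ) • f w‖ ^ 2) (volume : Measure (Wsp dm)) := hi2.add (pert_integrable_w hf)
  have h1 : nsf g ≤ ∫ w : Wsp dm, c * ((∑ j, ∑ B, ‖pf j B f w‖ ^ 2) +
      ‖((‖w‖ : ℝ) : ℂ) • f w‖ ^ 2) :=
    integral_mono_of_nonneg (Eventually.of_forall fun w => sq_nonneg _) (hi3.const_mul c)
      (Eventually.of_forall h)
  refine h1.trans (le_of_eq ?_)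
  rw [integral_const_mul, integral_add hi2 (pert_integrable_w hf),
    integral_finsetSum _ fun j _ => hi1 j]
  congr 2
  refine Finset.sum_congr rfl fun j _ => ?_
  rw [integral_finsetSum _ fun B _ => pert_integrable_pf hf j B]
  rfl

private lemma pert_fin {ι : Type*} [Finite ι] (g : ι → ℝ) : ∃ V : ℝ, 0 ≤ V ∧ ∀ i, g i ≤ V := by
  obtain ⟨M, hM⟩ := Finite.exists_le g
  exact ⟨max M 0, le_max_right _ _, fun i => (hM i).trans (le_max_left _ _)⟩

private lemma pert_V (S : Setup d F) (φ : Spl dh dm d) : ∃ V : ℝ, 0 ≤ V ∧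
    (∀ β B, ‖S.vec (S.g 8) (φ (Sum.inr B)) β‖ ≤ V) ∧
    (∀ β B i j, ‖S.vec (S.g2 i j) (φ (Sum.inr B)) β‖ ≤ V) := by
  obtain ⟨V1, h1, h1'⟩ := pert_fin fun p : Fin 16 × Fin dm =>
    ‖S.vec (S.g 8) (φ (Sum.inr p.2)) p.1‖
  obtain ⟨V2, h2, h2'⟩ := pert_fin fun p : Fin 16 × Fin dm × Fin 9 × Fin 9 =>
    ‖S.vec (S.g2 p.2.2.1 p.2.2.2) (φ (Sum.inr p.2.1)) p.1‖
  exact ⟨max V1 V2, le_max_of_le_left h1, fun β B => (h1' (β, B)).trans (le_max_left _ _),
    fun β B i j => (h2' (β, B, i, j)).trans (le_max_right _ _)⟩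

theorem pertF (S : Setup d F) (φ : Spl dh dm d) : PertFStmt S φ := by
  intro D hdet
  obtain ⟨K0, e0, hK0, he0, hinv⟩ := pert_inv_bdd (D 8) hdet
  have hself := hinv (D 8) (fun A B => by rw [sub_self, abs_zero]; exact he0.le)
  obtain ⟨K1, hK1, hK1'⟩ := pert_fin fun p : Fin 9 × Fin dm × Fin dm => |D p.1 p.2.1 p.2.2|
  obtain ⟨K, hKK0, hKK1⟩ : ∃ K : ℝ, K0 ≤ K ∧ K1 ≤ K := ⟨max K0 K1, le_max_left _ _, le_max_right _ _⟩
  have hK : 0 ≤ K := hK0.le.trans hKK0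
  have hKD : ∀ i A B, |D i A B| ≤ K := fun i A B => (hK1' (i, A, B)).trans hKK1
  obtain ⟨V, hV, hV8, hV2⟩ := pert_V S φ
  set L : ℝ := dm * (dm * (K0 * K0)) with hLdef
  have hL : 0 ≤ L := by rw [hLdef]; positivity
  set a : ℝ := dm * (V * (dm * (K + L * K))) with hadef
  set b : ℝ := dm * (9 * (9 * (S.κ * (dm + dm) * V))) with hbdef
  have ha : 0 ≤ a := by rw [hadef]; positivity
  have hb : 0 ≤ b := by
    rw [hbdef]
    have := S.κ_pos.le
    positivity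
  set n : ℝ := 8 * dm + 1 with hndef
  refine ⟨n * (a + b) ^ 2 + 1, e0, by positivity, he0, fun ε hε hεe D' hD' => ?_⟩
  obtain ⟨hdet', hinv'⟩ := hinv (D' 8) (fun A B => (hD' 8 A B).trans hεe)
  refine ⟨hdet', fun f hf β => ?_⟩
  have hI : ∀ A B, |(D' 8)⁻¹ A B - (D 8)⁻¹ A B| ≤ L * ε :=
    pert_inv_lip (D 8) (D' 8) hdet hdet' hK0.le hε hself.2 hinv' (hD' 8)
  have hpt := pert_point S φ D D' hK hL hε hV β (hV8 β) (hV2 β) hKD
    (fun A B => (hinv' A B).trans hKK0) hI hD' f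
  -- pointwise square bound
  have hsq : ∀ w, ‖S.q1 φ D' β f w - S.q1 φ D β f w‖ ^ 2 ≤
      (n * (a + b) ^ 2 + 1) * ε ^ 2 * ((∑ j, ∑ B, ‖pf j B f w‖ ^ 2) + ‖((‖w‖ : ℝ) : ℂ) • f w‖ ^ 2) := by
    intro w
    set s : ℝ := ∑ j, ∑ E, ‖pf j E f w‖ with hsdef
    set t : ℝ := ‖((‖w‖ : ℝ) : ℂ) • f w‖ with htdef
    set s2 : ℝ := ∑ j, ∑ B, ‖pf j B f w‖ ^ 2 with hs2def
    have hs : 0 ≤ s := by rw [hsdef]; positivity
    have ht : 0 ≤ t := norm_nonneg _
    have hs2 : 0 ≤ s2 := by rw [hs2def]; positivity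
    have h1 : ‖S.q1 φ D' β f w - S.q1 φ D β f w‖ ≤ (a + b) * ε * (s + t) := by
      refine (hpt w).trans ?_
      have e1 : (dm * (V * (dm * ((K + L * K) * ε)))) * s = a * ε * s := by rw [hadef]; ring
      have e2 : (dm * (9 * (9 * (S.κ * (dm * ε + dm * ε) * V)))) * t = b * ε * t := by
        rw [hbdef]; ring
      rw [e1, e2]
      have e3 : 0 ≤ b * ε * s := by positivity
      have e4 : 0 ≤ a * ε * t := by positivity
      nlinarith
    have h2 : (s + t) ^ 2 ≤ n * (s2 + t ^ 2) := by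
      have e1 : s ^ 2 ≤ (8 * dm) * s2 := by
        have := sq_sum_le_card_mul_sum_sq (s := (Finset.univ : Finset (Fin 8 × Fin dm)))
          (f := fun p => ‖pf p.1 p.2 f w‖)
        rw [Finset.card_univ, Fintype.card_prod, Fintype.card_fin, Fintype.card_fin,
          Fintype.sum_prod_type, Fintype.sum_prod_type] at this
        push_cast at this
        exact this
      rcases Nat.eq_zero_or_pos dm with h0 | h0
      · have hdm : (dm : ℝ) = 0 := by rw [h0]; norm_num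
        have hs0' : s ^ 2 ≤ 0 := by
          have : (8 * (dm : ℝ)) * s2 = 0 := by rw [hdm]; ring
          linarith
        have hs0'' : s = 0 := by nlinarith
        rw [hs0'', hndef, hdm]
        nlinarith
      · have hdm : (1 : ℝ) ≤ dm := by exact_mod_cast h0
        have hq : 0 < (8 * (dm : ℝ)) := by linarith
        -- (s+t)^2 ≤ (1 + q) (s^2/q + t^2)
        have e2 : (s + t) ^ 2 ≤ (8 * (dm : ℝ) + 1) * (s ^ 2 / (8 * dm) + t ^ 2) := by
          have e3 : (8 * (dm : ℝ) + 1) * (s ^ 2 / (8 * dm) + t ^ 2) - (s + t) ^ 2 =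
              (s - 8 * dm * t) ^ 2 / (8 * dm) := by
            field_simp
            ring
          have e4 : 0 ≤ (s - 8 * (dm : ℝ) * t) ^ 2 / (8 * dm) := by positivity
          linarith
        have e5 : s ^ 2 / (8 * dm) ≤ s2 := by
          rw [div_le_iff₀ hq]; linarith
        rw [hndef]
        refine e2.trans (mul_le_mul_of_nonneg_left (by linarith) (by linarith))
    calc ‖S.q1 φ D' β f w - S.q1 φ D β f w‖ ^ 2 ≤ ((a + b) * ε * (s + t)) ^ 2 :=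
          pow_le_pow_left₀ (norm_nonneg _) h1 2
      _ = (a + b) ^ 2 * ε ^ 2 * (s + t) ^ 2 := by ring
      _ ≤ (a + b) ^ 2 * ε ^ 2 * (n * (s2 + t ^ 2)) :=
          mul_le_mul_of_nonneg_left h2 (by positivity)
      _ ≤ (n * (a + b) ^ 2 + 1) * ε ^ 2 * (s2 + t ^ 2) := by
          have : 0 ≤ ε ^ 2 * (s2 + t ^ 2) := by positivity
          nlinarith
  exact pert_integrate hf (fun w => S.q1 φ D' β f w - S.q1 φ D β f w) _ hsq

end Vale.Agent.P353.Z
end

section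

/-! # P353, all `N`, block B: `FibStmt` from `GapFStmt`, `CoerFStmt`, `PertFStmt`, `ScaleFStmt` -/

open MeasureTheory Filter Topology Matrix
open scoped ContDiff

namespace Vale.Agent.P353.Z

variable {d dh dm : ℕ} {F : Type*} [NormedAddCommGroup F] [InnerProductSpace ℂ F]

lemma fib_nsf_comp {E : Type*} [NormedAddCommGroup E] (g : Wsp dm → E) {r : ℝ} (hr : 0 < r) :
    nsf (fun w => g (r • w)) = (r ^ (8 * dm))⁻¹ * nsf g := by
  unfold nsf
  have h := Measure.integral_comp_smul (volume : Measure (Wsp dm)) (fun w => ‖g w‖ ^ 2) r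
  have hf : Module.finrank ℝ (Wsp dm) = 8 * dm := by
    rw [finrank_euclideanSpace, Fintype.card_prod, Fintype.card_fin, Fintype.card_fin]
  rw [hf] at h
  rw [h, smul_eq_mul, abs_of_nonneg (by positivity)]

lemma fib_nsf_smul (g : Wsp dm → F) (c : ℂ) :
    nsf (fun w => c • g w) = ‖c‖ ^ 2 * nsf g := by
  unfold nsf
  simp only [norm_smul, mul_pow]
  exact integral_const_mul _ _

lemma fib_nsf_nonneg {E : Type*} [NormedAddCommGroup E] (g : Wsp dm → E) : 0 ≤ nsf g :=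
  integral_nonneg fun w => by positivity

lemma fib_nsf_two {g h : Wsp dm → F} (hg : Continuous g) (hgs : HasCompactSupport g)
    (hh : Continuous h) (hhs : HasCompactSupport h) :
    nsf g ≤ 2 * nsf h + 2 * nsf (fun w => h w - g w) := by
  have key : ∀ k : Wsp dm → F, Continuous k → HasCompactSupport k →
      Integrable (fun w => ‖k w‖ ^ 2) := by
    intro k hk hks
    have c1 : Continuous fun w => ‖k w‖ ^ 2 := hk.norm.pow 2
    have c2 : HasCompactSupport fun w => ‖k w‖ ^ 2 := by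
      refine HasCompactSupport.intro hks fun w hw => ?_
      rw [image_eq_zero_of_notMem_tsupport hw, norm_zero]
      norm_num
    exact c1.integrable_of_hasCompactSupport c2
  have i1 := key h hh hhs
  have i2 := key (fun w => h w - g w) (hh.sub hg) (hhs.sub hgs)
  have i3 := key g hg hgs
  unfold nsf
  rw [← integral_const_mul, ← integral_const_mul, ← integral_add (i1.const_mul 2) (i2.const_mul 2)]
  refine integral_mono i3 ((i1.const_mul 2).add (i2.const_mul 2)) fun w => ?_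
  have h1 : ‖g w‖ ≤ ‖h w‖ + ‖h w - g w‖ := by
    have : g w = h w - (h w - g w) := by abel
    calc ‖g w‖ = ‖h w - (h w - g w)‖ := by rw [← this]
      _ ≤ _ := norm_sub_le _ _
  have h2 : ‖g w‖ ^ 2 ≤ (‖h w‖ + ‖h w - g w‖) ^ 2 := by gcongr
  show ‖g w‖ ^ 2 ≤ 2 * ‖h w‖ ^ 2 + 2 * ‖h w - g w‖ ^ 2
  nlinarith [sq_nonneg (‖h w‖ - ‖h w - g w‖)]

lemma fib_pf_zero {f : Wsp dm → F} {w : Wsp dm} (hw : w ∉ tsupport f) (j B) : pf j B f w = 0 := by
  unfold pf
  rw [fderiv_of_notMem_tsupport ℝ hw]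
  rfl

lemma fib_pf_cont {f : Wsp dm → F} (hf : FT f) (j B) : Continuous (pf j B f) := by
  unfold pf
  exact (hf.1.continuous_fderiv (by simp)).clm_apply continuous_const

lemma fib_wt_cont (i : Fin 9) (B : Fin dm) : Continuous fun w : Wsp dm => wt w i B := by
  unfold wt
  refine Fin.lastCases ?_ (fun j => ?_) i
  · simp only [Fin.lastCases_last]
    exact continuous_const
  · simp only [Fin.lastCases_castSucc]
    fun_prop

lemma fib_q1_cont (S : Setup d F) (φ : Spl dh dm d) (D : Fin 9 → Matrix (Fin dm) (Fin dm) ℝ)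
    (β : Fin 16) {f : Wsp dm → F} (hf : FT f) : Continuous (S.q1 φ D β f) := by
  have h1 := fun j B => fib_pf_cont hf j B
  have h2 : Continuous f := hf.1.continuous
  have h3 := fun i B => fib_wt_cont (dm := dm) i B
  unfold Setup.q1
  refine ((continuous_const.smul ?_).add (continuous_const.smul ?_)).add (continuous_const.smul ?_)
  · exact continuous_finsetSum _ fun j _ => continuous_finsetSum _ fun B _ =>
      (S.vec (S.g j.castSucc) (φ (Sum.inr B)) β).continuous.comp (h1 j B)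
  · refine continuous_finsetSum _ fun B _ => (S.vec (S.g 8) (φ (Sum.inr B)) β).continuous.comp ?_
    refine continuous_finsetSum _ fun C _ => continuous_const.smul ?_
    exact continuous_finsetSum _ fun j _ => continuous_finsetSum _ fun E _ =>
      continuous_const.smul (h1 j E)
  · refine continuous_finsetSum _ fun B _ => continuous_finsetSum _ fun i _ =>
      continuous_finsetSum _ fun j _ => Continuous.smul ?_
        ((S.vec (S.g2 i j) (φ (Sum.inr B)) β).continuous.comp h2)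
    refine Complex.continuous_ofReal.comp (continuous_const.mul (Continuous.sub ?_ ?_))
    · exact continuous_finsetSum _ fun C _ => continuous_const.mul (h3 j C)
    · exact continuous_finsetSum _ fun C _ => continuous_const.mul (h3 i C)

lemma fib_q1_supp (S : Setup d F) (φ : Spl dh dm d) (D : Fin 9 → Matrix (Fin dm) (Fin dm) ℝ)
    (β : Fin 16) {f : Wsp dm → F} (hf : FT f) : HasCompactSupport (S.q1 φ D β f) := by
  refine HasCompactSupport.intro hf.2 fun w hw => ?_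
  have h1 := fun j B => fib_pf_zero hw j B
  have h2 : f w = 0 := image_eq_zero_of_notMem_tsupport hw
  unfold Setup.q1
  simp [h1, h2]

/-- the statement at scale `1` -/
lemma fib_one (S : Setup d F) (φ : Spl dh dm d) (hG : GapFStmt S φ) (hC : CoerFStmt S φ)
    (hP : PertFStmt S φ) (hF : FiniteDimensional ℂ F)
    (D0 : Fin 9 → Matrix (Fin dm) (Fin dm) ℝ) (Om : Matrix (Fin dm) (Fin dm) ℝ) (hD : Frz D0)
    (hO : IsOm S.κ D0 Om) :
    ∃ c0 C ε0 : ℝ, 0 < c0 ∧ 0 < C ∧ 0 < ε0 ∧ C * ε0 ^ 2 ≤ c0 ∧ ∀ ε : ℝ, 0 ≤ ε → ε ≤ ε0 →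
    ∀ D : Fin 9 → Matrix (Fin dm) (Fin dm) ℝ, (∀ i A B, |D i A B - D0 i A B| ≤ ε) →
      (D 8).det ≠ 0 ∧ ∀ h : Wsp dm → F, FT h →
      ((∑ j, ∑ B, nsf (pf j B h)) + nsf (fun w => ((‖w‖ : ℝ) : ℂ) • h w) ≤
        C * (S.e1 φ D h + nsf h)) ∧
      (2 * c0 * nsf (fun w => h w - S.PR φ D0 Om 1 h w) ≤ S.e1 φ D h + C * ε ^ 2 * nsf h) ∧
      (∀ β, nsf (fun w => S.q1 φ D β h w - S.q1 φ D0 β h w) ≤ C * ε ^ 2 * (S.e1 φ D h + nsf h)) := by
  obtain ⟨cG, hcG, hG'⟩ := hG hF D0 Om hD hO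
  obtain ⟨cC, hcC, hC'⟩ := hC hF D0 Om hD hO
  obtain ⟨cP, εP, hcP, hεP, hP'⟩ := hP D0 hD.inv
  -- constants
  set c0 : ℝ := cG / 8 with hc0
  set C : ℝ := 4 * cC + 4 * cP * cC with hCdef
  have hc0' : 0 < c0 := by positivity
  have hC0 : 0 < C := by positivity
  obtain ⟨ε0, hε0, h1, h2, h3⟩ : ∃ ε0 : ℝ, 0 < ε0 ∧ ε0 ≤ εP ∧ 8 * cP * cC * ε0 ^ 2 ≤ 1 ∧
      C * ε0 ^ 2 ≤ c0 := by
    have hev : ∀ a b : ℝ, 0 < b → ∀ᶠ ε in 𝓝[>] (0 : ℝ), a * ε ^ 2 ≤ b := by
      intro a b hb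
      have ht : Tendsto (fun ε : ℝ => a * ε ^ 2) (𝓝 0) (𝓝 0) := by
        have : Continuous fun ε : ℝ => a * ε ^ 2 := by fun_prop
        simpa using this.tendsto 0
      exact (ht.eventually_le_const hb).filter_mono nhdsWithin_le_nhds
    have e1 := hev (8 * cP * cC) 1 one_pos
    have e2 := hev C c0 hc0'
    have e3 : ∀ᶠ ε in 𝓝[>] (0 : ℝ), ε ≤ εP :=
      (tendsto_id.eventually_le_const hεP).filter_mono nhdsWithin_le_nhds
    have e4 : ∀ᶠ ε in 𝓝[>] (0 : ℝ), 0 < ε := self_mem_nhdsWithin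
    obtain ⟨ε, a1, a2, a3, a4⟩ := (e1.and (e2.and (e3.and e4))).exists
    exact ⟨ε, a4, a3, a1, a2⟩
  refine ⟨c0, C, ε0, hc0', hC0, hε0, h3, ?_⟩
  intro ε hε hεε D hDD
  obtain ⟨hdet, hpert⟩ := hP' ε hε (hεε.trans h1) D hDD
  refine ⟨hdet, fun h hh => ?_⟩
  have hp := hpert h hh
  set X : ℝ := (∑ j, ∑ B, nsf (pf j B h)) + nsf (fun w => ((‖w‖ : ℝ) : ℂ) • h w) with hX
  have hX0 : 0 ≤ X := by
    refine add_nonneg (Finset.sum_nonneg fun j _ => Finset.sum_nonneg fun B _ => ?_) ?_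
    · exact fib_nsf_nonneg _
    · exact fib_nsf_nonneg _
  have hN0 : 0 ≤ nsf h := fib_nsf_nonneg h
  have hE0 : 0 ≤ S.e1 φ D h := by
    unfold Setup.e1
    exact mul_nonneg (by norm_num) (Finset.sum_nonneg fun β _ => fib_nsf_nonneg _)
  -- e1 D0 ≤ 2 e1 D + 2 cP ε² X
  have hcomp : S.e1 φ D0 h ≤ 2 * S.e1 φ D h + 2 * (cP * ε ^ 2 * X) := by
    have hβ : ∀ β : Fin 16, nsf (S.q1 φ D0 β h) ≤ 2 * nsf (S.q1 φ D β h) + 2 * (cP * ε ^ 2 * X) := by
      intro β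
      refine (fib_nsf_two (fib_q1_cont S φ D0 β hh) (fib_q1_supp S φ D0 β hh)
        (fib_q1_cont S φ D β hh) (fib_q1_supp S φ D β hh)).trans ?_
      have := hp β
      linarith
    unfold Setup.e1
    have hs : ∑ β, nsf (S.q1 φ D0 β h) ≤ ∑ β : Fin 16, (2 * nsf (S.q1 φ D β h) + 2 * (cP * ε ^ 2 * X)) :=
      Finset.sum_le_sum fun β _ => hβ β
    rw [Finset.sum_add_distrib, ← Finset.mul_sum, Finset.sum_const, Finset.card_univ,
      Fintype.card_fin, nsmul_eq_mul] at hs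
    push_cast at hs
    linarith
  have hco := hC' h hh
  have hε2 : 0 ≤ ε ^ 2 := by positivity
  have hεsq : ε ^ 2 ≤ ε0 ^ 2 := by gcongr
  have hs1 : 8 * cP * cC * ε ^ 2 ≤ 1 := by
    have : 8 * cP * cC * ε ^ 2 ≤ 8 * cP * cC * ε0 ^ 2 := by gcongr
    linarith
  have hX1 : X ≤ 4 * cC * (S.e1 φ D h + nsf h) := by
    have a1 : X ≤ cC * (S.e1 φ D0 h + nsf h) := hco
    have a2 : cC * (S.e1 φ D0 h + nsf h) ≤ cC * (2 * S.e1 φ D h + 2 * (cP * ε ^ 2 * X) + nsf h) := by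
      gcongr
    have a3 : cC * (2 * (cP * ε ^ 2 * X)) ≤ X / 4 := by
      have : 8 * cP * cC * ε ^ 2 * X ≤ 1 * X := by gcongr
      nlinarith
    nlinarith [mul_nonneg hcC.le hN0, mul_nonneg hcC.le hE0]
  refine ⟨?_, ?_, ?_⟩
  · refine hX1.trans ?_
    have : 0 ≤ 4 * cP * cC * (S.e1 φ D h + nsf h) := by positivity
    rw [hCdef]
    nlinarith
  · have b1 := hG' h hh
    have b2 : 2 * (cP * ε ^ 2 * X) ≤ 2 * (cP * ε ^ 2 * (4 * cC * (S.e1 φ D h + nsf h))) := by gcongr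
    have b3 : 8 * cP * cC * ε ^ 2 * S.e1 φ D h ≤ 1 * S.e1 φ D h := by gcongr
    have b4 : cG * nsf (fun w => h w - S.PR φ D0 Om 1 h w) ≤
        4 * S.e1 φ D h + 8 * cP * cC * ε ^ 2 * nsf h := by nlinarith
    have b5 : 0 ≤ cC * ε ^ 2 * nsf h := by positivity
    have b6 : 0 ≤ cP * cC * ε ^ 2 * nsf h := by positivity
    rw [hc0, hCdef]
    nlinarith
  · intro β
    refine (hp β).trans ?_
    have b1 : cP * ε ^ 2 * X ≤ cP * ε ^ 2 * (4 * cC * (S.e1 φ D h + nsf h)) := by gcongr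
    have b2 : 0 ≤ 4 * cC * ε ^ 2 * (S.e1 φ D h + nsf h) := by positivity
    refine b1.trans ?_
    rw [hCdef]
    nlinarith

theorem fib (S : Setup d F) (φ : Spl dh dm d) (hG : GapFStmt S φ) (hC : CoerFStmt S φ)
    (hP : PertFStmt S φ) (hS : ScaleFStmt S φ) : FibStmt S φ := by
  intro hF D0 Om hD hO
  obtain ⟨c0, C, ε0, hc0, hC0, hε0, hCε, H⟩ := fib_one S φ hG hC hP hF D0 Om hD hO
  refine ⟨c0, C, ε0, hc0, hC0, hε0, ?_⟩
  intro R hR ε hε hεε D hDD
  set D' : Fin 9 → Matrix (Fin dm) (Fin dm) ℝ := fun i => R⁻¹ • D i with hD'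
  have hRD : (fun i => R • D' i) = D := by
    funext i
    rw [hD']
    simp only
    rw [smul_smul, mul_inv_cancel₀ hR.ne', one_smul]
  have hD'0 : ∀ i A B, |D' i A B - D0 i A B| ≤ ε := by
    intro i A B
    have h1 : D' i A B - D0 i A B = R⁻¹ * (D i A B - R * D0 i A B) := by
      rw [hD']
      simp only [Matrix.smul_apply, smul_eq_mul]
      field_simp
    rw [h1, abs_mul, abs_of_pos (inv_pos.2 hR)]
    calc R⁻¹ * |D i A B - R * D0 i A B| ≤ R⁻¹ * (ε * R) := by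
          gcongr
          exact hDD i A B
      _ = ε := by field_simp
  obtain ⟨hdet, H'⟩ := H ε hε hεε D' hD'0
  refine ⟨?_, ?_⟩
  · intro h0
    apply hdet
    show (R⁻¹ • D 8).det = 0
    rw [Matrix.det_smul, h0, mul_zero]
  intro f hf
  set r : ℝ := Real.sqrt R with hr
  have hr0 : 0 < r := Real.sqrt_pos.2 hR
  have hr2 : r ^ 2 = R := Real.sq_sqrt hR.le
  set h : Wsp dm → F := fun w => f (r⁻¹ • w) with hh
  have hfh : ∀ w, f w = h (r • w) := by
    intro w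
    rw [hh]
    simp only
    rw [smul_smul, inv_mul_cancel₀ hr0.ne', one_smul]
  obtain ⟨s1, s2, s3, s4, s5, s6, s7⟩ := hS hF D' D0 Om R hR f h hf hfh
  obtain ⟨t1, t2, t3⟩ := H' h s1
  rw [hRD] at s5
  set s : ℝ := (r ^ (8 * dm))⁻¹ with hs
  have hs0 : 0 < s := by positivity
  have hq : ∀ β, nsf (S.q1 φ D β f) = s * (R * nsf (S.q1 φ D' β h)) := by
    intro β
    have e1 : S.q1 φ D β f = fun w => (fun v => ((r : ℝ) : ℂ) • S.q1 φ D' β h v) (r • w) := by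
      funext w
      exact s5 β w
    refine (congrArg nsf e1).trans
      ((fib_nsf_comp (fun v => ((r : ℝ) : ℂ) • S.q1 φ D' β h v) hr0).trans ?_)
    rw [fib_nsf_smul, Complex.norm_real, Real.norm_of_nonneg hr0.le, hr2]
  have he : S.e1 φ D f = s * R * S.e1 φ D' h := by
    unfold Setup.e1
    simp only [hq, ← Finset.mul_sum]
    ring
  refine ⟨?_, ?_, ?_, ?_⟩
  · simp only [s3, s4, s2, ← Finset.mul_sum]
    rw [he]
    have k := mul_le_mul_of_nonneg_left t1 (mul_pos hs0 hR).le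
    have k2 : R ^ 2 * (s * (R⁻¹ * nsf (fun w => ((‖w‖ : ℝ) : ℂ) • h w))) =
        s * R * nsf (fun w => ((‖w‖ : ℝ) : ℂ) • h w) := by
      field_simp
    rw [k2]
    calc _ = s * R * ((∑ j, ∑ B, nsf (pf j B h)) + nsf (fun w => ((‖w‖ : ℝ) : ℂ) • h w)) := by ring
      _ ≤ _ := k
      _ = _ := by ring
  · have e1 : (fun w => f w - S.PR φ D0 Om R f w) =
        fun w => (fun v => h v - S.PR φ D0 Om 1 h v) (r • w) := by
      funext w
      simp only
      rw [s6 w, hfh w]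
    have e2 := (congrArg nsf e1).trans
      (fib_nsf_comp (fun v => h v - S.PR φ D0 Om 1 h v) hr0)
    rw [e2, he, s2]
    have k := mul_le_mul_of_nonneg_left t2 (mul_pos hs0 hR).le
    have k3 : 0 ≤ nsf (fun v => h v - S.PR φ D0 Om 1 h v) := fib_nsf_nonneg _
    have k4 : 0 ≤ s * R * (c0 * nsf (fun v => h v - S.PR φ D0 Om 1 h v)) := by positivity
    nlinarith
  · intro hodd
    have e1 : ∀ w, S.PR φ D0 Om 1 h w = 0 := by
      intro w
      have := s7 hodd (r⁻¹ • w)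
      rw [s6 (r⁻¹ • w), smul_smul, mul_inv_cancel₀ hr0.ne', one_smul] at this
      exact this
    simp only [e1, sub_zero] at t2
    rw [he, s2]
    have hN0 : 0 ≤ nsf h := fib_nsf_nonneg h
    have hεsq : C * ε ^ 2 ≤ c0 := by
      have : C * ε ^ 2 ≤ C * ε0 ^ 2 := by gcongr
      linarith
    have k1 : C * ε ^ 2 * nsf h ≤ c0 * nsf h := by gcongr
    have k2 : c0 * nsf h ≤ S.e1 φ D' h := by
      have : nsf (fun w => h w) = nsf h := rfl
      rw [this] at t2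
      linarith
    have k := mul_le_mul_of_nonneg_left k2 (mul_pos hs0 hR).le
    calc c0 * R * (s * nsf h) = s * R * (c0 * nsf h) := by ring
      _ ≤ _ := k
  · intro β
    obtain ⟨u1, u2, u3, u4, u5, u6, u7⟩ := hS hF D0 D0 Om R hR f h hf hfh
    have e1 : (fun w => S.q1 φ D β f w - S.q1 φ (fun i => R • D0 i) β f w) =
        fun w => (fun v => ((r : ℝ) : ℂ) • (S.q1 φ D' β h v - S.q1 φ D0 β h v)) (r • w) := by
      funext w
      simp only
      rw [s5 β w, u5 β w, smul_sub]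
    have e2 := (congrArg nsf e1).trans
      (fib_nsf_comp (fun v => ((r : ℝ) : ℂ) • (S.q1 φ D' β h v - S.q1 φ D0 β h v)) hr0)
    rw [e2, fib_nsf_smul, Complex.norm_real, Real.norm_of_nonneg hr0.le, hr2, he, s2]
    have k := mul_le_mul_of_nonneg_left (t3 β) (mul_pos hs0 hR).le
    calc _ = s * R * nsf (fun v => S.q1 φ D' β h v - S.q1 φ D0 β h v) := by ring
      _ ≤ _ := k
      _ = _ := by ring

end Vale.Agent.P353.Z
end

section

/-! # P353, all `N`, block E: the gap near the ray from the gap at central points (`UGapStmt`) -/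

open MeasureTheory Filter Topology Matrix
open scoped ContDiff

namespace Vale.Agent.P353.Z.AE

variable {d dh dm r ds : ℕ} {F : Type*} [NormedAddCommGroup F] [InnerProductSpace ℂ F]

/-- Pythagoras for the splitting of `h` -/
lemma ug655_norm_sq (ψ : Spl r ds dh) (x : Cfg dh) : ‖x‖ ^ 2 = ‖zpt ψ x‖ ^ 2 + ‖spt ψ x‖ ^ 2 := by
  rw [EuclideanSpace.norm_sq_eq, EuclideanSpace.norm_sq_eq, EuclideanSpace.norm_sq_eq,
    Fintype.sum_prod_type, Fintype.sum_prod_type, Fintype.sum_prod_type, ← Finset.sum_add_distrib]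
  refine Finset.sum_congr rfl fun i _ => ?_
  rw [← ψ.sum_comp, Fintype.sum_sum_type]
  rfl

lemma ug655_zpt_le (ψ : Spl r ds dh) (x : Cfg dh) : ‖zpt ψ x‖ ≤ ‖x‖ := by
  have h := ug655_norm_sq ψ x
  refine (sq_le_sq₀ (norm_nonneg _) (norm_nonneg _)).mp ?_
  nlinarith [sq_nonneg ‖spt ψ x‖]

lemma ug655_spt_le (ψ : Spl r ds dh) (x : Cfg dh) : ‖spt ψ x‖ ≤ ‖x‖ := by
  have h := ug655_norm_sq ψ x
  refine (sq_le_sq₀ (norm_nonneg _) (norm_nonneg _)).mp ?_
  nlinarith [sq_nonneg ‖zpt ψ x‖]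

lemma ug655_zpt_sub (ψ : Spl r ds dh) (x : Cfg dh) (y₀ : Cfg r) (R : ℝ) :
    zpt ψ (x - R • cmb ψ y₀ 0) = zpt ψ x - R • y₀ := by
  ext p
  simp [zpt, cmb]

lemma ug655_spt_sub (ψ : Spl r ds dh) (x : Cfg dh) (y₀ : Cfg r) (R : ℝ) :
    spt ψ (x - R • cmb ψ y₀ 0) = spt ψ x := by
  ext p
  simp [spt, cmb]

/-- Cauchy–Schwarz for the right hand side of `Pert2Stmt` -/
lemma ug655_cs (a : Fin 8 → Fin dm → ℝ) (b : ℝ) :
    ((∑ j, ∑ B, a j B) + b) ^ 2 ≤ 2 * (8 * dm + 1) * ((∑ j, ∑ B, a j B ^ 2) + b ^ 2) := by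
  have h1 : (∑ j, ∑ B, a j B) ^ 2 ≤ (8 * dm) * ∑ j, ∑ B, a j B ^ 2 := by
    have h2 := sq_sum_le_card_mul_sum_sq (s := (Finset.univ : Finset (Fin 8 × Fin dm)))
      (f := fun p => a p.1 p.2)
    rw [Fintype.sum_prod_type, Fintype.sum_prod_type] at h2
    simpa using h2
  have h3 : 0 ≤ ∑ j, ∑ B, a j B ^ 2 :=
    Finset.sum_nonneg fun j _ => Finset.sum_nonneg fun B _ => sq_nonneg _
  have h4 : (0 : ℝ) ≤ dm := Nat.cast_nonneg _
  nlinarith [sq_nonneg ((∑ j, ∑ B, a j B) - b), sq_nonneg b, mul_nonneg h4 (sq_nonneg b)]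

omit [InnerProductSpace ℂ F] in
lemma ug655_int {k : Wsp dm → F} (hk : Continuous k) (hks : HasCompactSupport k) :
    Integrable (fun w => ‖k w‖ ^ 2) := by
  have c1 : Continuous fun w => ‖k w‖ ^ 2 := hk.norm.pow 2
  have c2 : HasCompactSupport fun w => ‖k w‖ ^ 2 := by
    refine HasCompactSupport.intro hks fun w hw => ?_
    rw [image_eq_zero_of_notMem_tsupport hw, norm_zero]
    norm_num
  exact c1.integrable_of_hasCompactSupport c2

/-- integrated form of `Pert2Stmt` -/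
lemma ug655_pert (S : Setup d F) (φ : Spl dh dm d) (D D' : Fin 9 → Matrix (Fin dm) (Fin dm) ℝ)
    (β : Fin 16) {f : Wsp dm → F} (hf : FT f) {c R : ℝ} (_hc : 0 ≤ c)
    (h : ∀ w, ‖S.q1 φ D β f w - S.q1 φ D' β f w‖ ≤ c * ((∑ j, ∑ B, ‖pf j B f w‖) + R * ‖w‖ * ‖f w‖)) :
    nsf (fun w => S.q1 φ D β f w - S.q1 φ D' β f w) ≤ c ^ 2 * (2 * (8 * dm + 1)) *
      ((∑ j, ∑ B, nsf (pf j B f)) + R ^ 2 * nsf (fun w => ((‖w‖ : ℝ) : ℂ) • f w)) := by
  have hfc : Continuous f := hf.1.continuous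
  have ip : ∀ j B, Integrable (fun w => ‖pf j B f w‖ ^ 2) := fun j B =>
    ug655_int (fib_pf_cont hf j B) (HasCompactSupport.intro hf.2 fun w hw => fib_pf_zero hw j B)
  have iw : Integrable (fun w => ‖((‖w‖ : ℝ) : ℂ) • f w‖ ^ 2) := by
    refine ug655_int (Continuous.smul (Complex.continuous_ofReal.comp continuous_norm) hfc) ?_
    refine HasCompactSupport.intro hf.2 fun w hw => ?_
    rw [image_eq_zero_of_notMem_tsupport hw, smul_zero]
  have iq : Integrable (fun w => ‖S.q1 φ D β f w - S.q1 φ D' β f w‖ ^ 2) := by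
    refine ug655_int ((fib_q1_cont S φ D β hf).sub (fib_q1_cont S φ D' β hf)) ?_
    exact (fib_q1_supp S φ D β hf).sub (fib_q1_supp S φ D' β hf)
  unfold nsf
  have e1 : (∑ j, ∑ B, ∫ w, ‖pf j B f w‖ ^ 2) + R ^ 2 * ∫ w, ‖((‖w‖ : ℝ) : ℂ) • f w‖ ^ 2 =
      ∫ w, (∑ j, ∑ B, ‖pf j B f w‖ ^ 2) + R ^ 2 * ‖((‖w‖ : ℝ) : ℂ) • f w‖ ^ 2 := by
    rw [integral_add (integrable_finsetSum _ fun j _ => integrable_finsetSum _ fun B _ => ip j B)
      (iw.const_mul _), integral_const_mul, integral_finsetSum _ fun j _ =>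
        integrable_finsetSum _ fun B _ => ip j B]
    congr 1
    refine Finset.sum_congr rfl fun j _ => ?_
    rw [integral_finsetSum _ fun B _ => ip j B]
  rw [e1, ← integral_const_mul]
  refine integral_mono iq ?_ fun w => ?_
  · exact ((integrable_finsetSum _ fun j _ => integrable_finsetSum _ fun B _ => ip j B).add
      (iw.const_mul _)).const_mul _
  · show ‖S.q1 φ D β f w - S.q1 φ D' β f w‖ ^ 2 ≤ c ^ 2 * (2 * (8 * dm + 1)) *
      ((∑ j, ∑ B, ‖pf j B f w‖ ^ 2) + R ^ 2 * ‖((‖w‖ : ℝ) : ℂ) • f w‖ ^ 2)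
    have h1 : ‖S.q1 φ D β f w - S.q1 φ D' β f w‖ ^ 2 ≤
        (c * ((∑ j, ∑ B, ‖pf j B f w‖) + R * ‖w‖ * ‖f w‖)) ^ 2 :=
      pow_le_pow_left₀ (norm_nonneg _) (h w) 2
    have h2 := ug655_cs (fun j B => ‖pf j B f w‖) (R * ‖w‖ * ‖f w‖)
    have h3 : ‖((‖w‖ : ℝ) : ℂ) • f w‖ = ‖w‖ * ‖f w‖ := by
      rw [norm_smul, Complex.norm_real, norm_norm]
    rw [h3]
    calc _ ≤ _ := h1
      _ = c ^ 2 * ((∑ j, ∑ B, ‖pf j B f w‖) + R * ‖w‖ * ‖f w‖) ^ 2 := by ring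
      _ ≤ c ^ 2 * (2 * (8 * dm + 1) * ((∑ j, ∑ B, ‖pf j B f w‖ ^ 2) + (R * ‖w‖ * ‖f w‖) ^ 2)) :=
        mul_le_mul_of_nonneg_left h2 (sq_nonneg c)
      _ = _ := by ring

/-- **E-UGap**: the gap of the fibre operator above the vacuum, uniformly near the ray. -/
theorem ugap (S : Setup d F) (φ : Spl dh dm d) (ψ : Spl r ds dh) :
    UGapCStmt S φ ψ → Pert2Stmt S φ ψ → AN.CoefStmt S φ → AN.FibOutStmt S φ → UGapStmt S φ ψ := by
  intro hG hP hCf hFo hF hsub hcen U Om V K hV y₀ hy₀ hStd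
  obtain ⟨εc, Cc, hεc, hCc, hCoef⟩ := hCf (cmb ψ y₀ 0) hStd
  obtain ⟨_, εf, Cf, -, -, hεf, hCf0, hFF, -⟩ := hFo hF (cmb ψ y₀ 0) hStd
  obtain ⟨εg, Cg, hεg, hCg, hGap⟩ := hG hF hsub hcen U Om V K hV y₀ hy₀
  obtain ⟨Cp, hCp, hPert⟩ := hP hsub hcen y₀ εc Cc hεc hCc hCoef
  set M : ℝ := Cp ^ 2 * (2 * (8 * dm + 1)) * Cf with hM
  have hM0 : 0 ≤ M := by positivity
  refine ⟨min (min εc εf) (min εg 1), Cg * (2 + 2 * M), by positivity, by positivity, ?_⟩
  intro R hR x hx f hf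
  have hR0 : 0 < R := lt_of_lt_of_le one_pos hR
  have hxc : ‖x - R • cmb ψ y₀ 0‖ ≤ εc * R := hx.trans
    (mul_le_mul_of_nonneg_right ((min_le_left _ _).trans (min_le_left _ _)) hR0.le)
  have hxf : ‖x - R • cmb ψ y₀ 0‖ ≤ εf * R := hx.trans
    (mul_le_mul_of_nonneg_right ((min_le_left _ _).trans (min_le_right _ _)) hR0.le)
  have hxg : ‖x - R • cmb ψ y₀ 0‖ ≤ εg * R := hx.trans
    (mul_le_mul_of_nonneg_right ((min_le_right _ _).trans (min_le_left _ _)) hR0.le)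
  have hx1 : ‖x - R • cmb ψ y₀ 0‖ ≤ 1 * R := hx.trans
    (mul_le_mul_of_nonneg_right ((min_le_right _ _).trans (min_le_right _ _)) hR0.le)
  set y : Cfg r := zpt ψ x with hy
  have hyR : ‖y - R • y₀‖ ≤ εg * R := by
    have h1 := ug655_zpt_le ψ (x - R • cmb ψ y₀ 0)
    rw [ug655_zpt_sub] at h1
    exact h1.trans hxg
  set σ : ℝ := ‖spt ψ x‖ / R with hσ
  have hσ0 : 0 ≤ σ := by positivity
  have hσ1 : σ ≤ 1 := by
    have h1 := ug655_spt_le ψ (x - R • cmb ψ y₀ 0)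
    rw [ug655_spt_sub] at h1
    rw [hσ, div_le_one hR0]
    linarith
  have hσ2 : σ ^ 2 ≤ 1 := pow_le_one₀ hσ0 hσ1
  have hn : 0 ≤ nsf f := fib_nsf_nonneg f
  have he : 0 ≤ S.e1 φ (S.DY φ x) f := by
    unfold Setup.e1
    exact mul_nonneg (by norm_num) (Finset.sum_nonneg fun β _ => fib_nsf_nonneg _)
  have hF1 := hFF.F1 R hR0 x hxf f hf
  have hdiff : ∀ β, nsf (fun w => S.q1 φ (S.DY φ x) β f w - S.q1 φ (S.Dz φ ψ y) β f w) ≤
      M * σ ^ 2 * (S.e1 φ (S.DY φ x) f + R * nsf f) := by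
    intro β
    have h1 := ug655_pert S φ (S.DY φ x) (S.Dz φ ψ y) β hf (c := Cp * σ) (R := R) (by positivity)
      (fun w => hPert R hR0 x hxc f β w)
    refine h1.trans ?_
    have h2 : (Cp * σ) ^ 2 * (2 * (8 * dm + 1)) *
        ((∑ j, ∑ B, nsf (pf j B f)) + R ^ 2 * nsf (fun w => ((‖w‖ : ℝ) : ℂ) • f w)) ≤
        (Cp * σ) ^ 2 * (2 * (8 * dm + 1)) * (Cf * (S.e1 φ (S.DY φ x) f + R * nsf f)) :=
      mul_le_mul_of_nonneg_left hF1 (by positivity)
    refine h2.trans (le_of_eq ?_)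
    rw [hM]
    ring
  have hE : S.e1 φ (S.Dz φ ψ y) f ≤ 2 * S.e1 φ (S.DY φ x) f +
      2 * (M * σ ^ 2 * (S.e1 φ (S.DY φ x) f + R * nsf f)) := by
    have h1 : ∀ β, nsf (S.q1 φ (S.Dz φ ψ y) β f) ≤ 2 * nsf (S.q1 φ (S.DY φ x) β f) +
        2 * (M * σ ^ 2 * (S.e1 φ (S.DY φ x) f + R * nsf f)) := fun β =>
      (fib_nsf_two (fib_q1_cont S φ _ β hf) (fib_q1_supp S φ _ β hf) (fib_q1_cont S φ _ β hf)
        (fib_q1_supp S φ _ β hf)).trans (by linarith [hdiff β])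
    have h2 : ∑ β, nsf (S.q1 φ (S.Dz φ ψ y) β f) ≤ ∑ β : Fin 16, (2 * nsf (S.q1 φ (S.DY φ x) β f) +
        2 * (M * σ ^ 2 * (S.e1 φ (S.DY φ x) f + R * nsf f))) := Finset.sum_le_sum fun β _ => h1 β
    rw [Finset.sum_add_distrib, ← Finset.mul_sum, Finset.sum_const, Finset.card_univ, Fintype.card_fin,
      nsmul_eq_mul] at h2
    have h3 : S.e1 φ (S.Dz φ ψ y) f = (1 / 16) * ∑ β, nsf (S.q1 φ (S.Dz φ ψ y) β f) := rfl
    have h4 : ∑ β, nsf (S.q1 φ (S.DY φ x) β f) = 16 * S.e1 φ (S.DY φ x) f := by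
      have : S.e1 φ (S.DY φ x) f = (1 / 16) * ∑ β, nsf (S.q1 φ (S.DY φ x) β f) := rfl
      rw [this]
      ring
    rw [h4] at h2
    rw [h3]
    push_cast at h2
    linarith
  have hg := hGap R hR0 y hyR f hf
  refine hg.trans ?_
  have h5 : S.e1 φ (S.Dz φ ψ y) f ≤ (2 + 2 * M) * (S.e1 φ (S.DY φ x) f + σ ^ 2 * R * nsf f) := by
    have h6 : M * σ ^ 2 * S.e1 φ (S.DY φ x) f ≤ M * 1 * S.e1 φ (S.DY φ x) f := by gcongr
    have h7 : 0 ≤ σ ^ 2 * R * nsf f := by positivity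
    nlinarith [hE, h6, h7]
  calc Cg * S.e1 φ (S.Dz φ ψ y) f ≤
      Cg * ((2 + 2 * M) * (S.e1 φ (S.DY φ x) f + σ ^ 2 * R * nsf f)) :=
        mul_le_mul_of_nonneg_left h5 hCg.le
    _ = _ := by ring

end Vale.Agent.P353.Z.AE
end
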