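import Mathlib
import Vale.Agent.P353.BdA.B15
import Vale.Agent.P353.BdZ.B17
import Vale.Agent.P353.BdA.B21
import Vale.Agent.P353.BdA.B17
import Vale.Agent.P353.BdA.B20
import Vale.Agent.P353.BdA.B1
import Vale.Agent.P353.BdA.B5
import Vale.Agent.P353.BdA.B9
import Vale.Agent.P353.BdA.B12
import Vale.Agent.P353.BdA.B19
import Vale.Agent.P353.BdA.B8
import Vale.Agent.P353.BdA.B3
import Vale.Agent.P353.BdZ.B13

set_option linter.all false

section

/-! # P353, all `N`, block H: cut off kernel vectors (H9) and local limits (H10) (helper551) -/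

open MeasureTheory Filter Topology
open scoped ContDiff

namespace Vale.Agent.P353.Z.AH

variable {d : ℕ} {F : Type*} [NormedAddCommGroup F] [InnerProductSpace ℂ F]

/-- the energy at scale `R` of a function supported in the ball of radius `R` -/
lemma kc_en (S : Setup d F) {K : ℝ} (hMM : ∀ β x, ‖S.MM β x‖ ≤ K * ‖x‖)
    {Ψ : Cfg d → F} (hΨ : MemLp Ψ 2 (volume : Measure (Cfg d))) {u : Cfg d → F}
    (hu : Setup.Tst u) {R : ℝ} (hR : 0 < R) (h0 : ∀ x, R ≤ ‖x‖ → u x = 0) {q e M : ℝ}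
    (hq : ∀ β, R ^ 2 * nsq (S.Q β u) ≤ q) (he : nsq (fun x => u x - Ψ x) ≤ e)
    (hM : ∫ x, (if ‖x‖ ≤ R then (‖x‖ / R) ^ 2 * ‖Ψ x‖ ^ 2 else 0) ≤ M) :
    R ^ 2 * S.en (R⁻¹ ^ 2) u ≤ 16 * (2 * q + 2 * K ^ 2 * (2 * e + 2 * M)) := by
  obtain ⟨m, hm⟩ : ∃ m : ℝ, m = R⁻¹ ^ 2 := ⟨_, rfl⟩
  have hmR : m * R ^ 2 = 1 := by rw [hm]; field_simp
  rw [← hm]
  have h1 : ∀ β ∈ (Finset.univ : Finset (Fin 16)), R ^ 2 * nsq (S.Qm m β u) ≤
      2 * q + 2 * K ^ 2 * (2 * e + 2 * M) := by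
    intro β _
    have h2 : nsq (S.Qm m β u) ≤ 2 * nsq (S.Q β u) +
        2 * nsq (fun x => (m : ℂ) • S.MM β x (u x)) :=
      nsq_add_le (hu.Q S β).memLp ((Setup.Tst.MM S hu β).cst _).memLp
    have h3 : nsq (fun x => (m : ℂ) • S.MM β x (u x)) =
        m ^ 2 * nsq (fun x => S.MM β x (u x)) := by
      unfold nsq
      rw [← integral_const_mul]
      refine integral_congr_ae (Filter.Eventually.of_forall fun x => ?_)
      simp only [norm_smul, Complex.norm_real, Real.norm_eq_abs, mul_pow, sq_abs]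
    have h4 := U.small_MM_nsq S hMM hΨ hu hR h0 β
    have h5 : nsq (fun x => S.MM β x (u x)) ≤ K ^ 2 * (2 * R ^ 2 * e + 2 * R ^ 2 * M) := by
      refine h4.trans (mul_le_mul_of_nonneg_left ?_ (sq_nonneg K))
      have a1 := mul_le_mul_of_nonneg_left he (by positivity : (0 : ℝ) ≤ 2 * R ^ 2)
      have a2 := mul_le_mul_of_nonneg_left hM (by positivity : (0 : ℝ) ≤ 2 * R ^ 2)
      linarith
    have h6 : R ^ 2 * (m ^ 2 * nsq (fun x => S.MM β x (u x))) ≤
        K ^ 2 * (2 * e + 2 * M) := by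
      have a1 := mul_le_mul_of_nonneg_left h5 (by positivity : (0 : ℝ) ≤ R ^ 2 * m ^ 2)
      have a2 : R ^ 2 * m ^ 2 * (K ^ 2 * (2 * R ^ 2 * e + 2 * R ^ 2 * M)) =
          (m * R ^ 2) * (m * R ^ 2) * (K ^ 2 * (2 * e + 2 * M)) := by ring
      rw [a2, hmR] at a1
      linarith
    have h7 := mul_le_mul_of_nonneg_left h2 (by positivity : (0 : ℝ) ≤ R ^ 2)
    rw [h3] at h7
    have h8 := hq β
    linarith
  have h9 := Finset.sum_le_card_nsmul _ _ _ h1
  rw [← Finset.mul_sum] at h9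
  refine h9.trans (le_of_eq ?_)
  simp only [Finset.card_univ, Fintype.card_fin, nsmul_eq_mul]
  push_cast
  ring

/-- **H9** -/
theorem kerCut [FiniteDimensional ℂ F] (S : Setup d F) : KerCutStmt S := by
  have : CompleteSpace F := FiniteDimensional.complete ℂ F
  intro Ψ hZ ε hε
  obtain ⟨K, hK, hMM⟩ := U.small_MM_bound S
  obtain ⟨hG, hJ, hQ⟩ := U.small_weak S (U.zj S) Ψ hZ
  have hmem : MemLp Ψ 2 (volume : Measure (Cfg d)) := Lp.memLp Ψ
  obtain ⟨C, hC, happ⟩ := U.app S Ψ hmem hG hJ hQ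
  obtain ⟨T, hT⟩ : ∃ T : ℝ → ℝ, ∀ R, T R = ∫ x, (if R / 4 ≤ ‖x‖ then ‖Ψ x‖ ^ 2 else 0) :=
    ⟨_, fun _ => rfl⟩
  obtain ⟨M, hM⟩ : ∃ M : ℝ → ℝ, ∀ R, M R =
      ∫ x, (if ‖x‖ ≤ R then (‖x‖ / R) ^ 2 * ‖Ψ x‖ ^ 2 else 0) := ⟨_, fun _ => rfl⟩
  have hT0 : Tendsto T atTop (𝓝 0) := by
    rw [funext hT]
    exact U.small_tail hmem
  have hM0 : Tendsto M atTop (𝓝 0) := by
    rw [funext hM]
    exact U.small_mom hmem
  have hr0 : Tendsto (fun R : ℝ => R⁻¹ ^ 2) atTop (𝓝 0) := by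
    have := (tendsto_inv_atTop_zero (𝕜 := ℝ)).pow 2
    rwa [zero_pow (by norm_num)] at this
  have hE0 : Tendsto (fun R : ℝ => (R⁻¹ ^ 2) ^ 2 + C * T R) atTop (𝓝 0) := by
    have h := (hr0.pow 2).add (hT0.const_mul C)
    rwa [mul_zero, add_zero, zero_pow (by norm_num)] at h
  have hq0 : Tendsto (fun R : ℝ => R⁻¹ ^ 2 + C * T R) atTop (𝓝 0) := by
    have h := hr0.add (hT0.const_mul C)
    rwa [mul_zero, add_zero] at h
  have hH0 : Tendsto (fun R : ℝ => 16 * (2 * (R⁻¹ ^ 2 + C * T R) +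
      2 * K ^ 2 * (2 * ((R⁻¹ ^ 2) ^ 2 + C * T R) + 2 * M R))) atTop (𝓝 0) := by
    have := ((hq0.const_mul 2).add
      (((hE0.const_mul 2).add (hM0.const_mul 2)).const_mul (2 * K ^ 2))).const_mul 16
    simpa only [mul_zero, add_zero] using this
  filter_upwards [eventually_ge_atTop (1 : ℝ), hE0.eventually (ge_mem_nhds hε),
    hH0.eventually (ge_mem_nhds hε)] with R hR1 hRE hRH
  have hR0 : 0 < R := by linarith
  obtain ⟨u, hu, hsupp, hn, hq⟩ := happ R hR1 ((R⁻¹ ^ 2) ^ 2) (by positivity)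
  refine ⟨u, hu, ?_, ?_⟩
  · rw [← hT] at hn
    exact hn.trans hRE
  · rw [← hT] at hn
    refine (kc_en S hMM hmem hu.1 hR0 hsupp (q := R⁻¹ ^ 2 + C * T R) (fun β => ?_) hn
      (hM R).symm.le).trans hRH
    have h1 := mul_le_mul_of_nonneg_left (hq β) (by positivity : (0 : ℝ) ≤ R ^ 2)
    rw [← hT] at h1
    refine h1.trans (le_of_eq ?_)
    field_simp

/-- the equation `Q_βΨ = 0` passes to local limits -/
lemma loc_wQ (S : Setup d F) {l : Filter ℕ} [l.NeBot] {m : ℕ → ℝ} {u : ℕ → Cfg d → F}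
    {Ψ : Cfg d → F} (hm : Tendsto m l (𝓝 0)) (hT : ∀ n, Setup.Tst (u n))
    (hen : Tendsto (fun n => S.en (m n) (u n)) l (𝓝 0))
    (hlim : ∀ ζ : Cfg d → F, Setup.Tst ζ →
      Tendsto (fun n => ipr ζ (u n)) l (𝓝 (∫ x, inner ℂ (ζ x) (Ψ x)))) (β : Fin 16) :
    S.wQ 0 β Ψ (fun _ => 0) := by
  intro ζ hζ
  simp only [inner_zero_right, integral_zero]
  have h1 := hlim _ (hζ.Qm S 0 β)
  have h2 := hlim _ (Setup.Tst.MM S hζ β)
  have h3 : ∀ n, ipr (S.Qm 0 β ζ) (u n) = ipr ζ (S.Qm (m n) β (u n)) -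
      (m n : ℂ) * ipr (fun x => S.MM β x (ζ x)) (u n) := by
    intro n
    unfold ipr
    rw [← Qm_symm S (m n) β ζ (u n) hζ (hT n).1, ← integral_const_mul, ← integral_sub
      ((hζ.Qm S (m n) β).inner_int (hT n).1.continuous)
      (((Setup.Tst.MM S hζ β).inner_int (hT n).1.continuous).const_mul _)]
    refine integral_congr_ae (Filter.Eventually.of_forall fun x => ?_)
    simp only [Setup.Qm, inner_add_left, inner_smul_left, Complex.conj_ofReal,
      Complex.ofReal_zero, map_zero, zero_mul, add_zero, add_sub_cancel_right]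
  have h4 : Tendsto (fun n => ipr ζ (S.Qm (m n) β (u n))) l (𝓝 0) := by
    have h5 : Tendsto (fun n => Real.sqrt (nsq ζ) * Real.sqrt (S.en (m n) (u n))) l (𝓝 0) := by
      have := ((Real.continuous_sqrt.tendsto 0).comp hen).const_mul (Real.sqrt (nsq ζ))
      rwa [Real.sqrt_zero, mul_zero] at this
    refine squeeze_zero_norm (fun n => ?_) h5
    have h6 := cs_inner hζ.memLp ((hT n).Qm S (m n) β).memLp
    refine h6.trans (mul_le_mul_of_nonneg_left (Real.sqrt_le_sqrt ?_) (Real.sqrt_nonneg _))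
    exact Finset.single_le_sum (f := fun β => nsq (S.Qm (m n) β (u n)))
      (fun β _ => nsq_nonneg _) (Finset.mem_univ β)
  have h5 : Tendsto (fun n => (m n : ℂ) * ipr (fun x => S.MM β x (ζ x)) (u n)) l (𝓝 0) := by
    have h6 : Tendsto (fun n => ((m n : ℝ) : ℂ)) l (𝓝 0) := by
      have := (Complex.continuous_ofReal.tendsto 0).comp hm
      rwa [Complex.ofReal_zero] at this
    have := h6.mul h2
    rwa [zero_mul] at this
  have h7 := h4.sub h5
  rw [sub_zero] at h7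
  exact tendsto_nhds_unique h1 (h7.congr fun n => (h3 n).symm)

/-- invariant weak zero modes are zero modes -/
lemma isZM_of_weak [FiniteDimensional ℂ F] (S : Setup d F)
    (Ψ : Lp F 2 (volume : Measure (Cfg d))) (hG : S.wG Ψ) (hJ : S.wJ Ψ)
    (hQ : ∀ β, S.wQ 0 β Ψ (fun _ => 0)) : S.IsZM Ψ := by
  have hmem : MemLp Ψ 2 (volume : Measure (Cfg d)) := Lp.memLp Ψ
  obtain ⟨C, hC, happ⟩ := U.app S Ψ hmem hG hJ hQ
  have hn0 : Tendsto (fun n : ℕ => ((n : ℝ) + 1)) atTop atTop :=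
    tendsto_atTop_add_const_right _ _ tendsto_natCast_atTop_atTop
  have hT0 : Tendsto (fun n : ℕ => ∫ x, (if ((n : ℝ) + 1) / 4 ≤ ‖x‖ then ‖Ψ x‖ ^ 2 else 0)) atTop
      (𝓝 0) := (U.small_tail hmem).comp hn0
  have hd0 : Tendsto (fun n : ℕ => 1 / ((n : ℝ) + 1)) atTop (𝓝 0) :=
    tendsto_one_div_add_atTop_nhds_zero_nat
  have hE0 : Tendsto (fun n : ℕ => 1 / ((n : ℝ) + 1) +
      C * ∫ x, (if ((n : ℝ) + 1) / 4 ≤ ‖x‖ then ‖Ψ x‖ ^ 2 else 0)) atTop (𝓝 0) := by
    have h := hd0.add (hT0.const_mul C)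
    rwa [mul_zero, add_zero] at h
  have hR1 : ∀ n : ℕ, (1 : ℝ) ≤ (n : ℝ) + 1 := fun n => by
    have : (0 : ℝ) ≤ (n : ℝ) := Nat.cast_nonneg n
    linarith
  choose u hu hsupp hn hq using fun n : ℕ => happ ((n : ℝ) + 1) (hR1 n) (1 / ((n : ℝ) + 1))
    (by have := hR1 n; positivity)
  refine ⟨u, fun n => (hu n).1, fun n => (hu n).2.1, ?_, fun β => ?_⟩
  · exact squeeze_zero (fun n => nsq_nonneg _) hn hE0
  · refine squeeze_zero (fun n => nsq_nonneg _) (fun n => (hq n β).trans ?_) hE0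
    have h1 : 0 ≤ ∫ x, (if ((n : ℝ) + 1) / 4 ≤ ‖x‖ then ‖Ψ x‖ ^ 2 else 0) :=
      integral_nonneg fun x => by split_ifs <;> positivity
    have h2 : C / ((n : ℝ) + 1) ^ 2 ≤ C := by
      refine div_le_self hC ?_
      exact one_le_pow₀ (hR1 n)
    have := mul_le_mul_of_nonneg_right h2 h1
    linarith

/-- **H10** -/
theorem loc [FiniteDimensional ℂ F] (S : Setup d F) : LocStmt S := by
  intro l _ m u C Ψ hm hInv _ hen hlim
  refine isZM_of_weak S Ψ ?_ ?_ (loc_wQ S hm (fun n => (hInv n).1) hen hlim)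
  · intro A ζ hζ
    refine tendsto_nhds_unique (hlim _ (hζ.G S A)) (tendsto_const_nhds.congr fun n => ?_)
    unfold ipr
    rw [G_symm S A ζ (u n) hζ (hInv n).1.1]
    simp only [(hInv n).2.1 A, inner_zero_right, integral_zero]
  · intro k k' hk ζ hζ
    refine tendsto_nhds_unique (hlim _ (hζ.J S k k')) (tendsto_const_nhds.congr fun n => ?_)
    unfold ipr
    rw [J_symm S k k' ζ (u n) hζ (hInv n).1.1]
    simp only [(hInv n).2.2 k k' hk, inner_zero_right, integral_zero]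

end Vale.Agent.P353.Z.AH
end

section

/-! # P353, all `N`, block NF: assembly (unconditional outputs) -/

namespace Vale.Agent.P353.Z.ANF

universe u

theorem exAll : ExStmt := ex_stmt

theorem rotMAll : RotMStmt.{u} := rotM_stmt

theorem basMAll : BasMStmt.{u} := basM_stmt

variable {N d dh dm ds dz k : ℕ} {n : Fin k → ℕ} {T : Fin d → Matrix (Fin N) (Fin N) ℂ} {φ : Spl dh dm d} {ψ : Spl ds dz dh}

theorem valAll (f : Fin d → Fin d → Fin d → ℝ) (fr : NFr n T φ ψ) : ValStmt f fr := val_stmt f fr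

theorem regAll {F : Type u} [NormedAddCommGroup F] [InnerProductSpace ℂ F] (S : Setup d F) (fr : NFr n T φ ψ) :
    RegStmt S fr := reg_stmt S fr

theorem stdAll {F : Type u} [NormedAddCommGroup F] [InnerProductSpace ℂ F] (S : Setup d F) (fr : NFr n T φ ψ)
    (hB : Bas N d T S.f) (z₀ : Cfg dz) (hz : ∀ a b, a ≠ b → fr.val z₀ 8 a ≠ fr.val z₀ 8 b) : AD.Std2 S φ ψ z₀ :=
  std_stmt S fr hB (reg_stmt S fr) z₀ hz

theorem sfAll {F : Type u} [NormedAddCommGroup F] [InnerProductSpace ℂ F] (S : Setup d F) (fr : NFr n T φ ψ) :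
    SfStmt S fr := sf_stmt S fr

theorem oneAll {F : Type u} [NormedAddCommGroup F] [InnerProductSpace ℂ F] (S : Setup d F) (fr : NFr n T φ ψ) :
    OneStmt S fr := one_stmt S fr (sf_stmt S fr)

theorem nrmAll (f : Fin d → Fin d → Fin d → ℝ) (fr : NFr n T φ ψ) : NrmStmt f fr := nrm_stmt f fr (val_stmt f fr)

theorem swAll (f : Fin d → Fin d → Fin d → ℝ) (fr : NFr n T φ ψ) : SwStmt f fr := sw_stmt f fr (val_stmt f fr)

end Vale.Agent.P353.Z.ANF
end

section

/-! # P353, all `N`, block B: the scaling `w ↦ √R w` of the fibre -/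

open MeasureTheory Filter Topology Matrix
open scoped ContDiff

namespace Vale.Agent.P353.Z

variable {d dh dm : ℕ} {F : Type*} [NormedAddCommGroup F] [InnerProductSpace ℂ F]

private lemma scF_fin (dm : ℕ) : Module.finrank ℝ (Wsp dm) = 8 * dm := by
  rw [finrank_euclideanSpace, Fintype.card_prod, Fintype.card_fin, Fintype.card_fin]

private lemma scF_int {E : Type*} [NormedAddCommGroup E] [NormedSpace ℝ E] {R : ℝ} (hR : 0 < R)
    (u : Wsp dm → E) :
    ∫ w, u (Real.sqrt R • w) = (Real.sqrt R ^ (8 * dm))⁻¹ • ∫ w, u w := by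
  have h := Measure.integral_comp_smul (volume : Measure (Wsp dm)) u (Real.sqrt R)
  rw [scF_fin] at h
  rw [h, abs_of_nonneg]
  have := Real.sqrt_nonneg R
  positivity

private lemma scF_pf {f h : Wsp dm → F} {c : ℝ} (hf : ∀ w, f w = h (c • w)) (j : Fin 8)
    (B : Fin dm) (w : Wsp dm) : pf j B f w = (c : ℂ) • pf j B h (c • w) := by
  have h1 : f = (h <| c • ·) := funext hf
  unfold pf
  rw [h1, fderiv_comp_smul, _root_.smul_apply, Complex.coe_smul]

private lemma scF_wt (c : ℝ) (w : Wsp dm) (i : Fin 9) : wt (c • w) i = c • wt w i := by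
  funext B
  refine Fin.lastCases ?_ (fun j => ?_) i
  · simp only [wt, Pi.smul_apply, Fin.lastCases_last, smul_zero]
  · simp only [wt, Pi.smul_apply, Fin.lastCases_castSucc, PiLp.smul_apply]

private lemma scF_sV (D : Fin 9 → Matrix (Fin dm) (Fin dm) ℝ) (c : ℝ) (w : Wsp dm) :
    sV D (c • w) = c • sV D w := by
  unfold sV
  simp only [scF_wt, Matrix.mulVec_smul, ← Finset.smul_sum]

private lemma scF_VV (D : Fin 9 → Matrix (Fin dm) (Fin dm) ℝ) (c : ℝ) (w : Wsp dm) (i : Fin 9) :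
    VV D (c • w) i = c • VV D w i := by
  unfold VV
  rw [scF_wt, scF_sV, Matrix.mulVec_smul, smul_sub]

private lemma scF_qf (D : Fin 9 → Matrix (Fin dm) (Fin dm) ℝ) (Om : Matrix (Fin dm) (Fin dm) ℝ)
    (c : ℝ) (w : Wsp dm) : qf D Om (c • w) = c ^ 2 * qf D Om w := by
  unfold qf
  simp only [scF_VV, Matrix.mulVec_smul, smul_dotProduct, dotProduct_smul, smul_eq_mul,
    Finset.mul_sum]
  exact Finset.sum_congr rfl fun i _ => by ring

private lemma scF_gR (D : Fin 9 → Matrix (Fin dm) (Fin dm) ℝ) (Om : Matrix (Fin dm) (Fin dm) ℝ)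
    {R : ℝ} (hR : 0 < R) (w : Wsp dm) : gR D Om R w = gR D Om 1 (Real.sqrt R • w) := by
  unfold gR
  rw [scF_qf, Real.sq_sqrt hR.le]
  congr 1
  ring

private lemma scF_neg (D : Fin 9 → Matrix (Fin dm) (Fin dm) ℝ) (Om : Matrix (Fin dm) (Fin dm) ℝ)
    (R : ℝ) (w : Wsp dm) : gR D Om R (-w) = gR D Om R w := by
  unfold gR
  have h := scF_qf D Om (-1) w
  rw [neg_one_smul] at h
  rw [h]
  congr 1
  ring

private lemma scF_inv {R : ℝ} (hR : R ≠ 0) (M : Matrix (Fin dm) (Fin dm) ℝ) :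
    (R • M)⁻¹ = R⁻¹ • M⁻¹ := by
  by_cases h : IsUnit M.det
  · exact Matrix.inv_smul' M (Units.mk0 R hR) h
  · rw [Matrix.nonsing_inv_apply_not_isUnit _ h, smul_zero]
    refine Matrix.nonsing_inv_apply_not_isUnit _ ?_
    rw [Matrix.det_smul]
    intro h1
    exact h (isUnit_of_mul_isUnit_right h1)

theorem scaleF (S : Setup d F) (φ : Spl dh dm d) : ScaleFStmt S φ := by
  intro hfin D D0 Om R hR f h hf hfh
  have hs0 : 0 < Real.sqrt R := Real.sqrt_pos.2 hR
  have hs2 : Real.sqrt R * Real.sqrt R = R := Real.mul_self_sqrt hR.le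
  obtain ⟨s, hs⟩ : ∃ s, s = Real.sqrt R := ⟨_, rfl⟩
  have hh : h = fun w => f (s⁻¹ • w) := by
    funext w
    rw [hfh, ← hs, smul_smul, mul_inv_cancel₀ (by rw [hs]; exact hs0.ne'), one_smul]
  have hpf := fun (j : Fin 8) (B : Fin dm) (w : Wsp dm) => scF_pf (F := F) hfh j B w
  refine ⟨⟨?_, ?_⟩, ?_, fun j B => ?_, ?_, fun β w => ?_, fun w => ?_, fun hodd w => ?_⟩
  · rw [hh]
    exact hf.1.comp (contDiff_const_smul _)
  · rw [hh]
    exact hf.2.comp_smul (by rw [hs]; exact inv_ne_zero hs0.ne')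
  · unfold nsf
    simp only [hfh]
    exact scF_int hR fun w => ‖h w‖ ^ 2
  · unfold nsf
    have e : (fun w => ‖pf j B f w‖ ^ 2) =
        fun w => (fun v => R * ‖pf j B h v‖ ^ 2) (Real.sqrt R • w) := by
      funext w
      simp only []
      rw [hpf, norm_smul, mul_pow, Complex.norm_real, Real.norm_eq_abs, sq_abs,
        Real.sq_sqrt hR.le]
    rw [e]
    refine (scF_int hR fun v => R * ‖pf j B h v‖ ^ 2).trans ?_
    rw [integral_const_mul, smul_eq_mul]
  · unfold nsf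
    have e : (fun w : Wsp dm => ‖((‖w‖ : ℝ) : ℂ) • f w‖ ^ 2) =
        fun w => (fun v => R⁻¹ * ‖((‖v‖ : ℝ) : ℂ) • h v‖ ^ 2) (Real.sqrt R • w) := by
      funext w
      simp only []
      rw [hfh, norm_smul, norm_smul, mul_pow, mul_pow, Complex.norm_real, Complex.norm_real,
        norm_norm, norm_norm, norm_smul, mul_pow, Real.norm_eq_abs, sq_abs, Real.sq_sqrt hR.le]
      field_simp
    rw [e]
    refine (scF_int hR fun v => R⁻¹ * ‖((‖v‖ : ℝ) : ℂ) • h v‖ ^ 2).trans ?_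
    rw [integral_const_mul, smul_eq_mul]
  · -- the supercharge
    unfold Setup.q1
    have hR0 : (R : ℂ) ≠ 0 := Complex.ofReal_ne_zero.2 hR.ne'
    have hsC : ((Real.sqrt R : ℝ) : ℂ) * ((Real.sqrt R : ℝ) : ℂ) = (R : ℂ) := by
      rw [← Complex.ofReal_mul, hs2]
    rw [smul_add, smul_add]
    congr 1
    · congr 1
      · rw [smul_comm]
        congr 1
        rw [Finset.smul_sum]
        refine Finset.sum_congr rfl fun j _ => ?_
        rw [Finset.smul_sum]
        refine Finset.sum_congr rfl fun B _ => ?_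
        rw [hpf, map_smul]
      · rw [smul_comm]
        congr 1
        rw [Finset.smul_sum]
        refine Finset.sum_congr rfl fun B _ => ?_
        rw [← map_smul]
        congr 1
        rw [Finset.smul_sum]
        refine Finset.sum_congr rfl fun C _ => ?_
        rw [scF_inv hR.ne', smul_comm ((Real.sqrt R : ℝ) : ℂ), Matrix.smul_apply, smul_eq_mul,
          Complex.ofReal_mul, mul_comm, mul_smul]
        congr 1
        rw [Finset.smul_sum, Finset.smul_sum]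
        refine Finset.sum_congr rfl fun j _ => ?_
        rw [Finset.smul_sum, Finset.smul_sum]
        refine Finset.sum_congr rfl fun E _ => ?_
        beta_reduce
        rw [hpf, Matrix.smul_apply, smul_eq_mul, smul_smul, smul_smul, smul_smul]
        congr 1
        push_cast
        field_simp
    · rw [smul_comm]
      congr 1
      rw [Finset.smul_sum]
      refine Finset.sum_congr rfl fun B _ => ?_
      rw [Finset.smul_sum]
      refine Finset.sum_congr rfl fun i _ => ?_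
      rw [Finset.smul_sum]
      refine Finset.sum_congr rfl fun j _ => ?_
      rw [hfh, smul_smul, ← Complex.ofReal_mul]
      congr 2
      have e1 : ∀ (i j : Fin 9), ∑ C, (R • D i) B C * wt w j C =
          Real.sqrt R * ∑ C, D i B C * wt (Real.sqrt R • w) j C := by
        intro i j
        rw [Finset.mul_sum]
        refine Finset.sum_congr rfl fun C _ => ?_
        rw [scF_wt, Matrix.smul_apply, smul_eq_mul, Pi.smul_apply, smul_eq_mul]
        linear_combination (-(D i B C * wt w j C)) * hs2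
      rw [e1, e1]
      ring
  · -- the projection
    unfold Setup.PR
    have hc : (Real.sqrt R ^ (8 * dm))⁻¹ ≠ 0 := inv_ne_zero (pow_ne_zero _ hs0.ne')
    have e1 : ∫ w', gR D0 Om R w' ^ 2 =
        (Real.sqrt R ^ (8 * dm))⁻¹ * ∫ w', gR D0 Om 1 w' ^ 2 := by
      simp only [scF_gR D0 Om hR]
      exact scF_int hR fun w => gR D0 Om 1 w ^ 2
    have e2 : ∫ w', ((gR D0 Om R w' : ℝ) : ℂ) • f w' =
        (((Real.sqrt R ^ (8 * dm))⁻¹ : ℝ) : ℂ) • ∫ w', ((gR D0 Om 1 w' : ℝ) : ℂ) • h w' := by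
      simp only [scF_gR D0 Om hR, hfh]
      rw [Complex.coe_smul]
      exact scF_int hR fun w => ((gR D0 Om 1 w : ℝ) : ℂ) • h w
    rw [e1, e2, map_smul, smul_smul, scF_gR D0 Om hR, ← Complex.ofReal_mul]
    congr 2
    rw [div_mul_eq_mul_div, mul_comm (gR D0 Om 1 _), mul_div_mul_left _ _ hc]
  · -- odd functions
    unfold Setup.PR
    have e1 : ∫ w', ((gR D0 Om R w' : ℝ) : ℂ) • f w' = 0 := by
      have e2 := integral_neg_eq_self (fun w' : Wsp dm => ((gR D0 Om R w' : ℝ) : ℂ) • f w') volume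
      simp only [scF_neg, hodd, smul_neg, integral_neg] at e2
      have e3 : (2 : ℂ) • ∫ w', ((gR D0 Om R w' : ℝ) : ℂ) • f w' = 0 := by
        rw [two_smul]
        nth_rewrite 1 [← e2]
        exact neg_add_cancel _
      exact (smul_eq_zero.1 e3).resolve_left two_ne_zero
    rw [e1, map_zero, smul_zero]

end Vale.Agent.P353.Z
end

section

/-! # P353, all `N`, block B: assembly (fibre facts, unconditional) -/

namespace Vale.Agent.P353.Z

variable {d dh dm : ℕ} {F : Type*} [NormedAddCommGroup F] [InnerProductSpace ℂ F]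

theorem gapAll (S : Setup d F) (φ : Spl dh dm d) : GapFStmt S φ := by
  intro hF
  have := FiniteDimensional.complete ℂ F
  exact gapF S φ qfS (enF S φ alg) (lamS S φ) (poi dm F) hF

theorem coerAll (S : Setup d F) (φ : Spl dh dm d) : CoerFStmt S φ := coerF S φ qfS (enF S φ alg) (lamS S φ)

/-- **B-Fib**, unconditional -/
theorem fibAll (S : Setup d F) (φ : Spl dh dm d) : FibStmt S φ :=
  fib S φ (gapAll S φ) (coerAll S φ) (pertF S φ) (scaleF S φ)

end Vale.Agent.P353.Z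
end

section

/-! # P353, all `N`, block D: D7 weighted kernel elements decay -/

open MeasureTheory Filter Topology
open scoped ContDiff

namespace Vale.Agent.P353.Z.AD

variable {d : ℕ} {F : Type*} [NormedAddCommGroup F] [InnerProductSpace ℂ F]

namespace DecK

open HInf

/-- exponent of the weight -/
def pe (B j : ℤ) : ℤ := min (2 * max j 0) (4 * B - 2 * j)

/-- the weight -/
noncomputable def pw (B j : ℤ) : ℝ := (2 : ℝ) ^ pe B j

lemma pw_pos (B j : ℤ) : 0 < pw B j := by unfold pw; positivity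

lemma pw_mul (B i k : ℤ) : pw B (i + k) ≤ (2 : ℝ) ^ (2 * |k|) * pw B i := by
  unfold pw
  rw [← zpow_add₀ (by norm_num : (2 : ℝ) ≠ 0)]
  apply zpow_le_zpow_right₀ (by norm_num)
  unfold pe
  have h1 := le_abs_self k
  have h2 := neg_abs_le k
  have h3 := abs_nonneg k
  generalize |k| = a at *
  omega

lemma pw_le {B : ℤ} (hB : 0 ≤ B) (j : ℤ) : pw B j ≤ (2 : ℝ) ^ (2 * B) := by
  unfold pw
  apply zpow_le_zpow_right₀ (by norm_num)
  unfold pe
  omega

lemma four_zpow (j : ℤ) : (4 : ℝ) ^ j = (2 : ℝ) ^ (2 * j) := by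
  rw [zpow_mul]
  norm_num

lemma pw_four (B j : ℤ) : pw B j * (4 : ℝ) ^ j ≤ (2 : ℝ) ^ (4 * B) := by
  rw [four_zpow]
  unfold pw
  rw [← zpow_add₀ (by norm_num : (2 : ℝ) ≠ 0)]
  apply zpow_le_zpow_right₀ (by norm_num)
  unfold pe
  omega

lemma pw_ball {B j j₀ : ℤ} (h0 : 0 ≤ j₀) (hj : j < j₀) : pw B j ≤ (2 : ℝ) ^ (2 * j₀) := by
  unfold pw
  apply zpow_le_zpow_right₀ (by norm_num)
  unfold pe
  omega

lemma pw_eq {B j : ℤ} (h0 : 0 ≤ j) (hj : j ≤ B) : pw B j = (2 : ℝ) ^ (2 * j) := by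
  unfold pw pe
  congr 1
  omega

/-- the annulus `2^{j₀} ≤ |x| < 2^{J+1}` -/
def ann (d : ℕ) (j₀ J : ℤ) : Set (Cfg d) :=
  Metric.ball (0 : Cfg d) ((2 : ℝ) ^ (J + 1)) \ Metric.ball (0 : Cfg d) ((2 : ℝ) ^ j₀)

lemma ae_ann (j₀ J : ℤ) : ∀ᵐ x ∂(volume : Measure (Cfg d)), x ∈ ann d j₀ J →
    x ∈ US d fun j => j₀ ≤ j ∧ j ≤ J := by
  filter_upwards [ae_cover (d := d) j₀] with x hx hxa
  obtain ⟨j, hj, hxj⟩ := Set.mem_iUnion.1 (hx hxa.2)
  refine Set.mem_iUnion.2 ⟨j, ⟨hj, ?_⟩, hxj⟩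
  by_contra hcon
  have h1 : ‖x‖ < (2 : ℝ) ^ (J + 1) := by
    have := hxa.1
    rwa [Metric.mem_ball, dist_zero_right] at this
  have h2 : (2 : ℝ) ^ (J + 1) ≤ (2 : ℝ) ^ j := zpow_le_zpow_right₀ (by norm_num) (by omega)
  have h3 : (2 : ℝ) ^ j < ‖x‖ := hxj.1
  linarith

lemma nsq_int {G : Type*} [NormedAddCommGroup G] [InnerProductSpace ℂ G] {u : Cfg d → G}
    (hu : Setup.Tst u) : Integrable (fun x => ‖x‖ ^ 2 * ‖u x‖ ^ 2) (volume : Measure (Cfg d)) := by
  have h1 : Continuous fun x => ‖x‖ ^ 2 * ‖u x‖ ^ 2 := by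
    have := hu.1.continuous
    fun_prop
  apply h1.integrable_of_hasCompactSupport
  refine HasCompactSupport.mul_left ?_
  exact hu.2.comp_left (g := fun y : G => ‖y‖ ^ 2) (by simp)

/-- the estimate for test functions -/
lemma est (S : Setup d F) (hDisc : DiscStmt) {j₀ : ℕ} {C₀ : ℝ} (hC₀ : 0 ≤ C₀)
    (hdy : ∀ u, GInv S u → ∀ j : ℤ, (j₀ : ℤ) ≤ j →
      mas u (dsh d j) ≤ 1 / 4 * (∑' k : ℤ, if k = 0 then 0 else (2 : ℝ) ^ (-(3 * |k|)) *
        mas u (dsh d (j + k))) +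
      C₀ * ∑' k : ℤ, (2 : ℝ) ^ (-(3 * |k|)) * ((4 : ℝ) ^ (j + k) * ena S u (dsh d (j + k))))
    {J : ℤ} (hJ : 0 ≤ J) {u : Cfg d → F} (hu : GInv S u) :
    ∫ x in ann d j₀ J, ‖x‖ ^ 2 * ‖u x‖ ^ 2 ≤
      4 * ((2 : ℝ) ^ (2 * (j₀ : ℤ)) * mas u (Metric.ball 0 ((2 : ℝ) ^ (j₀ : ℤ))) +
        6 * C₀ * ((2 : ℝ) ^ (4 * J) * En S u)) := by
  classical
  have hui := tst_int hu.1
  have hQi : ∀ β, Integrable (fun x => ‖S.Q β u x‖ ^ 2) (volume : Measure (Cfg d)) := fun β =>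
    tst_int (Setup.Tst.Q S hu.1 β)
  set M : ℤ → ℝ := fun j => mas u (dsh d j) with hM
  set E : ℤ → ℝ := fun j => ena S u (dsh d j) with hE
  have hM0 : ∀ j, 0 ≤ M j := fun j => integral_nonneg fun x => by positivity
  have hE0 : ∀ j, 0 ≤ E j := fun j => Finset.sum_nonneg fun β _ =>
    integral_nonneg fun x => by positivity
  have hMs : Summable M := summable_dsh hui
  have hEs : Summable E := by
    have : E = fun j => ∑ β, ∫ x in dsh d j, ‖S.Q β u x‖ ^ 2 := rfl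
    rw [this]
    exact summable_sum fun β _ => summable_dsh (hQi β)
  have hEle : ∑' j, E j ≤ En S u := by
    have : ∑' j, E j = ∑ β, ∑' j, ∫ x in dsh d j, ‖S.Q β u x‖ ^ 2 :=
      Summable.tsum_finsetSum fun β _ => summable_dsh (hQi β)
    rw [this]
    unfold En nsq
    exact Finset.sum_le_sum fun β _ => tsum_dsh_le (hQi β) fun x => by positivity
  have hwM : Summable fun j => pw J j * M j :=
    Summable.of_nonneg_of_le (fun j => mul_nonneg (pw_pos J j).le (hM0 j))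
      (fun j => mul_le_mul_of_nonneg_right (pw_le hJ j) (hM0 j)) (hMs.mul_left _)
  have hwe_le : ∀ j, pw J j * ((4 : ℝ) ^ j * E j) ≤ (2 : ℝ) ^ (4 * J) * E j := by
    intro j
    rw [← mul_assoc]
    exact mul_le_mul_of_nonneg_right (pw_four J j) (hE0 j)
  have hwe : Summable fun j => pw J j * ((4 : ℝ) ^ j * E j) :=
    Summable.of_nonneg_of_le (fun j => mul_nonneg (pw_pos J j).le
      (mul_nonneg (by positivity) (hE0 j))) hwe_le (hEs.mul_left _)
  have key := hDisc M (fun j => (4 : ℝ) ^ j * E j) (pw J) j₀ C₀ hC₀ hM0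
    (fun j => mul_nonneg (by positivity) (hE0 j)) (pw_pos J) (pw_mul J) hwM hwe
    (fun j hj => hdy u hu j hj)
  set ρ : ℝ := (2 : ℝ) ^ (j₀ : ℤ) with hρ
  -- inner part
  have hB : (∑' j : ℤ, if (j₀ : ℤ) ≤ j then 0 else pw J j * M j) ≤
      (2 : ℝ) ^ (2 * (j₀ : ℤ)) * mas u (Metric.ball 0 ρ) := by
    have h1 := hasSum_dsh hui fun j => ¬ ((j₀ : ℤ) ≤ j)
    have h1' := h1.mul_left ((2 : ℝ) ^ (2 * (j₀ : ℤ)))
    have h2 : (∑' j : ℤ, if (j₀ : ℤ) ≤ j then 0 else pw J j * M j) ≤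
        ∑' j : ℤ, (2 : ℝ) ^ (2 * (j₀ : ℤ)) *
          (if ¬ ((j₀ : ℤ) ≤ j) then ∫ x in dsh d j, ‖u x‖ ^ 2 else 0) := by
      refine Summable.tsum_le_tsum ?_ ?_ h1'.summable
      · intro j
        by_cases hj : (j₀ : ℤ) ≤ j
        · simp [hj]
        · simp only [hj, if_false, not_false_eq_true, if_true]
          exact mul_le_mul_of_nonneg_right (pw_ball (by positivity) (by omega)) (hM0 j)
      · refine Summable.of_nonneg_of_le ?_ ?_ hwM
        · intro j
          split_ifs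
          · exact le_rfl
          · exact mul_nonneg (pw_pos J j).le (hM0 j)
        · intro j
          split_ifs
          · exact mul_nonneg (pw_pos J j).le (hM0 j)
          · exact le_rfl
    refine h2.trans ?_
    rw [h1'.tsum_eq]
    refine mul_le_mul_of_nonneg_left ?_ (by positivity)
    unfold mas
    refine setIntegral_mono_set hui.integrableOn (Eventually.of_forall fun x => by positivity) ?_
    refine (HasSubset.Subset.eventuallyLE ?_)
    intro x hx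
    obtain ⟨j, hj, hxj⟩ := Set.mem_iUnion.1 hx
    rw [Metric.mem_ball, dist_zero_right]
    refine lt_of_lt_of_le hxj.2 ?_
    exact zpow_le_zpow_right₀ (by norm_num) (by omega)
  -- outer part
  have hgi := nsq_int hu.1
  have hg0 : ∀ x : Cfg d, 0 ≤ ‖x‖ ^ 2 * ‖u x‖ ^ 2 := fun x => by positivity
  have hOut : ∫ x in ann d j₀ J, ‖x‖ ^ 2 * ‖u x‖ ^ 2 ≤
      4 * ∑' j : ℤ, if (j₀ : ℤ) ≤ j then pw J j * M j else 0 := by
    have h1 := hasSum_dsh hgi fun j => (j₀ : ℤ) ≤ j ∧ j ≤ J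
    have h2 : ∫ x in ann d j₀ J, ‖x‖ ^ 2 * ‖u x‖ ^ 2 ≤
        ∫ x in US d fun j => (j₀ : ℤ) ≤ j ∧ j ≤ J, ‖x‖ ^ 2 * ‖u x‖ ^ 2 := by
      refine setIntegral_mono_set hgi.integrableOn (Eventually.of_forall fun x => hg0 x) ?_
      filter_upwards [ae_ann (d := d) (j₀ : ℤ) J] with x hx hxb
      exact hx hxb
    refine h2.trans ?_
    rw [← h1.tsum_eq, ← tsum_mul_left]
    refine Summable.tsum_le_tsum ?_ h1.summable ?_
    · intro j
      by_cases hj : (j₀ : ℤ) ≤ j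
      · by_cases hj' : j ≤ J
        · simp only [hj, hj', and_self, if_true]
          have h3 : ∫ x in dsh d j, ‖x‖ ^ 2 * ‖u x‖ ^ 2 ≤
              ∫ x in dsh d j, (4 * pw J j) * ‖u x‖ ^ 2 := by
            refine setIntegral_mono_on hgi.integrableOn (hui.const_mul _).integrableOn
              (meas_dsh j) ?_
            intro x hx
            refine mul_le_mul_of_nonneg_right ?_ (by positivity)
            rw [pw_eq (by omega) hj']
            have h4 : ‖x‖ < (2 : ℝ) ^ (j + 1) := hx.2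
            have h5 : (2 : ℝ) ^ (2 * j) = ((2 : ℝ) ^ j) ^ 2 := by
              rw [mul_comm, zpow_mul]
              norm_cast
            have h6 : (2 : ℝ) ^ (j + 1) = 2 * (2 : ℝ) ^ j := by
              rw [zpow_add₀ (by norm_num : (2 : ℝ) ≠ 0), zpow_one, mul_comm]
            rw [h6] at h4
            rw [h5]
            nlinarith [norm_nonneg x]
          refine h3.trans ?_
          rw [integral_const_mul, mul_assoc]
          exact le_rfl
        · simp only [hj, hj', and_false, if_false, if_true]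
          exact mul_nonneg (by norm_num) (mul_nonneg (pw_pos J j).le (hM0 j))
      · simp [hj]
    · refine Summable.mul_left _ ?_
      refine Summable.of_nonneg_of_le ?_ ?_ hwM
      · intro j
        split_ifs
        · exact mul_nonneg (pw_pos J j).le (hM0 j)
        · exact le_rfl
      · intro j
        split_ifs
        · exact le_rfl
        · exact mul_nonneg (pw_pos J j).le (hM0 j)
  have hsum : ∑' j, pw J j * ((4 : ℝ) ^ j * E j) ≤ (2 : ℝ) ^ (4 * J) * En S u := by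
    refine (Summable.tsum_le_tsum hwe_le hwe (hEs.mul_left _)).trans ?_
    rw [tsum_mul_left]
    exact mul_le_mul_of_nonneg_left hEle (by positivity)
  have h6 : 6 * C₀ * ∑' j, pw J j * ((4 : ℝ) ^ j * E j) ≤
      6 * C₀ * ((2 : ℝ) ^ (4 * J) * En S u) :=
    mul_le_mul_of_nonneg_left hsum (by positivity)
  refine hOut.trans (mul_le_mul_of_nonneg_left ?_ (by norm_num))
  exact key.trans (add_le_add hB h6)

/-- the weighted mass in a ball is controlled by the weighted norm -/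
lemma ball_int {w : Cfg d → F} (hw : AEStronglyMeasurable w (volume : Measure (Cfg d)))
    (hi : Integrable (fun x => ‖w x‖ ^ 2 / (1 + ‖x‖ ^ 2)) (volume : Measure (Cfg d))) (r : ℝ) :
    IntegrableOn (fun x => (1 + ‖x‖ ^ 2) * ‖w x‖ ^ 2) (Metric.ball (0 : Cfg d) r) volume ∧
      ∫ x in Metric.ball (0 : Cfg d) r, (1 + ‖x‖ ^ 2) * ‖w x‖ ^ 2 ≤
        (1 + r ^ 2) ^ 2 * ∫ x, ‖w x‖ ^ 2 / (1 + ‖x‖ ^ 2) := by
  have hle : ∀ x ∈ Metric.ball (0 : Cfg d) r, (1 + ‖x‖ ^ 2) * ‖w x‖ ^ 2 ≤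
      (1 + r ^ 2) ^ 2 * (‖w x‖ ^ 2 / (1 + ‖x‖ ^ 2)) := by
    intro x hx
    rw [Metric.mem_ball, dist_zero_right] at hx
    have h1 : 1 + ‖x‖ ^ 2 ≤ 1 + r ^ 2 := by nlinarith [norm_nonneg x]
    have h0 : 0 < 1 + ‖x‖ ^ 2 := by positivity
    have h2 : (1 + ‖x‖ ^ 2) * ‖w x‖ ^ 2 = (1 + ‖x‖ ^ 2) ^ 2 * (‖w x‖ ^ 2 / (1 + ‖x‖ ^ 2)) := by
      field_simp
    rw [h2]
    refine mul_le_mul_of_nonneg_right ?_ (by positivity)
    exact pow_le_pow_left₀ h0.le h1 2
  have hm : AEStronglyMeasurable (fun x : Cfg d => (1 + ‖x‖ ^ 2) * ‖w x‖ ^ 2) volume := by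
    refine AEStronglyMeasurable.mul ?_ (hw.norm.pow 2)
    exact (Continuous.aestronglyMeasurable (by fun_prop))
  have hI : IntegrableOn (fun x => (1 + ‖x‖ ^ 2) * ‖w x‖ ^ 2) (Metric.ball (0 : Cfg d) r) volume := by
    refine Integrable.mono' (hi.const_mul ((1 + r ^ 2) ^ 2)).integrableOn hm.restrict ?_
    refine (ae_restrict_iff' Metric.isOpen_ball.measurableSet).2 (Eventually.of_forall fun x hx => ?_)
    rw [Real.norm_of_nonneg (by positivity)]
    exact hle x hx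
  refine ⟨hI, ?_⟩
  refine (setIntegral_mono_on hI (hi.const_mul ((1 + r ^ 2) ^ 2)).integrableOn
    Metric.isOpen_ball.measurableSet hle).trans ?_
  rw [← integral_const_mul]
  exact setIntegral_le_integral (hi.const_mul _) (Eventually.of_forall fun x => by positivity)

lemma norm_sq_tri {G : Type*} [NormedAddCommGroup G] (a b : G) : ‖a‖ ^ 2 ≤ 2 * ‖b‖ ^ 2 + 2 * ‖b - a‖ ^ 2 := by
  have h1 : ‖a‖ ≤ ‖b‖ + ‖b - a‖ := by
    have h2 := norm_sub_norm_le a b
    rw [norm_sub_rev] at h2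
    linarith
  nlinarith [norm_nonneg a, norm_nonneg b, norm_nonneg (b - a), sq_nonneg (‖b‖ - ‖b - a‖)]

end DecK

open HInf DecK in
/-- **D7** -/
theorem decKW (S : Setup d F) : DecStmt S := by
  intro hDy hDisc
  obtain ⟨j₀, C₀, hC₀, hdy⟩ := hDy (1 / 4) (by norm_num)
  set ρ : ℝ := (2 : ℝ) ^ (j₀ : ℤ) with hρ
  have hρ1 : 1 ≤ ρ := one_le_zpow₀ (by norm_num) (by positivity)
  have hρ2 : (2 : ℝ) ^ (2 * (j₀ : ℤ)) = ρ ^ 2 := by
    rw [hρ, mul_comm, zpow_mul]
    norm_cast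
  refine ⟨ρ, 4 * (1 + 9 * ρ ^ 2), by positivity, by positivity, ?_⟩
  rintro u ⟨hum, v, hv, hui, hvu, hEn⟩
  -- measurability and integrability
  have hvm : ∀ n, AEStronglyMeasurable (v n) (volume : Measure (Cfg d)) := fun n =>
    (hv n).1.1.continuous.aestronglyMeasurable
  have hvi : ∀ n, Integrable (fun x => ‖v n x‖ ^ 2 / (1 + ‖x‖ ^ 2)) (volume : Measure (Cfg d)) := by
    intro n
    have hc : Continuous fun x : Cfg d => ‖v n x‖ ^ 2 / (1 + ‖x‖ ^ 2) := by
      have := (hv n).1.1.continuous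
      refine Continuous.div (by fun_prop) (by fun_prop) ?_
      intro x
      positivity
    refine (tst_int (hv n).1).mono' hc.aestronglyMeasurable (Eventually.of_forall fun x => ?_)
    rw [Real.norm_of_nonneg (by positivity)]
    apply div_le_self (by positivity)
    have := sq_nonneg ‖x‖
    linarith
  have hdm : ∀ n, AEStronglyMeasurable (fun x => v n x - u x) (volume : Measure (Cfg d)) := fun n =>
    (hvm n).sub hum
  have hdi : ∀ n, Integrable (fun x => ‖v n x - u x‖ ^ 2 / (1 + ‖x‖ ^ 2))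
      (volume : Measure (Cfg d)) := by
    intro n
    refine (((hvi n).const_mul 2).add (hui.const_mul 2)).mono' ?_ (Eventually.of_forall fun x => ?_)
    · refine AEStronglyMeasurable.div₀ ((hdm n).norm.pow 2) ?_
      exact (Continuous.aestronglyMeasurable (by fun_prop))
    · rw [Real.norm_of_nonneg (by positivity)]
      simp only [Pi.add_apply]
      rw [← mul_div_assoc, ← mul_div_assoc, ← add_div]
      refine div_le_div_of_nonneg_right ?_ (by positivity)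
      have h1 := norm_sub_le (v n x) (u x)
      nlinarith [norm_nonneg (v n x), norm_nonneg (u x), norm_nonneg (v n x - u x),
        sq_nonneg (‖v n x‖ - ‖u x‖)]
  have hm1 : ∀ {w : Cfg d → F}, AEStronglyMeasurable w (volume : Measure (Cfg d)) →
      Integrable (fun x => ‖w x‖ ^ 2 / (1 + ‖x‖ ^ 2)) (volume : Measure (Cfg d)) → ∀ r : ℝ,
      IntegrableOn (fun x => ‖w x‖ ^ 2) (Metric.ball (0 : Cfg d) r) volume := by
    intro w hw hi r
    refine Integrable.mono' (ball_int hw hi r).1 (hw.norm.pow 2).restrict (Eventually.of_forall fun x => ?_)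
    rw [Real.norm_of_nonneg (by positivity)]
    have := sq_nonneg ‖x‖
    nlinarith [sq_nonneg ‖w x‖]
  -- the bound in balls
  have hball : ∀ J : ℕ, j₀ ≤ J → ∫ x in Metric.ball (0 : Cfg d) ((2 : ℝ) ^ ((J : ℤ) + 1)),
      (1 + ‖x‖ ^ 2) * ‖u x‖ ^ 2 ≤ 4 * (1 + 9 * ρ ^ 2) * mas u (Metric.ball 0 ρ) := by
    intro J hJ
    set r : ℝ := (2 : ℝ) ^ ((J : ℤ) + 1) with hr
    have hρr : ρ ≤ r := zpow_le_zpow_right₀ (by norm_num) (by omega)
    set K : ℝ := 2 * (4 * (6 * C₀ * (2 : ℝ) ^ (4 * (J : ℤ)))) * 2 with hK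
    have hK0 : 0 ≤ K := by positivity
    have hn : ∀ n, ∫ x in Metric.ball (0 : Cfg d) r, (1 + ‖x‖ ^ 2) * ‖u x‖ ^ 2 ≤
        4 * (1 + 9 * ρ ^ 2) * mas u (Metric.ball 0 ρ) +
          (K * En S (v n) + (4 * (1 + 9 * ρ ^ 2) * (1 + r ^ 2) ^ 2 + 2 * (1 + r ^ 2) ^ 2) *
            wn (fun x => v n x - u x)) := by
      intro n
      have hvB := (ball_int (hvm n) (hvi n) r).1
      have huB := (ball_int hum hui r).1
      have hdB := ball_int (hdm n) (hdi n) r
      have hdρ := ball_int (hdm n) (hdi n) ρ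
      -- (i) u by v
      have e1 : ∫ x in Metric.ball (0 : Cfg d) r, (1 + ‖x‖ ^ 2) * ‖u x‖ ^ 2 ≤
          2 * (∫ x in Metric.ball (0 : Cfg d) r, (1 + ‖x‖ ^ 2) * ‖v n x‖ ^ 2) +
          2 * ∫ x in Metric.ball (0 : Cfg d) r, (1 + ‖x‖ ^ 2) * ‖v n x - u x‖ ^ 2 := by
        rw [← integral_const_mul, ← integral_const_mul, ← integral_add (hvB.const_mul _)
          (hdB.1.const_mul _)]
        refine integral_mono huB ((hvB.const_mul _).add (hdB.1.const_mul _)) fun x => ?_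
        have h1 := norm_sq_tri (u x) (v n x)
        have h2 : 0 ≤ 1 + ‖x‖ ^ 2 := by positivity
        have h3 := mul_le_mul_of_nonneg_left h1 h2
        simp only
        linarith
      -- (ii) v in the small ball by u
      have e2 : mas (v n) (Metric.ball 0 ρ) ≤ 2 * mas u (Metric.ball 0 ρ) +
          2 * ((1 + ρ ^ 2) ^ 2 * wn (fun x => v n x - u x)) := by
        have h1 : mas (v n) (Metric.ball 0 ρ) ≤ 2 * mas u (Metric.ball 0 ρ) +
            2 * ∫ x in Metric.ball (0 : Cfg d) ρ, (1 + ‖x‖ ^ 2) * ‖v n x - u x‖ ^ 2 := by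
          unfold mas
          rw [← integral_const_mul, ← integral_const_mul,
            ← integral_add ((hm1 hum hui ρ).const_mul _) (hdρ.1.const_mul _)]
          refine integral_mono (hm1 (hvm n) (hvi n) ρ)
            (((hm1 hum hui ρ).const_mul _).add (hdρ.1.const_mul _)) fun x => ?_
          have h1 := norm_sq_tri (v n x) (u x)
          rw [norm_sub_rev (u x)] at h1
          have h2 : ‖v n x - u x‖ ^ 2 ≤ (1 + ‖x‖ ^ 2) * ‖v n x - u x‖ ^ 2 := by
            have := sq_nonneg ‖x‖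
            nlinarith [sq_nonneg ‖v n x - u x‖]
          simp only
          linarith
        have h2 := hdρ.2
        unfold wn
        linarith
      -- (iii) v in the large ball
      have e3 : ∫ x in Metric.ball (0 : Cfg d) r, (1 + ‖x‖ ^ 2) * ‖v n x‖ ^ 2 ≤
          (1 + ρ ^ 2) * mas (v n) (Metric.ball 0 ρ) +
          2 * (4 * (ρ ^ 2 * mas (v n) (Metric.ball 0 ρ) +
            6 * C₀ * ((2 : ℝ) ^ (4 * (J : ℤ)) * En S (v n)))) := by
        have h1 := est S hDisc hC₀ hdy (J := (J : ℤ)) (by positivity) (hv n)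
        rw [hρ2] at h1
        have hsub : Metric.ball (0 : Cfg d) ρ ⊆ Metric.ball (0 : Cfg d) r :=
          Metric.ball_subset_ball hρr
        have h2 : ∫ x in Metric.ball (0 : Cfg d) r, (1 + ‖x‖ ^ 2) * ‖v n x‖ ^ 2 =
            (∫ x in Metric.ball (0 : Cfg d) ρ, (1 + ‖x‖ ^ 2) * ‖v n x‖ ^ 2) +
            ∫ x in ann d j₀ J, (1 + ‖x‖ ^ 2) * ‖v n x‖ ^ 2 := by
          have h3 : Metric.ball (0 : Cfg d) r = Metric.ball (0 : Cfg d) ρ ∪ ann d j₀ J := by
            unfold ann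
            rw [Set.union_diff_cancel hsub]
          have hsubA : ann d j₀ J ⊆ Metric.ball (0 : Cfg d) r := Set.sdiff_subset
          conv_lhs => rw [h3]
          refine setIntegral_union (Set.disjoint_sdiff_right) ?_ (hvB.mono_set hsub)
            (hvB.mono_set hsubA)
          exact Metric.isOpen_ball.measurableSet.diff Metric.isOpen_ball.measurableSet
        rw [h2]
        refine add_le_add ?_ ?_
        · unfold mas
          rw [← integral_const_mul]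
          refine setIntegral_mono_on (hvB.mono_set hsub) ((hm1 (hvm n) (hvi n) ρ).const_mul _)
            Metric.isOpen_ball.measurableSet fun x hx => ?_
          rw [Metric.mem_ball, dist_zero_right] at hx
          refine mul_le_mul_of_nonneg_right ?_ (by positivity)
          nlinarith [norm_nonneg x]
        · refine le_trans ?_ (mul_le_mul_of_nonneg_left h1 (by norm_num))
          have hmA : MeasurableSet (ann d (j₀ : ℤ) (J : ℤ)) :=
            Metric.isOpen_ball.measurableSet.diff Metric.isOpen_ball.measurableSet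
          rw [← integral_const_mul]
          refine setIntegral_mono_on (hvB.mono_set Set.sdiff_subset)
            ((nsq_int (hv n).1).const_mul _).integrableOn hmA fun x hx => ?_
          have h4 : ρ ≤ ‖x‖ := by
            have := hx.2
            rwa [Metric.mem_ball, dist_zero_right, not_lt] at this
          rw [← mul_assoc]
          refine mul_le_mul_of_nonneg_right ?_ (by positivity)
          nlinarith
      have hw0 : 0 ≤ wn (fun x => v n x - u x) := integral_nonneg fun x => by positivity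
      have hρr2 : (1 + ρ ^ 2) ^ 2 ≤ (1 + r ^ 2) ^ 2 := by
        have : ρ ^ 2 ≤ r ^ 2 := pow_le_pow_left₀ (by positivity) hρr 2
        exact pow_le_pow_left₀ (by positivity) (by linarith) 2
      have e4 := hdB.2
      have e5 : ∫ x in Metric.ball (0 : Cfg d) r, (1 + ‖x‖ ^ 2) * ‖v n x - u x‖ ^ 2 ≤
          (1 + r ^ 2) ^ 2 * wn (fun x => v n x - u x) := e4
      have hm0 : 0 ≤ mas (v n) (Metric.ball 0 ρ) := integral_nonneg fun x => by positivity
      have hEn0 : 0 ≤ En S (v n) := Finset.sum_nonneg fun β _ => integral_nonneg fun x => by positivity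
      have e6 : 2 * ((1 + ρ ^ 2) * mas (v n) (Metric.ball 0 ρ) +
          2 * (4 * (ρ ^ 2 * mas (v n) (Metric.ball 0 ρ) +
            6 * C₀ * ((2 : ℝ) ^ (4 * (J : ℤ)) * En S (v n))))) =
          2 * (1 + 9 * ρ ^ 2) * mas (v n) (Metric.ball 0 ρ) + K * En S (v n) := by
        rw [hK]
        ring
      have e7 : 2 * (1 + 9 * ρ ^ 2) * mas (v n) (Metric.ball 0 ρ) ≤
          2 * (1 + 9 * ρ ^ 2) * (2 * mas u (Metric.ball 0 ρ) +
          2 * ((1 + ρ ^ 2) ^ 2 * wn (fun x => v n x - u x))) :=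
        mul_le_mul_of_nonneg_left e2 (by positivity)
      have e8 : 4 * (1 + 9 * ρ ^ 2) * ((1 + ρ ^ 2) ^ 2 * wn (fun x => v n x - u x)) ≤
          4 * (1 + 9 * ρ ^ 2) * ((1 + r ^ 2) ^ 2 * wn (fun x => v n x - u x)) :=
        mul_le_mul_of_nonneg_left (mul_le_mul_of_nonneg_right hρr2 hw0) (by positivity)
      linarith
    have hlim : Tendsto (fun n => 4 * (1 + 9 * ρ ^ 2) * mas u (Metric.ball 0 ρ) +
          (K * En S (v n) + (4 * (1 + 9 * ρ ^ 2) * (1 + r ^ 2) ^ 2 + 2 * (1 + r ^ 2) ^ 2) *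
            wn (fun x => v n x - u x))) atTop
        (𝓝 (4 * (1 + 9 * ρ ^ 2) * mas u (Metric.ball 0 ρ) + (K * 0 +
          (4 * (1 + 9 * ρ ^ 2) * (1 + r ^ 2) ^ 2 + 2 * (1 + r ^ 2) ^ 2) * 0))) :=
      tendsto_const_nhds.add ((hEn.const_mul _).add (hvu.const_mul _))
    have := ge_of_tendsto' hlim hn
    linarith
  -- conclusion
  have hcov : AECover (volume : Measure (Cfg d)) atTop
      (fun J : ℕ => Metric.ball (0 : Cfg d) ((2 : ℝ) ^ ((J : ℤ) + 1))) := by
    refine aecover_ball ?_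
    have h1 : (fun J : ℕ => (2 : ℝ) ^ ((J : ℤ) + 1)) = fun J : ℕ => (2 : ℝ) ^ (J + 1) := by
      funext J
      norm_cast
    rw [h1]
    exact (tendsto_pow_atTop_atTop_of_one_lt (by norm_num)).comp (tendsto_add_atTop_nat 1)
  have hInt : Integrable (fun x => (1 + ‖x‖ ^ 2) * ‖u x‖ ^ 2) (volume : Measure (Cfg d)) := by
    refine hcov.integrable_of_integral_bounded_of_nonneg_ae
      (4 * (1 + 9 * ρ ^ 2) * mas u (Metric.ball 0 ρ)) (fun J => (ball_int hum hui _).1)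
      (Eventually.of_forall fun x => by positivity) ?_
    filter_upwards [eventually_ge_atTop j₀] with J hJ
    exact hball J hJ
  refine ⟨hInt, ?_⟩
  have hlim := hcov.integral_tendsto_of_countably_generated hInt
  refine le_of_tendsto hlim ?_
  filter_upwards [eventually_ge_atTop j₀] with J hJ
  exact hball J hJ

end Vale.Agent.P353.Z.AD
end

section

/-! # P353, all `N`, block E: the gap at central points (`UGapCStmt`) -/

open MeasureTheory Filter Topology Matrix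
open scoped ContDiff

namespace Vale.Agent.P353.Z.AE

variable {d dh dm r ds : ℕ} {F : Type*} [NormedAddCommGroup F] [InnerProductSpace ℂ F]

/-! ### square integrable continuous functions -/

/-- continuous and square integrable -/
def Ug977L (f : Wsp dm → F) : Prop := Continuous f ∧ Integrable fun w => ‖f w‖ ^ 2

omit [InnerProductSpace ℂ F] in
lemma ug977_ft_int {k : Wsp dm → F} (hk : Continuous k) (hks : HasCompactSupport k) : Ug977L k := by
  refine ⟨hk, ?_⟩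
  have c1 : Continuous fun w => ‖k w‖ ^ 2 := hk.norm.pow 2
  have c2 : HasCompactSupport fun w => ‖k w‖ ^ 2 := by
    refine HasCompactSupport.intro hks fun w hw => ?_
    rw [image_eq_zero_of_notMem_tsupport hw, norm_zero]
    norm_num
  exact c1.integrable_of_hasCompactSupport c2

lemma ug977_ft {f : Wsp dm → F} (hf : FT f) : Ug977L f := ug977_ft_int hf.1.continuous hf.2

omit [InnerProductSpace ℂ F] in
lemma ug977_sub {f g : Wsp dm → F} (hf : Ug977L f) (hg : Ug977L g) : Ug977L fun w => f w - g w := by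
  refine ⟨hf.1.sub hg.1, ?_⟩
  refine ((hf.2.const_mul 2).add (hg.2.const_mul 2)).mono'
    ((hf.1.sub hg.1).norm.pow 2).aestronglyMeasurable (Eventually.of_forall fun w => ?_)
  rw [Real.norm_eq_abs, abs_of_nonneg (by positivity)]
  have h1 : ‖f w - g w‖ ≤ ‖f w‖ + ‖g w‖ := norm_sub_le _ _
  have h2 : ‖f w - g w‖ ^ 2 ≤ (‖f w‖ + ‖g w‖) ^ 2 := by gcongr
  simp only [Pi.add_apply]
  nlinarith [sq_nonneg (‖f w‖ - ‖g w‖)]

omit [InnerProductSpace ℂ F] in
lemma ug977_neg {f : Wsp dm → F} (hf : Ug977L f) : Ug977L fun w => -f w :=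
  ⟨hf.1.neg, by simpa using hf.2⟩

omit [InnerProductSpace ℂ F] in
lemma ug977_add {f g : Wsp dm → F} (hf : Ug977L f) (hg : Ug977L g) : Ug977L fun w => f w + g w := by
  have := ug977_sub hf (ug977_neg hg)
  simpa using this

lemma ug977_gv {g : Wsp dm → ℝ} (hg : Continuous g) (hi : Integrable fun w => g w ^ 2) (v : F) :
    Ug977L fun w => ((g w : ℝ) : ℂ) • v := by
  refine ⟨(Complex.continuous_ofReal.comp hg).smul continuous_const, ?_⟩
  refine (hi.mul_const (‖v‖ ^ 2)).congr (Eventually.of_forall fun w => ?_)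
  show g w ^ 2 * ‖v‖ ^ 2 = ‖((g w : ℝ) : ℂ) • v‖ ^ 2
  rw [norm_smul, Complex.norm_real, mul_pow, Real.norm_eq_abs, sq_abs]

lemma ug977_nsf_gv (g : Wsp dm → ℝ) (v : F) :
    nsf (fun w => ((g w : ℝ) : ℂ) • v) = (∫ w, g w ^ 2) * ‖v‖ ^ 2 := by
  unfold nsf
  rw [← integral_mul_const]
  refine integral_congr_ae (Eventually.of_forall fun w => ?_)
  show ‖((g w : ℝ) : ℂ) • v‖ ^ 2 = g w ^ 2 * ‖v‖ ^ 2
  rw [norm_smul, Complex.norm_real, mul_pow, Real.norm_eq_abs, sq_abs]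

omit [InnerProductSpace ℂ F] in
lemma ug977_two {f g : Wsp dm → F} (hf : Ug977L f) (hg : Ug977L g) :
    nsf (fun w => f w + g w) ≤ 2 * nsf f + 2 * nsf g := by
  have h3 := (ug977_add hf hg).2
  unfold nsf
  rw [← integral_const_mul, ← integral_const_mul,
    ← integral_add (hf.2.const_mul 2) (hg.2.const_mul 2)]
  refine integral_mono h3 ((hf.2.const_mul 2).add (hg.2.const_mul 2)) fun w => ?_
  have h1 : ‖f w + g w‖ ≤ ‖f w‖ + ‖g w‖ := norm_add_le _ _
  have h2 : ‖f w + g w‖ ^ 2 ≤ (‖f w‖ + ‖g w‖) ^ 2 := by gcongr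
  show ‖f w + g w‖ ^ 2 ≤ 2 * ‖f w‖ ^ 2 + 2 * ‖g w‖ ^ 2
  nlinarith [sq_nonneg (‖f w‖ - ‖g w‖)]

omit [InnerProductSpace ℂ F] in
lemma ug977_three {f g h : Wsp dm → F} (hf : Ug977L f) (hg : Ug977L g) (hh : Ug977L h) :
    nsf (fun w => f w + g w + h w) ≤ 3 * nsf f + 3 * nsf g + 3 * nsf h := by
  have h3 := (ug977_add (ug977_add hf hg) hh).2
  have e1 : 3 * nsf f + 3 * nsf g + 3 * nsf h =
      ∫ w, (3 * ‖f w‖ ^ 2 + 3 * ‖g w‖ ^ 2) + 3 * ‖h w‖ ^ 2 := by
    unfold nsf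
    have e2 : Integrable fun w => 3 * ‖f w‖ ^ 2 + 3 * ‖g w‖ ^ 2 :=
      (hf.2.const_mul 3).add (hg.2.const_mul 3)
    rw [integral_add e2 (hh.2.const_mul 3), integral_add (hf.2.const_mul 3) (hg.2.const_mul 3),
      integral_const_mul, integral_const_mul, integral_const_mul]
  rw [e1]
  unfold nsf
  refine integral_mono h3 (((hf.2.const_mul 3).add (hg.2.const_mul 3)).add (hh.2.const_mul 3))
    fun w => ?_
  have h1 : ‖f w + g w + h w‖ ≤ ‖f w‖ + ‖g w‖ + ‖h w‖ := norm_add₃_le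
  have h2 : ‖f w + g w + h w‖ ^ 2 ≤ (‖f w‖ + ‖g w‖ + ‖h w‖) ^ 2 := by gcongr
  show ‖f w + g w + h w‖ ^ 2 ≤ 3 * ‖f w‖ ^ 2 + 3 * ‖g w‖ ^ 2 + 3 * ‖h w‖ ^ 2
  nlinarith [sq_nonneg (‖f w‖ - ‖g w‖), sq_nonneg (‖f w‖ - ‖h w‖), sq_nonneg (‖g w‖ - ‖h w‖)]

/-! ### the Gaussian -/

/-- data on the Gaussian at a frozen point -/
structure Ug977G (D : Fin 9 → Matrix (Fin dm) (Fin dm) ℝ) (Om : Matrix (Fin dm) (Fin dm) ℝ) : Prop where
  ex : ∃ M : Wsp dm →L[ℝ] Wsp dm, (∀ w, qf D Om w = inner ℝ w (M w)) ∧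
    ∃ c : ℝ, 0 < c ∧ ∀ w, c * ‖w‖ ^ 2 ≤ inner ℝ w (M w)

variable {D : Fin 9 → Matrix (Fin dm) (Fin dm) ℝ} {Om : Matrix (Fin dm) (Fin dm) ℝ}

lemma ug977_g_smooth (hG : Ug977G D Om) (R : ℝ) : ContDiff ℝ ∞ (gR D Om R) := by
  obtain ⟨M, hM, -⟩ := hG.ex
  have h1 : gR D Om R = fun w => Real.exp (-(R / 2) * inner ℝ w (M w)) := by
    funext w
    unfold gR
    rw [hM]
  rw [h1]
  exact (contDiff_const.mul (contDiff_id.inner ℝ M.contDiff)).exp

lemma ug977_g_int (hG : Ug977G D Om) {R : ℝ} (hR : 0 < R) :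
    Integrable fun w => gR D Om R w ^ 2 := by
  obtain ⟨M, hM, c, hc, hpos⟩ := hG.ex
  have h1 := gapF_gauss (R • M) (c := R * c) (by positivity) (fun w => by
    rw [_root_.smul_apply, real_inner_smul_right, mul_assoc]
    exact mul_le_mul_of_nonneg_left (hpos w) hR.le)
  refine h1.congr (Eventually.of_forall fun w => ?_)
  show Real.exp (-(1 / 2) * inner ℝ w ((R • M) w)) ^ 2 = gR D Om R w ^ 2
  unfold gR
  rw [hM, _root_.smul_apply, real_inner_smul_right]
  congr 2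
  ring

lemma ug977_g_pos (hG : Ug977G D Om) {R : ℝ} (hR : 0 < R) : 0 < ∫ w, gR D Om R w ^ 2 := by
  have h1 := ug977_g_int hG hR
  have h2 : ∀ w, 0 < gR D Om R w ^ 2 := fun w => pow_pos (Real.exp_pos _) 2
  exact (integral_pos_iff_support_of_nonneg (fun w => (h2 w).le) h1).2 (by
    have : Function.support (fun w => gR D Om R w ^ 2) = Set.univ :=
      Set.eq_univ_of_forall fun w => (h2 w).ne'
    rw [this]
    exact Measure.measure_univ_pos.2 (NeZero.ne _))

lemma ug977_PR (S : Setup d F) (φ : Spl dh dm d) [FiniteDimensional ℂ F] (R : ℝ) (f : Wsp dm → F) :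
    S.PR φ D Om R f = fun w => ((gR D Om R w : ℝ) : ℂ) •
      (((∫ w', gR D Om R w' ^ 2 : ℝ) : ℂ)⁻¹ • (S.F0 φ D Om).starProjection
        (∫ w', ((gR D Om R w' : ℝ) : ℂ) • f w')) := by
  funext w
  unfold Setup.PR
  rw [smul_smul]
  congr 1
  push_cast
  rw [div_eq_mul_inv]

/-! ### the supercharge: principal part and potential -/

/-- the component map -/
noncomputable def ug977P (F : Type*) [NormedAddCommGroup F] [InnerProductSpace ℂ F] (j : Fin 8) (B : Fin dm) :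
    (Fin 8 → Fin dm → F) →L[ℂ] F :=
  (ContinuousLinearMap.proj (R := ℂ) (φ := fun _ : Fin dm => F) B).comp
    (ContinuousLinearMap.proj (R := ℂ) (φ := fun _ : Fin 8 => Fin dm → F) j)

/-- principal part of the supercharge -/
noncomputable def ug977S (S : Setup d F) (φ : Spl dh dm d) (D : Fin 9 → Matrix (Fin dm) (Fin dm) ℝ)
    (β : Fin 16) : (Fin 8 → Fin dm → F) →L[ℂ] F :=
  (-Complex.I) • (∑ j : Fin 8, ∑ B, (S.vec (S.g j.castSucc) (φ (Sum.inr B)) β).comp (ug977P F j B)) +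
    Complex.I • (∑ B, (S.vec (S.g 8) (φ (Sum.inr B)) β).comp
      (∑ C, (((D 8)⁻¹ B C : ℝ) : ℂ) • ∑ j : Fin 8, ∑ E, ((D j.castSucc C E : ℝ) : ℂ) • ug977P F j E))

/-- potential of the supercharge -/
noncomputable def ug977T (S : Setup d F) (φ : Spl dh dm d) (D : Fin 9 → Matrix (Fin dm) (Fin dm) ℝ)
    (β : Fin 16) (w : Wsp dm) : F →L[ℂ] F :=
  (1 / 2 : ℂ) • ∑ B, ∑ i, ∑ j, ((S.κ * ((∑ C, D i B C * wt w j C) - ∑ C, D j B C * wt w i C) : ℝ) : ℂ) •
      S.vec (S.g2 i j) (φ (Sum.inr B)) β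

lemma ug977_q1 (S : Setup d F) (φ : Spl dh dm d) (D : Fin 9 → Matrix (Fin dm) (Fin dm) ℝ)
    (β : Fin 16) (f : Wsp dm → F) (w : Wsp dm) :
    S.q1 φ D β f w = ug977S S φ D β (fun j B => pf j B f w) + ug977T S φ D β w (f w) := by
  unfold Setup.q1 ug977S ug977T ug977P
  simp only [_root_.add_apply, _root_.smul_apply, _root_.sum_apply, ContinuousLinearMap.comp_apply,
    ContinuousLinearMap.proj_apply]

lemma ug977_q1_sub (S : Setup d F) (φ : Spl dh dm d) (D : Fin 9 → Matrix (Fin dm) (Fin dm) ℝ)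
    (β : Fin 16) {f g : Wsp dm → F} (hf : FT f) (hg : FT g) (w : Wsp dm) :
    S.q1 φ D β (fun w => f w - g w) w = S.q1 φ D β f w - S.q1 φ D β g w := by
  have h1 : (fun (j : Fin 8) (B : Fin dm) => pf j B (fun w => f w - g w) w) =
      (fun (j : Fin 8) (B : Fin dm) => pf j B f w) - fun (j : Fin 8) (B : Fin dm) => pf j B g w := by
    funext j B
    show pf j B (fun w => f w - g w) w = pf j B f w - pf j B g w
    unfold pf
    rw [fderiv_fun_sub (hf.1.differentiable (by simp) w) (hg.1.differentiable (by simp) w)]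
    rfl
  rw [ug977_q1, ug977_q1, ug977_q1, h1, map_sub, map_sub]
  abel

lemma ug977_pf_real {c : Wsp dm → ℝ} {w : Wsp dm} (hc : DifferentiableAt ℝ c w) (v : F) (j : Fin 8)
    (B : Fin dm) : pf j B (fun w => ((c w : ℝ) : ℂ) • v) w =
      ((fderiv ℝ c w (EuclideanSpace.single (j, B) 1) : ℝ) : ℂ) • v := by
  unfold pf
  have h1 : (fun w => ((c w : ℝ) : ℂ) • v) = fun w => c w • v := by
    funext w
    exact Complex.coe_smul _ _
  rw [h1, fderiv_smul_const hc v, ContinuousLinearMap.smulRight_apply, Complex.coe_smul]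

lemma ug977_q1_cut (S : Setup d F) (φ : Spl dh dm d) (D : Fin 9 → Matrix (Fin dm) (Fin dm) ℝ)
    (β : Fin 16) {χ g : Wsp dm → ℝ} (hχ : Differentiable ℝ χ) (hg : Differentiable ℝ g) (v : F) (w : Wsp dm)
    (h0 : S.q1 φ D β (fun w => ((g w : ℝ) : ℂ) • v) w = 0) :
    S.q1 φ D β (fun w => ((χ w * g w : ℝ) : ℂ) • v) w = ((g w : ℝ) : ℂ) •
      ug977S S φ D β (fun j B => ((fderiv ℝ χ w (EuclideanSpace.single (j, B) 1) : ℝ) : ℂ) • v) := by
  have h1 : (fun (j : Fin 8) (B : Fin dm) => pf j B (fun w => ((χ w * g w : ℝ) : ℂ) • v) w) =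
      ((χ w : ℝ) : ℂ) • (fun (j : Fin 8) (B : Fin dm) => pf j B (fun w => ((g w : ℝ) : ℂ) • v) w) +
      ((g w : ℝ) : ℂ) • fun (j : Fin 8) (B : Fin dm) =>
        ((fderiv ℝ χ w (EuclideanSpace.single (j, B) 1) : ℝ) : ℂ) • v := by
    funext j B
    show pf j B (fun w => ((χ w * g w : ℝ) : ℂ) • v) w = ((χ w : ℝ) : ℂ) • pf j B (fun w => ((g w : ℝ) : ℂ) • v) w +
      ((g w : ℝ) : ℂ) • ((fderiv ℝ χ w (EuclideanSpace.single (j, B) 1) : ℝ) : ℂ) • v
    rw [ug977_pf_real ((hχ w).fun_mul (hg w)), ug977_pf_real (hg w), fderiv_fun_mul (hχ w) (hg w), smul_smul,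
      smul_smul, ← add_smul]
    congr 1
    simp only [_root_.add_apply, _root_.smul_apply, smul_eq_mul]
    push_cast
    ring
  have h2 : ((χ w * g w : ℝ) : ℂ) • v = ((χ w : ℝ) : ℂ) • ((g w : ℝ) : ℂ) • v := by
    rw [smul_smul]
    push_cast
    rfl
  rw [ug977_q1, h1, h2, map_add, map_smul, map_smul, map_smul]
  rw [ug977_q1] at h0
  have h3 := congrArg (fun x => ((χ w : ℝ) : ℂ) • x) h0
  simp only [smul_add, smul_zero] at h3
  rw [add_right_comm, h3, zero_add]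

/-! ### cutoffs -/

lemma ug977_cut (dm : ℕ) : ∃ (χ : ℕ → Wsp dm → ℝ) (K : ℝ), 0 ≤ K ∧ (∀ n, ContDiff ℝ ∞ (χ n)) ∧
    (∀ n, HasCompactSupport (χ n)) ∧ (∀ n w, 0 ≤ χ n w) ∧ (∀ n w, χ n w ≤ 1) ∧
    (∀ w, Tendsto (fun n => χ n w) atTop (𝓝 1)) ∧
    ∀ n w (j : Fin 8) (B : Fin dm), |fderiv ℝ (χ n) w (EuclideanSpace.single (j, B) 1)| ≤ K / ((n : ℝ) + 1) := by
  set b : ContDiffBump (0 : Wsp dm) := ⟨1, 2, one_pos, one_lt_two⟩ with hb
  have hbc : ContDiff ℝ ∞ (b : Wsp dm → ℝ) := b.contDiff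
  have hfc : Continuous (fderiv ℝ (b : Wsp dm → ℝ)) := hbc.continuous_fderiv (by simp)
  obtain ⟨K, hK⟩ := hfc.bounded_above_of_compact_support (b.hasCompactSupport.fderiv ℝ)
  have hK0 : 0 ≤ K := (norm_nonneg _).trans (hK 0)
  have hpos : ∀ n : ℕ, (0 : ℝ) < (n : ℝ) + 1 := fun n => by positivity
  refine ⟨fun n w => b (((n : ℝ) + 1)⁻¹ • w), K, hK0, fun n => ?_, fun n => ?_, fun n w => b.nonneg,
    fun n w => b.le_one, fun w => ?_, fun n w j B => ?_⟩
  · exact hbc.comp (contDiff_const_smul _)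
  · exact b.hasCompactSupport.comp_smul (inv_ne_zero (hpos n).ne')
  · refine tendsto_const_nhds.congr' ?_
    obtain ⟨N, hN⟩ := exists_nat_ge ‖w‖
    filter_upwards [eventually_ge_atTop N] with n hn
    symm
    refine b.one_of_mem_closedBall ?_
    rw [mem_closedBall_zero_iff, norm_smul, norm_inv, Real.norm_of_nonneg (hpos n).le]
    show ((n : ℝ) + 1)⁻¹ * ‖w‖ ≤ 1
    rw [inv_mul_le_iff₀ (hpos n)]
    have : (N : ℝ) ≤ n := by exact_mod_cast hn
    linarith
  · rw [fderiv_comp_smul, _root_.smul_apply, smul_eq_mul, abs_mul, abs_of_pos (inv_pos.2 (hpos n)),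
      div_eq_inv_mul]
    refine mul_le_mul_of_nonneg_left ?_ (inv_pos.2 (hpos n)).le
    have h1 := (fderiv ℝ (b : Wsp dm → ℝ) (((n : ℝ) + 1)⁻¹ • w)).le_opNorm (EuclideanSpace.single (j, B) 1)
    rw [Real.norm_eq_abs] at h1
    refine h1.trans ?_
    have h2 : ‖(EuclideanSpace.single (j, B) (1 : ℝ) : Wsp dm)‖ = 1 := by simp
    rw [h2, mul_one]
    exact hK _

/-! ### removing the vacuum part -/

omit [InnerProductSpace ℂ F] in
lemma ug977_two_sub {f g : Wsp dm → F} (hf : Ug977L f) (hg : Ug977L g) :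
    nsf (fun w => f w - g w) ≤ 2 * nsf f + 2 * nsf g := by
  have h1 := ug977_two hf (ug977_neg hg)
  have h2 : nsf (fun w => -g w) = nsf g := by
    unfold nsf
    simp only [norm_neg]
  rw [h2] at h1
  simpa only [sub_eq_add_neg] using h1

lemma ug977_e1_nonneg (S : Setup d F) (φ : Spl dh dm d) (D : Fin 9 → Matrix (Fin dm) (Fin dm) ℝ)
    (f : Wsp dm → F) : 0 ≤ S.e1 φ D f := by
  unfold Setup.e1
  exact mul_nonneg (by norm_num) (Finset.sum_nonneg fun β _ => fib_nsf_nonneg _)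

lemma ug977_e1_sub (S : Setup d F) (φ : Spl dh dm d) (D : Fin 9 → Matrix (Fin dm) (Fin dm) ℝ)
    {f g : Wsp dm → F} (hf : FT f) (hg : FT g) :
    S.e1 φ D (fun w => f w - g w) ≤ 2 * S.e1 φ D f + 2 * S.e1 φ D g := by
  have h1 : ∀ β, nsf (S.q1 φ D β (fun w => f w - g w)) ≤
      2 * nsf (S.q1 φ D β f) + 2 * nsf (S.q1 φ D β g) := by
    intro β
    have e : S.q1 φ D β (fun w => f w - g w) = fun w => S.q1 φ D β f w - S.q1 φ D β g w :=
      funext fun w => ug977_q1_sub S φ D β hf hg w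
    rw [e]
    exact ug977_two_sub (ug977_ft_int (fib_q1_cont S φ D β hf) (fib_q1_supp S φ D β hf))
      (ug977_ft_int (fib_q1_cont S φ D β hg) (fib_q1_supp S φ D β hg))
  have h2 : ∑ β, nsf (S.q1 φ D β (fun w => f w - g w)) ≤
      ∑ β, (2 * nsf (S.q1 φ D β f) + 2 * nsf (S.q1 φ D β g)) := Finset.sum_le_sum fun β _ => h1 β
  rw [Finset.sum_add_distrib, ← Finset.mul_sum, ← Finset.mul_sum] at h2
  unfold Setup.e1
  linarith

lemma ug977_step (S : Setup d F) (φ : Spl dh dm d) [FiniteDimensional ℂ F] (hV : VacQ1Stmt S φ)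
    (hD : Frz D) (hOm : IsOm S.κ D Om) (hG : Ug977G D Om) {R A : ℝ} (hR : 0 < R) (hA : 0 ≤ A)
    (H : ∀ h : Wsp dm → F, FT h → R * nsf h ≤ A * S.e1 φ D h + 6 * R * nsf (S.PR φ D Om 1 h))
    {f : Wsp dm → F} (hf : FT f) :
    R * nsf (fun w => f w - S.PR φ D Om 1 f w) ≤ 4 * A * S.e1 φ D f := by
  obtain ⟨χ, K, hK, hχc, hχs, hχ0, hχ1, hχt, hχd⟩ := ug977_cut dm
  set g : Wsp dm → ℝ := gR D Om 1 with hg
  have hgc : ContDiff ℝ ∞ g := ug977_g_smooth hG 1
  have hgi : Integrable fun w => g w ^ 2 := ug977_g_int hG one_pos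
  set Z : ℝ := ∫ w, g w ^ 2 with hZ
  have hZ0 : 0 < Z := ug977_g_pos hG one_pos
  set Pr := (S.F0 φ D Om).starProjection with hPr
  set v0 : F := ((Z : ℝ) : ℂ)⁻¹ • Pr (∫ w', ((g w' : ℝ) : ℂ) • f w') with hv0
  have hv0F : v0 ∈ S.F0 φ D Om := Submodule.smul_mem _ _ (Submodule.starProjection_apply_mem _ _)
  have hPv : Pr v0 = v0 := Submodule.starProjection_eq_self_iff.2 hv0F
  have hPRf : S.PR φ D Om 1 f = fun w => ((g w : ℝ) : ℂ) • v0 := ug977_PR S φ 1 f
  -- the truncated vacuum part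
  set u : ℕ → Wsp dm → F := fun n w => ((χ n w * g w : ℝ) : ℂ) • v0 with hu
  have huT : ∀ n, FT (u n) := by
    intro n
    refine ⟨?_, ?_⟩
    · exact (Complex.ofRealCLM.contDiff.comp ((hχc n).mul hgc)).smul contDiff_const
    · refine HasCompactSupport.intro (hχs n) fun w hw => ?_
      have : χ n w = 0 := image_eq_zero_of_notMem_tsupport hw
      show ((χ n w * g w : ℝ) : ℂ) • v0 = 0
      rw [this, zero_mul, Complex.ofReal_zero, zero_smul]
  have hhT : ∀ n, FT fun w => f w - u n w := fun n =>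
    ⟨hf.1.sub (huT n).1, hf.2.sub (huT n).2⟩
  have hgc' : Continuous g := hgc.continuous
  have hχc' : ∀ n, Continuous (χ n) := fun n => (hχc n).continuous
  -- (a) energy of the truncated vacuum part
  set E : ℕ → ℝ := fun n => (1 / 16) * ∑ β, Z * (‖ug977S S φ D β‖ * (K / ((n : ℝ) + 1) * ‖v0‖)) ^ 2 with hE
  have ha : ∀ n, S.e1 φ D (u n) ≤ E n := by
    intro n
    have h1 : ∀ β, nsf (S.q1 φ D β (u n)) ≤ Z * (‖ug977S S φ D β‖ * (K / ((n : ℝ) + 1) * ‖v0‖)) ^ 2 := by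
      intro β
      have h2 : ∀ w, ‖S.q1 φ D β (u n) w‖ ^ 2 ≤
          g w ^ 2 * (‖ug977S S φ D β‖ * (K / ((n : ℝ) + 1) * ‖v0‖)) ^ 2 := by
        intro w
        have h3 := hV D Om hD hOm v0 hv0F 1 β w
        simp only [one_mul] at h3
        have h4 := ug977_q1_cut S φ D β ((hχc n).differentiable (by simp)) (hgc.differentiable (by simp))
          v0 w h3
        rw [hu]
        simp only
        rw [h4, norm_smul, Complex.norm_real, mul_pow, Real.norm_eq_abs, sq_abs]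
        refine mul_le_mul_of_nonneg_left ?_ (sq_nonneg _)
        refine pow_le_pow_left₀ (norm_nonneg _) ?_ 2
        refine (ContinuousLinearMap.le_opNorm _ _).trans (mul_le_mul_of_nonneg_left ?_ (norm_nonneg _))
        have h5 : 0 ≤ K / ((n : ℝ) + 1) * ‖v0‖ := by positivity
        refine (pi_norm_le_iff_of_nonneg h5).2 fun j => (pi_norm_le_iff_of_nonneg h5).2 fun B => ?_
        rw [norm_smul, Complex.norm_real, Real.norm_eq_abs]
        exact mul_le_mul_of_nonneg_right (hχd n w j B) (norm_nonneg _)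
      unfold nsf
      rw [hZ, ← integral_mul_const]
      exact integral_mono_of_nonneg (Eventually.of_forall fun w => by positivity)
        (hgi.mul_const _) (Eventually.of_forall h2)
    show S.e1 φ D (u n) ≤ (1 / 16) * ∑ β, Z * (‖ug977S S φ D β‖ * (K / ((n : ℝ) + 1) * ‖v0‖)) ^ 2
    unfold Setup.e1
    exact mul_le_mul_of_nonneg_left (Finset.sum_le_sum fun β _ => h1 β) (by norm_num)
  -- (b) vacuum part of the remainder
  set I : ℕ → ℝ := fun n => ∫ w, χ n w * g w ^ 2 with hI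
  have hb : ∀ n, nsf (S.PR φ D Om 1 fun w => f w - u n w) = Z * ((1 - I n / Z) ^ 2 * ‖v0‖ ^ 2) := by
    intro n
    have h1 : Integrable fun w => ((g w : ℝ) : ℂ) • f w := by
      refine Continuous.integrable_of_hasCompactSupport
        ((Complex.continuous_ofReal.comp hgc').smul hf.1.continuous) ?_
      refine HasCompactSupport.intro hf.2 fun w hw => ?_
      rw [image_eq_zero_of_notMem_tsupport hw, smul_zero]
    have h2 : Integrable fun w => ((g w : ℝ) : ℂ) • u n w := by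
      refine Continuous.integrable_of_hasCompactSupport
        ((Complex.continuous_ofReal.comp hgc').smul (huT n).1.continuous) ?_
      refine HasCompactSupport.intro (huT n).2 fun w hw => ?_
      rw [image_eq_zero_of_notMem_tsupport hw, smul_zero]
    have h3 : ∫ w, ((g w : ℝ) : ℂ) • u n w = ((I n : ℝ) : ℂ) • v0 := by
      have h4 : ∀ w, ((g w : ℝ) : ℂ) • u n w = (χ n w * g w ^ 2) • v0 := by
        intro w
        show ((g w : ℝ) : ℂ) • (((χ n w * g w : ℝ) : ℂ) • v0) = (χ n w * g w ^ 2) • v0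
        rw [smul_smul, ← Complex.ofReal_mul, Complex.coe_smul]
        congr 1
        ring
      simp only [h4]
      rw [integral_smul_const, Complex.coe_smul]
    have h5 : ∫ w, ((g w : ℝ) : ℂ) • (f w - u n w) =
        (∫ w, ((g w : ℝ) : ℂ) • f w) - ((I n : ℝ) : ℂ) • v0 := by
      rw [← h3, ← integral_sub h1 h2]
      simp only [smul_sub]
    have h6 : (S.PR φ D Om 1 fun w => f w - u n w) =
        fun w => ((g w : ℝ) : ℂ) • (((1 - I n / Z : ℝ) : ℂ) • v0) := by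
      rw [ug977_PR S φ 1]
      funext w
      show ((g w : ℝ) : ℂ) • (((Z : ℝ) : ℂ)⁻¹ • Pr (∫ w', ((g w' : ℝ) : ℂ) • (f w' - u n w'))) = _
      rw [h5, map_sub, map_smul, hPv, smul_sub, ← hv0, smul_smul]
      congr 1
      push_cast
      rw [sub_smul, one_smul, div_eq_inv_mul]
    rw [h6, ug977_nsf_gv, norm_smul, Complex.norm_real, mul_pow, Real.norm_eq_abs, sq_abs]
  -- (c) comparison
  set J : ℕ → ℝ := fun n => ∫ w, ((1 - χ n w) * g w) ^ 2 with hJ
  have hJi : ∀ n, Integrable fun w => ((1 - χ n w) * g w) ^ 2 := by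
    intro n
    refine hgi.mono' ((((continuous_const.sub (hχc' n)).mul hgc').pow 2).aestronglyMeasurable)
      (Eventually.of_forall fun w => ?_)
    rw [Real.norm_eq_abs, abs_of_nonneg (sq_nonneg _), mul_pow]
    have h1 : (1 - χ n w) ^ 2 ≤ 1 := by nlinarith [hχ0 n w, hχ1 n w]
    nlinarith [sq_nonneg (g w)]
  have hc : ∀ n, nsf (fun w => f w - S.PR φ D Om 1 f w) ≤
      2 * nsf (fun w => f w - u n w) + 2 * (J n * ‖v0‖ ^ 2) := by
    intro n
    have h1 : (fun w => f w - S.PR φ D Om 1 f w) =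
        fun w => (f w - u n w) - (((1 - χ n w) * g w : ℝ) : ℂ) • v0 := by
      funext w
      rw [hPRf]
      show f w - ((g w : ℝ) : ℂ) • v0 =
        (f w - ((χ n w * g w : ℝ) : ℂ) • v0) - (((1 - χ n w) * g w : ℝ) : ℂ) • v0
      rw [sub_sub, ← add_smul]
      congr 2
      push_cast
      ring
    rw [h1]
    have h2 := ug977_nsf_gv (fun w => (1 - χ n w) * g w) v0
    have h3 : Ug977L fun w => (((1 - χ n w) * g w : ℝ) : ℂ) • v0 :=
      ug977_gv (g := fun w => (1 - χ n w) * g w) ((continuous_const.sub (hχc' n)).mul hgc') (hJi n) v0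
    refine (ug977_two_sub (ug977_ft (hhT n)) h3).trans ?_
    rw [h2]
  -- limits
  have hlI : Tendsto I atTop (𝓝 Z) := by
    refine tendsto_integral_of_dominated_convergence (fun w => g w ^ 2)
      (fun n => ((hχc' n).mul (hgc'.pow 2)).aestronglyMeasurable) hgi
      (fun n => Eventually.of_forall fun w => ?_) (Eventually.of_forall fun w => ?_)
    · rw [Real.norm_eq_abs, abs_of_nonneg (mul_nonneg (hχ0 n w) (sq_nonneg _))]
      nlinarith [sq_nonneg (g w), hχ1 n w]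
    · simpa using (hχt w).mul_const (g w ^ 2)
  have hlJ : Tendsto J atTop (𝓝 0) := by
    have h0 : (0 : ℝ) = ∫ _ : Wsp dm, (0 : ℝ) := by simp
    rw [h0]
    refine tendsto_integral_of_dominated_convergence (fun w => g w ^ 2)
      (fun n => (hJi n).aestronglyMeasurable) hgi
      (fun n => Eventually.of_forall fun w => ?_) (Eventually.of_forall fun w => ?_)
    · rw [Real.norm_eq_abs, abs_of_nonneg (sq_nonneg _), mul_pow]
      have h1 : (1 - χ n w) ^ 2 ≤ 1 := by nlinarith [hχ0 n w, hχ1 n w]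
      nlinarith [sq_nonneg (g w)]
    · have h1 : Tendsto (fun n => ((1 - χ n w) * g w) ^ 2) atTop (𝓝 (((1 - 1) * g w) ^ 2)) :=
        (((tendsto_const_nhds.sub (hχt w)).mul_const (g w)).pow 2)
      simpa using h1
  have hlE : Tendsto E atTop (𝓝 0) := by
    have h0 : Tendsto (fun n : ℕ => K / ((n : ℝ) + 1)) atTop (𝓝 0) :=
      tendsto_const_nhds.div_atTop (tendsto_natCast_atTop_atTop.atTop_add tendsto_const_nhds)
    have h1 : Tendsto E atTop (𝓝 ((1 / 16) * ∑ β : Fin 16, Z * (‖ug977S S φ D β‖ * (0 * ‖v0‖)) ^ 2)) := by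
      refine Tendsto.const_mul _ (tendsto_finsetSum _ fun β _ => Tendsto.const_mul _ ?_)
      exact ((h0.mul_const _).const_mul _).pow 2
    simpa using h1
  -- conclusion
  have hfin : ∀ n, R * nsf (fun w => f w - S.PR φ D Om 1 f w) ≤
      4 * A * S.e1 φ D f + (4 * A * E n + 12 * R * (Z * ((1 - I n / Z) ^ 2 * ‖v0‖ ^ 2)) +
        2 * R * (J n * ‖v0‖ ^ 2)) := by
    intro n
    have h1 := mul_le_mul_of_nonneg_left (hc n) hR.le
    have h2 := H _ (hhT n)
    rw [hb n] at h2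
    have h3 := ug977_e1_sub S φ D hf (huT n)
    have h4 := mul_le_mul_of_nonneg_left (h3.trans (add_le_add le_rfl
      (mul_le_mul_of_nonneg_left (ha n) (by norm_num : (0 : ℝ) ≤ 2)))) hA
    nlinarith [h1, h2, h4]
  have hlim : Tendsto (fun n => 4 * A * S.e1 φ D f + (4 * A * E n +
      12 * R * (Z * ((1 - I n / Z) ^ 2 * ‖v0‖ ^ 2)) + 2 * R * (J n * ‖v0‖ ^ 2))) atTop
      (𝓝 (4 * A * S.e1 φ D f + (4 * A * 0 + 12 * R * (Z * ((1 - Z / Z) ^ 2 * ‖v0‖ ^ 2)) +
        2 * R * (0 * ‖v0‖ ^ 2)))) := by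
    refine tendsto_const_nhds.add (((hlE.const_mul _).add ?_).add ((hlJ.mul_const _).const_mul _))
    exact ((((tendsto_const_nhds.sub (hlI.div_const Z)).pow 2).mul_const _).const_mul _).const_mul _
  have := ge_of_tendsto' hlim hfin
  rw [div_self hZ0.ne'] at this
  simpa using this

/-! ### the gap at central points -/

lemma ug977_cmb_sub (ψ : Spl r ds dh) (y y₀ : Cfg r) (R : ℝ) :
    cmb ψ y 0 - R • cmb ψ y₀ 0 = cmb ψ (y - R • y₀) 0 := by
  ext p
  simp only [cmb, PiLp.sub_apply, PiLp.smul_apply, smul_eq_mul]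
  rcases ψ.symm p.2 with a | b
  · simp only [Sum.elim_inl]
  · simp only [Sum.elim_inr, PiLp.zero_apply, mul_zero, sub_zero]

lemma ug977_cmb_norm (ψ : Spl r ds dh) (y : Cfg r) : ‖cmb ψ y 0‖ = ‖y‖ := by
  have h1 : ‖cmb ψ y 0‖ ^ 2 = ‖y‖ ^ 2 := by
    rw [EuclideanSpace.norm_sq_eq, EuclideanSpace.norm_sq_eq, Fintype.sum_prod_type,
      Fintype.sum_prod_type]
    refine Finset.sum_congr rfl fun i _ => ?_
    rw [← ψ.sum_comp, Fintype.sum_sum_type]
    simp [cmb]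
  exact (sq_eq_sq₀ (norm_nonneg _) (norm_nonneg _)).1 h1

/-- **E-UGapC** the gap of the fibre operator at central points near the ray through `y₀` -/
theorem ugapC (S : Setup d F) (φ : Spl dh dm d) (ψ : Spl r ds dh) (hF : FibStmt S φ) (hM : MzStmt S φ ψ)
    (hP : PrCStmt S φ ψ) (hV : VacQ1Stmt S φ) : UGapCStmt S φ ψ := by
  intro hfd hsub hcen U Om V K hVFr y₀ hy₀
  obtain ⟨hFrz, M, -, -, hMq, -, -, hMpos⟩ := hM hsub hcen U Om V K hVFr
  have hG : ∀ y ∈ U, Ug977G (S.Dz φ ψ y) (Om y) := fun y hy => ⟨M y, hMq y hy, hMpos y hy⟩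
  obtain ⟨c0, C1, ε0, hc0, hC1, hε0, H⟩ := hF hfd (S.Dz φ ψ y₀) (Om y₀) (hFrz y₀ hy₀) (hVFr.om y₀ hy₀)
  obtain ⟨ε1, hε1, H1⟩ := hP hfd hsub hcen U Om V K hVFr y₀ hy₀ (1 / 12) (by norm_num)
  obtain ⟨ρ, hρ, hball⟩ := Metric.isOpen_iff.1 hVFr.opn y₀ hy₀
  have hk := AN.foK_pos S φ
  set k : ℝ := AN.foK S φ with hkd
  set η : ℝ := min ε0 (Real.sqrt (c0 / (12 * C1))) with hη
  have hη0 : 0 < η := lt_min hε0 (Real.sqrt_pos.2 (by positivity))
  have hη2 : 12 * C1 * η ^ 2 ≤ c0 := by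
    have h1 : η ≤ Real.sqrt (c0 / (12 * C1)) := min_le_right _ _
    have h2 : η ^ 2 ≤ c0 / (12 * C1) := by
      calc η ^ 2 ≤ Real.sqrt (c0 / (12 * C1)) ^ 2 := pow_le_pow_left₀ hη0.le h1 2
        _ = _ := Real.sq_sqrt (by positivity)
    calc 12 * C1 * η ^ 2 ≤ 12 * C1 * (c0 / (12 * C1)) := by gcongr
      _ = c0 := by field_simp
  refine ⟨min (min ε1 (ρ / 2)) (η / k), 4 * (6 / c0), by positivity, by positivity, ?_⟩
  intro R hR y hy f hf
  have hy1 : ‖y - R • y₀‖ ≤ ε1 * R := hy.trans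
    (mul_le_mul_of_nonneg_right ((min_le_left _ _).trans (min_le_left _ _)) hR.le)
  have hy2 : ‖y - R • y₀‖ ≤ ρ / 2 * R := hy.trans
    (mul_le_mul_of_nonneg_right ((min_le_left _ _).trans (min_le_right _ _)) hR.le)
  have hy3 : ‖y - R • y₀‖ ≤ η / k * R := hy.trans
    (mul_le_mul_of_nonneg_right (min_le_right _ _) hR.le)
  have hyU : y ∈ U := by
    have h1 : R⁻¹ • y ∈ U := by
      refine hball ?_
      rw [Metric.mem_ball, dist_eq_norm]
      have h2 : R⁻¹ • y - y₀ = R⁻¹ • (y - R • y₀) := by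
        rw [smul_sub, smul_smul, inv_mul_cancel₀ hR.ne', one_smul]
      rw [h2, norm_smul, norm_inv, Real.norm_of_nonneg hR.le, inv_mul_lt_iff₀ hR]
      nlinarith
    have h3 := hVFr.cone _ h1 R hR
    rwa [smul_smul, mul_inv_cancel₀ hR.ne', one_smul] at h3
  have hnear : ∀ i A B, |S.Dz φ ψ y i A B - R * S.Dz φ ψ y₀ i A B| ≤ η * R := by
    intro i A B
    have h1 : ‖cmb ψ y 0 - R • cmb ψ y₀ 0‖ ≤ η / k * R := by
      rw [ug977_cmb_sub, ug977_cmb_norm]
      exact hy3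
    have h2 := AN.fo_near S φ (cmb ψ y 0) (cmb ψ y₀ 0) h1 i A B
    rw [← hkd] at h2
    have h3 : k * (η / k) * R = η * R := by field_simp
    rw [h3] at h2
    exact h2
  obtain ⟨-, H2⟩ := H R hR η hη0.le (min_le_left _ _) (S.Dz φ ψ y) hnear
  refine ug977_step S φ hV (hFrz y hyU) (hVFr.om y hyU) (hG y hyU) hR (by positivity) ?_ hf
  intro h hh
  have h1 := (H2 h hh).2.1
  have h2 := H1 R hR y hy1 h hh
  have hLh : Ug977L h := ug977_ft hh
  have hL0 : Ug977L (S.PR φ (S.Dz φ ψ y₀) (Om y₀) R h) := by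
    rw [ug977_PR]
    exact ug977_gv (ug977_g_smooth (hG y₀ hy₀) R).continuous (ug977_g_int (hG y₀ hy₀) hR) _
  have hLy : Ug977L (S.PR φ (S.Dz φ ψ y) (Om y) 1 h) := by
    rw [ug977_PR]
    exact ug977_gv (ug977_g_smooth (hG y hyU) 1).continuous (ug977_g_int (hG y hyU) one_pos) _
  have h3 := ug977_three (ug977_sub hLh hL0) (ug977_sub hL0 hLy) hLy
  have e1 : (fun w => h w - S.PR φ (S.Dz φ ψ y₀) (Om y₀) R h w +
      (S.PR φ (S.Dz φ ψ y₀) (Om y₀) R h w - S.PR φ (S.Dz φ ψ y) (Om y) 1 h w) +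
      S.PR φ (S.Dz φ ψ y) (Om y) 1 h w) = h := by
    funext w
    abel
  have e2 : nsf (fun w => S.PR φ (S.Dz φ ψ y₀) (Om y₀) R h w - S.PR φ (S.Dz φ ψ y) (Om y) 1 h w) =
      nsf (fun w => S.PR φ (S.Dz φ ψ y) (Om y) 1 h w - S.PR φ (S.Dz φ ψ y₀) (Om y₀) R h w) := by
    unfold nsf
    simp only [norm_sub_rev]
  rw [e1, e2] at h3
  have hn : 0 ≤ nsf h := fib_nsf_nonneg h
  have he : 0 ≤ S.e1 φ (S.Dz φ ψ y) h := ug977_e1_nonneg S φ _ h
  set a := nsf (fun w => h w - S.PR φ (S.Dz φ ψ y₀) (Om y₀) R h w) with ha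
  set b := nsf (fun w => S.PR φ (S.Dz φ ψ y) (Om y) 1 h w - S.PR φ (S.Dz φ ψ y₀) (Om y₀) R h w) with hb
  set p := nsf (S.PR φ (S.Dz φ ψ y) (Om y) 1 h) with hp
  set e := S.e1 φ (S.Dz φ ψ y) h with hed
  set N := nsf h with hN
  have h4 : 3 * (R * a) ≤ 3 / c0 * e + 1 / 4 * (R * N) := by
    have h5 : c0 * (R * a) ≤ e + C1 * η ^ 2 * (R * N) := by nlinarith [h1]
    have h6 : C1 * η ^ 2 * (R * N) ≤ c0 / 12 * (R * N) :=
      mul_le_mul_of_nonneg_right (by linarith) (by positivity)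
    have h7 : R * a ≤ (e + c0 / 12 * (R * N)) / c0 := by
      rw [le_div_iff₀ hc0]
      linarith
    calc 3 * (R * a) ≤ 3 * ((e + c0 / 12 * (R * N)) / c0) := by linarith
      _ = _ := by field_simp; ring
  have h8 : R * b ≤ R * (1 / 12 * N) := mul_le_mul_of_nonneg_left h2 hR.le
  have h9 : R * N ≤ R * (3 * a + 3 * b + 3 * p) := mul_le_mul_of_nonneg_left h3 hR.le
  have h10 : 6 / c0 * e = 2 * (3 / c0 * e) := by ring
  rw [h10]
  nlinarith [h4, h8, h9]

end Vale.Agent.P353.Z.AE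
end

section

/-! # P353, all `N`, block L: radial cutoff and support of the global functional (helper232) -/

open MeasureTheory Filter Topology Matrix
open scoped ContDiff

namespace Vale.Agent.P353.Z.AL

variable {d dh dm r ds n : ℕ} {F : Type*} [NormedAddCommGroup F] [InnerProductSpace ℂ F]

private lemma rsx_lt_of_sq {a b : ℝ} (hb : 0 ≤ b) (h : a ^ 2 < b ^ 2) : a < b :=
  lt_of_pow_lt_pow_left₀ 2 hb h

theorem rad (S : Setup d F) : RadStmt S := by
  intro R u hu s t hs hst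
  have hst2 : s ^ 2 < t ^ 2 := pow_lt_pow_left₀ hst hs.le two_ne_zero
  have hs2 : 0 < s ^ 2 := by positivity
  let b : ContDiffBump ((s ^ 2 + t ^ 2) / 2 : ℝ) :=
    ⟨(t ^ 2 - s ^ 2) / 2, (t ^ 2 - s ^ 2) / 2 + 3 / 4 * s ^ 2, by linarith, by linarith⟩
  obtain ⟨C, hC⟩ := hu.bd (s / 2) (2 * t) (by linarith) (by linarith)
  let f : ℕ → ℝ → ℝ := fun n v => b (v * (R n ^ 2)⁻¹)
  have hf : ∀ n, ContDiff ℝ ∞ (f n) := fun n =>
    b.contDiff.comp (contDiff_id.mul contDiff_const)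
  have hle : ∀ n x, ‖((Z.rad (f n) x : ℝ) : ℂ) • u n x‖ ≤ ‖u n x‖ := by
    intro n x
    have h0 : 0 ≤ Z.rad (f n) x := b.nonneg' _
    have h1 : Z.rad (f n) x ≤ 1 := b.le_one
    rw [norm_smul, Complex.norm_real, Real.norm_eq_abs, abs_of_nonneg h0]
    exact mul_le_of_le_one_left (norm_nonneg _) h1
  refine ⟨fun n x => ((Z.rad (f n) x : ℝ) : ℂ) • u n x, C, fun n => ⟨⟨?_, ?_⟩, fun D x => ?_⟩, ?_, ?_, hle⟩
  · exact (Setup.contDiff_ofReal (contDiff_rad (hf n))).smul (hu.inv n).1.1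
  · refine (hu.inv n).1.2.mono fun x hx => ?_
    simp only [Function.mem_support] at hx ⊢
    intro h0
    exact hx (by simp [h0])
  · rw [U.InvL.G_rad S (hf n) D (u n) x (((hu.inv n).1.1.differentiable (by simp)) x), (hu.inv n).2 D x, smul_zero]
  · intro n x h1 h2
    have hR := hu.pos n
    have e : Z.rad (f n) x = 1 := by
      refine b.one_of_mem_closedBall ?_
      rw [Metric.mem_closedBall, Real.dist_eq, abs_le]
      have hR2 : 0 < R n ^ 2 := by positivity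
      have g1 : s ^ 2 ≤ ‖x‖ ^ 2 * (R n ^ 2)⁻¹ := by
        rw [← div_eq_mul_inv, le_div_iff₀ hR2, ← mul_pow]
        exact pow_le_pow_left₀ (by positivity) h1 2
      have g2 : ‖x‖ ^ 2 * (R n ^ 2)⁻¹ ≤ t ^ 2 := by
        rw [← div_eq_mul_inv, div_le_iff₀ hR2, ← mul_pow]
        exact pow_le_pow_left₀ (norm_nonneg _) h2 2
      constructor
      · change -((t ^ 2 - s ^ 2) / 2) ≤ _
        linarith
      · change _ ≤ (t ^ 2 - s ^ 2) / 2
        linarith
    simp only [e, Complex.ofReal_one, one_smul]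
  · intro n
    have hR := hu.pos n
    have hR2 : 0 < R n ^ 2 := by positivity
    have hz : ∀ x, x ∉ AD.shl d (s / 2 * R n) (2 * t * R n) → ‖((Z.rad (f n) x : ℝ) : ℂ) • u n x‖ ^ 2 = 0 := by
      intro x hx
      have e : Z.rad (f n) x = 0 := by
        refine b.zero_of_le_dist ?_
        by_contra hcon
        push Not at hcon
        rw [Real.dist_eq, abs_lt] at hcon
        change -((t ^ 2 - s ^ 2) / 2 + 3 / 4 * s ^ 2) < _ ∧ _ < (t ^ 2 - s ^ 2) / 2 + 3 / 4 * s ^ 2 at hcon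
        refine hx ⟨?_, ?_⟩
        · refine rsx_lt_of_sq (norm_nonneg _) ?_
          have : (s / 2) ^ 2 < ‖x‖ ^ 2 * (R n ^ 2)⁻¹ := by nlinarith [hcon.1]
          rw [← div_eq_mul_inv, lt_div_iff₀ hR2] at this
          nlinarith
        · refine rsx_lt_of_sq (by nlinarith) ?_
          have : ‖x‖ ^ 2 * (R n ^ 2)⁻¹ < (2 * t) ^ 2 := by nlinarith [hcon.2]
          rw [← div_eq_mul_inv, div_lt_iff₀ hR2] at this
          nlinarith
      simp [e]
    rw [← setIntegral_eq_integral_of_forall_compl_eq_zero hz]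
    refine le_trans ?_ (hC n)
    have hu2 : Integrable fun x => ‖u n x‖ ^ 2 := by
      have hm : MemLp (u n) 2 (volume : Measure (Cfg d)) := (hu.inv n).1.memLp
      exact hm.integrable_norm_pow two_ne_zero
    refine integral_mono_of_nonneg (Eventually.of_forall fun x => by positivity) hu2.integrableOn
      (Eventually.of_forall fun x => ?_)
    exact pow_le_pow_left₀ (norm_nonneg _) (hle n x) 2

private lemma rsx_shell {φ : Spl dh dm d} {ψ : Spl r ds dh} {A : Set (Cfg r)} {s t s' t' R : ℝ} (hs : 0 < s)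
    (hR : 0 < R) (hs' : s < s') (hRt : 2 < (t ^ 2 - t' ^ 2) * R) (ht : 0 < t)
    (hA : ∀ η ∈ A, s' ≤ ‖η‖ ∧ ‖η‖ ≤ t') {x : Cfg d} (h1 : R⁻¹ • AN.hz ψ (AN.zy φ x) ∈ A)
    (h2 : ‖AN.hs ψ (AN.zy φ x)‖ ≤ Real.sqrt R) (h3 : ‖Real.sqrt R • AN.pm φ x‖ ≤ R) :
    x ∈ AD.shl d (s * R) (t * R) := by
  have hn := AN.sup_norm_sq φ ψ x
  obtain ⟨g1, g2⟩ := hA _ h1
  rw [norm_smul, norm_inv, Real.norm_eq_abs, abs_of_pos hR, inv_mul_eq_div] at g1 g2
  rw [le_div_iff₀ hR] at g1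
  rw [div_le_iff₀ hR] at g2
  have hq : Real.sqrt R ^ 2 = R := Real.sq_sqrt hR.le
  have hq0 : 0 < Real.sqrt R := Real.sqrt_pos.2 hR
  rw [norm_smul, Real.norm_eq_abs, abs_of_pos hq0] at h3
  have h3' : ‖AN.pm φ x‖ ≤ Real.sqrt R := by
    by_contra hc
    push Not at hc
    nlinarith
  have k1 : (s * R) ^ 2 < ‖x‖ ^ 2 := by
    have : (s * R) ^ 2 < (s' * R) ^ 2 :=
      pow_lt_pow_left₀ (mul_lt_mul_of_pos_right hs' hR) (by positivity) two_ne_zero
    have h5 : (s' * R) ^ 2 ≤ ‖AN.hz ψ (AN.zy φ x)‖ ^ 2 :=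
      pow_le_pow_left₀ (mul_nonneg (hs.trans hs').le hR.le) g1 2
    nlinarith [sq_nonneg ‖AN.hs ψ (AN.zy φ x)‖, sq_nonneg ‖AN.pm φ x‖]
  have k2 : ‖x‖ ^ 2 < (t * R) ^ 2 := by
    have a1 : ‖AN.hz ψ (AN.zy φ x)‖ ^ 2 ≤ (t' * R) ^ 2 := pow_le_pow_left₀ (norm_nonneg _) g2 2
    have a2 : ‖AN.hs ψ (AN.zy φ x)‖ ^ 2 ≤ R := by
      rw [← hq]
      exact pow_le_pow_left₀ (norm_nonneg _) h2 2
    have a3 : ‖AN.pm φ x‖ ^ 2 ≤ R := by
      rw [← hq]
      exact pow_le_pow_left₀ (norm_nonneg _) h3' 2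
    have a4 : 2 * R < (t ^ 2 - t' ^ 2) * R * R := mul_lt_mul_of_pos_right hRt hR
    nlinarith
  exact ⟨rsx_lt_of_sq (norm_nonneg _) k1, rsx_lt_of_sq (by positivity) k2⟩

private lemma rsx_Zb {κ : ℝ} {φ : Spl dh dm d} {ψ : Spl r ds dh} {Om : Cfg r → Matrix (Fin dm) (Fin dm) ℝ}
    {A : Set (Cfg r)} {a : Cfg r → Cfg ds → F} (ha : ∀ η x, a η x ≠ 0 → η ∈ A) {R : ℝ} {x : Cfg d}
    (hx : AN.Zb φ ψ (fun q => ((chi R q : ℝ) : ℂ) • AN.bG κ Om a q) R x ≠ 0) :
    R⁻¹ • AN.hz ψ (AN.zy φ x) ∈ A ∧ ‖AN.hs ψ (AN.zy φ x)‖ ≤ Real.sqrt R ∧ ‖Real.sqrt R • AN.pm φ x‖ ≤ R := by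
  have h1 : chi R (R⁻¹ • AN.hz ψ (AN.zy φ x), AN.hs ψ (AN.zy φ x), Real.sqrt R • AN.pm φ x) ≠ 0 := by
    intro h0
    exact hx (by simp [AN.Zb, h0])
  have h2 : a (R⁻¹ • AN.hz ψ (AN.zy φ x)) (AN.hs ψ (AN.zy φ x)) ≠ 0 := by
    intro h0
    exact hx (by simp [AN.Zb, AN.bG, h0])
  refine ⟨ha _ _ h2, ?_⟩
  unfold chi at h1
  by_contra hc
  exact h1 (if_neg hc)

theorem supZ : SupZStmt F := by
  intro d dh dm r ds φ ψ κ Om s t A hs hst hA hAs
  have ht : 0 < t := hs.trans hst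
  obtain ⟨s', t', hs', ht', hA'⟩ : ∃ s' t' : ℝ, s < s' ∧ t' ^ 2 < t ^ 2 ∧ ∀ η ∈ A, s' ≤ ‖η‖ ∧ ‖η‖ ≤ t' := by
    rcases A.eq_empty_or_nonempty with h | h
    · subst h
      exact ⟨s + 1, 0, by linarith, by nlinarith, fun η hη => absurd hη (Set.notMem_empty η)⟩
    · obtain ⟨p, hp, hp'⟩ := hA.exists_isMinOn h continuous_norm.continuousOn
      obtain ⟨q, hq, hq'⟩ := hA.exists_isMaxOn h continuous_norm.continuousOn
      refine ⟨‖p‖, ‖q‖, (hAs hp).1, pow_lt_pow_left₀ (hAs hq).2 (norm_nonneg _) two_ne_zero, fun η hη => ⟨?_, ?_⟩⟩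
      · exact hp' hη
      · exact hq' hη
  refine ⟨2 / (t ^ 2 - t' ^ 2) + 1, ?_, ?_⟩
  · have : 0 < t ^ 2 - t' ^ 2 := by linarith
    positivity
  intro R hR a ha
  have hd : 0 < t ^ 2 - t' ^ 2 := by linarith
  have hR0 : 0 < R := lt_of_lt_of_le (by positivity) hR
  have hR2 : 2 < (t ^ 2 - t' ^ 2) * R := by
    have h1 : 2 / (t ^ 2 - t' ^ 2) < R := by linarith
    rw [div_lt_iff₀ hd] at h1
    linarith
  have key : ∀ x : Cfg d, AN.Zb φ ψ (fun q => ((chi R q : ℝ) : ℂ) • AN.bG κ Om a q) R x ≠ 0 →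
      x ∈ AD.shl d (s * R) (t * R) := by
    intro x hx
    obtain ⟨h1, h2, h3⟩ := rsx_Zb ha hx
    exact rsx_shell hs hR0 hs' hR2 ht hA' h1 h2 h3
  refine ⟨key, fun u u' huu => ?_⟩
  unfold ZZ
  refine integral_congr_ae (Eventually.of_forall fun x => ?_)
  by_cases h0 : AN.Zb φ ψ (fun q => ((chi R q : ℝ) : ℂ) • AN.bG κ Om a q) R x = 0
  · simp only [h0, inner_zero_left]
  · have := huu x (key x h0)
    simp only [this]

end Vale.Agent.P353.Z.AL
end
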