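import Mathlib
import Vale.Agent.P353.BdA.B15
import Vale.Agent.P353.BdZ.B17
import Vale.Agent.P353.BdA.B13
import Vale.Agent.P353.BdA.B1
import Vale.Agent.P353.BdA.B7

set_option linter.all false

section

/-! # P353, all `N`, H5: the core gap for torus invariant functions (helper863)

`Z/U/CGap.lean` with `InvP plT` instead of `Inv`: the coefficients `ζ†Γγ^{kl}ζ` vanish for all pairs
except `(k, pt k)`, `k ≠ 0`. -/

open MeasureTheory Filter Topology Matrix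
open scoped ContDiff

namespace Vale.Agent.P353.Z.AH

open Vale.Agent.P353.Z.U Vale.Agent.P353.Z.U.CG

variable {dc : ℕ} {F : Type*} [NormedAddCommGroup F] [InnerProductSpace ℂ F]

namespace CT

variable (S : Setup dc F)

/-- the coefficients vanish outside the four planes -/
lemma coef_zero (ζ : Fin 16 → ℂ) (σ : Fin 9 → ℂ) (hΓ : S.Gam *ᵥ ζ = (-Complex.I) • ζ)
    (hσ : ∀ k, k ≠ 0 → σ k * σ k = 1 ∧ (starRingEnd ℂ) (σ k) = σ k ∧
      S.g2 k (pt k) *ᵥ ζ = (-Complex.I * σ k) • ζ) (k l : Fin 9) (h : ¬ plT k l) :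
    (∑ β, ∑ γ, (starRingEnd ℂ) (ζ β) * (S.Gam * S.g2 k l) β γ * ζ γ) = 0 := by
  have hE0 : ∀ k l : Fin 9, k ≠ 0 → k ≠ l → l ≠ pt k → star ζ ⬝ᵥ (S.g2 k l *ᵥ ζ) = 0 := by
    intro k l hk hkl hl
    obtain ⟨h1, h2, h3⟩ := hσ k hk
    refine a5_zero (S.g2 k (pt k)) (S.g2 k l) (a5_g2_conj S _ _) (a5_anti S hkl ?_ hl) ζ (σ k)
      h1 h2 h3
    revert hk; fin_cases k <;> decide
  have hE : star ζ ⬝ᵥ (S.g2 k l *ᵥ ζ) = 0 := by
    by_cases hkl : k = l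
    · rw [hkl, a5_g2_self, Matrix.zero_mulVec, dotProduct_zero]
    · by_cases hk : k = 0
      · subst hk
        rw [S.g2_swap 0 l, Matrix.neg_mulVec, dotProduct_neg, hE0 l 0 (Ne.symm hkl) (Ne.symm hkl),
          neg_zero]
        have : l ≠ 0 := Ne.symm hkl
        revert this; fin_cases l <;> decide
      · exact hE0 k l hk hkl fun hl => h ⟨hk, hl⟩
  have h1 : (∑ β, ∑ γ, (starRingEnd ℂ) (ζ β) * (S.Gam * S.g2 k l) β γ * ζ γ) =
      star ζ ⬝ᵥ ((S.Gam * S.g2 k l) *ᵥ ζ) := by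
    simp only [dotProduct, Matrix.mulVec, Finset.mul_sum, mul_assoc]
    rfl
  have h3 : star ζ ᵥ* S.Gam = star ((S.Gam)ᴴ *ᵥ ζ) := by
    rw [Matrix.star_mulVec, Matrix.conjTranspose_conjTranspose]
  rw [h1, ← Matrix.mulVec_mulVec, Matrix.dotProduct_mulVec, h3, a5_Gam_conj, Matrix.neg_mulVec,
    hΓ, star_neg, star_smul, neg_dotProduct, smul_dotProduct, hE, smul_zero, neg_zero]

/-- rearranging the sum of the anticommutators -/
lemma algV (m : ℂ) (ζ : Fin 16 → ℂ) (R : Fin 9 → Fin 9 → ℂ)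
    (M : Fin 9 → Fin 9 → Fin 16 → Fin 16 → ℂ) (V : Fin 9 → Fin 9 → F) :
    ∑ α, ∑ β, ((starRingEnd ℂ) (ζ α) * ζ β) • (m • ∑ i, ∑ j, (R i j * M i j α β) • V i j) =
    m • ∑ i, ∑ j, (R i j * (∑ β, ∑ γ, (starRingEnd ℂ) (ζ β) * M i j β γ * ζ γ)) • V i j := by
  have h1 : ∀ α β, ((starRingEnd ℂ) (ζ α) * ζ β) • (m • ∑ i, ∑ j, (R i j * M i j α β) • V i j) =
      ∑ i, ∑ j, ((starRingEnd ℂ) (ζ α) * M i j α β * ζ β) • ((m * R i j) • V i j) := by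
    intro α β
    rw [Finset.smul_sum, Finset.smul_sum]
    refine Finset.sum_congr rfl fun i _ => ?_
    rw [Finset.smul_sum, Finset.smul_sum]
    refine Finset.sum_congr rfl fun j _ => ?_
    simp only [smul_smul]
    congr 1
    ring
  simp only [h1]
  have h2 : ∀ (w : Fin 16 → Fin 16 → Fin 9 → Fin 9 → F),
      ∑ α, ∑ β, ∑ i, ∑ j, w α β i j = ∑ i, ∑ j, ∑ α, ∑ β, w α β i j := by
    intro w
    calc ∑ α, ∑ β, ∑ i, ∑ j, w α β i j = ∑ α, ∑ i, ∑ β, ∑ j, w α β i j :=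
          Finset.sum_congr rfl fun α _ => Finset.sum_comm
      _ = ∑ i, ∑ α, ∑ β, ∑ j, w α β i j := Finset.sum_comm
      _ = ∑ i, ∑ α, ∑ j, ∑ β, w α β i j :=
          Finset.sum_congr rfl fun i _ => Finset.sum_congr rfl fun α _ => Finset.sum_comm
      _ = ∑ i, ∑ j, ∑ α, ∑ β, w α β i j :=
          Finset.sum_congr rfl fun i _ => Finset.sum_comm
  rw [h2, Finset.smul_sum]
  refine Finset.sum_congr rfl fun i _ => ?_
  rw [Finset.smul_sum]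
  refine Finset.sum_congr rfl fun j _ => ?_
  simp only [← Finset.sum_smul]
  rw [smul_smul, smul_smul]
  congr 1
  ring

lemma same_pt {k l : Fin 9} (h : plT k l) : Same k l := by
  obtain ⟨hk, rfl⟩ := h
  revert hk
  fin_cases k <;> (intro hk; first | exact absurd rfl hk | exact ⟨by decide, by decide⟩)

lemma G_QXP (hA3 : A3Stmt S) (m : ℝ) (ξ : Fin 16 → ℂ) {φ : Cfg dc → F} (hφ : S.InvP plT φ)
    (C : Fin dc) (x : Cfg dc) : S.G C (QX S m ξ φ) x = 0 := by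
  have h0 : S.G C φ = fun _ => 0 := funext fun y => hφ.2.1 C y
  have h1 := G_sum S C Finset.univ ξ (u := fun β => S.Qm m β φ)
    (fun β => HB.contDiff_Qm S m β hφ.1.1) x
  have h2 : ∀ β, S.G C (S.Qm m β φ) x = 0 := by
    intro β
    rw [hA3 m C β φ hφ.1.1 x, h0, HB.Qm_zero]
  simp only [h2, smul_zero, Finset.sum_const_zero] at h1
  exact h1

lemma J_QXP (hA2 : A2Stmt S) (m : ℝ) (ξ : Fin 16 → ℂ) {φ : Cfg dc → F} (hφ : S.InvP plT φ)
    {k l : Fin 9} (hp : plT k l) (x : Cfg dc) : S.J k l (QX S m ξ φ) x =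
      (-Complex.I / 2) • ∑ β, (S.g2 k l *ᵥ ξ) β • S.Qm m β φ x := by
  have hkl : Same k l := same_pt hp
  have h0 : S.J k l φ = fun _ => 0 := funext fun y => hφ.2.2 k l hp y
  have h1 : S.J k l (QX S m ξ φ) x = ∑ β, ξ β • S.J k l (S.Qm m β φ) x :=
    J_sum S k l Finset.univ ξ (u := fun β => S.Qm m β φ)
      (fun β => HB.contDiff_Qm S m β hφ.1.1) x hkl
  have h2 : ∀ α, S.J k l (S.Qm m α φ) x =
      (Complex.I / 2) • ∑ β, S.g2 k l α β • S.Qm m β φ x := by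
    intro α
    have h3 := hA2 m k l hkl α φ hφ.1.1 x
    rwa [h0, HB.Qm_zero, sub_zero] at h3
  rw [h1]
  simp only [h2, Finset.smul_sum, smul_smul]
  rw [Finset.sum_comm]
  refine Finset.sum_congr rfl fun β _ => ?_
  rw [← Finset.sum_smul]
  congr 1
  have h4 : ∀ α β, S.g2 k l α β = - S.g2 k l β α := by
    intro α β
    have := congrFun (congrFun (Setup.g2_transpose S k l) β) α
    simpa [Matrix.transpose_apply] using this
  simp only [Matrix.mulVec, dotProduct, Finset.mul_sum]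
  refine Finset.sum_congr rfl fun α _ => ?_
  rw [h4 α β]
  ring

/-- `[16 H, Q^ξ] = 8 m s Q^ξ` for `iΓξ = sξ` -/
lemma HH_QXP (hA4 : A4Stmt S) (hA7 : A7Stmt S) (m : ℝ) {φ : Cfg dc → F} (hφ : S.InvP plT φ)
    (ξ : Fin 16 → ℂ) (s : ℂ) (hξ : S.Gam *ᵥ ξ = (-Complex.I * s) • ξ) (x : Cfg dc) :
    QX S m ξ (HB.HH S m φ) x = HB.HH S m (QX S m ξ φ) x - (8 * m * s) • QX S m ξ φ x := by
  have e1 : HB.HH S m φ = fun y => (16 : ℂ) • S.Hm m φ y := funext fun y => hA7 m φ hφ.1.1 y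
  have e2 : S.Hm m φ = fun y => (1 / 16 : ℂ) • HB.HH S m φ y := by
    funext y
    rw [e1]
    simp only [smul_smul]
    norm_num
  have hH : ContDiff ℝ ∞ (S.Hm m φ) := by
    rw [e2]
    exact contDiff_const.smul (HB.contDiff_HH S m hφ.1.1)
  have key : ∀ α, S.Qm m α (HB.HH S m φ) x = HB.HH S m (S.Qm m α φ) x +
      (8 * Complex.I * m) • ∑ β, S.Gam α β • S.Qm m β φ x := by
    intro α
    have h1 := hA4 m α φ hφ.1.1 x
    simp only [hφ.2.1, map_zero, Finset.sum_const_zero, smul_zero, sub_zero] at h1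
    have h2 : HB.HH S m (S.Qm m α φ) x = (16 : ℂ) • S.Hm m (S.Qm m α φ) x :=
      hA7 m _ (HB.contDiff_Qm S m α hφ.1.1) x
    rw [e1, HB.Qm_csmul S m α 16 hH, h2, sub_eq_iff_eq_add.mp h1, smul_add, smul_smul,
      add_comm ((16 * -(Complex.I * m / 2)) • _), add_assoc, ← add_smul]
    have : 16 * -(Complex.I * (m : ℂ) / 2) + 8 * Complex.I * m = 0 := by ring
    rw [this, zero_smul, add_zero]
  have h3 : HB.HH S m (QX S m ξ φ) x = ∑ α, ξ α • HB.HH S m (S.Qm m α φ) x :=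
    HB.HH_sum S m Finset.univ ξ (u := fun β => S.Qm m β φ)
      (fun β => HB.contDiff_Qm S m β hφ.1.1) x
  rw [h3]
  unfold QX
  simp only [key, smul_add, Finset.sum_add_distrib]
  rw [sub_eq_add_neg, ← neg_smul]
  congr 1
  simp only [Finset.smul_sum, smul_smul]
  rw [Finset.sum_comm]
  refine Finset.sum_congr rfl fun β _ => ?_
  rw [← Finset.sum_smul]
  congr 1
  have h4 : ∀ α, S.Gam α β = -S.Gam β α := fun α => congrFun (congrFun S.Gam_transpose β) α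
  have h5 : ∑ α, S.Gam β α * ξ α = -Complex.I * s * ξ β := congrFun hξ β
  have h6 : ∑ α, ξ α * (8 * Complex.I * m * S.Gam α β) =
      -(8 * Complex.I * m) * ∑ α, S.Gam β α * ξ α := by
    rw [Finset.mul_sum]
    refine Finset.sum_congr rfl fun α _ => ?_
    rw [h4]
    ring
  rw [h6, h5]
  linear_combination (8 * m * s * ξ β) * Complex.I_mul_I

/-- the key pointwise identity -/
lemma key_DP (hA1 : A1Stmt S) (hA2 : A2Stmt S) (hA3 : A3Stmt S) (hA7 : A7Stmt S) (m : ℝ)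
    {φ : Cfg dc → F} (hφ : S.InvP plT φ) (ζ : Fin 16 → ℂ) (σ : Fin 9 → ℂ)
    (hΓ : S.Gam *ᵥ ζ = (-Complex.I) • ζ)
    (hσ : ∀ k, k ≠ 0 → σ k * σ k = 1 ∧ (starRingEnd ℂ) (σ k) = σ k ∧
      S.g2 k (pt k) *ᵥ ζ = (-Complex.I * σ k) • ζ) (x : Cfg dc) :
    QX S m (star ζ) (QX S m ζ (QX S m (S.g2 0 1 *ᵥ ζ) φ)) x +
      QX S m ζ (QX S m (star ζ) (QX S m (S.g2 0 1 *ᵥ ζ) φ)) x =
    (∑ β, (starRingEnd ℂ) (ζ β) * ζ β) •
      ((1 / 8 : ℂ) • HB.HH S m (QX S m (S.g2 0 1 *ᵥ ζ) φ) x -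
        (5 * m : ℂ) • QX S m (S.g2 0 1 *ᵥ ζ) φ x) := by
  set η : Fin 16 → ℂ := S.g2 0 1 *ᵥ ζ with hη
  set X : Cfg dc → F := QX S m η φ with hX
  have hXt : Setup.Tst X := Tst_QX S m η hφ.1
  have hXc : ∀ β, ContDiff ℝ ∞ (S.Qm m β X) := fun β => HB.contDiff_Qm S m β hXt.1
  have e1 : QX S m (star ζ) (QX S m ζ X) x =
      ∑ α, ∑ β, ((starRingEnd ℂ) (ζ α) * ζ β) • S.Qm m α (S.Qm m β X) x := by
    have h1 : ∀ α, S.Qm m α (QX S m ζ X) x = ∑ β, ζ β • S.Qm m α (S.Qm m β X) x := fun α =>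
      HB.Qm_sum S m α Finset.univ ζ (u := fun β => S.Qm m β X) hXc x
    change ∑ α, (star ζ) α • S.Qm m α (QX S m ζ X) x = _
    simp only [h1, Finset.smul_sum, smul_smul]
    rfl
  have e2 : QX S m ζ (QX S m (star ζ) X) x =
      ∑ α, ∑ β, ((starRingEnd ℂ) (ζ α) * ζ β) • S.Qm m β (S.Qm m α X) x := by
    have h1 : ∀ α, S.Qm m α (QX S m (star ζ) X) x =
        ∑ β, (star ζ) β • S.Qm m α (S.Qm m β X) x := fun α =>
      HB.Qm_sum S m α Finset.univ (star ζ) (u := fun β => S.Qm m β X) hXc x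
    change ∑ α, ζ α • S.Qm m α (QX S m (star ζ) X) x = _
    simp only [h1, Finset.smul_sum, smul_smul]
    rw [Finset.sum_comm]
    refine Finset.sum_congr rfl fun α _ => Finset.sum_congr rfl fun β _ => ?_
    rw [mul_comm]
    rfl
  have e3 : ∀ α β, S.Qm m α (S.Qm m β X) x + S.Qm m β (S.Qm m α X) x =
      (if α = β then (2 : ℂ) • S.Hm m X x else 0) +
      (m : ℂ) • (∑ i, ∑ j, ((rc i j : ℂ) * (S.Gam * S.g2 i j) α β) • S.J i j X x) := by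
    intro α β
    rw [hA1 m α β X hXt.1 x]
    have h1 : ∀ C, S.G C X x = 0 := fun C => G_QXP S hA3 m η hφ C x
    simp only [h1, smul_zero, Finset.sum_const_zero, add_zero]
  rw [e1, e2, ← Finset.sum_add_distrib]
  have e4 : ∀ α, (∑ β, ((starRingEnd ℂ) (ζ α) * ζ β) • S.Qm m α (S.Qm m β X) x) +
      (∑ β, ((starRingEnd ℂ) (ζ α) * ζ β) • S.Qm m β (S.Qm m α X) x) =
      ((starRingEnd ℂ) (ζ α) * ζ α) • ((2 : ℂ) • S.Hm m X x) +
      ∑ β, ((starRingEnd ℂ) (ζ α) * ζ β) •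
        ((m : ℂ) • (∑ i, ∑ j, ((rc i j : ℂ) * (S.Gam * S.g2 i j) α β) • S.J i j X x)) := by
    intro α
    rw [← Finset.sum_add_distrib]
    simp only [← smul_add, e3]
    simp only [smul_add, Finset.sum_add_distrib]
    congr 1
    rw [Finset.sum_eq_single α]
    · rw [if_pos rfl]
    · intro β _ hβ
      rw [if_neg (Ne.symm hβ), smul_zero]
    · intro h; exact absurd (Finset.mem_univ _) h
  simp only [e4]
  have e7 : ∑ α, ∑ β, ((starRingEnd ℂ) (ζ α) * ζ β) •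
        ((m : ℂ) • (∑ i, ∑ j, ((rc i j : ℂ) * (S.Gam * S.g2 i j) α β) • S.J i j X x)) =
      ∑ α, ∑ β, ((starRingEnd ℂ) (ζ α) * ζ β) •
        ((m : ℂ) • (∑ i, ∑ j, ((rc i j : ℂ) * (S.Gam * S.g2 i j) α β) •
          ((-Complex.I / 2) • ∑ δ, (S.g2 i j *ᵥ η) δ • S.Qm m δ φ x))) := by
    rw [algV (m : ℂ) ζ (fun i j => (rc i j : ℂ)) (fun i j α β => (S.Gam * S.g2 i j) α β)
      (fun i j => S.J i j X x),
      algV (m : ℂ) ζ (fun i j => (rc i j : ℂ)) (fun i j α β => (S.Gam * S.g2 i j) α β)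
      (fun i j => (-Complex.I / 2) • ∑ δ, (S.g2 i j *ᵥ η) δ • S.Qm m δ φ x)]
    congr 1
    refine Finset.sum_congr rfl fun i _ => Finset.sum_congr rfl fun j _ => ?_
    by_cases hp : plT i j
    · rw [hX, J_QXP S hA2 m η hφ hp x]
    · rw [coef_zero S ζ σ hΓ hσ i j hp, mul_zero, zero_smul, zero_smul]
  rw [Finset.sum_add_distrib, ← Finset.sum_smul, e7,
    Vale.Agent.P353.Z.U.CG.alg (m : ℂ) (-Complex.I / 2) ζ (fun i j => (rc i j : ℂ))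
      (fun i j α β => (S.Gam * S.g2 i j) α β) (fun i j δ => (S.g2 i j *ᵥ η) δ)
      (fun δ => S.Qm m δ φ x)]
  have e5 : ∀ δ, ∑ k, ∑ l, (rc k l : ℂ) *
      (∑ β, ∑ γ, (starRingEnd ℂ) (ζ β) * (S.Gam * S.g2 k l) β γ * ζ γ) *
      (-Complex.I / 2) * (S.g2 k l *ᵥ η) δ = -5 * (∑ β, (starRingEnd ℂ) (ζ β) * ζ β) * η δ :=
    fun δ => a5_gen S ζ σ hΓ hσ δ
  simp only [e5]
  have e6 : HB.HH S m X x = (16 : ℂ) • S.Hm m X x := hA7 m X hXt.1 x
  rw [e6, smul_sub, smul_smul, smul_smul, smul_smul, sub_eq_add_neg]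
  congr 1
  · congr 1
    ring
  · rw [hX]
    unfold QX
    rw [smul_smul, Finset.smul_sum, Finset.smul_sum, ← Finset.sum_neg_distrib]
    refine Finset.sum_congr rfl fun δ _ => ?_
    rw [smul_smul, smul_smul, ← neg_smul]
    congr 1
    ring

/-- coercivity on `X = Q^η φ` -/
lemma coerXP (hA1 : A1Stmt S) (hA2 : A2Stmt S) (hA3 : A3Stmt S) (hA7 : A7Stmt S) (m : ℝ)
    {φ : Cfg dc → F} (hφ : S.InvP plT φ) (ζ : Fin 16 → ℂ) (σ : Fin 9 → ℂ)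
    (hΓ : S.Gam *ᵥ ζ = (-Complex.I) • ζ)
    (hσ : ∀ k, k ≠ 0 → σ k * σ k = 1 ∧ (starRingEnd ℂ) (σ k) = σ k ∧
      S.g2 k (pt k) *ᵥ ζ = (-Complex.I * σ k) • ζ) :
    40 * m * nsq (QX S m (S.g2 0 1 *ᵥ ζ) φ) ≤
      ∑ β, nsq (S.Qm m β (QX S m (S.g2 0 1 *ᵥ ζ) φ)) := by
  have hD := key_DP S hA1 hA2 hA3 hA7 m hφ ζ σ hΓ hσ
  set η : Fin 16 → ℂ := S.g2 0 1 *ᵥ ζ with hη
  set X : Cfg dc → F := QX S m η φ with hX
  have hXt : Setup.Tst X := Tst_QX S m η hφ.1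
  have hN : ∑ β, (starRingEnd ℂ) (ζ β) * ζ β = ((∑ β, ‖ζ β‖ ^ 2 : ℝ) : ℂ) := by
    push_cast
    refine Finset.sum_congr rfl fun β _ => ?_
    rw [mul_comm, Complex.mul_conj, Complex.normSq_eq_norm_sq]
    push_cast
    ring
  rw [hN] at hD
  set N : ℝ := ∑ β, ‖ζ β‖ ^ 2 with hNd
  have hN0 : 0 ≤ N := Finset.sum_nonneg fun _ _ => by positivity
  have t1 := Tst_QX S m ζ hXt
  have t2 := Tst_QX S m (star ζ) hXt
  have h1 : ((nsq (QX S m ζ X) + nsq (QX S m (star ζ) X) : ℝ) : ℂ) =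
      ((N * (1 / 8 * ∑ β, nsq (S.Qm m β X) - 5 * m * nsq X) : ℝ) : ℂ) := by
    have a1 : ((nsq (QX S m ζ X) : ℝ) : ℂ) = E X (QX S m (star ζ) (QX S m ζ X)) := by
      rw [← E_self, E_symm S m ζ hXt t1.1]
    have a2 : ((nsq (QX S m (star ζ) X) : ℝ) : ℂ) = E X (QX S m ζ (QX S m (star ζ) X)) := by
      rw [← E_self, E_symm S m (star ζ) hXt t2.1, star_star]
    have a3 : E X (QX S m (star ζ) (QX S m ζ X)) + E X (QX S m ζ (QX S m (star ζ) X)) =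
        N * ((1 / 8 : ℂ) * E X (HB.HH S m X) - 5 * m * E X X) := by
      have c1 := (Tst_QX S m (star ζ) t1).1.continuous
      have c2 := (Tst_QX S m ζ t2).1.continuous
      have c3 := (HB.Tst_HH S m hXt).1.continuous
      unfold E
      rw [← integral_add (hXt.inner_int c1) (hXt.inner_int c2)]
      simp only [← inner_add_right, hD]
      simp only [inner_smul_right, inner_sub_right]
      rw [integral_const_mul, integral_sub ((hXt.inner_int c3).const_mul _)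
        ((hXt.inner_int hXt.1.continuous).const_mul _), integral_const_mul, integral_const_mul]
    push_cast
    rw [a1, a2, a3, E_HH S m hXt, E_self]
    push_cast
    ring
  have h2 : nsq (QX S m ζ X) + nsq (QX S m (star ζ) X) =
      N * (1 / 8 * ∑ β, nsq (S.Qm m β X) - 5 * m * nsq X) := by exact_mod_cast h1
  have h3 := nsq_nonneg (QX S m ζ X)
  have h4 := nsq_nonneg (QX S m (star ζ) X)
  rcases hN0.lt_or_eq with hN1 | hN1
  · have h5 : 0 ≤ 1 / 8 * ∑ β, nsq (S.Qm m β X) - 5 * m * nsq X := by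
      by_contra hcon
      push Not at hcon
      nlinarith
    linarith
  · have hζ : ζ = 0 := by
      funext β
      have h6 : ‖ζ β‖ ^ 2 = 0 := (Finset.sum_eq_zero_iff_of_nonneg fun _ _ => by positivity).mp
        hN1.symm β (Finset.mem_univ _)
      simpa using h6
    have hX0 : X = fun _ => 0 := by
      funext x
      rw [hX, hη, hζ]
      simp [QX]
    have h7 : nsq X = 0 := by rw [hX0]; simp [nsq]
    rw [h7, mul_zero]
    exact Finset.sum_nonneg fun _ _ => nsq_nonneg _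

theorem cgapT_of (hA1 : A1Stmt S) (hA2 : A2Stmt S) (hA3 : A3Stmt S)
    (hA4 : A4Stmt S) (hA7 : A7Stmt S) : CGapTStmt S := by
  intro m hm φ hφ
  obtain ⟨ι, _, v, σ, hv, hσ⟩ := CG.fam S
  have hη := CG.fam_rot S v hv
  have hGη : ∀ a, S.Gam *ᵥ (S.g2 0 1 *ᵥ v a) = (-Complex.I * 1) • (S.g2 0 1 *ᵥ v a) := by
    intro a
    rw [Matrix.mulVec_mulVec, ← S.Gam_comm_g2 ⟨by decide, by decide⟩, ← Matrix.mulVec_mulVec,
      (hσ a).1, Matrix.mulVec_smul, mul_one]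
  have hGs : ∀ a, S.Gam *ᵥ star (S.g2 0 1 *ᵥ v a) =
      (-Complex.I * (-1)) • star (S.g2 0 1 *ᵥ v a) := by
    intro a
    have h1 := congrArg star (hGη a)
    have h2 : star (S.Gam *ᵥ (S.g2 0 1 *ᵥ v a)) = S.Gam *ᵥ star (S.g2 0 1 *ᵥ v a) := by
      rw [Matrix.star_mulVec, a5_Gam_conj, Matrix.vecMul_neg, ← Matrix.mulVec_transpose,
        S.Gam_transpose, Matrix.neg_mulVec, neg_neg]
    rw [← h2, h1, star_smul]
    simp
  set η : ι → Fin 16 → ℂ := fun a => S.g2 0 1 *ᵥ v a with hηd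
  have hHt : Setup.Tst (HB.HH S m φ) := HB.Tst_HH S m hφ.1
  -- the sum of squares
  have h1 : ∑ β, nsq (S.Qm m β φ) =
      ∑ a, (nsq (CG.QX S m (η a) φ) + nsq (CG.QX S m (star (η a)) φ)) := by
    have h := CG.E_fam S m η hη hφ.1 hφ.1
    simp only [CG.E_self] at h
    exact_mod_cast h
  -- the norm of `HH φ`
  have hsplit : ∀ (ξ : Fin 16 → ℂ) (s : ℝ), S.Gam *ᵥ ξ = (-Complex.I * (s : ℂ)) • ξ →
      CG.E (CG.QX S m ξ φ) (CG.QX S m ξ (HB.HH S m φ)) =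
      ((∑ β, nsq (S.Qm m β (CG.QX S m ξ φ)) - 8 * m * s * nsq (CG.QX S m ξ φ) : ℝ) : ℂ) := by
    intro ξ s hξ
    have ht := CG.Tst_QX S m ξ hφ.1
    have e1 : CG.E (CG.QX S m ξ φ) (CG.QX S m ξ (HB.HH S m φ)) =
        CG.E (CG.QX S m ξ φ) (HB.HH S m (CG.QX S m ξ φ)) -
          (8 * m * s) * CG.E (CG.QX S m ξ φ) (CG.QX S m ξ φ) := by
      unfold CG.E
      simp only [HH_QXP S hA4 hA7 m hφ ξ s hξ, inner_sub_right, inner_smul_right]
      rw [integral_sub (ht.inner_int (HB.Tst_HH S m ht).1.continuous)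
        ((ht.inner_int ht.1.continuous).const_mul _), integral_const_mul]
    rw [e1, CG.E_HH S m ht, CG.E_self]
    push_cast
    ring
  have h2 : nsq (HB.HH S m φ) = ∑ a,
      ((∑ β, nsq (S.Qm m β (CG.QX S m (η a) φ)) - 8 * m * 1 * nsq (CG.QX S m (η a) φ)) +
      (∑ β, nsq (S.Qm m β (CG.QX S m (star (η a)) φ)) -
        8 * m * (-1) * nsq (CG.QX S m (star (η a)) φ))) := by
    have h := CG.E_fam S m η hη hφ.1 hHt
    have h3 : CG.E (HB.HH S m φ) (HB.HH S m φ) =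
        ∑ β, CG.E (S.Qm m β φ) (S.Qm m β (HB.HH S m φ)) := HB.inner_HH S m hφ.1 hHt
    rw [← h3, CG.E_self] at h
    have h4 : ∀ a, CG.E (CG.QX S m (η a) φ) (CG.QX S m (η a) (HB.HH S m φ)) +
        CG.E (CG.QX S m (star (η a)) φ) (CG.QX S m (star (η a)) (HB.HH S m φ)) =
        (((∑ β, nsq (S.Qm m β (CG.QX S m (η a) φ)) - 8 * m * 1 * nsq (CG.QX S m (η a) φ)) +
        (∑ β, nsq (S.Qm m β (CG.QX S m (star (η a)) φ)) -
          8 * m * (-1) * nsq (CG.QX S m (star (η a)) φ)) : ℝ) : ℂ) := by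
      intro a
      rw [hsplit (η a) 1 (by rw [Complex.ofReal_one]; exact hGη a),
        hsplit (star (η a)) (-1) (by rw [Complex.ofReal_neg, Complex.ofReal_one]; exact hGs a)]
      push_cast
      ring
    simp only [h4] at h
    exact_mod_cast h
  change 8 * m * ∑ β, nsq (S.Qm m β φ) ≤ nsq (HB.HH S m φ)
  rw [h1, h2, Finset.mul_sum]
  refine Finset.sum_le_sum fun a _ => ?_
  have h5 := coerXP S hA1 hA2 hA3 hA7 m hφ (v a) (σ a) (hσ a).1 (hσ a).2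
  have h6 : 0 ≤ ∑ β, nsq (S.Qm m β (CG.QX S m (star (η a)) φ)) :=
    Finset.sum_nonneg fun _ _ => nsq_nonneg _
  have h7 := nsq_nonneg (CG.QX S m (η a) φ)
  have h8 : 0 ≤ m * nsq (CG.QX S m (η a) φ) := mul_nonneg hm.le h7
  have h9 : 40 * m * nsq (CG.QX S m (η a) φ) ≤ ∑ β, nsq (S.Qm m β (CG.QX S m (η a) φ)) := h5
  nlinarith

end CT

/-- **H5** core gap for torus invariant functions -/
theorem cgapT (S : Setup dc F) : CGapTStmt S := by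
  have A1 : A1Stmt S := a1 S (a1a S) (a1b S (fbmn S (f10 S)))
  have A2 : A2Stmt S := a2 (S := S)
  have A3 : A3Stmt S := a3 (S := S)
  have A7 : A7Stmt S := a7 S A1
  have A4 : A4Stmt S := a4 S A1 A2 A3 A7
  exact CT.cgapT_of S A1 A2 A3 A4 A7

end Vale.Agent.P353.Z.AH
end

section

/-! # P353, all `N`, block GL: the two functionals -/

set_option linter.all false

open MeasureTheory Filter Topology
open scoped ContDiff ENNReal

namespace Vale.Agent.P353.Z.AN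

variable {d dh dm r ds : ℕ} {F : Type*} [NormedAddCommGroup F] [InnerProductSpace ℂ F]

lemma glu_apx {x : ℕ → ℂ} (h : ∀ e : ℝ≥0∞, 0 < e → ∃ y : ℕ → ℂ, Tendsto y atTop (𝓝 0) ∧ ∀ᶠ n in atTop, ‖x n - y n‖ₑ ≤ e) :
    Tendsto x atTop (𝓝 0) := by
  rw [tendsto_iff_edist_tendsto_0, ENNReal.tendsto_nhds_zero]
  intro e he
  obtain ⟨y, hy, hxy⟩ := h (e / 2) (ENNReal.half_pos he.ne')
  rw [tendsto_iff_edist_tendsto_0, ENNReal.tendsto_nhds_zero] at hy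
  filter_upwards [hy (e / 2) (ENNReal.half_pos he.ne'), hxy] with n h1 h2
  calc edist (x n) 0 ≤ edist (x n) (y n) + edist (y n) 0 := edist_triangle _ _ _
    _ ≤ e / 2 + e / 2 := add_le_add (by rwa [edist_eq_enorm_sub]) h1
    _ = e := ENNReal.add_halves e

/-- global functional -/
noncomputable def gGl (φ : Spl dh dm d) (ψ : Spz r ds dh) (R : ℝ) (b : Cfg r × Cfg ds × Cfg dm → F) (u : Cfg d → F) : ℂ :=
  ∫ x, inner ℂ (Zb φ ψ b R x) (u x)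

/-- slice functional -/
noncomputable def gSl (S : Setup d F) (φ : Spl dh dm d) (ψ : Spz r ds dh) (z₀ : Cfg r) (ε R : ℝ)
    (v : Cfg r → Cfg ds → Wsp dm → F) (u : Cfg d → F) : ℂ :=
  ∫ p in Nb (cmb ψ z₀ 0) dm R ε, inner ℂ (Ts0 ψ v R p.1 p.2) (S.res φ u p.1 p.2) ∂(volume.prod volume)

lemma gGl_sub (φ : Spl dh dm d) (ψ : Spz r ds dh) {R : ℝ} (hR : 0 < R) {b b' : Cfg r × Cfg ds × Cfg dm → F}
    (hb : MemLp b 2 (wM r ds dm)) (hb' : MemLp b' 2 (wM r ds dm)) {u : Cfg d → F} (hu : Setup.Tst u) :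
    gGl φ ψ R b u - gGl φ ψ R b' u = gGl φ ψ R (fun q => b q - b' q) u := by
  have h1 := glu_int (glu_memLp φ ψ R hR (hb.mono_measure (glu_w_le r ds dm))) hu.memLp
  have h2 := glu_int (glu_memLp φ ψ R hR (hb'.mono_measure (glu_w_le r ds dm))) hu.memLp
  unfold gGl
  rw [← integral_sub h1 h2]
  refine integral_congr_ae (ae_of_all _ fun x => ?_)
  show inner ℂ (Zb φ ψ b R x) (u x) - inner ℂ (Zb φ ψ b' R x) (u x) = inner ℂ (Zb φ ψ (fun q => b q - b' q) R x) (u x)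
  rw [← inner_sub_left]
  congr 1
  unfold Zb
  rw [smul_sub]

lemma glu_Ts_memLp (S : Setup d F) (fd : FiniteDimensional ℂ F) (hm : MeaStmt S) {φ : Spl dh dm d} {ψ : Spz r ds dh}
    (hsub : S.IsSub φ) {R : ℝ} (hR : 0 < R) {v : Cfg r → Cfg ds → Wsp dm → F}
    (hv : StronglyMeasurable (fun q : Cfg r × Cfg ds × Wsp dm => v q.1 q.2.1 q.2.2))
    (hv2 : MemLp (fun q : Cfg r × Cfg ds × Wsp dm => v q.1 q.2.1 q.2.2) 2 (volume.prod (volume.prod volume))) :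
    MemLp (fun p : Cfg dh × Wsp dm => Ts0 ψ v R p.1 p.2) 2 (volume.prod volume) ∧
    eLpNorm (fun p : Cfg dh × Wsp dm => Ts0 ψ v R p.1 p.2) 2 (volume.prod volume) =
      eLpNorm (fun q : Cfg r × Cfg ds × Wsp dm => v q.1 q.2.1 q.2.2) 2 (volume.prod (volume.prod volume)) := by
  obtain ⟨h1, h2⟩ := (hm fd dh dm r ds φ ψ hsub).2.2 R v hR hv
  rw [glu_sq, glu_sq] at h2
  have h3 : eLpNorm (fun p : Cfg dh × Wsp dm => Ts0 ψ v R p.1 p.2) 2 (volume.prod volume) =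
      eLpNorm (fun q : Cfg r × Cfg ds × Wsp dm => v q.1 q.2.1 q.2.2) 2 (volume.prod (volume.prod volume)) := by
    have := congrArg (fun t : ℝ≥0∞ => t ^ (1 / 2 : ℝ)) h2
    simp only [← ENNReal.rpow_natCast, ← ENNReal.rpow_mul] at this
    norm_num at this
    exact this
  exact ⟨⟨h1.aestronglyMeasurable, h3 ▸ hv2.2⟩, h3⟩

lemma gSl_sub (S : Setup d F) (fd : FiniteDimensional ℂ F) (hm : MeaStmt S) {φ : Spl dh dm d} {ψ : Spz r ds dh}
    (hsub : S.IsSub φ) (z₀ : Cfg r) (ε : ℝ) {R : ℝ} (hR : 0 < R) {v v' : Cfg r → Cfg ds → Wsp dm → F}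
    (hv : StronglyMeasurable (fun q : Cfg r × Cfg ds × Wsp dm => v q.1 q.2.1 q.2.2))
    (hv2 : MemLp (fun q : Cfg r × Cfg ds × Wsp dm => v q.1 q.2.1 q.2.2) 2 (volume.prod (volume.prod volume)))
    (hv' : StronglyMeasurable (fun q : Cfg r × Cfg ds × Wsp dm => v' q.1 q.2.1 q.2.2))
    (hv2' : MemLp (fun q : Cfg r × Cfg ds × Wsp dm => v' q.1 q.2.1 q.2.2) 2 (volume.prod (volume.prod volume)))
    {u : Cfg d → F} (hu : Setup.Tst u) :
    gSl S φ ψ z₀ ε R v u - gSl S φ ψ z₀ ε R v' u = gSl S φ ψ z₀ ε R (fun η s w => v η s w - v' η s w) u := by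
  have hr := glu_res_memLp S φ hu.1.continuous (cmb ψ z₀ 0) R ε
  have h1 := glu_int ((glu_Ts_memLp S fd hm (ψ := ψ) hsub hR hv hv2).1.mono_measure
    (Measure.restrict_le_self (s := Nb (cmb ψ z₀ 0) dm R ε))) hr
  have h2 := glu_int ((glu_Ts_memLp S fd hm (ψ := ψ) hsub hR hv' hv2').1.mono_measure
    (Measure.restrict_le_self (s := Nb (cmb ψ z₀ 0) dm R ε))) hr
  unfold gSl
  rw [← integral_sub h1 h2]
  refine integral_congr_ae (ae_of_all _ fun x => ?_)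
  show inner ℂ (Ts0 ψ v R x.1 x.2) (S.res φ u x.1 x.2) - inner ℂ (Ts0 ψ v' R x.1 x.2) (S.res φ u x.1 x.2) =
    inner ℂ (Ts0 ψ (fun η s w => v η s w - v' η s w) R x.1 x.2) (S.res φ u x.1 x.2)
  rw [← inner_sub_left]
  congr 1
  unfold Ts0
  rw [smul_sub]

lemma gSl_bd (S : Setup d F) (fd : FiniteDimensional ℂ F) (hm : MeaStmt S) {φ : Spl dh dm d} {ψ : Spz r ds dh}
    (hsub : S.IsSub φ) {z₀ : Cfg r} {j : EuclideanSpace ℝ (Fin dm) → ℝ} {ε ρ δ c Cw : ℝ} (D : GluD S φ ψ z₀ j ε ρ δ c Cw)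
    {R : ℝ} (hR : 0 < R) {v : Cfg r → Cfg ds → Wsp dm → F}
    (hv : StronglyMeasurable (fun q : Cfg r × Cfg ds × Wsp dm => v q.1 q.2.1 q.2.2))
    (hv2 : MemLp (fun q : Cfg r × Cfg ds × Wsp dm => v q.1 q.2.1 q.2.2) 2 (volume.prod (volume.prod volume)))
    {u : Cfg d → F} (hu : Setup.Tst u) (hG : ∀ C x, S.G C u x = 0) :
    ‖gSl S φ ψ z₀ ε R v u‖ₑ ≤
      eLpNorm (fun q : Cfg r × Cfg ds × Wsp dm => v q.1 q.2.1 q.2.2) 2 (volume.prod (volume.prod volume)) *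
        (ENNReal.ofReal (Real.sqrt c)⁻¹ * eLpNorm u 2 volume) := by
  obtain ⟨h1, h2⟩ := glu_Ts_memLp S fd hm (ψ := ψ) hsub hR hv hv2
  refine le_trans (glu_cs (h1.1.mono_measure Measure.restrict_le_self)
    (glu_res_cont S φ hu.1.continuous).aestronglyMeasurable) ?_
  refine mul_le_mul' ?_ (glu_res_le S φ (cmb ψ z₀ 0) R ε ρ c D.c_pos hu (D.nrm R hR u hu hG))
  rw [← h2]
  exact eLpNorm_mono_measure _ Measure.restrict_le_self

/-! ### cutoffs in `X` -/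

/-- continuous cutoff -/
noncomputable def gxi (k : ℕ) (X : Cfg dm) : ℝ := max 0 (min 1 ((k : ℝ) + 1 - ‖X‖))

lemma gxi_cont (k : ℕ) : Continuous (gxi k : Cfg dm → ℝ) :=
  continuous_const.max (continuous_const.min (continuous_const.sub continuous_norm))

lemma gxi_nn (k : ℕ) (X : Cfg dm) : 0 ≤ gxi k X := le_max_left _ _

lemma gxi_le (k : ℕ) (X : Cfg dm) : gxi k X ≤ 1 := max_le zero_le_one (min_le_left _ _)

lemma gxi_zero {k : ℕ} {X : Cfg dm} (h : gxi k X ≠ 0) : ‖X‖ ≤ k + 1 := by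
  by_contra hX
  refine h (max_eq_left ?_)
  exact (min_le_right _ _).trans (by linarith [not_le.1 hX])

lemma gxi_lim (X : Cfg dm) : Tendsto (fun k => gxi k X) atTop (𝓝 1) := by
  obtain ⟨k₀, hk₀⟩ := exists_nat_ge ‖X‖
  refine tendsto_const_nhds.congr' ?_
  filter_upwards [eventually_ge_atTop k₀] with k hk
  have : (k₀ : ℝ) ≤ k := by exact_mod_cast hk
  unfold gxi
  rw [min_eq_left (by linarith), max_eq_right zero_le_one]

variable {S : Setup d F} {φ : Spl dh dm d} {ψ : Spz r ds dh} {z₀ : Cfg r} {δ : ℝ} {Om : Cfg r → Matrix (Fin dm) (Fin dm) ℝ}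

/-- domination by the full profile -/
lemma glu_vG_dom [CompleteSpace F] (hg : GauStmt) (h : GOm S φ ψ z₀ δ Om) {a : Cfg r → Cfg ds → F}
    (hsup : ∀ η s, a η s ≠ 0 → ‖η - z₀‖ ≤ δ) (ξ : Cfg dm → ℝ) (h0 : ∀ X, 0 ≤ ξ X) (h1 : ∀ X, ξ X ≤ 1)
    (η : Cfg r) (s : Cfg ds) (w : Wsp dm) :
    ‖Vb S φ ψ (fun q => ((ξ q.2.2 : ℝ) : ℂ) • bG S.κ Om a q) η s w‖ ≤ ‖vG S φ ψ Om a η s w‖ := by
  by_cases hz : a η s = 0
  · have e1 : ∀ X : Cfg dm, bG S.κ Om a (η, s, X) = 0 := fun X => by rw [glu_bG]; simp [hz]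
    simp only [Vb, e1, smul_zero, integral_zero, norm_zero]
    exact norm_nonneg _
  · obtain ⟨g1, g2⟩ := h.frz η (hsup _ _ hz)
    obtain ⟨-, -, -, -, -, h3⟩ := hg dm S.κ (Dz S φ ψ η) (Om η) S.κ_pos g1 g2
    obtain ⟨h5, h4⟩ := h3 w
    have hN : 0 ≤ Nf S.κ (Om η) := Real.sqrt_nonneg _
    have e1 : ‖∫ a' : EuclideanSpace ℝ (Fin dm), ((ξ (xi (Dz S φ ψ η) w a') : ℝ) : ℂ) •
        bG S.κ Om a (η, s, xi (Dz S φ ψ η) w a')‖ ≤
        ∫ a' : EuclideanSpace ℝ (Fin dm), Nf S.κ (Om η) * Real.exp (-(1 / 2) * qX (Om η) (xi (Dz S φ ψ η) w a')) * ‖a η s‖ := by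
      refine norm_integral_le_of_norm_le ((h5.const_mul _).mul_const _) (ae_of_all _ fun a' => ?_)
      rw [glu_bG, norm_smul, norm_smul, Complex.norm_real, Complex.norm_real, Real.norm_eq_abs, Real.norm_eq_abs,
        abs_of_nonneg (h0 _), abs_of_nonneg (gTh_nn _ _ _)]
      refine mul_le_of_le_one_left (mul_nonneg (gTh_nn _ _ _) (norm_nonneg _)) (h1 _)
    rw [integral_mul_const, integral_const_mul] at e1
    have e2 : ‖vG S φ ψ Om a η s w‖ = Real.sqrt |(Dz S φ ψ η 8).det| *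
        ((Nf S.κ (Om η) * ∫ a' : EuclideanSpace ℝ (Fin dm), Real.exp (-(1 / 2) * qX (Om η) (xi (Dz S φ ψ η) w a'))) * ‖a η s‖) := by
      rw [vG, norm_smul, Complex.norm_real, ← h4, Real.norm_eq_abs, abs_of_nonneg, mul_assoc]
      exact mul_nonneg (Real.sqrt_nonneg _) (mul_nonneg hN (integral_nonneg fun _ => (Real.exp_pos _).le))
    rw [e2]
    unfold Vb
    rw [norm_smul, Complex.norm_real, Real.norm_eq_abs, abs_of_nonneg (Real.sqrt_nonneg _)]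
    exact mul_le_mul_of_nonneg_left e1 (Real.sqrt_nonneg _)

lemma glu_xi_cont (D : Fin 9 → Matrix (Fin dm) (Fin dm) ℝ) (w : Wsp dm) :
    Continuous fun a : EuclideanSpace ℝ (Fin dm) => xi D w a := by
  unfold xi
  refine (PiLp.continuous_toLp 2 _).comp (continuous_pi fun p => ?_)
  refine continuous_const.sub (continuous_finset_sum _ fun C _ => continuous_const.mul ?_)
  fun_prop

lemma glu_vG_lim [CompleteSpace F] (hg : GauStmt) (h : GOm S φ ψ z₀ δ Om) {a : Cfg r → Cfg ds → F}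
    (hsup : ∀ η s, a η s ≠ 0 → ‖η - z₀‖ ≤ δ) (η : Cfg r) (s : Cfg ds) (w : Wsp dm) :
    Tendsto (fun k : ℕ => Vb S φ ψ (fun q => ((gxi k q.2.2 : ℝ) : ℂ) • bG S.κ Om a q) η s w) atTop
      (𝓝 (vG S φ ψ Om a η s w)) := by
  rw [glu_vG hg h hsup]
  by_cases hz : a η s = 0
  · have e1 : ∀ X : Cfg dm, bG S.κ Om a (η, s, X) = 0 := fun X => by rw [glu_bG]; simp [hz]
    simp only [Vb, e1, smul_zero, integral_zero]
    exact tendsto_const_nhds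
  · obtain ⟨g1, g2⟩ := h.frz η (hsup _ _ hz)
    obtain ⟨-, -, -, -, -, h3⟩ := hg dm S.κ (Dz S φ ψ η) (Om η) S.κ_pos g1 g2
    obtain ⟨h5, h4⟩ := h3 w
    have hq : Continuous fun X : Cfg dm => qX (Om η) X := by
      unfold qX
      refine continuous_finset_sum _ fun i _ => continuous_finset_sum _ fun B _ => continuous_finset_sum _ fun C _ => ?_
      fun_prop
    have hbc : Continuous fun X : Cfg dm => bG S.κ Om a (η, s, X) := by
      have e0 : Continuous fun X : Cfg dm => ((Nf S.κ (Om η) * Real.exp (-(1 / 2) * qX (Om η) X) : ℝ) : ℂ) :=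
        Complex.continuous_ofReal.comp (continuous_const.mul (Real.continuous_exp.comp (continuous_const.mul hq)))
      exact e0.smul (continuous_const (y := a η s))
    unfold Vb
    refine Tendsto.const_smul ?_ _
    refine tendsto_integral_of_dominated_convergence
      (fun a' => Nf S.κ (Om η) * Real.exp (-(1 / 2) * qX (Om η) (xi (Dz S φ ψ η) w a')) * ‖a η s‖)
      (fun k => ?_) ((h5.const_mul _).mul_const _) (fun k => ae_of_all _ fun a' => ?_) (ae_of_all _ fun a' => ?_)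
    · exact ((Complex.continuous_ofReal.comp ((gxi_cont k).comp (glu_xi_cont _ w))).smul
        (hbc.comp (glu_xi_cont _ w))).aestronglyMeasurable
    · show ‖((gxi k (xi (Dz S φ ψ η) w a') : ℝ) : ℂ) • bG S.κ Om a (η, s, xi (Dz S φ ψ η) w a')‖ ≤ _
      rw [glu_bG, norm_smul, norm_smul, Complex.norm_real, Complex.norm_real, Real.norm_eq_abs, Real.norm_eq_abs,
        abs_of_nonneg (gxi_nn _ _), abs_of_nonneg (gTh_nn _ _ _)]
      refine mul_le_of_le_one_left (mul_nonneg (gTh_nn _ _ _) (norm_nonneg _)) (gxi_le _ _)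
    · have e1 := (Complex.continuous_ofReal.tendsto (1 : ℝ)).comp (gxi_lim (xi (Dz S φ ψ η) w a'))
      have e2 := e1.smul_const (bG S.κ Om a (η, s, xi (Dz S φ ψ η) w a'))
      simpa using e2

lemma glu_vG_meas [CompleteSpace F] (hg : GauStmt) (fd : FiniteDimensional ℂ F) (hm : MeaStmt S) (hsb : S.IsSub φ)
    (h : GOm S φ ψ z₀ δ Om) {a : Cfg r → Cfg ds → F}
    (ha : StronglyMeasurable (fun q : Cfg r × Cfg ds => a q.1 q.2)) (hsup : ∀ η s, a η s ≠ 0 → ‖η - z₀‖ ≤ δ) :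
    StronglyMeasurable (fun q : Cfg r × Cfg ds × Wsp dm => vG S φ ψ Om a q.1 q.2.1 q.2.2) := by
  have h1 := ((hm fd dh dm r ds φ ψ hsb).2.1 1 _ (glu_bG_meas h ha hsup)).2
  have h2 : (fun q : Cfg r × Cfg ds × Wsp dm => vG S φ ψ Om a q.1 q.2.1 q.2.2) =
      fun q : Cfg r × Cfg ds × Wsp dm => Vb S φ ψ (bG S.κ Om a) q.1 q.2.1 q.2.2 := by
    funext q
    exact glu_vG hg h hsup _ _ _
  rw [h2]
  exact h1

/-- `|vG a| ≤ |a|` -/
lemma glu_vG_norm [CompleteSpace F] (hg : GauStmt) (fd : FiniteDimensional ℂ F) (hm : MeaStmt S) (hsb : S.IsSub φ)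
    (h : GOm S φ ψ z₀ δ Om) {a : Cfg r → Cfg ds → F}
    (ha : StronglyMeasurable (fun q : Cfg r × Cfg ds => a q.1 q.2)) (hsup : ∀ η s, a η s ≠ 0 → ‖η - z₀‖ ≤ δ) :
    eLpNorm (fun q : Cfg r × Cfg ds × Wsp dm => vG S φ ψ Om a q.1 q.2.1 q.2.2) 2 (volume.prod (volume.prod volume)) ≤
      eLpNorm (fun q : Cfg r × Cfg ds => a q.1 q.2) 2 (volume.prod volume) := by
  have hv := glu_vG_meas hg fd hm hsb h ha hsup
  have hm1 : Measurable fun q : Cfg r × Cfg ds × Wsp dm => ‖vG S φ ψ Om a q.1 q.2.1 q.2.2‖ₑ ^ 2 := hv.enorm.pow_const 2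
  have hm2 : Measurable fun q : Cfg r × Cfg ds => ‖a q.1 q.2‖ₑ ^ 2 := ha.enorm.pow_const 2
  have key := glu_tri (μ := (volume : Measure (Cfg r))) (ν := (volume : Measure (Cfg ds)))
    (σ := (volume : Measure (Wsp dm))) hm1 hm2 (fun η s => ?_)
  · refine glu_le_of_sq (key.trans (le_of_eq (glu_sq _)))
  · show ∫⁻ w : Wsp dm, ‖vG S φ ψ Om a η s w‖ₑ ^ 2 ≤ ‖a η s‖ₑ ^ 2
    by_cases hz : a η s = 0
    · simp [vG, hz]
    · obtain ⟨g1, g2⟩ := h.frz η (hsup _ _ hz)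
      obtain ⟨-, -, -, h3, h4, -⟩ := hg dm S.κ (Dz S φ ψ η) (Om η) S.κ_pos g1 g2
      set N := ∫ w', gR (Dz S φ ψ η) (Om η) 1 w' ^ 2 with hN
      have e1 : ∀ w : Wsp dm, ‖vG S φ ψ Om a η s w‖ₑ ^ 2 =
          ENNReal.ofReal (N⁻¹ * gR (Dz S φ ψ η) (Om η) 1 w ^ 2) * ‖a η s‖ₑ ^ 2 := by
        intro w
        rw [vG, enorm_smul, mul_pow, ← ofReal_norm_eq_enorm, Complex.norm_real, ← ENNReal.ofReal_pow (norm_nonneg _),
          Real.norm_eq_abs, sq_abs, div_pow, Real.sq_sqrt h3.le, div_eq_inv_mul]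
      simp only [e1]
      rw [lintegral_mul_const' _ _ (by simp), ← ofReal_integral_eq_lintegral_ofReal (h4.const_mul _)
        (ae_of_all _ fun w => mul_nonneg (inv_nonneg.2 h3.le) (sq_nonneg _)), integral_const_mul, ← hN,
        inv_mul_cancel₀ h3.ne', ENNReal.ofReal_one, one_mul]

end Vale.Agent.P353.Z.AN
end

section

/-! # P353, all `N`, block GL: the global functional and the slice functional have the same limit -/

set_option linter.all false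

open MeasureTheory Filter Topology
open scoped ContDiff ENNReal

namespace Vale.Agent.P353.Z.AN

variable {d dh dm r ds : ℕ} {F : Type*} [NormedAddCommGroup F] [InnerProductSpace ℂ F]

/-- the moment bound -/
def GMo (κ : ℝ) (z₀ : Cfg r) (δ CM : ℝ) (Om : Cfg r → Matrix (Fin dm) (Fin dm) ℝ) : Prop :=
  ∀ η, ‖η - z₀‖ ≤ δ → ∫⁻ X : Cfg dm, ENNReal.ofReal ((1 + ‖X‖ ^ 2) ^ (dm + 1) *
      (Nf κ (Om η) * Real.exp (-(1 / 2) * qX (Om η) X)) ^ 2) ≤ ENNReal.ofReal CM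

/-- data of the sequences -/
structure GSq (S : Setup d F) (R : ℕ → ℝ) (u : ℕ → Cfg d → F) (U : ℝ≥0∞) : Prop where
  R_lim : Tendsto R atTop atTop
  tst : ∀ n, Setup.Tst (u n)
  gau : ∀ n C x, S.G C (u n) x = 0
  bd : ∀ n, eLpNorm (u n) 2 volume ≤ U
  U_top : U ≠ ⊤

/-- admissible sections -/
structure GSc (z₀ : Cfg r) (δ : ℝ) (a : Cfg r → Cfg ds → F) : Prop where
  meas : StronglyMeasurable (fun q : Cfg r × Cfg ds => a q.1 q.2)
  mem : MemLp (fun q : Cfg r × Cfg ds => a q.1 q.2) 2 (volume.prod volume)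
  sup : ∀ η s, a η s ≠ 0 → ‖η - z₀‖ ≤ δ

/-- admissible cutoffs -/
structure GCt (δ₀ : ℝ) (R : ℕ → ℝ) (χ : ℕ → Cfg r × Cfg ds × Cfg dm → ℝ) : Prop where
  meas : ∀ n, Measurable (χ n)
  nn : ∀ n q, 0 ≤ χ n q
  le : ∀ n q, χ n q ≤ 1
  lim : ∀ q, Tendsto (fun n => χ n q) atTop (𝓝 1)
  sup : ∀ n q, χ n q ≠ 0 → ‖q.2.1‖ ≤ δ₀ * R n ∧ ‖q.2.2‖ ≤ δ₀ * (R n * Real.sqrt (R n))

section one

variable {S : Setup d F} {φ : Spl dh dm d} {ψ : Spz r ds dh} {z₀ : Cfg r} {δ CM : ℝ} {Om : Cfg r → Matrix (Fin dm) (Fin dm) ℝ}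

lemma glu_norm_smul {t : ℝ} (h0 : 0 ≤ t) (v : F) : ‖((t : ℝ) : ℂ) • v‖ = t * ‖v‖ := by
  rw [norm_smul, Complex.norm_real, Real.norm_eq_abs, abs_of_nonneg h0]

lemma glu_bG_memW (h : GOm S φ ψ z₀ δ Om) (hCM : 0 < CM) (hmo : GMo S.κ z₀ δ CM Om) {a : Cfg r → Cfg ds → F}
    (ha : GSc z₀ δ a) : MemLp (bG S.κ Om a : Cfg r × Cfg ds × Cfg dm → F) 2 (wM r ds dm) :=
  ⟨(glu_bG_meas h ha.meas ha.sup).aestronglyMeasurable,
    lt_of_le_of_lt (glu_bG_norm h hCM hmo ha.meas ha.sup) (ENNReal.mul_lt_top ENNReal.ofReal_lt_top ha.mem.2)⟩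

lemma glu_cut_meas (h : GOm S φ ψ z₀ δ Om) {a : Cfg r → Cfg ds → F} (ha : GSc z₀ δ a)
    {χ : Cfg r × Cfg ds × Cfg dm → ℝ} (hχ : Measurable χ) :
    StronglyMeasurable (fun q : Cfg r × Cfg ds × Cfg dm => ((χ q : ℝ) : ℂ) • bG S.κ Om a q) :=
  (Complex.measurable_ofReal.comp hχ).stronglyMeasurable.smul (glu_bG_meas h ha.meas ha.sup)

lemma glu_cut_memW (h : GOm S φ ψ z₀ δ Om) (hCM : 0 < CM) (hmo : GMo S.κ z₀ δ CM Om) {a : Cfg r → Cfg ds → F}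
    (ha : GSc z₀ δ a) {χ : Cfg r × Cfg ds × Cfg dm → ℝ} (hχ : Measurable χ) (h0 : ∀ q, 0 ≤ χ q) (h1 : ∀ q, χ q ≤ 1) :
    MemLp (fun q : Cfg r × Cfg ds × Cfg dm => ((χ q : ℝ) : ℂ) • bG S.κ Om a q) 2 (wM r ds dm) ∧
    eLpNorm (fun q : Cfg r × Cfg ds × Cfg dm => ((χ q : ℝ) : ℂ) • bG S.κ Om a q) 2 (wM r ds dm) ≤
      eLpNorm (bG S.κ Om a : Cfg r × Cfg ds × Cfg dm → F) 2 (wM r ds dm) := by
  have e1 : eLpNorm (fun q : Cfg r × Cfg ds × Cfg dm => ((χ q : ℝ) : ℂ) • bG S.κ Om a q) 2 (wM r ds dm) ≤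
      eLpNorm (bG S.κ Om a : Cfg r × Cfg ds × Cfg dm → F) 2 (wM r ds dm) := by
    refine eLpNorm_mono fun q => ?_
    rw [glu_norm_smul (h0 q)]
    exact mul_le_of_le_one_left (norm_nonneg _) (h1 q)
  exact ⟨⟨(glu_cut_meas h ha hχ).aestronglyMeasurable, lt_of_le_of_lt e1 (glu_bG_memW h hCM hmo ha).2⟩, e1⟩

/-- the slice side of the cut profile -/
lemma glu_Vk [CompleteSpace F] (hg : GauStmt) (fd : FiniteDimensional ℂ F) (hm : MeaStmt S) (hsb : S.IsSub φ)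
    (h : GOm S φ ψ z₀ δ Om) {a : Cfg r → Cfg ds → F} (ha : GSc z₀ δ a) (k : ℕ) :
    StronglyMeasurable (fun q : Cfg r × Cfg ds × Wsp dm =>
      Vb S φ ψ (fun q => ((gxi k q.2.2 : ℝ) : ℂ) • bG S.κ Om a q) q.1 q.2.1 q.2.2) ∧
    MemLp (fun q : Cfg r × Cfg ds × Wsp dm =>
      Vb S φ ψ (fun q => ((gxi k q.2.2 : ℝ) : ℂ) • bG S.κ Om a q) q.1 q.2.1 q.2.2) 2 (volume.prod (volume.prod volume)) := by
  have hχ : Measurable fun q : Cfg r × Cfg ds × Cfg dm => gxi k q.2.2 :=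
    ((gxi_cont k).measurable).comp (measurable_snd.comp measurable_snd)
  have h1 := ((hm fd dh dm r ds φ ψ hsb).2.1 1 _ (glu_cut_meas h ha hχ)).2
  refine ⟨h1, h1.aestronglyMeasurable, ?_⟩
  refine lt_of_le_of_lt (eLpNorm_mono fun q => glu_vG_dom hg h ha.sup (gxi k) (gxi_nn k) (gxi_le k) q.1 q.2.1 q.2.2) ?_
  exact lt_of_le_of_lt (glu_vG_norm hg fd hm hsb h ha.meas ha.sup) ha.mem.2

lemma glu_vG_mem [CompleteSpace F] (hg : GauStmt) (fd : FiniteDimensional ℂ F) (hm : MeaStmt S) (hsb : S.IsSub φ)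
    (h : GOm S φ ψ z₀ δ Om) {a : Cfg r → Cfg ds → F} (ha : GSc z₀ δ a) :
    MemLp (fun q : Cfg r × Cfg ds × Wsp dm => vG S φ ψ Om a q.1 q.2.1 q.2.2) 2 (volume.prod (volume.prod volume)) :=
  ⟨(glu_vG_meas hg fd hm hsb h ha.meas ha.sup).aestronglyMeasurable,
    lt_of_le_of_lt (glu_vG_norm hg fd hm hsb h ha.meas ha.sup) ha.mem.2⟩

/-- the slice error tends to zero -/
lemma glu_e3 [CompleteSpace F] (hg : GauStmt) (fd : FiniteDimensional ℂ F) (hm : MeaStmt S) (hsb : S.IsSub φ)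
    (h : GOm S φ ψ z₀ δ Om) {a : Cfg r → Cfg ds → F} (ha : GSc z₀ δ a) :
    Tendsto (fun k : ℕ => eLpNorm (fun q : Cfg r × Cfg ds × Wsp dm => vG S φ ψ Om a q.1 q.2.1 q.2.2 -
      Vb S φ ψ (fun q => ((gxi k q.2.2 : ℝ) : ℂ) • bG S.κ Om a q) q.1 q.2.1 q.2.2) 2 (volume.prod (volume.prod volume)))
      atTop (𝓝 0) := by
  refine glu_dc (g := fun q : Cfg r × Cfg ds × Wsp dm => (2 : ℂ) • vG S φ ψ Om a q.1 q.2.1 q.2.2)
    (fun k => (glu_vG_meas hg fd hm hsb h ha.meas ha.sup).sub (glu_Vk hg fd hm hsb h ha k).1)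
    ((glu_vG_mem hg fd hm hsb h ha).const_smul 2) (fun k q => ?_) (fun q => ?_)
  · refine (norm_sub_le _ _).trans ?_
    have h1 := glu_vG_dom hg h ha.sup (gxi k) (gxi_nn k) (gxi_le k) q.1 q.2.1 q.2.2
    rw [norm_smul, Complex.norm_ofNat]
    linarith
  · have h1 := glu_vG_lim hg h ha.sup q.1 q.2.1 q.2.2
    have h2 := (tendsto_const_nhds (x := vG S φ ψ Om a q.1 q.2.1 q.2.2)).sub h1
    rwa [sub_self] at h2

/-- the errors on the global side -/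
lemma glu_e1 (h : GOm S φ ψ z₀ δ Om) (hCM : 0 < CM) (hmo : GMo S.κ z₀ δ CM Om) {a : Cfg r → Cfg ds → F}
    (ha : GSc z₀ δ a) {χ : ℕ → Cfg r × Cfg ds × Cfg dm → ℝ} (hχ : ∀ n, Measurable (χ n)) (h0 : ∀ n q, 0 ≤ χ n q)
    (h1 : ∀ n q, χ n q ≤ 1) (h2 : ∀ q, Tendsto (fun n => χ n q) atTop (𝓝 1)) :
    Tendsto (fun n => eLpNorm (fun q : Cfg r × Cfg ds × Cfg dm => ((1 - χ n q : ℝ) : ℂ) • bG S.κ Om a q) 2 (wM r ds dm))
      atTop (𝓝 0) := by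
  refine glu_dc (g := bG S.κ Om a) (fun n => glu_cut_meas h ha (measurable_const.sub (hχ n)))
    (glu_bG_memW h hCM hmo ha) (fun n q => ?_) (fun q => ?_)
  · rw [glu_norm_smul (sub_nonneg.2 (h1 n q))]
    exact mul_le_of_le_one_left (norm_nonneg _) (by linarith [h0 n q])
  · have e1 := (Complex.continuous_ofReal.tendsto (0 : ℝ)).comp (by
      have := (tendsto_const_nhds (x := (1 : ℝ))).sub (h2 q)
      rwa [sub_self] at this)
    have e2 := e1.smul_const (bG S.κ Om a q)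
    simpa using e2

end one

end Vale.Agent.P353.Z.AN
end

section

/-! # P353, all `N`, block GL: the global functional and the slice functional have the same limit -/

set_option linter.all false

open MeasureTheory Filter Topology
open scoped ContDiff ENNReal

namespace Vale.Agent.P353.Z.AN

variable {d dh dm r ds : ℕ} {F : Type*} [NormedAddCommGroup F] [InnerProductSpace ℂ F]

section one

variable {S : Setup d F} {φ : Spl dh dm d} {ψ : Spz r ds dh} {z₀ : Cfg r} {δ CM : ℝ} {Om : Cfg r → Matrix (Fin dm) (Fin dm) ℝ}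
  {j : EuclideanSpace ℝ (Fin dm) → ℝ} {ε ρ δ₁ c Cw : ℝ} {R : ℕ → ℝ} {u : ℕ → Cfg d → F} {U : ℝ≥0∞}

lemma glu_large (hδ : 0 < δ₁) (hR : Tendsto R atTop atTop) {b : Cfg r × Cfg ds × Cfg dm → F} (hbs : HasCompactSupport b) :
    ∀ᶠ n in atTop, 1 ≤ R n ∧ ∀ q, b q ≠ 0 → ‖q.2.1‖ ≤ δ₁ * R n ∧ ‖q.2.2‖ ≤ δ₁ * (R n * Real.sqrt (R n)) := by
  obtain ⟨M, hM⟩ := hbs.isCompact.isBounded.exists_norm_le
  filter_upwards [hR.eventually_ge_atTop 1, (hR.const_mul_atTop hδ).eventually_ge_atTop M] with n h1 h2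
  refine ⟨h1, fun q hq => ?_⟩
  have h3 : ‖q‖ ≤ M := hM q (subset_tsupport _ hq)
  have h4 : ‖q.2.1‖ ≤ M := ((norm_fst_le q.2).trans (norm_snd_le q)).trans h3
  have h5 : ‖q.2.2‖ ≤ M := ((norm_snd_le q.2).trans (norm_snd_le q)).trans h3
  have h6 : 1 ≤ Real.sqrt (R n) := Real.one_le_sqrt.2 h1
  refine ⟨h4.trans h2, h5.trans (h2.trans ?_)⟩
  refine mul_le_mul_of_nonneg_left ?_ hδ.le
  nlinarith

lemma glu_C0 (fd : FiniteDimensional ℂ F) (hm : MeaStmt S) (hsb : S.IsSub φ) (D : GluD S φ ψ z₀ j ε ρ δ₁ c Cw)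
    (Q : GSq S R u U) {b : Cfg r × Cfg ds × Cfg dm → F}
    (hcv : Tendsto (fun R : ℝ => ∫⁻ p in Nb (cmb ψ z₀ 0) dm R ε,
      ‖Zt S φ j ρ (Zb φ ψ b R) p - Ts0 ψ (Vb S φ ψ b) R p.1 p.2‖ₑ ^ 2 ∂(volume.prod volume)) atTop (𝓝 0))
    (hb : StronglyMeasurable b) (hbs : HasCompactSupport b) (hb1 : ∀ q, b q ≠ 0 → ‖q.1 - z₀‖ ≤ δ₁)
    (hbw : MemLp b 2 (wM r ds dm))
    (hv : StronglyMeasurable (fun q : Cfg r × Cfg ds × Wsp dm => Vb S φ ψ b q.1 q.2.1 q.2.2))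
    (hv2 : MemLp (fun q : Cfg r × Cfg ds × Wsp dm => Vb S φ ψ b q.1 q.2.1 q.2.2) 2 (volume.prod (volume.prod volume))) :
    Tendsto (fun n => gGl φ ψ (R n) b (u n) - gSl S φ ψ z₀ ε (R n) (Vb S φ ψ b) (u n)) atTop (𝓝 0) := by
  rw [tendsto_iff_edist_tendsto_0]
  have h1 := hcv.comp Q.R_lim
  have h2 := ((ENNReal.continuous_rpow_const (y := (1 / 2 : ℝ))).tendsto (0 : ℝ≥0∞)).comp h1
  rw [ENNReal.zero_rpow_of_pos (by norm_num)] at h2
  have h3 : Tendsto (fun n => (∫⁻ p in Nb (cmb ψ z₀ 0) dm (R n) ε,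
      ‖Zt S φ j ρ (Zb φ ψ b (R n)) p - Ts0 ψ (Vb S φ ψ b) (R n) p.1 p.2‖ₑ ^ 2 ∂(volume.prod volume)) ^ (1 / 2 : ℝ) *
      (ENNReal.ofReal (Real.sqrt c)⁻¹ * U)) atTop (𝓝 0) := by
    have := ENNReal.Tendsto.mul_const (b := ENNReal.ofReal (Real.sqrt c)⁻¹ * U) h2
      (Or.inr (ENNReal.mul_ne_top ENNReal.ofReal_ne_top Q.U_top))
    rw [zero_mul] at this
    exact this
  refine tendsto_of_tendsto_of_tendsto_of_le_of_le' tendsto_const_nhds h3 (Eventually.of_forall fun n => zero_le') ?_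
  filter_upwards [glu_large D.δ_pos Q.R_lim hbs] with n hn
  obtain ⟨hR, hs⟩ := hn
  have hR0 : 0 < R n := lt_of_lt_of_le one_pos hR
  have hZm := ((hm fd dh dm r ds φ ψ hsb).2.1 (R n) b hb).1
  have hZ2 : MemLp (Zb φ ψ b (R n)) 2 volume := glu_memLp φ ψ (R n) hR0 (hbw.mono_measure (glu_w_le r ds dm))
  have hsup := D.sup (R n) hR0 b (fun q hq => ⟨hb1 q hq, hs q hq⟩)
  have e1 : gGl φ ψ (R n) b (u n) = _ := D.pair (R n) hR0 (Zb φ ψ b (R n)) (u n) hZm hZ2 hsup (Q.tst n) (Q.gau n)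
  have hZt := (hm fd dh dm r ds φ ψ hsb).1 j ρ (Zb φ ψ b (R n)) D.j_cont hZm
  have w1 := D.wgt (R n) hR b hb
  rw [glu_w_sq hb] at w1
  have w2 : eLpNorm (Zt S φ j ρ (Zb φ ψ b (R n))) 2 ((volume.prod volume).restrict (Nb (cmb ψ z₀ 0) dm (R n) ε)) ≤
      ENNReal.ofReal (Real.sqrt Cw) * eLpNorm b 2 (wM r ds dm) := by
    refine glu_le_of_sq (le_trans w1 (le_of_eq ?_))
    rw [mul_pow, ← ENNReal.ofReal_pow (Real.sqrt_nonneg _), Real.sq_sqrt D.Cw_pos.le]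
  have hZtL : MemLp (Zt S φ j ρ (Zb φ ψ b (R n))) 2 ((volume.prod volume).restrict (Nb (cmb ψ z₀ 0) dm (R n) ε)) :=
    ⟨hZt.aestronglyMeasurable, lt_of_le_of_lt w2 (ENNReal.mul_lt_top ENNReal.ofReal_lt_top hbw.2)⟩
  have hTL := (glu_Ts_memLp S fd hm (ψ := ψ) hsb hR0 hv hv2).1.mono_measure
    (Measure.restrict_le_self (s := Nb (cmb ψ z₀ 0) dm (R n) ε))
  have hr := glu_res_memLp S φ (Q.tst n).1.continuous (cmb ψ z₀ 0) (R n) ε
  have e2 : gGl φ ψ (R n) b (u n) - gSl S φ ψ z₀ ε (R n) (Vb S φ ψ b) (u n) =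
      ∫ p in Nb (cmb ψ z₀ 0) dm (R n) ε, inner ℂ (Zt S φ j ρ (Zb φ ψ b (R n)) p - Ts0 ψ (Vb S φ ψ b) (R n) p.1 p.2)
        (S.res φ (u n) p.1 p.2) ∂(volume.prod volume) := by
    rw [e1]
    unfold gSl
    rw [← integral_sub (glu_int hZtL hr) (glu_int hTL hr)]
    refine integral_congr_ae (ae_of_all _ fun x => ?_)
    show inner ℂ (Zt S φ j ρ (Zb φ ψ b (R n)) x) (S.res φ (u n) x.1 x.2) -
      inner ℂ (Ts0 ψ (Vb S φ ψ b) (R n) x.1 x.2) (S.res φ (u n) x.1 x.2) = _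
    rw [← inner_sub_left]
  rw [e2, edist_zero_right]
  refine le_trans (glu_cs (hZtL.1.sub hTL.1) hr.1) ?_
  refine mul_le_mul' ?_ ((glu_res_le S φ (cmb ψ z₀ 0) (R n) ε ρ c D.c_pos (Q.tst n)
    (D.nrm (R n) hR0 (u n) (Q.tst n) (Q.gau n))).trans (mul_le_mul' le_rfl (Q.bd n)))
  refine glu_le_of_sq (le_of_eq ?_)
  rw [← ENNReal.rpow_natCast, ← ENNReal.rpow_mul]
  norm_num

lemma glu_bG_cont (h : GOm S φ ψ z₀ δ Om) {a : Cfg r → Cfg ds → F} (hac : Continuous (fun q : Cfg r × Cfg ds => a q.1 q.2))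
    (hts : tsupport (fun q : Cfg r × Cfg ds => a q.1 q.2) ⊆ {q | ‖q.1 - z₀‖ < δ}) :
    Continuous (bG S.κ Om a : Cfg r × Cfg ds × Cfg dm → F) := by
  have hp : Continuous fun q : Cfg r × Cfg ds × Cfg dm => (q.1, q.2.1) :=
    continuous_fst.prodMk (continuous_fst.comp continuous_snd)
  have ho : IsOpen {q : Cfg r × Cfg ds × Cfg dm | ‖q.1 - z₀‖ < δ} :=
    isOpen_lt (continuous_fst.sub continuous_const).norm continuous_const
  have h1 : ContinuousOn (bG S.κ Om a : Cfg r × Cfg ds × Cfg dm → F) {q : Cfg r × Cfg ds × Cfg dm | ‖q.1 - z₀‖ < δ} := by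
    have e1 : ContinuousOn (gTh S.κ Om : Cfg r × Cfg ds × Cfg dm → ℝ) {q : Cfg r × Cfg ds × Cfg dm | ‖q.1 - z₀‖ < δ} :=
      (gTh_contOn h).mono fun q (hq : ‖q.1 - z₀‖ < δ) => hq.le
    have e2 : ContinuousOn (fun q : Cfg r × Cfg ds × Cfg dm => ((gTh S.κ Om q : ℝ) : ℂ))
        {q : Cfg r × Cfg ds × Cfg dm | ‖q.1 - z₀‖ < δ} := Complex.continuous_ofReal.comp_continuousOn e1
    have e3 : ContinuousOn (fun q : Cfg r × Cfg ds × Cfg dm => a q.1 q.2.1)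
        {q : Cfg r × Cfg ds × Cfg dm | ‖q.1 - z₀‖ < δ} := (hac.comp hp).continuousOn
    have e4 : (bG S.κ Om a : Cfg r × Cfg ds × Cfg dm → F) = fun q => ((gTh S.κ Om q : ℝ) : ℂ) • a q.1 q.2.1 := by
      funext q
      exact glu_bG _ _ _ _
    rw [e4]
    exact e2.smul e3
  refine h1.continuous_of_tsupport_subset ho ?_
  have hcl : IsClosed ((fun q : Cfg r × Cfg ds × Cfg dm => (q.1, q.2.1)) ⁻¹' (tsupport (fun q : Cfg r × Cfg ds => a q.1 q.2))) :=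
    (isClosed_tsupport _).preimage hp
  have h3 : Function.support (bG S.κ Om a : Cfg r × Cfg ds × Cfg dm → F) ⊆
      (fun q : Cfg r × Cfg ds × Cfg dm => (q.1, q.2.1)) ⁻¹' (tsupport (fun q : Cfg r × Cfg ds => a q.1 q.2)) := by
    intro q hq
    have h4 : (q.1, q.2.1) ∈ Function.support (fun q : Cfg r × Cfg ds => a q.1 q.2) := by
      rw [Function.mem_support] at hq ⊢
      intro h0
      refine hq ?_
      rw [glu_bG]
      show ((gTh S.κ Om q : ℝ) : ℂ) • a q.1 q.2.1 = 0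
      have h0' : a q.1 q.2.1 = 0 := h0
      rw [h0', smul_zero]
    exact subset_tsupport _ h4
  have h2 : tsupport (bG S.κ Om a : Cfg r × Cfg ds × Cfg dm → F) ⊆
      (fun q : Cfg r × Cfg ds × Cfg dm => (q.1, q.2.1)) ⁻¹' (tsupport (fun q : Cfg r × Cfg ds => a q.1 q.2)) :=
    closure_minimal h3 hcl
  intro q hq
  have h5 : (q.1, q.2.1) ∈ tsupport (fun q : Cfg r × Cfg ds => a q.1 q.2) := h2 hq
  have h6 : (q.1, q.2.1) ∈ {q : Cfg r × Cfg ds | ‖q.1 - z₀‖ < δ} := hts h5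
  exact h6

lemma glu_bk_supp {a : Cfg r → Cfg ds → F} (has : HasCompactSupport (fun q : Cfg r × Cfg ds => a q.1 q.2)) (κ : ℝ) (k : ℕ) :
    HasCompactSupport (fun q : Cfg r × Cfg ds × Cfg dm => ((gxi k q.2.2 : ℝ) : ℂ) • bG κ Om a q) := by
  have hi : Continuous fun p : (Cfg r × Cfg ds) × Cfg dm => (p.1.1, p.1.2, p.2) :=
    (continuous_fst.comp continuous_fst).prodMk ((continuous_snd.comp continuous_fst).prodMk continuous_snd)
  have hK := ((has.isCompact).prod (isCompact_closedBall (0 : Cfg dm) ((k : ℝ) + 1))).image hi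
  refine HasCompactSupport.intro hK fun q hq => ?_
  by_contra hne
  refine hq ⟨((q.1, q.2.1), q.2.2), ⟨subset_tsupport _ ?_, ?_⟩, rfl⟩
  · show a q.1 q.2.1 ≠ 0
    intro h0
    refine hne ?_
    rw [glu_bG, h0, smul_zero, smul_zero]
  · rw [mem_closedBall_zero_iff]
    refine gxi_zero (k := k) ?_
    intro h0
    refine hne ?_
    rw [h0, Complex.ofReal_zero, zero_smul]

lemma glu_C1 [CompleteSpace F] (fd : FiniteDimensional ℂ F) (hg : GauStmt) (hm : MeaStmt S) (hsb : S.IsSub φ)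
    (D : GluD S φ ψ z₀ j ε ρ δ₁ c Cw)
    (hcv : ∀ b : Cfg r × Cfg ds × Cfg dm → F, Continuous b → HasCompactSupport b → (∀ q, b q ≠ 0 → ‖q.1 - z₀‖ ≤ ε / 2) →
      Tendsto (fun R : ℝ => ∫⁻ p in Nb (cmb ψ z₀ 0) dm R ε,
      ‖Zt S φ j ρ (Zb φ ψ b R) p - Ts0 ψ (Vb S φ ψ b) R p.1 p.2‖ₑ ^ 2 ∂(volume.prod volume)) atTop (𝓝 0))
    (Q : GSq S R u U) (h : GOm S φ ψ z₀ δ Om) (hCM : 0 < CM) (hmo : GMo S.κ z₀ δ CM Om) (hδ1 : δ ≤ δ₁) (hδ2 : δ ≤ ε / 2)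
    {a : Cfg r → Cfg ds → F} (ha : GSc z₀ δ a) (hac : Continuous (fun q : Cfg r × Cfg ds => a q.1 q.2))
    (has : HasCompactSupport (fun q : Cfg r × Cfg ds => a q.1 q.2))
    (hts : tsupport (fun q : Cfg r × Cfg ds => a q.1 q.2) ⊆ {q | ‖q.1 - z₀‖ < δ})
    {δ₀ : ℝ} (hδ0 : δ₀ ≤ δ₁) {χ : ℕ → Cfg r × Cfg ds × Cfg dm → ℝ} (X : GCt δ₀ R χ) :
    Tendsto (fun n => gGl φ ψ (R n) (fun q => ((χ n q : ℝ) : ℂ) • bG S.κ Om a q) (u n) -
      gSl S φ ψ z₀ ε (R n) (vG S φ ψ Om a) (u n)) atTop (𝓝 0) := by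
  refine glu_apx fun e he => ?_
  set K₁ : ℝ≥0∞ := ENNReal.ofReal (Real.sqrt Cw * (Real.sqrt c)⁻¹) with hK₁
  set K₂ : ℝ≥0∞ := ENNReal.ofReal (Real.sqrt c)⁻¹ with hK₂
  have hξm : ∀ k : ℕ, Measurable fun q : Cfg r × Cfg ds × Cfg dm => gxi k q.2.2 := fun k =>
    ((gxi_cont k).measurable).comp (measurable_snd.comp measurable_snd)
  have t1 := glu_e1 h hCM hmo ha (χ := fun k q => gxi k q.2.2) hξm (fun k q => gxi_nn k _) (fun k q => gxi_le k _)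
    (fun q => gxi_lim _)
  have t3 := glu_e3 hg fd hm hsb h ha
  have t2 := glu_e1 h hCM hmo ha X.meas X.nn X.le X.lim
  have hE : Tendsto (fun k : ℕ => K₁ * eLpNorm (fun q : Cfg r × Cfg ds × Cfg dm => ((1 - gxi k q.2.2 : ℝ) : ℂ) • bG S.κ Om a q) 2
      (wM r ds dm) * U + eLpNorm (fun q : Cfg r × Cfg ds × Wsp dm => vG S φ ψ Om a q.1 q.2.1 q.2.2 -
      Vb S φ ψ (fun q => ((gxi k q.2.2 : ℝ) : ℂ) • bG S.κ Om a q) q.1 q.2.1 q.2.2) 2 (volume.prod (volume.prod volume)) *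
      (K₂ * U)) atTop (𝓝 0) := by
    have a1 := ENNReal.Tendsto.mul_const (b := U) (ENNReal.Tendsto.const_mul (a := K₁) t1 (Or.inr ENNReal.ofReal_ne_top))
      (Or.inr Q.U_top)
    have a2 := ENNReal.Tendsto.mul_const (b := K₂ * U) t3 (Or.inr (ENNReal.mul_ne_top ENNReal.ofReal_ne_top Q.U_top))
    have a3 := a1.add a2
    simpa using a3
  have hF : Tendsto (fun n : ℕ => K₁ * eLpNorm (fun q : Cfg r × Cfg ds × Cfg dm => ((1 - χ n q : ℝ) : ℂ) • bG S.κ Om a q) 2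
      (wM r ds dm) * U) atTop (𝓝 0) := by
    have a1 := ENNReal.Tendsto.mul_const (b := U) (ENNReal.Tendsto.const_mul (a := K₁) t2 (Or.inr ENNReal.ofReal_ne_top))
      (Or.inr Q.U_top)
    simpa using a1
  obtain ⟨k, hk⟩ := ((ENNReal.tendsto_nhds_zero.1 hE) (e / 2) (ENNReal.half_pos he.ne')).exists
  set b : Cfg r × Cfg ds × Cfg dm → F := fun q => ((gxi k q.2.2 : ℝ) : ℂ) • bG S.κ Om a q with hb
  have hbne : ∀ q, b q ≠ 0 → ‖q.1 - z₀‖ ≤ δ := by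
    intro q hq
    refine ha.sup q.1 q.2.1 fun h0 => hq ?_
    rw [hb]
    show ((gxi k q.2.2 : ℝ) : ℂ) • bG S.κ Om a q = 0
    rw [glu_bG, h0, smul_zero, smul_zero]
  have hbc : Continuous b :=
    (Complex.continuous_ofReal.comp ((gxi_cont k).comp (continuous_snd.comp continuous_snd))).smul (glu_bG_cont h hac hts)
  have hbs : HasCompactSupport b := glu_bk_supp has S.κ k
  have hbm : StronglyMeasurable b := glu_cut_meas h ha (hξm k)
  have hbw : MemLp b 2 (wM r ds dm) := (glu_cut_memW h hCM hmo ha (hξm k) (fun q => gxi_nn k _) (fun q => gxi_le k _)).1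
  obtain ⟨hv, hv2⟩ := glu_Vk hg fd hm hsb h ha k
  refine ⟨_, glu_C0 fd hm hsb D Q (hcv b hbc hbs fun q hq => (hbne q hq).trans hδ2) hbm hbs
    (fun q hq => (hbne q hq).trans hδ1) hbw hv hv2, ?_⟩
  filter_upwards [glu_large D.δ_pos Q.R_lim hbs, (ENNReal.tendsto_nhds_zero.1 hF) (e / 2) (ENNReal.half_pos he.ne')]
    with n hn hFn
  obtain ⟨hR, hs⟩ := hn
  have hR0 : 0 < R n := lt_of_lt_of_le one_pos hR
  have hcm := glu_cut_memW h hCM hmo ha (X.meas n) (X.nn n) (X.le n)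
  have e0 : (gGl φ ψ (R n) (fun q => ((χ n q : ℝ) : ℂ) • bG S.κ Om a q) (u n) -
      gSl S φ ψ z₀ ε (R n) (vG S φ ψ Om a) (u n)) - (gGl φ ψ (R n) b (u n) - gSl S φ ψ z₀ ε (R n) (Vb S φ ψ b) (u n)) =
      gGl φ ψ (R n) (fun q => ((χ n q : ℝ) : ℂ) • bG S.κ Om a q - b q) (u n) -
      gSl S φ ψ z₀ ε (R n) (fun η s w => vG S φ ψ Om a η s w - Vb S φ ψ b η s w) (u n) := by
    rw [← gGl_sub φ ψ hR0 hcm.1 hbw (Q.tst n), ← gSl_sub S fd hm hsb z₀ ε hR0 (glu_vG_meas hg fd hm hsb h ha.meas ha.sup)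
      (glu_vG_mem hg fd hm hsb h ha) hv hv2 (Q.tst n)]
    ring
  rw [e0]
  refine (enorm_sub_le).trans ?_
  have hsup : ∀ q, ((χ n q : ℝ) : ℂ) • bG S.κ Om a q - b q ≠ 0 →
      ‖q.1 - z₀‖ ≤ δ₁ ∧ ‖q.2.1‖ ≤ δ₁ * R n ∧ ‖q.2.2‖ ≤ δ₁ * (R n * Real.sqrt (R n)) := by
    intro q hq
    have ha0 : a q.1 q.2.1 ≠ 0 := by
      intro h0
      refine hq ?_
      rw [hb]
      show ((χ n q : ℝ) : ℂ) • bG S.κ Om a q - ((gxi k q.2.2 : ℝ) : ℂ) • bG S.κ Om a q = 0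
      rw [glu_bG, h0, smul_zero, smul_zero, smul_zero, sub_zero]
    refine ⟨(ha.sup _ _ ha0).trans hδ1, ?_⟩
    by_cases hb0 : b q = 0
    · have hχ0 : χ n q ≠ 0 := by
        intro h0
        refine hq ?_
        rw [h0, hb0, Complex.ofReal_zero, zero_smul, sub_zero]
      obtain ⟨q1, q2⟩ := X.sup n q hχ0
      exact ⟨q1.trans (mul_le_mul_of_nonneg_right hδ0 hR0.le),
        q2.trans (mul_le_mul_of_nonneg_right hδ0 (mul_nonneg hR0.le (Real.sqrt_nonneg _)))⟩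
    · exact hs q hb0
  have b1 := glu_bd S fd hm hsb D (R n) hR (fun q => ((χ n q : ℝ) : ℂ) • bG S.κ Om a q - b q)
    ((glu_cut_meas h ha (X.meas n)).sub hbm) hsup (hcm.1.sub hbw) (u n) (Q.tst n) (Q.gau n)
  have b2 := gSl_bd S fd hm hsb D hR0 (v := fun η s w => vG S φ ψ Om a η s w - Vb S φ ψ b η s w)
    ((glu_vG_meas hg fd hm hsb h ha.meas ha.sup).sub hv) ((glu_vG_mem hg fd hm hsb h ha).sub hv2) (Q.tst n) (Q.gau n)
  have b3 : eLpNorm (fun q : Cfg r × Cfg ds × Cfg dm => ((χ n q : ℝ) : ℂ) • bG S.κ Om a q - b q) 2 (wM r ds dm) ≤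
      eLpNorm (fun q : Cfg r × Cfg ds × Cfg dm => ((1 - χ n q : ℝ) : ℂ) • bG S.κ Om a q) 2 (wM r ds dm) +
      eLpNorm (fun q : Cfg r × Cfg ds × Cfg dm => ((1 - gxi k q.2.2 : ℝ) : ℂ) • bG S.κ Om a q) 2 (wM r ds dm) := by
    have e1 : (fun q : Cfg r × Cfg ds × Cfg dm => ((χ n q : ℝ) : ℂ) • bG S.κ Om a q - b q) =
        (fun q : Cfg r × Cfg ds × Cfg dm => ((1 - gxi k q.2.2 : ℝ) : ℂ) • bG S.κ Om a q) -
        (fun q : Cfg r × Cfg ds × Cfg dm => ((1 - χ n q : ℝ) : ℂ) • bG S.κ Om a q) := by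
      funext q
      show ((χ n q : ℝ) : ℂ) • bG S.κ Om a q - ((gxi k q.2.2 : ℝ) : ℂ) • bG S.κ Om a q =
        ((1 - gxi k q.2.2 : ℝ) : ℂ) • bG S.κ Om a q - ((1 - χ n q : ℝ) : ℂ) • bG S.κ Om a q
      rw [← sub_smul, ← sub_smul]
      congr 1
      push_cast
      ring
    rw [e1, add_comm]
    exact eLpNorm_sub_le (glu_cut_meas h ha (measurable_const.sub (hξm k))).aestronglyMeasurable
      (glu_cut_meas h ha (measurable_const.sub (X.meas n))).aestronglyMeasurable one_le_two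
  have hUn := Q.bd n
  have b4 : ‖gGl φ ψ (R n) (fun q => ((χ n q : ℝ) : ℂ) • bG S.κ Om a q - b q) (u n)‖ₑ ≤
      K₁ * eLpNorm (fun q : Cfg r × Cfg ds × Cfg dm => ((1 - χ n q : ℝ) : ℂ) • bG S.κ Om a q) 2 (wM r ds dm) * U +
      K₁ * eLpNorm (fun q : Cfg r × Cfg ds × Cfg dm => ((1 - gxi k q.2.2 : ℝ) : ℂ) • bG S.κ Om a q) 2 (wM r ds dm) * U := by
    refine le_trans b1 ?_
    rw [← add_mul, ← mul_add]
    gcongr
  have b5 : ‖gSl S φ ψ z₀ ε (R n) (fun η s w => vG S φ ψ Om a η s w - Vb S φ ψ b η s w) (u n)‖ₑ ≤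
      eLpNorm (fun q : Cfg r × Cfg ds × Wsp dm => vG S φ ψ Om a q.1 q.2.1 q.2.2 -
      Vb S φ ψ b q.1 q.2.1 q.2.2) 2 (volume.prod (volume.prod volume)) * (K₂ * U) := by
    refine le_trans b2 ?_
    gcongr
  calc _ ≤ _ := add_le_add b4 b5
    _ ≤ e / 2 + e / 2 := by
      rw [add_assoc]
      exact add_le_add hFn hk
    _ = e := ENNReal.add_halves e

end one

end Vale.Agent.P353.Z.AN
end

section

/-! # P353, all `N`, block GL: `GluStmt` -/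

set_option linter.all false

open MeasureTheory Filter Topology
open scoped ContDiff ENNReal

namespace Vale.Agent.P353.Z.AN

variable {d dh dm r ds : ℕ} {F : Type*} [NormedAddCommGroup F] [InnerProductSpace ℂ F]

/-- cutoff in `η` -/
noncomputable def gth (z₀ : Cfg r) (δ : ℝ) (η : Cfg r) : ℝ := max 0 (min 1 (3 - 2 * ‖η - z₀‖ / δ))

lemma gth_cont (z₀ : Cfg r) (δ : ℝ) : Continuous (gth z₀ δ) :=
  continuous_const.max (continuous_const.min (continuous_const.sub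
    ((continuous_const.mul (continuous_id.sub continuous_const).norm).div_const _)))

lemma gth_nn (z₀ : Cfg r) (δ : ℝ) (η : Cfg r) : 0 ≤ gth z₀ δ η := le_max_left _ _

lemma gth_le (z₀ : Cfg r) (δ : ℝ) (η : Cfg r) : gth z₀ δ η ≤ 1 := max_le zero_le_one (min_le_left _ _)

lemma gth_one {z₀ : Cfg r} {δ : ℝ} (hδ : 0 < δ) {η : Cfg r} (h : ‖η - z₀‖ ≤ δ) : gth z₀ δ η = 1 := by
  have h1 : 2 * ‖η - z₀‖ / δ ≤ 2 := by
    rw [div_le_iff₀ hδ]
    linarith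
  unfold gth
  rw [min_eq_left (by linarith), max_eq_right zero_le_one]

lemma gth_supp {z₀ : Cfg r} {δ : ℝ} (hδ : 0 < δ) {η : Cfg r} (h : gth z₀ δ η ≠ 0) : ‖η - z₀‖ ≤ 3 / 2 * δ := by
  by_contra hX
  refine h (max_eq_left ?_)
  have h1 : 3 ≤ 2 * ‖η - z₀‖ / δ := by
    rw [le_div_iff₀ hδ]
    linarith [not_le.1 hX]
  exact (min_le_right _ _).trans (by linarith)

/-- approximation of sections by continuous ones -/
lemma glu_dens {z₀ : Cfg r} {δ : ℝ} (hδ : 0 < δ) {a : Cfg r → Cfg ds → F} (ha : GSc z₀ δ a) {e : ℝ≥0∞} (he : e ≠ 0) :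
    ∃ a' : Cfg r → Cfg ds → F, GSc z₀ (2 * δ) a' ∧ Continuous (fun q : Cfg r × Cfg ds => a' q.1 q.2) ∧
      HasCompactSupport (fun q : Cfg r × Cfg ds => a' q.1 q.2) ∧
      tsupport (fun q : Cfg r × Cfg ds => a' q.1 q.2) ⊆ {q | ‖q.1 - z₀‖ < 2 * δ} ∧
      eLpNorm (fun q : Cfg r × Cfg ds => a q.1 q.2 - a' q.1 q.2) 2 (volume.prod volume) ≤ e := by
  haveI : ((volume : Measure (Cfg r)).prod (volume : Measure (Cfg ds))).IsAddHaarMeasure :=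
    Measure.prod.instIsAddHaarMeasure _ _
  obtain ⟨g, hgs, hge, hgc, hgm⟩ := ha.mem.exists_hasCompactSupport_eLpNorm_sub_le (by norm_num : (2 : ℝ≥0∞) ≠ ⊤) he
  have hc : Continuous fun q : Cfg r × Cfg ds => ((gth z₀ δ q.1 : ℝ) : ℂ) • g q :=
    (Complex.continuous_ofReal.comp ((gth_cont z₀ δ).comp continuous_fst)).smul hgc
  have hs : HasCompactSupport fun q : Cfg r × Cfg ds => ((gth z₀ δ q.1 : ℝ) : ℂ) • g q := hgs.smul_left
  have hsup : ∀ q : Cfg r × Cfg ds, ((gth z₀ δ q.1 : ℝ) : ℂ) • g q ≠ 0 → ‖q.1 - z₀‖ ≤ 3 / 2 * δ := by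
    intro q hq
    refine gth_supp hδ fun h0 => hq ?_
    rw [h0, Complex.ofReal_zero, zero_smul]
  refine ⟨fun η s => ((gth z₀ δ η : ℝ) : ℂ) • g (η, s), ⟨hc.stronglyMeasurable, ?_, ?_⟩, hc, hs, ?_, ?_⟩
  · exact hc.memLp_of_hasCompactSupport hs
  · intro η s hne
    exact (hsup (η, s) hne).trans (by linarith)
  · have hcl : IsClosed {q : Cfg r × Cfg ds | ‖q.1 - z₀‖ ≤ 3 / 2 * δ} :=
      isClosed_le (continuous_fst.sub continuous_const).norm continuous_const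
    have h1 : tsupport (fun q : Cfg r × Cfg ds => ((gth z₀ δ q.1 : ℝ) : ℂ) • g q) ⊆
        {q : Cfg r × Cfg ds | ‖q.1 - z₀‖ ≤ 3 / 2 * δ} := closure_minimal (fun q hq => hsup q hq) hcl
    intro q hq
    have h2 : ‖q.1 - z₀‖ ≤ 3 / 2 * δ := h1 hq
    show ‖q.1 - z₀‖ < 2 * δ
    linarith
  · refine le_trans (eLpNorm_mono fun q => ?_) hge
    show ‖a q.1 q.2 - ((gth z₀ δ q.1 : ℝ) : ℂ) • g (q.1, q.2)‖ ≤ ‖a q.1 q.2 - g q‖
    have h1 : a q.1 q.2 = ((gth z₀ δ q.1 : ℝ) : ℂ) • a q.1 q.2 := by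
      by_cases h0 : a q.1 q.2 = 0
      · rw [h0, smul_zero]
      · rw [gth_one hδ (ha.sup _ _ h0), Complex.ofReal_one, one_smul]
    have h2 : a q.1 q.2 - ((gth z₀ δ q.1 : ℝ) : ℂ) • g (q.1, q.2) = ((gth z₀ δ q.1 : ℝ) : ℂ) • (a q.1 q.2 - g q) := by
      rw [smul_sub, ← h1]
    rw [h2, glu_norm_smul (gth_nn _ _ _)]
    exact mul_le_of_le_one_left (norm_nonneg _) (gth_le _ _ _)

theorem glu_stmt (S : Setup d F) (hp : PairStmt S) (hm : MeaStmt S) (hw : WgtStmt S) (hc : CnvStmt S) (hs : SupStmt S)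
    (hg : GauStmt) (hmo : MomStmt) (hn : NormStmt S) : GluStmt S := by
  intro fd dh dm r ds φ ψ z₀ hz hst
  haveI : CompleteSpace F := FiniteDimensional.complete ℂ F
  obtain ⟨εc, ρc, hεc, hρc, Hc⟩ := hc fd dh dm r ds φ ψ z₀ hst
  obtain ⟨εd, ρ, j, hεd, hρle, Hd⟩ := gluD_exists S fd hp hw hs hn φ ψ z₀ hst ρc hρc
  refine ⟨min εc εd, lt_min hεc hεd, fun ε hε hεle => ?_⟩
  obtain ⟨δ₁, c, Cw, D⟩ := Hd ε hε (hεle.trans (min_le_right _ _))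
  have hδ₁ := D.δ_pos
  refine ⟨min (δ₁ / 2) (ε / 4), by positivity, ?_⟩
  intro δ hδ hδle Om hOm hOmc a ham ha2 hasup R χ u C hR hχm hχ01 hχ1 hχs hu hG hC
  have hδ1 : 2 * δ ≤ δ₁ := by linarith [hδle.trans (min_le_left _ _)]
  have hδ2 : 2 * δ ≤ ε / 2 := by linarith [hδle.trans (min_le_right _ _)]
  have hδ2p : 0 < 2 * δ := by positivity
  obtain ⟨hNf, hmo2⟩ := hmo r dm S.κ z₀ (2 * δ) (fun η => Dz S φ ψ η) Om S.κ_pos hδ2p hOm hOmc
  obtain ⟨CM, L, hCM, -, hmo3⟩ := hmo2 1 one_pos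
  have hM : GMo S.κ z₀ (2 * δ) CM Om := fun η hη => (hmo3 η hη).1
  have h : GOm S φ ψ z₀ (2 * δ) Om := ⟨hOm, hOmc, hNf⟩
  have ha : GSc z₀ δ a := ⟨ham, ha2, hasup⟩
  have ha' : GSc z₀ (2 * δ) a := ⟨ham, ha2, fun η s hne => (hasup η s hne).trans (by linarith)⟩
  have X : GCt (min (δ₁ / 2) (ε / 4)) R χ := ⟨hχm, fun n q => (hχ01 n q).1, fun n q => (hχ01 n q).2, hχ1, hχs⟩
  have hC0 : 0 ≤ C := (integral_nonneg fun x => sq_nonneg ‖u 0 x‖).trans (hC 0)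
  have Q : GSq S R u (ENNReal.ofReal (Real.sqrt C)) := by
    refine ⟨hR, hu, hG, fun n => ?_, ENNReal.ofReal_ne_top⟩
    refine glu_le_of_sq ?_
    rw [glu_sq, ← glu_real_sq (hu n).memLp, ← ENNReal.ofReal_pow (Real.sqrt_nonneg _), Real.sq_sqrt hC0]
    exact ENNReal.ofReal_le_ofReal (hC n)
  have hδ0 : min (δ₁ / 2) (ε / 4) ≤ δ₁ := (min_le_left _ _).trans (by linarith)
  have hcv : ∀ b : Cfg r × Cfg ds × Cfg dm → F, Continuous b → HasCompactSupport b → (∀ q, b q ≠ 0 → ‖q.1 - z₀‖ ≤ ε / 2) →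
      Tendsto (fun R : ℝ => ∫⁻ p in Nb (cmb ψ z₀ 0) dm R ε,
      ‖Zt S φ j ρ (Zb φ ψ b R) p - Ts0 ψ (Vb S φ ψ b) R p.1 p.2‖ₑ ^ 2 ∂(volume.prod volume)) atTop (𝓝 0) :=
    fun b hb1 hb2 hb3 => Hc ε ρ hε (hεle.trans (min_le_left _ _)) D.ρ_pos hρle j D.j_cont D.j_nn D.j_one b hb1 hb2 hb3
  show Tendsto (fun n => gGl φ ψ (R n) (fun q => ((χ n q : ℝ) : ℂ) • bG S.κ Om a q) (u n) -
      gSl S φ ψ z₀ ε (R n) (vG S φ ψ Om a) (u n)) atTop (𝓝 0)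
  refine glu_apx fun e he => ?_
  set K₁ : ℝ≥0∞ := ENNReal.ofReal (Real.sqrt Cw * (Real.sqrt c)⁻¹) with hK₁
  set K₂ : ℝ≥0∞ := ENNReal.ofReal (Real.sqrt c)⁻¹ with hK₂
  set U : ℝ≥0∞ := ENNReal.ofReal (Real.sqrt C) with hU
  set Kt : ℝ≥0∞ := K₁ * ENNReal.ofReal (Real.sqrt CM) * U + K₂ * U with hKt
  have hKt1 : Kt + 1 ≠ ⊤ := by
    refine ENNReal.add_ne_top.2 ⟨?_, ENNReal.one_ne_top⟩
    refine ENNReal.add_ne_top.2 ⟨ENNReal.mul_ne_top (ENNReal.mul_ne_top ENNReal.ofReal_ne_top ENNReal.ofReal_ne_top)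
      ENNReal.ofReal_ne_top, ENNReal.mul_ne_top ENNReal.ofReal_ne_top ENNReal.ofReal_ne_top⟩
  obtain ⟨a₁, h1, h2, h3, h4, h5⟩ := glu_dens hδ ha (e := e / (Kt + 1)) (ENNReal.div_pos he.ne' hKt1).ne'
  refine ⟨_, glu_C1 fd hg hm hst.sub D hcv Q h hCM hM hδ1 hδ2 h1 h2 h3 h4 hδ0 X, ?_⟩
  filter_upwards [hR.eventually_ge_atTop 1] with n hn
  have hR0 : 0 < R n := lt_of_lt_of_le one_pos hn
  have hd : GSc z₀ (2 * δ) (fun η s => a η s - a₁ η s) := by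
    refine ⟨ha'.meas.sub h1.meas, ha'.mem.sub h1.mem, fun η s hne => ?_⟩
    by_cases h0 : a η s = 0
    · refine h1.sup η s fun h00 => hne ?_
      show a η s - a₁ η s = 0
      rw [h0, h00, sub_zero]
    · exact ha'.sup η s h0
  have m1 := glu_cut_memW h hCM hM ha' (X.meas n) (X.nn n) (X.le n)
  have m2 := glu_cut_memW h hCM hM h1 (X.meas n) (X.nn n) (X.le n)
  have m3 := glu_cut_memW h hCM hM hd (X.meas n) (X.nn n) (X.le n)
  have e1 : (fun q : Cfg r × Cfg ds × Cfg dm => ((χ n q : ℝ) : ℂ) • bG S.κ Om a q - ((χ n q : ℝ) : ℂ) • bG S.κ Om a₁ q) =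
      fun q => ((χ n q : ℝ) : ℂ) • bG S.κ Om (fun η s => a η s - a₁ η s) q := by
    funext q
    rw [← smul_sub, glu_bG, glu_bG, glu_bG, ← smul_sub]
  have e2 : (fun (η : Cfg r) (s : Cfg ds) (w : Wsp dm) => vG S φ ψ Om a η s w - vG S φ ψ Om a₁ η s w) =
      vG S φ ψ Om (fun η s => a η s - a₁ η s) := by
    funext η s w
    unfold vG
    rw [← smul_sub]
  have e0 : (gGl φ ψ (R n) (fun q => ((χ n q : ℝ) : ℂ) • bG S.κ Om a q) (u n) -
      gSl S φ ψ z₀ ε (R n) (vG S φ ψ Om a) (u n)) - (gGl φ ψ (R n) (fun q => ((χ n q : ℝ) : ℂ) • bG S.κ Om a₁ q) (u n) -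
      gSl S φ ψ z₀ ε (R n) (vG S φ ψ Om a₁) (u n)) =
      gGl φ ψ (R n) (fun q => ((χ n q : ℝ) : ℂ) • bG S.κ Om (fun η s => a η s - a₁ η s) q) (u n) -
      gSl S φ ψ z₀ ε (R n) (vG S φ ψ Om (fun η s => a η s - a₁ η s)) (u n) := by
    rw [← e1, ← e2, ← gGl_sub φ ψ hR0 m1.1 m2.1 (hu n), ← gSl_sub S fd hm hst.sub z₀ ε hR0
      (glu_vG_meas hg fd hm hst.sub h ha'.meas ha'.sup) (glu_vG_mem hg fd hm hst.sub h ha')
      (glu_vG_meas hg fd hm hst.sub h h1.meas h1.sup) (glu_vG_mem hg fd hm hst.sub h h1) (hu n)]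
    ring
  rw [e0]
  refine (enorm_sub_le).trans ?_
  have b1 : ‖gGl φ ψ (R n) (fun q => ((χ n q : ℝ) : ℂ) • bG S.κ Om (fun η s => a η s - a₁ η s) q) (u n)‖ₑ ≤
      K₁ * (ENNReal.ofReal (Real.sqrt CM) * (e / (Kt + 1))) * U := by
    refine le_trans (glu_bd S fd hm hst.sub D (R n) hn _ (glu_cut_meas h hd (X.meas n)) ?_ m3.1 (u n) (hu n) (hG n)) ?_
    · intro q hq
      have hχ0 : χ n q ≠ 0 := by
        intro h0
        refine hq ?_
        rw [h0, Complex.ofReal_zero, zero_smul]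
      have ha0 : a q.1 q.2.1 - a₁ q.1 q.2.1 ≠ 0 := by
        intro h0
        refine hq ?_
        rw [glu_bG]
        show ((χ n q : ℝ) : ℂ) • ((gTh S.κ Om q : ℝ) : ℂ) • (a q.1 q.2.1 - a₁ q.1 q.2.1) = 0
        rw [h0, smul_zero, smul_zero]
      obtain ⟨q1, q2⟩ := X.sup n q hχ0
      exact ⟨(hd.sup _ _ ha0).trans hδ1, q1.trans (mul_le_mul_of_nonneg_right hδ0 hR0.le),
        q2.trans (mul_le_mul_of_nonneg_right hδ0 (mul_nonneg hR0.le (Real.sqrt_nonneg _)))⟩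
    · refine mul_le_mul' (mul_le_mul' le_rfl ?_) (Q.bd n)
      refine m3.2.trans ((glu_bG_norm h hCM hM hd.meas hd.sup).trans ?_)
      exact mul_le_mul' le_rfl h5
  have b2 : ‖gSl S φ ψ z₀ ε (R n) (vG S φ ψ Om (fun η s => a η s - a₁ η s)) (u n)‖ₑ ≤ (e / (Kt + 1)) * (K₂ * U) := by
    refine le_trans (gSl_bd S fd hm hst.sub D hR0 (glu_vG_meas hg fd hm hst.sub h hd.meas hd.sup)
      (glu_vG_mem hg fd hm hst.sub h hd) (hu n) (hG n)) ?_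
    refine mul_le_mul' ((glu_vG_norm hg fd hm hst.sub h hd.meas hd.sup).trans h5) (mul_le_mul' le_rfl (Q.bd n))
  calc _ ≤ _ := add_le_add b1 b2
    _ = Kt * (e / (Kt + 1)) := by rw [hKt]; ring
    _ ≤ (Kt + 1) * (e / (Kt + 1)) := mul_le_mul' le_self_add le_rfl
    _ ≤ e := ENNReal.mul_div_le

end Vale.Agent.P353.Z.AN
end

section

/-! # P353, all `N`, block E: EG-TL, trial functions and slice sections (helper397) -/

open MeasureTheory Filter Topology Matrix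
open scoped ContDiff

namespace Vale.Agent.P353.Z.AE

variable {d dh dm r ds : ℕ} {F : Type*} [NormedAddCommGroup F] [InnerProductSpace ℂ F]

section Int

private theorem tlp_int (ψ : Spl r ds dh) {R M : ℝ} (hR : 0 < R) {a : Cfg r → ℝ} {b : Cfg ds → ℝ}
    {G : Cfg r → Wsp dm → ℝ} (ha0 : ∀ y, 0 ≤ a y) (hb0 : ∀ s, 0 ≤ b s)
    (ha : Integrable a) (hb : Integrable b) (hGm : Measurable (fun p : Cfg r × Wsp dm => G p.1 p.2))
    (hG0 : ∀ y w, 0 ≤ G y w) (hGi : ∀ y, a (R⁻¹ • y) ≠ 0 → Integrable (G y))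
    (hG : ∀ y, a (R⁻¹ • y) ≠ 0 → ∫ w, G y w ≤ M) :
    Integrable (fun p : Cfg dh × Wsp dm => ((Real.sqrt R ^ (9 * r))⁻¹) ^ 2 *
      (a (R⁻¹ • zpt ψ p.1) * b (spt ψ p.1)) * G (zpt ψ p.1) p.2)
      ((volume : Measure (Cfg dh)).prod (volume : Measure (Wsp dm))) ∧
    ∫ p : Cfg dh × Wsp dm, ((Real.sqrt R ^ (9 * r))⁻¹) ^ 2 *
      (a (R⁻¹ • zpt ψ p.1) * b (spt ψ p.1)) * G (zpt ψ p.1) p.2
      ∂((volume : Measure (Cfg dh)).prod (volume : Measure (Wsp dm))) ≤ M * ((∫ y, a y) * ∫ s, b s) := by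
  obtain ⟨hi, he⟩ := int_prod_eq ψ hR ha hb
  have hk : 0 ≤ ((Real.sqrt R ^ (9 * r))⁻¹) ^ 2 := sq_nonneg _
  have hA0 : ∀ x : Cfg dh, 0 ≤ ((Real.sqrt R ^ (9 * r))⁻¹) ^ 2 * (a (R⁻¹ • zpt ψ x) * b (spt ψ x)) :=
    fun x => mul_nonneg hk (mul_nonneg (ha0 _) (hb0 _))
  have hm : AEStronglyMeasurable (fun p : Cfg dh × Wsp dm => ((Real.sqrt R ^ (9 * r))⁻¹) ^ 2 *
      (a (R⁻¹ • zpt ψ p.1) * b (spt ψ p.1)) * G (zpt ψ p.1) p.2)
      ((volume : Measure (Cfg dh)).prod (volume : Measure (Wsp dm))) := by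
    refine AEStronglyMeasurable.mul (hi.aestronglyMeasurable.comp_fst) ?_
    have h1 : Measurable (fun p : Cfg dh × Wsp dm => (zpt ψ p.1, p.2)) :=
      ((zpt_cont ψ).measurable.comp measurable_fst).prodMk measurable_snd
    exact (hGm.comp h1).aestronglyMeasurable
  have hfib : ∀ x : Cfg dh, Integrable (fun w => ((Real.sqrt R ^ (9 * r))⁻¹) ^ 2 *
      (a (R⁻¹ • zpt ψ x) * b (spt ψ x)) * G (zpt ψ x) w) ∧
      ∫ w, ((Real.sqrt R ^ (9 * r))⁻¹) ^ 2 * (a (R⁻¹ • zpt ψ x) * b (spt ψ x)) * G (zpt ψ x) w ≤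
        M * (((Real.sqrt R ^ (9 * r))⁻¹) ^ 2 * (a (R⁻¹ • zpt ψ x) * b (spt ψ x))) := by
    intro x
    by_cases h0 : a (R⁻¹ • zpt ψ x) = 0
    · simp [h0]
    · refine ⟨(hGi _ h0).const_mul _, ?_⟩
      rw [integral_const_mul, mul_comm]
      exact mul_le_mul_of_nonneg_right (hG _ h0) (hA0 x)
  have hint : Integrable (fun p : Cfg dh × Wsp dm => ((Real.sqrt R ^ (9 * r))⁻¹) ^ 2 *
      (a (R⁻¹ • zpt ψ p.1) * b (spt ψ p.1)) * G (zpt ψ p.1) p.2)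
      ((volume : Measure (Cfg dh)).prod (volume : Measure (Wsp dm))) := by
    rw [integrable_prod_iff hm]
    refine ⟨Eventually.of_forall fun x => (hfib x).1, ?_⟩
    refine Integrable.mono' (hi.const_mul M) (hm.norm.integral_prod_right') (Eventually.of_forall fun x => ?_)
    have h1 : ∀ w, ‖((Real.sqrt R ^ (9 * r))⁻¹) ^ 2 * (a (R⁻¹ • zpt ψ x) * b (spt ψ x)) * G (zpt ψ x) w‖ =
        ((Real.sqrt R ^ (9 * r))⁻¹) ^ 2 * (a (R⁻¹ • zpt ψ x) * b (spt ψ x)) * G (zpt ψ x) w := fun w =>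
      Real.norm_of_nonneg (mul_nonneg (hA0 x) (hG0 _ _))
    simp only [h1]
    rw [Real.norm_of_nonneg (integral_nonneg fun w => mul_nonneg (hA0 x) (hG0 _ _))]
    exact (hfib x).2
  refine ⟨hint, ?_⟩
  rw [integral_prod _ hint, ← he, ← integral_const_mul]
  exact integral_mono hint.integral_prod_left (hi.const_mul M) fun x => (hfib x).2

end Int

section Scal

variable (S : Setup d F) (φ : Spl dh dm d) (ψ : Spl r ds dh)

private theorem tlp_Dz_smul (y : Cfg r) (t : ℝ) : S.Dz φ ψ (t • y) = fun i => t • S.Dz φ ψ y i := by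
  funext i
  ext B C
  simp only [Setup.Dz, Setup.Dy, Setup.Dm, Matrix.of_apply, Matrix.smul_apply, smul_eq_mul, Finset.mul_sum]
  refine Finset.sum_congr rfl fun A _ => ?_
  have h1 : cmb ψ (t • y) 0 (i, A) = t * cmb ψ y 0 (i, A) := by
    obtain ⟨a, rfl⟩ := ψ.surjective A
    rcases a with a | a <;> simp [cmb]
  rw [h1]
  ring

private theorem tlp_bz {U : Set (Cfg r)} {Om : Cfg r → Matrix (Fin dm) (Fin dm) ℝ}
    (hom : ∀ y ∈ U, ∀ t : ℝ, 0 < t → Om (t • y) = t • Om y) {y : Cfg r} (hy : y ∈ U) {R : ℝ} (hR : 0 < R)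
    (w : Wsp dm) : S.bz φ ψ Om (R • y) w = R ^ (2 * dm) * S.bz φ ψ Om y (Real.sqrt R • w) := by
  have h := AN.SfuA.gh_scale hR (S.Dz φ ψ y) (Om y) w
  unfold AN.SfuA.gh at h
  unfold Setup.bz
  rw [tlp_Dz_smul, hom y hy R hR]
  exact h

private theorem tlp_rpow {R : ℝ} (hR : 0 < R) :
    R ^ (2 * (dm : ℝ) - 9 * (r : ℝ) / 2) = (Real.sqrt R ^ (9 * r))⁻¹ * R ^ (2 * dm) := by
  rw [Real.rpow_sub hR, Real.sqrt_eq_rpow, ← Real.rpow_natCast, ← Real.rpow_natCast, ← Real.rpow_mul hR.le,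
    div_eq_inv_mul]
  congr 2
  · congr 1
    push_cast
    ring
  · push_cast
    ring

/-- the slice section in terms of the Gaussian at scale `R` -/
private theorem tlp_Ts0 {U : Set (Cfg r)} {Om : Cfg r → Matrix (Fin dm) (Fin dm) ℝ} {V : Cfg r → F →L[ℂ] F}
    (hom : ∀ y ∈ U, ∀ t : ℝ, 0 < t → Om (t • y) = t • Om y)
    (hV : ∀ y ∈ U, ∀ t : ℝ, 0 < t → V (t • y) = V y) {L : Cfg r → F →L[ℂ] F} (hL : ∀ y, L y ≠ 0 → y ∈ U)
    (o : Cfg ds → F) {R : ℝ} (hR : 0 < R) (x : Cfg dh) (w : Wsp dm) :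
    AN.Ts0 ψ (AN.vG S φ ψ Om (fun η s => V η (L η (o s)))) R x w =
      (((Real.sqrt R ^ (9 * r))⁻¹ * S.bz φ ψ Om (zpt ψ x) w : ℝ) : ℂ) •
        V (zpt ψ x) (L (R⁻¹ • zpt ψ x) (o (spt ψ x))) := by
  have e1 : AN.Ts0 ψ (AN.vG S φ ψ Om (fun η s => V η (L η (o s)))) R x w =
      ((R ^ (2 * (dm : ℝ) - 9 * (r : ℝ) / 2) : ℝ) : ℂ) •
        (((S.bz φ ψ Om (R⁻¹ • zpt ψ x) (Real.sqrt R • w) : ℝ) : ℂ) •
          V (R⁻¹ • zpt ψ x) (L (R⁻¹ • zpt ψ x) (o (spt ψ x)))) := rfl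
  rw [e1]
  by_cases h0 : L (R⁻¹ • zpt ψ x) = 0
  · rw [h0]
    simp
  · have hU := hL _ h0
    have h1 : R • (R⁻¹ • zpt ψ x) = zpt ψ x := by rw [smul_smul, mul_inv_cancel₀ hR.ne', one_smul]
    have h2 := tlp_bz S φ ψ hom hU hR w
    have h3 := hV _ hU R hR
    rw [h1] at h2 h3
    rw [← h3, h2, tlp_rpow hR, smul_smul, ← Complex.ofReal_mul]
    congr 2
    ring

end Scal

section Core

/-- context of the estimates -/
private structure TlpCtx (S : Setup d F) (φ : Spl dh dm d) (ψ : Spl r ds dh) (U : Set (Cfg r))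
    (Om : Cfg r → Matrix (Fin dm) (Fin dm) ℝ) (V : Cfg r → F →L[ℂ] F) (y₀ : Cfg r) (ε0 C0 : ℝ) (c : ℝ → ℝ)
    (ε : ℝ) (L : Cfg r → F →L[ℂ] F) : Prop where
  opn : IsOpen U
  hom : ∀ y ∈ U, ∀ t : ℝ, 0 < t → Om (t • y) = t • Om y
  v_c : ContinuousOn V U
  v_h : ∀ y ∈ U, ∀ t : ℝ, 0 < t → V (t • y) = V y
  v_n : ∀ y ∈ U, ∀ v, ‖V y v‖ = ‖v‖
  bz : BzFacts S φ ψ U Om y₀ ε0 C0
  ct : IsCt c
  eps : 0 < ε
  epsl : ε ≤ ε0
  l_c : Continuous L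
  l_s : ∀ y, L y ≠ 0 → y ∈ Metric.ball y₀ (ε / 2)

variable {S : Setup d F} {φ : Spl dh dm d} {ψ : Spl r ds dh} {U : Set (Cfg r)}
  {Om : Cfg r → Matrix (Fin dm) (Fin dm) ℝ} {V : Cfg r → F →L[ℂ] F} {y₀ : Cfg r} {ε0 C0 : ℝ} {c : ℝ → ℝ}
  {ε : ℝ} {L : Cfg r → F →L[ℂ] F}

private theorem TlpCtx.ray (h : TlpCtx S φ ψ U Om V y₀ ε0 C0 c ε L) {R : ℝ} (hR : 0 < R) {y : Cfg r}
    (hy : L (R⁻¹ • y) ≠ 0) : y ∈ U ∧ ‖y - R • y₀‖ ≤ ε0 * R := by
  have h1 := h.l_s _ hy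
  rw [Metric.mem_ball, dist_eq_norm] at h1
  have h8 : y - R • y₀ = R • (R⁻¹ • y - y₀) := by
    rw [smul_sub, smul_smul, mul_inv_cancel₀ hR.ne', one_smul]
  have h9 : ‖y - R • y₀‖ ≤ ε0 * R := by
    rw [h8, norm_smul, Real.norm_of_nonneg hR.le, mul_comm]
    refine mul_le_mul_of_nonneg_right ?_ hR.le
    have := h.eps
    have := h.epsl
    linarith
  exact ⟨h.bz.inU R hR y h9, h9⟩

private theorem TlpCtx.inU (h : TlpCtx S φ ψ U Om V y₀ ε0 C0 c ε L) {y : Cfg r} (hy : L y ≠ 0) : y ∈ U := by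
  have h1 : L ((1 : ℝ)⁻¹ • y) ≠ 0 := by rwa [inv_one, one_smul]
  exact (h.ray one_pos h1).1

private theorem TlpCtx.cs (h : TlpCtx S φ ψ U Om V y₀ ε0 C0 c ε L) : HasCompactSupport L :=
  HasCompactSupport.intro (isCompact_closedBall y₀ (ε / 2)) fun y hy => by
    by_contra h0
    exact hy (Metric.ball_subset_closedBall (h.l_s y h0))

private theorem TlpCtx.aI (h : TlpCtx S φ ψ U Om V y₀ ε0 C0 c ε L) : Integrable fun y => ‖L y‖ ^ 2 := by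
  refine (h.l_c.norm.pow 2).integrable_of_hasCompactSupport ?_
  refine HasCompactSupport.intro h.cs fun x hx => ?_
  show ‖L x‖ ^ 2 = 0
  rw [image_eq_zero_of_notMem_tsupport hx, norm_zero, zero_pow two_ne_zero]

/-- squared Gaussian, cut off to `U` -/
private noncomputable def tlpG (S : Setup d F) (φ : Spl dh dm d) (ψ : Spl r ds dh) (U : Set (Cfg r))
    (Om : Cfg r → Matrix (Fin dm) (Fin dm) ℝ) (δ : ℝ) (y : Cfg r) (w : Wsp dm) : ℝ :=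
  (U ×ˢ {w : Wsp dm | δ ≤ ‖w‖}).indicator (fun p : Cfg r × Wsp dm => S.bz φ ψ Om p.1 p.2 ^ 2) (y, w)

private theorem tlpG_m (h : TlpCtx S φ ψ U Om V y₀ ε0 C0 c ε L) (δ : ℝ) :
    Measurable (fun p : Cfg r × Wsp dm => tlpG S φ ψ U Om δ p.1 p.2) := by
  classical
  have hc : IsClosed {w : Wsp dm | δ ≤ ‖w‖} := isClosed_le continuous_const continuous_norm
  have hm : MeasurableSet (U ×ˢ {w : Wsp dm | δ ≤ ‖w‖}) := h.opn.measurableSet.prod hc.measurableSet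
  have h1 : ContinuousOn (fun p : Cfg r × Wsp dm => S.bz φ ψ Om p.1 p.2 ^ 2) (U ×ˢ {w : Wsp dm | δ ≤ ‖w‖}) :=
    (h.bz.sm.continuousOn.pow 2).mono (Set.prod_mono le_rfl (Set.subset_univ _))
  have h2 : (fun p : Cfg r × Wsp dm => tlpG S φ ψ U Om δ p.1 p.2) =
      (U ×ˢ {w : Wsp dm | δ ≤ ‖w‖}).piecewise (fun p : Cfg r × Wsp dm => S.bz φ ψ Om p.1 p.2 ^ 2) (fun _ => 0) := by
    funext p
    by_cases hp : p ∈ U ×ˢ {w : Wsp dm | δ ≤ ‖w‖}
    · rw [Set.piecewise_eq_of_mem _ _ _ hp]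
      exact Set.indicator_of_mem hp _
    · rw [Set.piecewise_eq_of_notMem _ _ _ hp]
      exact Set.indicator_of_notMem hp _
  rw [h2]
  exact h1.measurable_piecewise continuousOn_const hm

private theorem tlpG_0 (δ : ℝ) (y : Cfg r) (w : Wsp dm) : 0 ≤ tlpG S φ ψ U Om δ y w :=
  Set.indicator_nonneg (fun _ _ => sq_nonneg _) _

private theorem tlpG_in {δ : ℝ} {y : Cfg r} {w : Wsp dm} (hy : y ∈ U) (hw : δ ≤ ‖w‖) :
    tlpG S φ ψ U Om δ y w = S.bz φ ψ Om y w ^ 2 :=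
  Set.indicator_of_mem (show (y, w) ∈ U ×ˢ {w : Wsp dm | δ ≤ ‖w‖} from ⟨hy, hw⟩) _

private theorem tlpG_eq {δ : ℝ} {y : Cfg r} (hy : y ∈ U) (w : Wsp dm) :
    tlpG S φ ψ U Om δ y w = if δ ≤ ‖w‖ then (‖w‖ ^ 0 * S.bz φ ψ Om y w) ^ 2 else 0 := by
  split_ifs with hw
  · rw [tlpG_in hy hw, pow_zero, one_mul]
  · exact Set.indicator_of_notMem (fun h => hw h.2) _

private theorem tlpG_i (h : TlpCtx S φ ψ U Om V y₀ ε0 C0 c ε L) (δ : ℝ) {y : Cfg r} (hy : y ∈ U) :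
    Integrable (tlpG S φ ψ U Om δ y) := by
  have h1 : Integrable fun w : Wsp dm => S.bz φ ψ Om y w ^ 2 := by
    have h3 := h.bz.int _ hy 0
    simpa only [pow_zero, one_mul] using h3
  refine Integrable.mono' h1 ?_ (Eventually.of_forall fun w => ?_)
  · exact ((tlpG_m h δ).comp (measurable_const.prodMk measurable_id)).aestronglyMeasurable
  · rw [Real.norm_of_nonneg (tlpG_0 δ y w), tlpG_eq hy w]
    split_ifs
    · rw [pow_zero, one_mul]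
    · exact sq_nonneg _

private theorem tlpG_1 (h : TlpCtx S φ ψ U Om V y₀ ε0 C0 c ε L) {y : Cfg r} (hy : y ∈ U) :
    ∫ w, tlpG S φ ψ U Om 0 y w ≤ 1 := by
  rw [← h.bz.norm y hy]
  refine le_of_eq (integral_congr_ae (Eventually.of_forall fun w => ?_))
  exact tlpG_in hy (norm_nonneg _)

/-- pointwise norm of a scaled trial function -/
private theorem tlp_pt (h : TlpCtx S φ ψ U Om V y₀ ε0 C0 c ε L) {R : ℝ} (hR : 0 < R) (x : Cfg dh) (w : Wsp dm)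
    (t : ℝ) (v : F) :
    ‖(((Real.sqrt R ^ (9 * r))⁻¹ * t * S.bz φ ψ Om (zpt ψ x) w : ℝ) : ℂ) • V (zpt ψ x) (L (R⁻¹ • zpt ψ x) v)‖ ^ 2 ≤
      ((Real.sqrt R ^ (9 * r))⁻¹) ^ 2 * (‖L (R⁻¹ • zpt ψ x)‖ ^ 2 * ‖v‖ ^ 2) *
        (t ^ 2 * S.bz φ ψ Om (zpt ψ x) w ^ 2) := by
  by_cases h0 : L (R⁻¹ • zpt ψ x) = 0
  · rw [h0]
    simp
  · have hU := (h.ray hR h0).1
    rw [norm_smul, h.v_n _ hU, Complex.norm_real, mul_pow, Real.norm_eq_abs, sq_abs]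
    have h1 : ‖L (R⁻¹ • zpt ψ x) v‖ ^ 2 ≤ (‖L (R⁻¹ • zpt ψ x)‖ * ‖v‖) ^ 2 :=
      pow_le_pow_left₀ (norm_nonneg _) ((L (R⁻¹ • zpt ψ x)).le_opNorm v) 2
    calc ((Real.sqrt R ^ (9 * r))⁻¹ * t * S.bz φ ψ Om (zpt ψ x) w) ^ 2 * ‖L (R⁻¹ • zpt ψ x) v‖ ^ 2
        ≤ ((Real.sqrt R ^ (9 * r))⁻¹ * t * S.bz φ ψ Om (zpt ψ x) w) ^ 2 * (‖L (R⁻¹ • zpt ψ x)‖ * ‖v‖) ^ 2 :=
          mul_le_mul_of_nonneg_left h1 (sq_nonneg _)
      _ = _ := by ring

/-- the bound of the difference for one scale -/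
private theorem tlp_dif (h : TlpCtx S φ ψ U Om V y₀ ε0 C0 c ε L) {M : ℝ} {R : ℝ} (hR : 1 ≤ R)
    (hM : ∀ y : Cfg r, ‖y - R • y₀‖ ≤ ε0 * R → ∫ w, tlpG S φ ψ U Om (1 / 2 * ε * R) y w ≤ M)
    {o Φ : Cfg ds → F} (ho : MemLp o 2 (volume : Measure (Cfg ds))) (hΦ : MemLp Φ 2 (volume : Measure (Cfg ds))) :
    ∫ p, ‖AN.Ts0 ψ (AN.vG S φ ψ Om (fun η s => V η (L η (o s)))) R p.1 p.2 -
      S.TR φ ψ Om V c ε R (fun y s => L y (Φ s)) p.1 p.2‖ ^ 2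
        ∂((volume : Measure (Cfg dh)).prod (volume : Measure (Wsp dm))) ≤
      2 * (1 * ((∫ y, ‖L y‖ ^ 2) * nsq (fun s => Φ s - o s))) + 2 * (M * ((∫ y, ‖L y‖ ^ 2) * nsq o)) := by
  have hR0 : 0 < R := lt_of_lt_of_le one_pos hR
  have hb1 : Integrable fun s => ‖Φ s - o s‖ ^ 2 := (hΦ.sub ho).integrable_norm_pow two_ne_zero
  have hb2 : Integrable fun s => ‖o s‖ ^ 2 := ho.integrable_norm_pow two_ne_zero
  have hL0 : ∀ y : Cfg r, ‖L y‖ ^ 2 ≠ 0 → L y ≠ 0 := fun y hy h0 => hy (by rw [h0, norm_zero, zero_pow two_ne_zero])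
  obtain ⟨i1, j1⟩ := tlp_int ψ (dm := dm) (M := 1) hR0 (fun y => sq_nonneg ‖L y‖) (fun s => sq_nonneg ‖Φ s - o s‖) h.aI hb1
    (tlpG_m h 0) (tlpG_0 0) (fun y hy => tlpG_i h 0 (h.ray hR0 (hL0 _ hy)).1)
    (fun y hy => tlpG_1 h (h.ray hR0 (hL0 _ hy)).1)
  obtain ⟨i2, j2⟩ := tlp_int ψ (dm := dm) (M := M) hR0 (fun y => sq_nonneg ‖L y‖) (fun s => sq_nonneg ‖o s‖) h.aI hb2
    (tlpG_m h (1 / 2 * ε * R)) (tlpG_0 _) (fun y hy => tlpG_i h _ (h.ray hR0 (hL0 _ hy)).1)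
    (fun y hy => hM y (h.ray hR0 (hL0 _ hy)).2)
  have hpt : ∀ p : Cfg dh × Wsp dm, ‖AN.Ts0 ψ (AN.vG S φ ψ Om (fun η s => V η (L η (o s)))) R p.1 p.2 -
      S.TR φ ψ Om V c ε R (fun y s => L y (Φ s)) p.1 p.2‖ ^ 2 ≤
      2 * (((Real.sqrt R ^ (9 * r))⁻¹) ^ 2 * (‖L (R⁻¹ • zpt ψ p.1)‖ ^ 2 * ‖Φ (spt ψ p.1) - o (spt ψ p.1)‖ ^ 2) *
        tlpG S φ ψ U Om 0 (zpt ψ p.1) p.2) +
      2 * (((Real.sqrt R ^ (9 * r))⁻¹) ^ 2 * (‖L (R⁻¹ • zpt ψ p.1)‖ ^ 2 * ‖o (spt ψ p.1)‖ ^ 2) *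
        tlpG S φ ψ U Om (1 / 2 * ε * R) (zpt ψ p.1) p.2) := by
    rintro ⟨x, w⟩
    obtain ⟨cc, hcc⟩ : ∃ cc, cc = c (‖w‖ ^ 2 / (ε * R) ^ 2) := ⟨_, rfl⟩
    have hc0 : 0 ≤ cc := by rw [hcc]; exact (h.ct.bd _).1
    have hc1 : cc ≤ 1 := by rw [hcc]; exact (h.ct.bd _).2
    have e1 := tlp_Ts0 S φ ψ h.hom h.v_h (fun y hy => h.inU hy) o hR0 x w
    have e2 : S.TR φ ψ Om V c ε R (fun y s => L y (Φ s)) x w =
        (((Real.sqrt R ^ (9 * r))⁻¹ * cc * S.bz φ ψ Om (zpt ψ x) w : ℝ) : ℂ) •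
          V (zpt ψ x) (L (R⁻¹ • zpt ψ x) (Φ (spt ψ x))) := by rw [hcc]; rfl
    have e3 : AN.Ts0 ψ (AN.vG S φ ψ Om (fun η s => V η (L η (o s)))) R x w -
        S.TR φ ψ Om V c ε R (fun y s => L y (Φ s)) x w =
        (((Real.sqrt R ^ (9 * r))⁻¹ * (1 - cc) * S.bz φ ψ Om (zpt ψ x) w : ℝ) : ℂ) •
          V (zpt ψ x) (L (R⁻¹ • zpt ψ x) (o (spt ψ x))) -
        (((Real.sqrt R ^ (9 * r))⁻¹ * cc * S.bz φ ψ Om (zpt ψ x) w : ℝ) : ℂ) •
          V (zpt ψ x) (L (R⁻¹ • zpt ψ x) (Φ (spt ψ x) - o (spt ψ x))) := by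
      rw [e1, e2, map_sub, map_sub, smul_sub]
      have : (((Real.sqrt R ^ (9 * r))⁻¹ * S.bz φ ψ Om (zpt ψ x) w : ℝ) : ℂ) =
        (((Real.sqrt R ^ (9 * r))⁻¹ * (1 - cc) * S.bz φ ψ Om (zpt ψ x) w : ℝ) : ℂ) +
        (((Real.sqrt R ^ (9 * r))⁻¹ * cc * S.bz φ ψ Om (zpt ψ x) w : ℝ) : ℂ) := by
        rw [← Complex.ofReal_add]
        congr 1
        ring
      rw [this, add_smul]
      abel
    show ‖AN.Ts0 ψ (AN.vG S φ ψ Om (fun η s => V η (L η (o s)))) R x w -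
        S.TR φ ψ Om V c ε R (fun y s => L y (Φ s)) x w‖ ^ 2 ≤ _
    rw [e3]
    have p1 := tlp_pt h hR0 x w (1 - cc) (o (spt ψ x))
    have p2 := tlp_pt h hR0 x w cc (Φ (spt ψ x) - o (spt ψ x))
    have hsub : ∀ u v : F, ‖u - v‖ ^ 2 ≤ 2 * ‖v‖ ^ 2 + 2 * ‖u‖ ^ 2 := by
      intro u v
      have h1 := norm_sub_le u v
      have h2 : ‖u - v‖ ^ 2 ≤ (‖u‖ + ‖v‖) ^ 2 := pow_le_pow_left₀ (norm_nonneg _) h1 2
      nlinarith [sq_nonneg (‖u‖ - ‖v‖)]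
    refine (hsub _ _).trans ?_
    refine add_le_add (mul_le_mul_of_nonneg_left (p2.trans ?_) zero_le_two)
      (mul_le_mul_of_nonneg_left (p1.trans ?_) zero_le_two)
    · by_cases h0 : L (R⁻¹ • zpt ψ x) = 0
      · rw [h0]; simp
      · refine mul_le_mul_of_nonneg_left ?_ (by positivity)
        rw [tlpG_in (h.ray hR0 h0).1 (norm_nonneg _)]
        refine mul_le_of_le_one_left (sq_nonneg _) (pow_le_one₀ hc0 hc1)
    · by_cases h0 : L (R⁻¹ • zpt ψ x) = 0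
      · rw [h0]; simp
      · refine mul_le_mul_of_nonneg_left ?_ (by positivity)
        by_cases hw : 1 / 2 * ε * R ≤ ‖w‖
        · rw [tlpG_in (h.ray hR0 h0).1 hw]
          refine mul_le_of_le_one_left (sq_nonneg _) (pow_le_one₀ (by linarith) (by linarith))
        · have hcc1 : cc = 1 := by
            rw [hcc]
            refine h.ct.one _ ?_
            have h10 : 0 < ε * R := mul_pos h.eps hR0
            rw [div_le_iff₀ (by positivity)]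
            push Not at hw
            have : ‖w‖ ^ 2 ≤ (1 / 2 * ε * R) ^ 2 := pow_le_pow_left₀ (norm_nonneg _) hw.le 2
            nlinarith
          rw [hcc1, sub_self, zero_pow two_ne_zero, zero_mul]
          exact tlpG_0 _ _ _
  calc _ ≤ ∫ p : Cfg dh × Wsp dm, (2 * (((Real.sqrt R ^ (9 * r))⁻¹) ^ 2 * (‖L (R⁻¹ • zpt ψ p.1)‖ ^ 2 *
          ‖Φ (spt ψ p.1) - o (spt ψ p.1)‖ ^ 2) * tlpG S φ ψ U Om 0 (zpt ψ p.1) p.2) +
        2 * (((Real.sqrt R ^ (9 * r))⁻¹) ^ 2 * (‖L (R⁻¹ • zpt ψ p.1)‖ ^ 2 * ‖o (spt ψ p.1)‖ ^ 2) *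
          tlpG S φ ψ U Om (1 / 2 * ε * R) (zpt ψ p.1) p.2))
          ∂((volume : Measure (Cfg dh)).prod (volume : Measure (Wsp dm))) :=
        integral_mono_of_nonneg (Eventually.of_forall fun p => by positivity)
          ((i1.const_mul 2).add (i2.const_mul 2)) (Eventually.of_forall hpt)
    _ ≤ _ := by
        rw [integral_add (i1.const_mul 2) (i2.const_mul 2), integral_const_mul, integral_const_mul]
        exact add_le_add (mul_le_mul_of_nonneg_left j1 zero_le_two) (mul_le_mul_of_nonneg_left j2 zero_le_two)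

/-- tail of the trial function -/
private theorem tlp_tail (h : TlpCtx S φ ψ U Om V y₀ ε0 C0 c ε L) {M : ℝ} {R : ℝ} (hR : 1 ≤ R)
    (hM : ∀ y : Cfg r, ‖y - R • y₀‖ ≤ ε0 * R → ∫ w, tlpG S φ ψ U Om (1 / 2 * ε * R) y w ≤ M)
    {Φ : Cfg ds → F} (hΦ : MemLp Φ 2 (volume : Measure (Cfg ds))) :
    ∫ p in {p : Cfg dh × Wsp dm | 1 / 2 * ε * R ≤ ‖p.2‖}, ‖S.TR φ ψ Om V c ε R (fun y s => L y (Φ s)) p.1 p.2‖ ^ 2
        ∂((volume : Measure (Cfg dh)).prod (volume : Measure (Wsp dm))) ≤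
      M * ((∫ y, ‖L y‖ ^ 2) * nsq Φ) := by
  have hR0 : 0 < R := lt_of_lt_of_le one_pos hR
  have hb2 : Integrable fun s => ‖Φ s‖ ^ 2 := hΦ.integrable_norm_pow two_ne_zero
  have hL0 : ∀ y : Cfg r, ‖L y‖ ^ 2 ≠ 0 → L y ≠ 0 := fun y hy h0 => hy (by rw [h0, norm_zero, zero_pow two_ne_zero])
  obtain ⟨i2, j2⟩ := tlp_int ψ (dm := dm) (M := M) hR0 (fun y => sq_nonneg ‖L y‖) (fun s => sq_nonneg ‖Φ s‖) h.aI hb2
    (tlpG_m h (1 / 2 * ε * R)) (tlpG_0 _) (fun y hy => tlpG_i h _ (h.ray hR0 (hL0 _ hy)).1)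
    (fun y hy => hM y (h.ray hR0 (hL0 _ hy)).2)
  have hms : MeasurableSet {p : Cfg dh × Wsp dm | 1 / 2 * ε * R ≤ ‖p.2‖} :=
    (isClosed_le continuous_const continuous_snd.norm).measurableSet
  rw [← integral_indicator hms]
  refine (integral_mono_of_nonneg (Eventually.of_forall fun p => Set.indicator_nonneg (fun _ _ => by positivity) _)
    i2 (Eventually.of_forall ?_)).trans j2
  rintro ⟨x, w⟩
  by_cases hw : 1 / 2 * ε * R ≤ ‖w‖
  · show Set.indicator _ _ _ ≤ _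
    rw [Set.indicator_of_mem (show (x, w) ∈ {p : Cfg dh × Wsp dm | 1 / 2 * ε * R ≤ ‖p.2‖} from hw)]
    have e2 : S.TR φ ψ Om V c ε R (fun y s => L y (Φ s)) x w =
        (((Real.sqrt R ^ (9 * r))⁻¹ * c (‖w‖ ^ 2 / (ε * R) ^ 2) * S.bz φ ψ Om (zpt ψ x) w : ℝ) : ℂ) •
          V (zpt ψ x) (L (R⁻¹ • zpt ψ x) (Φ (spt ψ x))) := rfl
    show ‖S.TR φ ψ Om V c ε R (fun y s => L y (Φ s)) x w‖ ^ 2 ≤ _
    rw [e2]
    refine (tlp_pt h hR0 x w _ (Φ (spt ψ x))).trans ?_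
    by_cases h0 : L (R⁻¹ • zpt ψ x) = 0
    · show _ ≤ ((Real.sqrt R ^ (9 * r))⁻¹) ^ 2 * (‖L (R⁻¹ • zpt ψ x)‖ ^ 2 * ‖Φ (spt ψ x)‖ ^ 2) *
        tlpG S φ ψ U Om (1 / 2 * ε * R) (zpt ψ x) w
      rw [h0]; simp
    · refine mul_le_mul_of_nonneg_left ?_ (by positivity)
      rw [tlpG_in (h.ray hR0 h0).1 hw]
      exact mul_le_of_le_one_left (sq_nonneg _) (pow_le_one₀ (h.ct.bd _).1 (h.ct.bd _).2)
  · show Set.indicator _ _ _ ≤ _
    rw [Set.indicator_of_notMem (show (x, w) ∉ {p : Cfg dh × Wsp dm | 1 / 2 * ε * R ≤ ‖p.2‖} from hw)]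
    exact mul_nonneg (by positivity) (tlpG_0 _ _ _)

private theorem tlp_mem [FiniteDimensional ℂ F] (h : TlpCtx S φ ψ U Om V y₀ ε0 C0 c ε L)
    {o : Cfg ds → F} (ho : MemLp o 2 (volume : Measure (Cfg ds))) :
    MemLp (fun q : Cfg r × Cfg ds => V q.1 (L q.1 (o q.2))) 2 (volume.prod volume) := by
  have hW : AEStronglyMeasurable (fun y : Cfg r => (V y).comp (L y)) volume := by
    have h1 : (fun y : Cfg r => (V y).comp (L y)) = U.indicator (fun y : Cfg r => (V y).comp (L y)) := by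
      funext y
      by_cases hy : y ∈ U
      · rw [Set.indicator_of_mem hy]
      · rw [Set.indicator_of_notMem hy]
        have h2 : L y = 0 := by
          by_contra h0
          exact hy (h.inU h0)
        rw [h2, ContinuousLinearMap.comp_zero]
    rw [h1, aestronglyMeasurable_indicator_iff h.opn.measurableSet]
    exact (h.v_c.clm_comp h.l_c.continuousOn).aestronglyMeasurable h.opn.measurableSet
  have hm : AEStronglyMeasurable (fun q : Cfg r × Cfg ds => V q.1 (L q.1 (o q.2)))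
      ((volume : Measure (Cfg r)).prod (volume : Measure (Cfg ds))) := by
    have h1 := (hW.comp_fst (ν := (volume : Measure (Cfg ds)))).prodMk (ho.1.comp_snd (μ := (volume : Measure (Cfg r))))
    exact (isBoundedBilinearMap_apply (𝕜 := ℂ) (E := F) (F := F)).continuous.comp_aestronglyMeasurable h1
  rw [memLp_two_iff_integrable_sq_norm hm]
  refine Integrable.mono' (h.aI.mul_prod (ho.integrable_norm_pow two_ne_zero)) (hm.norm.pow 2) (Eventually.of_forall ?_)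
  rintro ⟨y, s⟩
  show ‖‖V y (L y (o s))‖ ^ 2‖ ≤ ‖L y‖ ^ 2 * ‖o s‖ ^ 2
  rw [Real.norm_of_nonneg (by positivity)]
  by_cases h0 : L y = 0
  · rw [h0]; simp
  · rw [h.v_n _ (h.inU h0), ← mul_pow]
    exact pow_le_pow_left₀ (norm_nonneg _) ((L y).le_opNorm _) 2

private theorem tlp_lim (h : TlpCtx S φ ψ U Om V y₀ ε0 C0 c ε L) {R : ℕ → ℝ} {Φ : ℕ → Cfg ds → F} {o : Cfg ds → F}
    (hR : ∀ n, 1 ≤ R n) (hRl : Tendsto R atTop atTop) (ho : MemLp o 2 (volume : Measure (Cfg ds)))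
    (hΦ : ∀ n, Setup.Tst (Φ n)) (hl : Tendsto (fun n => nsq (fun s => Φ n s - o s)) atTop (𝓝 0)) :
    Tendsto (fun n => ∫ p, ‖AN.Ts0 ψ (AN.vG S φ ψ Om (fun η s => V η (L η (o s)))) (R n) p.1 p.2 -
      S.TR φ ψ Om V c ε (R n) (fun y s => L y (Φ n s)) p.1 p.2‖ ^ 2
        ∂((volume : Measure (Cfg dh)).prod (volume : Measure (Wsp dm)))) atTop (𝓝 0) ∧
    Tendsto (fun n => R n ^ 2 * ∫ p in {p : Cfg dh × Wsp dm | 1 / 2 * ε * R n ≤ ‖p.2‖},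
      ‖S.TR φ ψ Om V c ε (R n) (fun y s => L y (Φ n s)) p.1 p.2‖ ^ 2
        ∂((volume : Measure (Cfg dh)).prod (volume : Measure (Wsp dm)))) atTop (𝓝 0) := by
  obtain ⟨C', hC'⟩ := h.bz.tail (1 / 2 * ε) (by have := h.eps; positivity)
  have hM : ∀ R : ℝ, 1 ≤ R → ∀ y : Cfg r, ‖y - R • y₀‖ ≤ ε0 * R →
      ∫ w, tlpG S φ ψ U Om (1 / 2 * ε * R) y w ≤ C' * (1 / R) ^ 8 := by
    intro R hR y hy
    have h1 := hC' R hR y hy 0 (by norm_num)
    have hyU := h.bz.inU R (by linarith) y hy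
    refine le_trans (le_of_eq (integral_congr_ae (Eventually.of_forall fun w => ?_))) h1
    exact tlpG_eq hyU w
  have hΦm : ∀ n, MemLp (Φ n) 2 (volume : Measure (Cfg ds)) := fun n =>
    (hΦ n).1.continuous.memLp_of_hasCompactSupport (hΦ n).2
  have hinv : Tendsto (fun n => 1 / R n) atTop (𝓝 0) := by
    simp only [one_div]
    exact tendsto_inv_atTop_zero.comp hRl
  have hp8 : Tendsto (fun n => (1 / R n) ^ 8) atTop (𝓝 0) := by
    have := hinv.pow 8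
    simpa using this
  have hp6 : Tendsto (fun n => R n ^ 2 * (1 / R n) ^ 8) atTop (𝓝 0) := by
    have h6 : Tendsto (fun n => (1 / R n) ^ 6) atTop (𝓝 0) := by
      have := hinv.pow 6
      simpa using this
    refine h6.congr fun n => ?_
    have : R n ≠ 0 := by have := hR n; positivity
    field_simp
  -- `nsq (Φ n)` bounded
  have hnb : ∀ n, nsq (Φ n) ≤ 2 * nsq (fun s => Φ n s - o s) + 2 * nsq o := by
    intro n
    have h1 : Integrable fun s => ‖Φ n s - o s‖ ^ 2 := ((hΦm n).sub ho).integrable_norm_pow two_ne_zero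
    have h2 : Integrable fun s => ‖o s‖ ^ 2 := ho.integrable_norm_pow two_ne_zero
    unfold nsq
    rw [← integral_const_mul, ← integral_const_mul, ← integral_add (h1.const_mul 2) (h2.const_mul 2)]
    refine integral_mono_of_nonneg (Eventually.of_forall fun s => by positivity)
      ((h1.const_mul 2).add (h2.const_mul 2)) (Eventually.of_forall fun s => ?_)
    have h3 : ‖Φ n s‖ ≤ ‖Φ n s - o s‖ + ‖o s‖ := by
      have := norm_add_le (Φ n s - o s) (o s)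
      rwa [sub_add_cancel] at this
    have h4 : ‖Φ n s‖ ^ 2 ≤ (‖Φ n s - o s‖ + ‖o s‖) ^ 2 := pow_le_pow_left₀ (norm_nonneg _) h3 2
    show ‖Φ n s‖ ^ 2 ≤ 2 * ‖Φ n s - o s‖ ^ 2 + 2 * ‖o s‖ ^ 2
    nlinarith [sq_nonneg (‖Φ n s - o s‖ - ‖o s‖)]
  have ha0 : 0 ≤ ∫ y, ‖L y‖ ^ 2 := integral_nonneg fun y => by positivity
  constructor
  · have hlim : Tendsto (fun n => 2 * (1 * ((∫ y, ‖L y‖ ^ 2) * nsq (fun s => Φ n s - o s))) +
        2 * (C' * (1 / R n) ^ 8 * ((∫ y, ‖L y‖ ^ 2) * nsq o))) atTop (𝓝 0) := by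
      have h1 := ((hl.const_mul (∫ y, ‖L y‖ ^ 2)).const_mul 1).const_mul 2
      have h2 := (((hp8.const_mul C').mul_const ((∫ y, ‖L y‖ ^ 2) * nsq o))).const_mul 2
      have h3 := h1.add h2
      simpa using h3
    refine squeeze_zero (fun n => integral_nonneg fun p => by positivity) (fun n => ?_) hlim
    exact tlp_dif h (hR n) (hM (R n) (hR n)) ho (hΦm n)
  · have hlim : Tendsto (fun n => (R n ^ 2 * (1 / R n) ^ 8) * (|C'| * ((∫ y, ‖L y‖ ^ 2) *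
        (2 * nsq (fun s => Φ n s - o s) + 2 * nsq o)))) atTop (𝓝 0) := by
      have h1 := ((((hl.const_mul 2).add_const (2 * nsq o)).const_mul (∫ y, ‖L y‖ ^ 2)).const_mul |C'|)
      have h3 := hp6.mul h1
      simpa using h3
    refine squeeze_zero (fun n => mul_nonneg (by positivity) (integral_nonneg fun p => by positivity)) (fun n => ?_) hlim
    have h1 := tlp_tail h (hR n) (hM (R n) (hR n)) (hΦm n)
    have hR0 : 0 < R n := lt_of_lt_of_le one_pos (hR n)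
    have h2 : C' * (1 / R n) ^ 8 * ((∫ y, ‖L y‖ ^ 2) * nsq (Φ n)) ≤
        |C'| * (1 / R n) ^ 8 * ((∫ y, ‖L y‖ ^ 2) * (2 * nsq (fun s => Φ n s - o s) + 2 * nsq o)) := by
      have h3 : 0 ≤ nsq (Φ n) := nsq_nonneg _
      refine mul_le_mul (mul_le_mul_of_nonneg_right (le_abs_self _) (by positivity))
        (mul_le_mul_of_nonneg_left (hnb n) ha0) (mul_nonneg ha0 h3) (by positivity)
    calc _ ≤ R n ^ 2 * (|C'| * (1 / R n) ^ 8 * ((∫ y, ‖L y‖ ^ 2) * (2 * nsq (fun s => Φ n s - o s) + 2 * nsq o))) :=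
          mul_le_mul_of_nonneg_left (h1.trans h2) (by positivity)
      _ = _ := by ring

end Core

section DFp

variable (S : Setup d F) (φ : Spl dh dm d) (ψ : Spl r ds dh)

/-- the profile `DF (pp ζ ·)` as a field of linear maps -/
private noncomputable def tlpL (N : Fin 9 → Matrix (Fin 16) (Fin 16) ℂ) (μ : ℝ) (β : Fin 16) (ζ : Cfg r → ℂ)
    (y : Cfg r) : F →L[ℂ] F :=
  (-Complex.I) • ∑ i, ∑ A, (fderiv ℝ ζ y (EuclideanSpace.single (i, A) 1)) •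
      S.vec (S.g i) (φ (Sum.inl (ψ (Sum.inl A)))) β +
    (μ : ℂ) • ∑ i, ∑ A, (((y (i, A) : ℝ) : ℂ) * ζ y) • S.vec (N i) (φ (Sum.inl (ψ (Sum.inl A)))) β

private theorem tlpL_eq (N : Fin 9 → Matrix (Fin 16) (Fin 16) ℂ) (μ : ℝ) (β : Fin 16) {ζ : Cfg r → ℂ}
    (hζ : ContDiff ℝ ∞ ζ) (Φ : Cfg ds → F) :
    S.DF φ ψ N μ β (pp ζ Φ) = fun y s => tlpL S φ ψ N μ β ζ y (Φ s) := by
  funext y s
  have hd : DifferentiableAt ℝ ζ y := hζ.differentiable (by simp) y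
  have h1 : ∀ (i : Fin 9) (A : Fin r), pd i A (fun y' => pp ζ Φ y' s) y =
      (fderiv ℝ ζ y (EuclideanSpace.single (i, A) 1)) • Φ s := by
    intro i A
    show fderiv ℝ (fun y' => ζ y' • Φ s) y (EuclideanSpace.single (i, A) 1) = _
    rw [(hd.hasFDerivAt.smul_const (Φ s)).fderiv]
    rfl
  unfold Setup.DF tlpL
  simp only [h1]
  simp only [pp, map_smul, _root_.add_apply, _root_.smul_apply, _root_.sum_apply, smul_smul]

private theorem tlpL_c (N : Fin 9 → Matrix (Fin 16) (Fin 16) ℂ) (μ : ℝ) (β : Fin 16) {ζ : Cfg r → ℂ}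
    (hζ : ContDiff ℝ ∞ ζ) : Continuous (tlpL S φ ψ N μ β ζ) := by
  unfold tlpL
  have h1 : Continuous (fderiv ℝ ζ) := hζ.continuous_fderiv (by simp)
  have h2 := hζ.continuous
  have h3 : ∀ (i : Fin 9) (A : Fin r), Continuous fun y : Cfg r => y (i, A) := fun i A => by fun_prop
  have hA : Continuous fun y : Cfg r => (∑ i : Fin 9, ∑ A : Fin r,
      (fderiv ℝ ζ y (EuclideanSpace.single (i, A) 1)) • S.vec (S.g i) (φ (Sum.inl (ψ (Sum.inl A)))) β : F →L[ℂ] F) :=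
    continuous_finsetSum _ fun i _ => continuous_finsetSum _ fun A _ =>
      (h1.clm_apply continuous_const).smul continuous_const
  have hB : Continuous fun y : Cfg r => (∑ i : Fin 9, ∑ A : Fin r,
      (((y (i, A) : ℝ) : ℂ) * ζ y) • S.vec (N i) (φ (Sum.inl (ψ (Sum.inl A)))) β : F →L[ℂ] F) :=
    continuous_finsetSum _ fun i _ => continuous_finsetSum _ fun A _ =>
      ((Complex.continuous_ofReal.comp (h3 i A)).mul h2).smul continuous_const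
  exact (hA.const_smul (-Complex.I)).add (hB.const_smul (μ : ℂ))

private theorem tlpL_s (N : Fin 9 → Matrix (Fin 16) (Fin 16) ℂ) (μ : ℝ) (β : Fin 16) {ζ : Cfg r → ℂ}
    (y : Cfg r) (h : tlpL S φ ψ N μ β ζ y ≠ 0) : y ∈ tsupport ζ := by
  by_contra h0
  apply h
  have h1 : ζ y = 0 := image_eq_zero_of_notMem_tsupport h0
  have h2 : fderiv ℝ ζ y = 0 := by
    by_contra h3
    exact h0 (support_fderiv_subset ℝ (Function.mem_support.2 h3))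
  unfold tlpL
  simp [h1, h2]

end DFp

/-- **EG-TL** -/
theorem tlS (S : Setup d F) (φ : Spl dh dm d) (ψ : Spl r ds dh) : TLStmt S φ ψ := by
  intro _ _ _ N U Om V K hF y₀ ε0 C0 _ hB c hc ε hε hε0 ζ hζ hζs μ R Φ o hR hRl ho hΦ hl
  have ctx : ∀ L : Cfg r → F →L[ℂ] F, Continuous L → (∀ y, L y ≠ 0 → y ∈ tsupport ζ) →
      TlpCtx S φ ψ U Om V y₀ ε0 C0 c ε L := fun L h1 h2 =>
    ⟨hF.opn, hF.om_h, hF.v_c.continuousOn, hF.v_h, hF.v_n, hB, hc, hε, hε0, h1, fun y hy => hζs (h2 y hy)⟩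
  have c1 : TlpCtx S φ ψ U Om V y₀ ε0 C0 c ε (fun y => ζ y • ContinuousLinearMap.id ℂ F) := by
    refine ctx _ (hζ.continuous.smul continuous_const) fun y hy => ?_
    by_contra h0
    exact hy (by rw [image_eq_zero_of_notMem_tsupport h0, zero_smul])
  have c2 : ∀ β, TlpCtx S φ ψ U Om V y₀ ε0 C0 c ε (tlpL S φ ψ N μ β ζ) := fun β =>
    ctx _ (tlpL_c S φ ψ N μ β hζ) fun y hy => tlpL_s S φ ψ N μ β y hy
  obtain ⟨a1, a2⟩ := tlp_lim c1 hR hRl ho hΦ hl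
  refine ⟨a1, fun β => ?_, a2, tlp_mem c1 ho, fun β => ?_⟩
  · simp only [tlpL_eq S φ ψ N μ β hζ]
    exact (tlp_lim (c2 β) hR hRl ho hΦ hl).1
  · simp only [tlpL_eq S φ ψ N μ β hζ]
    exact tlp_mem (c2 β) ho

end Vale.Agent.P353.Z.AE
end
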