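import Mathlib
import Vale.Agent.P353.BdA.B1
import Vale.Agent.P353.BdA.B22
import Vale.Agent.P353.BdA.B13
import Vale.Agent.P353.BdA.B23
import Vale.Agent.P353.BdA.B21
import Vale.Agent.P353.BdA.B6
import Vale.Agent.P353.BdA.B17
import Vale.Agent.P353.BdA.B7
import Vale.Agent.P353.BdZ.B17
import Vale.Agent.P353.BdA.B12

set_option linter.all false

section

/-! # P353, all `N`, block X2: the gauge spin generators kill the vacuum vectors (helper516) -/

open MeasureTheory Filter Topology Matrix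
open scoped ContDiff

namespace Vale.Agent.P353.Z

variable {d : ℕ} {F : Type*} [NormedAddCommGroup F] [InnerProductSpace ℂ F]

namespace AX2

lemma csv_f_diag (S : Setup d F) (C D : Fin d) : S.f C D D = 0 := by
  have h := S.f_swap' C D D
  linarith

/-- **X2-CsV** -/
theorem csV_stmt (S : Setup d F) : CsVStmt S := by
  intro v hv C
  unfold Setup.cS
  rw [_root_.smul_apply, _root_.sum_apply]
  have h : ∀ D ∈ Finset.univ, (∑ E, (S.f C D E : ℂ) • S.bil 1 D E) v = 0 := by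
    intro D _
    rw [_root_.sum_apply]
    refine Finset.sum_eq_zero fun E _ => ?_
    rw [_root_.smul_apply, S.vf_bil_vac (by rw [one_mul, mul_one]) hv]
    split_ifs with hDE
    · subst hDE
      rw [csv_f_diag, Complex.ofReal_zero, zero_smul]
    · rw [smul_zero]
  rw [Finset.sum_eq_zero h, smul_zero]

end AX2

end Vale.Agent.P353.Z
end

section

/-! # P353, all `N`, block COV: COV8 assembly (helper155) -/

open MeasureTheory Filter Topology Matrix
open scoped ContDiff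

namespace Vale.Agent.P353.Z.ACov

universe u

variable {N d dh dm ds dz k : ℕ}

namespace C155

lemma rT_one (T : Fin d → Matrix (Fin N) (Fin N) ℂ) : rT T 1 = T := by
  funext A
  unfold rT
  rw [Finset.sum_eq_single A]
  · simp
  · intro B _ hB
    simp [Matrix.one_apply, hB.symm]
  · intro h
    exact absurd (Finset.mem_univ _) h

lemma mx_zero (T : Fin d → Matrix (Fin N) (Fin N) ℂ) (i : Fin 9) : mx T 0 i = 0 := by
  unfold mx
  simp

lemma su_star (V : BFSS.SU N) : V.val.conjTranspose * V.val = 1 := by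
  have h := (Matrix.mem_specialUnitaryGroup_iff.1 V.property).1
  exact (Matrix.mem_unitaryGroup_iff'.1 h)

lemma su_star' (V : BFSS.SU N) : V.val * V.val.conjTranspose = 1 := by
  have h := (Matrix.mem_specialUnitaryGroup_iff.1 V.property).1
  exact (Matrix.mem_unitaryGroup_iff.1 h)

lemma conj_inj (V : BFSS.SU N) {X Z : Matrix (Fin N) (Fin N) ℂ}
    (h : V.val * X * V.val.conjTranspose = V.val * Z * V.val.conjTranspose) : X = Z := by
  have h1 : V.val.conjTranspose * (V.val * X * V.val.conjTranspose) * V.val =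
      V.val.conjTranspose * (V.val * Z * V.val.conjTranspose) * V.val := by rw [h]
  have h2 : ∀ W : Matrix (Fin N) (Fin N) ℂ, V.val.conjTranspose * (V.val * W * V.val.conjTranspose) * V.val = W := by
    intro W
    rw [show V.val.conjTranspose * (V.val * W * V.val.conjTranspose) * V.val =
      (V.val.conjTranspose * V.val) * W * (V.val.conjTranspose * V.val) by simp only [Matrix.mul_assoc]]
    rw [su_star, Matrix.one_mul, Matrix.mul_one]
  rwa [h2, h2] at h1

lemma trace_conj (V : BFSS.SU N) (X : Matrix (Fin N) (Fin N) ℂ) :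
    (V.val * X * V.val.conjTranspose).trace = X.trace := by
  rw [Matrix.trace_mul_cycle, su_star, Matrix.one_mul]

end C155

open C155

theorem covOf {F : Type u} [NormedAddCommGroup F] [InnerProductSpace ℂ F] (M : BFSS.Model N d F) : CovOfStmt M := by
  intro hMx hPt hDiag hV hPerm hComb hSpec hVal
  constructor
  · intro hN2 S hRep Y hY0 hVY
    have hN : 0 < N := by omega
    obtain ⟨hBas, hAct, hRot, hHer⟩ := hMx hN S hRep
    have hcomm := hV S N M.T hBas Y hVY
    obtain ⟨V, y, hy⟩ := hDiag N hN (mx M.T Y) (fun i => (hHer Y i).1) hcomm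
    obtain ⟨hc1, hc2, hc3, hc4, hc5, -⟩ := hComb N hN
    obtain ⟨p, hp⟩ := hc1 (Fin 9 → ℝ) y
    -- traces
    have htr : ∀ i, ∑ q, y q i = 0 := by
      intro i
      have h1 := congrArg Matrix.trace (hy i)
      rw [trace_conj, (hHer Y i).2, Matrix.trace_diagonal] at h1
      have h2 : ((∑ q, y q i : ℝ) : ℂ) = 0 := by
        push_cast
        exact h1.symm
      exact_mod_cast h2
    refine ⟨p, ?_, ?_⟩
    · by_contra hlt
      push Not at hlt
      rw [hp] at hlt
      have hconst := hc5 (Fin 9 → ℝ) y hlt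
      apply hY0
      obtain ⟨-, -, hinj⟩ := hRot 1 (by simp) 1 (by simp)
      refine hinj Y 0 fun i => ?_
      rw [rT_one, mx_zero]
      have hz : ∀ q, y q i = 0 := by
        intro q
        have h1 := htr i
        rw [Finset.sum_congr rfl fun q' _ => congrFun (hconst q' q) i, Finset.sum_const, Finset.card_univ,
          Fintype.card_fin, nsmul_eq_mul] at h1
        rcases mul_eq_zero.1 h1 with h2 | h2
        · exact absurd (Nat.cast_eq_zero.1 h2) hN.ne'
        · exact h2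
      refine conj_inj V ?_
      rw [hy i, Matrix.mul_zero, Matrix.zero_mul]
      ext a b
      by_cases hab : a = b
      · subst hab
        simp [hz]
      · simp [Matrix.diagonal_apply_ne _ hab]
    · intro k dh dm ds dz n O hO φ ψ fr hn
      rw [hp] at hn
      obtain ⟨π, hπ⟩ := hc2 (Fin 9 → ℝ) y k n fr.E fr.pos hn
      obtain ⟨P, hP⟩ := hPerm N hN π⁻¹
      obtain ⟨hBas', hmx', hinj'⟩ := hRot 1 (by simp) O hO
      obtain ⟨-, hv2, -, -, -⟩ := hVal k dh dm ds dz n (rT M.T O) φ ψ _ fr hBas'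
      -- values on the blocks
      set v : Fin 9 → Fin k → ℝ := fun i a => y (π (fr.E ⟨a, ⟨0, fr.pos a⟩⟩)) i with hv
      have hyv : ∀ q i, y (π q) i = v i (fr.E.symm q).1 := by
        intro q i
        have h1 := (hπ (fr.E.symm q) ⟨(fr.E.symm q).1, ⟨0, fr.pos _⟩⟩).2 rfl
        rw [Equiv.apply_symm_apply] at h1
        exact congrFun h1 i
      have hsum : ∀ i, ∑ a, (n a : ℝ) * v i a = 0 := by
        intro i
        have h1 : ∑ q, y (π q) i = 0 := by
          rw [Equiv.sum_comp π fun q => y q i]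
          exact htr i
        have h2 : ∑ q, y (π q) i = ∑ s : Σ a, Fin (n a), v i s.1 := by
          rw [← Equiv.sum_comp fr.E]
          refine Finset.sum_congr rfl fun s _ => ?_
          rw [hyv, Equiv.symm_apply_apply]
        rw [h2, Fintype.sum_sigma] at h1
        rw [← h1]
        refine Finset.sum_congr rfl fun a _ => ?_
        symm
        change ∑ _ : Fin (n a), v i a = _
        rw [Finset.sum_const, Finset.card_univ, Fintype.card_fin, nsmul_eq_mul]
      obtain ⟨η, hη⟩ := hv2 v hsum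
      refine ⟨P * V, η, ?_, ?_⟩
      · intro a b hab
        by_contra hc
        push Not at hc
        apply hab
        have h1 : y (π (fr.E ⟨a, ⟨0, fr.pos a⟩⟩)) = y (π (fr.E ⟨b, ⟨0, fr.pos b⟩⟩)) := by
          funext i
          have := hc i
          rw [hη, hη] at this
          exact this
        exact (hπ _ _).1 h1
      · refine hinj' _ _ fun i => ?_
        rw [hmx', hAct, hPt]
        have h1 : (P * V).val * mx M.T Y i * (P * V).val.conjTranspose =
            P.val * (V.val * mx M.T Y i * V.val.conjTranspose) * P.val.conjTranspose := by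
          have h2 : (P * V).val = P.val * V.val := rfl
          rw [h2, Matrix.conjTranspose_mul]
          simp only [Matrix.mul_assoc]
        rw [h1, hy i]
        have h3 := hP fun q => ((y (π q) i : ℝ) : ℂ)
        have h4 : (fun q => ((y (π (π⁻¹ q)) i : ℝ) : ℂ)) = fun q => ((y q i : ℝ) : ℂ) := by
          funext q
          simp
        rw [h4] at h3
        rw [h3]
        congr 1
        funext q
        rw [hyv, hη]
  · intro hN2 S hRep k dh dm ds dz n O hO φ ψ fr η hD k' dh' dm' ds' dz' n' O' hO' φ' ψ' fr' η' hD' U Y h1 h2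
    have hN : 0 < N := by omega
    obtain ⟨hBas, hAct, hRot, hHer⟩ := hMx hN S hRep
    obtain ⟨-, hmx, -⟩ := hRot 1 (by simp) O hO
    obtain ⟨-, hmx', -⟩ := hRot 1 (by simp) O' hO'
    obtain ⟨hc1, hc2, hc3, hc4, hc5, -⟩ := hComb N hN
    have e1 : ∀ i, mx M.T Y i = Matrix.diagonal fun q => ((fr.val η i (fr.E.symm q).1 : ℝ) : ℂ) := by
      intro i
      rw [← hmx Y i, h1, hPt]
    have e2 : ∀ i, mx M.T (M.act U Y) i = Matrix.diagonal fun q => ((fr'.val η' i (fr'.E.symm q).1 : ℝ) : ℂ) := by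
      intro i
      rw [← hmx' _ i, h2, hPt]
    have h3 := hSpec N U.val (su_star U) (su_star' U) (fun q i => fr.val η i (fr.E.symm q).1)
      (fun q i => fr'.val η' i (fr'.E.symm q).1) (fun i => by rw [← e1 i, ← e2 i, hAct])
    have h4 := hc3 (Fin 9 → ℝ) (fun q i => fr.val η i (fr.E.symm q).1) k n fr.E fr.pos (by
      intro s t
      constructor
      · intro h
        by_contra hst
        obtain ⟨i, hi⟩ := hD _ _ hst
        apply hi
        have := congrFun h i
        simpa using this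
      · intro h
        funext i
        simp [h])
    have h5 := hc3 (Fin 9 → ℝ) (fun q i => fr'.val η' i (fr'.E.symm q).1) k' n' fr'.E fr'.pos (by
      intro s t
      constructor
      · intro h
        by_contra hst
        obtain ⟨i, hi⟩ := hD' _ _ hst
        apply hi
        have := congrFun h i
        simpa using this
      · intro h
        funext i
        simp [h])
    rw [← h4, ← h5]
    convert h3

end Vale.Agent.P353.Z.ACov
end

section

/-! # P353, all `N`, block COV: COV1, the matrices of a configuration -/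

open MeasureTheory Filter Topology Matrix
open scoped ContDiff

namespace Vale.Agent.P353.Z.ACov

universe u

variable {N d : ℕ} {F : Type u} [NormedAddCommGroup F] [InnerProductSpace ℂ F]

/-- coordinates are traces -/
lemma mx471_tr {T : Fin d → Matrix (Fin N) (Fin N) ℂ} {f : Fin d → Fin d → Fin d → ℝ} (h : Bas N d T f) (x : Cfg d)
    (i : Fin 9) (A : Fin d) : (T A * mx T x i).trace = ((x (i, A) : ℝ) : ℂ) := by
  unfold mx
  rw [Finset.mul_sum, Matrix.trace_sum]
  have e : ∀ B, (T A * (((x (i, B) : ℝ) : ℂ) • T B)).trace = if A = B then ((x (i, B) : ℝ) : ℂ) else 0 := by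
    intro B
    rw [Matrix.mul_smul, Matrix.trace_smul, h.ortho]
    split_ifs
    · rw [smul_eq_mul, mul_one]
    · rw [smul_zero]
  simp only [e, Finset.sum_ite_eq, Finset.mem_univ, if_true]

lemma mx471_inj {T : Fin d → Matrix (Fin N) (Fin N) ℂ} {f : Fin d → Fin d → Fin d → ℝ} (h : Bas N d T f) (x y : Cfg d)
    (hxy : ∀ i, mx T x i = mx T y i) : x = y := by
  ext ⟨i, A⟩
  have h1 := mx471_tr h x i A
  rw [hxy i, mx471_tr h y i A] at h1
  exact (Complex.ofReal_injective h1).symm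

lemma mx471_rox {O : Matrix (Fin d) (Fin d) ℝ} (hO : O * Oᵀ = 1) (T : Fin d → Matrix (Fin N) (Fin N) ℂ) (x : Cfg d)
    (i : Fin 9) : mx (rT T O) (rox 1 O x) i = mx T x i := by
  have e0 : ∀ A, (rox 1 O x) (i, A) = ∑ B, O A B * x (i, B) := by
    intro A
    show ∑ j, ∑ B, (1 : Matrix (Fin 9) (Fin 9) ℝ) i j * O A B * x (j, B) = _
    rw [Finset.sum_eq_single i]
    · refine Finset.sum_congr rfl fun B _ => ?_
      rw [Matrix.one_apply_eq, one_mul]
    · intro j _ hj
      refine Finset.sum_eq_zero fun B _ => ?_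
      rw [Matrix.one_apply_ne hj.symm, zero_mul, zero_mul]
    · intro hh
      exact absurd (Finset.mem_univ _) hh
  have e1 : ∀ A, (((rox 1 O x) (i, A) : ℝ) : ℂ) • rT T O A =
      ∑ B, ((x (i, B) : ℝ) : ℂ) • (((O A B : ℝ) : ℂ) • rT T O A) := by
    intro A
    rw [e0, Complex.ofReal_sum, Finset.sum_smul]
    refine Finset.sum_congr rfl fun B _ => ?_
    rw [smul_smul, Complex.ofReal_mul, mul_comm]
  unfold mx
  simp only [e1]
  rw [Finset.sum_comm]
  refine Finset.sum_congr rfl fun B _ => ?_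
  rw [← Finset.smul_sum]
  congr 1
  exact ANF.rotm_back hO T B

lemma mx471_act (M : BFSS.Model N d F) (hN : 0 < N) (V : BFSS.SU N) (x : Cfg d) (i : Fin 9) :
    mx M.T (M.act V x) i = V.val * mx M.T x i * V.val.conjTranspose := by
  have e0 : ∀ B, (M.act V x) (i, B) = ∑ A, BFSS.adCoeff M.T V B A * x (i, A) := fun B => rfl
  unfold mx
  simp only [e0]
  rw [Finset.mul_sum, Finset.sum_mul]
  have e1 : ∀ A, V.val * (((x (i, A) : ℝ) : ℂ) • M.T A) * V.val.conjTranspose =
      ∑ B, ((BFSS.adCoeff M.T V B A * x (i, A) : ℝ) : ℂ) • M.T B := by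
    intro A
    rw [Matrix.mul_smul, Matrix.smul_mul, AN.G.act_conj M hN, Finset.smul_sum]
    refine Finset.sum_congr rfl fun B _ => ?_
    rw [smul_smul, Complex.ofReal_mul, mul_comm]
  simp only [e1]
  rw [Finset.sum_comm]
  refine Finset.sum_congr rfl fun B _ => ?_
  rw [Complex.ofReal_sum, Finset.sum_smul]

/-- **COV1** -/
theorem mxS (M : BFSS.Model N d F) : MxStmt M := by
  intro hN S hS
  have hb : Bas N d M.T S.f := by
    rw [hS.hf]
    exact ANF.basM_stmt N d F M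
  refine ⟨hb, fun V x i => mx471_act M hN V x i, fun R hR O hO => ?_, fun x i => ⟨?_, ?_⟩⟩
  · have h1 : (1 : Matrix (Fin 9) (Fin 9) ℝ) * (1 : Matrix (Fin 9) (Fin 9) ℝ)ᵀ = 1 := by
      rw [Matrix.transpose_one, Matrix.mul_one]
    obtain ⟨M', hM', hT, -⟩ := ANF.rotM_stmt N d F M S hS O h1 hO
    have hT' : M'.T = rT M.T O := funext hT
    have hb' : Bas N d (rT M.T O) (S.rot R hR O hO).f := by
      have h2 := ANF.basM_stmt N d F M'
      rw [hT', ← hM'.hf] at h2
      exact h2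
    exact ⟨hb', fun x i => mx471_rox hO M.T x i, fun x y hxy => mx471_inj hb' x y hxy⟩
  · unfold mx
    rw [Matrix.conjTranspose_sum]
    refine Finset.sum_congr rfl fun A _ => ?_
    rw [Matrix.conjTranspose_smul, M.T_hermitian]
    congr 1
    exact Complex.conj_ofReal _
  · unfold mx
    rw [Matrix.trace_sum]
    refine Finset.sum_eq_zero fun A _ => ?_
    rw [Matrix.trace_smul, M.T_traceless, smul_zero]

end Vale.Agent.P353.Z.ACov
end

section

/-! # P353, all `N`, block COV: COV6, fibre sizes and partitions (helper925, with helper808, helper763) -/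

open MeasureTheory Filter Topology Matrix
open scoped ContDiff

namespace Vale.Agent.P353.Z.ACov

/-- conjunct (1) -/
theorem comb1 (N : ℕ) (X : Type) [DecidableEq X] (y : Fin N → X) : ∃ p : Nat.Partition N, p.parts = fsz y := by
  refine ⟨⟨fsz y, ?_, ?_⟩, rfl⟩
  · intro i hi
    obtain ⟨a, ha, rfl⟩ := Multiset.mem_map.1 hi
    obtain ⟨p, -, hp⟩ := Finset.mem_image.1 (show a ∈ Finset.univ.image y from ha)
    exact Finset.card_pos.2 ⟨p, Finset.mem_filter.2 ⟨Finset.mem_univ _, hp⟩⟩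
  · have h1 := Finset.card_eq_sum_card_image y (Finset.univ : Finset (Fin N))
    rw [Finset.card_univ, Fintype.card_fin] at h1
    exact h1.symm

/-- conjunct (3) -/
theorem comb3 (N : ℕ) (X : Type) [DecidableEq X] (y : Fin N → X) (k : ℕ) (n : Fin k → ℕ) (E : (Σ a, Fin (n a)) ≃ Fin N)
    (hn : ∀ a, 1 ≤ n a) (h : ∀ s t : Σ a, Fin (n a), y (E s) = y (E t) ↔ s.1 = t.1) :
    fsz y = Finset.univ.val.map n := by
  have hc : ∀ a : Fin k, (Finset.univ.filter fun p => y p = y (E ⟨a, ⟨0, hn a⟩⟩)).card = n a := by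
    intro a
    have h1 : (Finset.univ.filter fun p => y p = y (E ⟨a, ⟨0, hn a⟩⟩)) =
        (Finset.univ : Finset (Fin (n a))).map ⟨fun i => E ⟨a, i⟩, fun i j hij => by
          have h2 := E.injective hij
          simp only [Sigma.mk.injEq, heq_eq_eq, true_and] at h2
          exact h2⟩ := by
      ext p
      simp only [Finset.mem_filter, Finset.mem_univ, true_and, Finset.mem_map]
      constructor
      · intro hp
        obtain ⟨⟨b, i⟩, rfl⟩ := E.surjective p
        obtain rfl : b = a := (h _ _).1 hp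
        exact ⟨i, rfl⟩
      · rintro ⟨i, rfl⟩
        exact (h _ _).2 rfl
    rw [h1, Finset.card_map, Finset.card_univ, Fintype.card_fin]
  have hinj : Function.Injective fun a : Fin k => y (E ⟨a, ⟨0, hn a⟩⟩) := fun a b hab => (h _ _).1 hab
  have himg : Finset.univ.image y = (Finset.univ : Finset (Fin k)).map ⟨fun a => y (E ⟨a, ⟨0, hn a⟩⟩), hinj⟩ := by
    ext v
    simp only [Finset.mem_image, Finset.mem_univ, true_and, Finset.mem_map, Function.Embedding.coeFn_mk]
    constructor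
    · rintro ⟨p, rfl⟩
      obtain ⟨⟨b, i⟩, rfl⟩ := E.surjective p
      exact ⟨b, (h _ _).2 rfl⟩
    · rintro ⟨a, rfl⟩
      exact ⟨_, rfl⟩
  unfold fsz
  rw [himg, Finset.map_val, Multiset.map_map]
  refine Multiset.map_congr rfl fun a _ => ?_
  exact hc a

/-- equal fibre sizes: a bijection -/
theorem comb925_equiv {α β γ : Type*} [Fintype α] [Fintype β] [DecidableEq γ] (f : α → γ) (g : β → γ)
    (h : ∀ c, (Finset.univ.filter fun a => f a = c).card = (Finset.univ.filter fun b => g b = c).card) :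
    ∃ e : α ≃ β, ∀ a, g (e a) = f a := by
  have h1 : ∀ c, Fintype.card {a // f a = c} = Fintype.card {b // g b = c} := by
    intro c
    rw [Fintype.card_subtype, Fintype.card_subtype, h c]
  exact ⟨Equiv.ofFiberEquiv fun c => Fintype.equivOfCardEq (h1 c), fun a => Equiv.ofFiberEquiv_map _ a⟩

theorem comb925_count {α : Type*} [Fintype α] (f : α → ℕ) (m : ℕ) :
    Multiset.count m (Finset.univ.val.map f) = (Finset.univ.filter fun a => f a = m).card := by
  rw [Multiset.count_map]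
  show (Finset.univ.filter fun a => m = f a).card = _
  congr 1
  ext a
  simp [eq_comm]

/-- conjunct (2) -/
theorem comb2B (N : ℕ) (X : Type) [DecidableEq X] (y : Fin N → X) (k : ℕ) (n : Fin k → ℕ) (E : (Σ a, Fin (n a)) ≃ Fin N)
    (h : Finset.univ.val.map n = fsz y) :
    ∃ π : Equiv.Perm (Fin N), ∀ s t : Σ a, Fin (n a), y (π (E s)) = y (π (E t)) ↔ s.1 = t.1 := by
  -- bijection of the index set with the image
  obtain ⟨β, hβ⟩ : ∃ β : Fin k ≃ ↥(Finset.univ.image y), ∀ a, (Finset.univ.filter fun p => y p = (β a).1).card = n a := by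
    refine comb925_equiv n (fun x : ↥(Finset.univ.image y) => (Finset.univ.filter fun p => y p = x.1).card) fun m => ?_
    rw [← comb925_count, ← comb925_count, h, fsz]
    congr 1
    exact (Multiset.attach_map_val' _ _).symm
  -- bijection of the points
  obtain ⟨θ, hθ⟩ : ∃ θ : (Σ a, Fin (n a)) ≃ Fin N, ∀ s, y (θ s) = (β s.1).1 := by
    refine comb925_equiv (fun s : Σ a, Fin (n a) => (β s.1).1) y fun x => ?_
    by_cases hx : x ∈ Finset.univ.image y
    · obtain ⟨a, ha⟩ := β.surjective ⟨x, hx⟩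
      have hax : (β a).1 = x := by rw [ha]
      have h8 : (Finset.univ.filter fun s : Σ a, Fin (n a) => (β s.1).1 = x) =
          (Finset.univ : Finset (Fin (n a))).map ⟨fun i => (⟨a, i⟩ : Σ a, Fin (n a)), fun i j hij => by
            simp only [Sigma.mk.injEq, heq_eq_eq, true_and] at hij
            exact hij⟩ := by
        ext s
        simp only [Finset.mem_filter, Finset.mem_univ, true_and, Finset.mem_map]
        constructor
        · intro hs
          obtain ⟨b, i⟩ := s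
          obtain rfl : b = a := β.injective (Subtype.ext (hs.trans hax.symm))
          exact ⟨i, rfl⟩
        · rintro ⟨i, rfl⟩
          exact hax
      rw [h8, Finset.card_map, Finset.card_univ, Fintype.card_fin, ← hβ a, hax]
    · have e1 : (Finset.univ.filter fun s : Σ a, Fin (n a) => (β s.1).1 = x) = ∅ :=
        Finset.filter_false_of_mem fun s _ hs => hx (hs ▸ (β s.1).2)
      have e2 : (Finset.univ.filter fun p => y p = x) = ∅ :=
        Finset.filter_false_of_mem fun p _ hp => hx (hp ▸ Finset.mem_image_of_mem y (Finset.mem_univ _))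
      rw [e1, e2, Finset.card_empty, Finset.card_empty]
  refine ⟨E.symm.trans θ, fun s t => ?_⟩
  simp only [Equiv.trans_apply, Equiv.symm_apply_apply, hθ]
  exact ⟨fun h => β.injective (Subtype.ext h), fun h => by rw [h]⟩

/-- **COV6** -/
theorem combS : CombStmt := fun N hN =>
  ⟨fun X _ y => comb1 N X y, fun X _ y k n E _ h => comb2B N X y k n E h, fun X _ y k n E hn h => comb3 N X y k n E hn h,
    fun p => comb4 N p, fun X _ y h => comb5 N X y h, comb6 N hN⟩

end Vale.Agent.P353.Z.ACov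
end

section

/-! # P353, all `N`, block COV: zeros of the potential are commuting tuples (COV4) -/

open MeasureTheory Filter Topology Matrix

namespace Vale.Agent.P353.Z.ACov

universe u

theorem vcom_aux {N d : ℕ} (T : Fin d → Matrix (Fin N) (Fin N) ℂ) (f : Fin d → Fin d → Fin d → ℝ)
    (hc : ∀ A B, T A * T B - T B * T A = ∑ C, (Complex.I * (f A B C : ℂ)) • T C) (y z : Fin d → ℝ)
    (h0 : ∀ C, ∑ A, ∑ B, f A B C * y A * z B = 0) :
    (∑ A, ((y A : ℝ) : ℂ) • T A) * (∑ A, ((z A : ℝ) : ℂ) • T A) =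
      (∑ A, ((z A : ℝ) : ℂ) • T A) * (∑ A, ((y A : ℝ) : ℂ) • T A) := by
  rw [← sub_eq_zero]
  have e1 : (∑ A, ((y A : ℝ) : ℂ) • T A) * (∑ A, ((z A : ℝ) : ℂ) • T A) =
      ∑ A, ∑ B, (((y A : ℝ) : ℂ) * ((z B : ℝ) : ℂ)) • (T A * T B) := by
    rw [Finset.sum_mul_sum]
    refine Finset.sum_congr rfl fun A _ => Finset.sum_congr rfl fun B _ => ?_
    rw [smul_mul_assoc, mul_smul_comm, smul_smul]
  have e2 : (∑ A, ((z A : ℝ) : ℂ) • T A) * (∑ A, ((y A : ℝ) : ℂ) • T A) =
      ∑ A, ∑ B, (((y A : ℝ) : ℂ) * ((z B : ℝ) : ℂ)) • (T B * T A) := by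
    rw [Finset.sum_mul_sum, Finset.sum_comm]
    refine Finset.sum_congr rfl fun A _ => Finset.sum_congr rfl fun B _ => ?_
    rw [smul_mul_assoc, mul_smul_comm, smul_smul, mul_comm]
  rw [e1, e2, ← Finset.sum_sub_distrib]
  have e3 : ∀ A, ∑ B, (((y A : ℝ) : ℂ) * ((z B : ℝ) : ℂ)) • (T A * T B) -
      ∑ B, (((y A : ℝ) : ℂ) * ((z B : ℝ) : ℂ)) • (T B * T A) =
      ∑ C, ∑ B, ((((y A : ℝ) : ℂ) * ((z B : ℝ) : ℂ)) * (Complex.I * (f A B C : ℂ))) • T C := by
    intro A
    rw [← Finset.sum_sub_distrib, Finset.sum_comm]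
    refine Finset.sum_congr rfl fun B _ => ?_
    rw [← smul_sub, hc, Finset.smul_sum]
    refine Finset.sum_congr rfl fun C _ => ?_
    rw [smul_smul]
  rw [Finset.sum_congr rfl fun A _ => e3 A, Finset.sum_comm]
  refine Finset.sum_eq_zero fun C _ => ?_
  have e4 : ∑ A, ∑ B, ((((y A : ℝ) : ℂ) * ((z B : ℝ) : ℂ)) * (Complex.I * (f A B C : ℂ))) = 0 := by
    have h1 : ((∑ A, ∑ B, f A B C * y A * z B : ℝ) : ℂ) = 0 := by rw [h0 C]; simp
    calc ∑ A, ∑ B, ((((y A : ℝ) : ℂ) * ((z B : ℝ) : ℂ)) * (Complex.I * (f A B C : ℂ)))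
        = Complex.I * ((∑ A, ∑ B, f A B C * y A * z B : ℝ) : ℂ) := by
          push_cast
          rw [Finset.mul_sum]
          refine Finset.sum_congr rfl fun A _ => ?_
          rw [Finset.mul_sum]
          refine Finset.sum_congr rfl fun B _ => ?_
          ring
      _ = 0 := by rw [h1, mul_zero]
  simp_rw [← Finset.sum_smul]
  rw [e4, zero_smul]

/-- **COV4** zeros of the potential are commuting tuples. -/
theorem vcomS {d : ℕ} {F : Type u} [NormedAddCommGroup F] [InnerProductSpace ℂ F] (S : Setup d F) :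
    VcomStmt S := by
  intro N T hT Y hV i j
  refine vcom_aux T S.f hT.comm (fun A => Y (i, A)) (fun A => Y (j, A)) ?_
  intro C
  have h0 : ∑ A, ∑ i, ∑ j, (S.FF A i j Y) ^ 2 = 0 := by
    have : (1 / 4 : ℝ) * ∑ A, ∑ i, ∑ j, (S.FF A i j Y) ^ 2 = 0 := hV
    linarith
  have h1 := (Finset.sum_eq_zero_iff_of_nonneg (fun A _ =>
    Finset.sum_nonneg fun i _ => Finset.sum_nonneg fun j _ => sq_nonneg _)).1 h0
  have h2 := (Finset.sum_eq_zero_iff_of_nonneg (fun i _ =>
    Finset.sum_nonneg fun j _ => sq_nonneg _)).1 (h1 C (Finset.mem_univ C))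
  have h3 := (Finset.sum_eq_zero_iff_of_nonneg (fun j _ => sq_nonneg _)).1 (h2 i (Finset.mem_univ i))
  have h4 : S.FF C i j Y = 0 := pow_eq_zero_iff (two_ne_zero) |>.1 (h3 j (Finset.mem_univ j))
  have h5 : ∑ A, ∑ B, S.f C A B * Y (i, A) * Y (j, B) = 0 :=
    (mul_eq_zero.1 h4).resolve_left S.κ_pos.ne'
  rw [← h5]
  exact Finset.sum_congr rfl fun A _ => Finset.sum_congr rfl fun B _ => by rw [S.f_cyc C A B]

end Vale.Agent.P353.Z.ACov
end

section

/-! # P353, all `N`, block COV: COV7 (helper155, hedge) -/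

open MeasureTheory Filter Topology Matrix
open scoped ContDiff

namespace Vale.Agent.P353.Z.ACov.C155

lemma spec_entry {N : ℕ} (U : Matrix (Fin N) (Fin N) ℂ) (h1 : U.conjTranspose * U = 1) (y y' : Fin N → Fin 9 → ℝ)
    (h : ∀ i, U * (Matrix.diagonal fun p => ((y p i : ℝ) : ℂ)) * U.conjTranspose = Matrix.diagonal fun p => ((y' p i : ℝ) : ℂ))
    (p q : Fin N) (hpq : U p q ≠ 0) : y q = y' p := by
  funext i
  have h2 : U * (Matrix.diagonal fun p => ((y p i : ℝ) : ℂ)) = (Matrix.diagonal fun p => ((y' p i : ℝ) : ℂ)) * U := by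
    rw [← h i, Matrix.mul_assoc, h1, Matrix.mul_one]
  have h3 := congrFun (congrFun h2 p) q
  rw [Matrix.mul_diagonal, Matrix.diagonal_mul, mul_comm] at h3
  have h4 := mul_right_cancel₀ hpq h3
  exact_mod_cast h4

open Classical in
lemma spec_card {N : ℕ} (U : Matrix (Fin N) (Fin N) ℂ) (h1 : U.conjTranspose * U = 1) (h2 : U * U.conjTranspose = 1)
    (y y' : Fin N → Fin 9 → ℝ)
    (h : ∀ i, U * (Matrix.diagonal fun p => ((y p i : ℝ) : ℂ)) * U.conjTranspose = Matrix.diagonal fun p => ((y' p i : ℝ) : ℂ))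
    (v : Fin 9 → ℝ) : (Finset.univ.filter fun p => y p = v).card = (Finset.univ.filter fun p => y' p = v).card := by
  have e1 : ∀ q, ∑ p, star (U p q) * U p q = 1 := by
    intro q
    have := congrFun (congrFun h1 q) q
    rw [Matrix.mul_apply, Matrix.one_apply_eq] at this
    exact this
  have e2 : ∀ p, ∑ q, U p q * star (U p q) = 1 := by
    intro p
    have := congrFun (congrFun h2 p) p
    rw [Matrix.mul_apply, Matrix.one_apply_eq] at this
    exact this
  have f1 : (((Finset.univ.filter fun p => y p = v).card : ℕ) : ℂ) =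
      ∑ q, ∑ p, (if y q = v then 1 else 0) * (star (U p q) * U p q) := by
    rw [Finset.card_filter]
    push_cast
    refine Finset.sum_congr rfl fun q _ => ?_
    rw [← Finset.mul_sum, e1 q, mul_one]
  have f2 : (((Finset.univ.filter fun p => y' p = v).card : ℕ) : ℂ) =
      ∑ p, ∑ q, (if y' p = v then 1 else 0) * (U p q * star (U p q)) := by
    rw [Finset.card_filter]
    push_cast
    refine Finset.sum_congr rfl fun p _ => ?_
    rw [← Finset.mul_sum, e2 p, mul_one]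
  have f3 : (((Finset.univ.filter fun p => y p = v).card : ℕ) : ℂ) =
      (((Finset.univ.filter fun p => y' p = v).card : ℕ) : ℂ) := by
    rw [f1, f2, Finset.sum_comm]
    refine Finset.sum_congr rfl fun p _ => Finset.sum_congr rfl fun q _ => ?_
    by_cases hz : U p q = 0
    · rw [hz]
      simp
    · rw [spec_entry U h1 y y' h p q hz, mul_comm (star (U p q))]
  exact_mod_cast f3

theorem specH : SpecStmt := by
  classical
  intro N U h1 h2 y y' h
  have hc := spec_card U h1 h2 y y' h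
  unfold fsz
  have himg : Finset.univ.image y = Finset.univ.image y' := by
    ext v
    have a1 : v ∈ Finset.univ.image y ↔ 0 < (Finset.univ.filter fun p => y p = v).card := by
      rw [Finset.card_pos]
      constructor
      · intro hv
        obtain ⟨p, -, hp⟩ := Finset.mem_image.1 hv
        exact ⟨p, Finset.mem_filter.2 ⟨Finset.mem_univ _, hp⟩⟩
      · rintro ⟨p, hp⟩
        exact Finset.mem_image.2 ⟨p, Finset.mem_univ _, (Finset.mem_filter.1 hp).2⟩
    have a2 : v ∈ Finset.univ.image y' ↔ 0 < (Finset.univ.filter fun p => y' p = v).card := by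
      rw [Finset.card_pos]
      constructor
      · intro hv
        obtain ⟨p, -, hp⟩ := Finset.mem_image.1 hv
        exact ⟨p, Finset.mem_filter.2 ⟨Finset.mem_univ _, hp⟩⟩
      · rintro ⟨p, hp⟩
        exact Finset.mem_image.2 ⟨p, Finset.mem_univ _, (Finset.mem_filter.1 hp).2⟩
    rw [a1, a2, hc v]
  have hfun : (fun a => (Finset.univ.filter fun p => y p = a).card) = fun a => (Finset.univ.filter fun p => y' p = a).card := by
    funext a
    exact hc a
  convert congrArg₂ (fun (s : Finset (Fin 9 → ℝ)) f => s.val.map f) himg hfun using 1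

end Vale.Agent.P353.Z.ACov.C155
end

section

/-! # P353, all `N`, block COV: COV5 (helper155, hedge) -/

open MeasureTheory Filter Topology Matrix
open scoped ContDiff

namespace Vale.Agent.P353.Z.ACov.C155

theorem permH : PermStmt := by
  intro N hN π
  set ε : Fin N → ℂ := Function.update (fun _ => 1) ⟨0, hN⟩ ((Equiv.Perm.sign π : ℤ) : ℂ) with hε
  have hsq : (((Equiv.Perm.sign π : ℤˣ) : ℤ) : ℂ) * (((Equiv.Perm.sign π : ℤˣ) : ℤ) : ℂ) = 1 := by
    rw [← Int.cast_mul, ← Units.val_mul, Int.units_mul_self]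
    simp
  have hε1 : ∀ p, ε p * star (ε p) = 1 := by
    intro p
    by_cases hp : p = ⟨0, hN⟩
    · subst hp
      simp only [hε, Function.update_self]
      have : star ((((Equiv.Perm.sign π : ℤˣ) : ℤ) : ℂ)) = (((Equiv.Perm.sign π : ℤˣ) : ℤ) : ℂ) := by
        simp
      rw [this]
      exact hsq
    · simp only [hε, Function.update_of_ne hp, star_one, mul_one]
  have hdet : (Matrix.diagonal ε).det = (((Equiv.Perm.sign π : ℤˣ) : ℤ) : ℂ) := by
    rw [Matrix.det_diagonal, Finset.prod_eq_single (⟨0, hN⟩ : Fin N)]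
    · simp only [hε, Function.update_self]
    · intro p _ hp
      simp only [hε, Function.update_of_ne hp]
    · intro h
      exact absurd (Finset.mem_univ _) h
  -- permutation matrix
  set R : Matrix (Fin N) (Fin N) ℂ := Matrix.of fun p q => if p = π q then 1 else 0 with hR
  have hRR : ∀ y : Fin N → ℂ, R * Matrix.diagonal (fun p => y (π p)) * R.conjTranspose = Matrix.diagonal y := by
    intro y
    ext p p'
    rw [Matrix.mul_apply]
    have e : ∀ q, (R * Matrix.diagonal fun p => y (π p)) p q * R.conjTranspose q p' =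
        if p' = π q then (if p = p' then y p else 0) else 0 := by
      intro q
      rw [Matrix.mul_diagonal, Matrix.conjTranspose_apply]
      simp only [hR, Matrix.of_apply]
      by_cases h1 : p' = π q
      · by_cases h2 : p = p'
        · subst h2
          simp [h1]
        · have h3 : p ≠ π q := fun h => h2 (h.trans h1.symm)
          simp [h2, h3]
      · simp [h1]
    rw [Finset.sum_congr rfl fun q _ => e q]
    have e2 : ∀ q, (if p' = π q then (if p = p' then y p else 0) else 0) =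
        if q = π.symm p' then (if p = p' then y p else 0) else 0 := by
      intro q
      have : p' = π q ↔ q = π.symm p' := by
        constructor
        · intro h
          rw [h, Equiv.symm_apply_apply]
        · intro h
          rw [h, Equiv.apply_symm_apply]
      simp only [this]
    rw [Finset.sum_congr rfl fun q _ => e2 q, Finset.sum_ite_eq' Finset.univ (π.symm p'), if_pos (Finset.mem_univ _),
      Matrix.diagonal_apply]
  have hRdet : R.det = (((Equiv.Perm.sign π : ℤˣ) : ℤ) : ℂ) := by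
    have h1 : R = (Equiv.Perm.permMatrix ℂ π⁻¹) := by
      ext p q
      simp only [hR, Matrix.of_apply, Equiv.Perm.permMatrix, PEquiv.toMatrix_apply, Equiv.toPEquiv_apply, Option.mem_def,
        Option.some.injEq]
      have : p = π q ↔ π⁻¹ p = q := by
        rw [Equiv.Perm.inv_eq_iff_eq]
      simp only [this]
    rw [h1, Matrix.det_permutation, Equiv.Perm.sign_inv]
  have hU : (Matrix.diagonal ε * R) * (Matrix.diagonal ε * R).conjTranspose = 1 := by
    rw [Matrix.conjTranspose_mul]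
    have h1 : R * R.conjTranspose = 1 := by
      have := hRR fun _ => 1
      rw [show (Matrix.diagonal fun _ : Fin N => (1 : ℂ)) = 1 from Matrix.diagonal_one, Matrix.mul_one] at this
      exact this
    calc Matrix.diagonal ε * R * (R.conjTranspose * (Matrix.diagonal ε).conjTranspose)
        = Matrix.diagonal ε * (R * R.conjTranspose) * (Matrix.diagonal ε).conjTranspose := by
          simp only [Matrix.mul_assoc]
      _ = 1 := by
          rw [h1, Matrix.mul_one, Matrix.diagonal_conjTranspose, Matrix.diagonal_mul_diagonal]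
          have : (fun i => ε i * star ε i) = fun _ => 1 := funext hε1
          rw [this, Matrix.diagonal_one]
  have hmem : Matrix.diagonal ε * R ∈ Matrix.specialUnitaryGroup (Fin N) ℂ := by
    refine Matrix.mem_specialUnitaryGroup_iff.2 ⟨Matrix.mem_unitaryGroup_iff.2 hU, ?_⟩
    rw [Matrix.det_mul, hdet, hRdet]
    exact hsq
  refine ⟨⟨Matrix.diagonal ε * R, hmem⟩, fun y => ?_⟩
  show Matrix.diagonal ε * R * Matrix.diagonal (fun p => y (π p)) * (Matrix.diagonal ε * R).conjTranspose = _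
  rw [Matrix.conjTranspose_mul]
  calc Matrix.diagonal ε * R * Matrix.diagonal (fun p => y (π p)) * (R.conjTranspose * (Matrix.diagonal ε).conjTranspose)
      = Matrix.diagonal ε * (R * Matrix.diagonal (fun p => y (π p)) * R.conjTranspose) * (Matrix.diagonal ε).conjTranspose := by
        simp only [Matrix.mul_assoc]
    _ = Matrix.diagonal y := by
        rw [hRR, Matrix.diagonal_conjTranspose, Matrix.diagonal_mul_diagonal, Matrix.diagonal_mul_diagonal]
        congr 1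
        funext p
        have h2 := hε1 p
        calc ε p * y p * star (ε p) = (ε p * star (ε p)) * y p := by ring
          _ = y p := by rw [h2, one_mul]

end Vale.Agent.P353.Z.ACov.C155
end

section

/-! # P353, all `N`, block COV: the unconditional theorems `covM`, `disM` (helper155) -/

open MeasureTheory Filter Topology Matrix
open scoped ContDiff

namespace Vale.Agent.P353.Z.ACov

universe u

variable {N d : ℕ} {F : Type u} [NormedAddCommGroup F] [InnerProductSpace ℂ F]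

/-- **COV** both parts -/
theorem covDisM (M : BFSS.Model N d F) : CovStmt M ∧ DisStmt M :=
  covOf M (mxS M) C155.ptH diagS (fun S => vcomS S) C155.permH combS C155.specH
    (fun _ _ _ _ _ _ _ _ _ f fr => ANF.val_stmt f fr)

/-- **COV** first part: every commuting tuple reaches a frame point -/
theorem covM (M : BFSS.Model N d F) : CovStmt M := (covDisM M).1

/-- **COV** second part: points of different types are not conjugate -/
theorem disM (M : BFSS.Model N d F) : DisStmt M := (covDisM M).2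

end Vale.Agent.P353.Z.ACov
end

section

/-! # P353, all `N`, block E: EG-LocG, limit equation for the slice functional (helper980) -/

open MeasureTheory Filter Topology Matrix
open scoped ContDiff ENNReal

namespace Vale.Agent.P353.Z.AE

variable {d dh dm r ds : ℕ} {F : Type*} [NormedAddCommGroup F] [InnerProductSpace ℂ F]

/-- the linear isomorphism `x ↦ (x^z, x^s)` -/
noncomputable def lgT0 (ψ : Spl r ds dh) : Cfg dh ≃ₗ[ℝ] Cfg r × Cfg ds where
  toFun := fun x => (zpt ψ x, spt ψ x)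
  map_add' := by intro x y; rfl
  map_smul' := by intro c x; rfl
  invFun := fun q => cmb ψ q.1 q.2
  left_inv := cmb_eta ψ
  right_inv := fun q => Prod.ext (zpt_cmb ψ q.1 q.2) (spt_cmb ψ q.1 q.2)

/-- the linear isomorphism `x ↦ (x^z / R, x^s)` -/
noncomputable def lgT (ψ : Spl r ds dh) (R : ℝ) (hR : 0 < R) : Cfg dh ≃L[ℝ] Cfg r × Cfg ds :=
  ((lgT0 ψ).trans ((LinearEquiv.smulOfNeZero ℝ (Cfg r) R⁻¹ (inv_ne_zero hR.ne')).prodCongr
      (LinearEquiv.refl ℝ (Cfg ds)))).toContinuousLinearEquiv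

theorem lgT_apply (ψ : Spl r ds dh) (R : ℝ) (hR : 0 < R) (x : Cfg dh) :
    lgT ψ R hR x = (R⁻¹ • zpt ψ x, spt ψ x) := rfl

theorem lg_memF (ψ : Spl r ds dh) {R : ℝ} (hR : 0 < R) {G : Cfg r → Cfg ds → F}
    (hG : MemLp (fun q : Cfg r × Cfg ds => G q.1 q.2) 2
      ((volume : Measure (Cfg r)).prod (volume : Measure (Cfg ds)))) :
    MemLp (fun x : Cfg dh => G (R⁻¹ • zpt ψ x) (spt ψ x)) 2 (volume : Measure (Cfg dh)) := by
  have h1 : (Measure.map (lgT ψ R hR) (volume : Measure (Cfg dh))).IsAddHaarMeasure :=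
    (lgT ψ R hR).isAddHaarMeasure_map _
  have h5 : ((volume : Measure (Cfg r)).prod (volume : Measure (Cfg ds))).IsAddHaarMeasure :=
    Measure.prod.instIsAddHaarMeasure _ _
  have h2 := Measure.isAddLeftInvariant_eq_smul (Measure.map (lgT ψ R hR) (volume : Measure (Cfg dh)))
    ((volume : Measure (Cfg r)).prod (volume : Measure (Cfg ds)))
  have h3 : MemLp (fun q : Cfg r × Cfg ds => G q.1 q.2) 2
      (Measure.map (lgT ψ R hR) (volume : Measure (Cfg dh))) := by
    rw [h2]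
    exact hG.smul_measure (by simp)
  exact (memLp_map_measure_iff h3.1 (lgT ψ R hR).continuous.aemeasurable).1 h3

theorem lg_mem (ψ : Spl r ds dh) {U : Set (Cfg r)} (hU : IsOpen U) {R : ℝ} (hR : 0 < R)
    {G : Cfg r → Cfg ds → F} (hG : MemLp (fun q : Cfg r × Cfg ds => G q.1 q.2) 2
      ((volume : Measure (Cfg r)).prod (volume : Measure (Cfg ds)))) {k : Cfg dh → Wsp dm → ℝ}
    (hk : ContinuousOn (fun p : Cfg dh × Wsp dm => k p.1 p.2) {p | R⁻¹ • zpt ψ p.1 ∈ U}) {M b : ℝ}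
    (hb : 0 < b) (hsup : ∀ η s, G η s ≠ 0 → η ∈ U)
    (hbd : ∀ x w, G (R⁻¹ • zpt ψ x) (spt ψ x) ≠ 0 → |k x w| ≤ M * Real.exp (-(b * ‖w‖ ^ 2))) :
    MemLp (fun p : Cfg dh × Wsp dm => ((k p.1 p.2 : ℝ) : ℂ) • G (R⁻¹ • zpt ψ p.1) (spt ψ p.1)) 2
      ((volume : Measure (Cfg dh)).prod (volume : Measure (Wsp dm))) := by
  have hF := lg_memF ψ hR hG
  have hz : Continuous fun p : Cfg dh × Wsp dm => R⁻¹ • zpt ψ p.1 := by
    have := zpt_cont ψ
    fun_prop
  have hWo : IsOpen {p : Cfg dh × Wsp dm | R⁻¹ • zpt ψ p.1 ∈ U} := hU.preimage hz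
  have e : (fun p : Cfg dh × Wsp dm => ((k p.1 p.2 : ℝ) : ℂ) • G (R⁻¹ • zpt ψ p.1) (spt ψ p.1)) =
      fun p => (({p : Cfg dh × Wsp dm | R⁻¹ • zpt ψ p.1 ∈ U}.indicator
        (fun p : Cfg dh × Wsp dm => k p.1 p.2) p : ℝ) : ℂ) • G (R⁻¹ • zpt ψ p.1) (spt ψ p.1) := by
    funext p
    by_cases hp : R⁻¹ • zpt ψ p.1 ∈ U
    · rw [Set.indicator_of_mem (by exact hp)]
    · have h0 : G (R⁻¹ • zpt ψ p.1) (spt ψ p.1) = 0 := by
        by_contra h0
        exact hp (hsup _ _ h0)
      rw [h0, smul_zero, smul_zero]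
  have hm : AEStronglyMeasurable (fun p : Cfg dh × Wsp dm =>
      ((k p.1 p.2 : ℝ) : ℂ) • G (R⁻¹ • zpt ψ p.1) (spt ψ p.1))
      ((volume : Measure (Cfg dh)).prod (volume : Measure (Wsp dm))) := by
    rw [e]
    have h1 : AEStronglyMeasurable (({p : Cfg dh × Wsp dm | R⁻¹ • zpt ψ p.1 ∈ U}.indicator
        (fun p : Cfg dh × Wsp dm => k p.1 p.2)))
        ((volume : Measure (Cfg dh)).prod (volume : Measure (Wsp dm))) := by
      rw [aestronglyMeasurable_indicator_iff hWo.measurableSet]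
      exact hk.aestronglyMeasurable hWo.measurableSet
    exact (Complex.continuous_ofReal.comp_aestronglyMeasurable h1).smul hF.1.comp_fst
  rw [memLp_two_iff_integrable_sq_norm hm]
  have hg : Integrable (fun w : Wsp dm => Real.exp (-(2 * b * ‖w‖ ^ 2))) := by
    have := GaussianFourier.integrable_cexp_neg_mul_sq_norm_add (V := Wsp dm) (b := ((2 * b : ℝ) : ℂ))
      (by simpa using hb) 0 0
    have h2 := this.re
    refine h2.congr (Eventually.of_forall fun x => ?_)
    simp only [inner_zero_left, Complex.ofReal_zero, mul_zero, add_zero]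
    rw [show (-((2 * b : ℝ) : ℂ) * (‖x‖ : ℂ) ^ 2) = ((-(2 * b * ‖x‖ ^ 2) : ℝ) : ℂ) by push_cast; ring,
      ← Complex.ofReal_exp]
    exact Complex.ofReal_re _
  have h2 := (((memLp_two_iff_integrable_sq_norm hF.1).1 hF).mul_prod hg).const_mul (M ^ 2)
  refine h2.mono' (hm.norm.pow 2) (ae_of_all _ fun p => ?_)
  rw [Real.norm_eq_abs, abs_of_nonneg (by positivity), norm_smul, Complex.norm_real, mul_pow,
    Real.norm_eq_abs]
  by_cases h0 : G (R⁻¹ • zpt ψ p.1) (spt ψ p.1) = 0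
  · rw [h0, norm_zero]
    simp
  · have h3 := hbd p.1 p.2 h0
    have h4 : |k p.1 p.2| ^ 2 ≤ M ^ 2 * Real.exp (-(2 * b * ‖p.2‖ ^ 2)) := by
      calc |k p.1 p.2| ^ 2 ≤ (M * Real.exp (-(b * ‖p.2‖ ^ 2))) ^ 2 :=
            pow_le_pow_left₀ (abs_nonneg _) h3 2
        _ = M ^ 2 * Real.exp (-(2 * b * ‖p.2‖ ^ 2)) := by
            rw [mul_pow, ← Real.exp_nat_mul]
            congr 2
            push_cast
            ring
    calc |k p.1 p.2| ^ 2 * ‖G (R⁻¹ • zpt ψ p.1) (spt ψ p.1)‖ ^ 2 ≤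
          (M ^ 2 * Real.exp (-(2 * b * ‖p.2‖ ^ 2))) * ‖G (R⁻¹ • zpt ψ p.1) (spt ψ p.1)‖ ^ 2 :=
          mul_le_mul_of_nonneg_right h4 (by positivity)
      _ = _ := by ring

theorem lg_cut : ∃ c : ℝ → ℝ, IsCt c ∧ ∀ t, 9 / 16 ≤ t → c t = 0 := by
  refine ⟨fun t => 1 - Real.smoothTransition ((t - 1 / 4) * (16 / 5)), ⟨?_, ?_, ?_, ?_⟩, ?_⟩
  · exact contDiff_const.sub (Real.smoothTransition.contDiff.comp
      ((contDiff_id.sub contDiff_const).mul contDiff_const))
  · intro t ht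
    show 1 - Real.smoothTransition _ = 1
    rw [Real.smoothTransition.zero_of_nonpos (by linarith)]
    ring
  · intro t ht
    show 1 - Real.smoothTransition _ = 0
    rw [Real.smoothTransition.one_of_one_le (by linarith)]
    ring
  · intro t
    have h1 := Real.smoothTransition.nonneg ((t - 1 / 4) * (16 / 5))
    have h2 := Real.smoothTransition.le_one ((t - 1 / 4) * (16 / 5))
    exact ⟨by linarith, by linarith⟩
  · intro t ht
    show 1 - Real.smoothTransition _ = 0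
    rw [Real.smoothTransition.one_of_one_le (by linarith)]
    ring

theorem lg_nrm {α : Type*} [MeasurableSpace α] {μ : Measure α} {f : α → F} (hf : MemLp f 2 μ) :
    eLpNorm f 2 μ = ENNReal.ofReal (Real.sqrt (∫ x, ‖f x‖ ^ 2 ∂μ)) := by
  have h := AN.glu_real_sq hf
  have h1 : eLpNorm f 2 μ = ENNReal.ofReal (eLpNorm f 2 μ).toReal := (ENNReal.ofReal_toReal hf.2.ne).symm
  have h0 : 0 ≤ ∫ x, ‖f x‖ ^ 2 ∂μ := integral_nonneg fun x => sq_nonneg _
  rw [h1, ← ENNReal.ofReal_pow ENNReal.toReal_nonneg,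
    ENNReal.ofReal_eq_ofReal_iff h0 (by positivity)] at h
  rw [h1, h, Real.sqrt_sq ENNReal.toReal_nonneg, ← h1]
  
theorem lg_cs {α : Type*} [MeasurableSpace α] {μ : ℕ → Measure α} {f g : ℕ → α → F} {C : ℝ}
    (hf : ∀ n, MemLp (f n) 2 (μ n)) (hg : ∀ n, MemLp (g n) 2 (μ n))
    (h0 : Tendsto (fun n => ∫ x, ‖f n x‖ ^ 2 ∂(μ n)) atTop (𝓝 0))
    (hC : ∀ n, ∫ x, ‖g n x‖ ^ 2 ∂(μ n) ≤ C) :
    Tendsto (fun n => ∫ x, inner ℂ (f n x) (g n x) ∂(μ n)) atTop (𝓝 0) := by
  have h1 : ∀ n, ‖∫ x, inner ℂ (f n x) (g n x) ∂(μ n)‖ ≤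
      Real.sqrt (∫ x, ‖f n x‖ ^ 2 ∂(μ n)) * Real.sqrt C := by
    intro n
    have h2 := AN.glu_cs (hf n).1 (hg n).1
    rw [lg_nrm (hf n), lg_nrm (hg n), ← ENNReal.ofReal_mul (Real.sqrt_nonneg _), ← ofReal_norm,
      ENNReal.ofReal_le_ofReal_iff (by positivity)] at h2
    exact h2.trans (mul_le_mul_of_nonneg_left (Real.sqrt_le_sqrt (hC n)) (Real.sqrt_nonneg _))
  refine squeeze_zero_norm h1 ?_
  have h3 := (Real.continuous_sqrt.tendsto 0).comp h0
  rw [Real.sqrt_zero] at h3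
  simpa using h3.mul_const (Real.sqrt C)

section TA

variable {S : Setup d F} {φ : Spl dh dm d} {ψ : Spl r ds dh} {U : Set (Cfg r)}
  {Om : Cfg r → Matrix (Fin dm) (Fin dm) ℝ} {V : Cfg r → F →L[ℂ] F} {K : Submodule ℂ F}

theorem lg_inU {y₀ : Cfg r} {ε0 C0 : ℝ} (bf : BzFacts S φ ψ U Om y₀ ε0 C0) {η : Cfg r} (h : ‖η - y₀‖ ≤ ε0) :
    η ∈ U := by
  refine bf.inU 1 one_pos η ?_
  rw [one_smul, mul_one]
  exact h

theorem lg_ray {y₀ y : Cfg r} {ρ R : ℝ} (hR : 0 < R) (h : ‖R⁻¹ • y - y₀‖ ≤ ρ) : ‖y - R • y₀‖ ≤ ρ * R := by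
  have e : y - R • y₀ = R • (R⁻¹ • y - y₀) := by
    rw [smul_sub, smul_inv_smul₀ hR.ne']
  rw [e, norm_smul, Real.norm_eq_abs, abs_of_pos hR, mul_comm]
  exact mul_le_mul_of_nonneg_right h hR.le

theorem lg_U (hV : S.VFr φ ψ U Om V K) {R : ℝ} (hR : 0 < R) {y : Cfg r} (h : R⁻¹ • y ∈ U) : y ∈ U := by
  have := hV.cone _ h R hR
  rwa [smul_inv_smul₀ hR.ne'] at this

theorem lg_Vh (hV : S.VFr φ ψ U Om V K) {R : ℝ} (hR : 0 < R) {y : Cfg r} (h : R⁻¹ • y ∈ U) :
    V y = V (R⁻¹ • y) := by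
  have := hV.v_h _ h R hR
  rwa [smul_inv_smul₀ hR.ne'] at this

/-- the trial functions are in `L²` -/
theorem lg_memT (hV : S.VFr φ ψ U Om V K) {y₀ : Cfg r} {ε0 C0 : ℝ} (hC0 : 0 < C0)
    (bf : BzFacts S φ ψ U Om y₀ ε0 C0) {c : ℝ → ℝ} (hc : IsCt c) {ε R : ℝ} (hR : 0 < R)
    {a : Cfg r → Cfg ds → F} (ha : ∀ η s, a η s ≠ 0 → ‖η - y₀‖ ≤ ε0)
    (hm : MemLp (fun q : Cfg r × Cfg ds => V q.1 (a q.1 q.2)) 2 (volume.prod volume)) :
    MemLp (fun p : Cfg dh × Wsp dm => S.TR φ ψ Om V c ε R a p.1 p.2) 2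
      ((volume : Measure (Cfg dh)).prod (volume : Measure (Wsp dm))) := by
  have hU : ∀ η s, a η s ≠ 0 → η ∈ U := fun η s h => lg_inU bf (ha η s h)
  have hG : ∀ η s, V η (a η s) ≠ 0 → a η s ≠ 0 := fun η s h h0 => h (by rw [h0, map_zero])
  have hk : ContinuousOn (fun p : Cfg dh × Wsp dm => (Real.sqrt R ^ (9 * r))⁻¹ * c (‖p.2‖ ^ 2 / (ε * R) ^ 2) *
      S.bz φ ψ Om (zpt ψ p.1) p.2) {p | R⁻¹ • zpt ψ p.1 ∈ U} := by
    have h2 : Continuous fun p : Cfg dh × Wsp dm => c (‖p.2‖ ^ 2 / (ε * R) ^ 2) :=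
      hc.sm.continuous.comp ((continuous_snd.norm.pow 2).div_const _)
    refine ContinuousOn.mul (continuous_const.mul h2).continuousOn ?_
    refine bf.sm.continuousOn.comp (f := fun p : Cfg dh × Wsp dm => (zpt ψ p.1, p.2))
      (((zpt_cont ψ).comp continuous_fst).prodMk continuous_snd).continuousOn ?_
    intro p hp
    exact ⟨lg_U hV hR hp, trivial⟩
  have hb : ∀ (x : Cfg dh) (w : Wsp dm), V (R⁻¹ • zpt ψ x) (a (R⁻¹ • zpt ψ x) (spt ψ x)) ≠ 0 →
      |(Real.sqrt R ^ (9 * r))⁻¹ * c (‖w‖ ^ 2 / (ε * R) ^ 2) * S.bz φ ψ Om (zpt ψ x) w| ≤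
        ((Real.sqrt R ^ (9 * r))⁻¹ * (C0 * Real.sqrt R ^ (4 * dm))) * Real.exp (-(R / C0 * ‖w‖ ^ 2)) := by
    intro x w h
    have h1 := ha _ _ (hG _ _ h)
    have h2 := bf.up R hR (zpt ψ x) (lg_ray hR h1) w
    have h3 := (bf.pos _ (lg_U hV hR (lg_inU bf h1)) w).le
    have h4 := hc.bd (‖w‖ ^ 2 / (ε * R) ^ 2)
    rw [abs_of_nonneg (mul_nonneg (mul_nonneg (by positivity) h4.1) h3)]
    have h5 : R * ‖w‖ ^ 2 / C0 = R / C0 * ‖w‖ ^ 2 := by ring
    rw [h5] at h2
    have h6 : c (‖w‖ ^ 2 / (ε * R) ^ 2) * S.bz φ ψ Om (zpt ψ x) w ≤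
        1 * (C0 * Real.sqrt R ^ (4 * dm) * Real.exp (-(R / C0 * ‖w‖ ^ 2))) :=
      mul_le_mul h4.2 h2 h3 zero_le_one
    have h7 : (0 : ℝ) ≤ (Real.sqrt R ^ (9 * r))⁻¹ := by positivity
    calc _ = (Real.sqrt R ^ (9 * r))⁻¹ * (c (‖w‖ ^ 2 / (ε * R) ^ 2) * S.bz φ ψ Om (zpt ψ x) w) := by ring
      _ ≤ (Real.sqrt R ^ (9 * r))⁻¹ * (1 * (C0 * Real.sqrt R ^ (4 * dm) * Real.exp (-(R / C0 * ‖w‖ ^ 2)))) :=
          mul_le_mul_of_nonneg_left h6 h7
      _ = _ := by ring
  have key := lg_mem (dm := dm) ψ hV.opn hR (G := fun η s => V η (a η s)) hm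
    (k := fun x w => (Real.sqrt R ^ (9 * r))⁻¹ * c (‖w‖ ^ 2 / (ε * R) ^ 2) * S.bz φ ψ Om (zpt ψ x) w)
    hk (M := (Real.sqrt R ^ (9 * r))⁻¹ * (C0 * Real.sqrt R ^ (4 * dm))) (b := R / C0) (by positivity)
    (fun η s h => hU η s (hG η s h)) hb
  have e : (fun p : Cfg dh × Wsp dm => S.TR φ ψ Om V c ε R a p.1 p.2) = fun p =>
      (((Real.sqrt R ^ (9 * r))⁻¹ * c (‖p.2‖ ^ 2 / (ε * R) ^ 2) * S.bz φ ψ Om (zpt ψ p.1) p.2 : ℝ) : ℂ) •
        V (R⁻¹ • zpt ψ p.1) (a (R⁻¹ • zpt ψ p.1) (spt ψ p.1)) := by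
    funext p
    show (_ : ℂ) • V (zpt ψ p.1) (a (R⁻¹ • zpt ψ p.1) (spt ψ p.1)) = _
    by_cases h0 : a (R⁻¹ • zpt ψ p.1) (spt ψ p.1) = 0
    · rw [h0, map_zero, map_zero]
    · rw [lg_Vh hV hR (hU _ _ h0)]
  rw [e]
  exact key

/-- the scaled sections are in `L²` -/
theorem lg_memA (hV : S.VFr φ ψ U Om V K) {y₀ : Cfg r} {ε0 C0 : ℝ} (hC0 : 0 < C0)
    (bf : BzFacts S φ ψ U Om y₀ ε0 C0) {R : ℝ} (hR : 0 < R)
    {a : Cfg r → Cfg ds → F} (ha : ∀ η s, a η s ≠ 0 → ‖η - y₀‖ ≤ ε0)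
    (hm : MemLp (fun q : Cfg r × Cfg ds => V q.1 (a q.1 q.2)) 2 (volume.prod volume)) :
    MemLp (fun p : Cfg dh × Wsp dm => AN.Ts0 ψ (AN.vG S φ ψ Om (fun η s => V η (a η s))) R p.1 p.2) 2
      ((volume : Measure (Cfg dh)).prod (volume : Measure (Wsp dm))) := by
  have hU : ∀ η s, a η s ≠ 0 → η ∈ U := fun η s h => lg_inU bf (ha η s h)
  have hG : ∀ η s, V η (a η s) ≠ 0 → a η s ≠ 0 := fun η s h h0 => h (by rw [h0, map_zero])
  have hk : ContinuousOn (fun p : Cfg dh × Wsp dm => R ^ (2 * (dm : ℝ) - 9 * (r : ℝ) / 2) *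
      S.bz φ ψ Om (R⁻¹ • zpt ψ p.1) (Real.sqrt R • p.2)) {p | R⁻¹ • zpt ψ p.1 ∈ U} := by
    refine continuousOn_const.mul ?_
    have hz : Continuous fun p : Cfg dh × Wsp dm => (R⁻¹ • zpt ψ p.1, Real.sqrt R • p.2) := by
      have := zpt_cont ψ
      fun_prop
    refine bf.sm.continuousOn.comp (f := fun p : Cfg dh × Wsp dm => (R⁻¹ • zpt ψ p.1, Real.sqrt R • p.2))
      hz.continuousOn ?_
    intro p hp
    exact ⟨hp, trivial⟩
  have hp0 : 0 < R ^ (2 * (dm : ℝ) - 9 * (r : ℝ) / 2) := Real.rpow_pos_of_pos hR _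
  have hb : ∀ (x : Cfg dh) (w : Wsp dm), V (R⁻¹ • zpt ψ x) (a (R⁻¹ • zpt ψ x) (spt ψ x)) ≠ 0 →
      |R ^ (2 * (dm : ℝ) - 9 * (r : ℝ) / 2) * S.bz φ ψ Om (R⁻¹ • zpt ψ x) (Real.sqrt R • w)| ≤
        (R ^ (2 * (dm : ℝ) - 9 * (r : ℝ) / 2) * C0) * Real.exp (-(R / C0 * ‖w‖ ^ 2)) := by
    intro x w h
    have h1 := ha _ _ (hG _ _ h)
    have h2 := bf.up 1 one_pos (R⁻¹ • zpt ψ x) (by rw [one_smul, mul_one]; exact h1) (Real.sqrt R • w)
    have h3 := (bf.pos _ (lg_inU bf h1) (Real.sqrt R • w)).le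
    rw [abs_of_nonneg (mul_nonneg hp0.le h3)]
    have h5 : 1 * ‖Real.sqrt R • w‖ ^ 2 / C0 = R / C0 * ‖w‖ ^ 2 := by
      rw [norm_smul, mul_pow, Real.norm_eq_abs, sq_abs, Real.sq_sqrt hR.le]
      ring
    rw [h5, Real.sqrt_one, one_pow, mul_one] at h2
    calc _ ≤ R ^ (2 * (dm : ℝ) - 9 * (r : ℝ) / 2) * (C0 * Real.exp (-(R / C0 * ‖w‖ ^ 2))) :=
          mul_le_mul_of_nonneg_left h2 hp0.le
      _ = _ := by ring
  have key := lg_mem (dm := dm) ψ hV.opn hR (G := fun η s => V η (a η s)) hm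
    (k := fun x w => R ^ (2 * (dm : ℝ) - 9 * (r : ℝ) / 2) * S.bz φ ψ Om (R⁻¹ • zpt ψ x) (Real.sqrt R • w))
    hk (M := R ^ (2 * (dm : ℝ) - 9 * (r : ℝ) / 2) * C0) (b := R / C0) (by positivity)
    (fun η s h => hU η s (hG η s h)) hb
  have e : (fun p : Cfg dh × Wsp dm => AN.Ts0 ψ (AN.vG S φ ψ Om (fun η s => V η (a η s))) R p.1 p.2) = fun p =>
      ((R ^ (2 * (dm : ℝ) - 9 * (r : ℝ) / 2) * S.bz φ ψ Om (R⁻¹ • zpt ψ p.1) (Real.sqrt R • p.2) : ℝ) : ℂ) •
        V (R⁻¹ • zpt ψ p.1) (a (R⁻¹ • zpt ψ p.1) (spt ψ p.1)) := by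
    funext p
    rw [Complex.ofReal_mul, mul_smul]
    rfl
  rw [e]
  exact key

/-- support of the derivative profile -/
theorem lg_DF {N : Fin 9 → Matrix (Fin 16) (Fin 16) ℂ} {μ : ℝ} {β : Fin 16} {ζ : Cfg r → ℂ} {Φ : Cfg ds → F}
    {y : Cfg r} {s : Cfg ds} (h : S.DF φ ψ N μ β (pp ζ Φ) y s ≠ 0) : y ∈ tsupport ζ ∧ Φ s ≠ 0 := by
  constructor
  · by_contra hy
    apply h
    have h1 : ζ =ᶠ[𝓝 y] 0 := notMem_tsupport_iff_eventuallyEq.1 hy
    have h2 : (fun y' => pp ζ Φ y' s) =ᶠ[𝓝 y] fun _ => (0 : F) := by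
      filter_upwards [h1] with y' hy'
      show ζ y' • Φ s = 0
      rw [hy', Pi.zero_apply, zero_smul]
    have h3 : ∀ i A, pd i A (fun y' => pp ζ Φ y' s) y = 0 := by
      intro i A
      show fderiv ℝ (fun y' => pp ζ Φ y' s) y _ = 0
      rw [h2.fderiv_eq, fderiv_fun_const]
      rfl
    have h4 : pp ζ Φ y s = 0 := h2.self_of_nhds
    unfold Setup.DF
    simp only [h3, h4, map_zero, smul_zero, Finset.sum_const_zero, add_zero]
  · intro hs
    apply h
    have h2 : (fun y' => pp ζ Φ y' s) = fun _ => (0 : F) := by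
      funext y'
      show ζ y' • Φ s = 0
      rw [hs, smul_zero]
    have h3 : ∀ i A, pd i A (fun y' => pp ζ Φ y' s) y = 0 := by
      intro i A
      show fderiv ℝ (fun y' => pp ζ Φ y' s) y _ = 0
      rw [h2, fderiv_fun_const]
      rfl
    have h4 : pp ζ Φ y s = 0 := congrFun h2 y
    unfold Setup.DF
    simp only [h3, h4, map_zero, smul_zero, Finset.sum_const_zero, add_zero]

/-- support of the trial functions -/
theorem lg_sup {y₀ : Cfg r} {c : ℝ → ℝ} (hc0 : ∀ t, 9 / 16 ≤ t → c t = 0) {ε R η : ℝ} (hε : 0 < ε) (hR : 0 < R)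
    (hη : η ≤ ε / 2) {a : Cfg r → Cfg ds → F} (ha : ∀ y s, a y s ≠ 0 → ‖y - y₀‖ < ε / 2 ∧ ‖s‖ ≤ η * R)
    {y : Cfg dh} {w : Wsp dm} (h : S.TR φ ψ Om V c ε R a y w ≠ 0) :
    ‖y - R • cmb ψ y₀ 0‖ < 3 / 4 * ε * R ∧ ‖w‖ < 3 / 4 * ε * R := by
  have hεR : 0 < ε * R := mul_pos hε hR
  constructor
  · have h1 : a (R⁻¹ • zpt ψ y) (spt ψ y) ≠ 0 := by
      intro h0
      apply h
      show (_ : ℂ) • V (zpt ψ y) (a (R⁻¹ • zpt ψ y) (spt ψ y)) = 0
      rw [h0, map_zero, smul_zero]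
    obtain ⟨h2, h3⟩ := ha _ _ h1
    have h4 := lg_ray hR h2.le
    have h5 := norm_sub_ray ψ y y₀ R
    have h6 : ‖spt ψ y‖ ≤ ε / 2 * R := h3.trans (mul_le_mul_of_nonneg_right hη hR.le)
    have h7 : ‖y - R • cmb ψ y₀ 0‖ ^ 2 < (3 / 4 * ε * R) ^ 2 := by
      rw [h5]
      nlinarith [norm_nonneg (zpt ψ y - R • y₀), norm_nonneg (spt ψ y)]
    exact lt_of_pow_lt_pow_left₀ 2 (by positivity) h7
  · by_contra h0
    push Not at h0
    apply h
    have h1 : 9 / 16 ≤ ‖w‖ ^ 2 / (ε * R) ^ 2 := by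
      rw [le_div_iff₀ (by positivity)]
      have := pow_le_pow_left₀ (by positivity) h0 2
      nlinarith
    have h2 := hc0 _ h1
    show (((Real.sqrt R ^ (9 * r))⁻¹ * c (‖w‖ ^ 2 / (ε * R) ^ 2) * S.bz φ ψ Om (zpt ψ y) w : ℝ) : ℂ) • _ = (0 : F)
    rw [h2]
    simp

end TA

/-- squared norms of approximants -/
theorem lg_nsq {f g : Cfg ds → F} (hf : MemLp f 2 (volume : Measure (Cfg ds))) (hg : MemLp g 2 (volume : Measure (Cfg ds))) :
    nsq f ≤ 2 * nsq (fun s => f s - g s) + 2 * nsq g := by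
  have i1 := (memLp_two_iff_integrable_sq_norm hf.1).1 hf
  have i2 := (memLp_two_iff_integrable_sq_norm hg.1).1 hg
  have i3 := (memLp_two_iff_integrable_sq_norm (hf.sub hg).1).1 (hf.sub hg)
  unfold nsq
  rw [← integral_const_mul, ← integral_const_mul, ← integral_add]
  · refine integral_mono i1 ((i3.const_mul 2).add (i2.const_mul 2)) fun s => ?_
    show ‖f s‖ ^ 2 ≤ 2 * ‖f s - g s‖ ^ 2 + 2 * ‖g s‖ ^ 2
    have h1 : ‖f s‖ ≤ ‖f s - g s‖ + ‖g s‖ := by
      simpa using norm_add_le (f s - g s) (g s)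
    have h2 := pow_le_pow_left₀ (norm_nonneg _) h1 2
    nlinarith [sq_nonneg (‖f s - g s‖ - ‖g s‖)]
  · exact i3.const_mul 2
  · exact i2.const_mul 2

/-- integral against a function supported in `s` -/
theorem lg_ip {α : Type*} [MeasurableSpace α] {μ : Measure α} {s : Set α} {T X Y : α → F}
    (h : ∀ p, T p ≠ 0 → p ∈ s ∧ X p = Y p) :
    ∫ p, inner ℂ (T p) (X p) ∂μ = ∫ p in s, inner ℂ (T p) (Y p) ∂μ := by
  have h1 : ∀ p, inner ℂ (T p) (X p) = (inner ℂ (T p) (Y p) : ℂ) := by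
    intro p
    by_cases h0 : T p = 0
    · rw [h0, inner_zero_left, inner_zero_left]
    · rw [(h p h0).2]
  simp_rw [h1]
  refine (setIntegral_eq_integral_of_forall_compl_eq_zero fun p hp => ?_).symm
  have h0 : T p = 0 := by
    by_contra h0
    exact hp (h p h0).1
  rw [h0, inner_zero_left]

theorem lg_sub {α : Type*} [MeasurableSpace α] {μ : Measure α} {A T X : α → F} (hA : MemLp A 2 μ) (hT : MemLp T 2 μ)
    (hX : MemLp X 2 μ) :
    ∫ p, inner ℂ (A p) (X p) ∂μ - ∫ p, inner ℂ (T p) (X p) ∂μ = ∫ p, inner ℂ (A p - T p) (X p) ∂μ := by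
  rw [← integral_sub (AN.glu_int hA hX) (AN.glu_int hT hX)]
  refine integral_congr_ae (ae_of_all _ fun p => ?_)
  exact (inner_sub_left _ _ _).symm

/-- **EG-LocG** -/
theorem locG (S : Setup d F) (φ : Spl dh dm d) (ψ : Spl r ds dh) (hLoc : LocStmt S φ ψ) (hBz : BzStmt S φ ψ)
    (hCut : CutGStmt S φ) (hTL : TLStmt S φ ψ) (hQ : QInvStmt S) : LocGStmt S φ ψ := by
  intro iF hφ hc N hN U Om V K hV y₀ hy₀ hStd
  obtain ⟨c, hct, hct0⟩ := lg_cut
  obtain ⟨ε1, hε1, H1⟩ := hLoc iF hφ hc N hN U Om V K hV y₀ hy₀ hStd c hct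
  obtain ⟨ε2, C0, hε2, hC0, bf⟩ := hBz hφ hc U Om V K hV y₀ hy₀
  obtain ⟨ε3, hε3, H3⟩ := hCut iF N hN.real (cmb ψ y₀ 0) hStd
  refine ⟨min ε1 (min ε2 ε3), lt_min hε1 (lt_min hε2 hε3), ?_⟩
  intro ε hε hεle ζ hζ hζs μ hμ o ho R u C hu β
  have hle1 : ε ≤ ε1 := hεle.trans (min_le_left _ _)
  have hle2 : ε ≤ ε2 := hεle.trans ((min_le_right _ _).trans (min_le_left _ _))
  have hle3 : ε ≤ ε3 := hεle.trans ((min_le_right _ _).trans (min_le_right _ _))
  obtain ⟨C3, hC3, H3⟩ := H3 ε hε hle3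
  have Hres := fun n => (H3 (R n) (hu.one n)).1
  choose Θ hΘ1 hΘ2 hΘ3 hΘ4 hΘ5 using fun n => (H3 (R n) (hu.one n)).2
  obtain ⟨η, Φ, ia⟩ := ho.app R hu.one hu.lim
  have hR : ∀ n, 0 < R n := fun n => one_pos.trans_le (hu.one n)
  have hΦm : ∀ n, MemLp (Φ n) 2 (volume : Measure (Cfg ds)) := fun n => (ia.intf n).tst.memLp
  have hC : 0 ≤ C := (integral_nonneg fun x => sq_nonneg _).trans (hu.nrm 0)
  have sp : ∀ (Ψ : Cfg ds → F) y s, pp ζ Ψ y s ≠ 0 → y ∈ tsupport ζ ∧ Ψ s ≠ 0 := by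
    intro Ψ y s h
    refine ⟨subset_tsupport _ fun h0 => h ?_, fun h0 => h ?_⟩
    · show ζ y • Ψ s = 0
      rw [h0, zero_smul]
    · show ζ y • Ψ s = 0
      rw [h0, smul_zero]
  have bl : ∀ y, y ∈ tsupport ζ → ‖y - y₀‖ < ε / 2 := fun y hy => mem_ball_iff_norm.1 (hζs hy)
  have bl2 : ∀ y, y ∈ tsupport ζ → ‖y - y₀‖ ≤ ε2 := fun y hy => by linarith [bl y hy]
  obtain ⟨t1, t2, -, t4, t5⟩ := hTL iF hφ hc N U Om V K hV y₀ ε2 C0 hε2 bf c hct ε hε hle2 ζ hζ hζs μ R Φ o
    hu.one hu.lim ho.mem (fun n => (ia.intf n).tst) ia.lim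
  have tt : ∀ n, MemLp (fun q : Cfg r × Cfg ds => V q.1 (pp ζ (Φ n) q.1 q.2)) 2 (volume.prod volume) ∧
      ∀ β, MemLp (fun q : Cfg r × Cfg ds => V q.1 (S.DF φ ψ N μ β (pp ζ (Φ n)) q.1 q.2)) 2
        (volume.prod volume) := by
    intro n
    obtain ⟨-, -, -, t6, t7⟩ := hTL iF hφ hc N U Om V K hV y₀ ε2 C0 hε2 bf c hct ε hε hle2 ζ hζ hζs μ
      (fun k => (k : ℝ) + 1) (fun _ => Φ n) (Φ n) (fun k => by
        have := Nat.cast_nonneg (α := ℝ) k
        linarith) (tendsto_atTop_add_const_right _ _ tendsto_natCast_atTop_atTop) (hΦm n)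
      (fun _ => (ia.intf n).tst) (by simp [nsq])
    exact ⟨t6, t7⟩
  have mA := fun n => lg_memA (dm := dm) (S := S) (φ := φ) hV hC0 bf (hR n) (a := pp ζ o)
    (fun y s h => bl2 y (sp o y s h).1) t4
  have mA' := fun n => lg_memA (dm := dm) (S := S) (φ := φ) hV hC0 bf (hR n) (a := S.DF φ ψ N μ β (pp ζ o))
    (fun y s h => bl2 y (lg_DF h).1) (t5 β)
  have mT := fun n => lg_memT (dm := dm) (S := S) (φ := φ) hV hC0 bf hct (ε := ε) (hR n) (a := pp ζ (Φ n))
    (fun y s h => bl2 y (sp _ y s h).1) (tt n).1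
  have mT' := fun n => lg_memT (dm := dm) (S := S) (φ := φ) hV hC0 bf hct (ε := ε) (hR n)
    (a := S.DF φ ψ N μ β (pp ζ (Φ n))) (fun y s h => bl2 y (lg_DF h).1) ((tt n).2 β)
  have giQ : ∀ n, GI S (QN S N (μ / R n ^ 2) β (u n)) := fun n => hQ _ _ _ _ (hu.gi n)
  have mQ := fun n => AN.glu_res_memLp S φ (dm := dm) (giQ n).tst.1.continuous (cmb ψ y₀ 0) (R n) ε
  have mu := fun n => AN.glu_res_memLp S φ (dm := dm) (hu.gi n).tst.1.continuous (cmb ψ y₀ 0) (R n) ε
  -- norm bounds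
  have hb1 : ∀ n, ∫ p, ‖((R n : ℝ) : ℂ) • S.res φ (QN S N (μ / R n ^ 2) β (u n)) p.1 p.2‖ ^ 2
      ∂(((volume : Measure (Cfg dh)).prod (volume : Measure (Wsp dm))).restrict
        (AN.Nb (cmb ψ y₀ 0) dm (R n) ε)) ≤ C3 * C := by
    intro n
    have h1 := Hres n _ (giQ n)
    have h2 : nsq (QN S N (μ / R n ^ 2) β (u n)) ≤ ∑ β, nsq (QN S N (μ / R n ^ 2) β (u n)) :=
      Finset.single_le_sum (f := fun β => nsq (QN S N (μ / R n ^ 2) β (u n)))
        (fun i _ => integral_nonneg fun x => sq_nonneg _) (Finset.mem_univ β)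
    have h3 := hu.en n
    have h4 : ∀ p : Cfg dh × Wsp dm, ‖((R n : ℝ) : ℂ) • S.res φ (QN S N (μ / R n ^ 2) β (u n)) p.1 p.2‖ ^ 2 =
        R n ^ 2 * ‖S.res φ (QN S N (μ / R n ^ 2) β (u n)) p.1 p.2‖ ^ 2 := by
      intro p
      rw [norm_smul, mul_pow, Complex.norm_real, Real.norm_eq_abs, sq_abs]
    simp_rw [h4]
    rw [integral_const_mul]
    calc _ ≤ R n ^ 2 * (C3 * nsq (QN S N (μ / R n ^ 2) β (u n))) := mul_le_mul_of_nonneg_left h1 (sq_nonneg _)
      _ = C3 * (R n ^ 2 * nsq (QN S N (μ / R n ^ 2) β (u n))) := by ring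
      _ ≤ C3 * C := mul_le_mul_of_nonneg_left ((mul_le_mul_of_nonneg_left h2 (sq_nonneg _)).trans h3) hC3
  have hb2 : ∀ n, ∫ p, ‖S.res φ (u n) p.1 p.2‖ ^ 2
      ∂(((volume : Measure (Cfg dh)).prod (volume : Measure (Wsp dm))).restrict
        (AN.Nb (cmb ψ y₀ 0) dm (R n) ε)) ≤ C3 * C := fun n =>
    (Hres n _ (hu.gi n)).trans (mul_le_mul_of_nonneg_left (hu.nrm n) hC3)
  have k1 := lg_cs (μ := fun n => ((volume : Measure (Cfg dh)).prod (volume : Measure (Wsp dm))).restrict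
    (AN.Nb (cmb ψ y₀ 0) dm (R n) ε)) (fun n => ((mA n).sub (mT n)).mono_measure Measure.restrict_le_self)
    (fun n => (mQ n).const_smul ((R n : ℝ) : ℂ)) (squeeze_zero (fun n => integral_nonneg fun p => sq_nonneg _)
      (fun n => setIntegral_le_integral ((memLp_two_iff_integrable_sq_norm ((mA n).sub (mT n)).1).1
        ((mA n).sub (mT n))) (ae_of_all _ fun p => sq_nonneg _)) t1) hb1
  have k2 := lg_cs (μ := fun n => ((volume : Measure (Cfg dh)).prod (volume : Measure (Wsp dm))).restrict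
    (AN.Nb (cmb ψ y₀ 0) dm (R n) ε)) (fun n => ((mA' n).sub (mT' n)).mono_measure Measure.restrict_le_self)
    mu (squeeze_zero (fun n => integral_nonneg fun p => sq_nonneg _)
      (fun n => setIntegral_le_integral ((memLp_two_iff_integrable_sq_norm ((mA' n).sub (mT' n)).1).1
        ((mA' n).sub (mT' n))) (ae_of_all _ fun p => sq_nonneg _)) (t2 β)) hb2
  -- the limit equation for the trial functions
  obtain ⟨n0, hn0⟩ : ∃ n0 : ℕ, ∀ n, n0 ≤ n → η n ≤ ε / 2 ∧ nsq (fun s => Φ n s - o s) ≤ 1 := by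
    have h1 : ∀ᶠ n in atTop, η n ≤ ε / 2 := ia.eta_lim.eventually_le_const (by positivity)
    have h2 : ∀ᶠ n in atTop, nsq (fun s => Φ n s - o s) ≤ 1 := ia.lim.eventually_le_const one_pos
    exact eventually_atTop.1 (h1.and h2)
  have hno : 0 ≤ nsq o := integral_nonneg fun x => sq_nonneg _
  have hl := fun n : ℕ => Nat.le_add_left n0 n
  have k3 := H1 ε hε hle1 ζ hζ hζs μ hμ (fun n => R (n + n0)) (fun n => η (n + n0)) (fun n => Φ (n + n0))
    (fun n => mul2 (Θ (n + n0)) (S.res φ (u (n + n0)))) ((2 + 2 * nsq o) + C3 * (C + C))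
    (hu.lim.comp (tendsto_add_atTop_nat n0)) (fun n => hu.one _) (fun n => ⟨ia.eta _, (hn0 _ (hl n)).1⟩)
    (ia.eta_lim.comp (tendsto_add_atTop_nat n0)) (fun n => ia.intf _) (fun n => by
      have h1 := lg_nsq (hΦm (n + n0)) ho.mem
      have h2 := (hn0 _ (hl n)).2
      have h3 : 0 ≤ C3 * (C + C) := by positivity
      linarith) (ia.grad.comp (tendsto_add_atTop_nat n0)) (ia.en.comp (tendsto_add_atTop_nat n0))
    (fun n => (hΘ5 _ (μ / R (n + n0) ^ 2) _ (hu.gi (n + n0))).1) (fun n => (hΘ5 _ (μ / R (n + n0) ^ 2) _ (hu.gi (n + n0))).2.1)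
    (fun n => by
      have h1 := (hΘ5 (n + n0) (μ / R (n + n0) ^ 2) _ (hu.gi (n + n0))).2.2.1
      have h2 := mul_le_mul_of_nonneg_left (hu.nrm (n + n0)) hC3
      have h3 : 0 ≤ C3 * C := by positivity
      linarith)
    (fun n => by
      have h1 := (hΘ5 (n + n0) (μ / R (n + n0) ^ 2) _ (hu.gi (n + n0))).2.2.2.1
      have h2 := mul_le_mul_of_nonneg_left h1 (sq_nonneg (R (n + n0)))
      refine h2.trans ?_
      have h3 := hu.en (n + n0)
      have h4 := hu.nrm (n + n0)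
      have h5 := (hR (n + n0)).ne'
      have e : R (n + n0) ^ 2 * (C3 * ((∑ β, nsq (QN S N (μ / R (n + n0) ^ 2) β (u (n + n0)))) +
          1 / R (n + n0) ^ 2 * nsq (u (n + n0)))) =
          C3 * (R (n + n0) ^ 2 * (∑ β, nsq (QN S N (μ / R (n + n0) ^ 2) β (u (n + n0)))) + nsq (u (n + n0))) := by
        field_simp
      rw [e]
      have h6 := mul_le_mul_of_nonneg_left (add_le_add h3 h4) hC3
      linarith) β
  have k4 := (tendsto_add_atTop_iff_nat (f := fun n => (R n : ℂ) * ip2 (S.TR φ ψ Om V c ε (R n) (pp ζ (Φ n)))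
    (S.QS φ N (μ / R n ^ 2) β (mul2 (Θ n) (S.res φ (u n)))) -
      ip2 (S.TR φ ψ Om V c ε (R n) (S.DF φ ψ N μ β (pp ζ (Φ n)))) (mul2 (Θ n) (S.res φ (u n)))) n0).1 k3
  have k5 := (k1.sub k2).add k4
  rw [sub_zero, add_zero] at k5
  refine k5.congr' ?_
  filter_upwards [eventually_ge_atTop n0] with n hn
  have hη := (hn0 n hn).1
  have sT : ∀ p : Cfg dh × Wsp dm, S.TR φ ψ Om V c ε (R n) (pp ζ (Φ n)) p.1 p.2 ≠ 0 →
      ‖p.1 - R n • cmb ψ y₀ 0‖ < 3 / 4 * ε * R n ∧ ‖p.2‖ < 3 / 4 * ε * R n := fun p h =>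
    lg_sup hct0 hε (hR n) hη (fun y s h => ⟨bl y (sp _ y s h).1, (ia.intf n).sup s (sp _ y s h).2⟩) h
  have sT' : ∀ p : Cfg dh × Wsp dm, S.TR φ ψ Om V c ε (R n) (S.DF φ ψ N μ β (pp ζ (Φ n))) p.1 p.2 ≠ 0 →
      ‖p.1 - R n • cmb ψ y₀ 0‖ < 3 / 4 * ε * R n ∧ ‖p.2‖ < 3 / 4 * ε * R n := fun p h =>
    lg_sup hct0 hε (hR n) hη (fun y s h => ⟨bl y (lg_DF h).1, (ia.intf n).sup s (lg_DF h).2⟩) h
  have hlt : 3 / 4 * ε * R n < ε * R n := by nlinarith [mul_pos hε (hR n)]
  have e1 : ip2 (S.TR φ ψ Om V c ε (R n) (pp ζ (Φ n))) (S.QS φ N (μ / R n ^ 2) β (mul2 (Θ n) (S.res φ (u n)))) =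
      ∫ p in AN.Nb (cmb ψ y₀ 0) dm (R n) ε, inner ℂ (S.TR φ ψ Om V c ε (R n) (pp ζ (Φ n)) p.1 p.2)
        (S.res φ (QN S N (μ / R n ^ 2) β (u n)) p.1 p.2)
        ∂((volume : Measure (Cfg dh)).prod (volume : Measure (Wsp dm))) := by
    refine lg_ip (T := fun p : Cfg dh × Wsp dm => S.TR φ ψ Om V c ε (R n) (pp ζ (Φ n)) p.1 p.2)
      (X := fun p : Cfg dh × Wsp dm => S.QS φ N (μ / R n ^ 2) β (mul2 (Θ n) (S.res φ (u n))) p.1 p.2)
      (Y := fun p : Cfg dh × Wsp dm => S.res φ (QN S N (μ / R n ^ 2) β (u n)) p.1 p.2) fun p hp => ?_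
    obtain ⟨h1, h2⟩ := sT p hp
    exact ⟨⟨h1.trans hlt, h2.trans hlt⟩, (hΘ5 n (μ / R n ^ 2) _ (hu.gi n)).2.2.2.2.1 β p.1 p.2 h1 h2⟩
  have e2 : ip2 (S.TR φ ψ Om V c ε (R n) (S.DF φ ψ N μ β (pp ζ (Φ n)))) (mul2 (Θ n) (S.res φ (u n))) =
      ∫ p in AN.Nb (cmb ψ y₀ 0) dm (R n) ε, inner ℂ (S.TR φ ψ Om V c ε (R n) (S.DF φ ψ N μ β (pp ζ (Φ n))) p.1 p.2)
        (S.res φ (u n) p.1 p.2) ∂((volume : Measure (Cfg dh)).prod (volume : Measure (Wsp dm))) := by
    refine lg_ip (T := fun p : Cfg dh × Wsp dm => S.TR φ ψ Om V c ε (R n) (S.DF φ ψ N μ β (pp ζ (Φ n))) p.1 p.2)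
      (X := fun p : Cfg dh × Wsp dm => mul2 (Θ n) (S.res φ (u n)) p.1 p.2)
      (Y := fun p : Cfg dh × Wsp dm => S.res φ (u n) p.1 p.2) fun p hp => ?_
    obtain ⟨h1, h2⟩ := sT' p hp
    refine ⟨⟨h1.trans hlt, h2.trans hlt⟩, ?_⟩
    show ((Θ n p.1 p.2 : ℝ) : ℂ) • S.res φ (u n) p.1 p.2 = _
    rw [hΘ4 n p.1 p.2 h1 h2, Complex.ofReal_one, one_smul]
  have f1 := lg_sub ((mA n).mono_measure (Measure.restrict_le_self (s := AN.Nb (cmb ψ y₀ 0) dm (R n) ε)))
    ((mT n).mono_measure (Measure.restrict_le_self (s := AN.Nb (cmb ψ y₀ 0) dm (R n) ε))) (mQ n)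
  have f2 := lg_sub ((mA' n).mono_measure (Measure.restrict_le_self (s := AN.Nb (cmb ψ y₀ 0) dm (R n) ε)))
    ((mT' n).mono_measure (Measure.restrict_le_self (s := AN.Nb (cmb ψ y₀ 0) dm (R n) ε))) (mu n)
  have g1 : ∫ p in AN.Nb (cmb ψ y₀ 0) dm (R n) ε, inner ℂ
      (AN.Ts0 ψ (AN.vG S φ ψ Om (fun η s => V η (pp ζ o η s))) (R n) p.1 p.2 -
        S.TR φ ψ Om V c ε (R n) (pp ζ (Φ n)) p.1 p.2)
      (((R n : ℝ) : ℂ) • S.res φ (QN S N (μ / R n ^ 2) β (u n)) p.1 p.2)
        ∂((volume : Measure (Cfg dh)).prod (volume : Measure (Wsp dm))) =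
      ((R n : ℝ) : ℂ) * ∫ p in AN.Nb (cmb ψ y₀ 0) dm (R n) ε, inner ℂ
      (AN.Ts0 ψ (AN.vG S φ ψ Om (fun η s => V η (pp ζ o η s))) (R n) p.1 p.2 -
        S.TR φ ψ Om V c ε (R n) (pp ζ (Φ n)) p.1 p.2)
      (S.res φ (QN S N (μ / R n ^ 2) β (u n)) p.1 p.2)
        ∂((volume : Measure (Cfg dh)).prod (volume : Measure (Wsp dm))) := by
    rw [← integral_const_mul]
    refine integral_congr_ae (ae_of_all _ fun p => ?_)
    exact inner_smul_right _ _ _
  rw [e1, e2]
  refine Eq.trans (congrArg₂ (· + ·) (congrArg₂ (· - ·) (g1.trans (congrArg _ f1.symm)) f2.symm) rfl) ?_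
  show _ = ((R n : ℝ) : ℂ) * (∫ p in AN.Nb (cmb ψ y₀ 0) dm (R n) ε,
    inner ℂ (AN.Ts0 ψ (AN.vG S φ ψ Om (fun η s => V η (pp ζ o η s))) (R n) p.1 p.2)
      (S.res φ (QN S N (μ / R n ^ 2) β (u n)) p.1 p.2)
      ∂((volume : Measure (Cfg dh)).prod (volume : Measure (Wsp dm)))) -
    ∫ p in AN.Nb (cmb ψ y₀ 0) dm (R n) ε,
      inner ℂ (AN.Ts0 ψ (AN.vG S φ ψ Om (fun η s => V η (S.DF φ ψ N μ β (pp ζ o) η s))) (R n) p.1 p.2)
        (S.res φ (u n) p.1 p.2) ∂((volume : Measure (Cfg dh)).prod (volume : Measure (Wsp dm)))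
  ring

end Vale.Agent.P353.Z.AE
end

section

/-! # P353, all `N`, block SGN: two point function on the vacuum space of a complex structure (helper393) -/

open MeasureTheory Filter Topology Matrix
open scoped ContDiff

namespace Vale.Agent.P353.Z.AS

variable {d : ℕ} {F : Type*} [NormedAddCommGroup F] [InnerProductSpace ℂ F]

private lemma sgnTwo_anti (S : Setup d F) (p q : Fin 16 × Fin d) (w : F) :
    S.th p.1 p.2 (S.th q.1 q.2 w) + S.th q.1 q.2 (S.th p.1 p.2 w) = (if p = q then (1 : ℂ) else 0) • w := by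
  have h := congrArg (fun T : F →L[ℂ] F => T w) (S.th_anti p.1 p.2 q.1 q.2)
  have hiff : (p.1 = q.1 ∧ p.2 = q.2) ↔ p = q := Prod.ext_iff.symm
  by_cases hpq : p = q
  · rw [if_pos hpq, one_smul]
    rw [if_pos (hiff.2 hpq)] at h
    exact h
  · rw [if_neg hpq, zero_smul]
    rw [if_neg (fun h' => hpq (hiff.1 h'))] at h
    exact h

private lemma sgnTwo_ker (S : Setup d F) (J : Matrix (Fin 16 × Fin d) (Fin 16 × Fin d) ℂ) (v : F)
    (hv : v ∈ JV S J) (p : Fin 16 × Fin d) :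
    S.th p.1 p.2 v = Complex.I • ∑ q : Fin 16 × Fin d, J p q • S.th q.1 q.2 v := by
  have h : ∑ q : Fin 16 × Fin d, ((1 : Matrix (Fin 16 × Fin d) (Fin 16 × Fin d) ℂ) - Complex.I • J) p q •
      S.th q.1 q.2 v = 0 := hv p
  have h1 : ∑ q : Fin 16 × Fin d, ((1 : Matrix (Fin 16 × Fin d) (Fin 16 × Fin d) ℂ) - Complex.I • J) p q •
      S.th q.1 q.2 v = S.th p.1 p.2 v - Complex.I • ∑ q : Fin 16 × Fin d, J p q • S.th q.1 q.2 v := by
    rw [Finset.smul_sum]
    have h2 : ∀ q : Fin 16 × Fin d, ((1 : Matrix (Fin 16 × Fin d) (Fin 16 × Fin d) ℂ) - Complex.I • J) p q •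
        S.th q.1 q.2 v = (1 : Matrix (Fin 16 × Fin d) (Fin 16 × Fin d) ℂ) p q • S.th q.1 q.2 v -
          Complex.I • (J p q • S.th q.1 q.2 v) := by
      intro q
      rw [Matrix.sub_apply, Matrix.smul_apply, sub_smul, smul_eq_mul, mul_smul]
    simp only [h2, Finset.sum_sub_distrib]
    congr 1
    simp only [Matrix.one_apply, ite_smul, one_smul, zero_smul, Finset.sum_ite_eq, Finset.mem_univ, if_true]
  rw [h1] at h
  exact sub_eq_zero.1 h

/-- the two point function -/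
private lemma sgnTwo_two (S : Setup d F) (J : Matrix (Fin 16 × Fin d) (Fin 16 × Fin d) ℂ) (hJ : CStr J) (v : F)
    (hv : v ∈ JV S J) (p q : Fin 16 × Fin d) :
    inner ℂ v (S.th p.1 p.2 (S.th q.1 q.2 v)) =
      (1 / 2 : ℂ) * ((if p = q then 1 else 0) - Complex.I * J p q) * inner ℂ v v := by
  have hreal : ∀ p q, (starRingEnd ℂ) (J p q) = J p q := by
    intro p q
    rw [Complex.conj_eq_iff_im]
    exact hJ.toRA.real p q
  set G : (Fin 16 × Fin d) → (Fin 16 × Fin d) → ℂ :=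
    fun p q => inner ℂ v (S.th p.1 p.2 (S.th q.1 q.2 v)) with hG
  have hA : ∀ p q, G p q = Complex.I * ∑ r, J q r * G p r := by
    intro p q
    simp only [hG]
    rw [sgnTwo_ker S J v hv q, map_smul, inner_smul_right, map_sum, inner_sum]
    congr 1
    refine Finset.sum_congr rfl fun r _ => ?_
    rw [map_smul, inner_smul_right]
  have hB : ∀ p q, G p q = -Complex.I * ∑ r, J p r * G r q := by
    intro p q
    simp only [hG]
    rw [← S.th_sa, sgnTwo_ker S J v hv p, inner_smul_left, sum_inner, Complex.conj_I]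
    congr 1
    refine Finset.sum_congr rfl fun r _ => ?_
    rw [inner_smul_left, hreal, S.th_sa]
  have hC : ∀ p q, G p q + G q p = (if p = q then (1 : ℂ) else 0) * inner ℂ v v := by
    intro p q
    simp only [hG]
    rw [← inner_add_right, sgnTwo_anti, inner_smul_right]
  have h1 : G p q = -Complex.I * (J p q * inner ℂ v v - ∑ r, J p r * G q r) := by
    rw [hB p q]
    congr 1
    have h2 : ∀ r, J p r * G r q = J p r * ((if r = q then (1 : ℂ) else 0) * inner ℂ v v) - J p r * G q r := by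
      intro r
      rw [← hC r q]
      ring
    simp only [h2, Finset.sum_sub_distrib]
    congr 1
    simp only [ite_mul, one_mul, zero_mul, mul_ite, mul_zero, Finset.sum_ite_eq', Finset.mem_univ, if_true]
  have h2 := hA q p
  have h3 := hC p q
  have h4 : G p q - G q p = -Complex.I * (J p q * inner ℂ v v) := by
    rw [h1, h2]
    ring
  change G p q = _
  linear_combination (1 / 2 : ℂ) * h3 + (1 / 2 : ℂ) * h4

/-- **S2 Two** -/
theorem two_stmt (S : Setup d F) : TwoStmt S := by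
  intro J hJ v hv
  refine ⟨sgnTwo_two S J hJ v hv, ?_⟩
  intro k l _
  have hd : ∀ α, S.g2 k l α α = 0 := by
    intro α
    have h := congrFun (congrFun (S.g2_transpose k l) α) α
    rw [Matrix.transpose_apply, Matrix.neg_apply] at h
    linear_combination (1 / 2 : ℂ) * h
  have h1 : S.Skl k l v = (-Complex.I / 4) • ∑ A, ∑ α, ∑ β, S.g2 k l α β • S.th α A (S.th β A v) := by
    simp only [Setup.Skl, CS.tot, CS.bil, CS.vec, _root_.smul_apply, _root_.sum_apply, mul_apply_eq_comp,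
      map_sum, map_smul]
  rw [h1]
  simp only [inner_smul_right, inner_sum]
  have h2 : ∀ (A : Fin d) (α β : Fin 16), S.g2 k l α β * inner ℂ v (S.th α A (S.th β A v)) =
      -(Complex.I / 2) * (S.g2 k l α β * J (α, A) (β, A)) * inner ℂ v v := by
    intro A α β
    have h3 := sgnTwo_two S J hJ v hv (α, A) (β, A)
    simp only at h3
    rw [h3]
    by_cases h4 : α = β
    · subst h4
      rw [hd]
      ring
    · have h5 : ¬ ((α, A) = (β, A)) := fun h => h4 (Prod.ext_iff.1 h).1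
      rw [if_neg h5]
      ring
  have h6 : ∑ A, ∑ α, ∑ β, S.g2 k l α β * J (α, A) (β, A) = ∑ α, ∑ β, ∑ A, S.g2 k l α β * J (α, A) (β, A) := by
    rw [Finset.sum_comm]
    refine Finset.sum_congr rfl fun α _ => ?_
    rw [Finset.sum_comm]
  have h7 : ∑ A, ∑ α, ∑ β, S.g2 k l α β * inner ℂ v (S.th α A (S.th β A v)) =
      -(Complex.I / 2) * (∑ A, ∑ α, ∑ β, S.g2 k l α β * J (α, A) (β, A)) * inner ℂ v v := by
    simp only [h2, Finset.sum_mul, Finset.mul_sum]
  rw [h7, h6]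
  generalize ∑ α, ∑ β, ∑ A, S.g2 k l α β * J (α, A) (β, A) = X
  linear_combination ((1 / 8 : ℂ) * X * inner ℂ v v) * Complex.I_sq

end Vale.Agent.P353.Z.AS
end

section

/-! # P353, all `N`, block SGN: the complex structures `JF` (S5, helper964) -/

open MeasureTheory Filter Topology Matrix
open scoped ContDiff Kronecker

namespace Vale.Agent.P353.Z.AS

variable {d dh dm ds dz : ℕ} {F : Type*} [NormedAddCommGroup F] [InnerProductSpace ℂ F]

section real

variable {D : Fin 9 → Matrix (Fin dm) (Fin dm) ℝ} {Om : Matrix (Fin dm) (Fin dm) ℝ} {κ : ℝ}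

lemma jf_unit (hOm : IsOm κ D Om) : IsUnit Om.det := by
  rw [isUnit_iff_ne_zero]
  intro h
  obtain ⟨v, hv, h1⟩ := Matrix.exists_mulVec_eq_zero_iff.2 h
  have h2 := hOm.pos v hv
  rw [h1, dotProduct_zero] at h2
  exact lt_irrefl _ h2

lemma jf_comm (hc : ∀ i j, D i * D j = D j * D i) (hOm : IsOm κ D Om) (i : Fin 9) : D i * Om⁻¹ = Om⁻¹ * D i := by
  have h1 : D i * Om = Om * D i := hOm.comm (D i) (by
    rw [Finset.mul_sum, Finset.sum_mul]
    refine Finset.sum_congr rfl fun j _ => ?_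
    rw [← mul_assoc, hc i j, mul_assoc, hc i j, ← mul_assoc])
  have hu := jf_unit hOm
  calc D i * Om⁻¹ = Om⁻¹ * Om * (D i * Om⁻¹) := by rw [Matrix.nonsing_inv_mul _ hu, one_mul]
    _ = Om⁻¹ * (Om * D i) * Om⁻¹ := by simp only [mul_assoc]
    _ = Om⁻¹ * D i * (Om * Om⁻¹) := by rw [← h1]; simp only [mul_assoc]
    _ = Om⁻¹ * D i := by rw [Matrix.mul_nonsing_inv _ hu, mul_one]

/-- `κ Ω⁻¹ D_i` -/
noncomputable def jfV (κ : ℝ) (D : Fin 9 → Matrix (Fin dm) (Fin dm) ℝ) (Om : Matrix (Fin dm) (Fin dm) ℝ) (i : Fin 9) :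
    Matrix (Fin dm) (Fin dm) ℝ := κ • (Om⁻¹ * D i)

lemma jfV_mul (hc : ∀ i j, D i * D j = D j * D i) (hOm : IsOm κ D Om) (i j : Fin 9) :
    jfV κ D Om i * jfV κ D Om j = κ ^ 2 • (Om⁻¹ * Om⁻¹ * (D i * D j)) := by
  rw [jfV, jfV, Matrix.smul_mul, Matrix.mul_smul, smul_smul, ← pow_two]
  congr 1
  calc Om⁻¹ * D i * (Om⁻¹ * D j) = Om⁻¹ * (D i * Om⁻¹) * D j := by simp only [mul_assoc]
    _ = Om⁻¹ * Om⁻¹ * (D i * D j) := by rw [jf_comm hc hOm]; simp only [mul_assoc]

lemma jfV_comm (hc : ∀ i j, D i * D j = D j * D i) (hOm : IsOm κ D Om) (i j : Fin 9) :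
    jfV κ D Om i * jfV κ D Om j = jfV κ D Om j * jfV κ D Om i := by
  rw [jfV_mul hc hOm, jfV_mul hc hOm, hc]

lemma jfV_sq (hc : ∀ i j, D i * D j = D j * D i) (hOm : IsOm κ D Om) :
    ∑ i, jfV κ D Om i * jfV κ D Om i = -1 := by
  have hu := jf_unit hOm
  have h1 : κ ^ 2 • ∑ i, D i * D i = -(Om * Om) := by rw [hOm.sq, neg_neg]
  simp only [jfV_mul hc hOm]
  rw [← Finset.smul_sum, ← Finset.mul_sum, ← Matrix.mul_smul, h1]
  calc Om⁻¹ * Om⁻¹ * -(Om * Om) = -(Om⁻¹ * (Om⁻¹ * Om) * Om) := by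
        rw [mul_neg]; simp only [mul_assoc]
    _ = -1 := by rw [Matrix.nonsing_inv_mul _ hu, mul_one, Matrix.nonsing_inv_mul _ hu]

lemma jfV_tr (ha : ∀ i, (D i)ᵀ = -D i) (hc : ∀ i j, D i * D j = D j * D i) (hOm : IsOm κ D Om) (i : Fin 9) :
    (jfV κ D Om i)ᵀ = -jfV κ D Om i := by
  rw [jfV, Matrix.transpose_smul, Matrix.transpose_mul, Matrix.transpose_nonsing_inv, hOm.symm, ha, neg_mul,
    jf_comm hc hOm, smul_neg]

end real

/-- complexification -/
noncomputable def jfC (M : Matrix (Fin dm) (Fin dm) ℝ) : Matrix (Fin dm) (Fin dm) ℂ := Complex.ofRealHom.mapMatrix M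

lemma jfC_apply (M : Matrix (Fin dm) (Fin dm) ℝ) (A B : Fin dm) : jfC M A B = ((M A B : ℝ) : ℂ) := rfl

/-- `Ω⁻¹P` -/
noncomputable def jfX (S : Setup d F) (D : Fin 9 → Matrix (Fin dm) (Fin dm) ℝ) (Om : Matrix (Fin dm) (Fin dm) ℝ) :
    Matrix (Fin 16 × Fin dm) (Fin 16 × Fin dm) ℂ := ∑ i, S.g i ⊗ₖ jfC (jfV S.κ D Om i)

/-- `Γ ⊗ 1` -/
noncomputable def jfG (S : Setup d F) (m : ℕ) : Matrix (Fin 16 × Fin m) (Fin 16 × Fin m) ℂ :=
  S.Gam ⊗ₖ (1 : Matrix (Fin m) (Fin m) ℂ)

lemma jfG_sq (S : Setup d F) (m : ℕ) : jfG S m * jfG S m = -1 := by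
  rw [jfG, ← Matrix.mul_kronecker_mul, S.Gam_sq, mul_one]
  ext ⟨α, A⟩ ⟨β, B⟩
  simp only [Matrix.kroneckerMap_apply, Matrix.neg_apply, Matrix.one_apply, Prod.mk.injEq]
  by_cases h1 : α = β <;> by_cases h2 : A = B <;> simp [h1, h2]

lemma jfG_tr (S : Setup d F) (m : ℕ) : (jfG S m)ᵀ = -jfG S m := by
  ext ⟨α, A⟩ ⟨β, B⟩
  have h1 := congrFun (congrFun S.Gam_transpose α) β
  rw [Matrix.transpose_apply, Matrix.neg_apply] at h1
  simp only [jfG, Matrix.transpose_apply, Matrix.neg_apply, Matrix.kroneckerMap_apply, h1, Matrix.one_apply, eq_comm,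
    neg_mul]

lemma jfG_re (S : Setup d F) (m : ℕ) (p q : Fin 16 × Fin m) : (jfG S m p q).im = 0 := by
  simp only [jfG, Matrix.kroneckerMap_apply, Matrix.one_apply]
  split_ifs
  · rw [mul_one, S.Gam_real]
  · rw [mul_zero, Complex.zero_im]

section X

variable (S : Setup d F) {D : Fin 9 → Matrix (Fin dm) (Fin dm) ℝ} {Om : Matrix (Fin dm) (Fin dm) ℝ}

lemma jfX_sq (hc : ∀ i j, D i * D j = D j * D i) (hOm : IsOm S.κ D Om) : jfX S D Om * jfX S D Om = -1 := by
  have e1 : jfX S D Om * jfX S D Om = ∑ i, ∑ j, (S.g i * S.g j) ⊗ₖ jfC (jfV S.κ D Om i * jfV S.κ D Om j) := by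
    rw [jfX, Finset.sum_mul_sum]
    refine Finset.sum_congr rfl fun i _ => Finset.sum_congr rfl fun j _ => ?_
    rw [← Matrix.mul_kronecker_mul, jfC, jfC, jfC, map_mul]
  have e2 : jfX S D Om * jfX S D Om = ∑ i, ∑ j, (S.g j * S.g i) ⊗ₖ jfC (jfV S.κ D Om i * jfV S.κ D Om j) := by
    rw [e1, Finset.sum_comm]
    refine Finset.sum_congr rfl fun i _ => Finset.sum_congr rfl fun j _ => ?_
    rw [jfV_comm hc hOm]
  have e3 : jfX S D Om * jfX S D Om + jfX S D Om * jfX S D Om = -1 + -1 := by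
    conv_lhs => rw [e2]
    conv_lhs =>
      arg 1
      rw [← e2, e1]
    rw [← Finset.sum_add_distrib]
    have e4 : ∀ i, (∑ j, (S.g i * S.g j) ⊗ₖ jfC (jfV S.κ D Om i * jfV S.κ D Om j) +
        ∑ j, (S.g j * S.g i) ⊗ₖ jfC (jfV S.κ D Om i * jfV S.κ D Om j)) =
        (2 : Matrix (Fin 16) (Fin 16) ℂ) ⊗ₖ jfC (jfV S.κ D Om i * jfV S.κ D Om i) := by
      intro i
      rw [← Finset.sum_add_distrib, Finset.sum_eq_single i]
      · rw [← Matrix.add_kronecker, S.g_anti, if_pos rfl]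
      · intro j _ hj
        rw [← Matrix.add_kronecker, S.g_anti, if_neg hj.symm, Matrix.zero_kronecker]
      · intro h
        exact absurd (Finset.mem_univ _) h
    simp only [e4]
    have e5 : ∑ i, (2 : Matrix (Fin 16) (Fin 16) ℂ) ⊗ₖ jfC (jfV S.κ D Om i * jfV S.κ D Om i) =
        (2 : Matrix (Fin 16) (Fin 16) ℂ) ⊗ₖ jfC (∑ i, jfV S.κ D Om i * jfV S.κ D Om i) := by
      ext ⟨α, A⟩ ⟨β, B⟩
      simp only [Matrix.sum_apply, Matrix.kroneckerMap_apply, jfC_apply]
      rw [← Finset.mul_sum]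
      push_cast
      rfl
    rw [e5, jfV_sq hc hOm]
    ext ⟨α, A⟩ ⟨β, B⟩
    have h2 : (2 : Matrix (Fin 16) (Fin 16) ℂ) = (1 : Matrix (Fin 16) (Fin 16) ℂ) + 1 := by norm_num
    rw [h2]
    simp only [Matrix.kroneckerMap_apply, jfC_apply, Matrix.neg_apply, Matrix.add_apply, Matrix.one_apply, Prod.mk.injEq]
    by_cases h3 : α = β <;> by_cases h4 : A = B <;> simp [h3, h4]
  have e6 : (2 : ℂ) • (jfX S D Om * jfX S D Om) = (2 : ℂ) • (-1) := by
    rw [two_smul, two_smul, e3]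
  exact smul_right_injective _ (two_ne_zero) e6

lemma jfX_tr (ha : ∀ i, (D i)ᵀ = -D i) (hc : ∀ i j, D i * D j = D j * D i) (hOm : IsOm S.κ D Om) :
    (jfX S D Om)ᵀ = -jfX S D Om := by
  ext ⟨α, A⟩ ⟨β, B⟩
  simp only [jfX, Matrix.transpose_apply, Matrix.neg_apply, Matrix.sum_apply, Matrix.kroneckerMap_apply, jfC_apply]
  rw [← Finset.sum_neg_distrib]
  refine Finset.sum_congr rfl fun i _ => ?_
  have h1 := congrFun (congrFun (jfV_tr ha hc hOm i) A) B
  rw [Matrix.transpose_apply, Matrix.neg_apply] at h1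
  have h2 := congrFun (congrFun (S.g_symm i) α) β
  rw [Matrix.transpose_apply] at h2
  rw [h1, h2]
  push_cast
  ring

lemma jfX_re (p q : Fin 16 × Fin dm) : (jfX S D Om p q).im = 0 := by
  simp only [jfX, Matrix.sum_apply, Matrix.kroneckerMap_apply, jfC_apply]
  rw [Complex.im_sum]
  refine Finset.sum_eq_zero fun i _ => ?_
  rw [Complex.mul_im, Complex.ofReal_re, Complex.ofReal_im, S.g_real]
  ring

lemma jfX_anti (h0 : D 0 = 0) (h1 : D 1 = 0) (h2 : D 2 = 0) :
    jfX S D Om * jfG S dm = -(jfG S dm * jfX S D Om) := by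
  rw [jfX, jfG, Finset.sum_mul, Finset.mul_sum, ← Finset.sum_neg_distrib]
  refine Finset.sum_congr rfl fun i _ => ?_
  rw [← Matrix.mul_kronecker_mul, ← Matrix.mul_kronecker_mul, mul_one, one_mul]
  rcases lt_or_ge i.val 3 with hi | hi
  · have h3 : D i = 0 := by
      rcases i with ⟨i, h⟩
      simp only at hi
      interval_cases i
      · exact h0
      · exact h1
      · exact h2
    have h4 : jfC (jfV S.κ D Om i) = 0 := by
      rw [jfV, h3, mul_zero, smul_zero, jfC, map_zero]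
    rw [h4, Matrix.kronecker_zero, Matrix.kronecker_zero, neg_zero]
  · rw [S.g_Gam_anti hi]
    ext ⟨α, A⟩ ⟨β, B⟩
    simp only [Matrix.kroneckerMap_apply, Matrix.neg_apply, neg_mul]

end X

/-- splitting of the one particle space -/
def jfe (φ : Spl dh dm d) : Fin 16 × Fin d ≃ (Fin 16 × Fin dh) ⊕ (Fin 16 × Fin dm) :=
  (Equiv.prodCongr (Equiv.refl _) φ.symm).trans (Equiv.prodSumDistrib _ _ _)

/-- block form -/
lemma jf_blocks (S : Setup d F) (φ : Spl dh dm d) (D : Fin 9 → Matrix (Fin dm) (Fin dm) ℝ)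
    (Om : Matrix (Fin dm) (Fin dm) ℝ) (c s : ℝ) :
    JF S φ D Om c s = (Matrix.fromBlocks (jfG S dh) 0 0 ((c : ℂ) • jfX S D Om + (s : ℂ) • jfG S dm)).submatrix
      (jfe φ) (jfe φ) := by
  ext ⟨α, C⟩ ⟨β, C'⟩
  obtain ⟨x, rfl⟩ := φ.surjective C
  obtain ⟨y, rfl⟩ := φ.surjective C'
  rcases x with A | A <;> rcases y with B | B
  · simp [JF, jfe, jfG, Matrix.one_apply]
  · simp [JF, jfe]
  · simp [JF, jfe]
  · simp only [JF, Matrix.of_apply, Equiv.symm_apply_apply, Sum.elim_inr, jfe, Equiv.trans_apply,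
      Equiv.prodCongr_apply, Equiv.coe_refl, Prod.map_apply, id_eq, Equiv.prodSumDistrib_apply_right,
      Matrix.submatrix_apply, Matrix.fromBlocks_apply₂₂, Matrix.add_apply, Matrix.smul_apply, jfX, Matrix.sum_apply,
      Matrix.kroneckerMap_apply, jfC_apply, jfV, smul_eq_mul, jfG, Matrix.one_apply, mul_ite, mul_one, mul_zero]
    congr 1
    rw [Finset.mul_sum]
    congr 1
    refine Finset.sum_congr rfl fun i _ => ?_
    push_cast
    ring

/-- generic complex structure -/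
lemma jf_cstr (S : Setup d F) (φ : Spl dh dm d) (D : Fin 9 → Matrix (Fin dm) (Fin dm) ℝ)
    (Om : Matrix (Fin dm) (Fin dm) ℝ) (c s : ℝ) (ha : ∀ i, (D i)ᵀ = -D i) (hc : ∀ i j, D i * D j = D j * D i)
    (hOm : IsOm S.κ D Om)
    (hY : ((c : ℂ) • jfX S D Om + (s : ℂ) • jfG S dm) * ((c : ℂ) • jfX S D Om + (s : ℂ) • jfG S dm) = -1) :
    CStr (JF S φ D Om c s) := by
  have hb := jf_blocks S φ D Om c s
  refine ⟨⟨?_, ?_⟩, ?_⟩
  · intro p q
    rw [hb, Matrix.submatrix_apply]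
    rcases jfe φ p with x | x <;> rcases jfe φ q with y | y
    · rw [Matrix.fromBlocks_apply₁₁]; exact jfG_re S dh x y
    · rw [Matrix.fromBlocks_apply₁₂]; rfl
    · rw [Matrix.fromBlocks_apply₂₁]; rfl
    · rw [Matrix.fromBlocks_apply₂₂, Matrix.add_apply, Matrix.smul_apply, Matrix.smul_apply, Complex.add_im,
        smul_eq_mul, smul_eq_mul, Complex.mul_im, Complex.mul_im, jfX_re, jfG_re, Complex.ofReal_im, Complex.ofReal_im]
      ring
  · rw [hb, Matrix.transpose_submatrix, Matrix.fromBlocks_transpose, jfG_tr, Matrix.transpose_add,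
      Matrix.transpose_smul, Matrix.transpose_smul, jfG_tr, jfX_tr S ha hc hOm, Matrix.transpose_zero,
      Matrix.transpose_zero]
    ext p q
    rw [Matrix.neg_apply, Matrix.submatrix_apply, Matrix.submatrix_apply]
    rcases jfe φ p with x | x <;> rcases jfe φ q with y | y
    · simp
    · simp
    · simp
    · simp only [Matrix.fromBlocks_apply₂₂, Matrix.add_apply, Matrix.smul_apply, Matrix.neg_apply, smul_eq_mul]
      ring
  · rw [hb, Matrix.submatrix_mul_equiv, Matrix.fromBlocks_multiply, jfG_sq, hY]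
    simp only [Matrix.mul_zero, Matrix.zero_mul, add_zero, zero_add]
    have h1 : (Matrix.fromBlocks (-1 : Matrix (Fin 16 × Fin dh) (Fin 16 × Fin dh) ℂ) 0 0
        (-1 : Matrix (Fin 16 × Fin dm) (Fin 16 × Fin dm) ℂ)) = -1 := by
      rw [← Matrix.fromBlocks_one, Matrix.fromBlocks_neg, neg_zero, neg_zero]
    rw [h1]
    ext p q
    simp [Matrix.one_apply]

/-- splitting of the sum over the one particle space -/
lemma jf_sum {E : Type*} [AddCommMonoid E] (φ : Spl dh dm d) (g : Fin 16 × Fin d → E) :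
    ∑ q, g q = ∑ β : Fin 16, (∑ B : Fin dh, g (β, φ (Sum.inl B)) + ∑ B : Fin dm, g (β, φ (Sum.inr B))) := by
  rw [Fintype.sum_prod_type]
  refine Finset.sum_congr rfl fun β _ => ?_
  rw [← φ.sum_comp, Fintype.sum_sum_type]

/-- row of an `h` colour -/
lemma jf_row_l (S : Setup d F) (φ : Spl dh dm d) (D : Fin 9 → Matrix (Fin dm) (Fin dm) ℝ)
    (Om : Matrix (Fin dm) (Fin dm) ℝ) (c s : ℝ) (v : F) (α : Fin 16) (A : Fin dh) :
    ∑ q : Fin 16 × Fin d, ((1 : Matrix (Fin 16 × Fin d) (Fin 16 × Fin d) ℂ) - Complex.I • JF S φ D Om c s)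
      (α, φ (Sum.inl A)) q • S.th q.1 q.2 v = S.amF (φ (Sum.inl A)) α v := by
  have h1 : ∀ β (B : Fin dm), ((1 : Matrix (Fin 16 × Fin d) (Fin 16 × Fin d) ℂ) - Complex.I • JF S φ D Om c s)
      (α, φ (Sum.inl A)) (β, φ (Sum.inr B)) = 0 := by
    intro β B
    simp [JF, Matrix.one_apply]
  have h2 : ∀ β (B : Fin dh), ((1 : Matrix (Fin 16 × Fin d) (Fin 16 × Fin d) ℂ) - Complex.I • JF S φ D Om c s)
      (α, φ (Sum.inl A)) (β, φ (Sum.inl B)) = if A = B then ((if α = β then 1 else 0) - Complex.I * S.Gam α β) else 0 := by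
    intro β B
    by_cases h : A = B
    · subst h
      simp [JF, Matrix.one_apply]
    · have h' : φ (Sum.inl A) ≠ φ (Sum.inl B) := fun h3 => h (Sum.inl.inj (φ.injective h3))
      simp [JF, Matrix.one_apply, h]
  rw [jf_sum φ]
  simp only [h1, h2, zero_smul, Finset.sum_const_zero, add_zero, ite_smul, Finset.sum_ite_eq, Finset.mem_univ, if_true,
    sub_smul, Finset.sum_sub_distrib, one_smul]
  rw [Setup.amF, CS.vec, _root_.sub_apply, _root_.smul_apply, _root_.sum_apply, Finset.smul_sum]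
  simp only [_root_.smul_apply, smul_smul]

/-- the vector `((1 - iX)θv)_p` -/
noncomputable def jfY (S : Setup d F) (φ : Spl dh dm d) (D : Fin 9 → Matrix (Fin dm) (Fin dm) ℝ)
    (Om : Matrix (Fin dm) (Fin dm) ℝ) (v : F) (α : Fin 16) (A : Fin dm) : F :=
  ∑ β : Fin 16, ∑ B : Fin dm, ((if α = β then (if A = B then (1 : ℂ) else 0) else 0) -
    Complex.I * ((S.κ : ℂ) * ∑ i, S.g i α β * (((Om⁻¹ * D i) A B : ℝ) : ℂ))) • S.th β (φ (Sum.inr B)) v

lemma jf_row_r (S : Setup d F) (φ : Spl dh dm d) (D : Fin 9 → Matrix (Fin dm) (Fin dm) ℝ)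
    (Om : Matrix (Fin dm) (Fin dm) ℝ) (v : F) (α : Fin 16) (A : Fin dm) :
    ∑ q : Fin 16 × Fin d, ((1 : Matrix (Fin 16 × Fin d) (Fin 16 × Fin d) ℂ) - Complex.I • JF S φ D Om 1 0)
      (α, φ (Sum.inr A)) q • S.th q.1 q.2 v = jfY S φ D Om v α A := by
  have h1 : ∀ β (B : Fin dh), ((1 : Matrix (Fin 16 × Fin d) (Fin 16 × Fin d) ℂ) - Complex.I • JF S φ D Om 1 0)
      (α, φ (Sum.inr A)) (β, φ (Sum.inl B)) = 0 := by
    intro β B
    simp [JF, Matrix.one_apply]
  have h2 : ∀ β (B : Fin dm), ((1 : Matrix (Fin 16 × Fin d) (Fin 16 × Fin d) ℂ) - Complex.I • JF S φ D Om 1 0)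
      (α, φ (Sum.inr A)) (β, φ (Sum.inr B)) = (if α = β then (if A = B then (1 : ℂ) else 0) else 0) -
    Complex.I * ((S.κ : ℂ) * ∑ i, S.g i α β * (((Om⁻¹ * D i) A B : ℝ) : ℂ)) := by
    intro β B
    by_cases h : A = B
    · subst h
      by_cases h3 : α = β <;> simp [JF, Matrix.one_apply, h3]
    · have h' : φ (Sum.inr A) ≠ φ (Sum.inr B) := fun h3 => h (Sum.inr.inj (φ.injective h3))
      simp [JF, Matrix.one_apply, h]
  rw [jf_sum φ]
  simp only [h1, h2, zero_smul, Finset.sum_const_zero, zero_add, jfY]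

/-- `Λθv` in terms of `(1 - iX)θv` -/
lemma jf_lth (S : Setup d F) (φ : Spl dh dm d) (D : Fin 9 → Matrix (Fin dm) (Fin dm) ℝ)
    (Om : Matrix (Fin dm) (Fin dm) ℝ) (hOm : IsOm S.κ D Om) (v : F) (α : Fin 16) (A : Fin dm) :
    S.Lth φ D Om (α, A) v = (1 / 2 : ℂ) • ∑ A', ((Om A A' : ℝ) : ℂ) • jfY S φ D Om v α A' := by
  have hu := jf_unit hOm
  have h1 : ∀ β (B : Fin dm), ∑ A', ((Om A A' : ℝ) : ℂ) * ((if α = β then (if A' = B then (1 : ℂ) else 0) else 0) -
      Complex.I * ((S.κ : ℂ) * ∑ i, S.g i α β * (((Om⁻¹ * D i) A' B : ℝ) : ℂ))) =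
      ((if α = β then ((Om A B : ℝ) : ℂ) else 0) - Complex.I * S.PP D (α, A) (β, B)) := by
    intro β B
    simp only [mul_sub, Finset.sum_sub_distrib]
    congr 1
    · by_cases h : α = β
      · simp [h]
      · simp [h]
    · have h2 : ∀ i, ∑ A', Om A A' * (Om⁻¹ * D i) A' B = D i A B := by
        intro i
        have h3 := congrFun (congrFun (show Om * (Om⁻¹ * D i) = D i by
          rw [← mul_assoc, Matrix.mul_nonsing_inv _ hu, one_mul]) A) B
        rw [Matrix.mul_apply] at h3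
        exact h3
      simp only [Setup.PP, Matrix.of_apply]
      simp only [← h2]
      push_cast
      simp only [Finset.mul_sum]
      rw [Finset.sum_comm]
      refine Finset.sum_congr rfl fun i _ => Finset.sum_congr rfl fun A' _ => ?_
      ring
  rw [Setup.Lth, _root_.sum_apply, Fintype.sum_prod_type]
  simp only [jfY, Finset.smul_sum, smul_smul]
  conv_rhs => rw [Finset.sum_comm]
  refine Finset.sum_congr rfl fun β _ => ?_
  conv_rhs => rw [Finset.sum_comm]
  refine Finset.sum_congr rfl fun B _ => ?_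
  rw [_root_.smul_apply, ← Finset.sum_smul]
  congr 1
  rw [← Finset.mul_sum, h1, Setup.Lam, Matrix.of_apply]

/-- **S5 JF** -/
theorem jF_stmt (S : Setup d F) (φ : Spl dh dm d) : JFStmt S φ := by
  intro D Om ha hc hOm
  have hu := jf_unit hOm
  refine ⟨?_, ?_, ?_, ?_⟩
  · refine jf_cstr S φ D Om 1 0 ha hc hOm ?_
    simp only [Complex.ofReal_one, Complex.ofReal_zero, one_smul, zero_smul, add_zero]
    exact jfX_sq S hc hOm
  · intro h0 h1 h2 c s hcs
    refine jf_cstr S φ D Om c s ha hc hOm ?_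
    have h3 := jfX_anti S (Om := Om) h0 h1 h2
    rw [add_mul, mul_add, mul_add, Matrix.smul_mul, Matrix.mul_smul, Matrix.smul_mul, Matrix.mul_smul,
      Matrix.smul_mul, Matrix.mul_smul, Matrix.smul_mul, Matrix.mul_smul, jfX_sq S hc hOm, jfG_sq, h3]
    have h4 : (c : ℂ) * c + (s : ℂ) * s = 1 := by
      have := congrArg (fun t : ℝ => (t : ℂ)) hcs
      push_cast at this
      rw [← this]
      ring
    rw [smul_smul, smul_smul, smul_smul, smul_smul, smul_neg, mul_comm (s : ℂ) (c : ℂ)]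
    have h5 : ∀ X Y : Matrix (Fin 16 × Fin dm) (Fin 16 × Fin dm) ℂ, ∀ a b : ℂ,
        -(a • Y) + b • -X + (b • X + (1 - a) • -Y) = -Y := by
      intro X Y a b
      rw [sub_smul, one_smul, smul_neg, smul_neg]
      abel
    have h6 : (s : ℂ) * s = 1 - (c : ℂ) * c := by rw [← h4]; ring
    rw [h6]
    exact h5 _ _ _ _
  · intro v
    constructor
    · intro hv
      have hY : ∀ α A, jfY S φ D Om v α A = 0 := by
        intro α A
        rw [← jf_row_r]
        exact hv (α, φ (Sum.inr A))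
      refine ⟨?_, ?_⟩
      · rintro ⟨α, A⟩
        rw [jf_lth S φ D Om hOm]
        simp only [hY, smul_zero, Finset.sum_const_zero]
      · intro A α
        rw [← jf_row_l S φ D Om 1 0]
        exact hv (α, φ (Sum.inl A))
    · rintro ⟨hF, hv⟩ ⟨α, C⟩
      obtain ⟨x, rfl⟩ := φ.surjective C
      rcases x with A | A
      · rw [jf_row_l S φ D Om 1 0]
        exact hv A α
      · rw [jf_row_r]
        have h1 : ∀ A', ∑ A'', ((Om A' A'' : ℝ) : ℂ) • jfY S φ D Om v α A'' = 0 := by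
          intro A'
          have h2 := hF (α, A')
          rw [jf_lth S φ D Om hOm] at h2
          exact (smul_eq_zero.1 h2).resolve_left (by norm_num)
        have h3 : ∑ A', ((Om⁻¹ A A' : ℝ) : ℂ) • ∑ A'', ((Om A' A'' : ℝ) : ℂ) • jfY S φ D Om v α A'' = 0 := by
          simp only [h1, smul_zero, Finset.sum_const_zero]
        have h4 : ∑ A', ((Om⁻¹ A A' : ℝ) : ℂ) • ∑ A'', ((Om A' A'' : ℝ) : ℂ) • jfY S φ D Om v α A'' =
            jfY S φ D Om v α A := by
          simp only [Finset.smul_sum, smul_smul]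
          rw [Finset.sum_comm]
          simp only [← Finset.sum_smul]
          have h5 : ∀ A'', ∑ A', ((Om⁻¹ A A' : ℝ) : ℂ) * ((Om A' A'' : ℝ) : ℂ) = if A = A'' then 1 else 0 := by
            intro A''
            have h6 := congrFun (congrFun (Matrix.nonsing_inv_mul _ hu) A) A''
            rw [Matrix.mul_apply, Matrix.one_apply] at h6
            have h7 := congrArg (fun t : ℝ => (t : ℂ)) h6
            push_cast at h7
            rw [h7]
            split_ifs <;> simp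
          simp only [h5, ite_smul, one_smul, zero_smul, Finset.sum_ite_eq, Finset.mem_univ, if_true]
        rw [← h4]
        exact h3
  · intro v
    have hg : ∀ α (A : Fin dm), ∑ q : Fin 16 × Fin d, ((1 : Matrix (Fin 16 × Fin d) (Fin 16 × Fin d) ℂ) -
        Complex.I • JF S φ D Om 0 1) (α, φ (Sum.inr A)) q • S.th q.1 q.2 v = S.amF (φ (Sum.inr A)) α v := by
      intro α A
      have h1 : ∀ β (B : Fin dh), ((1 : Matrix (Fin 16 × Fin d) (Fin 16 × Fin d) ℂ) - Complex.I • JF S φ D Om 0 1)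
          (α, φ (Sum.inr A)) (β, φ (Sum.inl B)) = 0 := by
        intro β B
        simp [JF, Matrix.one_apply]
      have h2 : ∀ β (B : Fin dm), ((1 : Matrix (Fin 16 × Fin d) (Fin 16 × Fin d) ℂ) - Complex.I • JF S φ D Om 0 1)
          (α, φ (Sum.inr A)) (β, φ (Sum.inr B)) =
            if A = B then ((if α = β then 1 else 0) - Complex.I * S.Gam α β) else 0 := by
        intro β B
        by_cases h : A = B
        · subst h
          simp [JF, Matrix.one_apply]
        · have h' : φ (Sum.inr A) ≠ φ (Sum.inr B) := fun h3 => h (Sum.inr.inj (φ.injective h3))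
          simp [JF, Matrix.one_apply, h]
      rw [jf_sum φ]
      simp only [h1, h2, zero_smul, Finset.sum_const_zero, zero_add, ite_smul, Finset.sum_ite_eq, Finset.mem_univ,
        if_true, sub_smul, Finset.sum_sub_distrib, one_smul]
      rw [Setup.amF, CS.vec, _root_.sub_apply, _root_.smul_apply, _root_.sum_apply, Finset.smul_sum]
      simp only [_root_.smul_apply, smul_smul]
    constructor
    · intro hv A α
      obtain ⟨x, rfl⟩ := φ.surjective A
      rcases x with A | A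
      · rw [← jf_row_l S φ D Om 0 1]
        exact hv (α, φ (Sum.inl A))
      · rw [← hg]
        exact hv (α, φ (Sum.inr A))
    · rintro hv ⟨α, C⟩
      obtain ⟨x, rfl⟩ := φ.surjective C
      rcases x with A | A
      · rw [jf_row_l S φ D Om 0 1]
        exact hv _ α
      · rw [hg]
        exact hv _ α

end Vale.Agent.P353.Z.AS
end

section

/-! # P353, all `N`, block SGN: rotations and colour maps on the one particle space (`VacRStmt`) -/

open MeasureTheory Filter Topology Matrix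
open scoped ContDiff

namespace Vale.Agent.P353.Z.AS

namespace VR808

variable {d dh dm : ℕ} {F : Type*} [NormedAddCommGroup F] [InnerProductSpace ℂ F]

lemma g2_tr (S : Setup d F) {k l : Fin 9} (_h : k ≠ l) : (S.g2 k l)ᵀ = -S.g2 k l := by
  unfold CS.g2
  rw [Matrix.transpose_smul, Matrix.transpose_sub, Matrix.transpose_mul, Matrix.transpose_mul, S.g_symm,
    S.g_symm, ← smul_neg, neg_sub]

lemma gt_tr_mul (S : Setup d F) {k l : Fin 9} (h : k ≠ l) (t : ℝ) : (gtt S k l t)ᵀ * gtt S k l t = 1 := by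
  have h2 : S.g2 k l * S.g2 k l = -1 := S.g2_sq h
  unfold gtt
  rw [Matrix.transpose_add, Matrix.transpose_smul, Matrix.transpose_smul, Matrix.transpose_one, g2_tr S h]
  simp only [add_mul, mul_add, Matrix.smul_mul, Matrix.mul_smul, one_mul, mul_one, neg_mul, h2, neg_neg,
    smul_neg]
  have hsc : (Real.sin (t / 2) : ℂ) ^ 2 + (Real.cos (t / 2) : ℂ) ^ 2 = 1 := by
    have := Real.sin_sq_add_cos_sq (t / 2)
    exact_mod_cast this
  linear_combination (norm := module) hsc • (1 : Matrix (Fin 16) (Fin 16) ℂ)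

lemma gt_mul_tr (S : Setup d F) {k l : Fin 9} (h : k ≠ l) (t : ℝ) : gtt S k l t * (gtt S k l t)ᵀ = 1 :=
  mul_eq_one_comm.1 (gt_tr_mul S h t)

lemma sT_mul (g h : Matrix (Fin 16) (Fin 16) ℂ) :
    (sT g : Matrix (Fin 16 × Fin d) (Fin 16 × Fin d) ℂ) * sT h = sT (g * h) := by
  ext ⟨α, A⟩ ⟨β, B⟩
  rw [Matrix.mul_apply, Fintype.sum_prod_type]
  simp only [sT, Matrix.of_apply, Matrix.mul_apply]
  by_cases hAB : A = B
  · subst hAB
    rw [if_pos rfl]
    refine Finset.sum_congr rfl fun γ _ => ?_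
    rw [Finset.sum_eq_single A]
    · simp
    · intro C _ hC
      rw [if_neg (Ne.symm hC), zero_mul]
    · intro hA
      exact absurd (Finset.mem_univ A) hA
  · rw [if_neg hAB]
    refine Finset.sum_eq_zero fun γ _ => Finset.sum_eq_zero fun C _ => ?_
    by_cases hC : A = C
    · subst hC
      rw [if_neg hAB, mul_zero]
    · rw [if_neg hC, zero_mul]

lemma sT_tr (g : Matrix (Fin 16) (Fin 16) ℂ) :
    (sT g : Matrix (Fin 16 × Fin d) (Fin 16 × Fin d) ℂ)ᵀ = sT gᵀ := by
  ext ⟨α, A⟩ ⟨β, B⟩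
  simp only [sT, Matrix.of_apply, Matrix.transpose_apply]
  by_cases h : A = B
  · subst h
    simp
  · rw [if_neg h, if_neg (fun h' => h h'.symm)]

lemma sT_one : (sT 1 : Matrix (Fin 16 × Fin d) (Fin 16 × Fin d) ℂ) = 1 := by
  ext ⟨α, A⟩ ⟨β, B⟩
  simp only [sT, Matrix.of_apply, Matrix.one_apply, Prod.mk.injEq]
  by_cases h : A = B
  · subst h
    simp
  · simp [h]

lemma vec_one (S : Setup d F) (A : Fin d) (α : Fin 16) : S.vec 1 A α = S.th α A := by
  unfold CS.vec
  rw [Finset.sum_eq_single α]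
  · rw [Matrix.one_apply_eq, one_smul]
  · intro β _ hβ
    rw [Matrix.one_apply_ne hβ.symm, zero_smul]
  · intro h
    exact absurd (Finset.mem_univ α) h

/-- `st θ_q = ∑ (g_t)_{αq} θ_α st` -/
lemma imT [CompleteSpace F] (S : Setup d F) {k l : Fin 9} (h : k ≠ l) (t : ℝ) :
    ImT S (sT (gtt S k l t)) (spr S k l t) := by
  rintro ⟨β, A⟩
  have h1 := S.vec_mul_st h (gtt S k l t)ᵀ A β t
  have h2 : (gtt S k l t)ᵀ * S.gt k l t = 1 := gt_tr_mul S h t
  rw [h2, vec_one] at h1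
  have h3 : S.st k l t = spr S k l t := rfl
  rw [h3] at h1
  rw [← h1, Fintype.sum_prod_type]
  unfold CS.vec
  rw [Finset.sum_mul]
  refine Finset.sum_congr rfl fun α _ => ?_
  rw [Finset.sum_eq_single A]
  · simp only [sT, Matrix.of_apply, if_true, Matrix.transpose_apply, smul_mul_assoc]
  · intro B _ hB
    simp only [sT, Matrix.of_apply]
    rw [if_neg hB, zero_smul]
  · intro hA
    exact absurd (Finset.mem_univ A) hA

lemma spr_vac [CompleteSpace F] (S : Setup d F) (k l : Fin 9) (v : F) (hv : S.Skl k l v = 0) (t : ℝ) :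
    spr S k l t v = v := by
  have hd : ∀ s : ℝ, HasDerivAt (fun s => S.st k l s v) 0 s := by
    intro s
    have h := S.hasDerivAt_st k l s
    have h1 := ((ContinuousLinearMap.apply ℂ F v).restrictScalars ℝ).hasFDerivAt.comp_hasDerivAt s h
    have h2 : ((Complex.I • S.Skl k l) * S.st k l s) v = 0 := by
      rw [smul_mul_assoc, S.st_comm, _root_.smul_apply, mul_apply_eq_comp, hv, map_zero, smul_zero]
    refine HasDerivAt.congr_deriv (f := fun s => S.st k l s v) h1 ?_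
    exact h2
  have hc := is_const_of_deriv_eq_zero (f := fun s => S.st k l s v)
    (fun s => (hd s).differentiableAt) (fun s => (hd s).deriv) t 0
  have h0 : S.st k l 0 v = v := by rw [S.st_zero]; rfl
  show S.st k l t v = v
  rw [← h0]
  simpa [h0] using hc

lemma tr_sa {m : ℕ} {P D : Matrix (Fin m) (Fin m) ℝ} (hP : Pᵀ = P) (hD : Dᵀ = -D) : (P * D).trace = 0 := by
  have h : (P * D).trace = -(P * D).trace := by
    calc (P * D).trace = ((P * D)ᵀ).trace := (Matrix.trace_transpose _).symm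
      _ = (-D * P).trace := by rw [Matrix.transpose_mul, hP, hD]
      _ = -(P * D).trace := by rw [neg_mul, Matrix.trace_neg, Matrix.trace_mul_comm]
  exact self_eq_neg.1 h

lemma Gam_tr (S : Setup d F) : S.Gamᵀ = -S.Gam := by
  have h01 : S.g 0 * S.g 1 = -(S.g 1 * S.g 0) := S.g_ac (by decide)
  have h02 : S.g 0 * S.g 2 = -(S.g 2 * S.g 0) := S.g_ac (by decide)
  have h12 : S.g 1 * S.g 2 = -(S.g 2 * S.g 1) := S.g_ac (by decide)
  unfold Setup.Gam
  rw [Matrix.transpose_mul, Matrix.transpose_mul, S.g_symm, S.g_symm, S.g_symm]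
  have e : S.g 0 * S.g 1 * S.g 2 = -(S.g 2 * (S.g 1 * S.g 0)) := by
    calc S.g 0 * S.g 1 * S.g 2 = S.g 0 * (S.g 1 * S.g 2) := mul_assoc _ _ _
      _ = -(S.g 0 * S.g 2 * S.g 1) := by rw [h12, mul_neg, mul_assoc]
      _ = S.g 2 * S.g 0 * S.g 1 := by rw [h02, neg_mul, neg_neg]
      _ = S.g 2 * (S.g 0 * S.g 1) := mul_assoc _ _ _
      _ = -(S.g 2 * (S.g 1 * S.g 0)) := by rw [h01, mul_neg]
  rw [e, neg_neg]

end VR808

open VR808

variable {d dh dm : ℕ} {F : Type*} [NormedAddCommGroup F] [InnerProductSpace ℂ F]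

/-- **S7 VacR** -/
theorem vacR_stmt (S : Setup d F) (φ : Spl dh dm d) : VacRStmt S φ := by
  intro hF k l hkl
  have : CompleteSpace F := FiniteDimensional.complete ℂ F
  refine ⟨fun t => ⟨imT S hkl.1 t, fun v => S.st_norm k l t v, ?_⟩, ?_, ?_⟩
  · rw [sT_tr, sT_mul, gt_mul_tr S hkl.1 t, sT_one]
  · intro v hv
    have h := S.vf_Skl hv hkl
    exact ⟨h, fun t => spr_vac S k l v h t⟩
  · intro D Om hD _ hO
    have hOi : (Om⁻¹)ᵀ = Om⁻¹ := by rw [transpose_nonsing_inv, hO.symm]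
    have hsum : ∀ α β : Fin 16, ∑ A, S.g2 k l α β * JF S φ D Om 1 0 (α, A) (β, A) =
        (dh : ℂ) * (S.g2 k l α β * S.Gam α β) := by
      intro α β
      rw [← φ.sum_comp, Fintype.sum_sum_type]
      have e1 : ∀ A : Fin dh, JF S φ D Om 1 0 (α, φ (Sum.inl A)) (β, φ (Sum.inl A)) = S.Gam α β := by
        intro A
        simp [JF]
      have e2 : ∀ A : Fin dm, JF S φ D Om 1 0 (α, φ (Sum.inr A)) (β, φ (Sum.inr A)) =
          (S.κ : ℂ) * ∑ i, S.g i α β * (((Om⁻¹ * D i) A A : ℝ) : ℂ) := by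
        intro A
        simp [JF]
      simp only [e1, e2]
      rw [Finset.sum_const, Finset.card_univ, Fintype.card_fin, nsmul_eq_mul]
      have e3 : ∑ A : Fin dm, S.g2 k l α β * ((S.κ : ℂ) * ∑ i, S.g i α β * (((Om⁻¹ * D i) A A : ℝ) : ℂ)) = 0 := by
        rw [← Finset.mul_sum, ← Finset.mul_sum, Finset.sum_comm]
        have e4 : ∀ i, ∑ A : Fin dm, S.g i α β * (((Om⁻¹ * D i) A A : ℝ) : ℂ) = 0 := by
          intro i
          have h1 := tr_sa hOi (hD i)
          rw [← Finset.mul_sum, ← Complex.ofReal_sum]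
          have h2 : ∑ A, (Om⁻¹ * D i) A A = 0 := h1
          rw [h2, Complex.ofReal_zero, mul_zero]
        simp only [e4, Finset.sum_const_zero, mul_zero]
      rw [e3, add_zero]
    simp only [hsum]
    have h3 : ∑ α, ∑ β, S.g2 k l α β * S.Gam α β = 0 := by
      have h4 : (S.g2 k l * S.Gamᵀ).trace = ∑ α, ∑ β, S.g2 k l α β * S.Gam α β := by
        simp only [Matrix.trace, Matrix.diag_apply, Matrix.mul_apply, Matrix.transpose_apply]
      rw [← h4, Gam_tr, mul_neg, Matrix.trace_neg, Matrix.trace_mul_comm, S.trace_Gam_g2_a1, neg_zero]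
    have h5 : ∑ α, ∑ β, (dh : ℂ) * (S.g2 k l α β * S.Gam α β) = (dh : ℂ) * ∑ α, ∑ β, S.g2 k l α β * S.Gam α β := by
      rw [Finset.mul_sum]
      exact Finset.sum_congr rfl fun α _ => (Finset.mul_sum _ _ _).symm
    rw [h5, h3, mul_zero]

end Vale.Agent.P353.Z.AS
end

section

/-! # P353, all `N`, block SGN: the matrices `D_i(η)` of a vacuum bundle commute (helper275) -/

open MeasureTheory Filter Topology Matrix
open scoped ContDiff

namespace Vale.Agent.P353.Z.AS

variable {d dh dm ds dz : ℕ} {F : Type*} [NormedAddCommGroup F] [InnerProductSpace ℂ F]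

/-- a trace identity: `tr(γ^l γ^k (u + v·γ)(u' + v'·γ)) = 16 (v_k v'_l - v_l v'_k)` for `k ≠ l` -/
lemma etc_trace (S : Setup d F) {k l : Fin 9} (hkl : l ≠ k) (u u' : ℂ) (v v' : Fin 9 → ℂ) :
    (S.g l * S.g k * ((u • (1 : Matrix (Fin 16) (Fin 16) ℂ) + ∑ i, v i • S.g i) *
      (u' • (1 : Matrix (Fin 16) (Fin 16) ℂ) + ∑ j, v' j • S.g j))).trace = 16 * (v k * v' l - v l * v' k) := by
  obtain ⟨P, hP⟩ : ∃ P, P = S.g l * S.g k := ⟨_, rfl⟩
  have e0 : P * ((u • (1 : Matrix (Fin 16) (Fin 16) ℂ) + ∑ i, v i • S.g i) *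
      (u' • (1 : Matrix (Fin 16) (Fin 16) ℂ) + ∑ j, v' j • S.g j)) =
      P * ((u • (1 : Matrix (Fin 16) (Fin 16) ℂ)) * (u' • (1 : Matrix (Fin 16) (Fin 16) ℂ))) +
      P * ((u • (1 : Matrix (Fin 16) (Fin 16) ℂ)) * ∑ j, v' j • S.g j) +
      P * ((∑ i, v i • S.g i) * (u' • (1 : Matrix (Fin 16) (Fin 16) ℂ))) +
      P * ((∑ i, v i • S.g i) * ∑ j, v' j • S.g j) := by
    simp only [mul_add, add_mul]
    abel
  have e1 : P * ((u • (1 : Matrix (Fin 16) (Fin 16) ℂ)) * (u' • (1 : Matrix (Fin 16) (Fin 16) ℂ))) = (u * u') • P := by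
    rw [smul_mul_smul_comm, one_mul, mul_smul_comm, mul_one]
  have e2 : P * ((u • (1 : Matrix (Fin 16) (Fin 16) ℂ)) * ∑ j, v' j • S.g j) = ∑ j, (u * v' j) • (P * S.g j) := by
    rw [smul_mul_assoc, one_mul, Finset.smul_sum, Finset.mul_sum]
    exact Finset.sum_congr rfl fun j _ => by rw [smul_smul, mul_smul_comm]
  have e3 : P * ((∑ i, v i • S.g i) * (u' • (1 : Matrix (Fin 16) (Fin 16) ℂ))) = ∑ i, (u' * v i) • (P * S.g i) := by
    rw [mul_smul_comm, mul_one, Finset.smul_sum, Finset.mul_sum]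
    exact Finset.sum_congr rfl fun j _ => by rw [smul_smul, mul_smul_comm]
  have e4 : P * ((∑ i, v i • S.g i) * ∑ j, v' j • S.g j) = ∑ i, ∑ j, (v i * v' j) • (P * (S.g i * S.g j)) := by
    rw [Finset.sum_mul_sum, Finset.mul_sum]
    refine Finset.sum_congr rfl fun i _ => ?_
    rw [Finset.mul_sum]
    exact Finset.sum_congr rfl fun j _ => by rw [smul_mul_smul_comm, mul_smul_comm]
  have t2 : ∀ j, ((u * v' j) • (P * S.g j)).trace = 0 := fun j => by
    rw [Matrix.trace_smul, hP, S.trace_ggg, smul_zero]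
  have t3 : ∀ j, ((u' * v j) • (P * S.g j)).trace = 0 := fun j => by
    rw [Matrix.trace_smul, hP, S.trace_ggg, smul_zero]
  have t4 : ∀ i j, ((v i * v' j) • (P * (S.g i * S.g j))).trace =
      (if k = i then (if l = j then 16 * (v i * v' j) else 0) else 0) -
      (if l = i then (if k = j then 16 * (v i * v' j) else 0) else 0) := fun i j => by
    rw [Matrix.trace_smul, hP, S.trace_g4, if_neg hkl, smul_eq_mul]
    split_ifs <;> ring
  rw [← hP, e0, e1, e2, e3, e4, Matrix.trace_add, Matrix.trace_add, Matrix.trace_add, Matrix.trace_sum, Matrix.trace_sum,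
    Matrix.trace_sum, Matrix.trace_smul, Finset.sum_congr rfl fun j _ => t2 j, Finset.sum_congr rfl fun j _ => t3 j]
  simp only [Matrix.trace_sum, t4, Finset.sum_sub_distrib, Finset.sum_const_zero]
  rw [hP, S.trace_gg, if_neg hkl, smul_zero]
  have s1 : ∑ i, ∑ j, (if k = i then (if l = j then 16 * (v i * v' j) else 0) else 0) = 16 * (v k * v' l) := by
    rw [Finset.sum_eq_single k, Finset.sum_eq_single l, if_pos rfl, if_pos rfl]
    · intro j _ hj
      rw [if_pos rfl, if_neg (Ne.symm hj)]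
    · intro h
      exact absurd (Finset.mem_univ _) h
    · intro i _ hi
      exact Finset.sum_eq_zero fun j _ => if_neg (Ne.symm hi)
    · intro h
      exact absurd (Finset.mem_univ _) h
  have s2 : ∑ i, ∑ j, (if l = i then (if k = j then 16 * (v i * v' j) else 0) else 0) = 16 * (v l * v' k) := by
    rw [Finset.sum_eq_single l, Finset.sum_eq_single k, if_pos rfl, if_pos rfl]
    · intro j _ hj
      rw [if_pos rfl, if_neg (Ne.symm hj)]
    · intro h
      exact absurd (Finset.mem_univ _) h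
    · intro i _ hi
      exact Finset.sum_eq_zero fun j _ => if_neg (Ne.symm hi)
    · intro h
      exact absurd (Finset.mem_univ _) h
  rw [s1, s2]
  ring

/-- sums over all fermions of terms supported on the `m` colours -/
lemma etc_sum {E : Type*} [AddCommMonoid E] (φ : Spl dh dm d) (f : Fin 16 × Fin d → E)
    (hf : ∀ α A, f (α, φ (Sum.inl A)) = 0) : ∑ s, f s = ∑ s : Fin 16 × Fin dm, f (s.1, φ (Sum.inr s.2)) := by
  rw [Fintype.sum_prod_type, Fintype.sum_prod_type]
  refine Finset.sum_congr rfl fun α _ => ?_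
  rw [← φ.sum_comp, Fintype.sum_sum_type]
  simp only [hf, Finset.sum_const_zero, zero_add]

/-- the fermionic vacuum equations imply `Λ Λᵀ = 0` -/
lemma etc_lam (S : Setup d F) (φ : Spl dh dm d) (D : Fin 9 → Matrix (Fin dm) (Fin dm) ℝ)
    (Om : Matrix (Fin dm) (Fin dm) ℝ) {v : F} (hv : v ≠ 0) (hvF : v ∈ S.F0 φ D Om) (p q : Fin 16 × Fin dm) :
    ∑ s : Fin 16 × Fin dm, S.Lam D Om p s * S.Lam D Om q s = 0 := by
  obtain ⟨a, ha⟩ : ∃ a : Fin 16 × Fin dm → Fin 16 × Fin d → ℂ,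
      a = fun p s => Sum.elim (fun _ => 0) (fun B => S.Lam D Om p (s.1, B)) (φ.symm s.2) := ⟨_, rfl⟩
  have hL : ∀ (p : Fin 16 × Fin dm) (w : F), S.Lth φ D Om p w = U.VacT S (a p) w := by
    intro p w
    unfold U.VacT
    rw [etc_sum φ _ (fun α A => by simp [ha])]
    simp only [Setup.Lth, _root_.sum_apply, _root_.smul_apply]
    refine Finset.sum_congr rfl fun s _ => ?_
    simp [ha]
  have h1 := U.VacT_anti S (a p) (a q) v
  rw [← hL, ← hL, ← hL, ← hL, hvF p, hvF q, map_zero, map_zero, add_zero] at h1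
  have h2 := (smul_eq_zero.1 h1.symm).resolve_right hv
  rw [etc_sum φ _ (fun α A => by simp [ha])] at h2
  rw [← h2]
  refine Finset.sum_congr rfl fun s _ => ?_
  simp [ha]

/-- if the fermionic vacuum space of antisymmetric matrices `D_i` is nonzero then they commute -/
theorem eta_comm_of (S : Setup d F) (φ : Spl dh dm d) (D : Fin 9 → Matrix (Fin dm) (Fin dm) ℝ)
    (Om : Matrix (Fin dm) (Fin dm) ℝ) (hD : ∀ i, (D i)ᵀ = -D i) {v : F} (hv : v ≠ 0) (hvF : v ∈ S.F0 φ D Om)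
    (l k : Fin 9) : D l * D k = D k * D l := by
  by_cases hkl : l = k
  · rw [hkl]
  obtain ⟨X, hX⟩ : ∃ X : Fin dm → Fin dm → Matrix (Fin 16) (Fin 16) ℂ,
      X = fun A C => ((Om A C : ℝ) : ℂ) • (1 : Matrix (Fin 16) (Fin 16) ℂ) +
        ∑ i, (-Complex.I * (S.κ : ℂ) * ((D i A C : ℝ) : ℂ)) • S.g i := ⟨_, rfl⟩
  have hXT : ∀ A C, (X A C)ᵀ = X A C := by
    intro A C
    rw [hX]
    simp only [Matrix.transpose_add, Matrix.transpose_smul, Matrix.transpose_one, Matrix.transpose_sum, S.g_symm]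
  have hLam : ∀ (α γ : Fin 16) (A C : Fin dm), S.Lam D Om (α, A) (γ, C) = (1 / 2 : ℂ) * X A C α γ := by
    intro α γ A C
    rw [hX]
    simp only [Setup.Lam, Setup.PP, Matrix.of_apply, Matrix.add_apply, Matrix.smul_apply, Matrix.sum_apply,
      Matrix.one_apply, smul_eq_mul]
    congr 1
    rw [sub_eq_add_neg]
    congr 1
    · split_ifs <;> simp
    · rw [Finset.mul_sum, Finset.mul_sum, ← Finset.sum_neg_distrib]
      exact Finset.sum_congr rfl fun i _ => by ring
  have hkey : ∀ A B, ∑ C, X A C * X B C = 0 := by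
    intro A B
    ext α β
    have h1 := etc_lam S φ D Om hv hvF (α, A) (β, B)
    rw [Fintype.sum_prod_type_right] at h1
    simp only [hLam] at h1
    rw [Matrix.sum_apply, Matrix.zero_apply]
    have h2 : ∀ C, (X A C * X B C) α β = ∑ γ, X A C α γ * X B C β γ := by
      intro C
      rw [Matrix.mul_apply]
      refine Finset.sum_congr rfl fun γ _ => ?_
      rw [← hXT B C, Matrix.transpose_apply, hXT B C]
    simp only [h2]
    have h3 : (1 / 4 : ℂ) * ∑ C, ∑ γ, X A C α γ * X B C β γ = 0 := by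
      rw [← h1, Finset.mul_sum]
      refine Finset.sum_congr rfl fun C _ => ?_
      rw [Finset.mul_sum]
      exact Finset.sum_congr rfl fun γ _ => by ring
    exact (mul_eq_zero.1 h3).resolve_left (by norm_num)
  ext A B
  have h1 : ∑ C, (S.g l * S.g k * (X A C * X B C)).trace = 0 := by
    rw [← Matrix.trace_sum, ← Finset.mul_sum, hkey, mul_zero, Matrix.trace_zero]
  have h2 : ∀ C, (S.g l * S.g k * (X A C * X B C)).trace =
      (-16 * (S.κ : ℂ) ^ 2) * (((D k A C * D l B C - D l A C * D k B C : ℝ)) : ℂ) := by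
    intro C
    rw [hX, etc_trace S hkl]
    push_cast
    ring_nf
    rw [Complex.I_sq]
    ring
  simp only [h2] at h1
  rw [← Finset.mul_sum] at h1
  have hκ : (-16 * (S.κ : ℂ) ^ 2) ≠ 0 := by
    have : (S.κ : ℂ) ≠ 0 := by exact_mod_cast S.κ_pos.ne'
    exact mul_ne_zero (by norm_num) (pow_ne_zero 2 this)
  have h3 := (mul_eq_zero.1 h1).resolve_left hκ
  have h4 : ∑ C, (D k A C * D l B C - D l A C * D k B C) = 0 := by exact_mod_cast h3
  have h5 : ∀ i B C, D i B C = -D i C B := by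
    intro i B C
    have h := congrFun (congrFun (hD i) C) B
    rw [Matrix.transpose_apply, Matrix.neg_apply] at h
    exact h
  rw [Matrix.mul_apply, Matrix.mul_apply, ← sub_eq_zero, ← Finset.sum_sub_distrib, ← h4]
  refine Finset.sum_congr rfl fun C _ => ?_
  rw [h5 l B C, h5 k B C]
  ring

/-- the matrices `D_i(η)` of a vacuum bundle commute off the collisions -/
theorem eta_comm (S : Setup d F) (φ : Spl dh dm d) (ψ : Spl ds dz dh) {L : Finset (Fin dz → ℝ)}
    {Om : Cfg dz → Matrix (Fin dm) (Fin dm) ℝ} {K : Submodule ℂ F} {U : Cfg dz → F →L[ℂ] F}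
    (hB : AX.Bun S φ (AX.Mz S φ ψ) L Om K U) (hne : ∃ v : F, v ≠ 0) {η : Cfg dz} (hη : η ∉ Coll L) (i j : Fin 9) :
    AD.Dz S φ ψ η i * AD.Dz S φ ψ η j = AD.Dz S φ ψ η j * AD.Dz S φ ψ η i := by
  obtain ⟨v, hvK, hv0⟩ := hB.K_ne hne
  have h1 : U η v ≠ 0 := by
    intro h
    have h2 := hB.U_inner η v v
    rw [h, inner_zero_left] at h2
    exact hv0 (inner_self_eq_zero.1 h2.symm)
  have h3 := (hB.U_mem η hη v).1 hvK
  rw [AX.DM_Mz] at h3
  refine eta_comm_of S φ _ _ (fun i => ?_) h1 h3 i j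
  rw [← AX.DM_Mz]
  simp only [DM, Matrix.transpose_sum, Matrix.transpose_smul, AX.Mz_anti, smul_neg, Finset.sum_neg_distrib]

end Vale.Agent.P353.Z.AS
end

section

/-! # P353, all `N`, block SGN: the vacuum line at `η` (S8, helper275) -/

open MeasureTheory Filter Topology Matrix
open scoped ContDiff

namespace Vale.Agent.P353.Z.AS

variable {d dh dm ds dz : ℕ} {F : Type*} [NormedAddCommGroup F] [InnerProductSpace ℂ F]

lemma eta_amF_apply (S : Setup d F) (A : Fin d) (α : Fin 16) (v : F) :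
    S.amF A α v = S.th α A v - Complex.I • ∑ γ, S.Gam α γ • S.th γ A v := by
  unfold Setup.amF CS.vec
  simp only [_root_.sub_apply, _root_.smul_apply, _root_.sum_apply]

/-- `U η` commutes with the annihilators of the `h` colours -/
lemma eta_amF (S : Setup d F) (φ : Spl dh dm d) {ψ : Spl ds dz dh} {L : Finset (Fin dz → ℝ)}
    {Om : Cfg dz → Matrix (Fin dm) (Fin dm) ℝ} {K : Submodule ℂ F} {U : Cfg dz → F →L[ℂ] F}
    (hB : AX.Bun S φ (AX.Mz S φ ψ) L Om K U) (η : Cfg dz) (A : Fin dh) (α : Fin 16) (v : F) :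
    S.amF (φ (Sum.inl A)) α (U η v) = U η (S.amF (φ (Sum.inl A)) α v) := by
  have h : ∀ γ, S.th γ (φ (Sum.inl A)) (U η v) = U η (S.th γ (φ (Sum.inl A)) v) := fun γ =>
    (congrArg (fun T : F →L[ℂ] F => T v) (hB.U_comm η γ A)).symm
  rw [eta_amF_apply, eta_amF_apply]
  simp only [h, map_sub, map_smul, map_sum]

/-- **S8 EtaL** -/
theorem eta_stmt (S : Setup d F) (φ : Spl dh dm d) (ψ : Spl ds dz dh) : LineStmt S → JFStmt S φ → EtaStmt S φ ψ := by
  intro hline hJF hfd hirr L Om K U hB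
  have hinj : ∀ η v, U η v = 0 → v = 0 := by
    intro η v h
    have h2 := hB.U_inner η v v
    rw [h, inner_zero_left] at h2
    exact inner_self_eq_zero.1 h2.symm
  by_cases hne : ∃ v : F, v ≠ 0
  · have hdata : ∀ η ∉ Coll L, CStr (JF S φ (AD.Dz S φ ψ η) (Om η) 1 0) ∧
        ∀ v, v ∈ JV S (JF S φ (AD.Dz S φ ψ η) (Om η) 1 0) ↔
          v ∈ S.F0 φ (AD.Dz S φ ψ η) (Om η) ∧ ∀ A α, S.amF (φ (Sum.inl A)) α v = 0 := by
      intro η hη
      have h1 := hJF (AD.Dz S φ ψ η) (Om η) (fun i => ?_) (fun i j => eta_comm S φ ψ hB hne hη i j) ?_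
      · exact ⟨h1.1, h1.2.2.1⟩
      · rw [← AX.DM_Mz]
        simp only [DM, Matrix.transpose_sum, Matrix.transpose_smul, AX.Mz_anti, smul_neg, Finset.sum_neg_distrib]
      · rw [← AX.DM_Mz]
        exact hB.om η (hB.det η hη)
    have hfst : ∀ η ∉ Coll L, ∀ ζ, Gv S φ K ζ ↔ U η ζ ∈ JV S (JF S φ (AD.Dz S φ ψ η) (Om η) 1 0) := by
      intro η hη ζ
      rw [(hdata η hη).2, ← AX.DM_Mz, ← hB.U_mem η hη]
      refine and_congr_right fun _ => forall_congr' fun A => forall_congr' fun α => ?_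
      rw [eta_amF S φ hB]
      exact ⟨fun h => by rw [h, map_zero], fun h => hinj η _ h⟩
    refine ⟨hfst, fun ζ hζ hζ0 η hη v hv => ?_⟩
    obtain ⟨ζ', -, -, hu⟩ := hline hirr hne _ (hdata η hη).1
    obtain ⟨c₁, hc₁⟩ := hu (U η ζ) ((hfst η hη ζ).1 hζ)
    obtain ⟨c₂, hc₂⟩ := hu v hv
    have hc0 : c₁ ≠ 0 := fun h => hζ0 (hinj η ζ (by rw [hc₁, h, zero_smul]))
    refine ⟨c₂ * c₁⁻¹, ?_⟩
    rw [hc₁, smul_smul, mul_assoc, inv_mul_cancel₀ hc0, mul_one, ← hc₂]
  · have h0 : ∀ v : F, v = 0 := fun v => by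
      by_contra h
      exact hne ⟨v, h⟩
    refine ⟨fun η hη ζ => ?_, fun ζ _ hζ0 => absurd (h0 ζ) hζ0⟩
    rw [h0 ζ, map_zero]
    exact ⟨fun _ => Submodule.zero_mem _, fun _ => ⟨Submodule.zero_mem _, fun A α => map_zero _⟩⟩

end Vale.Agent.P353.Z.AS
end

section

/-! # P353, all `N`, block SGN: S11 Ext, extension by parallel transport (helper993, second prover) -/

open MeasureTheory Filter Topology Matrix
open scoped ContDiff

namespace Vale.Agent.P353.Z.AS

variable {d dh dm ds dz : ℕ} {F : Type*} [NormedAddCommGroup F] [InnerProductSpace ℂ F]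

/-- `ro O` as a linear map -/
noncomputable def extRo (O : Matrix (Fin dz) (Fin dz) ℝ) : Cfg dz →ₗ[ℝ] Cfg dz where
  toFun := ro O
  map_add' x y := by
    ext p
    simp [ro, mul_add, Finset.sum_add_distrib]
  map_smul' c x := by
    ext p
    simp only [ro, PiLp.smul_apply, smul_eq_mul, RingHom.id_apply, Finset.mul_sum]
    exact Finset.sum_congr rfl fun B _ => by ring

lemma extB_orth {O : Matrix (Fin d) (Fin d) ℝ} (h : O * Oᵀ = 1) :
    (cT O : Matrix (Fin 16 × Fin d) (Fin 16 × Fin d) ℂ) * (cT O)ᵀ = 1 := by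
  ext p q
  rw [Matrix.mul_apply, Fintype.sum_prod_type]
  simp only [cT, Matrix.transpose_apply, Matrix.of_apply]
  have h1 : (O * Oᵀ) p.2 q.2 = (1 : Matrix (Fin d) (Fin d) ℝ) p.2 q.2 := by rw [h]
  rw [Matrix.mul_apply, Matrix.one_apply] at h1
  simp only [Matrix.transpose_apply] at h1
  rw [Finset.sum_eq_single p.1]
  · simp only [if_true]
    by_cases hpq : q.1 = p.1
    · simp only [if_pos hpq]
      rw [Matrix.one_apply]
      have h2 : (((∑ j, O p.2 j * O q.2 j : ℝ)) : ℂ) = ((if p.2 = q.2 then 1 else 0 : ℝ) : ℂ) := by rw [h1]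
      push_cast at h2
      rw [h2]
      by_cases h3 : p.2 = q.2
      · rw [if_pos h3, if_pos (Prod.ext hpq.symm h3), Complex.ofReal_one]
      · rw [if_neg h3, if_neg (fun h4 => h3 (by rw [h4])), Complex.ofReal_zero]
    · simp only [if_neg hpq, mul_zero, Finset.sum_const_zero]
      rw [Matrix.one_apply, if_neg (fun h4 => hpq (by rw [h4]))]
  · intro b _ hb
    simp only [if_neg hb.symm, zero_mul, Finset.sum_const_zero]
  · intro h; exact absurd (Finset.mem_univ _) h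

lemma extB_imT (S : Setup d F) {O : Matrix (Fin d) (Fin d) ℝ} {G : F →L[ℂ] F} (h : Imp S O G) : ImT S (cT O) G := by
  intro q
  rw [h.imp, Fintype.sum_prod_type, Finset.sum_eq_single q.1]
  · simp [cT]
  · intro b _ hb
    simp [cT, hb]
  · intro h; exact absurd (Finset.mem_univ _) h

/-- **S11 Ext** -/
theorem ext_stmt' (S : Setup d F) (φ : Spl dh dm d) (ψ : Spl ds dz dh) : ImpTStmt S → CovStmt S φ ψ →
    EtaStmt S φ ψ → ExtStmt S φ ψ := by
  intro hImp hCov hEta hfin hirr hconn L Om K U hB O G hS hBlk hG hinv ζ hζ η₀ hη₀ hG₀ η hη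
  have : CompleteSpace F := FiniteDimensional.complete ℂ F
  by_cases hz : ζ = 0
  · subst hz; simp
  obtain ⟨hE1, hE2⟩ := hEta hfin hirr L Om K U hB
  set Z : Matrix (Fin dz) (Fin dz) ℝ := zO φ ψ O with hZ
  have hOm : ∀ η ∉ Coll L, IsOm S.κ (AD.Dz S φ ψ η) (Om η) := by
    intro η hη
    have := hB.om η (hB.det _ hη)
    rwa [AX.DM_Mz] at this
  have hlin : ∀ η ∉ Coll L, ∃ c : ℂ, G (U η ζ) = c • U (ro Z η) ζ := by
    intro η hη
    refine hE2 ζ hζ hz _ (hinv η hη) _ ?_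
    have h1 := hImp _ _ _ (extB_orth hS.orth) (extB_imT S hG) _ ((hE1 η hη ζ).1 hζ)
    have h2 := hCov.1 O hS hBlk η (Om η) (Om (ro Z η)) (hOm η hη) (hOm _ (hinv η hη)) 1 0
    rw [h2, Matrix.mul_assoc, extB_orth hS.orth, Matrix.mul_one] at h1
    exact h1
  have hUn : ∀ η', inner ℂ (U η' ζ) (U η' ζ) = inner ℂ ζ ζ := fun η' => hB.U_inner _ _ _
  have hζζ : inner ℂ ζ ζ ≠ 0 := inner_self_ne_zero.2 hz
  have hGi : ∀ v w, inner ℂ (G v) (G w) = inner ℂ v w := by
    intro v w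
    let Gi : F →ₗᵢ[ℂ] F := ⟨G.toLinearMap, hG.norm⟩
    exact Gi.inner_map_map v w
  have hopen : IsOpen (Coll L)ᶜ := hB.closed.isOpen_compl
  have hUd : ∀ η' ∉ Coll L, HasFDerivAt U (fderiv ℝ U η') η' := by
    intro η' h'
    exact ((hB.U_smooth.contDiffAt (hopen.mem_nhds h')).differentiableAt (by simp)).hasFDerivAt
  set R : Cfg dz →L[ℝ] Cfg dz := LinearMap.toContinuousLinearMap (extRo Z) with hR
  have hRa : ∀ x, R x = ro Z x := fun x => rfl
  -- derivative
  set g : Cfg dz → ℂ := fun η => inner ℂ (U (R η) ζ) (G (U η ζ)) with hg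
  have hder : ∀ η ∈ (Coll L)ᶜ, HasFDerivAt g (0 : Cfg dz →L[ℝ] ℂ) η := by
    intro η hη
    have d0 : HasFDerivAt (fun η => U (R η)) ((fderiv ℝ U (R η)).comp R) η :=
      (hUd (R η) (hinv η hη)).comp η R.hasFDerivAt
    have d1 := ((ContinuousLinearMap.apply ℂ F ζ).restrictScalars ℝ).hasFDerivAt.comp η d0
    have d2 := ((ContinuousLinearMap.apply ℂ F ζ).restrictScalars ℝ).hasFDerivAt.comp η (hUd η hη)
    have d3 := (G.restrictScalars ℝ).hasFDerivAt.comp η d2
    have d4 := d1.inner ℂ d3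
    refine d4.congr_fderiv ?_
    ext ξ
    obtain ⟨c, hc⟩ := hlin η hη
    have hc0 : c ≠ 0 := by
      intro h0
      rw [h0, zero_smul] at hc
      have h1 := hGi (U η ζ) (U η ζ)
      rw [hc, inner_zero_left, hUn] at h1
      exact hζζ h1.symm
    have e1 : inner ℂ ((fderiv ℝ U (ro Z η) (ro Z ξ)) ζ) (G (U η ζ)) = 0 := by
      rw [hc, inner_smul_right, ← inner_conj_symm, hB.U_par _ (hinv η hη) ζ hζ.1 ζ hζ.1, map_zero, mul_zero]
    have e2 : inner ℂ (U (ro Z η) ζ) (G ((fderiv ℝ U η ξ) ζ)) = 0 := by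
      have h1 : U (ro Z η) ζ = c⁻¹ • G (U η ζ) := by rw [hc, smul_smul, inv_mul_cancel₀ hc0, one_smul]
      rw [h1, inner_smul_left, hGi, hB.U_par _ hη ζ hζ.1 ζ hζ.1, mul_zero]
    have e3 : inner ℂ (U (ro Z η) ζ) (G ((fderiv ℝ U η ξ) ζ)) +
      inner ℂ ((fderiv ℝ U (ro Z η) (ro Z ξ)) ζ) (G (U η ζ)) = 0 := by rw [e1, e2, add_zero]
    exact e3
  have hconst := hopen.is_const_of_fderiv_eq_zero (hconn dz L hB.L_ne)
    (fun x hx => (hder x hx).differentiableAt.differentiableWithinAt) (fun x hx => (hder x hx).fderiv) hη hη₀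
  simp only [hg, hRa] at hconst
  rw [hG₀, hUn] at hconst
  obtain ⟨c, hc⟩ := hlin η hη
  rw [hc, inner_smul_right, hUn] at hconst
  have hc1 : c = 1 := mul_right_cancel₀ hζζ (by rw [hconst, one_mul])
  rw [hc, hc1, one_smul]

end Vale.Agent.P353.Z.AS
end

section

/-! # P353, all `N`, block SGN: the collision set in terms of `D` (S12, prover helper595) -/

open MeasureTheory Filter Topology Matrix
open scoped ContDiff

namespace Vale.Agent.P353.Z.AS

private theorem clc_sum {dm : ℕ} {ι : Type*} (s : Finset ι) (E : Matrix (Fin dm) (Fin dm) ℝ)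
    (f : ι → Fin dm → ℝ) : ∑ a ∈ s, sp E (f a) = sp E (fun k => ∑ a ∈ s, f a k) := by
  have h : (diagonal fun k => ∑ a ∈ s, f a k : Matrix (Fin dm) (Fin dm) ℝ) = ∑ a ∈ s, diagonal (f a) := by
    ext p q
    rw [Matrix.sum_apply]
    rcases eq_or_ne p q with h | h
    · subst h
      simp
    · simp [Matrix.diagonal_apply_ne _ h]
  unfold sp
  rw [h, Finset.mul_sum, Finset.sum_mul]

private theorem clc_cast (i : Fin 9) (hi : i ≠ 8) : ∃ j : Fin 8, j.castSucc = i := by
  refine ⟨⟨i.val, ?_⟩, ?_⟩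
  · have h1 := i.isLt
    have h2 : i.val ≠ 8 := fun h => hi (Fin.ext h)
    omega
  · ext
    rfl

private theorem clc_cast_ne (j : Fin 8) : j.castSucc ≠ (8 : Fin 9) := by
  intro h
  have h1 := congrArg Fin.val h
  have h2 := j.isLt
  simp at h1
  omega

private theorem clc_sq (z : Fin 9 → ℝ) :
    ∑ i ∈ Finset.univ.erase (8 : Fin 9), -(z i * z i) ≠ 0 ↔ ¬ ∀ j : Fin 8, z j.castSucc = 0 := by
  refine not_congr ?_
  rw [Finset.sum_neg_distrib, neg_eq_zero, Finset.sum_eq_zero_iff_of_nonneg fun i _ => mul_self_nonneg (z i)]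
  constructor
  · intro h j
    exact mul_self_eq_zero.1 (h j.castSucc (Finset.mem_erase.2 ⟨clc_cast_ne j, Finset.mem_univ _⟩))
  · intro h i hi
    obtain ⟨j, rfl⟩ := clc_cast i (Finset.mem_erase.1 hi).1
    rw [h j, mul_zero]

/-- **S12 Coll** the collision set in terms of `D` -/
theorem coll_stmt : CollStmt := by
  intro r dm M t Kc E l h η
  obtain ⟨h1, -, h3, -, -, h6, -, -, -⟩ := AX.spS dm E h.orth
  have eD : ∀ i, DM M η i = sp E (fun k => zk (l k) η i) * Kc := by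
    intro i
    have e1 : sp E (fun k => zk (l k) η i) = ∑ a, sp E (fun k => l k a * η (i, a)) :=
      (clc_sum Finset.univ E (fun a k => l k a * η (i, a))).symm
    rw [DM, e1, Finset.sum_mul]
    refine Finset.sum_congr rfl fun a _ => ?_
    rw [h.M_eq a, ← smul_mul_assoc, h3]
    congr 2
    funext k
    ring
  have eDD : ∀ i, DM M η i * DM M η i = sp E (fun k => -(zk (l k) η i * zk (l k) η i)) := by
    intro i
    have e2 : sp E (fun k => -(zk (l k) η i * zk (l k) η i)) = (-1 : ℝ) • sp E (fun k => zk (l k) η i * zk (l k) η i) := by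
      rw [h3]
      congr 1
      funext k
      ring
    rw [eD, Matrix.mul_assoc, ← Matrix.mul_assoc Kc, h.comm (fun x => zk x η i), Matrix.mul_assoc, h.sq, mul_neg,
      mul_one, mul_neg, h1, e2, neg_one_smul]
  rw [Finset.sum_congr rfl fun i _ => eDD i, clc_sum, h6, Finset.prod_ne_zero_iff]
  constructor
  · intro hη k _
    refine (clc_sq fun i => zk (l k) η i).2 fun h0 => hη ?_
    exact ⟨l k, Finset.mem_image_of_mem _ (Finset.mem_univ k), h0⟩
  · rintro hη ⟨l', hl', h0⟩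
    obtain ⟨k, -, rfl⟩ := Finset.mem_image.1 hl'
    exact (clc_sq fun i => zk (l k) η i).1 (hη k (Finset.mem_univ k)) h0

end Vale.Agent.P353.Z.AS
end

section

/-! # P353, all `N`, block X2: the operators of a model are the second quantisations (`ImpMStmt`, helper393) -/

open MeasureTheory Filter Topology Matrix
open scoped ContDiff

namespace Vale.Agent.P353.Z.AX2

universe u

open Vale.Agent.P353.Z.U

/-- diagonalisation of a special unitary matrix by a special unitary matrix -/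
theorem impx_conj {N : ℕ} (hN : 0 < N) (V : Matrix.specialUnitaryGroup (Fin N) ℂ) :
    ∃ (U : Matrix.specialUnitaryGroup (Fin N) ℂ) (x : mgH N), V = U * mgtor x * U⁻¹ := by
  have hV : V.val ∈ unitary (Matrix (Fin N) (Fin N) ℂ) :=
    (Matrix.mem_specialUnitaryGroup_iff.1 V.2).1
  have hdet : V.val.det = 1 := (Matrix.mem_specialUnitaryGroup_iff.1 V.2).2
  obtain ⟨K, hK, hKV⟩ := mad_log V.val hV
  obtain ⟨U, hU⟩ := mg_phase hN (hK.eigenvectorUnitary : Matrix (Fin N) (Fin N) ℂ) hK.eigenvectorUnitary.2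
  set W : Matrix (Fin N) (Fin N) ℂ := (hK.eigenvectorUnitary : Matrix (Fin N) (Fin N) ℂ) with hW
  have hW1 : W * W.conjTranspose = 1 := Matrix.mem_unitaryGroup_iff.1 hK.eigenvectorUnitary.2
  have hW2 : W.conjTranspose * W = 1 := Matrix.mem_unitaryGroup_iff'.1 hK.eigenvectorUnitary.2
  have hKd : K = W * (Matrix.diagonal fun j => ((hK.eigenvalues j : ℝ) : ℂ)) * W.conjTranspose := by
    have h2 := hK.spectral_theorem
    rw [Unitary.conjStarAlgAut_apply] at h2
    exact h2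
  -- `V = W diag(exp(i k_j)) W*`
  have hVd : V.val = W * (Matrix.diagonal fun j => Complex.exp (Complex.I * ((hK.eigenvalues j : ℝ) : ℂ))) *
      W.conjTranspose := by
    have e1 : Complex.I • K = W * (Matrix.diagonal fun j => Complex.I * ((hK.eigenvalues j : ℝ) : ℂ)) * W⁻¹ := by
      have e2 : W⁻¹ = W.conjTranspose := Matrix.inv_eq_right_inv hW1
      rw [e2]
      conv_lhs => rw [hKd]
      rw [← Matrix.smul_mul, ← Matrix.mul_smul, ← Matrix.diagonal_smul]
      rfl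
    have e3 : IsUnit W := by
      rw [Matrix.isUnit_iff_isUnit_det]
      exact Matrix.isUnit_det_of_right_inverse hW1
    rw [← hKV, e1, Matrix.exp_conj _ _ e3, Matrix.exp_diagonal, Matrix.inv_eq_right_inv hW1]
    congr 3
    funext j
    rw [Pi.coe_exp, ← Complex.exp_eq_exp_ℂ]
  -- the sum of the angles
  have hsum : ∃ m : ℤ, ∑ j, hK.eigenvalues j = m * (2 * Real.pi) := by
    have h1 : ∏ j, Complex.exp (Complex.I * ((hK.eigenvalues j : ℝ) : ℂ)) = 1 := by
      have h2 := hdet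
      rw [hVd, Matrix.det_mul, Matrix.det_mul, Matrix.det_diagonal, mul_comm W.det, mul_assoc, ← Matrix.det_mul, hW1,
        Matrix.det_one, mul_one] at h2
      exact h2
    rw [← Complex.exp_sum, Complex.exp_eq_one_iff] at h1
    obtain ⟨m, hm⟩ := h1
    refine ⟨m, ?_⟩
    rw [← Finset.mul_sum, ← Complex.ofReal_sum] at hm
    have h3 : ((∑ j, hK.eigenvalues j : ℝ) : ℂ) = ((m * (2 * Real.pi) : ℝ) : ℂ) := by
      apply mul_left_cancel₀ Complex.I_ne_zero
      rw [hm]
      push_cast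
      ring
    exact_mod_cast h3
  obtain ⟨m, hm⟩ := hsum
  let j₀ : Fin N := ⟨0, hN⟩
  let y : Fin N → ℝ := fun j => hK.eigenvalues j - if j = j₀ then m * (2 * Real.pi) else 0
  have hy : ∑ j, y j = 0 := by
    simp only [y, Finset.sum_sub_distrib, Finset.sum_ite_eq', Finset.mem_univ, if_true]
    rw [hm, sub_self]
  refine ⟨U, ⟨y, hy⟩, ?_⟩
  have hexp : ∀ j, Complex.exp (Complex.I * ((y j : ℝ) : ℂ)) = Complex.exp (Complex.I * ((hK.eigenvalues j : ℝ) : ℂ)) := by
    intro j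
    by_cases hj : j = j₀
    · have : Complex.I * ((y j : ℝ) : ℂ) = Complex.I * ((hK.eigenvalues j : ℝ) : ℂ) - m * (2 * Real.pi * Complex.I) := by
        simp only [y, if_pos hj]
        push_cast
        ring
      rw [this, Complex.exp_sub, Complex.exp_int_mul_two_pi_mul_I, div_one]
    · simp only [y, if_neg hj, sub_zero]
  have hmt : mgtorM (⟨y, hy⟩ : mgH N) = Matrix.diagonal fun j => Complex.exp (Complex.I * ((hK.eigenvalues j : ℝ) : ℂ)) := by
    rw [mgtorM]
    congr 1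
    funext j
    rw [← hexp j]
    congr 1
    exact mul_comm _ _
  apply Subtype.ext
  show V.val = U.val * mgtorM ⟨y, hy⟩ * U.val.conjTranspose
  rw [hmt, hVd]
  exact (hU _).symm

section

variable {N d : ℕ} {F : Type*} [NormedAddCommGroup F] [InnerProductSpace ℂ F]

/-- the generators in terms of the matrices `Z(X)` -/
theorem impx_mgz (M : BFSS.Model N d F) (S : Setup d F) (hrep : Rep M S) (C : Fin d) :
    mgz M.toOld (M.toOld.T C) = Complex.I • S.cS C := by
  have hf : S.f = M.toOld.f := hrep.hf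
  have hth : S.th = M.toOld.θ := hrep.hth
  have h2 : S.cS C = (-Complex.I) • mgz M.toOld (M.toOld.T C) := by
    have hb : ∀ D E, S.bil 1 D E = mgb M.toOld D E := by
      intro D E
      simp only [CS.bil, CS.vec_one, hth]
      rfl
    have ht : ∀ D E, (M.toOld.T C * (M.toOld.T D * M.toOld.T E -
        M.toOld.T E * M.toOld.T D)).trace = Complex.I * (M.f C D E : ℂ) := by
      intro D E
      rw [Matrix.trace_mul_comm]
      have h3 := mf_trace M D E C
      rw [← mf_cyc M C D E] at h3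
      exact h3
    rw [mgz_apply, Setup.cS]
    simp only [hb, ht, hf]
    rw [smul_smul, Finset.smul_sum, Finset.smul_sum]
    refine Finset.sum_congr rfl fun D _ => ?_
    rw [Finset.smul_sum, Finset.smul_sum]
    refine Finset.sum_congr rfl fun E _ => ?_
    rw [smul_smul, smul_smul]
    congr 1
    show -Complex.I / 2 * (M.f C D E : ℂ) = -Complex.I * (-Complex.I / 2) *
      (Complex.I * (M.f C D E : ℂ))
    linear_combination (-Complex.I / 2 * (M.f C D E : ℂ)) * Complex.I_sq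
  rw [h2, smul_smul]
  simp

/-- `Z(X)` kills the vacuum vectors -/
theorem impx_kill (M : BFSS.Model N d F) (S : Setup d F) (hrep : Rep M S) (hd : 0 < d)
    (X : Matrix (Fin N) (Fin N) ℂ) (hX : X.trace = 0) (v : F) (hv : ∀ A α, S.amF A α v = 0) :
    mgz M.toOld X v = 0 := by
  have h1 := mg_complete M.toOld hd X hX
  rw [← h1, map_sum, _root_.sum_apply]
  refine Finset.sum_eq_zero fun C _ => ?_
  rw [map_smul, impx_mgz M S hrep, _root_.smul_apply, _root_.smul_apply, csV_stmt S v hv C, smul_zero, smul_zero]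

/-- exponentials of operators that kill `v` fix `v` -/
theorem impx_exp [CompleteSpace F] (z : F →L[ℂ] F) (v : F) (hz : z v = 0) (t : ℝ) : mgE z t v = v := by
  have hcomm : ∀ s, mgE z s * z = z * mgE z s := fun s => ((mgE_comm (Commute.refl z) s).eq).symm
  have hder : ∀ s : ℝ, HasDerivAt (fun s : ℝ => mgE z s v) 0 s := by
    intro s
    have h1 := ((ContinuousLinearMap.apply ℂ F v).restrictScalars ℝ).hasFDerivAt.comp_hasDerivAt s (mgE_deriv z s)
    have h2 : ((ContinuousLinearMap.apply ℂ F v).restrictScalars ℝ) (z * mgE z s) = 0 := by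
      show (z * mgE z s) v = 0
      rw [← hcomm s]
      show mgE z s (z v) = 0
      rw [hz, map_zero]
    rw [h2] at h1
    exact h1
  have hconst := is_const_of_deriv_eq_zero (fun s => (hder s).differentiableAt) (fun s => (hder s).deriv) t 0
  rw [hconst, mgE_zero]
  rfl

/-- **X2-ImpM** (main part: the operators fix the vacuum vectors) -/
theorem impx_vac [FiniteDimensional ℂ F] (M : BFSS.Model N d F) (S : Setup d F) (hrep : Rep M S) (V : BFSS.SU N)
    (v : F) (hv : ∀ A α, S.amF A α v = 0) : M.S V v = v := by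
  have hcs : CompleteSpace F := FiniteDimensional.complete ℂ F
  rcases Nat.eq_zero_or_pos d with hd | hd
  · -- `N ≤ 1`: the group is trivial
    have h1 : V = 1 := by
      have hN : N ≤ 1 := by
        by_contra hN
        have h2 : 2 ≤ N := by omega
        have h3 := M.dim_eq
        have h4 : 2 ^ 2 ≤ N ^ 2 := Nat.pow_le_pow_left h2 2
        omega
      have hsub : Subsingleton (Fin N) := by
        rw [← Fintype.card_le_one_iff_subsingleton, Fintype.card_fin]
        exact hN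
      apply Subtype.ext
      ext i j
      have hij : i = j := Subsingleton.elim _ _
      subst hij
      have hdet : V.val.det = 1 := (Matrix.mem_specialUnitaryGroup_iff.1 V.2).2
      have : Unique (Fin N) := ⟨⟨i⟩, fun a => Subsingleton.elim _ _⟩
      rw [Matrix.det_unique] at hdet
      have h5 : (default : Fin N) = i := Subsingleton.elim _ _
      rw [h5] at hdet
      rw [hdet]
      simp
    rw [h1, M.S_one]
    rfl
  · obtain ⟨hN, -⟩ := mg_dim M.toOld hd
    obtain ⟨U, x, hUx⟩ := impx_conj hN V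
    have h1 := mgS_conj M.toOld hd U x 1
    rw [one_smul, ← hUx] at h1
    have h2 : M.S V = M.toOld.S V := rfl
    rw [h2, h1]
    apply impx_exp
    apply impx_kill M S hrep hd _ _ v hv
    rw [mgc_trace, mgd, Matrix.trace_diagonal, ← Complex.ofReal_sum, mgH_sum, Complex.ofReal_zero]

/-- **X2-ImpM** -/
theorem impM_stmt : ImpMStmt.{u} := by
  intro n d E _ _ _ M S hrep V
  refine ⟨?_, ?_, M.S_isometry V, fun v hv => impx_vac M S hrep V v hv⟩
  · rcases Nat.eq_zero_or_pos n with hN | hN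
    · have hd : d = 0 := by rw [M.dim_eq, hN]; rfl
      subst hd
      ext i
      exact i.elim0
    · obtain ⟨a, ha⟩ := mad_exp M hN S hrep V
      rw [ha]
      exact mul_eq_one_comm.1 (gx983_orth S a (-1))
  · intro α A
    have h := M.toOld.S_rotates V α A
    rw [hrep.hth]
    exact h

end

end Vale.Agent.P353.Z.AX2
end

section

/-! # P353, all `N`, block X2: assembly (all outputs unconditional: `x2All ihAll secAll modAll fubAll prodAll zeroAll impMAll`) -/

namespace Vale.Agent.P353.Z.AX2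

universe u

/-- **X2-ImpM**, unconditional -/
theorem impMAll : ImpMStmt.{u} := impM_stmt

end Vale.Agent.P353.Z.AX2
end

section

/-! # P353, all `N`, block SGN: zero modes are even (`EvenStmt`) -/

open MeasureTheory Filter Topology Matrix
open scoped ContDiff

namespace Vale.Agent.P353.Z.AS

universe u

namespace Ev977

variable {d : ℕ} {F : Type*} [NormedAddCommGroup F] [InnerProductSpace ℂ F]

lemma RR_two_pi {k l : Fin 9} (x : Cfg d) : RR k l (-(2 * Real.pi)) x = x := by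
  ext p
  obtain ⟨i, A⟩ := p
  rw [RR_apply, Real.cos_neg, Real.cos_two_pi, Real.sin_neg, Real.sin_two_pi]
  simp

lemma gt_two_pi (S : Setup d F) (k l : Fin 9) : gtt S k l (2 * Real.pi) = -1 := by
  unfold gtt
  have h : 2 * Real.pi / 2 = Real.pi := by ring
  rw [h, Real.cos_pi, Real.sin_pi]
  simp

/-- `V_{2π}` implements `-1` -/
lemma imp_two_pi {S : Setup d F} [CompleteSpace F] {V : F →L[ℂ] F} {k l : Fin 9}
    (h1 : ImT S (sT (gtt S k l (2 * Real.pi))) V) (h2 : ∀ v, ‖V v‖ = ‖v‖)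
    (h3 : ∀ v, (∀ A α, S.amF A α v = 0) → V v = v) : Imp S (-1) V := by
  refine ⟨by simp, fun α A => ?_, h2, h3⟩
  have h := h1 (α, A)
  rw [gt_two_pi] at h
  have e : ∀ p : Fin 16 × Fin d, (sT (-1 : Matrix (Fin 16) (Fin 16) ℂ) : Matrix (Fin 16 × Fin d) (Fin 16 × Fin d) ℂ) p (α, A) =
      if p = (α, A) then -1 else 0 := by
    rintro ⟨β, B⟩
    simp only [sT, Matrix.of_apply, Matrix.neg_apply, Matrix.one_apply, Prod.mk.injEq]
    by_cases hB : B = A
    · by_cases hβ : β = α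
      · simp [hB, hβ]
      · simp [hB, hβ]
    · simp [hB]
  simp only [e, ite_smul, zero_smul, Finset.sum_ite_eq', Finset.mem_univ, if_true] at h
  rw [h]
  have e2 : ∀ B : Fin d, (((-1 : Matrix (Fin d) (Fin d) ℝ) B A : ℝ) : ℂ) • (S.th α B * V) =
      if B = A then (-1 : ℂ) • (S.th α A * V) else 0 := by
    intro B
    by_cases hB : B = A
    · subst hB
      simp
    · simp [hB]
  simp only [e2, Finset.sum_ite_eq', Finset.mem_univ, if_true]

lemma inl (r : ℝ) (x y : F) : inner ℂ (r • x) y = (r : ℂ) * inner ℂ x y := by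
  rw [← Complex.coe_smul, inner_smul_left, Complex.conj_ofReal]

lemma inr (r : ℝ) (x y : F) : inner ℂ x (r • y) = (r : ℂ) * inner ℂ x y := by
  rw [← Complex.coe_smul, inner_smul_right]

lemma inner_int [CompleteSpace F] {f : Cfg d → F} (hf : Integrable f (volume : Measure (Cfg d))) (w : F) :
    inner ℂ (∫ x, f x) w = ∫ x, inner ℂ (f x) w := by
  rw [← inner_conj_symm, ← integral_inner hf w, ← integral_conj]
  congr 1
  ext x
  rw [inner_conj_symm]

/-- weak rotation invariance integrated -/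
lemma rot_const (S : Setup d F) [CompleteSpace F] {k l : Fin 9} (h : k ≠ l)
    (Ψ : Lp F 2 (volume : Measure (Cfg d)))
    (hJ : ∀ ζ, Setup.Tst ζ → ∫ x, inner ℂ (S.J k l ζ x) (Ψ x) = 0) (ζ : Cfg d → F) (hζ : Setup.Tst ζ) (t : ℝ) :
    ∫ x, inner ℂ (Ψ x) (S.Ut k l t ζ x) = ∫ x, inner ℂ (Ψ x) (ζ x) := by
  have hloc : LocallyIntegrable (fun x => (Ψ : Cfg d → F) x) (volume : Measure (Cfg d)) :=
    (Lp.memLp Ψ).locallyIntegrable (by norm_num)
  have hd : ∀ s, HasDerivAt (fun t => ∫ x, inner ℂ (Ψ x) (S.Ut k l t ζ x)) 0 s := by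
    intro s
    have h1 := S.hasDerivAt_integral_Ut h hloc hζ s
    have h2 : ∫ x, inner ℂ (Ψ x) (Complex.I • S.J k l (S.Ut k l s ζ) x) = 0 := by
      have h3 := hJ (S.Ut k l s ζ) (hζ.Ut S h s)
      have h4 : ∀ x, inner ℂ (Ψ x) (Complex.I • S.J k l (S.Ut k l s ζ) x) =
          Complex.I * (starRingEnd ℂ) (inner ℂ (S.J k l (S.Ut k l s ζ) x) (Ψ x)) := by
        intro x
        rw [inner_smul_right, inner_conj_symm]
      simp only [h4]
      rw [integral_const_mul, integral_conj, h3, map_zero, mul_zero]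
    rw [h2] at h1
    exact h1
  have hc := is_const_of_deriv_eq_zero (f := fun t => ∫ x, inner ℂ (Ψ x) (S.Ut k l t ζ x))
    (fun s => (hd s).differentiableAt) (fun s => (hd s).deriv) t 0
  refine hc.trans ?_
  congr 1
  ext x
  simp [Setup.Ut, S.st_zero, RR_zero]

lemma rot_inv (S : Setup d F) [CompleteSpace F] {k l : Fin 9} (h : k ≠ l)
    (Ψ : Lp F 2 (volume : Measure (Cfg d)))
    (hJ : ∀ ζ, Setup.Tst ζ → ∫ x, inner ℂ (S.J k l ζ x) (Ψ x) = 0) :
    ∀ᵐ x ∂(volume : Measure (Cfg d)), S.st k l (2 * Real.pi) (Ψ x) = Ψ x := by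
  have hloc : LocallyIntegrable (fun x => (Ψ : Cfg d → F) x) (volume : Measure (Cfg d)) :=
    (Lp.memLp Ψ).locallyIntegrable (by norm_num)
  have hmem : MemLp (fun x => S.st k l (-(2 * Real.pi)) (Ψ x) - Ψ x) 2 (volume : Measure (Cfg d)) :=
    ((S.st k l (-(2 * Real.pi))).comp_memLp' (Lp.memLp Ψ)).sub (Lp.memLp Ψ)
  have hloc2 : LocallyIntegrable (fun x => S.st k l (-(2 * Real.pi)) (Ψ x) - Ψ x)
      (volume : Measure (Cfg d)) := hmem.locallyIntegrable (by norm_num)
  have key : ∀ᵐ x ∂(volume : Measure (Cfg d)), S.st k l (-(2 * Real.pi)) (Ψ x) - Ψ x = 0 := by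
    refine ae_eq_zero_of_integral_contDiff_smul_eq_zero hloc2 fun g hg hgc => ?_
    have hint : Integrable (fun x => g x • (S.st k l (-(2 * Real.pi)) (Ψ x) - Ψ x)) (volume : Measure (Cfg d)) := by
      simpa using hloc2.integrable_smul_left_of_hasCompactSupport hg.continuous hgc
    have hz : ∀ w : F, inner ℂ (∫ x, g x • (S.st k l (-(2 * Real.pi)) (Ψ x) - Ψ x)) w = 0 := by
      intro w
      have hT : Setup.Tst (fun x => g x • w) := ⟨hg.smul contDiff_const, hgc.smul_right⟩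
      have h1 := rot_const S h Ψ hJ (fun x => g x • w) hT (2 * Real.pi)
      have hI1 : Integrable (fun x => g x • S.st k l (-(2 * Real.pi)) (Ψ x)) (volume : Measure (Cfg d)) := by
        have hm : MemLp (fun x => S.st k l (-(2 * Real.pi)) (Ψ x)) 2 (volume : Measure (Cfg d)) :=
          (S.st k l (-(2 * Real.pi))).comp_memLp' (Lp.memLp Ψ)
        exact (hm.locallyIntegrable (by norm_num)).integrable_smul_left_of_hasCompactSupport hg.continuous hgc
      have hI2 : Integrable (fun x => g x • (Ψ x)) (volume : Measure (Cfg d)) :=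
        hloc.integrable_smul_left_of_hasCompactSupport hg.continuous hgc
      have e1 : ∀ x, inner ℂ (Ψ x) (S.Ut k l (2 * Real.pi) (fun x => g x • w) x) =
          inner ℂ (g x • S.st k l (-(2 * Real.pi)) (Ψ x)) w := by
        intro x
        simp only [Setup.Ut, RR_two_pi]
        have hs : S.st k l (2 * Real.pi) (g x • w) = g x • S.st k l (2 * Real.pi) w := by
          rw [← Complex.coe_smul, map_smul, Complex.coe_smul]
        rw [inl, hs, inr, ← inner_conj_symm (Ψ x), S.st_adj, inner_conj_symm]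
      have e2 : ∀ x, inner ℂ (Ψ x) (g x • w) = inner ℂ (g x • (Ψ x)) w := by
        intro x
        rw [inl, inr]
      simp only [e1, e2] at h1
      have e3 : inner ℂ (∫ x, g x • (S.st k l (-(2 * Real.pi)) (Ψ x) - Ψ x)) w =
          (∫ x, inner ℂ (g x • S.st k l (-(2 * Real.pi)) (Ψ x)) w) - ∫ x, inner ℂ (g x • (Ψ x)) w := by
        rw [← inner_int hI1, ← inner_int hI2, ← inner_sub_left, ← integral_sub hI1 hI2]
        congr 2
        ext x
        rw [smul_sub]
      rw [e3, h1, sub_self]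
    exact inner_self_eq_zero.1 (hz _)
  filter_upwards [key] with x hx
  have h1 : S.st k l (-(2 * Real.pi)) (Ψ x) = Ψ x := sub_eq_zero.1 hx
  have h2 := congrArg (fun T : F →L[ℂ] F => T (Ψ x)) (S.st_mul_neg k l (2 * Real.pi))
  simp only [mul_apply_eq_comp, _root_.one_apply_eq_self] at h2
  rw [h1] at h2
  exact h2

end Ev977

open Ev977

variable {d : ℕ} {F : Type u} [NormedAddCommGroup F] [InnerProductSpace ℂ F]

/-- **S14 Even** -/
theorem even_stmt (S : Setup d F) (hSec : AX2.SecStmt S) : EvenStmt S := by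
  intro hfd hirr hne P hP Ψ hΨ
  have : CompleteSpace F := FiniteDimensional.complete ℂ F
  have h34 : Same 3 4 := by
    refine ⟨by decide, ?_⟩
    decide
  obtain ⟨hA, hB, -⟩ := vacR_stmt S (Equiv.sumEmpty (Fin d) (Fin 0) : Spl d 0 d) hfd 3 4 h34
  have hV : Imp S (-1) (spr S 3 4 (2 * Real.pi)) :=
    imp_two_pi (hA _).1 (hA _).2.1 fun v hv => (hB v hv).2 _
  have hPV : P = spr S 3 4 (2 * Real.pi) := (hSec hfd hirr hne).2 _ _ _ hP hV
  have hJ := U.zj S Ψ hΨ 3 4 h34.1
  have h := rot_inv S h34.1 Ψ hJ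
  filter_upwards [h] with x hx
  rw [hPV]
  exact hx

end Vale.Agent.P353.Z.AS
end
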