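import Mathlib
import Vale.Agent.P353.BdA.B1
import Vale.Agent.P353.BdA.B5
import Vale.Agent.P353.BdA.B14
import Vale.Agent.P353.BdA.B13
import Vale.Agent.P353.BdA.B23
import Vale.Agent.P353.BdA.B21
import Vale.Agent.P353.BdZ.B7

set_option linter.all false

section

/-! # P353, all `N`, block E: `GluDStmt` from `AN.GluStmt` (change the section on a null set) -/

open MeasureTheory Filter Topology Matrix
open scoped ContDiff

namespace Vale.Agent.P353.Z.AE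

variable {d dh dm r ds : ℕ} {F : Type*} [NormedAddCommGroup F] [InnerProductSpace ℂ F]

/-- the coordinates `(y^z/R, y^s)` as a linear map on `Cfg dh` -/
noncomputable def gd655L (ψ : Spl r ds dh) (R : ℝ) : Cfg dh →ₗ[ℝ] Cfg r × Cfg ds where
  toFun y := (R⁻¹ • AN.hz ψ y, AN.hs ψ y)
  map_add' := by
    intro x y
    refine Prod.ext ?_ ?_
    · ext p
      simp [AN.hz, mul_add]
    · ext p
      simp [AN.hs]
  map_smul' := by
    intro c x
    refine Prod.ext ?_ ?_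
    · ext p
      simp [AN.hz, mul_left_comm]
    · ext p
      simp [AN.hs]

lemma gd655L_surj (ψ : Spl r ds dh) {R : ℝ} (hR : R ≠ 0) : Function.Surjective (gd655L ψ R) := by
  intro p
  refine ⟨AN.cmb ψ (R • p.1) p.2, ?_⟩
  refine Prod.ext ?_ ?_
  · ext q
    simp [gd655L, AN.hz, AN.cmb, hR]
  · ext q
    simp [gd655L, AN.hs, AN.cmb]

/-- `zy` as a linear map -/
noncomputable def gd655Z (φ : Spl dh dm d) : Cfg d →ₗ[ℝ] Cfg dh where
  toFun x := AN.zy φ x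
  map_add' := by
    intro x y
    ext p
    simp [AN.zy]
  map_smul' := by
    intro c x
    ext p
    simp [AN.zy]

lemma gd655Z_surj (φ : Spl dh dm d) : Function.Surjective (gd655Z φ) := by
  intro y
  refine ⟨emb φ y 0, ?_⟩
  ext q
  simp [gd655Z, AN.zy, emb]

lemma gd655_qmp {E G : Type*} [NormedAddCommGroup E] [NormedSpace ℝ E] [FiniteDimensional ℝ E] [MeasurableSpace E]
    [BorelSpace E] [NormedAddCommGroup G] [NormedSpace ℝ G] [FiniteDimensional ℝ G] [MeasurableSpace G] [BorelSpace G]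
    (L : E →ₗ[ℝ] G) (hL : Function.Surjective L) (μ : Measure E) (ν : Measure G) [μ.IsAddHaarMeasure]
    [ν.IsAddHaarMeasure] : Measure.QuasiMeasurePreserving L μ ν := by
  obtain ⟨c, -, hc⟩ := L.exists_map_addHaar_eq_smul_addHaar μ ν hL
  refine ⟨L.continuous_of_finiteDimensional.measurable, ?_⟩
  rw [hc]
  exact Measure.smul_absolutelyContinuous

/-- **EG-GluD** -/
theorem gluD (S : Setup d F) : AN.GluStmt S → GluDStmt S := by
  intro hG hF dh dm r ds φ ψ z₀ hcen hStd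
  obtain ⟨ε₀, hε₀, H⟩ := hG hF dh dm r ds φ ψ z₀ hcen hStd
  refine ⟨ε₀, hε₀, fun ε hε hε' => ?_⟩
  obtain ⟨δ₀, hδ₀, H2⟩ := H ε hε hε'
  refine ⟨δ₀, hδ₀, fun δ hδ hδ' Om hOm hOmc a ha hsupp R χ u C hR hcut hGI hn => ?_⟩
  -- the strongly measurable version
  set B : Set (Cfg r × Cfg ds) := {q | ‖q.1 - z₀‖ ≤ δ} with hB
  have hBm : MeasurableSet B := (isClosed_le (by fun_prop) continuous_const).measurableSet
  set g : Cfg r × Cfg ds → F := B.indicator (ha.1.mk _) with hg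
  have hgm : StronglyMeasurable g := (ha.1.stronglyMeasurable_mk).indicator hBm
  have hga : (fun q : Cfg r × Cfg ds => a q.1 q.2) =ᵐ[volume.prod volume] g := by
    filter_upwards [ha.1.ae_eq_mk] with q hq
    by_cases hqB : q ∈ B
    · rw [hg, Set.indicator_of_mem hqB, ← hq]
    · rw [hg, Set.indicator_of_notMem hqB]
      by_contra h0
      exact hqB (hsupp q.1 q.2 h0)
  have hglp : MemLp g 2 (volume.prod volume) := ha.ae_eq hga
  have hgs : ∀ η s, g (η, s) ≠ 0 → ‖η - z₀‖ ≤ δ := by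
    intro η s h0
    by_contra h1
    exact h0 (Set.indicator_of_notMem (fun h2 : (η, s) ∈ B => h1 h2) _)
  have hsup : ∀ n q, χ n q ≠ 0 → ‖q.2.1‖ ≤ δ₀ * R n ∧ ‖q.2.2‖ ≤ δ₀ * (R n * Real.sqrt (R n)) := by
    intro n q hq
    obtain ⟨h1, h2⟩ := hcut.sup n q hq
    have h3 : 0 ≤ R n := by
      by_contra h
      have := (norm_nonneg q.2.1).trans h1
      nlinarith
    exact ⟨h1.trans (mul_le_mul_of_nonneg_right hδ' h3),
      h2.trans (mul_le_mul_of_nonneg_right hδ' (mul_nonneg h3 (Real.sqrt_nonneg _)))⟩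
  have key := H2 δ hδ hδ' Om hOm hOmc (fun η s => g (η, s)) hgm hglp hgs R χ u C hR hcut.meas hcut.bd hcut.lim
    hsup (fun n => (hGI n).tst) (fun n => (hGI n).inv) hn
  refine key.congr' ?_
  filter_upwards [hR.eventually_gt_atTop 0] with n hRn
  have hR0 : R n ≠ 0 := hRn.ne'
  have q1 : ∀ᵐ y : Cfg dh, a ((R n)⁻¹ • AN.hz ψ y) (AN.hs ψ y) = g ((R n)⁻¹ • AN.hz ψ y, AN.hs ψ y) :=
    (gd655_qmp (gd655L ψ (R n)) (gd655L_surj ψ hR0) (volume : Measure (Cfg dh))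
      ((volume : Measure (Cfg r)).prod (volume : Measure (Cfg ds)))).ae hga
  have q2 : ∀ᵐ x : Cfg d, a ((R n)⁻¹ • AN.hz ψ (AN.zy φ x)) (AN.hs ψ (AN.zy φ x)) =
      g ((R n)⁻¹ • AN.hz ψ (AN.zy φ x), AN.hs ψ (AN.zy φ x)) :=
    (gd655_qmp (gd655Z φ) (gd655Z_surj φ) (volume : Measure (Cfg d)) (volume : Measure (Cfg dh))).ae q1
  have q3 : ∀ᵐ p : Cfg dh × Wsp dm ∂((volume : Measure (Cfg dh)).prod (volume : Measure (Wsp dm))),
      a ((R n)⁻¹ • AN.hz ψ p.1) (AN.hs ψ p.1) = g ((R n)⁻¹ • AN.hz ψ p.1, AN.hs ψ p.1) :=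
    (Measure.quasiMeasurePreserving_fst).ae q1
  have e1 : (∫ x, inner ℂ (AN.Zb φ ψ (fun q => ((χ n q : ℝ) : ℂ) • AN.bG S.κ Om (fun η s => g (η, s)) q) (R n) x)
      (u n x)) = ZL S φ ψ Om (χ n) (R n) a (u n) := by
    unfold ZL
    refine integral_congr_ae ?_
    filter_upwards [q2] with x hx
    simp only [AN.Zb, AN.bG, hx]
  have e2 : (∫ p in AN.Nb (AN.cmb ψ z₀ 0) dm (R n) ε, inner ℂ (AN.Ts0 ψ (AN.vG S φ ψ Om (fun η s => g (η, s))) (R n) p.1 p.2)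
      (S.res φ (u n) p.1 p.2) ∂((volume : Measure (Cfg dh)).prod (volume : Measure (Wsp dm)))) =
      SL S φ ψ Om z₀ ε (R n) a (u n) := by
    unfold SL
    refine integral_congr_ae (ae_restrict_of_ae ?_)
    filter_upwards [q3] with p hp
    simp only [AN.Ts0, AN.vG, hp]
  rw [← e1, ← e2]

end Vale.Agent.P353.Z.AE
end

section

/-! # P353, all `N`, block L, auxiliary lemmas for `L-Crd` (prover helper655): weighted norm of the global profile, measurable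
representative of a section -/

open MeasureTheory Filter Topology Matrix
open scoped ContDiff ENNReal

namespace Vale.Agent.P353.Z.AL

variable {d dh dm r ds : ℕ} {F : Type*} [NormedAddCommGroup F] [InnerProductSpace ℂ F]

/-- polynomial times Gaussian -/
theorem crd655_poly (n : ℕ) {c : ℝ} (hc : 0 < c) : ∃ M : ℝ, 0 ≤ M ∧ ∀ t : ℝ, 0 ≤ t →
    (1 + t) ^ n * Real.exp (-(c * t)) ≤ M * Real.exp (-(c / 2 * t)) := by
  refine ⟨n.factorial * (2 / c) ^ n * Real.exp (c / 2), by positivity, fun t ht => ?_⟩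
  have h1 := Real.pow_div_factorial_le_exp (c / 2 * (1 + t)) (by positivity) n
  have hf : (0 : ℝ) < n.factorial := by exact_mod_cast n.factorial_pos
  rw [div_le_iff₀ hf, mul_pow] at h1
  have h2 : (1 + t) ^ n ≤ n.factorial * (2 / c) ^ n * Real.exp (c / 2) * Real.exp (c / 2 * t) := by
    have h3 : (1 + t) ^ n = (2 / c) ^ n * ((c / 2) ^ n * (1 + t) ^ n) := by
      rw [← mul_assoc, ← mul_pow, div_mul_div_comm, mul_comm 2 c, div_self (by positivity), one_pow, one_mul]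
    rw [h3]
    calc (2 / c) ^ n * ((c / 2) ^ n * (1 + t) ^ n) ≤ (2 / c) ^ n * (Real.exp (c / 2 * (1 + t)) * n.factorial) := by
          gcongr
      _ = _ := by
          rw [mul_add, mul_one, Real.exp_add]
          ring
  calc (1 + t) ^ n * Real.exp (-(c * t)) ≤ n.factorial * (2 / c) ^ n * Real.exp (c / 2) * Real.exp (c / 2 * t) *
        Real.exp (-(c * t)) := by gcongr
    _ = _ := by
        rw [mul_assoc _ (Real.exp (c / 2 * t)), ← Real.exp_add]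
        congr 2
        ring

/-- the weighted moments of the Gaussian profile are bounded over a compact set -/
theorem crd655_mom {κ : ℝ} (hκ : 0 < κ) {A : Set (Cfg r)} (hA : IsCompact A)
    {Om : Cfg r → Matrix (Fin dm) (Fin dm) ℝ} {D : Cfg r → Fin 9 → Matrix (Fin dm) (Fin dm) ℝ}
    (hO : ∀ B C, ContinuousOn (fun η => Om η B C) A) (hI : ∀ η ∈ A, IsOm κ (D η) (Om η)) :
    ∃ C : ℝ, 0 ≤ C ∧ ∀ η ∈ A, ∫⁻ X : Cfg dm, ENNReal.ofReal ((1 + ‖X‖ ^ 2) ^ (dm + 1)) *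
      ‖((AN.Nf κ (Om η) * Real.exp (-(1 / 2) * AN.qX (Om η) X) : ℝ) : ℂ)‖ₑ ^ 2 ≤ ENNReal.ofReal C := by
  obtain ⟨c, hc, hcl⟩ := lin_ulow hA (fun η X => AN.qX (Om η) X) (lin_qX_cont hO) (fun η => AN.gau_qX_smul (Om η))
    (fun η hη => AN.gau_qX_pos (hI η hη))
  obtain ⟨N, hN⟩ := hA.exists_bound_of_continuousOn (lin_Nf_cont hκ hA hO hI)
  obtain ⟨M, hM, hMl⟩ := crd655_poly (dm + 1) hc
  have hgi : Integrable fun X : Cfg dm => Real.exp (-(c / 2 * ‖X‖ ^ 2)) := AN.gau_int_sq (half_pos hc)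
  refine ⟨N ^ 2 * M * ∫ X : Cfg dm, Real.exp (-(c / 2 * ‖X‖ ^ 2)),
    mul_nonneg (by positivity) (integral_nonneg fun X => (Real.exp_pos _).le), fun η hη => ?_⟩
  rw [← integral_const_mul, ofReal_integral_eq_lintegral_ofReal (hgi.const_mul _)
    (Eventually.of_forall fun X => by positivity)]
  refine lintegral_mono fun X => ?_
  rw [← ofReal_norm, ← ENNReal.ofReal_pow (norm_nonneg _), ← ENNReal.ofReal_mul (by positivity)]
  refine ENNReal.ofReal_le_ofReal ?_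
  rw [Complex.norm_real, norm_mul, mul_pow, Real.norm_eq_abs (Real.exp _), abs_of_pos (Real.exp_pos _), ← Real.exp_nat_mul]
  have h1 : ‖AN.Nf κ (Om η)‖ ^ 2 ≤ N ^ 2 := by
    have := hN η hη
    gcongr
  have h2 : Real.exp (((2 : ℕ) : ℝ) * (-(1 / 2) * AN.qX (Om η) X)) ≤ Real.exp (-(c * ‖X‖ ^ 2)) := by
    rw [Real.exp_le_exp]
    have := hcl η hη X
    push_cast
    linarith
  calc (1 + ‖X‖ ^ 2) ^ (dm + 1) * (‖AN.Nf κ (Om η)‖ ^ 2 * Real.exp (((2 : ℕ) : ℝ) * (-(1 / 2) * AN.qX (Om η) X)))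
      ≤ (1 + ‖X‖ ^ 2) ^ (dm + 1) * (N ^ 2 * Real.exp (-(c * ‖X‖ ^ 2))) := by gcongr
    _ = N ^ 2 * ((1 + ‖X‖ ^ 2) ^ (dm + 1) * Real.exp (-(c * ‖X‖ ^ 2))) := by ring
    _ ≤ N ^ 2 * (M * Real.exp (-(c / 2 * ‖X‖ ^ 2))) :=
        mul_le_mul_of_nonneg_left (hMl _ (by positivity)) (sq_nonneg N)
    _ = _ := by ring

/-- the cutoff is measurable -/
theorem crd655_chi (R : ℝ) : Measurable fun q : Cfg r × Cfg ds × Cfg dm => chi R q := by
  unfold chi
  refine Measurable.ite ?_ measurable_const measurable_const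
  have m1 : Measurable fun q : Cfg r × Cfg ds × Cfg dm => ‖q.2.1‖ := by fun_prop
  have m2 : Measurable fun q : Cfg r × Cfg ds × Cfg dm => ‖q.2.2‖ := by fun_prop
  exact (measurableSet_le m1 measurable_const).inter (measurableSet_le m2 measurable_const)

theorem crd655_chi_le (R : ℝ) (q : Cfg r × Cfg ds × Cfg dm) : ‖((chi R q : ℝ) : ℂ)‖ ≤ 1 := by
  rw [Complex.norm_real]
  unfold chi
  split_ifs <;> simp

/-- the global profile is strongly measurable -/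
theorem crd655_sm {κ : ℝ} (hκ : 0 < κ) {A : Set (Cfg r)} (hA : IsCompact A)
    {Om : Cfg r → Matrix (Fin dm) (Fin dm) ℝ} {D : Cfg r → Fin 9 → Matrix (Fin dm) (Fin dm) ℝ}
    (hO : ∀ B C, ContinuousOn (fun η => Om η B C) A) (hI : ∀ η ∈ A, IsOm κ (D η) (Om η))
    {a : Cfg r → Cfg ds → F} (ham : StronglyMeasurable (fun q : Cfg r × Cfg ds => a q.1 q.2))
    (has : ∀ η s, a η s ≠ 0 → η ∈ A) (R : ℝ) :
    StronglyMeasurable (fun q : Cfg r × Cfg ds × Cfg dm => ((chi R q : ℝ) : ℂ) • AN.bG κ Om a q) := by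
  classical
  set T2 : Set (Cfg r × Cfg ds × Cfg dm) := A ×ˢ Set.univ with hT2
  have hT2m : MeasurableSet T2 := hA.isClosed.measurableSet.prod MeasurableSet.univ
  set G : Cfg r × Cfg ds × Cfg dm → ℂ := fun q =>
    ((AN.Nf κ (Om q.1) * Real.exp (-(1 / 2) * AN.qX (Om q.1) q.2.2) : ℝ) : ℂ) with hG
  have hcc : ContinuousOn G T2 := by
    have h1 : ContinuousOn (fun q : Cfg r × Cfg ds × Cfg dm => AN.Nf κ (Om q.1)) T2 :=
      (lin_Nf_cont hκ hA hO hI).comp (f := fun q : Cfg r × Cfg ds × Cfg dm => q.1) continuous_fst.continuousOn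
        fun q hq => hq.1
    have h2 : ContinuousOn (fun q : Cfg r × Cfg ds × Cfg dm => AN.qX (Om q.1) q.2.2) T2 :=
      (lin_qX_cont hO).comp (f := fun q : Cfg r × Cfg ds × Cfg dm => (q.1, q.2.2)) (by fun_prop)
        fun q hq => ⟨hq.1, Set.mem_univ _⟩
    exact Complex.continuous_ofReal.comp_continuousOn
      (h1.mul (Real.continuous_exp.comp_continuousOn (continuousOn_const.mul h2)))
  have hGm : Measurable (T2.indicator G) := by
    have h := hcc.measurable_piecewise (g := 0) continuousOn_const hT2m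
    rwa [Set.piecewise_eq_indicator] at h
  have hpr : Measurable fun q : Cfg r × Cfg ds × Cfg dm => (q.1, q.2.1) := by fun_prop
  have h3 : StronglyMeasurable fun q : Cfg r × Cfg ds × Cfg dm => a q.1 q.2.1 := ham.comp_measurable hpr
  have h4 : StronglyMeasurable fun q : Cfg r × Cfg ds × Cfg dm => ((chi R q : ℝ) : ℂ) :=
    (Complex.measurable_ofReal.comp (crd655_chi R)).stronglyMeasurable
  have h5 := h4.smul (hGm.stronglyMeasurable.smul h3)
  convert h5 using 1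
  funext q
  by_cases hq : q ∈ T2
  · simp only [Pi.smul_apply', AN.bG, Set.indicator_of_mem hq, hG]
  · have h6 : a q.1 q.2.1 = 0 := by
      by_contra h
      exact hq ⟨has _ _ h, Set.mem_univ _⟩
    simp only [Pi.smul_apply', AN.bG, h6, smul_zero]

/-- **weighted norm of the global profile** -/
theorem crd655_wM {κ : ℝ} (hκ : 0 < κ) {A : Set (Cfg r)} (hA : IsCompact A)
    {Om : Cfg r → Matrix (Fin dm) (Fin dm) ℝ} {D : Cfg r → Fin 9 → Matrix (Fin dm) (Fin dm) ℝ}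
    (hO : ∀ B C, ContinuousOn (fun η => Om η B C) A) (hI : ∀ η ∈ A, IsOm κ (D η) (Om η)) :
    ∃ C : ℝ, 0 ≤ C ∧ ∀ a : Cfg r → Cfg ds → F, StronglyMeasurable (fun q : Cfg r × Cfg ds => a q.1 q.2) → Sec2 A a →
      ∀ R : ℝ, StronglyMeasurable (fun q : Cfg r × Cfg ds × Cfg dm => ((chi R q : ℝ) : ℂ) • AN.bG κ Om a q) ∧
        MemLp (fun q : Cfg r × Cfg ds × Cfg dm => ((chi R q : ℝ) : ℂ) • AN.bG κ Om a q) 2 (AN.wM r ds dm) ∧
        eLpNorm (fun q : Cfg r × Cfg ds × Cfg dm => ((chi R q : ℝ) : ℂ) • AN.bG κ Om a q) 2 (AN.wM r ds dm) ≤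
          ENNReal.ofReal (C * Real.sqrt (n2 a)) := by
  obtain ⟨C, hC, hCl⟩ := crd655_mom (dm := dm) hκ hA hO hI
  refine ⟨Real.sqrt C, Real.sqrt_nonneg _, fun a ham ha R => ?_⟩
  have hsm := crd655_sm hκ hA hO hI ham ha.2 R
  set b : Cfg r × Cfg ds × Cfg dm → F := fun q => ((chi R q : ℝ) : ℂ) • AN.bG κ Om a q with hb
  set w : Cfg r × Cfg ds × Cfg dm → ℝ≥0∞ := fun q => ENNReal.ofReal ((1 + ‖q.2.2‖ ^ 2) ^ (dm + 1)) with hw
  have hwm : Measurable w := by fun_prop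
  have hbm : Measurable fun q => ‖b q‖ₑ ^ (2 : ℕ) := hsm.enorm.pow_const _
  have hn2 : ∫⁻ q : Cfg r × Cfg ds, ‖a q.1 q.2‖ₑ ^ (2 : ℕ) ∂(volume.prod volume) = ENNReal.ofReal (n2 a) := by
    unfold n2
    rw [ofReal_integral_eq_lintegral_ofReal (ha.1.integrable_norm_pow two_ne_zero) (Eventually.of_forall fun q => by positivity)]
    refine lintegral_congr fun q => ?_
    rw [← ofReal_norm, ← ENNReal.ofReal_pow (norm_nonneg _)]
  have hn0 : 0 ≤ n2 a := integral_nonneg fun q => by positivity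
  have hin : ∀ η s, ∫⁻ X : Cfg dm, w (η, s, X) * ‖b (η, s, X)‖ₑ ^ (2 : ℕ) ≤ ENNReal.ofReal C * ‖a η s‖ₑ ^ (2 : ℕ) := by
    intro η s
    by_cases hη : η ∈ A
    · refine le_trans ?_ (mul_le_mul_left (hCl η hη) (‖a η s‖ₑ ^ (2 : ℕ)))
      rw [← lintegral_mul_const' _ _ (by finiteness)]
      refine lintegral_mono fun X => ?_
      simp only [hw, hb, AN.bG, enorm_smul, mul_assoc]
      gcongr
      rw [mul_pow, mul_pow]
      have h1 : ‖((chi R ((η, s, X) : Cfg r × Cfg ds × Cfg dm) : ℝ) : ℂ)‖ₑ ^ 2 ≤ 1 := by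
        have h2 := crd655_chi_le R ((η, s, X) : Cfg r × Cfg ds × Cfg dm)
        have h3 : ‖((chi R ((η, s, X) : Cfg r × Cfg ds × Cfg dm) : ℝ) : ℂ)‖ₑ ≤ 1 := by
          rw [← ofReal_norm]
          exact ENNReal.ofReal_le_one.2 h2
        exact pow_le_one₀ bot_le h3
      calc _ ≤ 1 * (‖((AN.Nf κ (Om η) * Real.exp (-(1 / 2) * AN.qX (Om η) X) : ℝ) : ℂ)‖ₑ ^ 2 * ‖a η s‖ₑ ^ 2) := by
            gcongr
        _ = _ := one_mul _
    · have h6 : a η s = 0 := by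
        by_contra h
        exact hη (ha.2 _ _ h)
      simp [hb, AN.bG, h6]
  have key : ∫⁻ q, ‖b q‖ₑ ^ (2 : ℕ) ∂(AN.wM r ds dm) ≤ ENNReal.ofReal C * ENNReal.ofReal (n2 a) := by
    unfold AN.wM
    rw [lintegral_withDensity_eq_lintegral_mul _ hwm hbm]
    have hm : Measurable fun q : Cfg r × Cfg ds × Cfg dm => w q * ‖b q‖ₑ ^ (2 : ℕ) := hwm.mul hbm
    have ham2 : Measurable fun q : Cfg r × Cfg ds => ‖a q.1 q.2‖ₑ ^ (2 : ℕ) := ham.enorm.pow_const _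
    calc ∫⁻ q : Cfg r × Cfg ds × Cfg dm, w q * ‖b q‖ₑ ^ (2 : ℕ) ∂(volume.prod (volume.prod volume))
        = ∫⁻ η : Cfg r, ∫⁻ p : Cfg ds × Cfg dm, w (η, p) * ‖b (η, p)‖ₑ ^ (2 : ℕ) ∂(volume.prod volume) :=
          lintegral_prod _ hm.aemeasurable
      _ = ∫⁻ η : Cfg r, ∫⁻ s : Cfg ds, ∫⁻ X : Cfg dm, w (η, s, X) * ‖b (η, s, X)‖ₑ ^ (2 : ℕ) := by
          refine lintegral_congr fun η => ?_
          exact lintegral_prod _ (hm.comp measurable_prodMk_left).aemeasurable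
      _ ≤ ∫⁻ η : Cfg r, ∫⁻ s : Cfg ds, ENNReal.ofReal C * ‖a η s‖ₑ ^ (2 : ℕ) :=
          lintegral_mono fun η => lintegral_mono fun s => hin η s
      _ = ENNReal.ofReal C * ∫⁻ η : Cfg r, ∫⁻ s : Cfg ds, ‖a η s‖ₑ ^ (2 : ℕ) := by
          rw [← lintegral_const_mul' _ _ ENNReal.ofReal_ne_top]
          refine lintegral_congr fun η => ?_
          rw [lintegral_const_mul' _ _ ENNReal.ofReal_ne_top]
      _ = ENNReal.ofReal C * ENNReal.ofReal (n2 a) := by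
          rw [← hn2, lintegral_prod _ ham2.aemeasurable]
  have hle : eLpNorm b 2 (AN.wM r ds dm) ≤ ENNReal.ofReal (Real.sqrt C * Real.sqrt (n2 a)) := by
    have h1 := eLpNorm_nnreal_pow_eq_lintegral (f := b) (μ := AN.wM r ds dm) (p := 2) two_ne_zero
    have h2 : eLpNorm b 2 (AN.wM r ds dm) ^ (2 : ℝ) ≤ ENNReal.ofReal (Real.sqrt C * Real.sqrt (n2 a)) ^ (2 : ℝ) := by
      have h3 : eLpNorm b 2 (AN.wM r ds dm) ^ (2 : ℝ) = ∫⁻ q, ‖b q‖ₑ ^ (2 : ℕ) ∂(AN.wM r ds dm) := by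
        have h4 := h1
        simp only [NNReal.coe_ofNat, ENNReal.coe_ofNat] at h4
        rw [h4]
        refine lintegral_congr fun q => ?_
        exact_mod_cast ENNReal.rpow_natCast _ 2
      rw [h3]
      refine key.trans (le_of_eq ?_)
      rw [← ENNReal.ofReal_mul hC, ENNReal.ofReal_rpow_of_nonneg (by positivity) (by norm_num)]
      congr 1
      rw [← Real.sqrt_mul hC]
      have h5 := Real.sq_sqrt (mul_nonneg hC hn0)
      exact_mod_cast h5.symm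
    exact (ENNReal.rpow_le_rpow_iff (by norm_num)).1 h2
  exact ⟨hsm, ⟨hsm.aestronglyMeasurable, hle.trans_lt ENNReal.ofReal_lt_top⟩, hle⟩

/-- **strongly measurable representative of a section** -/
theorem crd655_rep (κ : ℝ) (φ : Spl dh dm d) (ψ : Spl r ds dh) (Om : Cfg r → Matrix (Fin dm) (Fin dm) ℝ) {A : Set (Cfg r)}
    (hA : MeasurableSet A) {a : Cfg r → Cfg ds → F} (ha : Sec2 A a) :
    ∃ a' : Cfg r → Cfg ds → F, StronglyMeasurable (fun q : Cfg r × Cfg ds => a' q.1 q.2) ∧ Sec2 A a' ∧ n2 a' = n2 a ∧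
      ∀ R, 0 < R → ∀ u : Cfg d → F, ZZ κ φ ψ Om a' R u = ZZ κ φ ψ Om a R u := by
  set B : Set (Cfg r × Cfg ds) := A ×ˢ Set.univ with hB
  have hBm : MeasurableSet B := hA.prod MeasurableSet.univ
  set g : Cfg r × Cfg ds → F := B.indicator (ha.1.1.mk _) with hg
  have hgm : StronglyMeasurable g := (ha.1.1.stronglyMeasurable_mk).indicator hBm
  have hga : (fun q : Cfg r × Cfg ds => a q.1 q.2) =ᵐ[volume.prod volume] g := by
    filter_upwards [ha.1.1.ae_eq_mk] with q hq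
    by_cases hqB : q ∈ B
    · rw [hg, Set.indicator_of_mem hqB, ← hq]
    · rw [hg, Set.indicator_of_notMem hqB]
      by_contra h0
      exact hqB ⟨ha.2 q.1 q.2 h0, Set.mem_univ _⟩
  refine ⟨fun η s => g (η, s), hgm, ⟨ha.1.ae_eq hga, fun η s h0 => ?_⟩, ?_, fun R hR u => ?_⟩
  · by_contra h1
    exact h0 (Set.indicator_of_notMem (fun h2 : (η, s) ∈ B => h1 h2.1) _)
  · unfold n2
    refine integral_congr_ae ?_
    filter_upwards [hga] with q hq
    simp only [hq]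
  · have q1 : ∀ᵐ y : Cfg dh, a (R⁻¹ • AN.hz ψ y) (AN.hs ψ y) = g (R⁻¹ • AN.hz ψ y, AN.hs ψ y) :=
      (AE.gd655_qmp (AE.gd655L ψ R) (AE.gd655L_surj ψ hR.ne') (volume : Measure (Cfg dh))
        ((volume : Measure (Cfg r)).prod (volume : Measure (Cfg ds)))).ae hga
    have q2 : ∀ᵐ x : Cfg d, a (R⁻¹ • AN.hz ψ (AN.zy φ x)) (AN.hs ψ (AN.zy φ x)) =
        g (R⁻¹ • AN.hz ψ (AN.zy φ x), AN.hs ψ (AN.zy φ x)) :=
      (AE.gd655_qmp (AE.gd655Z φ) (AE.gd655Z_surj φ) (volume : Measure (Cfg d)) (volume : Measure (Cfg dh))).ae q1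
    unfold ZZ
    refine integral_congr_ae ?_
    filter_upwards [q2] with x hx
    simp only [AN.Zb, AN.bG, hx]

end Vale.Agent.P353.Z.AL
end

section

/-! # P353, all `N`, block GL9: `MomStmt` (prover helper655) -/

open MeasureTheory Filter Topology Matrix
open scoped ContDiff ENNReal

namespace Vale.Agent.P353.Z.AN

/-- tails of an integrable function -/
theorem mom655_tail {dm : ℕ} (f : Cfg dm → ℝ) (hf : Integrable f) {e : ℝ} (he : 0 < e) :
    ∃ L : ℝ, 0 < L ∧ ∫⁻ X in {X : Cfg dm | L ≤ ‖X‖}, ENNReal.ofReal (f X) ≤ ENNReal.ofReal e := by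
  have hfin : ∫⁻ X, ENNReal.ofReal (f X) ≠ ⊤ :=
    (lt_of_le_of_lt (lintegral_mono fun X => Real.ofReal_le_enorm (f X)) hf.2).ne
  have hanti : Antitone fun n : ℕ => {X : Cfg dm | (n : ℝ) + 1 ≤ ‖X‖} := by
    intro m n hmn X hX
    have : (m : ℝ) ≤ n := by exact_mod_cast hmn
    simp only [Set.mem_ofPred_eq] at hX ⊢
    linarith
  have hm : ∀ n : ℕ, MeasurableSet {X : Cfg dm | (n : ℝ) + 1 ≤ ‖X‖} := fun n =>
    measurableSet_le measurable_const (by fun_prop)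
  have hint : (⋂ n : ℕ, {X : Cfg dm | (n : ℝ) + 1 ≤ ‖X‖}) = ∅ := by
    ext X
    simp only [Set.mem_iInter, Set.mem_ofPred_eq, Set.mem_empty_iff_false, iff_false, not_forall, not_le]
    obtain ⟨n, hn⟩ := exists_nat_gt ‖X‖
    exact ⟨n, by linarith⟩
  have hfin' : IsFiniteMeasure ((volume : Measure (Cfg dm)).withDensity fun X => ENNReal.ofReal (f X)) :=
    isFiniteMeasure_withDensity hfin
  have ht := tendsto_measure_iInter_atTop (μ := (volume : Measure (Cfg dm)).withDensity fun X => ENNReal.ofReal (f X))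
    (fun n => (hm n).nullMeasurableSet) hanti ⟨0, measure_ne_top _ _⟩
  rw [hint, measure_empty] at ht
  have hev := (ENNReal.tendsto_nhds_zero.1 ht) (ENNReal.ofReal e) (ENNReal.ofReal_pos.2 he)
  obtain ⟨n, hn⟩ := hev.exists
  refine ⟨(n : ℝ) + 1, by positivity, ?_⟩
  rwa [Function.comp_apply, withDensity_apply _ (hm n)] at hn

/-- **GL9** -/
theorem mom_stmt : MomStmt := by
  intro r dm κ z₀ δ D Om hκ hδ hOm hOc
  set A : Set (Cfg r) := {η | ‖η - z₀‖ ≤ δ} with hAdef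
  have hA : IsCompact A := by
    have : A = Metric.closedBall z₀ δ := by
      ext η
      rw [hAdef, Set.mem_ofPred_eq, mem_closedBall_iff_norm]
    rw [this]
    exact isCompact_closedBall _ _
  have hO : ∀ B C, ContinuousOn (fun η => Om η B C) A := fun B C =>
    (continuous_apply_apply B C).comp_continuousOn hOc
  have hI : ∀ η ∈ A, IsOm κ (D η) (Om η) := fun η hη => (hOm η hη).2
  refine ⟨AL.lin_Nf_cont hκ hA hO hI, fun ε hε => ?_⟩
  obtain ⟨c, hc, hcl⟩ := AL.lin_ulow hA (fun η X => qX (Om η) X) (AL.lin_qX_cont hO) (fun η => gau_qX_smul (Om η))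
    (fun η hη => gau_qX_pos (hI η hη))
  obtain ⟨N, hN⟩ := hA.exists_bound_of_continuousOn (AL.lin_Nf_cont hκ hA hO hI)
  obtain ⟨M, hM, hMl⟩ := AL.crd655_poly (dm + 1) hc
  have hgi : Integrable fun X : Cfg dm => Real.exp (-(c / 2 * ‖X‖ ^ 2)) := gau_int_sq (half_pos hc)
  have hfi : Integrable fun X : Cfg dm => N ^ 2 * M * Real.exp (-(c / 2 * ‖X‖ ^ 2)) := hgi.const_mul _
  have hpt : ∀ η ∈ A, ∀ X : Cfg dm, (1 + ‖X‖ ^ 2) ^ (dm + 1) * (Nf κ (Om η) * Real.exp (-(1 / 2) * qX (Om η) X)) ^ 2 ≤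
      N ^ 2 * M * Real.exp (-(c / 2 * ‖X‖ ^ 2)) := by
    intro η hη X
    have h1 : Nf κ (Om η) ^ 2 ≤ N ^ 2 := by
      have h := hN η hη
      rw [Real.norm_eq_abs] at h
      rw [← sq_abs]
      gcongr
    have h2 : Real.exp (-(1 / 2) * qX (Om η) X) ^ 2 ≤ Real.exp (-(c * ‖X‖ ^ 2)) := by
      rw [← Real.exp_nat_mul, Real.exp_le_exp]
      have := hcl η hη X
      push_cast
      linarith
    rw [mul_pow]
    calc (1 + ‖X‖ ^ 2) ^ (dm + 1) * (Nf κ (Om η) ^ 2 * Real.exp (-(1 / 2) * qX (Om η) X) ^ 2)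
        ≤ (1 + ‖X‖ ^ 2) ^ (dm + 1) * (N ^ 2 * Real.exp (-(c * ‖X‖ ^ 2))) := by gcongr
      _ = N ^ 2 * ((1 + ‖X‖ ^ 2) ^ (dm + 1) * Real.exp (-(c * ‖X‖ ^ 2))) := by ring
      _ ≤ N ^ 2 * (M * Real.exp (-(c / 2 * ‖X‖ ^ 2))) :=
          mul_le_mul_of_nonneg_left (hMl _ (by positivity)) (sq_nonneg N)
      _ = _ := by ring
  obtain ⟨L, hL, hLt⟩ := mom655_tail _ hfi hε
  have hI0 : 0 ≤ ∫ X : Cfg dm, N ^ 2 * M * Real.exp (-(c / 2 * ‖X‖ ^ 2)) :=
    integral_nonneg fun X => by positivity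
  refine ⟨(∫ X : Cfg dm, N ^ 2 * M * Real.exp (-(c / 2 * ‖X‖ ^ 2))) + 1, L, by linarith, hL, fun η hη => ⟨?_, ?_⟩⟩
  · refine le_trans ?_ (ENNReal.ofReal_le_ofReal (le_add_of_nonneg_right zero_le_one))
    rw [ofReal_integral_eq_lintegral_ofReal hfi (Eventually.of_forall fun X => by positivity)]
    exact lintegral_mono fun X => ENNReal.ofReal_le_ofReal (hpt η hη X)
  · exact (lintegral_mono fun X => ENNReal.ofReal_le_ofReal (hpt η hη X)).trans hLt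

end Vale.Agent.P353.Z.AN
end

section

/-! # P353, all `N`, block E: limit equation in coefficient form (helper916) -/

open MeasureTheory Filter Topology Matrix
open scoped ContDiff

namespace Vale.Agent.P353.Z.AE

variable {d dh dm r ds n : ℕ} {F : Type*} [NormedAddCommGroup F] [InnerProductSpace ℂ F]

/-- components of a vector valued profile -/
private noncomputable def ld916c (b : Cfg r → AL.Ek n) (j : Fin n) (η : Cfg r) : ℂ := b η j

private lemma ld916_sm {b : Cfg r → AL.Ek n} (hb : ContDiff ℝ ∞ b) (j : Fin n) : ContDiff ℝ ∞ (ld916c b j) :=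
  ((EuclideanSpace.proj j : AL.Ek n →L[ℂ] ℂ).restrictScalars ℝ).contDiff.comp hb

private lemma ld916_ts (b : Cfg r → AL.Ek n) (j : Fin n) : tsupport (ld916c b j) ⊆ tsupport b := by
  refine closure_mono fun x hx h => hx ?_
  show b x j = 0
  rw [h]
  rfl

private lemma ld916_cs {b : Cfg r → AL.Ek n} (hb : HasCompactSupport b) (j : Fin n) : HasCompactSupport (ld916c b j) :=
  hb.of_isClosed_subset (isClosed_tsupport _) (ld916_ts b j)

/-- the value of a coefficient vector at the internal point `s` -/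
private noncomputable def ld916i (o : Fin n → Cfg ds → F) (s : Cfg ds) : AL.Ek n →ₗ[ℂ] F where
  toFun v := ∑ j, v j • o j s
  map_add' := by
    intro v w
    simp only [PiLp.add_apply, add_smul, Finset.sum_add_distrib]
  map_smul' := by
    intro c v
    simp only [PiLp.smul_apply, smul_eq_mul, mul_smul, Finset.smul_sum, RingHom.id_apply]

private lemma ld916i_apply (o : Fin n → Cfg ds → F) (s : Cfg ds) (v : AL.Ek n) : ld916i o s v = ∑ j, v j • o j s := rfl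

private lemma ld916_th (S : Setup d F) (φ : Spl dh dm d) (ψ : Spl r ds dh) (o : Fin n → Cfg ds → F)
    (T : Setup r (AL.Ek n)) (s : Cfg ds)
    (hs : ∀ α A k, S.th α (φ (Sum.inl (ψ (Sum.inl A)))) (o k s) = ∑ j, T.th α A (EuclideanSpace.single k 1) j • o j s)
    (α : Fin 16) (A : Fin r) (v : AL.Ek n) :
    S.th α (φ (Sum.inl (ψ (Sum.inl A)))) (ld916i o s v) = ld916i o s (T.th α A v) := by
  have h : (S.th α (φ (Sum.inl (ψ (Sum.inl A)))) : F →ₗ[ℂ] F) ∘ₗ ld916i o s =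
      ld916i o s ∘ₗ (T.th α A : AL.Ek n →ₗ[ℂ] AL.Ek n) := by
    refine (EuclideanSpace.basisFun (Fin n) ℂ).toBasis.ext fun k => ?_
    rw [OrthonormalBasis.coe_toBasis, EuclideanSpace.basisFun_apply]
    simp only [LinearMap.comp_apply, ContinuousLinearMap.coe_coe]
    rw [ld916i_apply, ld916i_apply, ← hs α A k]
    congr 1
    rw [Finset.sum_eq_single k]
    · simp
    · intro j _ hj
      simp [hj]
    · intro h
      exact absurd (Finset.mem_univ k) h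
  exact LinearMap.congr_fun h v

private lemma ld916_vec (S : Setup d F) (φ : Spl dh dm d) (ψ : Spl r ds dh) (o : Fin n → Cfg ds → F)
    (T : Setup r (AL.Ek n)) (s : Cfg ds)
    (hs : ∀ α A k, S.th α (φ (Sum.inl (ψ (Sum.inl A)))) (o k s) = ∑ j, T.th α A (EuclideanSpace.single k 1) j • o j s)
    (N : Matrix (Fin 16) (Fin 16) ℂ) (A : Fin r) (β : Fin 16) (v : AL.Ek n) :
    S.vec N (φ (Sum.inl (ψ (Sum.inl A)))) β (ld916i o s v) = ld916i o s (T.vec N A β v) := by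
  simp only [CS.vec, _root_.sum_apply, _root_.smul_apply, map_sum, map_smul,
    ld916_th S φ ψ o T s hs]

private lemma ld916_pd (o : Cfg ds → F) (ζ : Cfg r → ℂ) (hζ : ContDiff ℝ ∞ ζ) (i : Fin 9) (A : Fin r) (η : Cfg r) (s : Cfg ds) :
    pd i A (fun y' => ζ y' • o s) η = pd i A ζ η • o s := by
  have h1 : HasFDerivAt ζ (fderiv ℝ ζ η) η := (hζ.differentiable (by simp) η).hasFDerivAt
  have h2 := h1.smul_const (o s)
  rw [pd, h2.fderiv]
  rfl

private lemma ld916_pdc {b : Cfg r → AL.Ek n} (hb : ContDiff ℝ ∞ b) (j : Fin n) (i : Fin 9) (A : Fin r) (η : Cfg r) :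
    pd i A (ld916c b j) η = (pd i A b η) j := by
  have h1 : HasFDerivAt b (fderiv ℝ b η) η := (hb.differentiable (by simp) η).hasFDerivAt
  have h2 := ((EuclideanSpace.proj j : AL.Ek n →L[ℂ] ℂ).restrictScalars ℝ).hasFDerivAt.comp η h1
  have h3 : HasFDerivAt (ld916c b j)
      (((EuclideanSpace.proj j : AL.Ek n →L[ℂ] ℂ).restrictScalars ℝ).comp (fderiv ℝ b η)) η := h2
  rw [pd, h3.fderiv]
  rfl

private lemma ld916_sum3 {M : Type*} [AddCommMonoid M] (f : Fin 9 → Fin r → Fin n → M) :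
    ∑ i, ∑ A, ∑ j, f i A j = ∑ j, ∑ i, ∑ A, f i A j :=
  (Finset.sum_congr rfl fun _ _ => Finset.sum_comm).trans Finset.sum_comm

/-- the free supercharge in coefficients -/
private lemma ld916_FD (S : Setup d F) (φ : Spl dh dm d) (ψ : Spl r ds dh) (o : Fin n → Cfg ds → F)
    (T : Setup r (AL.Ek n)) (hT : T.g = S.g) (s : Cfg ds)
    (hs : ∀ α A k, S.th α (φ (Sum.inl (ψ (Sum.inl A)))) (o k s) = ∑ j, T.th α A (EuclideanSpace.single k 1) j • o j s)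
    {b : Cfg r → AL.Ek n} (hb : ContDiff ℝ ∞ b) (β : Fin 16) (η : Cfg r) :
    ld916i o s (T.FD β b η) = ∑ j, S.DF φ ψ (AN.N0 S) 1 β (pp (ld916c b j) (o j)) η s := by
  have hG : T.Gam = S.Gam := by simp only [Setup.Gam, hT]
  have e1 : ∀ i A, ld916i o s (T.vec (T.g i) A β (pd i A b η)) =
      ∑ j, S.vec (S.g i) (φ (Sum.inl (ψ (Sum.inl A)))) β (pd i A (fun y' => pp (ld916c b j) (o j) y' s) η) := by
    intro i A
    rw [← ld916_vec S φ ψ o T s hs, hT, ← map_sum]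
    congr 1
    rw [ld916i_apply]
    refine Finset.sum_congr rfl fun j _ => ?_
    simp only [pp]
    rw [ld916_pd (o j) (ld916c b j) (ld916_sm hb j), ld916_pdc hb]
  have e2 : ∀ i A, ld916i o s (T.vec (T.g i * T.Gam) A β (b η)) =
      ∑ j, S.vec (S.g i * S.Gam) (φ (Sum.inl (ψ (Sum.inl A)))) β (pp (ld916c b j) (o j) η s) := by
    intro i A
    rw [← ld916_vec S φ ψ o T s hs, hT, hG, ← map_sum]
    rfl
  have e3 : T.MM β η (b η) = ∑ i, ∑ A, ((aw i * η (i, A) : ℝ) : ℂ) • T.vec (T.g i * T.Gam) A β (b η) := by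
    simp only [Setup.MM, _root_.sum_apply, _root_.smul_apply]
  have e4 : ∀ (i : Fin 9) (A : Fin r) (j : Fin n), S.vec (AN.N0 S i) (φ (Sum.inl (ψ (Sum.inl A)))) β (pp (ld916c b j) (o j) η s) =
      ((aw i : ℝ) : ℂ) • S.vec (S.g i * S.Gam) (φ (Sum.inl (ψ (Sum.inl A)))) β (pp (ld916c b j) (o j) η s) := by
    intro i A j
    rw [AN.N0, CS.vec_smul]
    rfl
  rw [Setup.FD, Setup.Q0, e3, map_add, map_smul]
  simp only [Setup.DF, Finset.sum_add_distrib, map_sum, map_smul, e1, e2, e4]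
  congr 1
  · rw [ld916_sum3, Finset.smul_sum]
  · simp only [Complex.ofReal_one, Finset.smul_sum, smul_smul]
    rw [ld916_sum3]
    refine Finset.sum_congr rfl fun j _ => Finset.sum_congr rfl fun i _ => Finset.sum_congr rfl fun A _ => ?_
    congr 1
    push_cast
    ring

private lemma ld916_mem (U : Cfg r → F →L[ℂ] F) (hUn : ∀ η v w, inner ℂ (U η v) (U η w) = inner ℂ v w)
    {A : Set (Cfg r)} (hA : IsCompact A) (hU : ContinuousOn U A) {ζ : Cfg r → ℂ} (hζ : Continuous ζ)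
    (hz : ∀ η, η ∉ A → ζ η = 0) {o : Cfg ds → F} (ho : MemLp o 2 (volume : Measure (Cfg ds))) (X : F →L[ℂ] F) :
    MemLp (fun q : Cfg r × Cfg ds => U q.1 (ζ q.1 • X (o q.2))) 2 (volume.prod volume) := by
  have hAm : MeasurableSet A := hA.measurableSet
  have hUm : AEStronglyMeasurable (A.indicator U) (volume : Measure (Cfg r)) :=
    (aestronglyMeasurable_indicator_iff hAm).2 (hU.aestronglyMeasurable hAm)
  have hXo : MemLp (fun s => X (o s)) 2 (volume : Measure (Cfg ds)) := X.comp_memLp' ho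
  have hg1 : AEStronglyMeasurable (fun q : Cfg r × Cfg ds => ζ q.1 • X (o q.2)) (volume.prod volume) :=
    (hζ.aestronglyMeasurable.comp_fst).smul hXo.1.comp_snd
  have hg : MemLp (fun q : Cfg r × Cfg ds => ζ q.1 • X (o q.2)) 2 (volume.prod volume) := by
    rw [memLp_two_iff_integrable_sq_norm hg1]
    have h1 : Integrable (fun η => ‖ζ η‖ ^ 2) (volume : Measure (Cfg r)) :=
      (hζ.norm.pow 2).integrable_of_hasCompactSupport (HasCompactSupport.intro hA fun x hx => by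
        simp [hz x hx])
    have h2 : Integrable (fun s => ‖X (o s)‖ ^ 2) (volume : Measure (Cfg ds)) :=
      (memLp_two_iff_integrable_sq_norm hXo.1).1 hXo
    refine (h1.mul_prod h2).congr (Eventually.of_forall fun q => ?_)
    simp only [norm_smul, mul_pow]
  have he : (fun q : Cfg r × Cfg ds => U q.1 (ζ q.1 • X (o q.2))) =
      fun q => (A.indicator U q.1) (ζ q.1 • X (o q.2)) := by
    funext q
    by_cases h : q.1 ∈ A
    · rw [Set.indicator_of_mem h]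
    · rw [Set.indicator_of_notMem h, hz _ h, zero_smul, map_zero]
      rfl
  have hm : AEStronglyMeasurable (fun q : Cfg r × Cfg ds => U q.1 (ζ q.1 • X (o q.2))) (volume.prod volume) := by
    rw [he]
    exact (ContinuousLinearMap.id ℂ (F →L[ℂ] F)).aestronglyMeasurable_comp₂ hUm.comp_fst hg1
  refine hg.mono hm (Eventually.of_forall fun q => le_of_eq ?_)
  have h1 := congrArg Complex.re (hUn q.1 (ζ q.1 • X (o q.2)) (ζ q.1 • X (o q.2)))
  have h2 : ∀ v : F, (inner ℂ v v : ℂ).re = ‖v‖ ^ 2 := fun v => inner_self_eq_norm_sq (𝕜 := ℂ) v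
  rw [h2, h2] at h1
  exact (sq_eq_sq₀ (norm_nonneg _) (norm_nonneg _)).1 h1

private lemma ld916_DF (S : Setup d F) (φ : Spl dh dm d) (ψ : Spl r ds dh) (N : Fin 9 → Matrix (Fin 16) (Fin 16) ℂ)
    (β : Fin 16) {ζ : Cfg r → ℂ} (hζ : ContDiff ℝ ∞ ζ) (o : Cfg ds → F) (η : Cfg r) (s : Cfg ds) :
    S.DF φ ψ N 1 β (pp ζ o) η s =
      (∑ i, ∑ A, (-Complex.I * pd i A ζ η) • S.vec (S.g i) (φ (Sum.inl (ψ (Sum.inl A)))) β (o s)) +
      ∑ i, ∑ A, (((η (i, A) : ℝ) : ℂ) * ζ η) • S.vec (N i) (φ (Sum.inl (ψ (Sum.inl A)))) β (o s) := by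
  simp only [Setup.DF, pp, ld916_pd o ζ hζ, map_smul, Complex.ofReal_one, one_mul, Finset.smul_sum, smul_smul]

private lemma ld916_memDF [FiniteDimensional ℂ F] (S : Setup d F) (φ : Spl dh dm d) (ψ : Spl r ds dh)
    (N : Fin 9 → Matrix (Fin 16) (Fin 16) ℂ) (β : Fin 16) {ζ : Cfg r → ℂ} (hζ : ContDiff ℝ ∞ ζ)
    (hc : HasCompactSupport ζ) (U : Cfg r → F →L[ℂ] F) (hUn : ∀ η v w, inner ℂ (U η v) (U η w) = inner ℂ v w)
    (hU : ContinuousOn U (tsupport ζ)) {o : Cfg ds → F} (ho : MemLp o 2 (volume : Measure (Cfg ds))) :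
    MemLp (fun q : Cfg r × Cfg ds => U q.1 (S.DF φ ψ N 1 β (pp ζ o) q.1 q.2)) 2 (volume.prod volume) := by
  have h0 : ∀ η, η ∉ tsupport ζ → ζ η = 0 := fun η h => image_eq_zero_of_notMem_tsupport h
  have h1 : ∀ i A η, η ∉ tsupport ζ → pd i A ζ η = 0 := by
    intro i A η h
    rw [pd, fderiv_of_notMem_tsupport ℝ h]
    rfl
  have hcp : ∀ (i : Fin 9) (A : Fin r), Continuous (pd i A ζ) := fun i A =>
    (hζ.continuous_fderiv (by simp)).clm_apply continuous_const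
  simp only [ld916_DF S φ ψ N β hζ, map_add, map_sum]
  refine MemLp.add (memLp_finsetSum _ fun i _ => memLp_finsetSum _ fun A _ => ?_)
    (memLp_finsetSum _ fun i _ => memLp_finsetSum _ fun A _ => ?_)
  · exact ld916_mem U hUn hc hU (ζ := fun η => -Complex.I * pd i A ζ η) (continuous_const.mul (hcp i A))
      (fun η h => by simp only [h1 i A η h, mul_zero]) ho _
  · refine ld916_mem U hUn hc hU (ζ := fun η => ((η (i, A) : ℝ) : ℂ) * ζ η) ?_ (fun η h => by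
      simp only [h0 η h, mul_zero]) ho _
    exact (Complex.continuous_ofReal.comp (by fun_prop)).mul hζ.continuous

private lemma ld916_supDF (S : Setup d F) (φ : Spl dh dm d) (ψ : Spl r ds dh)
    (N : Fin 9 → Matrix (Fin 16) (Fin 16) ℂ) (β : Fin 16) {ζ : Cfg r → ℂ} (hζ : ContDiff ℝ ∞ ζ)
    (o : Cfg ds → F) (η : Cfg r) (s : Cfg ds) (h : η ∉ tsupport ζ) : S.DF φ ψ N 1 β (pp ζ o) η s = 0 := by
  have h1 : ∀ i A, pd i A ζ η = 0 := by
    intro i A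
    rw [pd, fderiv_of_notMem_tsupport ℝ h]
    rfl
  rw [ld916_DF S φ ψ N β hζ]
  simp only [h1, image_eq_zero_of_notMem_tsupport h, mul_zero, zero_smul, Finset.sum_const_zero, add_zero]

private lemma ld916_ZLsum (S : Setup d F) (φ : Spl dh dm d) (ψ : Spl r ds dh) (Om : Cfg r → Matrix (Fin dm) (Fin dm) ℝ)
    (χ : Cfg r × Cfg ds × Cfg dm → ℝ) (R : ℝ) (a : Fin n → Cfg r → Cfg ds → F) (u : Cfg d → F)
    (hI : ∀ j, Integrable (fun x => inner ℂ (AN.Zb φ ψ (fun q => ((χ q : ℝ) : ℂ) • AN.bG S.κ Om (a j) q) R x) (u x))) :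
    ZL S φ ψ Om χ R (fun η s => ∑ j, a j η s) u = ∑ j, ZL S φ ψ Om χ R (a j) u := by
  simp only [ZL]
  rw [← integral_finsetSum _ fun j _ => hI j]
  refine integral_congr_ae (Eventually.of_forall fun x => ?_)
  simp only [AN.Zb, AN.bG, Finset.smul_sum, sum_inner]

/-- projection on the internal coordinates -/
private noncomputable def ld916p (φ : Spl dh dm d) (ψ : Spl r ds dh) : Cfg d →ₗ[ℝ] Cfg ds where
  toFun x := AN.hs ψ (AN.zy φ x)
  map_add' := by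
    intro x y
    ext p
    rfl
  map_smul' := by
    intro c x
    ext p
    rfl

private lemma ld916p_surj (φ : Spl dh dm d) (ψ : Spl r ds dh) : Function.Surjective (ld916p (r := r) (ds := ds) φ ψ) := by
  intro s
  refine ⟨WithLp.toLp 2 fun p => Sum.elim (fun A => Sum.elim (fun _ => 0) (fun B => s (p.1, B)) (ψ.symm A))
    (fun _ => 0) (φ.symm p.2), ?_⟩
  ext p
  show Sum.elim (fun A => Sum.elim (fun _ => 0) (fun B => s (p.1, B)) (ψ.symm A))
    (fun _ => 0) (φ.symm (φ (Sum.inl (ψ (Sum.inr p.2))))) = s p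
  rw [Equiv.symm_apply_apply, Sum.elim_inl, Equiv.symm_apply_apply, Sum.elim_inr]

private lemma ld916_ZLcongr (S : Setup d F) (φ : Spl dh dm d) (ψ : Spl r ds dh) (Om : Cfg r → Matrix (Fin dm) (Fin dm) ℝ)
    (χ : Cfg r × Cfg ds × Cfg dm → ℝ) (R : ℝ) (a a' : Cfg r → Cfg ds → F) (u : Cfg d → F) (P : Cfg ds → Prop)
    (hP : ∀ᵐ s ∂(volume : Measure (Cfg ds)), P s) (h : ∀ s, P s → ∀ η, a η s = a' η s) :
    ZL S φ ψ Om χ R a u = ZL S φ ψ Om χ R a' u := by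
  obtain ⟨t, ht, htm, htp⟩ := hP.exists_measurable_mem
  have hx := (MeasureTheory.ae_comp_linearMap_mem_iff (ld916p (r := r) (ds := ds) φ ψ) (volume : Measure (Cfg d))
    (volume : Measure (Cfg ds)) (ld916p_surj φ ψ) htm).2 ht
  refine integral_congr_ae ?_
  filter_upwards [hx] with x hx
  have h1 : ∀ η, a η (AN.hs ψ (AN.zy φ x)) = a' η (AN.hs ψ (AN.zy φ x)) := h _ (htp _ hx)
  simp only [AN.Zb, AN.bG, h1]

/-- **EG-LimD** -/
theorem limD (S : Setup d F)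
    (hG : ∀ (dh dm r ds : ℕ) (φ : Spl dh dm d) (ψ : Spl r ds dh), GLimStmt S φ ψ ∧ ZIntStmt S φ ψ)
    (hZ : ∀ (e : ℕ) (T : Setup e F), ZmStmt T) (hF : AN.FrameStmt S) : LimDStmt S := by
  intro fin dh dm r ds n φ ψ L Om K U o T hD χ hχ R Ψ C hB β b hb
  have := fin
  have hQ : ∀ (m : ℝ) (β : Fin 16) (u : Cfg d → F), QN S (AN.N0 S) m β u = S.Qm m β u := by
    intro m β u
    funext x
    rw [QN, Setup.Qm, hF.2.1]
  have hj := fun j => (hG dh dm r ds φ ψ).1 fin hD.sub hD.cen (AN.N0 S) hF.1 L Om K U hD.bun (ld916c b j)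
    (ld916_sm hb.1.1 j) (ld916_cs hb.1.2 j) (hb.2.mono_left (ld916_ts b j))
  choose δ hδ hlim using hj
  have hIz : ∀ j, IZm (S.int φ ψ hD.sub hD.cen) K (o j) := fun j =>
    hZ ds _ fin K (fun α A v hv => hD.bun.K_th α (spsw ψ (Sum.inl A)) v hv) (o j) (hD.zm j) (hD.mem j) (hD.val j)
  have hk : ∀ᶠ k in atTop, 1 ≤ R k ∧ ∀ j, ∀ q, χ (R k) q ≠ 0 →
      ‖q.2.1‖ ≤ δ j * R k ∧ ‖q.2.2‖ ≤ δ j * (R k * Real.sqrt (R k)) := by
    refine (hB.R_lim.eventually_ge_atTop 1).and ?_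
    rw [eventually_all]
    intro j
    exact hB.R_lim.eventually (hχ.sup (δ j) (hδ j))
  obtain ⟨k0, hk0⟩ := eventually_atTop.1 hk
  rw [← tendsto_add_atTop_iff_nat k0]
  have hR' : Tendsto (fun k => R (k + k0)) atTop atTop := (tendsto_add_atTop_iff_nat k0).2 hB.R_lim
  have hm : ∀ k, (1 : ℝ) / R (k + k0) ^ 2 = (R (k + k0))⁻¹ ^ 2 := by
    intro k
    rw [one_div, inv_pow]
  have hS : SqN S (AN.N0 S) 1 C (fun k => R (k + k0)) (fun k => Ψ (k + k0)) := by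
    refine ⟨fun k => (hk0 (k + k0) (by omega)).1, hR', fun k => ⟨(hB.inv _).1, (hB.inv _).2⟩,
      fun k => hB.norm _, fun k => ?_⟩
    simp only [hm, hQ]
    exact hB.energy (k + k0)
  have hC : ∀ j, CutA (δ j) (fun k => R (k + k0)) (fun k => χ (R (k + k0))) := fun j =>
    ⟨fun k => hχ.meas _, fun k q => hχ.bd _ q, fun q => (hχ.lim q).comp hR', fun k => (hk0 (k + k0) (by omega)).2 j⟩
  have hsum := tendsto_finsetSum Finset.univ fun j _ => hlim j 1 zero_le_one (o j) (hIz j) (fun k => R (k + k0))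
    (fun k => Ψ (k + k0)) C hS (fun k => χ (R (k + k0))) (hC j) β
  rw [Finset.sum_const_zero] at hsum
  -- integrability
  have hUc : ∀ j, ContinuousOn U (tsupport (ld916c b j)) := fun j =>
    hD.bun.U_smooth.continuousOn.mono fun η hη => Set.disjoint_left.1 hb.2 (ld916_ts b j hη)
  obtain ⟨-, hint⟩ := (hG dh dm r ds φ ψ).2 fin hD.sub hD.cen L Om K U hD.bun (tsupport b) hb.1.2 hb.2
  have hI1 : ∀ k j, ∀ u : Cfg d → F, Setup.Tst u → Integrable (fun x => inner ℂ (AN.Zb φ ψ (fun q =>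
      ((χ (R (k + k0)) q : ℝ) : ℂ) • AN.bG S.κ Om (fun η s => U η (pp (ld916c b j) (o j) η s)) q) (R (k + k0)) x) (u x)) := by
    intro k j u hu
    refine hint _ ?_ ?_ _ _ u (hk0 (k + k0) (by omega)).1 (hχ.meas _) (hχ.bd _) hu
    · exact ld916_mem U hD.bun.U_inner (ld916_cs hb.1.2 j) (hUc j) (ld916_sm hb.1.1 j).continuous
        (fun η h => image_eq_zero_of_notMem_tsupport h) (hD.mem j) (ContinuousLinearMap.id ℂ F)
    · intro η s h
      by_contra h1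
      refine h ?_
      have h2 : ld916c b j η = 0 := image_eq_zero_of_notMem_tsupport fun h3 => h1 (ld916_ts b j h3)
      rw [pp, h2, zero_smul, map_zero]
  have hI2 : ∀ k j, ∀ u : Cfg d → F, Setup.Tst u → Integrable (fun x => inner ℂ (AN.Zb φ ψ (fun q =>
      ((χ (R (k + k0)) q : ℝ) : ℂ) • AN.bG S.κ Om
        (fun η s => U η (S.DF φ ψ (AN.N0 S) 1 β (pp (ld916c b j) (o j)) η s)) q) (R (k + k0)) x) (u x)) := by
    intro k j u hu
    refine hint _ ?_ ?_ _ _ u (hk0 (k + k0) (by omega)).1 (hχ.meas _) (hχ.bd _) hu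
    · exact ld916_memDF S φ ψ (AN.N0 S) β (ld916_sm hb.1.1 j) (ld916_cs hb.1.2 j) U hD.bun.U_inner (hUc j) (hD.mem j)
    · intro η s h
      by_contra h1
      refine h ?_
      rw [ld916_supDF S φ ψ (AN.N0 S) β (ld916_sm hb.1.1 j) (o j) η s fun h3 => h1 (ld916_ts b j h3), map_zero]
  have hae : ∀ᵐ s ∂(volume : Measure (Cfg ds)), ∀ α A k,
      S.th α (φ (Sum.inl (ψ (Sum.inl A)))) (o k s) = ∑ j, T.th α A (EuclideanSpace.single k 1) j • o j s := by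
    simp only [ae_all_iff]
    exact hD.thT
  refine hsum.congr fun k => ?_
  simp only [hm, hQ]
  rw [Finset.sum_sub_distrib, ← Finset.mul_sum,
    ← ld916_ZLsum S φ ψ Om (χ (R (k + k0))) (R (k + k0)) (fun j η s => U η (pp (ld916c b j) (o j) η s)) _
      (fun j => hI1 k j _ (Vale.Agent.P353.Z.U.HB.Tst_Qm S _ β (hB.inv _).1)),
    ← ld916_ZLsum S φ ψ Om (χ (R (k + k0))) (R (k + k0))
      (fun j η s => U η (S.DF φ ψ (AN.N0 S) 1 β (pp (ld916c b j) (o j)) η s)) _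
      (fun j => hI2 k j _ (hB.inv _).1)]
  have e1 : (fun (η : Cfg r) (s : Cfg ds) => ∑ j, U η (pp (ld916c b j) (o j) η s)) = AL.sc U o b := by
    funext η s
    simp only [AL.sc, pp, map_smul]
    rfl
  have e2 := ld916_ZLcongr S φ ψ Om (χ (R (k + k0))) (R (k + k0))
    (fun (η : Cfg r) (s : Cfg ds) => ∑ j, U η (S.DF φ ψ (AN.N0 S) 1 β (pp (ld916c b j) (o j)) η s))
    (AL.sc U o (T.FD β b)) (Ψ (k + k0)) _ hae (fun s hs η => by
      rw [← map_sum, ← ld916_FD S φ ψ o T hD.gam s hs hb.1.1 β η, ld916i_apply, map_sum]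
      simp only [AL.sc, map_smul])
  rw [e1, e2]
  rfl

end Vale.Agent.P353.Z.AE
end

section

/-! # P353, all `N`, block L: `CrdOfStmt` (prover helper655) -/

open MeasureTheory Filter Topology Matrix
open scoped ContDiff ENNReal

namespace Vale.Agent.P353.Z.AL

variable {d dh dm r ds : ℕ} {F : Type*} [NormedAddCommGroup F] [InnerProductSpace ℂ F]

/-- a compact set without the origin lies in a shell -/
theorem crd655_shell {A : Set (Cfg r)} (hA : IsCompact A) (h0 : (0 : Cfg r) ∉ A) :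
    ∃ s t : ℝ, 0 < s ∧ s < t ∧ A ⊆ AD.shl r s t := by
  rcases A.eq_empty_or_nonempty with rfl | hne
  · exact ⟨1, 2, one_pos, one_lt_two, Set.empty_subset _⟩
  obtain ⟨x, hx, hmin⟩ := hA.exists_isMinOn hne continuous_norm.continuousOn
  obtain ⟨y, hy, hmax⟩ := hA.exists_isMaxOn hne continuous_norm.continuousOn
  have hx0 : 0 < ‖x‖ := norm_pos_iff.2 fun h => h0 (h ▸ hx)
  have hxy : ‖x‖ ≤ ‖y‖ := hmin hy
  refine ⟨‖x‖ / 2, ‖y‖ + 1, half_pos hx0, by linarith, fun z hz => ?_⟩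
  have h1 : ‖x‖ ≤ ‖z‖ := hmin hz
  have h2 : ‖z‖ ≤ ‖y‖ := hmax hz
  exact ⟨by linarith, by linarith⟩

/-- `Rg ⊆ Reg` -/
theorem crd655_reg (S : Setup d F) (φ : Spl dh dm d) (ψ : Spl r ds dh) : Rg S φ ψ ⊆ AN.Reg S φ ψ := by
  intro η hη x hx
  refine Matrix.eq_zero_of_mulVec_eq_zero hη ?_
  rw [Matrix.sum_mulVec]
  refine Finset.sum_eq_zero fun i _ => ?_
  have h1 : (S.Dz φ ψ η i).mulVec x = 0 := hx i
  rw [← Matrix.mulVec_mulVec, h1, Matrix.mulVec_zero]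

/-- **L-Crd** -/
theorem crd_of (S : Setup d F) : CrdOfStmt S := by
  intro hG _ hRad hSup hF dh dm r ds φ ψ z₀ hstd L Om K U hB A hA hAR h0 R u hu
  obtain ⟨s, t, hs, hst, hAs⟩ := crd655_shell hA h0
  obtain ⟨u', Cu, hu'i, hu'e, hu'n, -⟩ := hRad R u hu s t hs hst
  obtain ⟨R₀, hR₀, hS⟩ := hSup d dh dm r ds φ ψ S.κ Om s t A hs hst hA hAs
  have hcen : AN.IsZ S φ ψ := fun a B C => hstd.cen a B C
  obtain ⟨δ, C, R₁, hδ, hC, hR₁, hK⟩ := hG hF dh dm r ds φ ψ A hstd.std.sub hcen hA (hAR.trans (crd655_reg S φ ψ))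
  have hdet : ∀ η ∈ A, (∑ i, DM (AX.Mz S φ (spsw ψ)) η i * DM (AX.Mz S φ (spsw ψ)) η i).det ≠ 0 := by
    intro η hη
    have h := hAR hη
    simp only [Rg, Set.mem_ofPred_eq] at h
    simp only [AX.DM_Dz]
    exact h
  have hO : ∀ B C, ContinuousOn (fun η => Om η B C) A := fun B C =>
    (hB.om_smooth B C).continuousOn.mono fun η hη => hdet η hη
  have hI : ∀ η ∈ A, IsOm S.κ (DM (AX.Mz S φ (spsw ψ)) η) (Om η) := fun η hη => hB.om η (hdet η hη)
  obtain ⟨Cw, hCw, hw⟩ := crd655_wM (F := F) (ds := ds) S.κ_pos hA hO hI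
  refine ⟨C * Cw * Real.sqrt Cu, by positivity, fun a ha => ?_⟩
  obtain ⟨a', ham, ha', hn, hZ⟩ := crd655_rep S.κ φ ψ Om hA.isClosed.measurableSet ha
  filter_upwards [hu.lim.eventually_ge_atTop R₀, hu.lim.eventually_ge_atTop R₁,
    hu.lim.eventually_ge_atTop ((δ⁻¹) ^ 2)] with n h1 h2 h3
  have hRn := hu.pos n
  rw [← hn, ← hZ (R n) hRn (u n), (hS (R n) h1 a' ha'.2).2 (u n) (u' n) (fun x hx => (hu'e n x hx.1.le hx.2.le).symm)]
  obtain ⟨hsm, hml, hle⟩ := hw a' ham ha' (R n)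
  have hsq : δ⁻¹ ≤ Real.sqrt (R n) := Real.le_sqrt_of_sq_le h3
  have hsq1 : 1 ≤ δ * Real.sqrt (R n) := by
    rw [inv_le_iff_one_le_mul₀ hδ] at hsq
    linarith [mul_comm δ (Real.sqrt (R n))]
  have hss : Real.sqrt (R n) * Real.sqrt (R n) = R n := Real.mul_self_sqrt hRn.le
  have hsup : ∀ q : Cfg r × Cfg ds × Cfg dm, ((chi (R n) q : ℝ) : ℂ) • AN.bG S.κ Om a' q ≠ 0 →
      q.1 ∈ A ∧ ‖q.2.1‖ ≤ δ * R n ∧ ‖q.2.2‖ ≤ δ * (R n * Real.sqrt (R n)) := by
    intro q hq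
    have hc : chi (R n) q ≠ 0 := by
      intro h
      exact hq (by rw [h, Complex.ofReal_zero, zero_smul])
    have hc' : ‖q.2.1‖ ≤ Real.sqrt (R n) ∧ ‖q.2.2‖ ≤ R n := by
      by_contra h
      exact hc (if_neg h)
    have haq : a' q.1 q.2.1 ≠ 0 := by
      intro h
      exact hq (by simp only [AN.bG, h, smul_zero])
    refine ⟨ha'.2 _ _ haq, hc'.1.trans ?_, hc'.2.trans ?_⟩
    · calc Real.sqrt (R n) = 1 * Real.sqrt (R n) := (one_mul _).symm
        _ ≤ (δ * Real.sqrt (R n)) * Real.sqrt (R n) := by gcongr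
        _ = δ * R n := by rw [mul_assoc, hss]
    · calc R n = 1 * R n := (one_mul _).symm
        _ ≤ (δ * Real.sqrt (R n)) * R n := by gcongr
        _ = _ := by ring
  have hb := hK (R n) h2 _ hsm hsup hml (u' n) (hu'i n).1 (hu'i n).2
  have hum : MemLp (u' n) 2 (volume : Measure (Cfg d)) := (hu'i n).1.memLp
  have hun : eLpNorm (u' n) 2 volume ≤ ENNReal.ofReal (Real.sqrt Cu) := by
    rw [hum.eLpNorm_eq_integral_rpow_norm two_ne_zero ENNReal.ofNat_ne_top]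
    refine ENNReal.ofReal_le_ofReal ?_
    rw [Real.sqrt_eq_rpow, ENNReal.toReal_ofNat, one_div]
    refine Real.rpow_le_rpow (integral_nonneg fun x => by positivity) ?_ (by norm_num)
    refine le_trans (le_of_eq ?_) (hu'n n)
    refine integral_congr_ae (Eventually.of_forall fun x => ?_)
    exact Real.rpow_natCast _ 2
  have hfin : ‖ZZ S.κ φ ψ Om a' (R n) (u' n)‖ₑ ≤
      ENNReal.ofReal (C * (Cw * Real.sqrt (n2 a')) * Real.sqrt Cu) := by
    rw [ENNReal.ofReal_mul (by positivity), ENNReal.ofReal_mul hC.le]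
    exact hb.trans (mul_le_mul' (mul_le_mul' le_rfl hle) hun)
  rw [← ofReal_norm, ENNReal.ofReal_le_ofReal_iff (by positivity)] at hfin
  linarith [hfin]

end Vale.Agent.P353.Z.AL
end

section

/-! # P353, all `N`, block TW (helper554): local estimate in one tube, arbitrary frame and mass matrices -/

open MeasureTheory Filter Topology
open scoped ContDiff

namespace Vale.Agent.P353.Z.AT

variable {d dh dm : ℕ} {F : Type*} [NormedAddCommGroup F] [InnerProductSpace ℂ F]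

/-- supercharge with mass matrices `N` -/
noncomputable def qn (S : Setup d F) (N : Fin 9 → Matrix (Fin 16) (Fin 16) ℂ) (m : ℝ) (β : Fin 16) (u : Cfg d → F)
    (x : Cfg d) : F :=
  S.Q β u x + (m : ℂ) • S.Mx N β x (u x)

private lemma tl_contDiff_Mx (S : Setup d F) (N : Fin 9 → Matrix (Fin 16) (Fin 16) ℂ) (β : Fin 16) :
    ContDiff ℝ ∞ (S.Mx N β) := by
  unfold Setup.Mx
  refine ContDiff.sum fun i _ => ContDiff.sum fun A _ => ?_
  exact (Setup.contDiff_ofReal (Setup.contDiff_coord _)).smul contDiff_const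

lemma tst_qn (S : Setup d F) (N : Fin 9 → Matrix (Fin 16) (Fin 16) ℂ) (m : ℝ) (β : Fin 16) {u : Cfg d → F}
    (hu : Setup.Tst u) : Setup.Tst (qn S N m β u) :=
  (hu.Q S β).add (U.HB.Tst_csmul _ (Setup.Tst.clm (tl_contDiff_Mx S N β) hu))

private lemma tl_QS_eq (S : Setup d F) (φ : Spl dh dm d) (N : Fin 9 → Matrix (Fin 16) (Fin 16) ℂ) (m : ℝ) (β : Fin 16)
    (v : Cfg dh → Wsp dm → F) (y : Cfg dh) (w : Wsp dm) :
    S.QS φ N m β v y w = AN.Qs S φ β v y w + (m : ℂ) • (S.Mh φ N β y + S.Mw φ N β w) (v y w) := by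
  unfold Setup.QS Setup.Qhm AN.Qs
  rw [_root_.add_apply, smul_add]
  abel

private lemma tl_QS_zero (S : Setup d F) (φ : Spl dh dm d) (N : Fin 9 → Matrix (Fin 16) (Fin 16) ℂ) (m : ℝ)
    (β : Fin 16) {v : Cfg dh → Wsp dm → F} {y : Cfg dh} {w : Wsp dm}
    (h : (fun p : Cfg dh × Wsp dm => v p.1 p.2) =ᶠ[𝓝 (y, w)] fun _ => 0) : S.QS φ N m β v y w = 0 := by
  have h0 : v y w = 0 := h.eq_of_nhds
  have h1 : ∀ i A, py i A v y w = 0 := by
    intro i A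
    have hc : Tendsto (fun y' : Cfg dh => (y', w)) (𝓝 y) (𝓝 (y, w)) :=
      (Continuous.prodMk continuous_id continuous_const).tendsto y
    have h3 : (fun y' => v y' w) =ᶠ[𝓝 y] fun _ => 0 := hc.eventually h
    unfold py pd
    rw [h3.fderiv_eq]
    simp
  have h2 : ∀ j B, pw j B v y w = 0 := by
    intro i A
    have hc : Tendsto (fun w' : Wsp dm => (y, w')) (𝓝 w) (𝓝 (y, w)) :=
      (Continuous.prodMk continuous_const continuous_id).tendsto w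
    have h3 : (fun w' => v y w') =ᶠ[𝓝 w] fun _ => 0 := hc.eventually h
    unfold pw
    rw [show v y = fun w' => v y w' from rfl, h3.fderiv_eq]
    simp
  simp [Setup.QS, Setup.Qhm, Setup.Qh, Setup.Q1, Setup.Qr, h0, h1, h2]

private lemma tl_norm_ro (S : Setup d F) (a : Fin d → ℝ) (x : Cfg d) :
    ‖ro (NormedSpace.exp (S.adm a)) x‖ = ‖x‖ := by
  have h := (U.grpCpt S).2.2.2.2.2 _ (U.exp_mem S a 1) x
  rwa [one_smul] at h

private lemma tl_norm_emb (φ : Spl dh dm d) (y : Cfg dh) (w : Wsp dm) :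
    ‖emb φ y w‖ ^ 2 = ‖y‖ ^ 2 + ‖w‖ ^ 2 := by
  rw [EuclideanSpace.norm_sq_eq, EuclideanSpace.norm_sq_eq, EuclideanSpace.norm_sq_eq]
  rw [Fintype.sum_prod_type, Fintype.sum_prod_type, Fintype.sum_prod_type]
  have h : ∀ i : Fin 9, ∑ A, ‖emb φ y w (i, A)‖ ^ 2 = (∑ A, ‖y (i, A)‖ ^ 2) + ∑ B, ‖wt w i B‖ ^ 2 := by
    intro i
    rw [← φ.sum_comp, Fintype.sum_sum_type]
    simp [emb, wt]
  simp only [h, Finset.sum_add_distrib]
  congr 1
  rw [Fin.sum_univ_castSucc]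
  have h9 : ∑ B, ‖wt w (Fin.last 8) B‖ ^ 2 = 0 := Finset.sum_eq_zero fun B _ => by
    unfold wt
    rw [Fin.lastCases_last]
    norm_num
  rw [h9, add_zero]
  refine Finset.sum_congr rfl fun j _ => Finset.sum_congr rfl fun B _ => ?_
  unfold wt
  rw [Fin.lastCases_castSucc]

private lemma tl_norm_le {a b t : ℝ} (ha : 0 ≤ a) (hb : 0 ≤ b) (ht : 0 < t) (h1 : a < t) (h2 : b < t) {c : ℝ}
    (h : c ^ 2 = a ^ 2 + b ^ 2) : c < 2 * t := by
  nlinarith [mul_self_nonneg (a - t), mul_self_nonneg (b - t), mul_pos ht ht]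

private lemma tl_Nb_emb (φ : Spl dh dm d) (Y : Cfg dh) {s ε : ℝ} (hs : 0 < s) (hε : 0 < ε)
    {p : Cfg dh × Wsp dm} (hp : p ∈ AN.Nb Y dm s ε) :
    |‖emb φ p.1 p.2‖ - s * ‖Y‖| < 2 * (ε * s) := by
  have h1 : emb φ p.1 p.2 - s • emb φ Y 0 = emb φ (p.1 - s • Y) p.2 := by
    ext q
    simp only [emb, PiLp.sub_apply, PiLp.smul_apply, smul_eq_mul]
    rcases h : φ.symm q.2 with A | B
    · simp
    · simp only [Sum.elim_inr]
      rcases q with ⟨i, C⟩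
      refine Fin.lastCases ?_ (fun j => ?_) i
      · simp only [Fin.lastCases_last]
        ring
      · simp
  have h2 : ‖s • emb φ Y 0‖ = s * ‖Y‖ := by
    rw [norm_smul, Real.norm_eq_abs, abs_of_pos hs]
    congr 1
    have := tl_norm_emb φ Y (0 : Wsp dm)
    rw [norm_zero, zero_pow two_ne_zero, add_zero] at this
    exact (sq_eq_sq₀ (norm_nonneg _) (norm_nonneg _)).1 this
  rw [← h2]
  refine (abs_norm_sub_norm_le _ _).trans_lt ?_
  rw [h1]
  exact tl_norm_le (norm_nonneg _) (norm_nonneg _) (mul_pos hε hs) hp.1 hp.2 (tl_norm_emb φ _ _)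

private lemma tl_tube_shl (S : Setup d F) (φ : Spl dh dm d) (Y : Cfg dh) {s ε ρ σ : ℝ} (hs : 0 < s) (hε : 0 < ε)
    (h : 2 * ε ≤ σ) : AN.Tube S φ Y s ε ρ ⊆ AD.shl d ((‖Y‖ - σ) * s) ((‖Y‖ + σ) * s) := by
  rintro x ⟨a, -, p, hp, rfl⟩
  have h1 : ‖AN.tub S φ a p‖ = ‖emb φ p.1 p.2‖ := tl_norm_ro S _ _
  have h2 := abs_lt.1 (tl_Nb_emb φ Y hs hε hp)
  have h3 : 2 * (ε * s) ≤ σ * s := by nlinarith
  constructor
  · show (‖Y‖ - σ) * s < ‖AN.tub S φ a p‖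
    rw [h1]; nlinarith [h2.1]
  · show ‖AN.tub S φ a p‖ < (‖Y‖ + σ) * s
    rw [h1]; nlinarith [h2.2]

private lemma tl_meas_Nb (Y : Cfg dh) (dm : ℕ) (s ε : ℝ) : MeasurableSet (AN.Nb Y dm s ε) := by
  have e1 : IsOpen {p : Cfg dh × Wsp dm | ‖p.1 - s • Y‖ < ε * s} :=
    isOpen_lt (continuous_fst.sub continuous_const).norm continuous_const
  have e2 : IsOpen {p : Cfg dh × Wsp dm | ‖p.2‖ < ε * s} :=
    isOpen_lt continuous_snd.norm continuous_const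
  exact (e1.inter e2).measurableSet

private lemma tl_Nb_sub (Y : Cfg dh) (dm : ℕ) (s ε : ℝ) :
    AN.Nb Y dm s ε ⊆ Metric.closedBall (s • Y) (ε * s) ×ˢ Metric.closedBall (0 : Wsp dm) (ε * s) := by
  rintro p ⟨h1, h2⟩
  exact ⟨mem_closedBall_iff_norm.2 h1.le, mem_closedBall_zero_iff.2 h2.le⟩

private lemma tl_cpt (Y : Cfg dh) (dm : ℕ) (s ε : ℝ) :
    IsCompact (Metric.closedBall (s • Y) (ε * s) ×ˢ Metric.closedBall (0 : Wsp dm) (ε * s)) :=
  (isCompact_closedBall _ _).prod (isCompact_closedBall _ _)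

private lemma tl_int_on {g : Cfg dh × Wsp dm → ℝ} (hg : Continuous g) (Y : Cfg dh) (s ε : ℝ) :
    IntegrableOn g (AN.Nb Y dm s ε) ((volume : Measure (Cfg dh)).prod (volume : Measure (Wsp dm))) :=
  (hg.continuousOn.integrableOn_compact (tl_cpt Y dm s ε)).mono_set (tl_Nb_sub Y dm s ε)

private lemma tl_cont_res (S : Setup d F) (φ : Spl dh dm d) {u : Cfg d → F} (hu : Continuous u) :
    Continuous fun p : Cfg dh × Wsp dm => ‖S.res φ u p.1 p.2‖ ^ 2 := by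
  simp only [AN.nrm_res_sq]
  have e1 := AN.nrm_continuous_emb φ
  have e2 : Continuous fun p : Cfg dh × Wsp dm => S.Jd φ p.1 := by
    unfold Setup.Jd
    exact ((AN.nrm_continuous_det S φ).comp continuous_fst).abs
  exact ((hu.comp e1).norm.pow 2).mul e2

private lemma tl_bump (Y : Cfg dh) (dm : ℕ) {ε : ℝ} (hε : 0 < ε) :
    ∃ (χ : Cfg dh × Wsp dm → ℝ) (B : ℝ), ContDiff ℝ ∞ χ ∧ 0 ≤ B ∧ (∀ p, ‖fderiv ℝ χ p‖ ≤ B) ∧
      (∀ p, 0 ≤ χ p ∧ χ p ≤ 1) ∧ (∀ p : Cfg dh × Wsp dm, ‖p.1 - Y‖ < ε / 2 → ‖p.2‖ < ε / 2 → χ p = 1) ∧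
      (∀ p : Cfg dh × Wsp dm, χ p ≠ 0 → ‖p.1 - Y‖ < 3 / 4 * ε ∧ ‖p.2‖ < 3 / 4 * ε) := by
  let f : ContDiffBump ((Y, 0) : Cfg dh × Wsp dm) := ⟨ε / 2, 3 / 4 * ε, by linarith, by linarith⟩
  obtain ⟨B, hB⟩ := (f.contDiff (n := ⊤)).continuous_fderiv (by simp) |>.bounded_above_of_compact_support
    (f.hasCompactSupport.fderiv ℝ)
  refine ⟨f, max B 0, f.contDiff, le_max_right _ _, fun p => (hB p).trans (le_max_left _ _),
    fun p => ⟨f.nonneg, f.le_one⟩, ?_, ?_⟩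
  · intro p h1 h2
    refine f.one_of_mem_closedBall ?_
    rw [mem_closedBall_iff_norm]
    have : p - (Y, 0) = (p.1 - Y, p.2) := by ext1 <;> simp
    rw [this, Prod.norm_mk]
    exact max_le h1.le h2.le
  · intro p hp
    have h3 : p ∈ Function.support f := hp
    rw [f.support_eq, mem_ball_iff_norm] at h3
    have : p - (Y, 0) = (p.1 - Y, p.2) := by ext1 <;> simp
    rw [this, Prod.norm_mk, max_lt_iff] at h3
    exact h3

private lemma tl_scl_norm {E : Type*} [NormedAddCommGroup E] [NormedSpace ℝ E] {s : ℝ} (hs : 0 < s) (x y : E) (t : ℝ) :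
    ‖s⁻¹ • x - y‖ < t ↔ ‖x - s • y‖ < t * s := by
  have h : x - s • y = s • (s⁻¹ • x - y) := by rw [smul_sub, smul_smul, mul_inv_cancel₀ hs.ne', one_smul]
  rw [h, norm_smul, Real.norm_eq_abs, abs_of_pos hs, mul_comm s]
  exact (mul_lt_mul_iff_left₀ hs).symm

private lemma tl_scl_norm0 {E : Type*} [NormedAddCommGroup E] [NormedSpace ℝ E] {s : ℝ} (hs : 0 < s) (x : E) (t : ℝ) :
    ‖s⁻¹ • x‖ < t ↔ ‖x‖ < t * s := by
  have h := tl_scl_norm hs x 0 t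
  simpa using h

private lemma tl_fderiv_scl {χ : Cfg dh × Wsp dm → ℝ} (hχ : ContDiff ℝ ∞ χ) {B : ℝ} (hB : ∀ p, ‖fderiv ℝ χ p‖ ≤ B)
    {s : ℝ} (hs : 0 < s) (p : Cfg dh × Wsp dm) : ‖fderiv ℝ (fun q => χ (s⁻¹ • q)) p‖ ≤ B * s⁻¹ := by
  have h1 : HasFDerivAt (fun q : Cfg dh × Wsp dm => s⁻¹ • q) (s⁻¹ • ContinuousLinearMap.id ℝ (Cfg dh × Wsp dm)) p :=
    (hasFDerivAt_id p).const_smul s⁻¹
  have h2 : HasFDerivAt χ (fderiv ℝ χ (s⁻¹ • p)) (s⁻¹ • p) :=
    ((hχ.differentiable (by simp)) _).hasFDerivAt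
  have h3 := h2.comp p h1
  rw [show (fun q => χ (s⁻¹ • q)) = χ ∘ fun q => s⁻¹ • q from rfl, h3.fderiv]
  rw [ContinuousLinearMap.comp_smul, norm_smul, Real.norm_eq_abs, abs_of_pos (inv_pos.2 hs),
    ContinuousLinearMap.comp_id, mul_comm]
  exact mul_le_mul_of_nonneg_right (hB _) (inv_pos.2 hs).le

/-- the localised slice function is a slice test function -/
private lemma tl_tst2 (S : Setup d F) (φ : Spl dh dm d) (Y : Cfg dh) {s ε : ℝ} (hs : 0 < s) (hε : 0 < ε)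
    {χ : Cfg dh × Wsp dm → ℝ} (hχ : ContDiff ℝ ∞ χ)
    (hsup : ∀ p : Cfg dh × Wsp dm, χ p ≠ 0 → ‖p.1 - Y‖ < 3 / 4 * ε ∧ ‖p.2‖ < 3 / 4 * ε)
    (hdet : ∀ y : Cfg dh, ‖y - s • Y‖ ≤ ε * s → (S.Dy φ 8 y).det ≠ 0) {r : Cfg dh → Wsp dm → F}
    (hr : AN.Sm S φ r) :
    Tst2 (fun y w => ((χ (s⁻¹ • (y, w)) : ℝ) : ℂ) • r y w) ∧
      Sup2 Y ε s (fun y w => ((χ (s⁻¹ • (y, w)) : ℝ) : ℂ) • r y w) ∧
      ∀ p : Cfg dh × Wsp dm, p ∉ AN.Nb Y dm s ε →
        (fun q : Cfg dh × Wsp dm => ((χ (s⁻¹ • (q.1, q.2)) : ℝ) : ℂ) • r q.1 q.2) =ᶠ[𝓝 p] fun _ => 0 := by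
  have hs' : ∀ p : Cfg dh × Wsp dm, χ (s⁻¹ • p) ≠ 0 → ‖p.1 - s • Y‖ < 3 / 4 * ε * s ∧ ‖p.2‖ < 3 / 4 * ε * s := by
    intro p hp
    obtain ⟨h1, h2⟩ := hsup _ hp
    exact ⟨(tl_scl_norm hs _ _ _).1 h1, (tl_scl_norm0 hs _ _).1 h2⟩
  have hlt : 3 / 4 * ε * s < ε * s := by nlinarith [mul_pos hε hs]
  have hz : ∀ p : Cfg dh × Wsp dm, p ∉ AN.Nb Y dm s ε →
      (fun q : Cfg dh × Wsp dm => ((χ (s⁻¹ • (q.1, q.2)) : ℝ) : ℂ) • r q.1 q.2) =ᶠ[𝓝 p] fun _ => 0 := by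
    intro p hp
    have hc : IsClosed {q : Cfg dh × Wsp dm | ‖q.1 - s • Y‖ ≤ 3 / 4 * ε * s ∧ ‖q.2‖ ≤ 3 / 4 * ε * s} :=
      (isClosed_le (continuous_fst.sub continuous_const).norm continuous_const).inter
        (isClosed_le continuous_snd.norm continuous_const)
    have hp2 : p ∈ {q : Cfg dh × Wsp dm | ‖q.1 - s • Y‖ ≤ 3 / 4 * ε * s ∧ ‖q.2‖ ≤ 3 / 4 * ε * s}ᶜ := by
      intro h
      exact hp ⟨h.1.trans_lt hlt, h.2.trans_lt hlt⟩
    filter_upwards [hc.isOpen_compl.mem_nhds hp2] with q hq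
    by_cases h : χ (s⁻¹ • (q.1, q.2)) = 0
    · rw [h]; simp
    · exact absurd ⟨(hs' (q.1, q.2) h).1.le, (hs' (q.1, q.2) h).2.le⟩ hq
  have hopen : IsOpen {p : Cfg dh × Wsp dm | (S.Dy φ 8 p.1).det ≠ 0} :=
    isOpen_ne.preimage ((AN.nrm_continuous_det S φ).comp continuous_fst)
  refine ⟨⟨?_, ?_⟩, ?_, hz⟩
  · rw [contDiff_iff_contDiffAt]
    intro p
    by_cases hp : p ∈ AN.Nb Y dm s ε
    · have hd : (S.Dy φ 8 p.1).det ≠ 0 := hdet _ hp.1.le
      have h1 : ContDiffAt ℝ ∞ (fun q : Cfg dh × Wsp dm => r q.1 q.2) p := hr.contDiffAt (hopen.mem_nhds hd)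
      have h2 : ContDiff ℝ ∞ (fun q : Cfg dh × Wsp dm => χ (s⁻¹ • (q.1, q.2))) :=
        hχ.comp (contDiff_id.const_smul s⁻¹)
      exact (Complex.ofRealCLM.contDiff.comp h2).contDiffAt.smul h1
    · exact (contDiffAt_const (c := (0 : F))).congr_of_eventuallyEq (hz p hp)
  · refine HasCompactSupport.intro (tl_cpt Y dm s ε) ?_
    intro p hp
    have : p ∉ AN.Nb Y dm s ε := fun h => hp (tl_Nb_sub Y dm s ε h)
    exact (hz p this).eq_of_nhds
  · intro y w h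
    have h1 : χ (s⁻¹ • (y, w)) ≠ 0 := by
      intro h0
      exact h (by show ((χ (s⁻¹ • (y, w)) : ℝ) : ℂ) • r y w = 0; rw [h0]; simp)
    exact ⟨((hs' _ h1).1.trans hlt).le, ((hs' _ h1).2.trans hlt).le⟩

private lemma tl_energy (S : Setup d F) (hdec : AN.DecStmt S) (hfr : AN.FrameStmt S) (φ : Spl dh dm d) (Y : Cfg dh)
    (hsub : S.IsSub φ) (N : Fin 9 → Matrix (Fin 16) (Fin 16) ℂ) (m : ℝ) {s ε B K : ℝ} (hs : 0 < s) (hε : 0 < ε)
    (hK : 0 ≤ K) {χ : Cfg dh × Wsp dm → ℝ} (hχ : ContDiff ℝ ∞ χ) (hB : ∀ p, ‖fderiv ℝ χ p‖ ≤ B)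
    (h01 : ∀ p, 0 ≤ χ p ∧ χ p ≤ 1)
    (hsup : ∀ p : Cfg dh × Wsp dm, χ p ≠ 0 → ‖p.1 - Y‖ < 3 / 4 * ε ∧ ‖p.2‖ < 3 / 4 * ε)
    (hdet : ∀ y : Cfg dh, ‖y - s • Y‖ ≤ ε * s → (S.Dy φ 8 y).det ≠ 0)
    (hcut : ∀ (y : Cfg dh) (w : Wsp dm), ‖y - s • Y‖ < ε * s → ‖w‖ < ε * s →
      ∀ (χ : Cfg dh × Wsp dm → ℝ) (v : Cfg dh → Wsp dm → F), ContDiff ℝ ∞ χ → AN.Sm S φ v → ∀ β,
        ‖AN.Qs S φ β (fun y' w' => ((χ (y', w') : ℝ) : ℂ) • v y' w') y w -
          ((χ (y, w) : ℝ) : ℂ) • AN.Qs S φ β v y w‖ ≤ K * ‖fderiv ℝ χ (y, w)‖ * ‖v y w‖)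
    {u : Cfg d → F} (hu : Setup.Tst u) (hG : ∀ C x, S.G C u x = 0) (hr : AN.Sm S φ (S.res φ u)) (β : Fin 16) :
    ns2 (S.QS φ N m β (fun y w => ((χ (s⁻¹ • (y, w)) : ℝ) : ℂ) • S.res φ u y w)) ≤
      2 * (∫ p in AN.Nb Y dm s ε, ‖S.res φ (qn S N m β u) p.1 p.2‖ ^ 2
        ∂((volume : Measure (Cfg dh)).prod (volume : Measure (Wsp dm)))) +
      2 * (K * (B * s⁻¹)) ^ 2 * ∫ p in AN.Nb Y dm s ε, ‖S.res φ u p.1 p.2‖ ^ 2
        ∂((volume : Measure (Cfg dh)).prod (volume : Measure (Wsp dm))) := by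
  obtain ⟨-, -, hz⟩ := tl_tst2 S φ Y hs hε hχ hsup hdet hr
  set μ := (volume : Measure (Cfg dh)).prod (volume : Measure (Wsp dm)) with hμ
  have hq : Setup.Tst (qn S N m β u) := tst_qn S N m β hu
  have i1 : IntegrableOn (fun p : Cfg dh × Wsp dm => ‖S.res φ (qn S N m β u) p.1 p.2‖ ^ 2) (AN.Nb Y dm s ε) μ :=
    tl_int_on (tl_cont_res S φ hq.1.continuous) Y s ε
  have i2 : IntegrableOn (fun p : Cfg dh × Wsp dm => ‖S.res φ u p.1 p.2‖ ^ 2) (AN.Nb Y dm s ε) μ :=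
    tl_int_on (tl_cont_res S φ hu.1.continuous) Y s ε
  have e1 : ns2 (S.QS φ N m β (fun y w => ((χ (s⁻¹ • (y, w)) : ℝ) : ℂ) • S.res φ u y w)) =
      ∫ p in AN.Nb Y dm s ε, ‖S.QS φ N m β (fun y w => ((χ (s⁻¹ • (y, w)) : ℝ) : ℂ) • S.res φ u y w) p.1 p.2‖ ^ 2 ∂μ := by
    unfold ns2
    symm
    refine setIntegral_eq_integral_of_forall_compl_eq_zero fun p hp => ?_
    rw [tl_QS_zero S φ N m β (hz p hp), norm_zero, zero_pow two_ne_zero]
  rw [e1, ← integral_const_mul, ← integral_const_mul, ← integral_add (i1.const_mul 2) (i2.const_mul _)]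
  refine integral_mono_of_nonneg (Eventually.of_forall fun p => sq_nonneg _)
    ((i1.const_mul 2).add (i2.const_mul _)) ?_
  rw [EventuallyLE, ae_restrict_iff' (tl_meas_Nb Y dm s ε)]
  refine Eventually.of_forall fun p hp => ?_
  have hχs : ContDiff ℝ ∞ (fun q : Cfg dh × Wsp dm => χ (s⁻¹ • q)) := hχ.comp (contDiff_id.const_smul s⁻¹)
  have hd : (S.Dy φ 8 p.1).det ≠ 0 := hdet _ hp.1.le
  have h1 := hcut p.1 p.2 hp.1 hp.2 (fun q => χ (s⁻¹ • q)) (S.res φ u) hχs hr β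
  have h2 := tl_fderiv_scl hχ hB hs p
  have h3 : S.res φ (qn S N m β u) p.1 p.2 = S.QS φ N m β (S.res φ u) p.1 p.2 :=
    ((hfr.2.2 N).2 dh dm φ).2 hsub hdec u hu.1 hG m β p.1 p.2 hd
  have h4 : S.QS φ N m β (fun y w => ((χ (s⁻¹ • (y, w)) : ℝ) : ℂ) • S.res φ u y w) p.1 p.2 =
      ((χ (s⁻¹ • (p.1, p.2)) : ℝ) : ℂ) • S.QS φ N m β (S.res φ u) p.1 p.2 +
      (AN.Qs S φ β (fun y' w' => ((χ (s⁻¹ • (y', w')) : ℝ) : ℂ) • S.res φ u y' w') p.1 p.2 -
          ((χ (s⁻¹ • (p.1, p.2)) : ℝ) : ℂ) • AN.Qs S φ β (S.res φ u) p.1 p.2) := by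
    rw [tl_QS_eq, tl_QS_eq, map_smul, smul_add, smul_comm (m : ℂ)]
    abel
  have h5 : ‖AN.Qs S φ β (fun y' w' => ((χ (s⁻¹ • (y', w')) : ℝ) : ℂ) • S.res φ u y' w') p.1 p.2 -
          ((χ (s⁻¹ • (p.1, p.2)) : ℝ) : ℂ) • AN.Qs S φ β (S.res φ u) p.1 p.2‖ ≤
        K * (B * s⁻¹) * ‖S.res φ u p.1 p.2‖ :=
    h1.trans (mul_le_mul_of_nonneg_right (mul_le_mul_of_nonneg_left h2 hK) (norm_nonneg _))
  have h6 : ‖((χ (s⁻¹ • (p.1, p.2)) : ℝ) : ℂ) • S.QS φ N m β (S.res φ u) p.1 p.2‖ ≤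
      ‖S.QS φ N m β (S.res φ u) p.1 p.2‖ := by
    rw [norm_smul, Complex.norm_real, Real.norm_eq_abs, abs_of_nonneg (h01 _).1]
    exact mul_le_of_le_one_left (norm_nonneg _) (h01 _).2
  show ‖S.QS φ N m β (fun y w => ((χ (s⁻¹ • (y, w)) : ℝ) : ℂ) • S.res φ u y w) p.1 p.2‖ ^ 2 ≤
    2 * ‖S.res φ (qn S N m β u) p.1 p.2‖ ^ 2 + 2 * (K * (B * s⁻¹)) ^ 2 * ‖S.res φ u p.1 p.2‖ ^ 2
  rw [h4, h3]
  have h7 := norm_add_le (((χ (s⁻¹ • (p.1, p.2)) : ℝ) : ℂ) • S.QS φ N m β (S.res φ u) p.1 p.2)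
    (AN.Qs S φ β (fun y' w' => ((χ (s⁻¹ • (y', w')) : ℝ) : ℂ) • S.res φ u y' w') p.1 p.2 -
          ((χ (s⁻¹ • (p.1, p.2)) : ℝ) : ℂ) • AN.Qs S φ β (S.res φ u) p.1 p.2)
  have h8 := h7.trans (add_le_add h6 h5)
  have h9 := pow_le_pow_left₀ (norm_nonneg _) h8 2
  refine h9.trans ?_
  nlinarith [sq_nonneg (‖S.QS φ N m β (S.res φ u) p.1 p.2‖ - K * (B * s⁻¹) * ‖S.res φ u p.1 p.2‖)]

private lemma tl_int_sq {v : Cfg dh → Wsp dm → F} (hv : Tst2 v) :
    Integrable (fun p : Cfg dh × Wsp dm => ‖v p.1 p.2‖ ^ 2)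
      ((volume : Measure (Cfg dh)).prod (volume : Measure (Wsp dm))) := by
  refine Continuous.integrable_of_hasCompactSupport (hv.1.continuous.norm.pow 2) ?_
  refine hv.2.mono fun p hp => ?_
  intro h
  apply hp
  show ‖v p.1 p.2‖ ^ 2 = 0
  rw [show v p.1 p.2 = 0 from h, norm_zero, zero_pow two_ne_zero]

private lemma tl_ns2_le (S : Setup d F) (φ : Spl dh dm d) (Y : Cfg dh) {s ε : ℝ} {u : Cfg d → F} (hu : Setup.Tst u)
    {v : Cfg dh → Wsp dm → F} (hv : Tst2 v) (hz : ∀ p : Cfg dh × Wsp dm, p ∉ AN.Nb Y dm s ε → v p.1 p.2 = 0)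
    (hle : ∀ p : Cfg dh × Wsp dm, ‖v p.1 p.2‖ ≤ ‖S.res φ u p.1 p.2‖) :
    ns2 v ≤ ∫ p in AN.Nb Y dm s ε, ‖S.res φ u p.1 p.2‖ ^ 2
      ∂((volume : Measure (Cfg dh)).prod (volume : Measure (Wsp dm))) := by
  have i2 : IntegrableOn (fun p : Cfg dh × Wsp dm => ‖S.res φ u p.1 p.2‖ ^ 2) (AN.Nb Y dm s ε)
      ((volume : Measure (Cfg dh)).prod (volume : Measure (Wsp dm))) :=
    tl_int_on (tl_cont_res S φ hu.1.continuous) Y s ε
  have e1 : ns2 v = ∫ p in AN.Nb Y dm s ε, ‖v p.1 p.2‖ ^ 2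
      ∂((volume : Measure (Cfg dh)).prod (volume : Measure (Wsp dm))) := by
    unfold ns2
    symm
    refine setIntegral_eq_integral_of_forall_compl_eq_zero fun p hp => ?_
    rw [hz p hp, norm_zero, zero_pow two_ne_zero]
  rw [e1]
  exact setIntegral_mono (tl_int_sq hv).integrableOn i2 fun p => pow_le_pow_left₀ (norm_nonneg _) (hle p) 2

private lemma tl_ns2_ge (S : Setup d F) (φ : Spl dh dm d) (Y : Cfg dh) {s ε : ℝ} {u : Cfg d → F}
    {v : Cfg dh → Wsp dm → F} (hv : Tst2 v)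
    (heq : ∀ p : Cfg dh × Wsp dm, p ∈ AN.Nb Y dm s ε → v p.1 p.2 = S.res φ u p.1 p.2) :
    (∫ p in AN.Nb Y dm s ε, ‖S.res φ u p.1 p.2‖ ^ 2
      ∂((volume : Measure (Cfg dh)).prod (volume : Measure (Wsp dm)))) ≤ ns2 v := by
  have e2 : (∫ p in AN.Nb Y dm s ε, ‖S.res φ u p.1 p.2‖ ^ 2
      ∂((volume : Measure (Cfg dh)).prod (volume : Measure (Wsp dm)))) =
      ∫ p in AN.Nb Y dm s ε, ‖v p.1 p.2‖ ^ 2
        ∂((volume : Measure (Cfg dh)).prod (volume : Measure (Wsp dm))) :=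
    setIntegral_congr_fun (tl_meas_Nb Y dm s ε) fun p hp => by
      show ‖S.res φ u p.1 p.2‖ ^ 2 = ‖v p.1 p.2‖ ^ 2
      rw [heq p hp]
  rw [e2]
  exact setIntegral_le_integral (tl_int_sq hv) (Eventually.of_forall fun p => sq_nonneg _)

private lemma tl_arith {c c' C0 K B s m n a ES EH E1 X E M bs : ℝ} (hc : 0 < c) (hc' : 0 < c') (hC0 : 0 < C0)
    (hs : 1 ≤ s) (hm : 0 < m) (hm1 : m ≤ 1) (hna : n ≤ a) (hn : 0 ≤ n)
    (hX : X ≤ c' * n) (h1 : EH + E1 ≤ C0 * (ES + (1 / s ^ 2 + m ^ 2 / s) * n)) (hE1 : 0 ≤ E1)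
    (h6 : m ^ 2 * s ^ 2 * n ≤ C0 * (EH + m * n))
    (hES : ES ≤ 2 * bs + 16 * (2 * (K * (B * s⁻¹)) ^ 2 * a)) (haM : c * a ≤ M) (hbE : c * bs ≤ E)
    (hE : 0 ≤ E) :
    m ^ 2 * s ^ 2 * X ≤ (c' * C0 * (C0 * (3 + 32 * (K * B) ^ 2) + 1) / c) * (E + (1 / s ^ 2 + m) * M) := by
  have hs0 : 0 < s := by linarith
  have ha : 0 ≤ a := hn.trans hna
  have e0 : 0 < 1 / s ^ 2 := by positivity
  have e1 : m ^ 2 / s ≤ m := by
    rw [div_le_iff₀ hs0]
    nlinarith [mul_nonneg hm.le (sub_nonneg.2 hm1), mul_nonneg hm.le (sub_nonneg.2 hs)]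
  have e2 : n ≤ M / c := hna.trans ((le_div_iff₀ hc).2 (by linarith))
  have e3 : a ≤ M / c := (le_div_iff₀ hc).2 (by linarith)
  have e4 : bs ≤ E / c := (le_div_iff₀ hc).2 (by linarith)
  have hMc : 0 ≤ M / c := ha.trans e3
  have e5 : (K * (B * s⁻¹)) ^ 2 = (K * B) ^ 2 * (1 / s ^ 2) := by
    field_simp
  have e6 : ES ≤ 2 * (E / c) + 32 * (K * B) ^ 2 * ((1 / s ^ 2 + m) * (M / c)) := by
    refine hES.trans ?_
    rw [e5]
    have h7 : (K * B) ^ 2 * (1 / s ^ 2) * a ≤ (K * B) ^ 2 * ((1 / s ^ 2 + m) * (M / c)) := by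
      rw [mul_assoc]
      refine mul_le_mul_of_nonneg_left ?_ (sq_nonneg _)
      exact mul_le_mul (by linarith) e3 ha (by positivity)
    nlinarith
  have e7 : (1 / s ^ 2 + m ^ 2 / s) * n ≤ (1 / s ^ 2 + m) * (M / c) :=
    mul_le_mul (by linarith) e2 hn (by positivity)
  have e8 : m * n ≤ (1 / s ^ 2 + m) * (M / c) :=
    mul_le_mul (by linarith) e2 hn (by positivity)
  set P := (1 / s ^ 2 + m) * (M / c) with hP
  have hP0 : 0 ≤ P := mul_nonneg (by positivity) hMc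
  have e9 : m ^ 2 * s ^ 2 * n ≤ C0 * (C0 * (2 * (E / c) + (32 * (K * B) ^ 2 + 1) * P) + P) := by
    refine h6.trans (mul_le_mul_of_nonneg_left ?_ hC0.le)
    have h8 : C0 * (ES + (1 / s ^ 2 + m ^ 2 / s) * n) ≤ C0 * (2 * (E / c) + (32 * (K * B) ^ 2 + 1) * P) :=
      mul_le_mul_of_nonneg_left (by linarith) hC0.le
    linarith
  have hEc : 0 ≤ E / c := div_nonneg hE hc.le
  have e10 : m ^ 2 * s ^ 2 * X ≤ c' * (m ^ 2 * s ^ 2 * n) := by
    have : m ^ 2 * s ^ 2 * X ≤ m ^ 2 * s ^ 2 * (c' * n) := mul_le_mul_of_nonneg_left hX (by positivity)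
    linarith
  refine e10.trans ((mul_le_mul_of_nonneg_left e9 hc'.le).trans ?_)
  have e11 : (c' * C0 * (C0 * (3 + 32 * (K * B) ^ 2) + 1) / c) * (E + (1 / s ^ 2 + m) * M) =
      c' * (C0 * ((C0 * (3 + 32 * (K * B) ^ 2) + 1) * (E / c + P))) := by
    rw [hP]
    field_simp
  rw [e11]
  refine mul_le_mul_of_nonneg_left (mul_le_mul_of_nonneg_left ?_ hC0.le) hc'.le
  have e12 : 0 ≤ C0 * ((1 + 32 * (K * B) ^ 2) * (E / c)) := by positivity
  have e13 : 0 ≤ C0 * (2 * P) := by positivity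
  nlinarith

/-- local estimate in one tube, arbitrary frame and admissible mass matrices -/
theorem tub_loc (S : Setup d F) (hfd : FiniteDimensional ℂ F) (hin : Inp S) (φ : Spl dh dm d) (Y : Cfg dh)
    (hY : AN.Std S φ Y) (hdm : 0 < dm) (N : Fin 9 → Matrix (Fin 16) (Fin 16) ℂ) (hN : S.IsMass N) (σ : ℝ)
    (hσ : 0 < σ) :
    ∃ δ R₁ C : ℝ, 0 < δ ∧ δ ≤ σ ∧ 1 ≤ R₁ ∧ 0 ≤ C ∧ ∀ s : ℝ, R₁ ≤ s → ∀ m : ℝ, 0 < m → m ≤ 1 → ∀ u : Cfg d → F,
      Setup.Tst u → (∀ C x, S.G C u x = 0) → (∀ β C x, S.G C (qn S N m β u) x = 0) →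
      m ^ 2 * s ^ 2 * AD.mas u (Metric.ball (s • emb φ Y 0) (δ * s)) ≤
        C * ((∑ β, ∫ x in AD.shl d ((‖Y‖ - σ) * s) ((‖Y‖ + σ) * s), ‖qn S N m β u x‖ ^ 2) +
          (1 / s ^ 2 + m) * AD.mas u (AD.shl d ((‖Y‖ - σ) * s) ((‖Y‖ + σ) * s))) := by
  obtain ⟨εT, ρ, hεT, hρ, hT⟩ := hin.tube dh dm φ Y hY
  obtain ⟨εB, CB, hεB, hCB, hBd⟩ := hin.bd dh dm φ Y hY
  obtain ⟨εK, K, hεK, hK, hCut⟩ := hin.cut dh dm φ Y hY
  obtain ⟨Om, ε0, R0, C0, -, -, hε0, hR0, hC0, hOut⟩ := hin.out dh dm φ hfd N hN Y hY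
  obtain ⟨ε, hε, h1, h2, h3, h4, h5⟩ : ∃ ε : ℝ, 0 < ε ∧ ε ≤ εT ∧ ε ≤ εB ∧ ε ≤ εK ∧ ε ≤ ε0 ∧ ε ≤ σ / 2 := by
    refine ⟨min (min εT εB) (min (min εK ε0) (σ / 2)), ?_, ?_, ?_, ?_, ?_, ?_⟩
    · have : 0 < σ / 2 := by linarith
      positivity
    · exact (min_le_left _ _).trans (min_le_left _ _)
    · exact (min_le_left _ _).trans (min_le_right _ _)
    · exact (min_le_right _ _).trans ((min_le_left _ _).trans (min_le_left _ _))
    · exact (min_le_right _ _).trans ((min_le_left _ _).trans (min_le_right _ _))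
    · exact (min_le_right _ _).trans (min_le_right _ _)
  obtain ⟨c', δ, hc', hδ, hT1⟩ := hT (ε / 2) ρ (by linarith) (by linarith) hρ le_rfl
  obtain ⟨c, δ2, hc, hδ2, hT2⟩ := hT ε ρ hε h1 hρ le_rfl
  obtain ⟨χ, B, hχ, hB0, hB, h01, hone, hsup⟩ := tl_bump Y dm hε
  refine ⟨min δ σ, R0, c' * C0 * (C0 * (3 + 32 * (K * B) ^ 2) + 1) / c, lt_min hδ hσ, min_le_right _ _, hR0,
    by positivity, ?_⟩
  intro s hs m hm hm1 u hu hG hGq
  have hs1 : 1 ≤ s := hR0.trans hs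
  have hs0 : 0 < s := by linarith
  obtain ⟨-, hball, -, hint1⟩ := hT1 s hs0
  obtain ⟨hop, -, -, hint2⟩ := hT2 s hs0
  have hdet : ∀ y : Cfg dh, ‖y - s • Y‖ ≤ ε * s → (S.Dy φ 8 y).det ≠ 0 := fun y hy =>
    (hBd s y hs0 (hy.trans (mul_le_mul_of_nonneg_right h2 hs0.le))).1
  have hcut : ∀ (y : Cfg dh) (w : Wsp dm), ‖y - s • Y‖ < ε * s → ‖w‖ < ε * s →
      ∀ (χ : Cfg dh × Wsp dm → ℝ) (v : Cfg dh → Wsp dm → F), ContDiff ℝ ∞ χ → AN.Sm S φ v → ∀ β,
        ‖AN.Qs S φ β (fun y' w' => ((χ (y', w') : ℝ) : ℂ) • v y' w') y w -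
          ((χ (y, w) : ℝ) : ℂ) • AN.Qs S φ β v y w‖ ≤ K * ‖fderiv ℝ χ (y, w)‖ * ‖v y w‖ := fun y w hy hw =>
    hCut s y w hs0 (hy.trans_le (mul_le_mul_of_nonneg_right h3 hs0.le))
      (hw.trans_le (mul_le_mul_of_nonneg_right h3 hs0.le))
  have hr : AN.Sm S φ (S.res φ u) := (hin.gh dh dm φ hY.sub u hu.1).1
  obtain ⟨ht, hsu, hz⟩ := tl_tst2 S φ Y hs0 hε hχ hsup hdet hr
  set v : Cfg dh → Wsp dm → F := fun y w => ((χ (s⁻¹ • (y, w)) : ℝ) : ℂ) • S.res φ u y w with hv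
  have hle : ∀ p : Cfg dh × Wsp dm, ‖v p.1 p.2‖ ≤ ‖S.res φ u p.1 p.2‖ := by
    intro p
    rw [hv]
    simp only
    rw [norm_smul, Complex.norm_real, Real.norm_eq_abs, abs_of_nonneg (h01 _).1]
    exact mul_le_of_le_one_left (norm_nonneg _) (h01 _).2
  have hna := tl_ns2_le S φ Y (s := s) (ε := ε) hu ht (fun p hp => (hz p hp).eq_of_nhds) hle
  have hge := tl_ns2_ge S φ Y (s := s) (ε := ε / 2) (u := u) ht (by
    intro p hp
    have h1 : χ (s⁻¹ • (p.1, p.2)) = 1 :=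
      hone _ ((tl_scl_norm hs0 _ _ _).2 hp.1) ((tl_scl_norm0 hs0 _ _).2 hp.2)
    rw [hv]
    simp only
    rw [h1, Complex.ofReal_one, one_smul])
  have hO := hOut ε hε h4 s hs m hm.le hm1 v ht hsu
  have hES : S.ES φ N m v ≤
      2 * (∑ β, ∫ p in AN.Nb Y dm s ε, ‖S.res φ (qn S N m β u) p.1 p.2‖ ^ 2
        ∂((volume : Measure (Cfg dh)).prod (volume : Measure (Wsp dm)))) +
      16 * (2 * (K * (B * s⁻¹)) ^ 2 * ∫ p in AN.Nb Y dm s ε, ‖S.res φ u p.1 p.2‖ ^ 2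
        ∂((volume : Measure (Cfg dh)).prod (volume : Measure (Wsp dm)))) := by
    unfold Setup.ES
    refine (Finset.sum_le_sum fun β _ => tl_energy S hin.dec hin.frame φ Y hY.sub N m hs0 hε hK.le hχ hB h01 hsup
      hdet hcut hu hG hr β).trans (le_of_eq ?_)
    rw [Finset.sum_add_distrib, ← Finset.mul_sum]
    simp
  have hsub := tl_tube_shl S φ Y (ρ := ρ) hs0 hε (show 2 * ε ≤ σ by linarith)
  have hmas : ∀ f : Cfg d → F, Setup.Tst f → (∀ C x, S.G C f x = 0) →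
      c * (∫ p in AN.Nb Y dm s ε, ‖S.res φ f p.1 p.2‖ ^ 2
        ∂((volume : Measure (Cfg dh)).prod (volume : Measure (Wsp dm)))) ≤
      ∫ x in AD.shl d ((‖Y‖ - σ) * s) ((‖Y‖ + σ) * s), ‖f x‖ ^ 2 := by
    intro f hf hGf
    rw [← AN.nrm_int S φ Y s ε ρ c hc hint2 hf hGf]
    exact setIntegral_mono_set hf.norm_sq_int.integrableOn (Eventually.of_forall fun x => sq_nonneg _)
      (LE.le.eventuallyLE hsub)
  have hbE : c * (∑ β, ∫ p in AN.Nb Y dm s ε, ‖S.res φ (qn S N m β u) p.1 p.2‖ ^ 2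
        ∂((volume : Measure (Cfg dh)).prod (volume : Measure (Wsp dm)))) ≤
      ∑ β, ∫ x in AD.shl d ((‖Y‖ - σ) * s) ((‖Y‖ + σ) * s), ‖qn S N m β u x‖ ^ 2 := by
    rw [Finset.mul_sum]
    exact Finset.sum_le_sum fun β _ => hmas _ (tst_qn S N m β hu) (hGq β)
  have hX : AD.mas u (Metric.ball (s • emb φ Y 0) (min δ σ * s)) ≤ c' * ns2 v := by
    have e1 : AD.mas u (Metric.ball (s • emb φ Y 0) (min δ σ * s)) ≤ ∫ x in AN.Tube S φ Y s (ε / 2) ρ, ‖u x‖ ^ 2 := by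
      refine setIntegral_mono_set hu.norm_sq_int.integrableOn (Eventually.of_forall fun x => sq_nonneg _)
        (LE.le.eventuallyLE ?_)
      exact (Metric.ball_subset_ball (mul_le_mul_of_nonneg_right (min_le_left _ _) hs0.le)).trans hball
    refine e1.trans ?_
    rw [AN.nrm_int S φ Y s (ε / 2) ρ c' hc' hint1 hu hG]
    exact mul_le_mul_of_nonneg_left hge hc'.le
  refine tl_arith hc hc' hC0 hs1 hm hm1 hna (integral_nonneg fun p => sq_nonneg _) hX hO.1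
    (Finset.sum_nonneg fun β _ => integral_nonneg fun p => sq_nonneg _) (hO.2.2.2.2.2 hdm) hES (hmas u hu hG) hbE
    (Finset.sum_nonneg fun β _ => integral_nonneg fun p => sq_nonneg _)

end Vale.Agent.P353.Z.AT
end

section

/-! # P353, all `N`, block TW (helper554): TW1, reduction to the rotated frame -/

open MeasureTheory Filter Topology
open scoped ContDiff

namespace Vale.Agent.P353.Z.AT

variable {d dh dm : ℕ} {F : Type*} [NormedAddCommGroup F] [InnerProductSpace ℂ F]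

private lemma tr_contDiff_rox (R : Matrix (Fin 9) (Fin 9) ℝ) (O : Matrix (Fin d) (Fin d) ℝ) :
    ContDiff ℝ ∞ (rox R O : Cfg d → Cfg d) := by
  unfold rox
  rw [contDiff_euclidean]
  intro p
  show ContDiff ℝ ∞ fun x : Cfg d => ∑ j, ∑ B, R p.1 j * O p.2 B * x (j, B)
  refine ContDiff.sum fun j _ => ContDiff.sum fun B _ => ?_
  exact contDiff_const.mul (Setup.contDiff_coord _)

private lemma tr_gauge_Qm (S : Setup d F) (m : ℝ) {u : Cfg d → F} (hu : Setup.Tst u)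
    (hG : ∀ C x, S.G C u x = 0) (β : Fin 16) : ∀ C x, S.G C (S.Qm m β u) x = 0 := by
  intro C x
  rw [U.a3 S m C β u hu.1 x]
  have h3 : S.G C u = fun _ => 0 := funext fun z => hG C z
  rw [h3]
  exact U.HB.Qm_zero S m β x

/-- **TW1** -/
theorem tub1 (S : Setup d F) : TubStmt S := by
  intro hfd hrot hfr R hR O hO hin dh dm φ Y hY hdm hY0 σ hσ
  obtain ⟨hnorm, hmp, hinv, -, -, hQ, hG⟩ := hrot R hR O hO
  obtain ⟨hmass, hMM, hN⟩ := hfr
  obtain ⟨hmass', hMx⟩ := (hN (AN.N0 S)).1 R hR O hO hmass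
  have hR' : R.transpose * R.transpose.transpose = 1 := by
    rw [Matrix.transpose_transpose]; exact mul_eq_one_comm.1 hR
  have hO' : O.transpose * O.transpose.transpose = 1 := by
    rw [Matrix.transpose_transpose]; exact mul_eq_one_comm.1 hO
  have hinv' : ∀ z : Cfg d, rox R O (rox R.transpose O.transpose z) = z := by
    have h := (hrot R.transpose hR' O.transpose hO').2.2.1
    intro z
    have := h z
    rwa [Matrix.transpose_transpose, Matrix.transpose_transpose] at this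
  obtain ⟨δ, R₁, C, hδ, hδσ, hR₁, hC, hloc⟩ := tub_loc (S.rot R hR O hO) hfd hin φ Y hY hdm (AN.rotN R (AN.N0 S)) hmass' σ hσ
  refine ⟨δ, R₁, C, hδ, hδσ, hR₁, hC, ?_⟩
  intro s hs m hm hm1 u hu
  -- the rotated function
  set u' : Cfg d → F := fun z => u (rox R.transpose O.transpose z) with hu'
  have hcomp : ∀ x, u' (rox R O x) = u x := fun x => by
    show u (rox R.transpose O.transpose (rox R O x)) = u x
    rw [hinv]
  have hT' : Setup.Tst u' := by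
    refine ⟨hu.1.1.comp (tr_contDiff_rox _ _), ?_⟩
    let e : Cfg d ≃ₜ Cfg d :=
      { toFun := rox R.transpose O.transpose
        invFun := rox R O
        left_inv := hinv'
        right_inv := hinv
        continuous_toFun := (tr_contDiff_rox _ _).continuous
        continuous_invFun := (tr_contDiff_rox _ _).continuous }
    exact hu.1.2.comp_homeomorph e
  have hfun : (fun x => u' (rox R O x)) = u := funext hcomp
  have hG' : ∀ C z, (S.rot R hR O hO).G C u' z = 0 := by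
    intro C z
    rw [← hinv' z, hG u' (hT'.1.differentiable (by simp)), hfun]
    exact Finset.sum_eq_zero fun C' _ => by rw [hu.2, smul_zero]
  have hq : ∀ β x, qn (S.rot R hR O hO) (AN.rotN R (AN.N0 S)) m β u' (rox R O x) = S.Qm m β u x := by
    intro β x
    unfold qn Setup.Qm
    rw [hQ u' (hT'.1.differentiable (by simp)), hfun, hMx, hcomp, hMM]
  have hGq : ∀ β C z, (S.rot R hR O hO).G C (qn (S.rot R hR O hO) (AN.rotN R (AN.N0 S)) m β u') z = 0 := by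
    intro β C z
    rw [← hinv' z, hG _ ((tst_qn _ _ m β hT').1.differentiable (by simp))]
    refine Finset.sum_eq_zero fun C' _ => ?_
    have : (fun z => qn (S.rot R hR O hO) (AN.rotN R (AN.N0 S)) m β u' (rox R O z)) = S.Qm m β u := funext fun x => hq β x
    rw [this, tr_gauge_Qm S m hu.1 hu.2 β, smul_zero]
  have hmas : ∀ (f : Cfg d → F) (g : Cfg d → F), Continuous f → (∀ x, f (rox R O x) = g x) → ∀ A : Set (Cfg d),
      MeasurableSet A → ∫ x in A, ‖f x‖ ^ 2 = ∫ x in (rox R O) ⁻¹' A, ‖g x‖ ^ 2 := by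
    intro f g hf hfg A hA
    have h1 := hmp.restrict_preimage hA
    have h2 : ∫ y, ‖f y‖ ^ 2 ∂(Measure.map (rox R O) (volume.restrict ((rox R O) ⁻¹' A))) =
        ∫ x in (rox R O) ⁻¹' A, ‖f (rox R O x)‖ ^ 2 :=
      integral_map h1.measurable.aemeasurable (hf.norm.pow 2).aestronglyMeasurable
    rw [h1.map_eq] at h2
    rw [h2]
    simp only [hfg]
  have hshl : (rox R O) ⁻¹' (AD.shl d ((‖Y‖ - σ) * s) ((‖Y‖ + σ) * s)) =
      AD.shl d ((‖Y‖ - σ) * s) ((‖Y‖ + σ) * s) := by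
    ext x
    simp [AD.shl, hnorm]
  have hmshl : MeasurableSet (AD.shl d ((‖Y‖ - σ) * s) ((‖Y‖ + σ) * s)) :=
    ((isOpen_lt continuous_const continuous_norm).inter (isOpen_lt continuous_norm continuous_const)).measurableSet
  have h := hloc s hs m hm hm1 u' hT' hG' hGq
  have e1 : AD.mas u' (Metric.ball (s • emb φ Y 0) (δ * s)) =
      AD.mas u {x | rox R O x ∈ Metric.ball (s • emb φ Y 0) (δ * s)} :=
    hmas u' u hT'.1.continuous hcomp _ Metric.isOpen_ball.measurableSet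
  have e2 : AD.mas u' (AD.shl d ((‖Y‖ - σ) * s) ((‖Y‖ + σ) * s)) =
      AD.mas u (AD.shl d ((‖Y‖ - σ) * s) ((‖Y‖ + σ) * s)) := by
    have := hmas u' u hT'.1.continuous hcomp _ hmshl
    rw [hshl] at this
    exact this
  have e3 : (∑ β, ∫ x in AD.shl d ((‖Y‖ - σ) * s) ((‖Y‖ + σ) * s),
      ‖qn (S.rot R hR O hO) (AN.rotN R (AN.N0 S)) m β u' x‖ ^ 2) =
      enm S m u (AD.shl d ((‖Y‖ - σ) * s) ((‖Y‖ + σ) * s)) := by
    unfold enm
    refine Finset.sum_congr rfl fun β _ => ?_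
    have := hmas _ (S.Qm m β u) (tst_qn (S.rot R hR O hO) (AN.rotN R (AN.N0 S)) m β hT').1.continuous (hq β) _ hmshl
    rw [hshl] at this
    exact this
  rw [e1, e2, e3] at h
  exact h

end Vale.Agent.P353.Z.AT
end

section

/-! # P353, all `N`, block REP, R2: smooth approximation in the weighted norm -/

open MeasureTheory Filter Topology Set
open scoped ContDiff Manifold

namespace Vale.Agent.P353.AN.REP

open Vale.Agent.P353.Z Vale.Agent.P353.Z.U Vale.Agent.P353.Z.AN Vale.Agent.P353.AN.G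

variable {d dh dm r ds : ℕ} {F : Type*} [NormedAddCommGroup F] [InnerProductSpace ℂ F]

private theorem rx_Dz_cont (S : Setup d F) (φ : Spl dh dm d) (ψ : Spz r ds dh) (i : Fin 9) (B C : Fin dm) :
    Continuous fun η : Cfg r => Dz S φ ψ η i B C := by
  have h : (fun η : Cfg r => Dz S φ ψ η i B C) = fun η : Cfg r =>
      ∑ A, S.f (φ (Sum.inr B)) (φ (Sum.inl A)) (φ (Sum.inr C)) *
        Sum.elim (fun a => η (i, a)) (fun _ => (0 : ℝ)) (ψ.symm A) := by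
    funext η
    simp [Dz, Setup.Dy, Setup.Dm, Vale.Agent.P353.Z.AN.cmb, Matrix.of_apply]
  rw [h]
  refine continuous_finsetSum _ fun A _ => continuous_const.mul ?_
  rcases ψ.symm A with a | b
  · simp only [Sum.elim_inl]; fun_prop
  · simp only [Sum.elim_inr]; fun_prop

theorem rx_isOpen_Reg (S : Setup d F) (φ : Spl dh dm d) (ψ : Spz r ds dh) : IsOpen (Reg S φ ψ) := by
  have h : Reg S φ ψ = {η | (∑ i, (Dz S φ ψ η i).transpose * Dz S φ ψ η i).det ≠ 0} := by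
    ext η
    simp only [Reg, mem_ofPred_eq]
    constructor
    · intro hη h0
      obtain ⟨v, hv, hv0⟩ := Matrix.exists_mulVec_eq_zero_iff.2 h0
      refine hv (hη v fun i => ?_)
      have h1 : v ⬝ᵥ ((∑ i, (Dz S φ ψ η i).transpose * Dz S φ ψ η i).mulVec v) = 0 := by rw [hv0]; simp
      rw [Matrix.sum_mulVec, dotProduct_sum] at h1
      have h2 : ∀ i, v ⬝ᵥ (((Dz S φ ψ η i).transpose * Dz S φ ψ η i).mulVec v) =
          ((Dz S φ ψ η i).mulVec v) ⬝ᵥ ((Dz S φ ψ η i).mulVec v) := by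
        intro i
        rw [← Matrix.mulVec_mulVec, Matrix.dotProduct_mulVec, Matrix.vecMul_transpose]
      simp only [h2] at h1
      have h3 := (Finset.sum_eq_zero_iff_of_nonneg (fun i _ => by
        rw [dotProduct]; exact Finset.sum_nonneg fun j _ => mul_self_nonneg _)).1 h1 i (Finset.mem_univ _)
      exact dotProduct_self_eq_zero.1 h3
    · intro h0 x hx
      by_contra hne
      refine h0 (Matrix.exists_mulVec_eq_zero_iff.1 ⟨x, hne, ?_⟩)
      rw [Matrix.sum_mulVec]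
      refine Finset.sum_eq_zero fun i _ => ?_
      rw [← Matrix.mulVec_mulVec, hx i]; simp
  rw [h]
  refine isOpen_ne_fun ?_ continuous_const
  refine Continuous.matrix_det ?_
  refine continuous_finsetSum _ fun i _ => ?_
  have hc : Continuous fun η : Cfg r => Dz S φ ψ η i :=
    continuous_matrix fun B C => rx_Dz_cont S φ ψ i B C
  exact hc.matrix_transpose.matrix_mul hc

theorem rx_lf (r ds dm : ℕ) : IsLocallyFiniteMeasure (wM r ds dm) := by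
  unfold wM
  refine IsLocallyFiniteMeasure.withDensity_ofReal ?_
  fun_prop

/-- approximation with prescribed compact `η`-support `L` -/
theorem apx_in (S : Setup d F) (φ : Spl dh dm d) (ψ : Spz r ds dh) (K L : Set (Cfg r)) (hK : IsCompact K)
    (hL : IsCompact L) (hKL : K ⊆ interior L) (hLR : L ⊆ Reg S φ ψ) (f : Cfg r × Cfg ds × Cfg dm → F)
    (hf : MemLp f 2 (wM r ds dm)) (hsup : ∀ q, f q ≠ 0 → q.1 ∈ K) (ε : ℝ) (hε : 0 < ε) :
    ∃ b, IsB S φ ψ b ∧ (∀ q ∈ tsupport b, q.1 ∈ L) ∧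
      eLpNorm (fun q => b q - f q) 2 (wM r ds dm) ≤ ENNReal.ofReal ε := by
  have := rx_lf r ds dm
  obtain ⟨χ, hχ0, hχ1, hχ⟩ := exists_contMDiffMap_zero_one_of_isClosed (n := ⊤) 𝓘(ℝ, Cfg r)
    (isOpen_interior (s := L)).isClosed_compl hK.isClosed
    (disjoint_left.2 fun x hx hx' => hx (hKL hx'))
  obtain ⟨g, hg1, hg2, hg3⟩ := hf.exist_eLpNorm_sub_le (by norm_num) (by norm_num) hε
  have hχs : ContDiff ℝ ∞ (χ : Cfg r → ℝ) := χ.contMDiff.contDiff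
  have hts : ∀ q ∈ tsupport (fun q : Cfg r × Cfg ds × Cfg dm => χ q.1 • g q), q.1 ∈ L := by
    intro q hq
    have h1 : q ∈ (fun q : Cfg r × Cfg ds × Cfg dm => q.1) ⁻¹' L := by
      refine closure_minimal ?_ (hL.isClosed.preimage continuous_fst) hq
      intro p hp
      by_contra hpL
      apply hp
      have hn : p.1 ∉ interior L := fun h => hpL (interior_subset (s := L) h)
      have : χ p.1 = 0 := hχ0 hn
      simp [this]
    exact h1
  refine ⟨fun q => χ q.1 • g q, ⟨?_, ?_, fun q hq => hLR (hts q hq)⟩, hts, ?_⟩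
  · exact (hχs.comp contDiff_fst).smul hg2
  · exact hg1.smul_left
  · refine le_trans (eLpNorm_mono (g := f - g) fun q => ?_) hg3
    have h1 : χ q.1 • f q = f q := by
      by_cases h : f q = 0
      · simp [h]
      · rw [show χ q.1 = 1 from hχ1 (hsup q h), one_smul]
    have h2 : χ q.1 • g q - f q = χ q.1 • (g q - f q) := by rw [smul_sub, h1]
    rw [h2, norm_smul, Pi.sub_apply, norm_sub_rev (f q)]
    refine mul_le_of_le_one_left (norm_nonneg _) ?_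
    rw [Real.norm_eq_abs, abs_le]
    exact ⟨by linarith [(hχ q.1).1], (hχ q.1).2⟩

theorem apx_stmt (S : Setup d F) : ApxStmt S := by
  intro dh dm r ds φ ψ K hK hKR f hf hsup ε hε
  obtain ⟨L, hL, hKL, hLR⟩ := exists_compact_between hK (rx_isOpen_Reg S φ ψ) hKR
  obtain ⟨b, h1, _, h3⟩ := apx_in S φ ψ K L hK hL hKL hLR f hf hsup ε hε
  exact ⟨b, h1, h3⟩

end Vale.Agent.P353.AN.REP
end

section

/-! # P353, all `N`, block REP, R4: the estimate (helper7) -/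

open MeasureTheory Filter Topology Set
open scoped ContDiff Manifold ENNReal

namespace Vale.Agent.P353.AN.REP

open Vale.Agent.P353.Z Vale.Agent.P353.Z.U Vale.Agent.P353.Z.AN Vale.Agent.P353.AN.G

variable {d dh dm r ds : ℕ} {F : Type*} [NormedAddCommGroup F] [InnerProductSpace ℂ F]

/-- R2 with control of the `η`-support -/
lemma one_apx (S : Setup d F) (hA : ApxStmt S) (φ : Spl dh dm d) (ψ : Spz r ds dh) {K : Set (Cfg r)}
    (hK : IsCompact K) (hKR : K ⊆ Reg S φ ψ) : ∃ L : Set (Cfg r), IsCompact L ∧ K ⊆ L ∧ L ⊆ Reg S φ ψ ∧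
    ∀ f : Cfg r × Cfg ds × Cfg dm → F, MemLp f 2 (wM r ds dm) → (∀ q, f q ≠ 0 → q.1 ∈ K) →
    ∀ ε : ℝ, 0 < ε → ∃ b, IsB S φ ψ b ∧ (∀ q, b q ≠ 0 → q.1 ∈ L) ∧
      eLpNorm (fun q => b q - f q) 2 (wM r ds dm) ≤ ENNReal.ofReal ε := by
  obtain ⟨L, hL, hKL, hLR⟩ := exists_compact_between hK (rx_isOpen_Reg S φ ψ) hKR
  obtain ⟨χ, hχ0, hχ1, hχ⟩ := exists_contMDiffMap_zero_one_of_isClosed (n := ⊤) 𝓘(ℝ, Cfg r)
    (isOpen_interior (s := L)).isClosed_compl hK.isClosed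
    (disjoint_left.2 fun x hx hx' => hx (hKL hx'))
  have hχs : ContDiff ℝ ∞ (χ : Cfg r → ℝ) := χ.contMDiff.contDiff
  refine ⟨L, hL, hKL.trans interior_subset, hLR, fun f hf hsup ε hε => ?_⟩
  obtain ⟨g, hg, hg3⟩ := hA dh dm r ds φ ψ K hK hKR f hf hsup ε hε
  have hsupp : ∀ q : Cfg r × Cfg ds × Cfg dm, χ q.1 • g q ≠ 0 → q.1 ∈ L := by
    intro p hp
    by_contra hpL
    apply hp
    have hn : p.1 ∉ interior L := fun h => hpL (interior_subset (s := L) h)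
    have : χ p.1 = 0 := hχ0 hn
    simp [this]
  refine ⟨fun q => χ q.1 • g q, ⟨?_, ?_, ?_⟩, hsupp, ?_⟩
  · exact (hχs.comp contDiff_fst).smul hg.sm
  · exact hg.cs.smul_left
  · intro q hq
    have h1 : q ∈ (fun q : Cfg r × Cfg ds × Cfg dm => q.1) ⁻¹' L :=
      closure_minimal (fun p hp => hsupp p hp) (hL.isClosed.preimage continuous_fst) hq
    exact hLR h1
  · refine le_trans (eLpNorm_mono (g := fun q => g q - f q) fun q => ?_) hg3
    have h1 : χ q.1 • f q = f q := by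
      by_cases h : f q = 0
      · simp [h]
      · rw [show χ q.1 = 1 from hχ1 (hsup q h), one_smul]
    have h2 : χ q.1 • g q - f q = χ q.1 • (g q - f q) := by rw [smul_sub, h1]
    rw [h2, norm_smul]
    refine mul_le_of_le_one_left (norm_nonneg _) ?_
    rw [Real.norm_eq_abs, abs_le]
    exact ⟨by linarith [(hχ q.1).1], (hχ q.1).2⟩

/-- `‖(1 - χ_R) f‖ → 0` -/
lemma one_dct {χ : ℝ → Cfg r × Cfg ds × Cfg dm → ℝ} (hχ : IsCo χ) {f : Cfg r × Cfg ds × Cfg dm → F}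
    (hf : StronglyMeasurable f) (hf2 : MemLp f 2 (wM r ds dm)) {ε : ℝ} (hε : 0 < ε) :
    ∀ᶠ R in atTop, eLpNorm (fun q => f q - ((χ R q : ℝ) : ℂ) • f q) 2 (wM r ds dm) ≤ ENNReal.ofReal ε := by
  have hlim : Tendsto (fun R => ∫⁻ q, ‖f q - ((χ R q : ℝ) : ℂ) • f q‖ₑ ^ 2 ∂(wM r ds dm)) atTop (𝓝 (∫⁻ _, 0 ∂(wM r ds dm))) := by
    refine tendsto_lintegral_filter_of_dominated_convergence (fun q => ‖f q‖ₑ ^ 2) ?_ ?_ ?_ ?_
    · refine Eventually.of_forall fun R => ?_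
      have h1 : StronglyMeasurable fun q => ((χ R q : ℝ) : ℂ) • f q :=
        (Complex.measurable_ofReal.comp (hχ.meas R)).stronglyMeasurable.smul hf
      exact (hf.sub h1).enorm.pow_const 2
    · refine Eventually.of_forall fun R => ae_of_all _ fun q => ?_
      have h1 : f q - ((χ R q : ℝ) : ℂ) • f q = ((1 - χ R q : ℝ) : ℂ) • f q := by
        push_cast
        rw [sub_smul, one_smul]
      rw [h1, enorm_smul]
      have h2 : ‖((1 - χ R q : ℝ) : ℂ)‖ₑ ≤ 1 := by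
        rw [← ofReal_norm, Complex.norm_real, Real.norm_eq_abs, ← ENNReal.ofReal_one]
        refine ENNReal.ofReal_le_ofReal ?_
        rw [abs_le]
        constructor <;> linarith [(hχ.bd R q).1, (hχ.bd R q).2]
      calc (‖((1 - χ R q : ℝ) : ℂ)‖ₑ * ‖f q‖ₑ) ^ 2 ≤ (1 * ‖f q‖ₑ) ^ 2 := pow_le_pow_left' (mul_le_mul' h2 le_rfl) 2
        _ = _ := by rw [one_mul]
    · rw [glu_sq]
      exact ENNReal.pow_ne_top hf2.2.ne
    · refine ae_of_all _ fun q => ?_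
      have h1 : Tendsto (fun R => f q - ((χ R q : ℝ) : ℂ) • f q) atTop (𝓝 (f q - ((1 : ℝ) : ℂ) • f q)) :=
        tendsto_const_nhds.sub (((Complex.continuous_ofReal.tendsto _).comp (hχ.lim q)).smul_const _)
      rw [Complex.ofReal_one, one_smul, sub_self] at h1
      have h2 := (ENNReal.Tendsto.pow (n := 2) h1.enorm)
      simpa using h2
  rw [lintegral_zero] at hlim
  have h2 : (0 : ℝ≥0∞) < ENNReal.ofReal ε ^ 2 := ENNReal.pow_pos (ENNReal.ofReal_pos.2 hε) 2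
  filter_upwards [hlim.eventually (gt_mem_nhds h2)] with R hR
  exact glu_le_of_sq hR.le

/-- the estimate of R4 -/
theorem one_est (S : Setup d F) (hG : GluKStmt S) (hA : ApxStmt S) (hW : WnStmt S) (hF : FiniteDimensional ℂ F)
    (φ : Spl dh dm d) (ψ : Spz r ds dh) (hs : S.IsSub φ) (hZ : IsZ S φ ψ) (Om : Cfg r → Matrix (Fin dm) (Fin dm) ℝ)
    (hOc : ContinuousOn Om (Reg S φ ψ)) (hO : ∀ η ∈ Reg S φ ψ, IsOm S.κ (Dz S φ ψ η) (Om η))
    (χ : ℝ → Cfg r × Cfg ds × Cfg dm → ℝ) (hχ : IsCo χ) (a : Cfg r → Cfg ds → F) (K : Set (Cfg r)) (hK : IsCompact K)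
    (hKR : K ⊆ Reg S φ ψ) (ha : StronglyMeasurable (fun q : Cfg r × Cfg ds => a q.1 q.2))
    (ha2 : MemLp (fun q : Cfg r × Cfg ds => a q.1 q.2) 2 (volume.prod volume)) (hak : ∀ η s, a η s ≠ 0 → η ∈ K)
    (ε : ℝ) (hε : 0 < ε) :
    ∃ b : Cfg r × Cfg ds × Cfg dm → F, IsB S φ ψ b ∧
    eLpNorm (fun q => b q - bG S.κ Om a q) 2 (wM r ds dm) ≤ ENNReal.ofReal ε ∧
    ∀ (R : ℕ → ℝ) (u : ℕ → Cfg d → F) (A : ℝ), BdL S R u A → ∀ᶠ n in atTop,
      ‖ipr (Zb φ ψ b (R n)) (u n) -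
        ipr (Zb φ ψ (fun q => ((χ (R n) q : ℝ) : ℂ) • bG S.κ Om a q) (R n)) (u n)‖ ≤ ε * Real.sqrt A := by
  obtain ⟨Cw, hCw, hW'⟩ := hW dh dm r ds φ ψ K Om hK (hOc.mono hKR) (fun η hη => hO η (hKR hη))
  obtain ⟨hgs, hgn⟩ := hW' a ha hak
  have hg2 : MemLp (bG S.κ Om a : Cfg r × Cfg ds × Cfg dm → F) 2 (wM r ds dm) :=
    ⟨hgs.aestronglyMeasurable, lt_of_le_of_lt hgn (ENNReal.mul_lt_top ENNReal.ofReal_lt_top ha2.2)⟩
  have hgk : ∀ q : Cfg r × Cfg ds × Cfg dm, bG S.κ Om a q ≠ 0 → q.1 ∈ K := by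
    intro q hq
    exact hak _ _ (right_ne_zero_of_smul hq)
  obtain ⟨L, hL, hKL, hLR, hap⟩ := one_apx S hA φ ψ hK hKR
  obtain ⟨δ, C, R₁, hδ, hC, hR₁, hB⟩ := hG hF dh dm r ds φ ψ L hs hZ hL hLR
  obtain ⟨ε', hε'⟩ : ∃ ε', ε' = min ε (ε / (2 * C)) := ⟨_, rfl⟩
  have hε0 : 0 < ε' := by rw [hε']; exact lt_min hε (by positivity)
  have hε1 : ε' ≤ ε := by rw [hε']; exact min_le_left _ _
  have hε2 : C * (2 * ε') ≤ ε := by
    have : ε' ≤ ε / (2 * C) := by rw [hε']; exact min_le_right _ _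
    rw [le_div_iff₀ (by positivity)] at this
    linarith
  obtain ⟨b, hb, hbL, hbn⟩ := hap _ hg2 hgk ε' hε0
  refine ⟨b, hb, hbn.trans (ENNReal.ofReal_le_ofReal hε1), fun R u A hu => ?_⟩
  have := rx_lf r ds dm
  have hbc : Continuous b := hb.sm.continuous
  have hb2 : MemLp b 2 (wM r ds dm) := hbc.memLp_of_hasCompactSupport hb.cs
  obtain ⟨M, hM⟩ := hb.cs.isCompact.isBounded.subset_closedBall (0 : Cfg r × Cfg ds × Cfg dm)
  have hM' : ∀ q, b q ≠ 0 → ‖q.2.1‖ ≤ M ∧ ‖q.2.2‖ ≤ M := by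
    intro q hq
    have h1 := hM (subset_tsupport _ hq)
    rw [mem_closedBall_zero_iff] at h1
    have h2 : ‖q.2‖ ≤ ‖q‖ := norm_snd_le q
    exact ⟨((norm_fst_le q.2).trans h2).trans h1, ((norm_snd_le q.2).trans h2).trans h1⟩
  have hA0 : 0 ≤ A := (nsq_nonneg (u 0)).trans (hu.norm 0)
  -- eventually
  have e1 : ∀ᶠ R in atTop, M ≤ δ * R := by
    filter_upwards [eventually_ge_atTop (M / δ)] with R hR
    rw [div_le_iff₀ hδ] at hR
    linarith
  have hall : ∀ᶠ R in atTop, R₁ ≤ R ∧ 1 ≤ R ∧ M ≤ δ * R ∧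
      (∀ q, χ R q ≠ 0 → ‖q.2.1‖ ≤ δ * R ∧ ‖q.2.2‖ ≤ δ * (R * Real.sqrt R)) ∧
      eLpNorm (fun q => bG S.κ Om a q - ((χ R q : ℝ) : ℂ) • bG S.κ Om a q) 2 (wM r ds dm) ≤ ENNReal.ofReal ε' := by
    filter_upwards [eventually_ge_atTop R₁, eventually_ge_atTop 1, e1, hχ.sup δ hδ, one_dct hχ hgs hg2 hε0]
      with R h1 h2 h3 h4 h5
    exact ⟨h1, h2, h3, h4, h5⟩
  filter_upwards [hu.R_lim.eventually hall] with n hn
  obtain ⟨hr1, hr2, hr3, hr4, hr5⟩ := hn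
  obtain ⟨ρ, hρ⟩ : ∃ ρ, ρ = R n := ⟨_, rfl⟩
  obtain ⟨v, hv⟩ : ∃ v, v = u n := ⟨_, rfl⟩
  have hui := hu.inv n
  have hun := hu.norm n
  rw [← hρ] at hr1 hr2 hr3 hr4 hr5 ⊢
  rw [← hv] at hui hun ⊢
  have hρ0 : 0 < ρ := by linarith
  have hcs : StronglyMeasurable fun q => ((χ ρ q : ℝ) : ℂ) • bG S.κ Om a q :=
    (Complex.measurable_ofReal.comp (hχ.meas ρ)).stronglyMeasurable.smul hgs
  have hc2 : MemLp (fun q => ((χ ρ q : ℝ) : ℂ) • bG S.κ Om a q) 2 (wM r ds dm) := by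
    refine hg2.mono hcs.aestronglyMeasurable (ae_of_all _ fun q => ?_)
    rw [norm_smul, Complex.norm_real, Real.norm_of_nonneg (hχ.bd ρ q).1]
    exact mul_le_of_le_one_left (norm_nonneg _) (hχ.bd ρ q).2
  have hDs : StronglyMeasurable fun q => b q - ((χ ρ q : ℝ) : ℂ) • bG S.κ Om a q := hbc.stronglyMeasurable.sub hcs
  have hD2 : MemLp (fun q => b q - ((χ ρ q : ℝ) : ℂ) • bG S.κ Om a q) 2 (wM r ds dm) := hb2.sub hc2
  have hMs : M ≤ δ * (ρ * Real.sqrt ρ) := by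
    refine hr3.trans (mul_le_mul_of_nonneg_left ?_ hδ.le)
    have : 1 ≤ Real.sqrt ρ := Real.one_le_sqrt.2 hr2
    nlinarith
  have hest := hB ρ hr1 (fun q => b q - ((χ ρ q : ℝ) : ℂ) • bG S.κ Om a q) hDs (fun q hq => by
    by_cases h : b q = 0
    · have h2 : ((χ ρ q : ℝ) : ℂ) • bG S.κ Om a q ≠ 0 := by
        intro h3
        apply hq
        rw [h, h3, sub_zero]
      have h4 : χ ρ q ≠ 0 := by
        intro h5
        apply h2
        rw [h5, Complex.ofReal_zero, zero_smul]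
      exact ⟨hKL (hgk q (right_ne_zero_of_smul h2)), hr4 q h4⟩
    · exact ⟨hbL q h, (hM' q h).1.trans hr3, (hM' q h).2.trans hMs⟩) hD2 v hui.1 hui.2
  have hlin : ipr (Zb φ ψ b ρ) v - ipr (Zb φ ψ (fun q => ((χ ρ q : ℝ) : ℂ) • bG S.κ Om a q) ρ) v =
      ∫ x, inner ℂ (Zb φ ψ (fun q => b q - ((χ ρ q : ℝ) : ℂ) • bG S.κ Om a q) ρ x) (v x) := by
    have i1 : Integrable (fun x => inner ℂ (Zb φ ψ b ρ x) (v x)) :=
      glu_int (glu_memLp φ ψ ρ hρ0 (hb2.mono_measure (glu_w_le r ds dm))) hui.1.memLp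
    have i2 : Integrable (fun x => inner ℂ (Zb φ ψ (fun q => ((χ ρ q : ℝ) : ℂ) • bG S.κ Om a q) ρ x) (v x)) :=
      glu_int (glu_memLp φ ψ ρ hρ0 (hc2.mono_measure (glu_w_le r ds dm))) hui.1.memLp
    unfold ipr
    rw [← integral_sub i1 i2]
    refine integral_congr_ae (ae_of_all _ fun x => ?_)
    simp only
    rw [← inner_sub_left]
    congr 1
    unfold Zb
    rw [← smul_sub]
  have hnorm : eLpNorm (fun q => b q - ((χ ρ q : ℝ) : ℂ) • bG S.κ Om a q) 2 (wM r ds dm) ≤ ENNReal.ofReal (2 * ε') := by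
    have h1 : (fun q => b q - ((χ ρ q : ℝ) : ℂ) • bG S.κ Om a q) =
        (fun q => b q - bG S.κ Om a q) + fun q => bG S.κ Om a q - ((χ ρ q : ℝ) : ℂ) • bG S.κ Om a q := by
      funext q
      simp only [Pi.add_apply]
      abel
    rw [h1]
    refine (eLpNorm_add_le (hbc.stronglyMeasurable.sub hgs).aestronglyMeasurable
      (hgs.sub hcs).aestronglyMeasurable (by norm_num)).trans ?_
    rw [two_mul, ENNReal.ofReal_add hε0.le hε0.le]
    exact add_le_add hbn hr5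
  have hvn : eLpNorm v 2 volume ≤ ENNReal.ofReal (Real.sqrt A) := by
    refine glu_le_of_sq ?_
    rw [glu_sq, ← glu_real_sq hui.1.memLp, ← ENNReal.ofReal_pow (Real.sqrt_nonneg _), Real.sq_sqrt hA0]
    exact ENNReal.ofReal_le_ofReal hun
  rw [hlin]
  have hfin : ‖∫ x, inner ℂ (Zb φ ψ (fun q => b q - ((χ ρ q : ℝ) : ℂ) • bG S.κ Om a q) ρ x) (v x)‖ₑ ≤
      ENNReal.ofReal (ε * Real.sqrt A) := by
    refine hest.trans ((mul_le_mul' (mul_le_mul' le_rfl hnorm) hvn).trans ?_)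
    rw [← ENNReal.ofReal_mul hC.le, ← ENNReal.ofReal_mul (by positivity)]
    exact ENNReal.ofReal_le_ofReal (mul_le_mul_of_nonneg_right hε2 (Real.sqrt_nonneg _))
  rw [← ofReal_norm, ENNReal.ofReal_le_ofReal_iff (by positivity)] at hfin
  exact hfin

end Vale.Agent.P353.AN.REP
end

section

/-! # P353, all `N`, block REP, R4 (first part): smoothness, gauge invariance and support of the averaged functionals -/

open MeasureTheory Filter Topology
open scoped ContDiff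

namespace Vale.Agent.P353.AN.REP

open Vale.Agent.P353.Z Vale.Agent.P353.Z.U Vale.Agent.P353.Z.AN Vale.Agent.P353.AN.G

variable {N d dh dm r ds : ℕ} {F : Type*} [NormedAddCommGroup F] [InnerProductSpace ℂ F]

theorem ob_hz (φ : Spl dh dm d) (ψ : Spz r ds dh) : ContDiff ℝ ∞ fun x : Cfg d => hz ψ (zy φ x) := by
  rw [contDiff_euclidean]
  intro p
  simp only [hz, zy]
  fun_prop

theorem ob_hs (φ : Spl dh dm d) (ψ : Spz r ds dh) : ContDiff ℝ ∞ fun x : Cfg d => hs ψ (zy φ x) := by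
  rw [contDiff_euclidean]
  intro p
  simp only [hs, zy]
  fun_prop

theorem ob_pm (φ : Spl dh dm d) : ContDiff ℝ ∞ fun x : Cfg d => pm φ x := by
  rw [contDiff_euclidean]
  intro p
  simp only [pm]
  fun_prop

theorem ob_tst (φ : Spl dh dm d) (ψ : Spz r ds dh) (b : Cfg r × Cfg ds × Cfg dm → F) (h1 : ContDiff ℝ ∞ b)
    (h2 : HasCompactSupport b) (R : ℝ) (hR : 0 < R) : Setup.Tst (Zb φ ψ b R) := by
  refine ⟨?_, ?_⟩
  · unfold Zb
    refine contDiff_const.smul (h1.comp ?_)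
    exact ((ob_hz φ ψ).const_smul R⁻¹).prodMk ((ob_hs φ ψ).prodMk ((ob_pm φ).const_smul (Real.sqrt R)))
  · obtain ⟨L, hL⟩ := h2.isCompact.isBounded.exists_norm_le
    have hs0 : 0 < Real.sqrt R := Real.sqrt_pos.2 hR
    refine HasCompactSupport.of_support_subset_isCompact
      (isCompact_closedBall (0 : Cfg d) (Real.sqrt ((R * L) ^ 2 + L ^ 2 + ((Real.sqrt R)⁻¹ * L) ^ 2))) ?_
    intro x hx
    have hbx : b (R⁻¹ • hz ψ (zy φ x), hs ψ (zy φ x), Real.sqrt R • pm φ x) ≠ 0 := by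
      intro h0
      apply hx
      simp [Zb, h0]
    have h3 := hL _ (subset_tsupport _ hbx)
    have h4 : ‖R⁻¹ • hz ψ (zy φ x)‖ ≤ L := (norm_fst_le _).trans h3
    have h5 : ‖hs ψ (zy φ x)‖ ≤ L := ((norm_fst_le _).trans (norm_snd_le _)).trans h3
    have h6 : ‖Real.sqrt R • pm φ x‖ ≤ L := ((norm_snd_le _).trans (norm_snd_le _)).trans h3
    rw [norm_smul, Real.norm_eq_abs, abs_of_pos (by positivity)] at h4 h6
    have h4' : ‖hz ψ (zy φ x)‖ ≤ R * L := by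
      calc ‖hz ψ (zy φ x)‖ = R * (R⁻¹ * ‖hz ψ (zy φ x)‖) := by field_simp
        _ ≤ R * L := mul_le_mul_of_nonneg_left h4 hR.le
    have h6' : ‖pm φ x‖ ≤ (Real.sqrt R)⁻¹ * L := by
      calc ‖pm φ x‖ = (Real.sqrt R)⁻¹ * (Real.sqrt R * ‖pm φ x‖) := by field_simp
        _ ≤ (Real.sqrt R)⁻¹ * L := mul_le_mul_of_nonneg_left h6 (by positivity)
    rw [mem_closedBall_zero_iff]
    refine Real.le_sqrt_of_sq_le ?_
    rw [sup_norm_sq φ ψ x]
    gcongr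

theorem ob_zero (S : Setup d F) (φ : Spl dh dm d) (ψ : Spz r ds dh) (hdm : 0 < dm) : (0 : Cfg r) ∉ Reg S φ ψ := by
  intro h
  have h1 : ∀ i, Dz S φ ψ 0 i = 0 := by
    intro i
    ext B C
    have h2 : (Vale.Agent.P353.Z.AN.cmb ψ (0 : Cfg r) (0 : Cfg ds)) = 0 := by
      ext p
      simp only [Vale.Agent.P353.Z.AN.cmb, PiLp.zero_apply]
      rcases ψ.symm p.2 with a | a <;> simp
    simp [Dz, Setup.Dy, Setup.Dm, h2]
  have h2 := h (fun _ => 1) fun i => by rw [h1 i]; simp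
  have h3 := congrFun h2 ⟨0, hdm⟩
  simp at h3

theorem ob_supp (S : Setup d F) (φ : Spl dh dm d) (ψ : Spz r ds dh) (hdm : 0 < dm)
    (b : Cfg r × Cfg ds × Cfg dm → F) (hb : IsB S φ ψ b) :
    ∃ c : ℝ, 0 < c ∧ ∀ R : ℝ, 0 < R → ∀ x : Cfg d, ‖x‖ ≤ c * R → Zb φ ψ b R x = 0 := by
  have hK : IsCompact (Prod.fst '' tsupport b) := hb.cs.isCompact.image continuous_fst
  have h0 : (0 : Cfg r) ∈ (Prod.fst '' tsupport b)ᶜ := by
    rintro ⟨q, hq, hq0⟩
    exact ob_zero S φ ψ hdm (hq0 ▸ hb.reg q hq)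
  obtain ⟨c, hc, hball⟩ := Metric.isOpen_iff.1 hK.isClosed.isOpen_compl 0 h0
  refine ⟨c / 2, by positivity, fun R hR x hx => ?_⟩
  by_contra hne
  have hbx : b (R⁻¹ • hz ψ (zy φ x), hs ψ (zy φ x), Real.sqrt R • pm φ x) ≠ 0 := by
    intro h0
    apply hne
    simp [Zb, h0]
  have h1 : R⁻¹ • hz ψ (zy φ x) ∈ Prod.fst '' tsupport b := ⟨_, subset_tsupport _ hbx, rfl⟩
  have h2 : R⁻¹ • hz ψ (zy φ x) ∉ Metric.ball (0 : Cfg r) c := fun h => hball h h1
  apply h2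
  rw [mem_ball_zero_iff, norm_smul, Real.norm_eq_abs, abs_of_pos (inv_pos.2 hR)]
  have h3 : ‖hz ψ (zy φ x)‖ ≤ ‖x‖ := by
    refine abs_le_of_sq_le_sq' ?_ (norm_nonneg _) |>.2
    rw [sup_norm_sq φ ψ x]
    nlinarith [sq_nonneg ‖hs ψ (zy φ x)‖, sq_nonneg ‖pm φ x‖]
  calc R⁻¹ * ‖hz ψ (zy φ x)‖ ≤ R⁻¹ * (c / 2 * R) := mul_le_mul_of_nonneg_left (h3.trans hx) (by positivity)
    _ = c / 2 := by field_simp
    _ < c := by linarith

theorem one_b (M : BFSS.Model N d F) (hI : IprStmt M) (hF : FiniteDimensional ℂ F) (S : Setup d F) (hM : Rep M S)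
    (φ : Spl dh dm d) (ψ : Spz r ds dh) (hdm : 0 < dm) (b : Cfg r × Cfg ds × Cfg dm → F) (hb : IsB S φ ψ b) :
    (∀ R : ℝ, 0 < R → Setup.Tst (Zb φ ψ b R)) ∧ (∀ R : ℝ, 0 < R → S.GInv (avg M (Zb φ ψ b R))) ∧
    (∃ c : ℝ, 0 < c ∧ ∀ᶠ R in atTop, ∀ x : Cfg d, ‖x‖ ≤ c * R → avg M (Zb φ ψ b R) x = 0) := by
  have ht : ∀ R : ℝ, 0 < R → Setup.Tst (Zb φ ψ b R) := fun R hR => ob_tst φ ψ b hb.sm hb.cs R hR
  refine ⟨ht, fun R hR => (hI hF S hM _ (ht R hR)).1, ?_⟩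
  obtain ⟨c, hc, h⟩ := ob_supp S φ ψ hdm b hb
  refine ⟨c, hc, (eventually_gt_atTop 0).mono fun R hR x hx => ?_⟩
  unfold avg
  have h1 : ∀ U : BFSS.SU N, M.S U (Zb φ ψ b R (M.act U⁻¹ x)) = 0 := by
    intro U
    rw [h R hR (M.act U⁻¹ x) (by rw [(act_stmt M).2.2.2.2.1 U⁻¹ x]; exact hx), map_zero]
  simp [h1]

end Vale.Agent.P353.AN.REP
end

section

/-! # P353, all `N`, block REP, R4 OneStmt: representatives of one type (helper7, helper632) -/

open MeasureTheory Filter Topology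
open scoped ContDiff

namespace Vale.Agent.P353.AN.REP

open Vale.Agent.P353.Z Vale.Agent.P353.Z.U Vale.Agent.P353.Z.AN Vale.Agent.P353.AN.G

variable {N d : ℕ} {F : Type*} [NormedAddCommGroup F] [InnerProductSpace ℂ F]

/-- **R4** -/
theorem one_stmt (M : BFSS.Model N d F) (h : ∀ S : Setup d F, GluKStmt S ∧ ApxStmt S ∧ WnStmt S) (hI : IprStmt M) :
    OneStmt M := by
  intro hF S hM dh dm r ds φ ψ hs hZ hdm Om hOc hO χ hχ a K hK hKR ha ha2 hak ε hε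
  obtain ⟨hG, hA, hW⟩ := h S
  obtain ⟨b, hb, hbn, hest⟩ := one_est S hG hA hW hF φ ψ hs hZ Om hOc hO χ hχ a K hK hKR ha ha2 hak ε hε
  obtain ⟨t1, t2, t3⟩ := one_b M hI hF S hM φ ψ hdm b hb
  refine ⟨b, hb, hbn, t2, t3, fun R u A hu => ?_⟩
  filter_upwards [hest R u A hu, hu.R_lim.eventually (eventually_gt_atTop 0)] with n hn hR
  have h1 := (hI hF S hM (Zb φ ψ b (R n)) (t1 (R n) hR)).2 (u n) (hu.inv n)
  rw [h1]
  exact hn

end Vale.Agent.P353.AN.REP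
end

section

/-! # P353, all `N`, block REP, R3: weighted norm of Gaussian profiles (prover helper213) -/

open MeasureTheory Filter Topology
open scoped ContDiff

namespace Vale.Agent.P353.AN.REP

open Vale.Agent.P353.Z Vale.Agent.P353.Z.U Vale.Agent.P353.Z.AN Vale.Agent.P353.AN.G

section WnA

variable {E : Type*} [NormedAddCommGroup E] [InnerProductSpace ℝ E] [FiniteDimensional ℝ E]

/-- uniform bounds of positive definite forms over a compact set -/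
lemma wn_bd {X : Type*} [TopologicalSpace X] {K : Set X} (hK : IsCompact K) (Q : X → E → ℝ)
    (hc : ContinuousOn (fun p : X × E => Q p.1 p.2) (K ×ˢ Set.univ))
    (hh : ∀ η (t : ℝ) x, Q η (t • x) = t ^ 2 * Q η x) (hp : ∀ η ∈ K, ∀ x, x ≠ 0 → 0 < Q η x) :
    ∃ c M : ℝ, 0 < c ∧ 0 < M ∧ ∀ η ∈ K, ∀ x, c * ‖x‖ ^ 2 ≤ Q η x ∧ Q η x ≤ M * ‖x‖ ^ 2 := by
  have h0 : ∀ η, Q η 0 = 0 := fun η => by
    have := hh η 0 0
    rwa [smul_zero, zero_pow two_ne_zero, zero_mul] at this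
  have hS : ∀ η ∈ K, ∀ x : E, x ≠ 0 → (η, ‖x‖⁻¹ • x) ∈ K ×ˢ Metric.sphere (0 : E) 1 := by
    intro η hη x hx
    refine ⟨hη, ?_⟩
    rw [mem_sphere_zero_iff_norm, norm_smul, norm_inv, norm_norm, inv_mul_cancel₀ (norm_ne_zero_iff.2 hx)]
  have hcomp : IsCompact (K ×ˢ Metric.sphere (0 : E) 1) := hK.prod (isCompact_sphere _ _)
  have hc' : ContinuousOn (fun p : X × E => Q p.1 p.2) (K ×ˢ Metric.sphere (0 : E) 1) :=
    hc.mono (Set.prod_mono_right (Set.subset_univ _))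
  have key : ∀ x : E, x ≠ 0 → ∀ η, Q η x = ‖x‖ ^ 2 * Q η (‖x‖⁻¹ • x) := by
    intro x hx η
    have hn : ‖x‖ ≠ 0 := norm_ne_zero_iff.2 hx
    rw [hh]
    field_simp
  rcases (K ×ˢ Metric.sphere (0 : E) 1).eq_empty_or_nonempty with he | hne
  · refine ⟨1, 1, one_pos, one_pos, fun η hη x => ?_⟩
    by_cases hx : x = 0
    · rw [hx, h0]
      simp
    · have := hS η hη x hx
      rw [he] at this
      exact absurd this (Set.notMem_empty _)
  · obtain ⟨p0, hp0, hmin⟩ := hcomp.exists_isMinOn hne hc'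
    obtain ⟨p1, hp1, hmax⟩ := hcomp.exists_isMaxOn hne hc'
    have hpos : ∀ p ∈ K ×ˢ Metric.sphere (0 : E) 1, 0 < Q p.1 p.2 := by
      intro p hp'
      refine hp p.1 hp'.1 p.2 ?_
      rintro h
      have := hp'.2
      rw [h] at this
      simp at this
    refine ⟨Q p0.1 p0.2, Q p1.1 p1.2, hpos p0 hp0, hpos p1 hp1, fun η hη x => ?_⟩
    by_cases hx : x = 0
    · rw [hx, h0]
      simp
    · have h1 := hmin (hS η hη x hx)
      have h2 := hmax (hS η hη x hx)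
      simp only [Set.mem_ofPred_eq] at h1 h2
      rw [key x hx η]
      constructor
      · rw [mul_comm]
        exact mul_le_mul_of_nonneg_left h1 (by positivity)
      · rw [mul_comm (Q p1.1 p1.2)]
        exact mul_le_mul_of_nonneg_left h2 (by positivity)

end WnA

section WnB

variable {r ds dm : ℕ}

lemma wn_qX_cont : Continuous fun p : Matrix (Fin dm) (Fin dm) ℝ × Cfg dm => qX p.1 p.2 := by
  unfold qX
  refine continuous_finsetSum _ fun i _ => continuous_finsetSum _ fun B _ => continuous_finsetSum _ fun C _ => ?_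
  have h1 : Continuous fun p : Matrix (Fin dm) (Fin dm) ℝ × Cfg dm => p.1 B C := continuous_fst.matrix_elem B C
  fun_prop

lemma wn_gQ_cont : Continuous fun p : Matrix (Fin dm) (Fin dm) ℝ × EuclideanSpace ℝ (Fin dm) => gauQ p.1 p.2 := by
  unfold gauQ
  refine continuous_finsetSum _ fun B _ => continuous_finsetSum _ fun C _ => ?_
  have h1 : Continuous fun p : Matrix (Fin dm) (Fin dm) ℝ × EuclideanSpace ℝ (Fin dm) => (p.1 * p.1 * p.1) B C :=
    ((continuous_fst.matrix_mul continuous_fst).matrix_mul continuous_fst).matrix_elem B C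
  fun_prop

end WnB

section WnC

variable {r ds dm : ℕ}

/-- the two integrals of comparison -/
lemma wn_Nf {κ : ℝ} (hκ : 0 < κ) {D : Fin 9 → Matrix (Fin dm) (Fin dm) ℝ} {Om : Matrix (Fin dm) (Fin dm) ℝ}
    (hO : IsOm κ D Om) {c' M' M : ℝ} (hc' : 0 < c') (hM' : 0 < M') (hM : 0 < M)
    (hq : ∀ X : Cfg dm, qX Om X ≤ M * ‖X‖ ^ 2)
    (hq' : ∀ a : EuclideanSpace ℝ (Fin dm), c' * ‖a‖ ^ 2 ≤ gauQ Om a ∧ gauQ Om a ≤ M' * ‖a‖ ^ 2) :
    Nf κ Om ^ 2 ≤ (∫ a : EuclideanSpace ℝ (Fin dm), Real.exp (-((1 * (κ ^ 2)⁻¹ * c') * ‖a‖ ^ 2))) /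
      ((∫ a : EuclideanSpace ℝ (Fin dm), Real.exp (-((1 / 2 * (κ ^ 2)⁻¹ * M') * ‖a‖ ^ 2))) ^ 2 *
        ∫ X : Cfg dm, Real.exp (-(M * ‖X‖ ^ 2))) := by
  have i1 : Integrable fun a : EuclideanSpace ℝ (Fin dm) => Real.exp (-((1 * (κ ^ 2)⁻¹ * c') * ‖a‖ ^ 2)) :=
    gau_int_sq (by positivity)
  have i2 : Integrable fun a : EuclideanSpace ℝ (Fin dm) => Real.exp (-((1 / 2 * (κ ^ 2)⁻¹ * M') * ‖a‖ ^ 2)) :=
    gau_int_sq (by positivity)
  have i3 : Integrable fun X : Cfg dm => Real.exp (-(M * ‖X‖ ^ 2)) := gau_int_sq hM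
  have p1 : 0 < ∫ a : EuclideanSpace ℝ (Fin dm), Real.exp (-((1 * (κ ^ 2)⁻¹ * c') * ‖a‖ ^ 2)) := integral_exp_pos i1
  have p2 : 0 < ∫ a : EuclideanSpace ℝ (Fin dm), Real.exp (-((1 / 2 * (κ ^ 2)⁻¹ * M') * ‖a‖ ^ 2)) :=
    integral_exp_pos i2
  have p3 : 0 < ∫ X : Cfg dm, Real.exp (-(M * ‖X‖ ^ 2)) := integral_exp_pos i3
  have b1 : Gs κ Om 1 ≤ ∫ a : EuclideanSpace ℝ (Fin dm), Real.exp (-((1 * (κ ^ 2)⁻¹ * c') * ‖a‖ ^ 2)) := by
    refine integral_mono (gau_Gs_int hκ hO one_pos) i1 fun a => ?_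
    refine Real.exp_le_exp.2 (neg_le_neg ?_)
    rw [mul_assoc]
    exact mul_le_mul_of_nonneg_left (hq' a).1 (by positivity)
  have b2 : ∫ a : EuclideanSpace ℝ (Fin dm), Real.exp (-((1 / 2 * (κ ^ 2)⁻¹ * M') * ‖a‖ ^ 2)) ≤ Gs κ Om (1 / 2) := by
    refine integral_mono i2 (gau_Gs_int hκ hO (s := 1 / 2) (by norm_num)) fun a => ?_
    refine Real.exp_le_exp.2 (neg_le_neg ?_)
    rw [mul_assoc (1 / 2 * (κ ^ 2)⁻¹)]
    exact mul_le_mul_of_nonneg_left (hq' a).2 (by positivity)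
  have b3 : ∫ X : Cfg dm, Real.exp (-(M * ‖X‖ ^ 2)) ≤ Kx Om := by
    refine integral_mono i3 (gau_Kx_int hO) fun X => ?_
    exact Real.exp_le_exp.2 (neg_le_neg (hq X))
  have q1 := gau_Gs_pos hκ hO one_pos
  have q2 := gau_Gs_pos hκ hO (s := 1 / 2) (by norm_num)
  have q3 := gau_Kx_pos hO
  have e : Nf κ Om ^ 2 = Gs κ Om 1 / (Gs κ Om (1 / 2) ^ 2 * Kx Om) := by
    unfold Nf
    exact Real.sq_sqrt (by positivity)
  rw [e]
  exact div_le_div₀ p1.le b1 (by positivity) (mul_le_mul (pow_le_pow_left₀ p2.le b2 2) b3 p3.le (by positivity))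

/-- pointwise bound of the weighted density -/
lemma wn_pt (dm : ℕ) {c : ℝ} (hc : 0 < c) : ∃ C1 : ℝ, 0 ≤ C1 ∧ ∀ (n q : ℝ) (X : Cfg dm), 0 ≤ n → c * ‖X‖ ^ 2 ≤ q →
    (1 + ‖X‖ ^ 2) ^ (dm + 1) * (n * Real.exp (-q)) ≤ n * C1 * Real.exp (-(c / 2 * ‖X‖ ^ 2)) := by
  obtain ⟨C1, hC1, hC1b⟩ := l1_poly_gauss (dc := dm) (c := c) (d := c / 2) (by linarith) (2 * (dm + 1))
  refine ⟨C1, hC1, fun n q X hn hq => ?_⟩
  have e2 : Real.exp (-q) ≤ Real.exp (-(c * ‖X‖ ^ 2)) := Real.exp_le_exp.2 (neg_le_neg hq)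
  have e3 : (1 + ‖X‖ ^ 2) ^ (dm + 1) ≤ (1 + ‖X‖) ^ (2 * (dm + 1)) := by
    rw [pow_mul]
    refine pow_le_pow_left₀ (by positivity) ?_ _
    nlinarith [norm_nonneg X]
  calc (1 + ‖X‖ ^ 2) ^ (dm + 1) * (n * Real.exp (-q))
      ≤ (1 + ‖X‖) ^ (2 * (dm + 1)) * (n * Real.exp (-(c * ‖X‖ ^ 2))) :=
        mul_le_mul e3 (mul_le_mul_of_nonneg_left e2 hn) (by positivity) (by positivity)
    _ = n * ((1 + ‖X‖) ^ (2 * (dm + 1)) * Real.exp (-(c * ‖X‖ ^ 2))) := by ring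
    _ ≤ n * (C1 * Real.exp (-(c / 2 * ‖X‖ ^ 2))) := mul_le_mul_of_nonneg_left (hC1b X) hn
    _ = _ := by ring

/-- uniform weighted moment of the normalised Gaussians over a compact set -/
lemma wn_mom {κ : ℝ} (hκ : 0 < κ) {K : Set (Cfg r)} (hK : IsCompact K) {Om : Cfg r → Matrix (Fin dm) (Fin dm) ℝ}
    (hO : ContinuousOn Om K) (D : Cfg r → Fin 9 → Matrix (Fin dm) (Fin dm) ℝ) (hI : ∀ η ∈ K, IsOm κ (D η) (Om η)) :
    ∃ C : ℝ, 0 < C ∧ ∀ η ∈ K, ∫⁻ X : Cfg dm, ENNReal.ofReal ((1 + ‖X‖ ^ 2) ^ (dm + 1)) *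
      ENNReal.ofReal ((Nf κ (Om η) * Real.exp (-(1 / 2) * qX (Om η) X)) ^ 2) ≤ ENNReal.ofReal C := by
  have hc1 : ContinuousOn (fun p : Cfg r × Cfg dm => (Om p.1, p.2)) (K ×ˢ Set.univ) :=
    (hO.comp continuousOn_fst fun p hp => hp.1).prodMk continuousOn_snd
  have hc2 : ContinuousOn (fun p : Cfg r × Cfg dm => qX (Om p.1) p.2) (K ×ˢ Set.univ) :=
    Continuous.comp_continuousOn (g := fun p : Matrix (Fin dm) (Fin dm) ℝ × Cfg dm => qX p.1 p.2)
      (f := fun p : Cfg r × Cfg dm => (Om p.1, p.2)) wn_qX_cont hc1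
  have hc3 : ContinuousOn (fun p : Cfg r × EuclideanSpace ℝ (Fin dm) => (Om p.1, p.2)) (K ×ˢ Set.univ) :=
    (hO.comp continuousOn_fst fun p hp => hp.1).prodMk continuousOn_snd
  have hc4 : ContinuousOn (fun p : Cfg r × EuclideanSpace ℝ (Fin dm) => gauQ (Om p.1) p.2) (K ×ˢ Set.univ) :=
    Continuous.comp_continuousOn (g := fun p : Matrix (Fin dm) (Fin dm) ℝ × EuclideanSpace ℝ (Fin dm) => gauQ p.1 p.2)
      (f := fun p : Cfg r × EuclideanSpace ℝ (Fin dm) => (Om p.1, p.2)) wn_gQ_cont hc3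
  obtain ⟨c, M, hc, hM, hq⟩ := wn_bd (E := Cfg dm) hK (fun η X => qX (Om η) X) hc2
    (fun η t x => gau_qX_smul (Om η) t x) (fun η hη x hx => gau_qX_pos (hI η hη) x hx)
  obtain ⟨c', M', hc', hM', hq'⟩ := wn_bd (E := EuclideanSpace ℝ (Fin dm)) hK (fun η X => gauQ (Om η) X) hc4
    (fun η t x => gauQ_smul (Om η) t x) (fun η hη x hx => gauQ_pos (hI η hη) x hx)
  obtain ⟨C1, hC1, hC1b⟩ := wn_pt dm hc
  have i4 : Integrable fun X : Cfg dm => Real.exp (-(c / 2 * ‖X‖ ^ 2)) := gau_int_sq (by positivity)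
  have p4 : 0 < ∫ X : Cfg dm, Real.exp (-(c / 2 * ‖X‖ ^ 2)) := integral_exp_pos i4
  obtain ⟨N0, hN0, hN⟩ : ∃ N0 : ℝ, 0 ≤ N0 ∧ ∀ η ∈ K, Nf κ (Om η) ^ 2 ≤ N0 :=
    ⟨_, by positivity, fun η hη => wn_Nf hκ (hI η hη) hc' hM' hM (fun X => (hq η hη X).2) (fun a => hq' η hη a)⟩
  refine ⟨N0 * C1 * (∫ X : Cfg dm, Real.exp (-(c / 2 * ‖X‖ ^ 2))) + 1, by positivity, fun η hη => ?_⟩
  have hpt : ∀ X : Cfg dm, (1 + ‖X‖ ^ 2) ^ (dm + 1) * (Nf κ (Om η) * Real.exp (-(1 / 2) * qX (Om η) X)) ^ 2 ≤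
      N0 * C1 * Real.exp (-(c / 2 * ‖X‖ ^ 2)) := by
    intro X
    have e1 : (Nf κ (Om η) * Real.exp (-(1 / 2) * qX (Om η) X)) ^ 2 = Nf κ (Om η) ^ 2 * Real.exp (-qX (Om η) X) := by
      rw [mul_pow, ← Real.exp_nat_mul]
      congr 2
      push_cast
      ring
    rw [e1]
    refine (hC1b _ _ X (sq_nonneg _) (hq η hη X).1).trans ?_
    exact mul_le_mul_of_nonneg_right (mul_le_mul_of_nonneg_right (hN η hη) hC1) (Real.exp_pos _).le
  calc ∫⁻ X : Cfg dm, ENNReal.ofReal ((1 + ‖X‖ ^ 2) ^ (dm + 1)) *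
      ENNReal.ofReal ((Nf κ (Om η) * Real.exp (-(1 / 2) * qX (Om η) X)) ^ 2)
      ≤ ∫⁻ X : Cfg dm, ENNReal.ofReal (N0 * C1 * Real.exp (-(c / 2 * ‖X‖ ^ 2))) := by
        refine lintegral_mono fun X => ?_
        rw [← ENNReal.ofReal_mul (by positivity)]
        exact ENNReal.ofReal_le_ofReal (hpt X)
    _ = ENNReal.ofReal (∫ X : Cfg dm, N0 * C1 * Real.exp (-(c / 2 * ‖X‖ ^ 2))) := by
        rw [ofReal_integral_eq_lintegral_ofReal (i4.const_mul _)]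
        exact Eventually.of_forall fun X => mul_nonneg (mul_nonneg hN0 hC1) (Real.exp_pos _).le
    _ ≤ ENNReal.ofReal (N0 * C1 * (∫ X : Cfg dm, Real.exp (-(c / 2 * ‖X‖ ^ 2))) + 1) := by
        refine ENNReal.ofReal_le_ofReal ?_
        rw [integral_const_mul]
        linarith

/-- measurable replacement of `Om` -/
lemma wn_meas {κ : ℝ} {Om : Cfg r → Matrix (Fin dm) (Fin dm) ℝ} (hm : ∀ B C, Measurable fun η => Om η B C) :
    Measurable fun q : Cfg r × Cfg dm => Nf κ (Om q.1) * Real.exp (-(1 / 2) * qX (Om q.1) q.2) := by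
  have hq : Measurable fun q : Cfg r × Cfg dm => qX (Om q.1) q.2 := by
    unfold qX
    refine Finset.measurable_fun_sum _ fun i _ => Finset.measurable_fun_sum _ fun B _ =>
      Finset.measurable_fun_sum _ fun C _ => ?_
    have h1 : Measurable fun q : Cfg r × Cfg dm => Om q.1 B C := (hm B C).comp measurable_fst
    have h2 : Measurable fun q : Cfg r × Cfg dm => q.2 (i, B) :=
      (by fun_prop : Continuous fun q : Cfg r × Cfg dm => q.2 (i, B)).measurable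
    have h3 : Measurable fun q : Cfg r × Cfg dm => q.2 (i, C) :=
      (by fun_prop : Continuous fun q : Cfg r × Cfg dm => q.2 (i, C)).measurable
    exact (h2.mul h1).mul h3
  have hg : Measurable fun q : Cfg r × EuclideanSpace ℝ (Fin dm) => gauQ (Om q.1) q.2 := by
    unfold gauQ
    refine Finset.measurable_fun_sum _ fun B _ => Finset.measurable_fun_sum _ fun C _ => ?_
    have h1 : Measurable fun q : Cfg r × EuclideanSpace ℝ (Fin dm) => (Om q.1 * Om q.1 * Om q.1) B C := by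
      simp only [Matrix.mul_apply, Finset.sum_mul]
      refine Finset.measurable_fun_sum _ fun A _ => Finset.measurable_fun_sum _ fun A' _ => ?_
      exact (((hm _ _).comp measurable_fst).mul ((hm _ _).comp measurable_fst)).mul ((hm _ _).comp measurable_fst)
    have h2 : Measurable fun q : Cfg r × EuclideanSpace ℝ (Fin dm) => q.2 B :=
      (by fun_prop : Continuous fun q : Cfg r × EuclideanSpace ℝ (Fin dm) => q.2 B).measurable
    have h3 : Measurable fun q : Cfg r × EuclideanSpace ℝ (Fin dm) => q.2 C :=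
      (by fun_prop : Continuous fun q : Cfg r × EuclideanSpace ℝ (Fin dm) => q.2 C).measurable
    exact (h2.mul h1).mul h3
  have hG : ∀ s : ℝ, Measurable fun η => Gs κ (Om η) s := by
    intro s
    have h1 : StronglyMeasurable fun q : Cfg r × EuclideanSpace ℝ (Fin dm) =>
        Real.exp (-(s * (κ ^ 2)⁻¹ * gauQ (Om q.1) q.2)) :=
      (Real.measurable_exp.comp (hg.const_mul _).neg).stronglyMeasurable
    exact (StronglyMeasurable.integral_prod_right (ν := (volume : Measure (EuclideanSpace ℝ (Fin dm)))) h1).measurable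
  have hKx : Measurable fun η => Kx (Om η) := by
    have h1 : StronglyMeasurable fun q : Cfg r × Cfg dm => Real.exp (-qX (Om q.1) q.2) :=
      (Real.measurable_exp.comp hq.neg).stronglyMeasurable
    exact (StronglyMeasurable.integral_prod_right (ν := (volume : Measure (Cfg dm))) h1).measurable
  have hN : Measurable fun η => Nf κ (Om η) := by
    unfold Nf
    exact ((hG 1).div (((hG (1 / 2)).pow_const 2).mul hKx)).sqrt
  exact (hN.comp measurable_fst).mul (Real.measurable_exp.comp (hq.const_mul _))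

variable {F : Type*} [NormedAddCommGroup F] [InnerProductSpace ℂ F]

lemma wn_gen1 {m : Cfg r × Cfg dm → ℝ} (hm : Measurable m) {a : Cfg r → Cfg ds → F}
    (ha : StronglyMeasurable (fun q : Cfg r × Cfg ds => a q.1 q.2)) :
    StronglyMeasurable fun q : Cfg r × Cfg ds × Cfg dm => ((m (q.1, q.2.2) : ℝ) : ℂ) • a q.1 q.2.1 := by
  have h3 : Measurable fun q : Cfg r × Cfg ds × Cfg dm => m (q.1, q.2.2) :=
    hm.comp (measurable_fst.prodMk (measurable_snd.comp measurable_snd))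
  have h4 : StronglyMeasurable fun q : Cfg r × Cfg ds × Cfg dm => a q.1 q.2.1 :=
    ha.comp_measurable (measurable_fst.prodMk (measurable_fst.comp measurable_snd))
  have h5 : StronglyMeasurable fun q : Cfg r × Cfg ds × Cfg dm => ((m (q.1, q.2.2) : ℝ) : ℂ) :=
    (Complex.measurable_ofReal.comp h3).stronglyMeasurable
  exact h5.smul h4

lemma wn_genA : Measurable fun q : Cfg r × Cfg ds × Cfg dm => ENNReal.ofReal ((1 + ‖q.2.2‖ ^ 2) ^ (dm + 1)) := by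
  have : Continuous fun q : Cfg r × Cfg ds × Cfg dm => (1 + ‖q.2.2‖ ^ 2) ^ (dm + 1) := by fun_prop
  exact this.measurable.ennreal_ofReal

lemma wn_genB {h : Cfg r × Cfg ds × Cfg dm → ENNReal} (hh : Measurable h) (η : Cfg r) :
    ∫⁻ q : Cfg ds × Cfg dm, h (η, q) ∂(volume.prod volume) = ∫⁻ s : Cfg ds, ∫⁻ X : Cfg dm, h (η, s, X) := by
  have hm : Measurable fun q : Cfg ds × Cfg dm => h (η, q) := hh.comp measurable_prodMk_left
  exact lintegral_prod _ hm.aemeasurable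

lemma wn_genC {h : Cfg r × Cfg ds × Cfg dm → ENNReal} (hh : Measurable h) :
    ∫⁻ q, h q ∂(wM r ds dm) = ∫⁻ η : Cfg r, ∫⁻ s : Cfg ds, ∫⁻ X : Cfg dm,
      ENNReal.ofReal ((1 + ‖X‖ ^ 2) ^ (dm + 1)) * h (η, s, X) := by
  unfold wM
  rw [lintegral_withDensity_eq_lintegral_mul _ wn_genA hh, lintegral_prod _ (wn_genA.mul hh).aemeasurable]
  refine lintegral_congr fun η => ?_
  exact wn_genB (wn_genA.mul hh) η

lemma wn_gen2 {f : Cfg r × Cfg ds × Cfg dm → F} (hf : StronglyMeasurable f) {a : Cfg r → Cfg ds → F}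
    (ha : StronglyMeasurable (fun q : Cfg r × Cfg ds => a q.1 q.2)) {C : ℝ}
    (hC : ∀ η s, ∫⁻ X : Cfg dm, ENNReal.ofReal ((1 + ‖X‖ ^ 2) ^ (dm + 1)) * ‖f (η, s, X)‖ₑ ^ (2 : ℝ) ≤
      ENNReal.ofReal C * ‖a η s‖ₑ ^ (2 : ℝ)) :
    ∫⁻ q, ‖f q‖ₑ ^ (2 : ℝ) ∂(wM r ds dm) ≤
      ENNReal.ofReal C * ∫⁻ q : Cfg r × Cfg ds, ‖a q.1 q.2‖ₑ ^ (2 : ℝ) ∂(volume.prod volume) := by
  have hfm : Measurable fun q : Cfg r × Cfg ds × Cfg dm => ‖f q‖ₑ ^ (2 : ℝ) := hf.enorm.pow_const _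
  have ham : Measurable fun q : Cfg r × Cfg ds => ‖a q.1 q.2‖ₑ ^ (2 : ℝ) := ha.enorm.pow_const _
  have e1 := wn_genC hfm
  have e2 := lintegral_prod (μ := (volume : Measure (Cfg r))) (ν := (volume : Measure (Cfg ds))) _ ham.aemeasurable
  rw [e1, e2, ← lintegral_const_mul' _ _ ENNReal.ofReal_ne_top]
  refine lintegral_mono fun η => ?_
  rw [← lintegral_const_mul' _ _ ENNReal.ofReal_ne_top]
  exact lintegral_mono fun s => hC η s

lemma wn_ent {K : Set (Cfg r)} (hK : IsCompact K) {Om : Cfg r → Matrix (Fin dm) (Fin dm) ℝ}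
    (hO : ContinuousOn Om K) : ∃ Om' : Cfg r → Matrix (Fin dm) (Fin dm) ℝ, (∀ η ∈ K, Om' η = Om η) ∧
      ∀ B C, Measurable fun η => Om' η B C := by
  classical
  refine ⟨K.piecewise Om (fun _ => 1), fun η h => Set.piecewise_eq_of_mem _ _ _ h, fun B C => ?_⟩
  have h0 : Continuous fun A : Matrix (Fin dm) (Fin dm) ℝ => A B C := continuous_id.matrix_elem B C
  have h1 : ContinuousOn (fun η => Om η B C) K :=
    Continuous.comp_continuousOn (g := fun A : Matrix (Fin dm) (Fin dm) ℝ => A B C) (f := Om) h0 hO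
  have h2 := h1.measurable_piecewise (g := fun _ => (1 : Matrix (Fin dm) (Fin dm) ℝ) B C) continuousOn_const
    hK.isClosed.measurableSet
  have e : (fun η => K.piecewise Om (fun _ => 1) η B C) =
      K.piecewise (fun η => Om η B C) fun _ => (1 : Matrix (Fin dm) (Fin dm) ℝ) B C := by
    funext η
    by_cases h : η ∈ K
    · rw [Set.piecewise_eq_of_mem _ _ _ h, Set.piecewise_eq_of_mem _ _ _ h]
    · rw [Set.piecewise_eq_of_notMem _ _ _ h, Set.piecewise_eq_of_notMem _ _ _ h]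
  rw [e]
  exact h2

lemma wn_sm {κ : ℝ} {K : Set (Cfg r)} (hK : IsCompact K) {Om : Cfg r → Matrix (Fin dm) (Fin dm) ℝ}
    (hO : ContinuousOn Om K) {a : Cfg r → Cfg ds → F}
    (ha : StronglyMeasurable (fun q : Cfg r × Cfg ds => a q.1 q.2)) (h0 : ∀ η s, a η s ≠ 0 → η ∈ K) :
    StronglyMeasurable (bG κ Om a : Cfg r × Cfg ds × Cfg dm → F) := by
  obtain ⟨Om', hOm', hm⟩ := wn_ent hK hO
  have hw := wn_gen1 (wn_meas (κ := κ) hm) ha
  refine (?_ : (bG κ Om a : Cfg r × Cfg ds × Cfg dm → F) = _) ▸ hw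
  funext q
  by_cases h : a q.1 q.2.1 = 0
  · unfold bG
    rw [h, smul_zero, smul_zero]
  · have h2 : Om' q.1 = Om q.1 := hOm' _ (h0 _ _ h)
    unfold bG
    rw [h2]

lemma wn_bG_enorm (κ : ℝ) (Om : Cfg r → Matrix (Fin dm) (Fin dm) ℝ) (a : Cfg r → Cfg ds → F) (η : Cfg r) (s : Cfg ds)
    (X : Cfg dm) : ‖(bG κ Om a (η, s, X) : F)‖ₑ ^ (2 : ℝ) =
      ENNReal.ofReal ((Nf κ (Om η) * Real.exp (-(1 / 2) * qX (Om η) X)) ^ 2) * ‖a η s‖ₑ ^ (2 : ℝ) := by
  have e1 : ‖(bG κ Om a (η, s, X) : F)‖ₑ =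
      ENNReal.ofReal (|Nf κ (Om η) * Real.exp (-(1 / 2) * qX (Om η) X)|) * ‖a η s‖ₑ := by
    change ‖((Nf κ (Om η) * Real.exp (-(1 / 2) * qX (Om η) X) : ℝ) : ℂ) • a η s‖ₑ = _
    generalize Nf κ (Om η) * Real.exp (-(1 / 2) * qX (Om η) X) = t
    rw [enorm_smul]
    congr 1
    rw [← ofReal_norm, Complex.norm_real, Real.norm_eq_abs]
  rw [e1, ENNReal.mul_rpow_of_nonneg _ _ (by norm_num : (0 : ℝ) ≤ 2),
    ENNReal.ofReal_rpow_of_nonneg (abs_nonneg _) (by norm_num), Real.rpow_two, sq_abs]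

end WnC

/-- **R3** -/
theorem wn_stmt {d : ℕ} {F : Type*} [NormedAddCommGroup F] [InnerProductSpace ℂ F] (S : Setup d F) : WnStmt S := by
  intro dh dm r ds φ ψ K Om hK hO hI
  obtain ⟨C, hC, hCb⟩ := wn_mom S.κ_pos hK hO (Dz S φ ψ) hI
  refine ⟨Real.sqrt C, Real.sqrt_pos.2 hC, fun a ha h0 => ?_⟩
  have hsm := wn_sm (κ := S.κ) hK hO ha h0
  refine ⟨hsm, ?_⟩
  have key : ∫⁻ q, ‖(bG S.κ Om a q : F)‖ₑ ^ (2 : ℝ) ∂(wM r ds dm) ≤
      ENNReal.ofReal C * ∫⁻ q : Cfg r × Cfg ds, ‖a q.1 q.2‖ₑ ^ (2 : ℝ) ∂(volume.prod volume) := by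
    refine wn_gen2 hsm ha fun η s => ?_
    by_cases h : a η s = 0
    · have : ∀ X : Cfg dm, (bG S.κ Om a (η, s, X) : F) = 0 := fun X => by
        unfold bG
        rw [h, smul_zero]
      simp [this]
    · have hη := h0 _ _ h
      simp only [wn_bG_enorm, ← mul_assoc]
      rw [lintegral_mul_const' _ _ (by simp)]
      exact mul_le_mul' (hCb η hη) le_rfl
  have e1 : eLpNorm (bG S.κ Om a : Cfg r × Cfg ds × Cfg dm → F) 2 (wM r ds dm) ^ (2 : ℝ) =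
      ∫⁻ q, ‖(bG S.κ Om a q : F)‖ₑ ^ (2 : ℝ) ∂(wM r ds dm) := by
    have := eLpNorm_nnreal_pow_eq_lintegral (p := 2) (f := (bG S.κ Om a : Cfg r × Cfg ds × Cfg dm → F))
      (μ := wM r ds dm) two_ne_zero
    simpa using this
  have e2 : eLpNorm (fun q : Cfg r × Cfg ds => a q.1 q.2) 2 (volume.prod volume) ^ (2 : ℝ) =
      ∫⁻ q : Cfg r × Cfg ds, ‖a q.1 q.2‖ₑ ^ (2 : ℝ) ∂(volume.prod volume) := by
    have := eLpNorm_nnreal_pow_eq_lintegral (p := 2) (f := (fun q : Cfg r × Cfg ds => a q.1 q.2))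
      (μ := (volume : Measure (Cfg r)).prod (volume : Measure (Cfg ds))) two_ne_zero
    simpa using this
  rw [← ENNReal.rpow_le_rpow_iff (by norm_num : (0 : ℝ) < 2), ENNReal.mul_rpow_of_nonneg _ _ (by norm_num : (0 : ℝ) ≤ 2),
    e1, e2, ENNReal.ofReal_rpow_of_nonneg (Real.sqrt_nonneg _) (by norm_num), Real.rpow_two, Real.sq_sqrt hC.le]
  exact key

end Vale.Agent.P353.AN.REP
end
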