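import Mathlib
import Vale.Agent.P353.BdA.B23
import Vale.Agent.P353.BdA.B22
import Vale.Agent.P353.BdA.B21
import Vale.Agent.P353.BdA.B2
import Vale.Agent.P353.BdA.B13
import Vale.Agent.P353.BdA.B5
import Vale.Agent.P353.BdA.B14
import Vale.Agent.P353.BdA.B1
import Vale.Agent.P353.BdA.B4
import Vale.Agent.P353.BdZ.B16
import Vale.Agent.P353.BdA.B19

set_option linter.all false

section

/-! # P353, all `N`: functions killed by the gauge generators are equivariant under `SU(N)` -/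

open MeasureTheory Filter Topology
open scoped ContDiff

namespace Vale.Agent.P353.AN.G

open Vale.Agent.P353.Z Vale.Agent.P353.Z.U Vale.Agent.P353.Z.AN

variable {N d : ℕ} {F : Type*} [NormedAddCommGroup F] [InnerProductSpace ℂ F]

/-- `exp (i U diag(y) U*) = U exp (i diag(y)) U*` -/
lemma core_exp (U : Matrix.specialUnitaryGroup (Fin N) ℂ) (y : Fin N → ℝ) :
    NormedSpace.exp (Complex.I • mgc U.val (Matrix.diagonal fun j => ((y j : ℝ) : ℂ))) =
      mgc U.val (Matrix.diagonal fun j => Complex.exp (((y j : ℝ) : ℂ) * Complex.I)) := by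
  have hinv : (U.val)⁻¹ = U.val.conjTranspose :=
    Matrix.inv_eq_right_inv (mg_unit U).2
  have hU : IsUnit U.val := by
    rw [Matrix.isUnit_iff_isUnit_det]
    rw [(Matrix.mem_specialUnitaryGroup_iff.1 U.2).2]
    exact isUnit_one
  have h1 : Complex.I • mgc U.val (Matrix.diagonal fun j => ((y j : ℝ) : ℂ)) =
      U.val * (Complex.I • Matrix.diagonal fun j => ((y j : ℝ) : ℂ)) * (U.val)⁻¹ := by
    rw [hinv, mgc, Matrix.mul_smul, Matrix.smul_mul]
  rw [h1, Matrix.exp_conj _ _ hU, hinv, mgc]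
  congr 2
  rw [← Matrix.diagonal_smul, Matrix.exp_diagonal]
  congr 1
  funext j
  rw [Pi.coe_exp, ← Complex.exp_eq_exp_ℂ]
  show Complex.exp (Complex.I * _) = _
  rw [mul_comm]

/-- every element of `SU(N)` is conjugate to `exp (i x)` with `x` real, diagonal and traceless -/
theorem core_tor (hN : 0 < N) (V : Matrix.specialUnitaryGroup (Fin N) ℂ) :
    ∃ (U : Matrix.specialUnitaryGroup (Fin N) ℂ) (x : mgH N), V = U * mgtor x * U⁻¹ := by
  classical
  have hV : V.val ∈ unitary (Matrix (Fin N) (Fin N) ℂ) :=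
    (Matrix.mem_specialUnitaryGroup_iff.1 V.2).1
  obtain ⟨K, hK, hKV⟩ := mad_log V.val hV
  obtain ⟨U, hU⟩ := mg_phase hN (hK.eigenvectorUnitary : Matrix (Fin N) (Fin N) ℂ)
    hK.eigenvectorUnitary.2
  have h1 : mgc U.val (Matrix.diagonal fun j => ((hK.eigenvalues j : ℝ) : ℂ)) = K := by
    rw [hU]
    have h2 := hK.spectral_theorem
    rw [Unitary.conjStarAlgAut_apply] at h2
    exact h2.symm
  have h2 : V.val = mgc U.val (Matrix.diagonal fun j =>
      Complex.exp (((hK.eigenvalues j : ℝ) : ℂ) * Complex.I)) := by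
    rw [← core_exp, h1, hKV]
  have h3 : ∏ j, Complex.exp (((hK.eigenvalues j : ℝ) : ℂ) * Complex.I) = 1 := by
    have h4 := (Matrix.mem_specialUnitaryGroup_iff.1 V.2).2
    have h5 := (Matrix.mem_specialUnitaryGroup_iff.1 U.2).2
    rw [h2, mgc, Matrix.det_mul, Matrix.det_mul, Matrix.det_conjTranspose, h5, star_one, one_mul,
      mul_one, Matrix.det_diagonal] at h4
    exact h4
  rw [← Complex.exp_sum, ← Finset.sum_mul, ← Complex.ofReal_sum] at h3
  obtain ⟨k, hk⟩ := Complex.exp_eq_one_iff.1 h3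
  have h5 : ∑ j, hK.eigenvalues j = k * (2 * Real.pi) := by
    have h6 : ((∑ j, hK.eigenvalues j : ℝ) : ℂ) * Complex.I =
        ((k : ℂ) * (2 * Real.pi)) * Complex.I := by
      linear_combination hk
    have h7 := mul_right_cancel₀ Complex.I_ne_zero h6
    exact_mod_cast h7
  have hNe : NeZero N := ⟨hN.ne'⟩
  set x : Fin N → ℝ := fun j => if j = 0 then hK.eigenvalues j - k * (2 * Real.pi) else
    hK.eigenvalues j with hx
  have hx0 : ∑ j, x j = 0 := by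
    have h8 : ∀ j : Fin N, x j = hK.eigenvalues j - (if j = 0 then k * (2 * Real.pi) else 0) := by
      intro j
      simp only [hx]
      split_ifs <;> ring
    simp only [h8]
    rw [Finset.sum_sub_distrib, h5, Finset.sum_ite_eq' Finset.univ (0 : Fin N),
      if_pos (Finset.mem_univ _), sub_self]
  have hxe : ∀ j, Complex.exp (((x j : ℝ) : ℂ) * Complex.I) =
      Complex.exp (((hK.eigenvalues j : ℝ) : ℂ) * Complex.I) := by
    intro j
    simp only [hx]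
    split_ifs
    · have h9 : (((hK.eigenvalues j - k * (2 * Real.pi) : ℝ)) : ℂ) * Complex.I =
          (hK.eigenvalues j : ℂ) * Complex.I - k * (2 * Real.pi * Complex.I) := by
        push_cast
        ring
      rw [h9, Complex.exp_periodic.sub_int_mul_eq]
    · rfl
  refine ⟨U, ⟨x, hx0⟩, ?_⟩
  apply Subtype.ext
  rw [h2]
  show mgc U.val _ = U.val * mgtorM ⟨x, hx0⟩ * U.val.conjTranspose
  rw [mgc, mgtorM]
  simp only [hxe]

/-- the adjoint matrix of `exp (i ∑ h_A T_A)` -/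
theorem core_ad (M : BFSS.Model N d F) (S : Setup d F) (hS : Rep M S) (V : BFSS.SU N)
    (h : Fin d → ℝ) (hV : V.val = NormedSpace.exp (Complex.I • ∑ A, ((h A : ℝ) : ℂ) • M.T A)) :
    actO M V = NormedSpace.exp (S.adm (-h)) := by
  set K : Matrix (Fin N) (Fin N) ℂ := ∑ A, ((h A : ℝ) : ℂ) • M.T A with hKe
  have hK : K.conjTranspose = K := by
    rw [hKe, Matrix.conjTranspose_sum]
    refine Finset.sum_congr rfl fun A _ => ?_
    rw [Matrix.conjTranspose_smul, M.T_hermitian, RCLike.star_def, Complex.conj_ofReal]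
  have hD : ∀ C, (Complex.I • K) * M.T C - M.T C * (Complex.I • K) =
      ∑ B, (((S.adm (-h)) B C : ℝ) : ℂ) • M.T B := by
    intro C
    have e1 : (Complex.I • K) * M.T C - M.T C * (Complex.I • K) =
        Complex.I • ∑ A, ((h A : ℝ) : ℂ) • (M.T A * M.T C - M.T C * M.T A) := by
      conv_lhs => rw [hKe]
      rw [Matrix.smul_mul, Matrix.mul_smul, ← smul_sub, Matrix.sum_mul,
        Matrix.mul_sum, ← Finset.sum_sub_distrib]
      congr 1
      refine Finset.sum_congr rfl fun A _ => ?_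
      rw [Matrix.smul_mul, Matrix.mul_smul, smul_sub]
    rw [e1, Finset.smul_sum]
    have e2 : ∀ A, Complex.I • ((h A : ℝ) : ℂ) • (M.T A * M.T C - M.T C * M.T A) =
        ∑ B, ((-(h A * M.f A C B) : ℝ) : ℂ) • M.T B := by
      intro A
      rw [M.T_comm, Finset.smul_sum, Finset.smul_sum]
      refine Finset.sum_congr rfl fun B _ => ?_
      rw [smul_smul, smul_smul]
      congr 1
      push_cast
      linear_combination ((h A : ℂ) * (M.f A C B : ℂ)) * Complex.I_mul_I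
    rw [Finset.sum_congr rfl fun A _ => e2 A, Finset.sum_comm]
    refine Finset.sum_congr rfl fun B _ => ?_
    rw [← Finset.sum_smul, ← Complex.ofReal_sum]
    congr 2
    simp only [Setup.adm, Matrix.of_apply, Pi.neg_apply]
    refine Finset.sum_congr rfl fun A _ => ?_
    rw [S.f_cyc B A C, hS.hf]
    ring
  have hconj := mad_conj M.T (Complex.I • K) (S.adm (-h)) hD
  have hUstar : V.val.conjTranspose = NormedSpace.exp (-(Complex.I • K)) := by
    rw [hV, ← Matrix.exp_conjTranspose, Matrix.conjTranspose_smul, hK]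
    simp
  ext B A
  rw [actO, Matrix.of_apply]
  unfold BFSS.adCoeff
  rw [hUstar, hV, hconj A, Matrix.mul_sum, Matrix.trace_sum, Finset.sum_eq_single B]
  · rw [Matrix.mul_smul, Matrix.trace_smul, M.T_orthonormal, if_pos rfl]
    simp
  · intro C _ hC
    rw [Matrix.mul_smul, Matrix.trace_smul, M.T_orthonormal, if_neg (Ne.symm hC), smul_zero]
  · simp

/-- **equivariance** under the whole group -/
theorem core_eqv [FiniteDimensional ℂ F] (M : BFSS.Model N d F) (S : Setup d F) (hrep : Rep M S)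
    (u : Cfg d → F) (hu : ContDiff ℝ ∞ u) (hG : ∀ C x, S.G C u x = 0) (V : BFSS.SU N)
    (x : Cfg d) : u (M.act V x) = M.S V (u x) := by
  have hcomp : CompleteSpace F := FiniteDimensional.complete ℂ F
  rcases Nat.eq_zero_or_pos d with hd | hd
  · have hV : V = 1 := by
      have hN : N ≤ 1 := by
        have h1 := M.dim_eq
        rw [hd] at h1
        by_contra hcon
        push Not at hcon
        have h2 : 2 ^ 2 ≤ N ^ 2 := Nat.pow_le_pow_left hcon 2
        omega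
      apply Subtype.ext
      have hdet := (Matrix.mem_specialUnitaryGroup_iff.1 V.2).2
      rcases Nat.eq_zero_or_pos N with h0 | h0
      · subst h0
        ext i
        exact i.elim0
      · have h1 : N = 1 := by omega
        subst h1
        rw [Matrix.det_unique] at hdet
        ext i j
        have hi : i = default := Subsingleton.elim _ _
        have hj : j = default := Subsingleton.elim _ _
        rw [hi, hj]
        simpa using hdet
    have h1 : M.act V x = x := by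
      rw [hV, act_eq_ro, actO_one]
      exact U.gx983_ro_one x
    have h2 : M.S V = 1 := by
      have h3 : M.toOld.S (1 : Matrix.specialUnitaryGroup (Fin N) ℂ) = 1 := map_one M.toOld.S
      rw [hV]
      exact h3
    rw [h1, h2]
    rfl
  obtain ⟨hN, -⟩ := mg_dim M.toOld hd
  obtain ⟨U, y, hUy⟩ := core_tor hN V
  have hherm : (mgc U.val (mgd y)).conjTranspose = mgc U.val (mgd y) := by
    rw [mgc, Matrix.conjTranspose_mul, Matrix.conjTranspose_mul, Matrix.conjTranspose_conjTranspose,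
      mgd, Matrix.diagonal_conjTranspose, mul_assoc]
    congr 3
    funext j
    rw [Pi.star_apply, RCLike.star_def, Complex.conj_ofReal]
  have htr : (mgc U.val (mgd y)).trace = 0 := by
    rw [mgc_trace, mgd, Matrix.trace_diagonal, ← Complex.ofReal_sum, mgH_sum, Complex.ofReal_zero]
  obtain ⟨h, hh⟩ := cen_coef M hN _ hherm htr
  have hVe : V.val = NormedSpace.exp (Complex.I • ∑ A, ((h A : ℝ) : ℂ) • M.T A) := by
    rw [← hh, exh_tor, hUy]
    rfl
  have hact : M.act V x = ro (NormedSpace.exp (S.adm (-h))) x := by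
    rw [act_eq_ro, core_ad M S hrep V h hVe]
  have hE := (eqv_stmt S inferInstance).2.2.2.2 u hu hG (-h) x
  have hSV : M.S V = mgE (mgz M.toOld (mgc U.val (mgd y))) 1 := by
    have h1 := mgS_conj M.toOld hd U y 1
    rw [one_smul, ← hUy] at h1
    exact h1
  rw [hact, hE, hSV]
  congr 1
  rw [spn, mgE, Complex.ofReal_one, one_smul, hh, map_sum]
  congr 1
  rw [Finset.smul_sum]
  refine Finset.sum_congr rfl fun C _ => ?_
  rw [map_smul, exh_cS M S hrep C, smul_smul, smul_smul]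
  show _ = (h C : ℂ) • mgz M.toOld (M.toOld.T C)
  congr 1
  simp only [Pi.neg_apply, Complex.ofReal_neg]
  linear_combination (-(h C : ℂ)) * Complex.I_sq

end Vale.Agent.P353.AN.G
end

section

/-! # P353, all `N`: **BR1**, the converse Gauss law -/

open MeasureTheory Filter Topology
open scoped ContDiff

namespace Vale.Agent.P353.Z.Fin1

variable {N d : ℕ} {F : Type*} [NormedAddCommGroup F] [InnerProductSpace ℂ F]

/-- **BR1** -/
theorem core_of (M : BFSS.Model N d F) : CoreStmt M := by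
  intro hF _ S hrep u hu hG
  exact ⟨hu.1, hu.2, fun V x => Vale.Agent.P353.AN.G.core_eqv M S hrep u hu.1 hG V x⟩

end Vale.Agent.P353.Z.Fin1
end

section

/-! # P353, all `N`, block L: mass bound over compact sets (`MasKStmt`) -/

open MeasureTheory Filter Topology Matrix
open scoped ContDiff

namespace Vale.Agent.P353.Z.AL

namespace MK808

variable {d dh dm r ds : ℕ} {F : Type*} [NormedAddCommGroup F] [InnerProductSpace ℂ F]

lemma mk_hz_smul (ψ : Spl r ds dh) (R : ℝ) (y : Cfg dh) : AN.hz ψ (R • y) = R • AN.hz ψ y := by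
  ext p
  simp [AN.hz]

lemma mk_hs_smul (ψ : Spl r ds dh) (R : ℝ) (y : Cfg dh) : AN.hs ψ (R • y) = R • AN.hs ψ y := by
  ext p
  simp [AN.hs]

lemma mk_norm (ψ : Spl r ds dh) (y : Cfg dh) : ‖y‖ ^ 2 = ‖AN.hz ψ y‖ ^ 2 + ‖AN.hs ψ y‖ ^ 2 := by
  rw [EuclideanSpace.norm_sq_eq, EuclideanSpace.norm_sq_eq, EuclideanSpace.norm_sq_eq]
  rw [Fintype.sum_prod_type, Fintype.sum_prod_type, Fintype.sum_prod_type, ← Finset.sum_add_distrib]
  refine Finset.sum_congr rfl fun i _ => ?_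
  rw [← ψ.sum_comp, Fintype.sum_sum_type]
  simp [AN.hz, AN.hs]

lemma mk_emb_norm (φ : Spl dh dm d) (y : Cfg dh) (w : Wsp dm) : ‖emb φ y w‖ ^ 2 = ‖y‖ ^ 2 + ‖w‖ ^ 2 := by
  rw [EuclideanSpace.norm_sq_eq, EuclideanSpace.norm_sq_eq, EuclideanSpace.norm_sq_eq]
  rw [Fintype.sum_prod_type, Fintype.sum_prod_type, Fintype.sum_prod_type]
  have h1 : ∀ i : Fin 9, ∑ A, ‖emb φ y w (i, A)‖ ^ 2 =
      (∑ A, ‖y (i, A)‖ ^ 2) + ∑ B, ‖Fin.lastCases (motive := fun _ => ℝ) 0 (fun j => w (j, B)) i‖ ^ 2 := by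
    intro i
    rw [← φ.sum_comp, Fintype.sum_sum_type]
    congr 1
    · refine Finset.sum_congr rfl fun A _ => ?_
      simp [emb]
    · refine Finset.sum_congr rfl fun A _ => ?_
      simp [emb]
  simp only [h1]
  rw [Finset.sum_add_distrib]
  congr 1
  rw [Fin.sum_univ_castSucc]
  simp only [Fin.lastCases_castSucc, Fin.lastCases_last, norm_zero, ne_eq, OfNat.ofNat_ne_zero,
    not_false_eq_true, zero_pow, Finset.sum_const_zero, add_zero]

lemma mk_Nr_smul (ψ : Spl r ds dh) (A : Set (Cfg r)) {R ε : ℝ} (hR : 0 < R) (p : Cfg dh × Wsp dm) :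
    R • p ∈ Nr ψ A dm R ε ↔ p ∈ Nr ψ A dm 1 ε := by
  simp only [Nr, Set.mem_ofPred_eq, Prod.smul_fst, Prod.smul_snd, mk_hz_smul, mk_hs_smul, inv_one, one_smul,
    mul_one, norm_smul, Real.norm_of_nonneg hR.le]
  rw [inv_smul_smul₀ hR.ne', mul_comm ε R, mul_lt_mul_iff_right₀ hR, mul_lt_mul_iff_right₀ hR]

lemma mk_Nr_mono (ψ : Spl r ds dh) (A : Set (Cfg r)) {R ε ε' : ℝ} (hR : 0 < R) (h : ε ≤ ε') :
    Nr ψ A dm R ε ⊆ Nr ψ A dm R ε' := by
  rintro p ⟨h1, h2, h3⟩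
  have h4 : ε * R ≤ ε' * R := mul_le_mul_of_nonneg_right h hR.le
  exact ⟨h1, h2.trans_le h4, h3.trans_le h4⟩

lemma mk_chz (ψ : Spl r ds dh) : Continuous (AN.hz ψ : Cfg dh → Cfg r) := by
  unfold AN.hz
  fun_prop

lemma mk_chs (ψ : Spl r ds dh) : Continuous (AN.hs ψ : Cfg dh → Cfg ds) := by
  unfold AN.hs
  fun_prop

lemma mk_Nr_meas (ψ : Spl r ds dh) {A : Set (Cfg r)} (hA : IsCompact A) (R ε : ℝ) :
    MeasurableSet (Nr ψ A dm R ε) := by
  have e1 : MeasurableSet {p : Cfg dh × Wsp dm | R⁻¹ • AN.hz ψ p.1 ∈ A} := by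
    have hc : Continuous fun p : Cfg dh × Wsp dm => R⁻¹ • AN.hz ψ p.1 :=
      (continuous_const_smul R⁻¹).comp ((mk_chz ψ).comp continuous_fst)
    exact (hA.isClosed.preimage hc).measurableSet
  have e2 : MeasurableSet {p : Cfg dh × Wsp dm | ‖AN.hs ψ p.1‖ < ε * R} :=
    (isOpen_lt ((mk_chs ψ).comp continuous_fst).norm continuous_const).measurableSet
  have e3 : MeasurableSet {p : Cfg dh × Wsp dm | ‖p.2‖ < ε * R} :=
    (isOpen_lt continuous_snd.norm continuous_const).measurableSet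
  exact e1.inter (e2.inter e3)

/-- bounds of the norm on `Nr` -/
lemma mk_Nr_bound (φ : Spl dh dm d) (ψ : Spl r ds dh) {A : Set (Cfg r)} (hA : IsCompact A) {s t : ℝ}
    (hs : 0 < s) (hst : s < t) (hAs : A ⊆ AD.shl r s t) :
    ∃ ε₀ : ℝ, 0 < ε₀ ∧ ∀ ε R : ℝ, 0 < ε → ε ≤ ε₀ → 0 < R → ∀ p ∈ Nr ψ A dm R ε,
      s * R < ‖emb φ p.1 p.2‖ ∧ ‖emb φ p.1 p.2‖ < t * R := by
  obtain ⟨t', ht's, ht't, ht'⟩ : ∃ t' : ℝ, 0 < t' ∧ t' < t ∧ ∀ a ∈ A, ‖a‖ ≤ t' := by
    rcases A.eq_empty_or_nonempty with h | h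
    · exact ⟨s, hs, hst, by simp [h]⟩
    · obtain ⟨a, haA, ha⟩ := hA.exists_isMaxOn h continuous_norm.continuousOn
      exact ⟨‖a‖, hs.trans (hAs haA).1, (hAs haA).2, fun b hb => ha hb⟩
  have ht0 : 0 < t := ht's.trans ht't
  have hgap : 0 < t ^ 2 - t' ^ 2 := by nlinarith
  refine ⟨Real.sqrt ((t ^ 2 - t' ^ 2) / 4), Real.sqrt_pos.2 (by positivity), fun ε R hε hεε hR p hp => ?_⟩
  have hε2 : ε ^ 2 ≤ (t ^ 2 - t' ^ 2) / 4 := by
    calc ε ^ 2 ≤ Real.sqrt ((t ^ 2 - t' ^ 2) / 4) ^ 2 := pow_le_pow_left₀ hε.le hεε 2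
      _ = _ := Real.sq_sqrt (by positivity)
  obtain ⟨h1, h2, h3⟩ := hp
  have h4 : ‖AN.hz ψ p.1‖ = R * ‖R⁻¹ • AN.hz ψ p.1‖ := by
    rw [norm_smul, norm_inv, Real.norm_of_nonneg hR.le, ← mul_assoc, mul_inv_cancel₀ hR.ne', one_mul]
  set k : ℝ := ‖R⁻¹ • AN.hz ψ p.1‖ with hk
  have hk1 : s < k := (hAs h1).1
  have hk2 : k ≤ t' := ht' _ h1
  have hk0 : 0 < k := hs.trans hk1
  have h5 : ‖emb φ p.1 p.2‖ ^ 2 = (R * k) ^ 2 + ‖AN.hs ψ p.1‖ ^ 2 + ‖p.2‖ ^ 2 := by
    rw [mk_emb_norm, mk_norm ψ, h4]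
  have hn := norm_nonneg (emb φ p.1 p.2)
  have hn1 := norm_nonneg (AN.hs ψ p.1)
  have hn2 := norm_nonneg p.2
  constructor
  · have h6 : (s * R) ^ 2 < ‖emb φ p.1 p.2‖ ^ 2 := by
      rw [h5]
      have : s * R < R * k := by rw [mul_comm R k]; exact mul_lt_mul_of_pos_right hk1 hR
      have h7 : (s * R) ^ 2 < (R * k) ^ 2 := pow_lt_pow_left₀ this (by positivity) (by norm_num)
      nlinarith
    exact lt_of_pow_lt_pow_left₀ 2 hn h6
  · have h6 : ‖emb φ p.1 p.2‖ ^ 2 < (t * R) ^ 2 := by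
      rw [h5]
      have a1 : ‖AN.hs ψ p.1‖ ^ 2 ≤ (ε * R) ^ 2 := pow_le_pow_left₀ hn1 h2.le 2
      have a2 : ‖p.2‖ ^ 2 ≤ (ε * R) ^ 2 := pow_le_pow_left₀ hn2 h3.le 2
      have a3 : (R * k) ^ 2 ≤ (R * t') ^ 2 :=
        pow_le_pow_left₀ (by positivity) (mul_le_mul_of_nonneg_left hk2 hR.le) 2
      have a4 : (ε * R) ^ 2 ≤ (t ^ 2 - t' ^ 2) / 4 * R ^ 2 := by
        rw [mul_pow]
        exact mul_le_mul_of_nonneg_right hε2 (sq_nonneg _)
      have a5 : 0 < (t ^ 2 - t' ^ 2) * R ^ 2 := by positivity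
      nlinarith
    exact lt_of_pow_lt_pow_left₀ 2 (by positivity) h6

/-- `Nr` is bounded -/
lemma mk_Nr_int (S : Setup d F) (φ : Spl dh dm d) (ψ : Spl r ds dh) {A : Set (Cfg r)} {s t : ℝ}
    {R ε : ℝ} (ht : 0 < t * R) (hb : ∀ p ∈ Nr ψ A dm R ε, s * R < ‖emb φ p.1 p.2‖ ∧ ‖emb φ p.1 p.2‖ < t * R)
    {u : Cfg d → F} (hu : Continuous u) :
    IntegrableOn (fun p : Cfg dh × Wsp dm => ‖S.res φ u p.1 p.2‖ ^ 2) (Nr ψ A dm R ε)
      ((volume : Measure (Cfg dh)).prod (volume : Measure (Wsp dm))) := by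
  have hres : Continuous fun p : Cfg dh × Wsp dm => S.res φ u p.1 p.2 := by
    unfold Setup.res
    have e2 : Continuous fun p : Cfg dh × Wsp dm => S.Jd φ p.1 :=
      (AN.tbf_continuous_Jd S φ).comp continuous_fst
    exact (Complex.continuous_ofReal.comp (Real.continuous_sqrt.comp e2)).smul
      (hu.comp (AN.tbf_continuous_emb φ))
  have h1 : IntegrableOn (fun p : Cfg dh × Wsp dm => ‖S.res φ u p.1 p.2‖ ^ 2)
      (Metric.closedBall (0 : Cfg dh) (t * R) ×ˢ Metric.closedBall (0 : Wsp dm) (t * R))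
      ((volume : Measure (Cfg dh)).prod (volume : Measure (Wsp dm))) :=
    (hres.norm.pow 2).continuousOn.integrableOn_compact
      ((isCompact_closedBall _ _).prod (isCompact_closedBall _ _))
  refine h1.mono_set fun p hp => ?_
  have h2 := (hb p hp).2
  have h3 := mk_emb_norm φ p.1 p.2
  have hn := norm_nonneg (emb φ p.1 p.2)
  have h4 : ‖emb φ p.1 p.2‖ ^ 2 < (t * R) ^ 2 := pow_lt_pow_left₀ h2 hn (by norm_num)
  refine Set.mem_prod.2 ⟨?_, ?_⟩
  · rw [mem_closedBall_zero_iff]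
    refine le_of_pow_le_pow_left₀ two_ne_zero ht.le ?_
    nlinarith [sq_nonneg ‖p.2‖]
  · rw [mem_closedBall_zero_iff]
    refine le_of_pow_le_pow_left₀ two_ne_zero ht.le ?_
    nlinarith [sq_nonneg ‖p.1‖]

lemma mk_tst_int {u : Cfg d → F} (hu : Setup.Tst u) :
    Integrable (fun x => ‖u x‖ ^ 2) (volume : Measure (Cfg d)) := by
  have h1 : Continuous fun x : Cfg d => ‖u x‖ ^ 2 := hu.1.continuous.norm.pow 2
  have h2 : HasCompactSupport fun x : Cfg d => ‖u x‖ ^ 2 := by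
    refine hu.2.mono fun x hx => ?_
    intro h0
    apply hx
    show ‖u x‖ ^ 2 = 0
    rw [h0, norm_zero]
    norm_num
  exact h1.integrable_of_hasCompactSupport h2

/-- change of variables over the tube -/
lemma mk_cov (S : Setup d F) (φ : Spl dh dm d) (hsm : ContDiff ℝ ∞ (AN.tz S φ))
    (j : EuclideanSpace ℝ (Fin dm) → ℝ) (hj : Continuous j)
    (hdet : ∀ z, |(fderiv ℝ (AN.tz S φ) z).det| = S.Jd φ (AN.zy φ z) * |j (AN.zm φ z)|)
    (e : Cfg d ≃L[ℝ] EuclideanSpace ℝ (Fin dm) × (Cfg dh × Wsp dm))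
    (he : ∀ z, e z = (AN.zm φ z, (AN.zy φ z, AN.zw φ z)))
    (hmp : MeasurePreserving e volume (volume.prod (volume.prod volume)))
    (N : Set (Cfg dh × Wsp dm)) (hN : MeasurableSet N) (ρ : ℝ)
    (hinj : ∀ a a' p p', ‖a‖ < ρ → ‖a'‖ < ρ → p ∈ N → p' ∈ N →
      AN.tub S φ a p = AN.tub S φ a' p' → a = a' ∧ p = p')
    (f : Cfg d → ENNReal) (hf : Measurable f)
    (hinv : ∀ a p, ‖a‖ < ρ → p ∈ N → f (AN.tub S φ a p) = f (emb φ p.1 p.2)) :
    ∫⁻ x in AN.tz S φ '' {z | ‖AN.zm φ z‖ < ρ ∧ (AN.zy φ z, AN.zw φ z) ∈ N}, f x =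
      (∫⁻ a in {a : EuclideanSpace ℝ (Fin dm) | ‖a‖ < ρ}, ENNReal.ofReal |j a|) *
        ∫⁻ p in N, f (emb φ p.1 p.2) * ENNReal.ofReal (S.Jd φ p.1) ∂(volume.prod volume) := by
  obtain ⟨B, hBdef⟩ : ∃ B : Set (Cfg d), B = {z | ‖AN.zm φ z‖ < ρ ∧ (AN.zy φ z, AN.zw φ z) ∈ N} := ⟨_, rfl⟩
  obtain ⟨T, hTdef⟩ : ∃ T : Set (EuclideanSpace ℝ (Fin dm) × (Cfg dh × Wsp dm)),
      T = {a : EuclideanSpace ℝ (Fin dm) | ‖a‖ < ρ} ×ˢ N := ⟨_, rfl⟩
  rw [← hBdef]
  have hA : IsOpen {a : EuclideanSpace ℝ (Fin dm) | ‖a‖ < ρ} :=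
    isOpen_lt (by fun_prop) (by fun_prop)
  have hT : MeasurableSet T := by
    rw [hTdef]
    exact hA.measurableSet.prod hN
  have hBT : B = e ⁻¹' T := by
    rw [hBdef, hTdef]
    ext z
    simp only [Set.mem_ofPred_eq, Set.mem_preimage, he, Set.mem_prod]
  have hB : MeasurableSet B := by
    rw [hBT]
    exact e.continuous.measurable hT
  have hinjB : Set.InjOn (AN.tz S φ) B := by
    intro z hz z' hz' h
    rw [hBdef] at hz hz'
    have h1 := hinj _ _ _ _ hz.1 hz'.1 hz.2 hz'.2 h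
    apply e.injective
    rw [he, he, h1.1, h1.2]
  rw [lintegral_image_eq_lintegral_abs_det_fderiv_mul volume hB
    (fun z _ => ((hsm.differentiable (by simp)) z).hasFDerivAt.hasFDerivWithinAt) hinjB]
  have hcongr : ∫⁻ z in B, ENNReal.ofReal |(fderiv ℝ (AN.tz S φ) z).det| * f (AN.tz S φ z) =
      ∫⁻ z in e ⁻¹' T, (fun q : EuclideanSpace ℝ (Fin dm) × (Cfg dh × Wsp dm) =>
        ENNReal.ofReal |j q.1| * (f (emb φ q.2.1 q.2.2) * ENNReal.ofReal (S.Jd φ q.2.1))) (e z) := by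
    rw [← hBT]
    refine setLIntegral_congr_fun hB fun z hz => ?_
    rw [hBdef] at hz
    simp only [he]
    rw [hdet z, ENNReal.ofReal_mul (by unfold Setup.Jd; exact abs_nonneg _), AN.tz,
      hinv _ _ hz.1 hz.2]
    ring
  rw [hcongr]
  have hmeas1 : Measurable fun a : EuclideanSpace ℝ (Fin dm) => ENNReal.ofReal |j a| :=
    (hj.abs.measurable).ennreal_ofReal
  have hmeas2 : Measurable fun p : Cfg dh × Wsp dm =>
      f (emb φ p.1 p.2) * ENNReal.ofReal (S.Jd φ p.1) :=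
    (hf.comp (AN.tbf_continuous_emb φ).measurable).mul
      (((AN.tbf_continuous_Jd S φ).comp continuous_fst).measurable).ennreal_ofReal
  have hmeas3 : Measurable fun q : EuclideanSpace ℝ (Fin dm) × (Cfg dh × Wsp dm) =>
      ENNReal.ofReal |j q.1| * (f (emb φ q.2.1 q.2.2) * ENNReal.ofReal (S.Jd φ q.2.1)) :=
    (hmeas1.comp measurable_fst).mul (hmeas2.comp measurable_snd)
  rw [hmp.setLIntegral_comp_preimage hT hmeas3, hTdef, ← Measure.prod_restrict]
  rw [lintegral_prod_mul hmeas1.aemeasurable hmeas2.aemeasurable]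

end MK808

open MK808

variable {d : ℕ} {F : Type*} [NormedAddCommGroup F] [InnerProductSpace ℂ F]

/-- **U2** mass bound, the constant does not depend on the compact set -/
theorem masK_of (S : Setup d F) : MasKOfStmt S := by
  intro hTK hD hC hless dh dm r ds φ ψ z₀ hstd
  obtain ⟨ρ₀, hρ₀, hTK'⟩ := hTK hless dh dm r ds φ ψ z₀ hstd
  obtain ⟨hsm, j, hj, hj0, hdet⟩ := hD dh dm φ hstd.std.sub
  obtain ⟨e, he, hmp⟩ := hC d dh dm φ
  obtain ⟨c, hc, hcc⟩ := AN.tbf_const j hj hj0 hρ₀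
  refine ⟨1 / c, by positivity, fun s t hs hst K hK hKs hKR => ?_⟩
  obtain ⟨ε₁, hε₁, hinj1⟩ := hTK' K hK hKR
  obtain ⟨ε₂, hε₂, hbd⟩ := mk_Nr_bound (dm := dm) φ ψ hK hs hst hKs
  refine ⟨min ε₁ ε₂, lt_min hε₁ hε₂, fun ε hε hεε R hR u hu => ?_⟩
  have hb := hbd ε R hε (hεε.trans (min_le_right _ _)) hR
  have ht : 0 < t * R := mul_pos (hs.trans hst) hR
  have hcu : Continuous u := hu.1.1.continuous
  refine ⟨mk_Nr_int S φ ψ ht hb hcu, ?_⟩
  have hinj : ∀ a a' p p', ‖a‖ < ρ₀ → ‖a'‖ < ρ₀ → p ∈ Nr ψ K dm R ε → p' ∈ Nr ψ K dm R ε →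
      AN.tub S φ a p = AN.tub S φ a' p' → a = a' ∧ p = p' := by
    intro a a' p p' ha ha' hp hp' h
    have hm := mk_Nr_mono (dm := dm) ψ K one_pos (hεε.trans (min_le_left _ _))
    have hp1 : R⁻¹ • p ∈ Nr ψ K dm 1 ε := by
      rw [← mk_Nr_smul ψ K hR, smul_inv_smul₀ hR.ne']
      exact hp
    have hp1' : R⁻¹ • p' ∈ Nr ψ K dm 1 ε := by
      rw [← mk_Nr_smul ψ K hR, smul_inv_smul₀ hR.ne']
      exact hp'
    have h1 := hinj1 a a' (R⁻¹ • p) (R⁻¹ • p') ha ha' (hm hp1) (hm hp1') (by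
      rw [AN.tbf_tub_smul, AN.tbf_tub_smul, h])
    exact ⟨h1.1, smul_right_injective _ (inv_ne_zero hR.ne') h1.2⟩
  have hmu : Measurable fun x => ENNReal.ofReal (‖u x‖ ^ 2) :=
    (ENNReal.continuous_ofReal.comp (hcu.norm.pow 2)).measurable
  have hcov := mk_cov S φ hsm j hj hdet e he hmp (Nr ψ K dm R ε) (mk_Nr_meas ψ hK R ε) ρ₀ hinj
    (fun x => ENNReal.ofReal (‖u x‖ ^ 2)) hmu (by
      intro a p _ _
      have h := U.gx983_norm S hu.1 hu.2 (AN.exm φ a) 1 (emb φ p.1 p.2)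
      rw [one_smul] at h
      show ENNReal.ofReal (‖u (ro (NormedSpace.exp (S.adm (AN.exm φ a))) (emb φ p.1 p.2))‖ ^ 2) = _
      rw [h])
  rw [hcc] at hcov
  set N : Set (Cfg dh × Wsp dm) := Nr ψ K dm R ε with hNdef
  set T : Set (Cfg d) := AN.tz S φ '' {z | ‖AN.zm φ z‖ < ρ₀ ∧ (AN.zy φ z, AN.zw φ z) ∈ N} with hTdef
  have hTs : T ⊆ AD.shl d (s * R) (t * R) := by
    rintro x ⟨z, hz, rfl⟩
    have h1 : ‖AN.tz S φ z‖ = ‖emb φ (AN.zy φ z) (AN.zw φ z)‖ := by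
      unfold AN.tz AN.tub
      have h2 := U.gx983_orth S (AN.exm φ (AN.zm φ z)) 1
      rw [one_smul] at h2
      exact U.grp_norm h2 _
    have h3 := hb _ hz.2
    exact ⟨by rw [h1]; exact h3.1, by rw [h1]; exact h3.2⟩
  -- the two integrals
  have hres2 : ∀ p : Cfg dh × Wsp dm, ‖S.res φ u p.1 p.2‖ ^ 2 = ‖u (emb φ p.1 p.2)‖ ^ 2 * S.Jd φ p.1 :=
    fun p => AN.nrm_res_sq S φ u p.1 p.2
  have hce : Continuous fun p : Cfg dh × Wsp dm => ‖u (emb φ p.1 p.2)‖ ^ 2 * S.Jd φ p.1 :=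
    ((hcu.comp (AN.tbf_continuous_emb φ)).norm.pow 2).mul ((AN.tbf_continuous_Jd S φ).comp continuous_fst)
  have hnn : ∀ p : Cfg dh × Wsp dm, 0 ≤ ‖u (emb φ p.1 p.2)‖ ^ 2 * S.Jd φ p.1 := fun p =>
    mul_nonneg (sq_nonneg _) (abs_nonneg _)
  have hE : ∫ x in T, ‖u x‖ ^ 2 = c * ∫ p in N, ‖S.res φ u p.1 p.2‖ ^ 2 ∂(volume.prod volume) := by
    rw [integral_eq_lintegral_of_nonneg_ae (Eventually.of_forall fun x => sq_nonneg _)
      (hcu.norm.pow 2).aestronglyMeasurable, hcov, ENNReal.toReal_mul, ENNReal.toReal_ofReal hc.le]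
    congr 1
    simp only [hres2]
    rw [integral_eq_lintegral_of_nonneg_ae (Eventually.of_forall hnn) hce.aestronglyMeasurable]
    congr 1
    refine lintegral_congr fun p => ?_
    rw [ENNReal.ofReal_mul (sq_nonneg _)]
  have hint : Integrable (fun x => ‖u x‖ ^ 2) (volume : Measure (Cfg d)) :=
    mk_tst_int hu.1
  have hle : ∫ x in T, ‖u x‖ ^ 2 ≤ AD.mas u (AD.shl d (s * R) (t * R)) := by
    unfold AD.mas
    exact setIntegral_mono_set hint.integrableOn (Eventually.of_forall fun x => sq_nonneg _)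
      (Eventually.of_forall hTs)
  rw [hE] at hle
  rw [one_div, inv_mul_eq_div, le_div_iff₀ hc, mul_comm]
  exact hle

end Vale.Agent.P353.Z.AL
end

section

/-! # P353, all `N`, block L: all profiles vanish (L-Zero) -/

open MeasureTheory Filter Topology Matrix
open scoped ContDiff

namespace Vale.Agent.P353.Z.AL

variable {d dh dm r ds n : ℕ} {F : Type*} [NormedAddCommGroup F] [InnerProductSpace ℂ F]

namespace Zero533

lemma sc_add (U : Cfg r → F →L[ℂ] F) (o : Fin n → Cfg ds → F) (b b' : Cfg r → Ek n) :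
    sc U o (fun x => b x + b' x) = fun η s => sc U o b η s + sc U o b' η s := by
  funext η s
  simp [sc, add_smul, Finset.sum_add_distrib]

lemma sc_smul (U : Cfg r → F →L[ℂ] F) (o : Fin n → Cfg ds → F) (c : ℂ) (b : Cfg r → Ek n) :
    sc U o (fun x => c • b x) = fun η s => c • sc U o b η s := by
  funext η s
  simp [sc, Finset.smul_sum, smul_smul]

lemma ZZ_zero (κ : ℝ) (φ : Spl dh dm d) (ψ : Spl r ds dh) (Om : Cfg r → Matrix (Fin dm) (Fin dm) ℝ)
    (R : ℝ) (u : Cfg d → F) : ZZ κ φ ψ Om (fun _ _ => (0 : F)) R u = 0 := by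
  simp [ZZ, AN.bG, AN.Zb]

lemma ulim (𝒰 : Ultrafilter ℕ) (z : ℕ → ℂ) (B : ℝ) (h : ∀ᶠ m in (𝒰 : Filter ℕ), ‖z m‖ ≤ B) :
    Tendsto z (𝒰 : Filter ℕ) (𝓝 (limUnder (𝒰 : Filter ℕ) z)) := by
  have h1 : ((𝒰.map z : Ultrafilter ℂ) : Filter ℂ) ≤ 𝓟 (Metric.closedBall 0 B) := by
    rw [le_principal_iff, Ultrafilter.coe_map, mem_map]
    filter_upwards [h] with m hm
    simpa using hm
  obtain ⟨x, -, hx⟩ := (isCompact_closedBall (0 : ℂ) B).ultrafilter_le_nhds (𝒰.map z) h1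
  exact tendsto_nhds_limUnder ⟨x, hx⟩

lemma shell {A : Set (Cfg r)} (hA : IsCompact A) (h0 : (0 : Cfg r) ∉ A) :
    ∃ s t : ℝ, 0 < s ∧ s < t ∧ A ⊆ AD.shl r s t := by
  obtain ⟨ε, hε, hb⟩ := Metric.isOpen_iff.1 hA.isClosed.isOpen_compl 0 h0
  obtain ⟨M, hM⟩ := hA.isBounded.exists_norm_le
  refine ⟨ε / 2, max M ε + 1, by positivity, ?_, fun x hx => ⟨?_, ?_⟩⟩
  · have := le_max_right M ε
    linarith
  · by_contra hcon
    have h1 : x ∈ Metric.ball (0 : Cfg r) ε := by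
      rw [mem_ball_zero_iff]
      linarith
    exact hb h1 hx
  · have h1 := hM x hx
    have h2 := le_max_left M ε
    linarith

lemma rg {S : Setup d F} {φ : Spl dh dm d} {ψ : Spl r ds dh} {L : Finset (Fin r → ℝ)}
    {Om : Cfg r → Matrix (Fin dm) (Fin dm) ℝ} {K : Submodule ℂ F} {U : Cfg r → F →L[ℂ] F}
    (hB : AX.Bun S φ (AX.Mz S φ (spsw ψ)) L Om K U) : (Coll L)ᶜ ⊆ Rg S φ ψ := by
  intro η hη
  have h := hB.det η hη
  rw [AX.DM_Dz] at h
  exact h

variable {S : Setup d F} {φ : Spl dh dm d} {ψ : Spl r ds dh} {L : Finset (Fin r → ℝ)}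
  {Om : Cfg r → Matrix (Fin dm) (Fin dm) ℝ} {K : Submodule ℂ F} {U : Cfg r → F →L[ℂ] F}
  {o : Fin n → Cfg ds → F} {T : Setup r (Ek n)} {R : ℕ → ℝ} {u : ℕ → Cfg d → F}

lemma zadd (hfin : FiniteDimensional ℂ F) (hLin : LinStmt S) (hI : IsoStmt S) (hdat : Dat S φ ψ L Om K U o T)
    (hSq : AD.Sq S R u) {b b' : Cfg r → Ek n} (hb : LC ((Coll L)ᶜ) b) (hb' : LC ((Coll L)ᶜ) b') (m : ℕ) :
    ZZ S.κ φ ψ Om (sc U o (fun x => b x + b' x)) (R m) (u m) =
      ZZ S.κ φ ψ Om (sc U o b) (R m) (u m) + ZZ S.κ φ ψ Om (sc U o b') (R m) (u m) := by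
  obtain ⟨h2, A, hA, hAΩ, hA0⟩ := hb
  obtain ⟨h2', A', hA', hAΩ', hA0'⟩ := hb'
  have hU : A ∪ A' ⊆ (Coll L)ᶜ := Set.union_subset hAΩ hAΩ'
  have s1 := (hI dh dm r ds n φ ψ L Om K U o T hdat (A ∪ A') (hA.union hA') hU b h2
    (fun x hx => hA0 x fun h => hx (Or.inl h))).1
  have s2 := (hI dh dm r ds n φ ψ L Om K U o T hdat (A ∪ A') (hA.union hA') hU b' h2'
    (fun x hx => hA0' x fun h => hx (Or.inr h))).1
  rw [sc_add]
  exact (hLin hfin dh dm r ds φ ψ L Om K U hdat.bun (A ∪ A') (hA.union hA') (hU.trans (rg hdat.bun)) (R m)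
    (hSq.pos m) (u m) (hSq.inv m).1).2.1 _ _ s1 s2

lemma zsmul (hfin : FiniteDimensional ℂ F) (hLin : LinStmt S) (hI : IsoStmt S) (hdat : Dat S φ ψ L Om K U o T)
    (hSq : AD.Sq S R u) (c : ℂ) {b : Cfg r → Ek n} (hb : LC ((Coll L)ᶜ) b) (m : ℕ) :
    ZZ S.κ φ ψ Om (sc U o (fun x => c • b x)) (R m) (u m) =
      (starRingEnd ℂ) c * ZZ S.κ φ ψ Om (sc U o b) (R m) (u m) := by
  obtain ⟨h2, A, hA, hAΩ, hA0⟩ := hb
  have s1 := (hI dh dm r ds n φ ψ L Om K U o T hdat A hA hAΩ b h2 hA0).1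
  rw [sc_smul]
  exact (hLin hfin dh dm r ds φ ψ L Om K U hdat.bun A hA (hAΩ.trans (rg hdat.bun)) (R m)
    (hSq.pos m) (u m) (hSq.inv m).1).2.2 c _ s1

lemma sqM (h : AD.Sq S R u) : SqM S R u where
  inv := h.inv
  pos := h.pos
  lim := h.lim
  bd := by
    intro s t hs ht
    obtain ⟨C, hC⟩ := h.bd s t hs ht
    refine ⟨C, fun n => ?_⟩
    have h1 := hC n
    have h2 : 0 ≤ R n ^ 2 * AD.ena S (u n) (AD.shl d (s * R n) (t * R n)) := by
      refine mul_nonneg (sq_nonneg _) (Finset.sum_nonneg fun β _ => ?_)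
      exact integral_nonneg fun x => by positivity
    linarith

/-- uniform bound of the functionals -/
lemma zbound (hfin : FiniteDimensional ℂ F) (hC : AN.Cless S) (hUB : UBStmt S) (hI : IsoStmt S) {z₀ : Cfg r}
    (hstd : AD.Std2 S φ (spsw ψ) z₀) (hdat : Dat S φ ψ L Om K U o T) (hSq : AD.Sq S R u) :
    ∃ C : ℝ, 0 < C ∧ ∀ s t B : ℝ, 0 < s → s < t → 0 ≤ B →
      (∀ᶠ m in atTop, AD.mas (u m) (AD.shl d (s * R m) (t * R m)) ≤ B) → ∀ b : Cfg r → Ek n,
      LC (AD.shl r s t ∩ (Coll L)ᶜ) b → ∀ e : ℝ, 0 < e → ∀ᶠ m in atTop,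
      ‖ZZ S.κ φ ψ Om (sc U o b) (R m) (u m)‖ ≤ C * Real.sqrt B * Real.sqrt (∫ x, ‖b x‖ ^ 2) + e := by
  obtain ⟨C, hC0, h⟩ := hUB hfin hC dh dm r ds φ ψ z₀ hstd L Om K U hdat.bun
  refine ⟨C, hC0, fun s t B hs hst hB hmas b hb e he => ?_⟩
  obtain ⟨h2, A, hA, hAΩ, hA0⟩ := hb
  have hA1 : A ⊆ AD.shl r s t := hAΩ.trans Set.inter_subset_left
  have hA2 : A ⊆ (Coll L)ᶜ := hAΩ.trans Set.inter_subset_right
  obtain ⟨hs2, hn⟩ := hI dh dm r ds n φ ψ L Om K U o T hdat A hA hA2 b h2 hA0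
  filter_upwards [h s t hs hst A hA hA1 (hA2.trans (rg hdat.bun)) R u (sqM hSq) _ hs2 e he, hmas] with m h3 h4
  rw [hn] at h3
  refine h3.trans (add_le_add ?_ le_rfl)
  have h5 : Real.sqrt (AD.mas (u m) (AD.shl d (s * R m) (t * R m))) ≤ Real.sqrt B := Real.sqrt_le_sqrt h4
  have h6 : 0 ≤ C * Real.sqrt (∫ x, ‖b x‖ ^ 2) := by positivity
  calc C * Real.sqrt (∫ x, ‖b x‖ ^ 2) * Real.sqrt (AD.mas (u m) (AD.shl d (s * R m) (t * R m)))
      ≤ C * Real.sqrt (∫ x, ‖b x‖ ^ 2) * Real.sqrt B := mul_le_mul_of_nonneg_left h5 h6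
    _ = _ := by ring

lemma sc_zero (U : Cfg r → F →L[ℂ] F) (o : Fin n → Cfg ds → F) :
    sc U o (fun _ => (0 : Ek n)) = fun _ _ => 0 := by
  funext η s
  simp [sc]

lemma LC_mono {Ω Ω' : Set (Cfg r)} (h : Ω ⊆ Ω') {b : Cfg r → Ek n} (hb : LC Ω b) : LC Ω' b := by
  obtain ⟨h2, A, hA, hAΩ, hA0⟩ := hb
  exact ⟨h2, A, hA, hAΩ.trans h, hA0⟩

lemma LC_ball {Ω : Set (Cfg r)} {η : Cfg r} (hη : η ≠ 0) {b : Cfg r → Ek n} (hb : LC Ω b)
    (h0 : ∀ x, x ∉ Metric.ball η (‖η‖ / 2) → b x = 0) :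
    LC (AD.shl r (‖η‖ / 4) (2 * ‖η‖) ∩ Ω) b := by
  obtain ⟨h2, A, hA, hAΩ, hA0⟩ := hb
  have hn : 0 < ‖η‖ := norm_pos_iff.2 hη
  refine ⟨h2, A ∩ Metric.closedBall η (‖η‖ / 2), hA.inter_right Metric.isClosed_closedBall, ?_, ?_⟩
  · rintro x ⟨hx1, hx2⟩
    rw [mem_closedBall_iff_norm] at hx2
    have h3 := norm_sub_norm_le η x
    have h4 := norm_sub_norm_le x η
    rw [norm_sub_rev] at h3
    refine ⟨⟨?_, ?_⟩, hAΩ hx1⟩ <;> linarith
  · intro x hx
    by_cases h : x ∈ A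
    · refine h0 x fun hb => hx ⟨h, Metric.ball_subset_closedBall hb⟩
    · exact hA0 x h

lemma LC_Q0 (T : Setup r (Ek n)) {ζ : Cfg r → Ek n} (hζ : AD.TOff L ζ) (β : Fin 16) :
    LC ((Coll L ∪ {0})ᶜ) (T.Q0 β ζ) := by
  obtain ⟨⟨htst, hdis⟩, h0⟩ := hζ
  have hQ := AD.lio_Tst_Q0 T htst β
  refine ⟨hQ.memLp, tsupport ζ, htst.2, ?_, fun x hx => ?_⟩
  · intro x hx
    rintro (h | h)
    · exact Set.disjoint_left.1 hdis hx h
    · rw [Set.mem_singleton_iff] at h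
      subst h
      exact h0 hx
  · have h1 : fderiv ℝ ζ x = 0 := fderiv_of_notMem_tsupport (𝕜 := ℝ) hx
    simp [Setup.Q0, pd, h1]

end Zero533

open Zero533 in
/-- **L-Zero** -/
theorem zero_of (S : Setup d F) : ZeroOfStmt S := by
  intro hRz hLin hUB hI hEq hLiou hCut hfin hC dh dm r ds n φ ψ z₀ hstd L Om K U o T hdat R u hSq hG hV b₀ hb₀
  rcases Nat.eq_zero_or_pos r with hr | hr
  · subst hr
    have h1 : b₀ = fun _ => 0 := by
      funext x
      obtain ⟨-, A, -, hAΩ, hA0⟩ := hb₀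
      refine hA0 x fun hx => hAΩ hx (Or.inr ?_)
      exact Subsingleton.elim _ _
    rw [h1, sc_zero]
    simp only [ZZ_zero]
    exact tendsto_const_nhds
  obtain ⟨C, hC0, hbd⟩ := zbound hfin hC hUB hI hstd hdat hSq
  set Ω : Set (Cfg r) := (Coll L ∪ {0})ᶜ with hΩdef
  have hΩ : IsOpen Ω := (hdat.bun.closed.union isClosed_singleton).isOpen_compl
  have hΩ1 : Ω ⊆ (Coll L)ᶜ := Set.compl_subset_compl.2 Set.subset_union_left
  have hΩ0 : (0 : Cfg r) ∉ Ω := fun h => h (Or.inr rfl)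
  have hsh : ∀ s t : ℝ, 0 < s → AD.shl r s t ∩ (Coll L)ᶜ ⊆ Ω := by
    rintro s t hs x ⟨hx1, hx2⟩ (h | h)
    · exact hx2 h
    · rw [Set.mem_singleton_iff] at h
      subst h
      have := hx1.1
      rw [norm_zero] at this
      linarith
  by_contra hcon
  obtain ⟨e, he, hfr⟩ : ∃ e : ℝ, 0 < e ∧ ∃ᶠ m in atTop, e ≤ ‖ZZ S.κ φ ψ Om (sc U o b₀) (R m) (u m)‖ := by
    by_contra h
    push Not at h
    apply hcon
    rw [Metric.tendsto_nhds]
    intro ε hε
    have h1 := h ε hε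
    filter_upwards [h1] with m hm
    rw [dist_zero_right]
    exact hm
  have hne : (atTop ⊓ 𝓟 {m : ℕ | e ≤ ‖ZZ S.κ φ ψ Om (sc U o b₀) (R m) (u m)‖}).NeBot :=
    frequently_mem_iff_neBot.1 hfr
  set 𝒰 := Ultrafilter.of (atTop ⊓ 𝓟 {m : ℕ | e ≤ ‖ZZ S.κ φ ψ Om (sc U o b₀) (R m) (u m)‖}) with h𝒰def
  have h𝒰 : (𝒰 : Filter ℕ) ≤ atTop ⊓ 𝓟 {m : ℕ | e ≤ ‖ZZ S.κ φ ψ Om (sc U o b₀) (R m) (u m)‖} :=
    Ultrafilter.of_le _
  have h𝒰1 : (𝒰 : Filter ℕ) ≤ atTop := h𝒰.trans inf_le_left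
  have h𝒰2 : ∀ᶠ m in (𝒰 : Filter ℕ), e ≤ ‖ZZ S.κ φ ψ Om (sc U o b₀) (R m) (u m)‖ :=
    le_principal_iff.1 (h𝒰.trans inf_le_right)
  have hmasB : ∀ s t : ℝ, 0 < s → s < t → ∃ B : ℝ, 0 ≤ B ∧
      ∀ᶠ m in atTop, AD.mas (u m) (AD.shl d (s * R m) (t * R m)) ≤ B := by
    intro s t hs hst
    obtain ⟨B, hB⟩ := (sqM hSq).bd s t hs hst
    exact ⟨max B 0, le_max_right _ _, Eventually.of_forall fun m => (hB m).trans (le_max_left _ _)⟩
  let ℓ : (Cfg r → Ek n) → ℂ := fun b =>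
    limUnder (𝒰 : Filter ℕ) (fun m => ZZ S.κ φ ψ Om (sc U o b) (R m) (u m))
  have hcv : ∀ b, LC Ω b → Tendsto (fun m => ZZ S.κ φ ψ Om (sc U o b) (R m) (u m)) (𝒰 : Filter ℕ) (𝓝 (ℓ b)) := by
    intro b hb
    obtain ⟨h2, A, hA, hAΩ, hA0⟩ := hb
    obtain ⟨s, t, hs, hst, hAs⟩ := shell hA fun h => hΩ0 (hAΩ h)
    obtain ⟨B, hB0, hB⟩ := hmasB s t hs hst
    have h3 := hbd s t B hs hst hB0 hB b ⟨h2, A, hA, Set.subset_inter hAs (hAΩ.trans hΩ1), hA0⟩ 1 one_pos
    exact ulim 𝒰 _ _ (h3.filter_mono h𝒰1)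
  have hℓ : ∀ s t B : ℝ, 0 < s → s < t → 0 ≤ B →
      (∀ᶠ m in atTop, AD.mas (u m) (AD.shl d (s * R m) (t * R m)) ≤ B) → ∀ b : Cfg r → Ek n,
      LC (AD.shl r s t ∩ (Coll L)ᶜ) b → ‖ℓ b‖ ≤ C * Real.sqrt B * Real.sqrt (∫ x, ‖b x‖ ^ 2) := by
    intro s t B hs hst hB0 hB b hb
    refine le_of_forall_pos_le_add fun ε hε => ?_
    exact le_of_tendsto (hcv b (LC_mono (hsh s t hs) hb)).norm
      ((hbd s t B hs hst hB0 hB b hb ε hε).filter_mono h𝒰1)
  obtain ⟨f, hfm, -, hf, hf'⟩ := hRz r n Ω ℓ hΩ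
    (fun b b' hb hb' => by
      refine Tendsto.limUnder_eq (((hcv b hb).add (hcv b' hb')).congr fun m => ?_)
      exact (zadd hfin hLin hI hdat hSq (LC_mono hΩ1 hb) (LC_mono hΩ1 hb') m).symm)
    (fun c b hb => by
      refine Tendsto.limUnder_eq (((hcv b hb).const_mul _).congr fun m => ?_)
      exact (zsmul hfin hLin hI hdat hSq c (LC_mono hΩ1 hb) m).symm)
    (fun η hη => by
      have hη0 : η ≠ 0 := by
        rintro rfl
        exact hΩ0 hη
      have hn : 0 < ‖η‖ := norm_pos_iff.2 hη0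
      obtain ⟨B, hB0, hB⟩ := hmasB (‖η‖ / 4) (2 * ‖η‖) (by positivity) (by linarith)
      refine ⟨‖η‖ / 2, C * Real.sqrt B, by positivity, fun b hb hb0 => ?_⟩
      exact hℓ _ _ B (by positivity) (by linarith) hB0 hB b (LC_ball hη0 (LC_mono hΩ1 hb) hb0))
  have hnull : ∀ᵐ x ∂(volume : Measure (Cfg r)), x ∉ Coll L := by
    obtain ⟨_, _, _, _, _, h, _⟩ := hCut r L hdat.bun.L_ne
    exact h
  have hset : ∀ s t : ℝ, (AD.shl r s t ∩ (Coll L)ᶜ : Set (Cfg r)) =ᵐ[volume] AD.shl r s t := by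
    intro s t
    filter_upwards [hnull] with x hx
    exact propext ⟨fun h => h.1, fun h => ⟨h, hx⟩⟩
  have hshell : ∀ s t B : ℝ, 0 < s → s < t → 0 ≤ B →
      (∀ᶠ m in atTop, AD.mas (u m) (AD.shl d (s * R m) (t * R m)) ≤ B) →
      IntegrableOn (fun x => ‖f x‖ ^ 2) (AD.shl r s t) (volume : Measure (Cfg r)) ∧
        ∫ x in AD.shl r s t, ‖f x‖ ^ 2 ≤ C ^ 2 * B := by
    intro s t B hs hst hB0 hB
    have hopen : IsOpen (AD.shl r s t ∩ (Coll L)ᶜ) := by
      refine IsOpen.inter ?_ hdat.bun.closed.isOpen_compl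
      exact (isOpen_lt continuous_const continuous_norm).inter (isOpen_lt continuous_norm continuous_const)
    have h1 := hf' (AD.shl r s t ∩ (Coll L)ᶜ) (C * Real.sqrt B) hopen (hsh s t hs) (by positivity)
      (fun b hb => hℓ s t B hs hst hB0 hB b hb)
    refine ⟨h1.1.congr_set_ae (hset s t).symm, ?_⟩
    rw [← setIntegral_congr_set (hset s t)]
    refine h1.2.trans (le_of_eq ?_)
    rw [mul_pow, Real.sq_sqrt hB0]
  have hf0 : ∀ᵐ x ∂(volume : Measure (Cfg r)), f x = 0 := by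
    obtain ⟨C₁, hC₁⟩ := hG
    refine hLiou r n T (hCut r) hr L hdat.bun.L_ne f hfm (fun s t hs hst => ?_) ⟨C ^ 2 * max C₁ 0, fun k => ?_⟩
      (fun β ζ hζ => ?_)
    · obtain ⟨B, hB0, hB⟩ := hmasB s t hs hst
      exact (hshell s t B hs hst hB0 hB).1
    · have h2 : (0 : ℝ) < (2 : ℝ) ^ (3 * |k|) := by positivity
      have h3 : (2 : ℝ) ^ k < (2 : ℝ) ^ (k + 1) := zpow_lt_zpow_right₀ (by norm_num) (by omega)
      have h1 := (hshell ((2 : ℝ) ^ k) ((2 : ℝ) ^ (k + 1)) (max C₁ 0 * (2 : ℝ) ^ (3 * |k|)) (by positivity) h3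
        (by positivity) ?_).2
      · rw [AD.dsh, mul_assoc]
        exact h1
      · filter_upwards [hC₁ k] with m hm
        exact hm.trans (mul_le_mul_of_nonneg_right (le_max_left _ _) h2.le)
    · rw [← hf _ (LC_Q0 T hζ β)]
      have h1 := hEq hfin hC dh dm r ds n φ ψ z₀ hstd L Om K U o T hdat R u hSq hV β ζ hζ
      exact (h1.mono_left h𝒰1).limUnder_eq
  have h1 : ℓ b₀ = 0 := by
    rw [hf b₀ hb₀]
    have h2 : ∫ x, inner ℂ (b₀ x) (f x) = ∫ x : Cfg r, (0 : ℂ) := by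
      refine integral_congr_ae ?_
      filter_upwards [hf0] with x hx
      rw [hx, inner_zero_right]
    rw [h2, integral_zero]
  have h2 : e ≤ ‖ℓ b₀‖ := ge_of_tendsto (hcv b₀ hb₀).norm h𝒰2
  rw [h1, norm_zero] at h2
  linarith

end Vale.Agent.P353.Z.AL
end

section

/-! # P353, all `N`, block P-Inj: two commuting symmetric operators conjugate by a map near `1` are equal -/

namespace Vale.Agent.P353.Z
namespace AP

variable {E : Type*} [NormedAddCommGroup E] [InnerProductSpace ℂ E] [FiniteDimensional ℂ E]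

/-- two commuting symmetric operators `A`, `B` with `B G = G A`, `G` near `1`, are equal -/
theorem ia_near (A B G : E →ₗ[ℂ] E) (hA : A.IsSymmetric) (hB : B.IsSymmetric) (hAB : Commute A B)
    (hG : ∀ x, ‖G x - x‖ ≤ 1 / 2 * ‖x‖) (hBG : ∀ x, B (G x) = G (A x)) : A = B := by
  have hinj : Function.Injective G := by
    refine (injective_iff_map_eq_zero G).2 fun x hx => ?_
    have h1 := hG x
    rw [hx, zero_sub, norm_neg] at h1
    have h2 : ‖x‖ ≤ 0 := by linarith [norm_nonneg x]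
    exact norm_le_zero_iff.1 h2
  have hsur : Function.Surjective G := LinearMap.injective_iff_surjective.1 hinj
  have key : ∀ α γ : ℂ, Module.End.eigenspace A α ⊓ Module.End.eigenspace B γ ≤
      LinearMap.ker (A - B) := by
    intro α γ x hx
    obtain ⟨hxA, hxB⟩ := Submodule.mem_inf.1 hx
    rw [Module.End.mem_eigenspace_iff] at hxA hxB
    rw [LinearMap.mem_ker, LinearMap.sub_apply, hxA, hxB]
    by_cases hαγ : α = γ
    · rw [hαγ, sub_self]
    · obtain ⟨y, rfl⟩ := hsur x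
      have hy : A y = γ • y := by
        apply hinj
        rw [← hBG, hxB, map_smul]
      have horth : inner ℂ (G y) y = 0 := by
        have h1 := hA.orthogonalFamily_eigenspaces hαγ ⟨G y, Module.End.mem_eigenspace_iff.2 hxA⟩
          ⟨y, Module.End.mem_eigenspace_iff.2 hy⟩
        simpa using h1
      have h2 : ‖G y - y‖ ^ 2 = ‖G y‖ ^ 2 + ‖y‖ ^ 2 := by
        rw [@norm_sub_sq ℂ, horth]
        simp
      have h3 : y = 0 := by
        by_contra hne
        have h4 : 0 < ‖y‖ := norm_pos_iff.2 hne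
        have h5 := hG y
        have h6 : ‖G y - y‖ ^ 2 ≤ (1 / 2 * ‖y‖) ^ 2 :=
          pow_le_pow_left₀ (norm_nonneg _) h5 2
        nlinarith [sq_nonneg ‖G y‖]
      rw [h3, map_zero, smul_zero, smul_zero, sub_zero]
  have htop := hA.iSup_iSup_eigenspace_inf_eigenspace_eq_top_of_commute hB hAB
  have h5 : LinearMap.ker (A - B) = ⊤ := by
    refine le_antisymm le_top ?_
    rw [← htop]
    exact iSup_le fun α => iSup_le fun γ => key α γ
  exact sub_eq_zero.1 (LinearMap.ker_eq_top.1 h5)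

end AP
end Vale.Agent.P353.Z
end

section

/-! # P353, all `N`, block P-Inj, part B: `exp(ad ξ)` restricted to the centre of the centraliser -/

open MeasureTheory Filter Topology
open scoped ContDiff

namespace Vale.Agent.P353.Z
namespace AP

variable {d : ℕ} {F : Type} [NormedAddCommGroup F] [InnerProductSpace ℂ F]

theorem ib_adm_add (S : Setup d F) (a b : Fin d → ℝ) : S.adm (a + b) = S.adm a + S.adm b := by
  ext A C
  simp only [Setup.adm, Matrix.of_apply, Matrix.add_apply, Pi.add_apply, mul_add,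
    Finset.sum_add_distrib]

theorem ib_adm_smul (S : Setup d F) (t : ℝ) (a : Fin d → ℝ) : S.adm (t • a) = t • S.adm a := by
  ext A C
  simp only [Setup.adm, Matrix.of_apply, Matrix.smul_apply, Pi.smul_apply, smul_eq_mul,
    Finset.mul_sum]
  exact Finset.sum_congr rfl fun B _ => by ring

/-- `ad` as a linear map -/
noncomputable def adL (S : Setup d F) : (Fin d → ℝ) →ₗ[ℝ] Matrix (Fin d) (Fin d) ℝ where
  toFun a := S.adm a
  map_add' := ib_adm_add S
  map_smul' := ib_adm_smul S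

theorem ib_br_swap (S : Setup d F) (a b : Fin d → ℝ) : br S b a = - br S a b := by
  funext A
  simp only [br, Matrix.mulVec, dotProduct, Setup.adm, Matrix.of_apply, Pi.neg_apply,
    Finset.sum_mul, ← Finset.sum_neg_distrib]
  rw [Finset.sum_comm]
  refine Finset.sum_congr rfl fun B _ => Finset.sum_congr rfl fun C _ => ?_
  rw [S.f_swap' A B C]
  ring

/-- `cen` as a subspace -/
def cenM (S : Setup d F) (T : Set (Fin d → ℝ)) : Submodule ℝ (Fin d → ℝ) where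
  carrier := cen S T
  add_mem' := fun {a b} ha hb w hw => by
    have h1 := ha w hw
    have h2 := hb w hw
    simp only [br] at h1 h2 ⊢
    rw [Matrix.mulVec_add, h1, h2, add_zero]
  zero_mem' := fun w _ => by simp only [br, Matrix.mulVec_zero]
  smul_mem' := fun c a ha w hw => by
    have h1 := ha w hw
    simp only [br] at h1 ⊢
    rw [Matrix.mulVec_smul, h1, smul_zero]

/-- the centre of `cen z` -/
def zc (S : Setup d F) (z : Set (Fin d → ℝ)) : Submodule ℝ (Fin d → ℝ) :=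
  cenM S z ⊓ cenM S (cen S z)

theorem ib_mem_zc (S : Setup d F) (z : Set (Fin d → ℝ)) (v : Fin d → ℝ) :
    v ∈ zc S z ↔ v ∈ cen S z ∧ ∀ w ∈ cen S z, br S v w = 0 := by
  constructor
  · rintro ⟨h1, h2⟩
    refine ⟨h1, fun w hw => ?_⟩
    rw [ib_br_swap S w v, h2 w hw, neg_zero]
  · rintro ⟨h1, h2⟩
    refine ⟨h1, fun w hw => ?_⟩
    rw [ib_br_swap S v w, h2 w hw, neg_zero]

theorem ib_sub_zc (S : Setup d F) (z : Set (Fin d → ℝ)) (hz : ∀ a ∈ z, ∀ b ∈ z, br S a b = 0)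
    (v : Fin d → ℝ) (hv : v ∈ z) : v ∈ zc S z := by
  refine (ib_mem_zc S z v).2 ⟨fun w hw => hz w hw v hv, fun w hw => hw v hv⟩

/-- the orthogonal complement of `cen z` -/
def pM (S : Setup d F) (z : Set (Fin d → ℝ)) : Submodule ℝ (Fin d → ℝ) where
  carrier := {ξ | ∀ v ∈ cen S z, ∑ A, ξ A * v A = 0}
  add_mem' := fun {a b} ha hb v hv => by
    have h1 := ha v hv
    have h2 := hb v hv
    simp only [Pi.add_apply, add_mul, Finset.sum_add_distrib]
    rw [h1, h2, add_zero]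
  zero_mem' := fun v _ => by simp only [Pi.zero_apply, zero_mul, Finset.sum_const_zero]
  smul_mem' := fun c a ha v hv => by
    have h1 := ha v hv
    simp only [Pi.smul_apply, smul_eq_mul, mul_assoc, ← Finset.mul_sum]
    rw [h1, mul_zero]

theorem ib_ker (S : Setup d F) (z : Set (Fin d → ℝ)) (hz : ∀ a ∈ z, ∀ b ∈ z, br S a b = 0)
    (ξ : Fin d → ℝ) (hp : ξ ∈ pM S z) (h : ∀ v ∈ zc S z, br S ξ v = 0) : ξ = 0 := by
  have h1 : ξ ∈ cen S z := fun w hw => by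
    rw [ib_br_swap S ξ w, h w (ib_sub_zc S z hz w hw), neg_zero]
  have h2 : ∑ A, ξ A * ξ A = 0 := hp ξ h1
  funext A
  have h3 := (Finset.sum_eq_zero_iff_of_nonneg (fun A _ => mul_self_nonneg (ξ A))).1 h2 A
    (Finset.mem_univ A)
  exact mul_self_eq_zero.1 h3

/-- `ξ ↦ ad ξ` on a family of vectors -/
noncomputable def adT (S : Setup d F) (z : Set (Fin d → ℝ)) {n : ℕ} (b : Fin n → Fin d → ℝ) :
    pM S z →ₗ[ℝ] (Fin n → Fin d → ℝ) where
  toFun ξ := fun i => (S.adm ξ).mulVec (b i)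
  map_add' x y := by
    funext i
    simp only [Submodule.coe_add, ib_adm_add, Matrix.add_mulVec, Pi.add_apply]
  map_smul' c x := by
    funext i
    simp only [Submodule.coe_smul, ib_adm_smul, Matrix.smul_mulVec, RingHom.id_apply, Pi.smul_apply]

theorem ib_anti (S : Setup d F) (z : Set (Fin d → ℝ)) (hz : ∀ a ∈ z, ∀ b ∈ z, br S a b = 0) :
    ∃ (n : ℕ) (b : Fin n → Fin d → ℝ), (∀ i, b i ∈ zc S z) ∧
      ∃ K : ℝ, 0 < K ∧ ∀ ξ : pM S z, ‖ξ‖ ≤ K * ‖adT S z b ξ‖ := by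
  set B := Module.finBasis ℝ (zc S z) with hB
  refine ⟨_, fun i => (B i : Fin d → ℝ), fun i => (B i).2, ?_⟩
  set T := adT S z (fun i => (B i : Fin d → ℝ)) with hT
  have hk : LinearMap.ker T = ⊥ := by
    rw [LinearMap.ker_eq_bot']
    intro ξ hξ
    refine Subtype.ext (ib_ker S z hz ξ ξ.2 fun v hv => ?_)
    have h1 : ∀ i, (S.adm ξ).mulVec (B i : Fin d → ℝ) = 0 := fun i => congrFun hξ i
    have h2 : (((S.adm ξ).mulVecLin ∘ₗ (zc S z).subtype) : zc S z →ₗ[ℝ] (Fin d → ℝ)) = 0 := by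
      refine B.ext fun i => ?_
      exact h1 i
    exact LinearMap.congr_fun h2 ⟨v, hv⟩
  obtain ⟨K, hK, hA⟩ := LinearMap.exists_antilipschitzWith T hk
  refine ⟨K, NNReal.coe_pos.2 hK, fun ξ => ?_⟩
  have h1 := hA.le_mul_dist ξ 0
  rwa [map_zero, dist_zero_right, dist_zero_right] at h1

theorem ib_exp {𝔸 : Type*} [NormedRing 𝔸] [NormedAlgebra ℝ 𝔸] [NormedAlgebra ℚ 𝔸]
    [CompleteSpace 𝔸] {c : ℝ} (hc : 0 < c) :
    ∃ ε : ℝ, 0 < ε ∧ ∀ X Y : 𝔸, ‖X‖ < ε → ‖Y‖ < ε →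
      ‖NormedSpace.exp X - NormedSpace.exp Y - (X - Y)‖ ≤ c * ‖X - Y‖ := by
  have h1 := (hasStrictFDerivAt_exp_zero (𝕂 := ℝ) (𝔸 := 𝔸)).isLittleO.def hc
  obtain ⟨ε, hε, h3⟩ := Metric.eventually_nhds_iff.1 h1
  refine ⟨ε, hε, fun X Y h h' => ?_⟩
  have h4 : dist (X, Y) ((0 : 𝔸), (0 : 𝔸)) < ε := by
    rw [Prod.dist_eq]
    simp only [dist_zero_right]
    exact max_lt h h'
  exact h3 h4

section Norm

open scoped Matrix.Norms.Operator

theorem ib_strict {c : ℝ} (hc : 0 < c) :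
    ∃ ε : ℝ, 0 < ε ∧ ∀ X Y : Matrix (Fin d) (Fin d) ℝ, ‖X‖ < ε → ‖Y‖ < ε →
      ‖NormedSpace.exp X - NormedSpace.exp Y - (X - Y)‖ ≤ c * ‖X - Y‖ :=
  ib_exp hc

theorem ib_bound (S : Setup d F) : ∃ C : ℝ, 0 < C ∧ ∀ ξ : Fin d → ℝ, ‖S.adm ξ‖ ≤ C * ‖ξ‖ := by
  refine ⟨∑ A, ‖S.adm (fun B => if A = B then 1 else 0)‖ + 1, by positivity, fun ξ => ?_⟩
  have h1 : S.adm ξ = ∑ A, ξ A • S.adm (fun B => if A = B then 1 else 0) :=
    LinearMap.pi_apply_eq_sum_univ (adL S) ξ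
  have h2 : ‖S.adm ξ‖ ≤ ∑ A, ‖S.adm (fun B => if A = B then 1 else 0)‖ * ‖ξ‖ := by
    rw [h1]
    refine (norm_sum_le _ _).trans (Finset.sum_le_sum fun A _ => ?_)
    rw [norm_smul, mul_comm]
    exact mul_le_mul_of_nonneg_left (norm_le_pi_norm ξ A) (norm_nonneg _)
  rw [← Finset.sum_mul] at h2
  refine h2.trans (mul_le_mul_of_nonneg_right (by linarith) (norm_nonneg _))

/-- **part B** -/
theorem inj_partB (S : Setup d F) (z : Set (Fin d → ℝ))
    (hz : ∀ a ∈ z, ∀ b ∈ z, br S a b = 0) :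
    ∃ δ : ℝ, 0 < δ ∧ ∀ ξ ξ' : Fin d → ℝ,
      (∀ v ∈ cen S z, ∑ A, ξ A * v A = 0) → (∀ v ∈ cen S z, ∑ A, ξ' A * v A = 0) →
      (∑ A, ξ A ^ 2 < δ) → (∑ A, ξ' A ^ 2 < δ) →
      (∀ v ∈ zc S z, (NormedSpace.exp (S.adm ξ)).mulVec v =
        (NormedSpace.exp (S.adm ξ')).mulVec v) → ξ = ξ' := by
  obtain ⟨n, b, hb, K, hK, hanti⟩ := ib_anti S z hz
  obtain ⟨C, hC, hCb⟩ := ib_bound S
  have hc : 0 < 1 / (2 * K * C * (‖b‖ + 1)) := by positivity
  obtain ⟨ε, hε, hexp⟩ := ib_strict (d := d) hc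
  have hsmall : ∀ ξ : Fin d → ℝ, ∑ A, ξ A ^ 2 < (ε / C) ^ 2 → ‖S.adm ξ‖ < ε := by
    intro ξ h
    have h1 : ‖ξ‖ < ε / C := by
      rw [pi_norm_lt_iff (by positivity)]
      intro A
      rw [Real.norm_eq_abs]
      refine abs_lt_of_sq_lt_sq ?_ (by positivity)
      exact (Finset.single_le_sum (f := fun A => ξ A ^ 2) (fun A _ => sq_nonneg (ξ A))
        (Finset.mem_univ A)).trans_lt h
    refine (hCb ξ).trans_lt ?_
    rw [lt_div_iff₀ hC] at h1
    linarith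
  refine ⟨(ε / C) ^ 2, by positivity, fun ξ ξ' hp hp' hs hs' heq => ?_⟩
  have h1 := hexp (S.adm ξ) (S.adm ξ') (hsmall ξ hs) (hsmall ξ' hs')
  set w : pM S z := ⟨ξ, hp⟩ - ⟨ξ', hp'⟩ with hw
  have hwv : (w : Fin d → ℝ) = ξ - ξ' := rfl
  have hadw : S.adm (w : Fin d → ℝ) = S.adm ξ - S.adm ξ' := by
    rw [hwv]
    exact (adL S).map_sub ξ ξ'
  have h4 : ‖S.adm ξ - S.adm ξ'‖ ≤ C * ‖w‖ := by
    rw [← hadw]
    exact hCb (w : Fin d → ℝ)
  have h2 : ‖adT S z b w‖ ≤ 1 / (2 * K * C * (‖b‖ + 1)) * (C * ‖w‖) * ‖b‖ := by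
    rw [pi_norm_le_iff_of_nonneg (by positivity)]
    intro i
    have h3 : adT S z b w i =
        -((NormedSpace.exp (S.adm ξ) - NormedSpace.exp (S.adm ξ') -
          (S.adm ξ - S.adm ξ')).mulVec (b i)) := by
      have h5 : adT S z b w i = (S.adm ξ - S.adm ξ').mulVec (b i) := by
        rw [← hadw]
        rfl
      rw [h5, Matrix.sub_mulVec (NormedSpace.exp (S.adm ξ) - NormedSpace.exp (S.adm ξ')),
        Matrix.sub_mulVec (NormedSpace.exp (S.adm ξ)), heq _ (hb i), sub_self, zero_sub, neg_neg]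
    rw [h3, norm_neg]
    refine (Matrix.linfty_opNorm_mulVec _ _).trans ?_
    refine mul_le_mul (h1.trans (mul_le_mul_of_nonneg_left h4 hc.le)) (norm_le_pi_norm b i)
      (norm_nonneg _) (by positivity)
  have h6 := hanti w
  have h7 : ‖w‖ ≤ 1 / 2 * ‖w‖ := by
    have h8 : K * ‖adT S z b w‖ ≤ K * (1 / (2 * K * C * (‖b‖ + 1)) * (C * ‖w‖) * ‖b‖) :=
      mul_le_mul_of_nonneg_left h2 hK.le
    have h9 : K * (1 / (2 * K * C * (‖b‖ + 1)) * (C * ‖w‖) * ‖b‖) =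
        1 / 2 * (‖b‖ / (‖b‖ + 1)) * ‖w‖ := by
      field_simp
    have h10 : ‖b‖ / (‖b‖ + 1) ≤ 1 := by
      rw [div_le_one (by positivity)]
      linarith
    have h11 : 1 / 2 * (‖b‖ / (‖b‖ + 1)) * ‖w‖ ≤ 1 / 2 * ‖w‖ :=
      mul_le_mul_of_nonneg_right (by linarith) (norm_nonneg _)
    linarith
  have h12 : ‖w‖ = 0 := le_antisymm (by linarith) (norm_nonneg _)
  have h13 : w = 0 := norm_eq_zero.1 h12
  have h14 : ξ - ξ' = 0 := by
    rw [← hwv, h13]
    rfl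
  exact sub_eq_zero.1 h14

end Norm

end AP
end Vale.Agent.P353.Z
end

section

/-! # P353, all `N`, block P-Inj: assembly from part A -/

open MeasureTheory Filter Topology
open scoped ContDiff

namespace Vale.Agent.P353.Z
namespace AP

variable {d : ℕ} {F : Type} [NormedAddCommGroup F] [InnerProductSpace ℂ F]

/-- `exp(ad ξ)` is injective -/
theorem ib_exp_inj (S : Setup d F) (ξ v w : Fin d → ℝ)
    (h : (NormedSpace.exp (S.adm ξ)).mulVec v = (NormedSpace.exp (S.adm ξ)).mulVec w) : v = w := by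
  have h1 := U.gx983_orth S ξ 1
  rw [one_smul] at h1
  have h2 := congrArg (fun u => (NormedSpace.exp (S.adm ξ)).transpose.mulVec u) h
  simp only [Matrix.mulVec_mulVec, h1, Matrix.one_mulVec] at h2
  exact h2

/-- **P-Inj** from part A -/
theorem inj_of_partA (S : Setup d F)
    (hA : (∀ a : Fin d → ℝ, (∀ b, br S a b = 0) → a = 0) →
      ∀ z : Set (Fin d → ℝ), (∀ a ∈ z, ∀ b ∈ z, br S a b = 0) →
      ∃ δ : ℝ, 0 < δ ∧ ∀ (y y' : Fin 9 → Fin d → ℝ) (ξ ξ' : Fin d → ℝ), (∀ i, y i ∈ z) →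
        (∀ i, y' i ∈ z) → cen S (Set.range y) = cen S z → cen S (Set.range y') = cen S z →
        (∑ A, ξ A ^ 2 < δ) → (∑ A, ξ' A ^ 2 < δ) →
        (∀ i, (NormedSpace.exp (S.adm ξ)).mulVec (y i) =
          (NormedSpace.exp (S.adm ξ')).mulVec (y' i)) →
        ∀ v, v ∈ cen S z → (∀ w ∈ cen S z, br S v w = 0) →
          (NormedSpace.exp (S.adm ξ)).mulVec v = (NormedSpace.exp (S.adm ξ')).mulVec v) :
    InjStmt S := by
  intro hcl z hz
  obtain ⟨δ₁, h₁, hA⟩ := hA hcl z hz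
  obtain ⟨δ₂, h₂, hB⟩ := inj_partB S z hz
  refine ⟨min δ₁ δ₂, lt_min h₁ h₂, ?_⟩
  intro y y' ξ ξ' hy hy' hc hc' hp hp' hs hs' heq
  have h3 : ξ = ξ' := by
    refine hB ξ ξ' hp hp' (hs.trans_le (min_le_right _ _)) (hs'.trans_le (min_le_right _ _)) ?_
    intro v hv
    have h4 := (ib_mem_zc S z v).1 hv
    exact hA y y' ξ ξ' hy hy' hc hc' (hs.trans_le (min_le_left _ _))
      (hs'.trans_le (min_le_left _ _)) heq v h4.1 h4.2
  refine ⟨?_, h3⟩
  funext i
  have h5 := heq i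
  rw [h3] at h5
  exact ib_exp_inj S ξ' _ _ h5

end AP
end Vale.Agent.P353.Z
end

section

/-! # P353, all `N`, block P-Inj, part A: group elements near `1` that preserve the stratum fix the
centre of the centraliser pointwise -/

open MeasureTheory Filter Topology
open scoped ContDiff

namespace Vale.Agent.P353.Z
namespace AP

section sums

variable {n : ℕ}

theorem ia_sum4 (T : Fin n → Fin n → Fin n → Fin n → ℝ) :
    ∑ B, ∑ C, ∑ B', ∑ C', T B C B' C' = ∑ C', ∑ B', ∑ B, ∑ C, T B C B' C' := by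
  have h1 : ∀ B, ∑ C, ∑ B', ∑ C', T B C B' C' = ∑ C', ∑ B', ∑ C, T B C B' C' := by
    intro B
    calc ∑ C, ∑ B', ∑ C', T B C B' C' = ∑ C, ∑ C', ∑ B', T B C B' C' :=
          Finset.sum_congr rfl fun C _ => Finset.sum_comm
      _ = ∑ C', ∑ C, ∑ B', T B C B' C' := Finset.sum_comm
      _ = _ := Finset.sum_congr rfl fun C' _ => Finset.sum_comm
  simp only [h1]
  rw [Finset.sum_comm]
  exact Finset.sum_congr rfl fun C' _ => Finset.sum_comm

theorem ia_sum3 (p q : Fin n → Fin n → ℝ) :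
    ∑ E, (∑ B, p B E) * (∑ C, q C E) = ∑ B, ∑ C, ∑ E, p B E * q C E := by
  simp only [Finset.sum_mul_sum]
  rw [Finset.sum_comm]
  exact Finset.sum_congr rfl fun B _ => Finset.sum_comm

end sums

variable {d : ℕ} {F : Type} [NormedAddCommGroup F] [InnerProductSpace ℂ F]

theorem ia_br_apply (S : Setup d F) (a b : Fin d → ℝ) (A : Fin d) :
    br S a b A = ∑ C, (∑ B, S.f A B C * a B) * b C := rfl

/-- group elements are automorphisms -/
theorem ia_aut (S : Setup d F) {O : Matrix (Fin d) (Fin d) ℝ} (hO : O ∈ S.grp)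
    (a b : Fin d → ℝ) : O.mulVec (br S a b) = br S (O.mulVec a) (O.mulVec b) := by
  funext A
  have h := U.grp_f S hO.1 hO.2.1 A
  have hL : O.mulVec (br S a b) A = ∑ B, ∑ C, (∑ A', O A A' * S.f A' B C) * (a B * b C) := by
    simp only [Matrix.mulVec, dotProduct, ia_br_apply, Finset.mul_sum, Finset.sum_mul]
    rw [Finset.sum_comm]
    conv_rhs => rw [Finset.sum_comm]
    refine Finset.sum_congr rfl fun C _ => ?_
    rw [Finset.sum_comm]
    exact Finset.sum_congr rfl fun B _ => Finset.sum_congr rfl fun A' _ => by ring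
  have hR : br S (O.mulVec a) (O.mulVec b) A =
      ∑ B, ∑ C, (∑ B', ∑ C', O B' B * O C' C * S.f A B' C') * (a B * b C) := by
    simp only [Finset.sum_mul]
    rw [ia_sum4]
    rw [ia_br_apply]
    refine Finset.sum_congr rfl fun C' _ => ?_
    rw [Finset.sum_mul]
    refine Finset.sum_congr rfl fun B' _ => ?_
    simp only [Matrix.mulVec, dotProduct]
    rw [mul_assoc, Finset.sum_mul_sum, Finset.mul_sum]
    refine Finset.sum_congr rfl fun B _ => ?_
    rw [Finset.mul_sum]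
    exact Finset.sum_congr rfl fun C _ => by ring
  rw [hL, hR]
  simp only [h]

/-- `[v, w] = 0` implies that `ad v` and `ad w` commute -/
theorem ia_comm (S : Setup d F) (a b : Fin d → ℝ) (h : br S a b = 0) :
    S.adm a * S.adm b = S.adm b * S.adm a := by
  ext A D
  have h1 : (S.adm a * S.adm b) A D =
      ∑ B, ∑ C, ∑ E, (S.f A B E * a B) * (S.f E C D * b C) := by
    rw [Matrix.mul_apply]
    exact ia_sum3 (fun B E => S.f A B E * a B) (fun C E => S.f E C D * b C)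
  have h2 : (S.adm b * S.adm a) A D =
      ∑ B, ∑ C, ∑ E, (S.f E B D * a B) * (S.f A C E * b C) := by
    rw [Matrix.mul_apply, ← ia_sum3 (fun B E => S.f E B D * a B) (fun C E => S.f A C E * b C)]
    exact Finset.sum_congr rfl fun E _ => mul_comm _ _
  have h3 : ∑ B, ∑ C, ∑ E, S.f A E D * (S.f E B C * a B * b C) = 0 := by
    have h4 : ∑ E, S.f A E D * br S a b E = 0 := by
      rw [h]
      simp
    rw [← h4]
    simp only [ia_br_apply, Finset.sum_mul, Finset.mul_sum]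
    symm
    rw [Finset.sum_comm]
    conv_rhs => rw [Finset.sum_comm]
    refine Finset.sum_congr rfl fun C _ => ?_
    rw [Finset.sum_comm]
  have h5 : ∑ B, ∑ C, (a B * b C) * ∑ E, (S.f A B E * S.f E C D + S.f B C E * S.f E A D +
      S.f C A E * S.f E B D) = 0 := by
    simp only [S.f_jac, mul_zero, Finset.sum_const_zero]
  have e : (∑ B, ∑ C, ∑ E, (S.f A B E * a B) * (S.f E C D * b C)) -
      ∑ B, ∑ C, ∑ E, (S.f E B D * a B) * (S.f A C E * b C) =
      (∑ B, ∑ C, ∑ E, S.f A E D * (S.f E B C * a B * b C)) +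
      ∑ B, ∑ C, (a B * b C) * ∑ E, (S.f A B E * S.f E C D + S.f B C E * S.f E A D +
      S.f C A E * S.f E B D) := by
    simp only [← Finset.sum_sub_distrib, ← Finset.sum_add_distrib, Finset.mul_sum]
    refine Finset.sum_congr rfl fun B _ => Finset.sum_congr rfl fun C _ =>
      Finset.sum_congr rfl fun E _ => ?_
    rw [S.f_swap C A E, S.f_cyc E B C, S.f_swap E A D]
    ring
  rw [h1, h2, ← sub_eq_zero, e, h3, h5, add_zero]

open scoped Matrix.Norms.Operator in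
theorem ia_exp_cont (S : Setup d F) :
    Continuous fun ξ : Fin d → ℝ => NormedSpace.exp (S.adm ξ) := by
  have h1 : Continuous fun ξ : Fin d → ℝ => S.adm ξ := by
    refine continuous_matrix fun A C => ?_
    simp only [Setup.adm, Matrix.of_apply]
    fun_prop
  exact (NormedSpace.exp_continuous (𝔸 := Matrix (Fin d) (Fin d) ℝ)).comp h1

theorem ia_adm_zero (S : Setup d F) : S.adm 0 = 0 := by
  ext A C
  simp [Setup.adm]

/-- the group element `exp(-ad ξ')exp(ad ξ)` minus `1` -/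
noncomputable def iaD (S : Setup d F) (p : (Fin d → ℝ) × (Fin d → ℝ)) : Matrix (Fin d) (Fin d) ℝ :=
  (NormedSpace.exp (S.adm p.2)).transpose * NormedSpace.exp (S.adm p.1) - 1

theorem iaD_cont (S : Setup d F) : Continuous (iaD S) := by
  have h1 : Continuous fun p : (Fin d → ℝ) × (Fin d → ℝ) => NormedSpace.exp (S.adm p.1) :=
    (ia_exp_cont S).comp continuous_fst
  have h2 : Continuous fun p : (Fin d → ℝ) × (Fin d → ℝ) => NormedSpace.exp (S.adm p.2) :=
    (ia_exp_cont S).comp continuous_snd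
  exact (h2.matrix_transpose.matrix_mul h1).sub continuous_const

theorem iaD_zero (S : Setup d F) : iaD S (0, 0) = 0 := by
  unfold iaD
  rw [ia_adm_zero, NormedSpace.exp_zero, Matrix.transpose_one, Matrix.one_mul, sub_self]

theorem ia_small (S : Setup d F) (ε : ℝ) (hε : 0 < ε) : ∃ δ : ℝ, 0 < δ ∧
    ∀ ξ ξ' : Fin d → ℝ, ∑ A, ξ A ^ 2 < δ → ∑ A, ξ' A ^ 2 < δ → ∀ A B,
      |iaD S (ξ, ξ') A B| < ε := by
  have ho : ∀ᶠ p : (Fin d → ℝ) × (Fin d → ℝ) in 𝓝 (0, 0), ∀ A B, |iaD S p A B| < ε := by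
    refine eventually_all.2 fun A => eventually_all.2 fun B => ?_
    have h1 : Continuous fun p : (Fin d → ℝ) × (Fin d → ℝ) => |iaD S p A B| :=
      ((iaD_cont S).matrix_elem A B).abs
    have h2 := h1.tendsto (0, 0)
    rw [iaD_zero, Matrix.zero_apply, abs_zero] at h2
    exact h2.eventually_lt_const hε
  obtain ⟨r, hr, hball⟩ := Metric.eventually_nhds_iff.1 ho
  refine ⟨r ^ 2, by positivity, fun ξ ξ' h1 h2 => ?_⟩
  have hb : ∀ x : Fin d → ℝ, ∑ A, x A ^ 2 < r ^ 2 → ‖x‖ < r := by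
    intro x hx
    refine (pi_norm_lt_iff hr).2 fun A => ?_
    rw [Real.norm_eq_abs]
    refine abs_lt_of_sq_lt_sq ?_ hr.le
    exact (Finset.single_le_sum (f := fun A => x A ^ 2) (fun A _ => sq_nonneg _)
      (Finset.mem_univ A)).trans_lt hx
  have h3 : dist (ξ, ξ') ((0 : Fin d → ℝ), (0 : Fin d → ℝ)) < r := by
    rw [Prod.dist_eq, max_lt_iff, dist_zero_right, dist_zero_right]
    exact ⟨hb ξ h1, hb ξ' h2⟩
  exact hball h3

theorem ia_nearC (g : Matrix (Fin d) (Fin d) ℝ)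
    (h : ∀ A B, |(g - 1) A B| ≤ 1 / (2 * ((d : ℝ) + 1) ^ 2)) (x : EuclideanSpace ℂ (Fin d)) :
    ‖Matrix.toEuclideanLin (g.map ((↑) : ℝ → ℂ)) x - x‖ ≤ 1 / 2 * ‖x‖ := by
  have ht : (0 : ℝ) ≤ d := Nat.cast_nonneg d
  have hc : ∀ A, ‖(Matrix.toEuclideanLin (g.map ((↑) : ℝ → ℂ)) x - x) A‖ ≤
      (d : ℝ) * (1 / (2 * ((d : ℝ) + 1) ^ 2) * ‖x‖) := by
    intro A
    have h1 : (Matrix.toEuclideanLin (g.map ((↑) : ℝ → ℂ)) x - x) A =
        ∑ B, (((g - 1) A B : ℝ) : ℂ) * x B := by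
      simp only [PiLp.sub_apply, Matrix.toLpLin_apply, Matrix.mulVec, dotProduct,
        Matrix.map_apply, Matrix.sub_apply, Complex.ofReal_sub, sub_mul, Finset.sum_sub_distrib,
        Matrix.one_apply]
      congr 1
      symm
      rw [Finset.sum_eq_single A (fun B _ hB => by rw [if_neg (Ne.symm hB)]; simp)
        (fun hA => absurd (Finset.mem_univ A) hA), if_pos rfl, Complex.ofReal_one, one_mul]
    rw [h1]
    calc ‖∑ B, (((g - 1) A B : ℝ) : ℂ) * x B‖ ≤ ∑ B, ‖(((g - 1) A B : ℝ) : ℂ) * x B‖ :=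
          norm_sum_le _ _
      _ ≤ ∑ _B : Fin d, 1 / (2 * ((d : ℝ) + 1) ^ 2) * ‖x‖ := by
          refine Finset.sum_le_sum fun B _ => ?_
          rw [norm_mul, Complex.norm_real, Real.norm_eq_abs]
          exact mul_le_mul (h A B) (PiLp.norm_apply_le x B) (norm_nonneg _) (by positivity)
      _ = _ := by simp
  refine (sq_le_sq₀ (norm_nonneg _) (by positivity)).1 ?_
  rw [EuclideanSpace.norm_sq_eq]
  calc ∑ A, ‖(Matrix.toEuclideanLin (g.map ((↑) : ℝ → ℂ)) x - x) A‖ ^ 2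
      ≤ ∑ _A : Fin d, ((d : ℝ) * (1 / (2 * ((d : ℝ) + 1) ^ 2) * ‖x‖)) ^ 2 :=
        Finset.sum_le_sum fun A _ => pow_le_pow_left₀ (norm_nonneg _) (hc A) 2
    _ = (d : ℝ) ^ 3 / ((d : ℝ) + 1) ^ 4 * (1 / 2 * ‖x‖) ^ 2 := by
        rw [Finset.sum_const, Finset.card_univ, Fintype.card_fin, nsmul_eq_mul]
        field_simp
    _ ≤ 1 * (1 / 2 * ‖x‖) ^ 2 := by
        refine mul_le_mul_of_nonneg_right ?_ (sq_nonneg _)
        rw [div_le_one (by positivity)]
        nlinarith [pow_nonneg ht 2, pow_nonneg ht 3, pow_nonneg ht 4]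
    _ = _ := one_mul _

theorem ia_herm (S : Setup d F) (v : Fin d → ℝ) :
    (Complex.I • (S.adm v).map ((↑) : ℝ → ℂ)).IsHermitian := by
  ext A B
  have h := congrFun (congrFun (U.gx983_adm_transpose S v) A) B
  simp only [Matrix.transpose_apply, Matrix.neg_apply] at h
  simp only [Matrix.conjTranspose_apply, Matrix.smul_apply, Matrix.map_apply, smul_eq_mul, h]
  simp

/-- a group element near `1` fixes `v` if `[v, g v] = 0` and the centre is trivial -/
theorem ia_fix (S : Setup d F) (hcl : ∀ a : Fin d → ℝ, (∀ b, br S a b = 0) → a = 0)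
    {g : Matrix (Fin d) (Fin d) ℝ} (hg : g ∈ S.grp)
    (hn : ∀ A B, |(g - 1) A B| ≤ 1 / (2 * ((d : ℝ) + 1) ^ 2)) (v : Fin d → ℝ)
    (hv : br S v (g.mulVec v) = 0) : g.mulVec v = v := by
  have hm : S.adm (g.mulVec v) * g = g * S.adm v := by
    refine Matrix.toLin'.injective (LinearMap.ext fun w => ?_)
    have h1 := ia_aut S hg v w
    simp only [br] at h1
    rw [Matrix.toLin'_apply, Matrix.toLin'_apply, ← Matrix.mulVec_mulVec, ← Matrix.mulVec_mulVec]
    exact h1.symm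
  have hcm := ia_comm S v (g.mulVec v) hv
  have hAB : Matrix.toEuclideanLin (Complex.I • (S.adm v).map ((↑) : ℝ → ℂ)) =
      Matrix.toEuclideanLin (Complex.I • (S.adm (g.mulVec v)).map ((↑) : ℝ → ℂ)) := by
    refine ia_near _ _ (Matrix.toEuclideanLin (g.map ((↑) : ℝ → ℂ)))
      (Matrix.isSymmetric_toEuclideanLin_iff.2 (ia_herm S v))
      (Matrix.isSymmetric_toEuclideanLin_iff.2 (ia_herm S _)) ?_ (ia_nearC g hn) ?_
    · have h2 : (S.adm v).map ((↑) : ℝ → ℂ) * (S.adm (g.mulVec v)).map ((↑) : ℝ → ℂ) =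
          (S.adm (g.mulVec v)).map ((↑) : ℝ → ℂ) * (S.adm v).map ((↑) : ℝ → ℂ) := by
        have h3 := congrArg (fun M => M.map Complex.ofRealHom) hcm
        simp only [Matrix.map_mul] at h3
        exact h3
      refine LinearMap.ext fun x => ?_
      simp only [Module.End.mul_apply, Matrix.toLpLin_apply, Matrix.mulVec_mulVec,
        Matrix.smul_mul, Matrix.mul_smul, h2]
    · intro x
      have h2 : (S.adm (g.mulVec v)).map ((↑) : ℝ → ℂ) * g.map ((↑) : ℝ → ℂ) =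
          g.map ((↑) : ℝ → ℂ) * (S.adm v).map ((↑) : ℝ → ℂ) := by
        have h3 := congrArg (fun M => M.map Complex.ofRealHom) hm
        simp only [Matrix.map_mul] at h3
        exact h3
      simp only [Matrix.toLpLin_apply, Matrix.mulVec_mulVec,
        Matrix.smul_mul, Matrix.mul_smul, h2]
  have h4 := Matrix.toEuclideanLin.injective hAB
  have h5 : ∀ A B, S.adm v A B = S.adm (g.mulVec v) A B := by
    intro A B
    have h6 := congrFun (congrFun h4 A) B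
    simp only [Matrix.smul_apply, Matrix.map_apply, smul_eq_mul] at h6
    exact Complex.ofReal_injective (mul_left_cancel₀ Complex.I_ne_zero h6)
  have h7 : g.mulVec v - v = 0 := by
    refine hcl _ fun b => ?_
    have h8 : S.adm (g.mulVec v - v) = 0 := by
      have h9 : S.adm (g.mulVec v) = S.adm (g.mulVec v - v) + S.adm v := by
        rw [← ib_adm_add, sub_add_cancel]
      have h10 : S.adm v = S.adm (g.mulVec v) := Matrix.ext h5
      rw [h10] at h9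
      exact (add_eq_right.1 h9.symm)
    rw [br, h8, Matrix.zero_mulVec]
  exact sub_eq_zero.1 h7

/-- **part A** -/
theorem inj_partA (S : Setup d F) (hcl : ∀ a : Fin d → ℝ, (∀ b, br S a b = 0) → a = 0)
    (z : Set (Fin d → ℝ)) (hz : ∀ a ∈ z, ∀ b ∈ z, br S a b = 0) :
    ∃ δ : ℝ, 0 < δ ∧ ∀ (y y' : Fin 9 → Fin d → ℝ) (ξ ξ' : Fin d → ℝ), (∀ i, y i ∈ z) →
        (∀ i, y' i ∈ z) → cen S (Set.range y) = cen S z → cen S (Set.range y') = cen S z →
        (∑ A, ξ A ^ 2 < δ) → (∑ A, ξ' A ^ 2 < δ) →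
        (∀ i, (NormedSpace.exp (S.adm ξ)).mulVec (y i) =
          (NormedSpace.exp (S.adm ξ')).mulVec (y' i)) →
        ∀ v, v ∈ cen S z → (∀ w ∈ cen S z, br S v w = 0) →
          (NormedSpace.exp (S.adm ξ)).mulVec v = (NormedSpace.exp (S.adm ξ')).mulVec v := by
  obtain ⟨δ, hδ, hs⟩ := ia_small S (1 / (2 * ((d : ℝ) + 1) ^ 2)) (by positivity)
  refine ⟨δ, hδ, ?_⟩
  intro y y' ξ ξ' _ _ hc hc' h1 h2 heq v hv hvw
  have hO : NormedSpace.exp (S.adm ξ) ∈ S.grp := by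
    simpa only [one_smul] using U.exp_mem S ξ 1
  have hO' : NormedSpace.exp (S.adm ξ') ∈ S.grp := by
    simpa only [one_smul] using U.exp_mem S ξ' 1
  have hg := U.grp_mul S (U.grp_transpose S hO') hO
  have hn := fun A B => (hs ξ ξ' h1 h2 A B).le
  set O := NormedSpace.exp (S.adm ξ) with hOdef
  set O' := NormedSpace.exp (S.adm ξ') with hOdef'
  have hgy : ∀ i, (O'.transpose * O).mulVec (y i) = y' i := by
    intro i
    rw [← Matrix.mulVec_mulVec, heq i, Matrix.mulVec_mulVec, hO'.1, Matrix.one_mulVec]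
  have hmap : (O'.transpose * O).mulVec v ∈ cen S z := by
    rw [← hc']
    rw [← hc] at hv
    rintro _ ⟨i, rfl⟩
    rw [← hgy i, ← ia_aut S hg, hv (y i) ⟨i, rfl⟩, Matrix.mulVec_zero]
  have hfix := ia_fix S hcl hg hn v (hvw _ hmap)
  have h3 : O' * O'.transpose = 1 := mul_eq_one_comm.1 hO'.1
  have h4 := congrArg (fun u => O'.mulVec u) hfix
  simp only [Matrix.mulVec_mulVec, ← Matrix.mul_assoc, h3, Matrix.one_mul] at h4
  exact h4

end AP
end Vale.Agent.P353.Z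
end

section

/-! # P353, all `N`, block P-Inj: the stratum is parametrised injectively -/

namespace Vale.Agent.P353.Z
namespace AP

/-- **P-Inj** -/
theorem inj {d : ℕ} {F : Type} [NormedAddCommGroup F] [InnerProductSpace ℂ F] (S : Setup d F) :
    InjStmt S := inj_of_partA S (inj_partA S)

end AP
end Vale.Agent.P353.Z
end

section

/-! # P353, all `N`, block JN: sections with values in the profile bundle have coefficients (C1, helper535) -/

open MeasureTheory Filter Topology Matrix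
open scoped ContDiff ENNReal

namespace Vale.Agent.P353.Z.AJ

section Gen

variable {r ds n : ℕ} {F : Type*} [NormedAddCommGroup F] [InnerProductSpace ℂ F]

lemma cf_inner_int {f g : Cfg ds → F} (hf : MemLp f 2 (volume : Measure (Cfg ds)))
    (hg : MemLp g 2 (volume : Measure (Cfg ds))) : Integrable fun x => inner ℂ (f x) (g x) := by
  have h := hf.norm.integrable_mul hg.norm
  refine h.mono' ?_ ?_
  · exact continuous_inner.comp_aestronglyMeasurable (hf.1.prodMk hg.1)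
  · exact Eventually.of_forall fun x => by
      simpa using norm_inner_le_norm (𝕜 := ℂ) (f x) (g x)

/-- norm in a fibre -/
lemma cf_fib {U : Cfg r → F →L[ℂ] F} (hU : ∀ η v w, inner ℂ (U η v) (U η w) = inner ℂ v w)
    {o : Fin n → Cfg ds → F} (hm : ∀ j, MemLp (o j) 2 (volume : Measure (Cfg ds)))
    (ort : ∀ j k, ∫ x, inner ℂ (o j x) (o k x) = if j = k then 1 else 0) (b : Cfg r → AL.Ek n) (η : Cfg r) :
    ∫ s, ‖AL.sc U o b η s‖ ^ 2 = ‖b η‖ ^ 2 := by
  have e : ∀ s, (((‖AL.sc U o b η s‖ ^ 2 : ℝ)) : ℂ) =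
      ∑ j, ∑ k, (starRingEnd ℂ) (b η j) * (b η k * inner ℂ (o j s) (o k s)) := by
    intro s
    have : (((‖AL.sc U o b η s‖ ^ 2 : ℝ)) : ℂ) = inner ℂ (AL.sc U o b η s) (AL.sc U o b η s) := by
      rw [inner_self_eq_norm_sq_to_K]; push_cast; rfl
    rw [this, AL.sc, sum_inner]
    refine Finset.sum_congr rfl fun j _ => ?_
    rw [inner_sum]
    refine Finset.sum_congr rfl fun k _ => ?_
    rw [inner_smul_left, inner_smul_right, hU]
  have hi : ∀ j k, Integrable fun s => (starRingEnd ℂ) (b η j) * (b η k * inner ℂ (o j s) (o k s)) :=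
    fun j k => ((cf_inner_int (hm j) (hm k)).const_mul _).const_mul _
  have h1 : ((∫ s, ‖AL.sc U o b η s‖ ^ 2 : ℝ) : ℂ) = ((‖b η‖ ^ 2 : ℝ) : ℂ) := by
    rw [← integral_complex_ofReal]
    simp_rw [e]
    rw [integral_finsetSum _ fun j _ => integrable_finsetSum _ fun k _ => hi j k]
    have : ∀ j, ∫ s, ∑ k, (starRingEnd ℂ) (b η j) * (b η k * inner ℂ (o j s) (o k s)) =
        (starRingEnd ℂ) (b η j) * b η j := by
      intro j
      rw [integral_finsetSum _ fun k _ => hi j k]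
      simp_rw [integral_const_mul, ort]
      simp
    simp_rw [this]
    rw [EuclideanSpace.norm_sq_eq]
    push_cast
    refine Finset.sum_congr rfl fun j _ => ?_
    rw [mul_comm, Complex.mul_conj, Complex.normSq_eq_norm_sq]
    push_cast; rfl
  exact_mod_cast h1

variable [FiniteDimensional ℂ F]

/-- joint measurability of the frame -/
lemma cf_frame {U : Cfg r → F →L[ℂ] F} {Z : Set (Cfg r)} (hZ : IsClosed Z) (hU : ContinuousOn U Zᶜ)
    (hZ0 : ∀ᵐ η ∂(volume : Measure (Cfg r)), η ∉ Z) {o : Cfg ds → F} (hm : AEStronglyMeasurable o volume) :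
    AEStronglyMeasurable (fun q : Cfg r × Cfg ds => U q.1 (o q.2)) (volume.prod volume) := by
  have hUm : AEStronglyMeasurable U (volume : Measure (Cfg r)) := by
    have h1 := hU.aestronglyMeasurable (μ := (volume : Measure (Cfg r))) hZ.isOpen_compl.measurableSet
    have h2 : (volume : Measure (Cfg r)).restrict Zᶜ = volume := Measure.restrict_eq_self_of_ae_mem hZ0
    rwa [h2] at h1
  exact (isBoundedBilinearMap_apply (𝕜 := ℂ) (E := F) (F := F)).continuous.comp_aestronglyMeasurable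
    ((hUm.comp_fst).prodMk (hm.comp_snd))

/-- coefficients of a section -/
noncomputable def cfc (U : Cfg r → F →L[ℂ] F) (o : Fin n → Cfg ds → F) (a : Cfg r → Cfg ds → F) (η : Cfg r) : AL.Ek n :=
  WithLp.toLp 2 fun j => AL.spzc U (o j) (a η) η

lemma cf_meas {U : Cfg r → F →L[ℂ] F} {Z : Set (Cfg r)} (hZ : IsClosed Z) (hU : ContinuousOn U Zᶜ)
    (hZ0 : ∀ᵐ η ∂(volume : Measure (Cfg r)), η ∉ Z) {o : Fin n → Cfg ds → F}
    (hm : ∀ j, AEStronglyMeasurable (o j) (volume : Measure (Cfg ds))) {a : Cfg r → Cfg ds → F}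
    (ha : AEStronglyMeasurable (fun q : Cfg r × Cfg ds => a q.1 q.2) (volume.prod volume)) :
    AEStronglyMeasurable (cfc U o a) (volume : Measure (Cfg r)) := by
  have h1 : ∀ j, AEStronglyMeasurable (fun η => AL.spzc U (o j) (a η) η) (volume : Measure (Cfg r)) := by
    intro j
    have h2 := (cf_frame hZ hU hZ0 (hm j)).inner (𝕜 := ℂ) ha
    exact h2.integral_prod_right'
  have e : cfc U o a = fun η => ∑ j, AL.spzc U (o j) (a η) η • (EuclideanSpace.single j (1 : ℂ) : AL.Ek n) := by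
    funext η
    ext k
    simp [cfc, Pi.single_apply]
  rw [e]
  exact Finset.aestronglyMeasurable_fun_sum _ fun j _ => (h1 j).smul aestronglyMeasurable_const

lemma cf_sc_meas {U : Cfg r → F →L[ℂ] F} {Z : Set (Cfg r)} (hZ : IsClosed Z) (hU : ContinuousOn U Zᶜ)
    (hZ0 : ∀ᵐ η ∂(volume : Measure (Cfg r)), η ∉ Z) {o : Fin n → Cfg ds → F}
    (hm : ∀ j, AEStronglyMeasurable (o j) (volume : Measure (Cfg ds))) {b : Cfg r → AL.Ek n}
    (hb : AEStronglyMeasurable b (volume : Measure (Cfg r))) :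
    AEStronglyMeasurable (fun q : Cfg r × Cfg ds => AL.sc U o b q.1 q.2) (volume.prod volume) := by
  unfold AL.sc
  refine Finset.aestronglyMeasurable_fun_sum _ fun j _ => ?_
  have hbj : AEStronglyMeasurable (fun x => b x j) (volume : Measure (Cfg r)) :=
    (EuclideanSpace.proj (𝕜 := ℂ) j).continuous.comp_aestronglyMeasurable hb
  exact (hbj.comp_fst).smul (cf_frame hZ hU hZ0 (hm j))

omit [FiniteDimensional ℂ F] [InnerProductSpace ℂ F] in
/-- iterated almost everywhere equality -/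
lemma cf_ae {f g : Cfg r × Cfg ds → F} (hf : AEStronglyMeasurable f (volume.prod volume))
    (hg : AEStronglyMeasurable g (volume.prod volume))
    (h : ∀ᵐ η ∂(volume : Measure (Cfg r)), ∀ᵐ s ∂(volume : Measure (Cfg ds)), f (η, s) = g (η, s)) :
    ∀ᵐ q ∂((volume : Measure (Cfg r)).prod (volume : Measure (Cfg ds))), f q = g q := by
  have hd : AEMeasurable (fun q => ‖f q - g q‖ₑ) (volume.prod volume) := (hf.sub hg).enorm
  have h1 : ∫⁻ q, ‖f q - g q‖ₑ ∂((volume : Measure (Cfg r)).prod (volume : Measure (Cfg ds))) = 0 := by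
    rw [lintegral_prod _ hd]
    rw [lintegral_eq_zero_of_ae_eq_zero]
    filter_upwards [h] with η hη
    simp only [Pi.zero_apply]
    refine lintegral_eq_zero_of_ae_eq_zero ?_
    filter_upwards [hη] with s hs
    rw [hs, sub_self, enorm_zero]
    rfl
  rw [lintegral_eq_zero_iff' hd] at h1
  filter_upwards [h1] with q hq
  simp only [Pi.zero_apply, enorm_eq_zero] at hq
  exact sub_eq_zero.1 hq

end Gen

variable {d : ℕ} {F : Type} [NormedAddCommGroup F] [InnerProductSpace ℂ F]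

/-- **C1** -/
theorem coef (S : Setup d F) : CoefStmt S := by
  intro hfin hZML hCut dh dm r ds n φ ψ L Om K U o T hD A hA hARg a ha hz
  obtain ⟨g, -, -, -, -, g5, -⟩ := hCut r L hD.bun.L_ne
  have hUc : ContinuousOn U (Coll L)ᶜ := hD.bun.U_smooth.continuousOn
  have hom : ∀ j, AEStronglyMeasurable (o j) (volume : Measure (Cfg ds)) := fun j => (hD.mem j).1
  have hcm : AEStronglyMeasurable (cfc U o a) (volume : Measure (Cfg r)) :=
    cf_meas hD.bun.closed hUc g5 hom ha.1.1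
  have hsec : ∀ᵐ η ∂(volume : Measure (Cfg r)), ∀ᵐ s ∂(volume : Measure (Cfg ds)),
      a η s = AL.sc U o (cfc U o a) η s := by
    filter_upwards [hz, g5] with η hη hηL
    filter_upwards [AL.spz_sec hD (hZML ds (S.int φ ψ hD.sub hD.cen)) hη.1 hηL, hη.2] with s hs1 hs2
    rw [Submodule.starProjection_eq_self_iff.2 hs2] at hs1
    exact hs1
  have hi : Integrable (fun q : Cfg r × Cfg ds => ‖a q.1 q.2‖ ^ 2) (volume.prod volume) :=
    (memLp_two_iff_integrable_sq_norm ha.1.1).1 ha.1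
  refine ⟨cfc U o a, ?_, ?_, ?_⟩
  · rw [memLp_two_iff_integrable_sq_norm hcm]
    have hG : Integrable (fun x => ∫ s, ‖a x s‖ ^ 2) (volume : Measure (Cfg r)) := hi.integral_prod_left
    refine hG.congr ?_
    filter_upwards [hsec] with η hη
    rw [← cf_fib hD.bun.U_inner hD.mem hD.ort (cfc U o a) η]
    refine integral_congr_ae ?_
    filter_upwards [hη] with s hs
    rw [hs]
  · intro η hη
    have h0 : ∀ s, a η s = 0 := by
      intro s
      by_contra h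
      exact hη (ha.2 η s h)
    ext j
    show AL.spzc U (o j) (a η) η = 0
    unfold AL.spzc
    simp only [h0, inner_zero_right, integral_zero]
  · exact cf_ae ha.1.1 (cf_sc_meas hD.bun.closed hUc g5 hom hcm) hsec

end Vale.Agent.P353.Z.AJ
end

section

/-! # P353, all `N`, block JN: N2, no loss from null points -/

open MeasureTheory Filter Topology
open scoped ContDiff

namespace Vale.Agent.P353.Z.AJ

variable {d : ℕ} {F : Type*} [NormedAddCommGroup F] [InnerProductSpace ℂ F]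

omit [InnerProductSpace ℂ F] in
lemma nl471_mas_le {u : Cfg d → F} (hu : MemLp u 2 (volume : Measure (Cfg d))) (A : Set (Cfg d)) :
    AD.mas u A ≤ nsq u := by
  unfold AD.mas nsq
  exact setIntegral_le_integral (memLp_norm_sq_int hu) (Filter.Eventually.of_forall fun x => by positivity)

lemma nl471_ena_le (S : Setup d F) {u : Cfg d → F} (hu : Setup.Tst u) (A : Set (Cfg d)) :
    AD.ena S u A ≤ AD.En S u := by
  unfold AD.ena AD.En
  refine Finset.sum_le_sum fun β _ => ?_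
  exact nl471_mas_le (Setup.Tst.memLp (Setup.Tst.Q S hu β)) A

lemma nl471_En_nonneg (S : Setup d F) (u : Cfg d → F) : 0 ≤ AD.En S u :=
  Finset.sum_nonneg fun _ _ => nsq_nonneg _

lemma nl471_ipr {f g : Cfg d → F} (hf : MemLp f 2 (volume : Measure (Cfg d)))
    (hg : MemLp g 2 (volume : Measure (Cfg d))) : ipr f g = inner ℂ (hf.toLp f) (hg.toLp g) := by
  rw [ipr, MeasureTheory.L2.inner_def]
  refine integral_congr_ae ?_
  filter_upwards [hf.coeFn_toLp, hg.coeFn_toLp] with x hx hy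
  rw [hx, hy]

lemma nl471_cs {f g : Cfg d → F} (hf : MemLp f 2 (volume : Measure (Cfg d)))
    (hg : MemLp g 2 (volume : Measure (Cfg d))) :
    ‖ipr f g‖ ≤ Real.sqrt (nsq f) * Real.sqrt (nsq g) := by
  rw [nl471_ipr hf hg]
  refine (norm_inner_le_norm _ _).trans ?_
  rw [norm_toLp, norm_toLp]

lemma nl471_ipr_sub {f g h : Cfg d → F} (hf : MemLp f 2 (volume : Measure (Cfg d)))
    (hg : MemLp g 2 (volume : Measure (Cfg d))) (hh : MemLp h 2 (volume : Measure (Cfg d))) :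
    ipr (fun x => f x - g x) h = ipr f h - ipr g h := by
  have h1 : MemLp (fun x => f x - g x) 2 (volume : Measure (Cfg d)) := hf.sub hg
  rw [nl471_ipr hf hh, nl471_ipr hg hh, nl471_ipr h1 hh, ← inner_sub_left, ← MemLp.toLp_sub]
  rfl

/-- pairings with `L²` limits of test functions tend to zero -/
lemma nl471_weak {Ψ : ℕ → Cfg d → F} {C : ℝ} (hT : ∀ n, Setup.Tst (Ψ n)) (hC : ∀ n, nsq (Ψ n) ≤ C)
    (hw : ∀ ζ : Cfg d → F, Setup.Tst ζ → Tendsto (fun n => ipr ζ (Ψ n)) atTop (𝓝 0))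
    {v : ℕ → Cfg d → F} {o : Cfg d → F} (hv : ∀ n, Setup.Tst (v n)) (hL : L2t v o) :
    Tendsto (fun n => ipr o (Ψ n)) atTop (𝓝 0) := by
  rw [Metric.tendsto_nhds]
  intro ε hε
  have h1 : Tendsto (fun k => Real.sqrt (nsq (fun x => v k x - o x)) * Real.sqrt C) atTop (𝓝 0) := by
    have h2 := (Real.continuous_sqrt.tendsto 0).comp hL.lim
    rw [Real.sqrt_zero] at h2
    simpa using h2.mul_const (Real.sqrt C)
  have h3 : ∀ᶠ k in atTop, Real.sqrt (nsq (fun x => v k x - o x)) * Real.sqrt C < ε / 2 :=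
    h1.eventually_lt_const (by positivity)
  obtain ⟨k, hk⟩ := h3.exists
  have h4 := (Metric.tendsto_nhds.1 (hw (v k) (hv k))) (ε / 2) (by positivity)
  filter_upwards [h4] with n hn
  rw [dist_zero_right] at hn ⊢
  have h5 : ipr o (Ψ n) = ipr (v k) (Ψ n) - ipr (fun x => v k x - o x) (Ψ n) := by
    rw [nl471_ipr_sub (hL.mem k) hL.mem' (hT n).memLp]
    ring
  have h6 : ‖ipr (fun x => v k x - o x) (Ψ n)‖ ≤ Real.sqrt (nsq (fun x => v k x - o x)) * Real.sqrt C :=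
    (nl471_cs ((hL.mem k).sub hL.mem') (hT n).memLp).trans
      (mul_le_mul_of_nonneg_left (Real.sqrt_le_sqrt (hC n)) (Real.sqrt_nonneg _))
  rw [h5]
  calc ‖ipr (v k) (Ψ n) - ipr (fun x => v k x - o x) (Ψ n)‖
      ≤ ‖ipr (v k) (Ψ n)‖ + ‖ipr (fun x => v k x - o x) (Ψ n)‖ := norm_sub_le _ _
    _ < ε := by linarith

/-- finite combination: pointwise Cauchy-Schwarz -/
lemma nl471_comb {k : ℕ} (c : Fin k → ℂ) (o : Fin k → Cfg d → F) (x : Cfg d) :
    ‖∑ j, c j • o j x‖ ^ 2 ≤ (∑ j, ‖c j‖ ^ 2) * ∑ j, ‖o j x‖ ^ 2 := by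
  have h1 : ‖∑ j, c j • o j x‖ ≤ ∑ j, ‖c j‖ * ‖o j x‖ :=
    (norm_sum_le _ _).trans (Finset.sum_le_sum fun j _ => (norm_smul _ _).le)
  exact (pow_le_pow_left₀ (norm_nonneg _) h1 2).trans (Finset.sum_mul_sq_le_sq_mul_sq _ _ _)

/-- mass in a ball after subtracting a finite combination -/
lemma nl471_ball {k : ℕ} {u : Cfg d → F} (hu : MemLp u 2 (volume : Measure (Cfg d))) (c : Fin k → ℂ)
    {o : Fin k → Cfg d → F} (ho : ∀ j, MemLp (o j) 2 (volume : Measure (Cfg d))) (A : Set (Cfg d)) :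
    AD.mas u A ≤ 2 * AD.mas (fun x => u x - ∑ j, c j • o j x) A + 2 * ((∑ j, ‖c j‖ ^ 2) * ∑ j, nsq (o j)) := by
  have hP : MemLp (fun x => ∑ j, c j • o j x) 2 (volume : Measure (Cfg d)) :=
    memLp_finsetSum _ fun j _ => (ho j).const_smul (c j)
  have hD : MemLp (fun x => u x - ∑ j, c j • o j x) 2 (volume : Measure (Cfg d)) := hu.sub hP
  have hI : Integrable (fun x => (∑ j, ‖c j‖ ^ 2) * ∑ j, ‖o j x‖ ^ 2) (volume : Measure (Cfg d)) :=
    (integrable_finsetSum _ fun j _ => memLp_norm_sq_int (ho j)).const_mul _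
  have h2 : AD.mas u A ≤ ∫ x in A, (2 * ‖u x - ∑ j, c j • o j x‖ ^ 2 +
      2 * ((∑ j, ‖c j‖ ^ 2) * ∑ j, ‖o j x‖ ^ 2)) := by
    unfold AD.mas
    refine integral_mono_of_nonneg (Filter.Eventually.of_forall fun x => by positivity)
      (((memLp_norm_sq_int hD).integrableOn.const_mul 2).add (hI.integrableOn.const_mul 2))
      (Filter.Eventually.of_forall fun x => ?_)
    have h3 := nl471_comb c o x
    have h4 : ‖u x‖ ≤ ‖u x - ∑ j, c j • o j x‖ + ‖∑ j, c j • o j x‖ := by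
      simpa using norm_add_le (u x - ∑ j, c j • o j x) (∑ j, c j • o j x)
    have h5 : ‖u x‖ ^ 2 ≤ (‖u x - ∑ j, c j • o j x‖ + ‖∑ j, c j • o j x‖) ^ 2 :=
      pow_le_pow_left₀ (norm_nonneg _) h4 2
    have h6 := sq_nonneg (‖u x - ∑ j, c j • o j x‖ - ‖∑ j, c j • o j x‖)
    show ‖u x‖ ^ 2 ≤ 2 * ‖u x - ∑ j, c j • o j x‖ ^ 2 + 2 * ((∑ j, ‖c j‖ ^ 2) * ∑ j, ‖o j x‖ ^ 2)
    nlinarith only [h3, h5, h6]
  refine h2.trans ?_
  rw [integral_add ((memLp_norm_sq_int hD).integrableOn.const_mul 2) (hI.integrableOn.const_mul 2),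
    integral_const_mul, integral_const_mul, integral_const_mul]
  have h7 : ∫ x in A, ∑ j, ‖o j x‖ ^ 2 ≤ ∑ j, nsq (o j) := by
    rw [integral_finsetSum _ fun j _ => (memLp_norm_sq_int (ho j)).integrableOn]
    exact Finset.sum_le_sum fun j _ => nl471_mas_le (ho j) A
  have h8 : 0 ≤ ∑ j, ‖c j‖ ^ 2 := Finset.sum_nonneg fun _ _ => by positivity
  have h9 := mul_le_mul_of_nonneg_left h7 h8
  unfold AD.mas
  linarith

omit [InnerProductSpace ℂ F] in
/-- splitting of the total mass -/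
lemma nl471_split {u : Cfg d → F} (hu : MemLp u 2 (volume : Measure (Cfg d))) {a b : ℝ} :
    nsq u ≤ AD.mas u (Metric.ball 0 (2 * a)) + AD.mas u (AD.shl d a b) + AD.mas u {x | b ≤ ‖x‖} ∨ a ≤ 0 := by
  by_cases ha : a ≤ 0
  · exact Or.inr ha
  left
  push Not at ha
  have hI := memLp_norm_sq_int hu
  have m1 : MeasurableSet (Metric.ball (0 : Cfg d) (2 * a)) := Metric.isOpen_ball.measurableSet
  have m2 : MeasurableSet (AD.shl d a b) :=
    ((isOpen_lt continuous_const continuous_norm).inter (isOpen_lt continuous_norm continuous_const)).measurableSet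
  have m3 : MeasurableSet {x : Cfg d | b ≤ ‖x‖} := (isClosed_le continuous_const continuous_norm).measurableSet
  have h1 : ∀ x, ‖u x‖ ^ 2 ≤ (Metric.ball (0 : Cfg d) (2 * a)).indicator (fun x => ‖u x‖ ^ 2) x +
      (AD.shl d a b).indicator (fun x => ‖u x‖ ^ 2) x + {x : Cfg d | b ≤ ‖x‖}.indicator (fun x => ‖u x‖ ^ 2) x := by
    intro x
    have p : ∀ B : Set (Cfg d), 0 ≤ B.indicator (fun x => ‖u x‖ ^ 2) x := fun B =>
      Set.indicator_nonneg (fun _ _ => by positivity) x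
    by_cases hx : ‖x‖ < 2 * a
    · have hm : x ∈ Metric.ball (0 : Cfg d) (2 * a) := by simpa using hx
      rw [Set.indicator_of_mem hm]
      linarith [p (AD.shl d a b), p {x : Cfg d | b ≤ ‖x‖}]
    · by_cases hb : b ≤ ‖x‖
      · have hm : x ∈ {x : Cfg d | b ≤ ‖x‖} := hb
        rw [Set.indicator_of_mem hm]
        linarith [p (AD.shl d a b), p (Metric.ball (0 : Cfg d) (2 * a))]
      · have hm : x ∈ AD.shl d a b := ⟨by linarith, not_le.1 hb⟩
        rw [Set.indicator_of_mem hm]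
        linarith [p {x : Cfg d | b ≤ ‖x‖}, p (Metric.ball (0 : Cfg d) (2 * a))]
  have h2 : nsq u ≤ ∫ x, ((Metric.ball (0 : Cfg d) (2 * a)).indicator (fun x => ‖u x‖ ^ 2) x +
      (AD.shl d a b).indicator (fun x => ‖u x‖ ^ 2) x + {x : Cfg d | b ≤ ‖x‖}.indicator (fun x => ‖u x‖ ^ 2) x) :=
    integral_mono hI (((hI.indicator m1).add (hI.indicator m2)).add (hI.indicator m3)) h1
  refine h2.trans (le_of_eq ?_)
  have i12 : Integrable (fun x => (Metric.ball (0 : Cfg d) (2 * a)).indicator (fun x => ‖u x‖ ^ 2) x +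
      (AD.shl d a b).indicator (fun x => ‖u x‖ ^ 2) x) (volume : Measure (Cfg d)) :=
    (hI.indicator m1).add (hI.indicator m2)
  rw [integral_add i12 (hI.indicator m3),
    integral_add (hI.indicator m1) (hI.indicator m2), integral_indicator m1, integral_indicator m2,
    integral_indicator m3]
  rfl

/-- **N2** -/
theorem nl (S : Setup d F) : NlStmt S := by
  intro _ hTW hBd hIC hSh Rn Ψ C hB hNul hw
  obtain ⟨K, hK, hE⟩ := hBd hTW
  obtain ⟨k, o, C2, hC2, hZ, -, hI⟩ := hIC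
  have hT : ∀ n, Setup.Tst (Ψ n) := fun n => (hB.inv n).1
  have hG : ∀ n, AD.GInv S (Ψ n) := fun n => ⟨(hB.inv n).1, (hB.inv n).2⟩
  have hC : 0 ≤ C := (nsq_nonneg (Ψ 0)).trans (hB.norm 0)
  have hKC : 0 ≤ K * C := mul_nonneg hK hC
  set R' : ℕ → ℝ := fun n => max (Rn n) 1 with hR'
  have hR1 : ∀ n, 1 ≤ R' n := fun n => le_max_right _ _
  have hR0 : ∀ n, 0 < R' n := fun n => lt_of_lt_of_le one_pos (hR1 n)
  have hlim : Tendsto R' atTop atTop := tendsto_atTop_mono (fun n => le_max_left _ _) hB.R_lim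
  obtain ⟨N, hN⟩ := (eventually_atTop.1 (hB.R_lim.eventually_ge_atTop 1))
  have hRe : ∀ n, N ≤ n → R' n = Rn n := fun n hn => max_eq_left (hN n hn)
  have hEn : ∀ n, N ≤ n → R' n ^ 2 * AD.En S (Ψ n) ≤ K * C ∧
      ∀ L : ℝ, 0 < L → AD.mas (Ψ n) {x | L * R' n ≤ ‖x‖} ≤ K * C / L ^ 2 := by
    intro n hn
    rw [hRe n hn]
    exact hE (Rn n) (hN n hn) (Ψ n) (hG n) C (hB.norm n) (hB.energy n)
  have hSq : AD.Sq S R' Ψ := by
    refine ⟨hG, hR0, hlim, ?_⟩
    intro s t _ _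
    refine ⟨C + (K * C + ∑ i ∈ Finset.range N, R' i ^ 2 * AD.En S (Ψ i)), fun n => ?_⟩
    have e1 : AD.mas (Ψ n) (AD.shl d (s * R' n) (t * R' n)) ≤ C := (nl471_mas_le (hT n).memLp _).trans (hB.norm n)
    have e2 : R' n ^ 2 * AD.ena S (Ψ n) (AD.shl d (s * R' n) (t * R' n)) ≤ R' n ^ 2 * AD.En S (Ψ n) :=
      mul_le_mul_of_nonneg_left (nl471_ena_le S (hT n) _) (by positivity)
    have e3 : ∀ i, 0 ≤ R' i ^ 2 * AD.En S (Ψ i) := fun i => mul_nonneg (by positivity) (nl471_En_nonneg S _)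
    have e4 : 0 ≤ ∑ i ∈ Finset.range N, R' i ^ 2 * AD.En S (Ψ i) := Finset.sum_nonneg fun i _ => e3 i
    have e5 : R' n ^ 2 * AD.En S (Ψ n) ≤ K * C + ∑ i ∈ Finset.range N, R' i ^ 2 * AD.En S (Ψ i) := by
      by_cases hn : N ≤ n
      · linarith [(hEn n hn).1]
      · have := Finset.single_le_sum (f := fun i => R' i ^ 2 * AD.En S (Ψ i)) (fun i _ => e3 i)
          (Finset.mem_range.2 (not_le.1 hn))
        linarith
    linarith
  have hshell := hSh R' Ψ hSq (hNul hSq)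
  have ho : ∀ j, MemLp (o j) 2 (volume : Measure (Cfg d)) := fun j => by
    obtain ⟨v, -, hL, -⟩ := hZ j
    exact hL.mem'
  have hc : ∀ j, Tendsto (fun n => ipr (o j) (Ψ n)) atTop (𝓝 0) := fun j => by
    obtain ⟨v, hv, hL, -⟩ := hZ j
    exact nl471_weak hT hB.norm hw (fun n => (hv n).1) hL
  have hcs : Tendsto (fun n => 2 * ((∑ j, ‖ipr (o j) (Ψ n)‖ ^ 2) * ∑ j, nsq (o j))) atTop (𝓝 0) := by
    have h1 : Tendsto (fun n => ∑ j, ‖ipr (o j) (Ψ n)‖ ^ 2) atTop (𝓝 (∑ _j : Fin k, (0 : ℝ))) := by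
      refine tendsto_finsetSum _ fun j _ => ?_
      have h2 := (hc j).norm.pow 2
      simpa using h2
    rw [Finset.sum_const_zero] at h1
    simpa using (h1.mul_const (∑ j, nsq (o j))).const_mul 2
  rw [Metric.tendsto_nhds]
  intro δ hδ
  -- constants
  set D : ℝ := 8 * C2 * (K * C) + 1 with hD
  have hDp : 0 < D := by positivity
  set η : ℝ := min (1 / 2) (δ / 4 / D) with hη
  have hη0 : 0 < η := lt_min (by norm_num) (by positivity)
  have hη1 : η ≤ 1 / 2 := min_le_left _ _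
  have hη2 : η ≤ δ / 4 / D := min_le_right _ _
  have hηD : 8 * C2 * (K * C) * η ^ 2 ≤ δ / 4 := by
    have a1 : D * η ≤ δ / 4 := by
      rw [le_div_iff₀ hDp] at hη2
      linarith
    have a2 : η ^ 2 ≤ η := by nlinarith only [hη0, hη1]
    have a3 : 0 ≤ 8 * C2 * (K * C) := by positivity
    have a4 := mul_le_mul_of_nonneg_left a2 a3
    nlinarith only [a1, a4, hη0, hD]
  set L : ℝ := 1 + 8 * (K * C) / δ with hL
  have hL0 : 0 ≤ 8 * (K * C) / δ := by positivity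
  have hL1 : 1 ≤ L := by linarith
  have hLp : 0 < L := by linarith
  have hLt : K * C / L ^ 2 ≤ δ / 8 := by
    rw [div_le_iff₀ (by positivity)]
    have b1 : 8 * (K * C) ≤ δ * L := by
      rw [hL]
      have : δ * (1 + 8 * (K * C) / δ) = δ + 8 * (K * C) := by field_simp
      rw [this]
      linarith
    have b2 : L ≤ L ^ 2 := by nlinarith only [hL1]
    have b3 := mul_le_mul_of_nonneg_left b2 hδ.le
    nlinarith only [b1, b3]
  have ev1 : ∀ᶠ n in atTop, 1 ≤ 2 * (η * R' n) := by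
    have h1 : Tendsto (fun n => 2 * η * R' n) atTop atTop := hlim.const_mul_atTop (by positivity)
    filter_upwards [h1.eventually_ge_atTop 1] with n hn
    linarith
  have ev2 : ∀ᶠ n in atTop, 2 * ((∑ j, ‖ipr (o j) (Ψ n)‖ ^ 2) * ∑ j, nsq (o j)) < δ / 4 :=
    hcs.eventually_lt_const (by positivity)
  have ev3 : ∀ᶠ n in atTop, AD.mas (Ψ n) (AD.shl d (η * R' n) (L * R' n)) < δ / 4 :=
    (hshell η L hη0 (by linarith)).eventually_lt_const (by positivity)
  filter_upwards [ev1, ev2, ev3, eventually_ge_atTop N] with n h1 h2 h3 h4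
  obtain ⟨h5, h6⟩ := hEn n h4
  have h7 := h6 L hLp
  have h8 := hI (2 * (η * R' n)) h1 (Ψ n) (hG n)
  have h9 := nl471_ball (hT n).memLp (fun j => ipr (o j) (Ψ n)) ho (Metric.ball 0 (2 * (η * R' n)))
  have h10 : C2 * (2 * (η * R' n)) ^ 2 * AD.En S (Ψ n) ≤ 4 * C2 * η ^ 2 * (K * C) := by
    have c1 := mul_le_mul_of_nonneg_left h5 (show (0 : ℝ) ≤ 4 * C2 * η ^ 2 by positivity)
    nlinarith only [c1]
  have h11 : AD.mas (fun x => Ψ n x - ∑ j, ipr (o j) (Ψ n) • o j x) (Metric.ball 0 (2 * (η * R' n))) ≤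
      4 * C2 * η ^ 2 * (K * C) := h8.trans h10
  rcases nl471_split (hT n).memLp (a := η * R' n) (b := L * R' n) with h12 | h12
  · rw [dist_zero_right, Real.norm_of_nonneg (nsq_nonneg _)]
    nlinarith only [h12, h9, h11, h2, h3, h7, hηD, hLt, hδ]
  · exact absurd h12 (not_le.2 (mul_pos hη0 (hR0 n)))

end Vale.Agent.P353.Z.AJ
end

section

/-! # P353, all `N`, block JN, C2: functionals of bundle valued sections tend to zero (helper206) -/

open MeasureTheory Filter Topology Set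
open scoped ContDiff Manifold

namespace Vale.Agent.P353.Z.AJ

variable {d dh dm r ds n : ℕ} {F : Type} [NormedAddCommGroup F] [InnerProductSpace ℂ F]

private lemma sz206_n2 {X : Type*} [MeasurableSpace X] {μ : Measure X} {G : Type*} [NormedAddCommGroup G] {f : X → G}
    (hf : MemLp f 2 μ) {ε : ℝ} (hε : 0 < ε) (h : eLpNorm f 2 μ ≤ ENNReal.ofReal (Real.sqrt ε)) :
    ∫ x, ‖f x‖ ^ 2 ∂μ ≤ ε := by
  have h2 : ∫ x, ‖f x‖ ^ 2 ∂μ = (eLpNorm f 2 μ).toReal ^ 2 := by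
    have h3 := hf.eLpNorm_eq_integral_rpow_norm (by norm_num) (by norm_num)
    rw [h3]
    have h4 : 0 ≤ ∫ x, ‖f x‖ ^ (2 : ℝ) ∂μ := integral_nonneg fun x => by positivity
    simp only [ENNReal.toReal_ofNat]
    rw [ENNReal.toReal_ofReal (by positivity), ← Real.rpow_natCast, ← Real.rpow_mul h4]
    norm_num
  rw [h2]
  have h5 := ENNReal.toReal_mono ENNReal.ofReal_ne_top h
  rw [ENNReal.toReal_ofReal (Real.sqrt_nonneg _)] at h5
  calc _ ≤ Real.sqrt ε ^ 2 := pow_le_pow_left₀ ENNReal.toReal_nonneg h5 2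
    _ = ε := Real.sq_sqrt hε.le

/-- smooth cutoffs -/
private lemma sz206_chi {A Ω : Set (Cfg r)} (hA : IsCompact A) (hΩ : IsOpen Ω) (hAΩ : A ⊆ Ω) :
    ∃ (χ : Cfg r → ℝ) (L : Set (Cfg r)), IsCompact L ∧ L ⊆ Ω ∧ ContDiff ℝ ∞ χ ∧ (∀ x, x ∉ L → χ x = 0) ∧
      (∀ x ∈ A, χ x = 1) ∧ ∀ x, 0 ≤ χ x ∧ χ x ≤ 1 := by
  obtain ⟨L, hL, hKL, hLR⟩ := exists_compact_between hA hΩ hAΩ
  obtain ⟨χ, hχ0, hχ1, hχ⟩ := exists_contMDiffMap_zero_one_of_isClosed (n := ⊤) 𝓘(ℝ, Cfg r)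
    (isOpen_interior (s := L)).isClosed_compl hA.isClosed
    (disjoint_left.2 fun x hx hx' => hx (hKL hx'))
  exact ⟨χ, L, hL, hLR, χ.contMDiff.contDiff, fun x hx => hχ0 fun h => hx (interior_subset (s := L) h),
    fun x hx => hχ1 hx, fun x => hχ x⟩

/-- smooth approximation with support in an open set -/
private lemma sz206_apx0 {G : Type*} [NormedAddCommGroup G] [NormedSpace ℝ G] {c : Cfg r → G}
    (hc : MemLp c 2 (volume : Measure (Cfg r))) {A Ω : Set (Cfg r)}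
    (hA : IsCompact A) (hΩ : IsOpen Ω) (hAΩ : A ⊆ Ω) (h0 : ∀ x, x ∉ A → c x = 0) {ε : ℝ} (hε : 0 < ε) :
    ∃ (b : Cfg r → G) (K' : Set (Cfg r)), IsCompact K' ∧ K' ⊆ Ω ∧ ContDiff ℝ ∞ b ∧ tsupport b ⊆ K' ∧
      MemLp b 2 (volume : Measure (Cfg r)) ∧ ∫ x, ‖c x - b x‖ ^ 2 ≤ ε := by
  obtain ⟨χ, L, hL, hLR, hχs, hχ0, hχ1, hχ⟩ := sz206_chi hA hΩ hAΩ
  obtain ⟨g, hg1, hg2, hg3⟩ := hc.exist_eLpNorm_sub_le (by norm_num) (by norm_num) (Real.sqrt_pos.2 hε)
  have hts : tsupport (fun x => χ x • g x) ⊆ L := by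
    refine closure_minimal ?_ hL.isClosed
    intro p hp
    by_contra hpL
    apply hp
    simp [hχ0 p hpL]
  have hsm : ContDiff ℝ ∞ (fun x => χ x • g x) := hχs.smul hg2
  have hcs : HasCompactSupport (fun x => χ x • g x) := hg1.smul_left
  have hm : MemLp (fun x => χ x • g x) 2 (volume : Measure (Cfg r)) :=
    hsm.continuous.memLp_of_hasCompactSupport hcs
  refine ⟨fun x => χ x • g x, L, hL, hLR, hsm, hts, hm, ?_⟩
  refine sz206_n2 (hc.sub hm) hε ?_
  refine le_trans (eLpNorm_mono (g := c - g) fun q => ?_) hg3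
  have h1 : χ q • c q = c q := by
    by_cases h : q ∈ A
    · rw [hχ1 q h, one_smul]
    · rw [h0 q h, smul_zero]
  have h2 : c q - χ q • g q = χ q • (c q - g q) := by rw [smul_sub, h1]
  show ‖c q - χ q • g q‖ ≤ ‖c q - g q‖
  rw [h2, norm_smul, Real.norm_of_nonneg (hχ q).1]
  exact mul_le_of_le_one_left (norm_nonneg _) (hχ q).2

private lemma sz206_apx {c : Cfg r → AL.Ek n} (hc : MemLp c 2 (volume : Measure (Cfg r))) {A Ω : Set (Cfg r)}
    (hA : IsCompact A) (hΩ : IsOpen Ω) (hAΩ : A ⊆ Ω) (h0 : ∀ x, x ∉ A → c x = 0) {ε : ℝ} (hε : 0 < ε) :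
    ∃ (b : Cfg r → AL.Ek n) (K' : Set (Cfg r)), IsCompact K' ∧ K' ⊆ Ω ∧ ContDiff ℝ ∞ b ∧ tsupport b ⊆ K' ∧
      MemLp b 2 (volume : Measure (Cfg r)) ∧ ∫ x, ‖c x - b x‖ ^ 2 ≤ ε :=
  sz206_apx0 hc hA hΩ hAΩ h0 hε

omit [InnerProductSpace ℂ F] in
private lemma sz206_sq {X : Type*} [MeasurableSpace X] {μ : Measure X} {f g : X → F} (hf : MemLp f 2 μ) (hg : MemLp g 2 μ) :
    ∫ q, ‖f q + g q‖ ^ 2 ∂μ ≤ 2 * (∫ q, ‖f q‖ ^ 2 ∂μ) + 2 * ∫ q, ‖g q‖ ^ 2 ∂μ := by
  have i1 : Integrable (fun q => ‖f q‖ ^ 2) μ := hf.integrable_norm_pow (by norm_num)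
  have i2 : Integrable (fun q => ‖g q‖ ^ 2) μ := hg.integrable_norm_pow (by norm_num)
  rw [← integral_const_mul, ← integral_const_mul, ← integral_add (i1.const_mul 2) (i2.const_mul 2)]
  refine integral_mono_of_nonneg (Eventually.of_forall fun q => sq_nonneg _)
    ((i1.const_mul 2).add (i2.const_mul 2)) (Eventually.of_forall fun q => ?_)
  have h := pow_le_pow_left₀ (norm_nonneg _) (norm_add_le (f q) (g q)) 2
  show ‖f q + g q‖ ^ 2 ≤ 2 * ‖f q‖ ^ 2 + 2 * ‖g q‖ ^ 2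
  nlinarith [sq_nonneg (‖f q‖ - ‖g q‖)]

/-- the cutoff sections converge -/
private lemma sz206_cut {L : Finset (Fin r → ℝ)} {η : ℕ → Cfg r → ℝ} (hη : ∀ m, Continuous (η m))
    (h01 : ∀ m y, 0 ≤ η m y ∧ η m y ≤ 1) (hev : ∀ y, y ∉ Coll L → ∀ᶠ m in atTop, η m y = 1)
    (hae : ∀ᵐ y ∂(volume : Measure (Cfg r)), y ∉ Coll L) {a : Cfg r → Cfg ds → F}
    (ha : MemLp (fun q : Cfg r × Cfg ds => a q.1 q.2) 2 (volume.prod volume)) :
    (∀ m, MemLp (fun q : Cfg r × Cfg ds => ((η m q.1 : ℝ) : ℂ) • a q.1 q.2) 2 (volume.prod volume)) ∧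
    Tendsto (fun m => ∫ q : Cfg r × Cfg ds, ‖a q.1 q.2 - ((η m q.1 : ℝ) : ℂ) • a q.1 q.2‖ ^ 2 ∂(volume.prod volume))
      atTop (𝓝 0) := by
  have hms : ∀ m, AEStronglyMeasurable (fun q : Cfg r × Cfg ds => ((η m q.1 : ℝ) : ℂ) • a q.1 q.2)
      ((volume : Measure (Cfg r)).prod (volume : Measure (Cfg ds))) := fun m =>
    (Complex.continuous_ofReal.comp ((hη m).comp continuous_fst)).aestronglyMeasurable.smul ha.1
  constructor
  · intro m
    refine ha.mono (hms m) (Eventually.of_forall fun q => ?_)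
    rw [norm_smul, Complex.norm_real, Real.norm_of_nonneg (h01 m q.1).1]
    exact mul_le_of_le_one_left (norm_nonneg _) (h01 m q.1).2
  · have hi : Integrable (fun q : Cfg r × Cfg ds => ‖a q.1 q.2‖ ^ 2) (volume.prod volume) :=
      ha.integrable_norm_pow (by norm_num)
    have hlim : ∀ᵐ q : Cfg r × Cfg ds ∂((volume : Measure (Cfg r)).prod (volume : Measure (Cfg ds))),
        Tendsto (fun m => ‖a q.1 q.2 - ((η m q.1 : ℝ) : ℂ) • a q.1 q.2‖ ^ 2) atTop (𝓝 0) := by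
      have h1 := (Measure.quasiMeasurePreserving_fst (μ := (volume : Measure (Cfg r)))
        (ν := (volume : Measure (Cfg ds)))).ae hae
      filter_upwards [h1] with q hq
      refine tendsto_const_nhds.congr' ?_
      filter_upwards [hev q.1 hq] with m hm
      rw [hm]
      simp
    have h := tendsto_integral_of_dominated_convergence (fun q : Cfg r × Cfg ds => ‖a q.1 q.2‖ ^ 2)
      (fun m => ((ha.1.sub (hms m)).norm.pow 2)) hi (fun m => Eventually.of_forall fun q => by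
        show ‖‖a q.1 q.2 - ((η m q.1 : ℝ) : ℂ) • a q.1 q.2‖ ^ 2‖ ≤ ‖a q.1 q.2‖ ^ 2
        rw [Real.norm_of_nonneg (sq_nonneg _)]
        refine pow_le_pow_left₀ (norm_nonneg _) ?_ 2
        have h1 : a q.1 q.2 - ((η m q.1 : ℝ) : ℂ) • a q.1 q.2 = ((1 - η m q.1 : ℝ) : ℂ) • a q.1 q.2 := by
          push_cast
          rw [sub_smul, one_smul]
        rw [h1, norm_smul, Complex.norm_real, Real.norm_of_nonneg (by linarith [(h01 m q.1).2])]
        exact mul_le_of_le_one_left (norm_nonneg _) (by linarith [(h01 m q.1).1])) hlim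
    simpa using h

open AL.Zero533 in
/-- **C2** -/
theorem secz_of (S : Setup d F) : SecZOfStmt S := by
  intro hCoef hUB hLin hI hZML hCut hfin hC dh dm r ds n φ ψ z₀ hstd L Om K U o T hD R u hSq hlim A hA hARg hA0 a ha hzm
  obtain ⟨c, hc2, hc0, hac⟩ := hCoef hfin hZML hCut dh dm r ds n φ ψ L Om K U o T hD A hA hARg a ha hzm
  obtain ⟨s, t, hs, hst, hAs⟩ := shell hA hA0
  obtain ⟨C, hC0, hub⟩ := hUB hfin hC dh dm r ds φ ψ z₀ hstd L Om K U hD.bun
  obtain ⟨M₀, hM₀⟩ := hSq.bd s t hs hst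
  obtain ⟨η, hηs, hη01, hηd, hηev, hηae, -⟩ := hCut r L hD.bun.L_ne
  set M : ℝ := max M₀ 0 with hMdef
  have hM : ∀ m, AD.mas (u m) (AD.shl d (s * R m) (t * R m)) ≤ M := fun m => (hM₀ m).trans (le_max_left _ _)
  set Ω : Set (Cfg r) := AD.shl r s t ∩ (Coll L)ᶜ with hΩdef
  have hΩo : IsOpen Ω := by
    have h1 : IsOpen (AD.shl r s t) :=
      (isOpen_lt continuous_const continuous_norm).inter (isOpen_lt continuous_norm continuous_const)
    exact h1.inter hD.bun.closed.isOpen_compl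
  obtain ⟨hcm, hcl⟩ := sz206_cut (L := L) (fun m => (hηs m).continuous) hη01 hηev hηae ha.1
  -- approximation
  have hmain : ∀ δ : ℝ, 0 < δ → ∃ (b : Cfg r → AL.Ek n) (K' : Set (Cfg r)), IsCompact K' ∧ K' ⊆ Ω ∧
      AD.TOff L b ∧ MemLp b 2 (volume : Measure (Cfg r)) ∧ (∀ x, x ∉ K' → b x = 0) ∧
      AL.n2 (fun η s => a η s - AL.sc U o b η s) ≤ δ := by
    intro δ hδ
    obtain ⟨m, hm⟩ := (hcl.eventually (gt_mem_nhds (show (0 : ℝ) < δ / 4 by positivity))).exists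
    have hcomp : IsCompact (A ∩ tsupport (η m)) := hA.inter_right (isClosed_tsupport _)
    have hsub : A ∩ tsupport (η m) ⊆ Ω := fun x hx =>
      ⟨hAs hx.1, fun h => Set.disjoint_left.1 (hηd m) hx.2 h⟩
    have hc' : MemLp (fun x => ((η m x : ℝ) : ℂ) • c x) 2 (volume : Measure (Cfg r)) := by
      refine hc2.mono ((Complex.continuous_ofReal.comp (hηs m).continuous).aestronglyMeasurable.smul hc2.1)
        (Eventually.of_forall fun q => ?_)
      rw [norm_smul, Complex.norm_real, Real.norm_of_nonneg (hη01 m q).1]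
      exact mul_le_of_le_one_left (norm_nonneg _) (hη01 m q).2
    have hc0' : ∀ x, x ∉ A ∩ tsupport (η m) → ((η m x : ℝ) : ℂ) • c x = 0 := by
      intro x hx
      by_cases h : x ∈ A
      · have h1 : η m x = 0 := by
          by_contra hne
          exact hx ⟨h, subset_tsupport _ hne⟩
        rw [h1, Complex.ofReal_zero, zero_smul]
      · rw [hc0 x h, smul_zero]
    obtain ⟨b, K', hK', hK'Ω, hb1, hb2, hb3, hb4⟩ := sz206_apx hc' hcomp hΩo hsub hc0'
      (show (0 : ℝ) < δ / 4 by positivity)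
    have hb0 : ∀ x, x ∉ K' → b x = 0 := fun x hx => image_eq_zero_of_notMem_tsupport fun h => hx (hb2 h)
    refine ⟨b, K', hK', hK'Ω, ⟨⟨⟨hb1, hK'.of_isClosed_subset (isClosed_tsupport _) hb2⟩, ?_⟩, ?_⟩, hb3, hb0, ?_⟩
    · exact Set.disjoint_left.2 fun x hx h => (hK'Ω (hb2 hx)).2 h
    · intro h
      have h1 := (hK'Ω (hb2 h)).1.1
      rw [norm_zero] at h1
      linarith
    · have hU : (A ∩ tsupport (η m)) ∪ K' ⊆ (Coll L)ᶜ :=
        Set.union_subset (hsub.trans Set.inter_subset_right) (hK'Ω.trans Set.inter_subset_right)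
      have hb' : MemLp (fun x => -b x) 2 (volume : Measure (Cfg r)) := hb3.neg
      obtain ⟨s1, s2⟩ := hI dh dm r ds n φ ψ L Om K U o T hD _ (hcomp.union hK') hU
        (fun x => ((η m x : ℝ) : ℂ) • c x + -b x) (hc'.add hb') (fun x hx => by
          rw [hc0' x fun h => hx (Or.inl h), hb0 x fun h => hx (Or.inr h)]
          simp)
      have e1 : (fun q : Cfg r × Cfg ds => ((η m q.1 : ℝ) : ℂ) • a q.1 q.2 - AL.sc U o b q.1 q.2)
          =ᵐ[(volume : Measure (Cfg r)).prod (volume : Measure (Cfg ds))]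
          fun q => AL.sc U o (fun x => ((η m x : ℝ) : ℂ) • c x + -b x) q.1 q.2 := by
        filter_upwards [hac] with q hq
        rw [hq]
        simp only [AL.sc, PiLp.add_apply, PiLp.smul_apply, PiLp.neg_apply, smul_eq_mul, add_smul, neg_smul,
          Finset.sum_add_distrib, Finset.sum_neg_distrib, Finset.smul_sum, smul_smul, sub_eq_add_neg]
      have m1 : MemLp (fun q : Cfg r × Cfg ds => ((η m q.1 : ℝ) : ℂ) • a q.1 q.2 - AL.sc U o b q.1 q.2) 2
          (volume.prod volume) := (memLp_congr_ae e1).2 s1.1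
      have n1 : ∫ q : Cfg r × Cfg ds, ‖((η m q.1 : ℝ) : ℂ) • a q.1 q.2 - AL.sc U o b q.1 q.2‖ ^ 2
          ∂(volume.prod volume) ≤ δ / 4 := by
        have h1 : ∫ q : Cfg r × Cfg ds, ‖((η m q.1 : ℝ) : ℂ) • a q.1 q.2 - AL.sc U o b q.1 q.2‖ ^ 2
          ∂(volume.prod volume) = AL.n2 (AL.sc U o (fun x => ((η m x : ℝ) : ℂ) • c x + -b x)) := by
          unfold AL.n2
          refine integral_congr_ae ?_
          filter_upwards [e1] with q hq
          rw [hq]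
        rw [h1, s2]
        refine le_trans (le_of_eq ?_) hb4
        simp only [sub_eq_add_neg]
      have m2 : MemLp (fun q : Cfg r × Cfg ds => a q.1 q.2 - ((η m q.1 : ℝ) : ℂ) • a q.1 q.2) 2
          (volume.prod volume) := ha.1.sub (hcm m)
      have h3 := sz206_sq m2 m1
      have h4 : AL.n2 (fun η s => a η s - AL.sc U o b η s) = ∫ q : Cfg r × Cfg ds,
          ‖(a q.1 q.2 - ((η m q.1 : ℝ) : ℂ) • a q.1 q.2) +
            (((η m q.1 : ℝ) : ℂ) • a q.1 q.2 - AL.sc U o b q.1 q.2)‖ ^ 2 ∂(volume.prod volume) := by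
        unfold AL.n2
        simp only [sub_add_sub_cancel]
      rw [h4]
      linarith
  rw [Metric.tendsto_nhds]
  intro e he
  have hq : 0 < C * Real.sqrt M + 1 := by positivity
  obtain ⟨b, K', hK', hK'Ω, hbT, hb2, hb0, hbn⟩ := hmain ((e / (4 * (C * Real.sqrt M + 1))) ^ 2) (by positivity)
  have hcU : IsCompact (A ∪ K') := hA.union hK'
  have hUs : A ∪ K' ⊆ AD.shl r s t := Set.union_subset hAs (hK'Ω.trans Set.inter_subset_left)
  have hK'c : K' ⊆ (Coll L)ᶜ := hK'Ω.trans Set.inter_subset_right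
  have hUR : A ∪ K' ⊆ AL.Rg S φ ψ := Set.union_subset hARg (hK'c.trans (rg hD.bun))
  obtain ⟨t1, -⟩ := hI dh dm r ds n φ ψ L Om K U o T hD K' hK' hK'c b hb2 hb0
  have sb : AL.Sec2 (A ∪ K') (AL.sc U o b) := ⟨t1.1, fun η s h => Or.inr (t1.2 η s h)⟩
  have sx : AL.Sec2 (A ∪ K') (fun η s => a η s - AL.sc U o b η s) := by
    refine ⟨ha.1.sub t1.1, fun η s h => ?_⟩
    by_contra hn
    apply h
    have h1 : a η s = 0 := by
      by_contra hne
      exact hn (Or.inl (ha.2 η s hne))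
    have h2 : AL.sc U o b η s = 0 := by
      by_contra hne
      exact hn (Or.inr (t1.2 η s hne))
    show a η s - AL.sc U o b η s = 0
    rw [h1, h2, sub_zero]
  have hub' := hub s t hs hst (A ∪ K') hcU hUs hUR R u hSq _ sx (e / 4) (by positivity)
  have hl := (Metric.tendsto_nhds.1 (hlim b hbT)) (e / 4) (by positivity)
  filter_upwards [hub', hl] with m h1 h2
  rw [dist_zero_right] at h2 ⊢
  have hadd := (hLin hfin dh dm r ds φ ψ L Om K U hD.bun (A ∪ K') hcU hUR (R m) (hSq.pos m) (u m)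
    (hSq.inv m).1).2.1 _ _ sx sb
  simp only [sub_add_cancel] at hadd
  rw [hadd]
  have h3 : C * Real.sqrt (AL.n2 fun η s => a η s - AL.sc U o b η s) *
      Real.sqrt (AD.mas (u m) (AD.shl d (s * R m) (t * R m))) ≤ e / 4 := by
    have h4 : Real.sqrt (AL.n2 fun η s => a η s - AL.sc U o b η s) ≤ e / (4 * (C * Real.sqrt M + 1)) := by
      have h5 := Real.sqrt_le_sqrt hbn
      rwa [Real.sqrt_sq (by positivity)] at h5
    have h6 : Real.sqrt (AD.mas (u m) (AD.shl d (s * R m) (t * R m))) ≤ Real.sqrt M := Real.sqrt_le_sqrt (hM m)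
    calc _ ≤ C * (e / (4 * (C * Real.sqrt M + 1))) * Real.sqrt M :=
          mul_le_mul (mul_le_mul_of_nonneg_left h4 hC0.le) h6 (Real.sqrt_nonneg _) (by positivity)
      _ = e / 4 * (C * Real.sqrt M / (C * Real.sqrt M + 1)) := by
          field_simp
      _ ≤ e / 4 * 1 := by
          refine mul_le_mul_of_nonneg_left ?_ (by positivity)
          rw [div_le_one hq]
          linarith
      _ = e / 4 := mul_one _
  calc _ ≤ ‖AL.ZZ S.κ φ ψ Om (fun η s => a η s - AL.sc U o b η s) (R m) (u m)‖ +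
        ‖AL.ZZ S.κ φ ψ Om (AL.sc U o b) (R m) (u m)‖ := norm_add_le _ _
    _ ≤ (e / 4 + e / 4) + ‖AL.ZZ S.κ φ ψ Om (AL.sc U o b) (R m) (u m)‖ := by
        refine add_le_add (h1.trans ?_) le_rfl
        linarith
    _ < e := by linarith

end Vale.Agent.P353.Z.AJ
end

section

/-! # P353, all `N`, block MB: covariance (MB5a) and one piece in a rotated frame (MB5) -/

open MeasureTheory Filter Topology Matrix
open scoped ContDiff

namespace Vale.Agent.P353.Z.AM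

variable {d dh dm r ds : ℕ} {F : Type} [NormedAddCommGroup F] [InnerProductSpace ℂ F]

omit [NormedAddCommGroup F] [InnerProductSpace ℂ F] in
private theorem mb514_rotu (Q : Matrix (Fin 9) (Fin 9) ℝ) (u : Cfg d → F) :
    AJ.rotu Q 1 u = fun x => u (rox Q.transpose 1 x) := by
  funext x
  unfold AJ.rotu
  rw [Matrix.transpose_one]

/-- the rotation as a measurable embedding -/
private theorem mb514_emb {Q : Matrix (Fin 9) (Fin 9) ℝ} (hQ : Q * Q.transpose = 1) (n : ℕ) :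
    MeasurableEmbedding (rox Q 1 : Cfg n → Cfg n) :=
  (AN.rtE Q hQ 1 (AN.gb969_one n)).toHomeomorph.measurableEmbedding

private theorem mb514_Zb {Q : Matrix (Fin 9) (Fin 9) ℝ} (hQ : Q * Q.transpose = 1) (φ : Spl dh dm d) (ψ : Spl r ds dh)
    (κ : ℝ) (Om : Cfg r → Matrix (Fin dm) (Fin dm) ℝ) (a : Cfg r → Cfg ds → F) (R : ℝ) (x : Cfg d) :
    AN.Zb φ ψ (fun q => ((AL.chi R q : ℝ) : ℂ) • AN.bG κ (fun η => Om (rox Q.transpose 1 η))
      (fun η s => a (rox Q.transpose 1 η) (rox Q.transpose 1 s)) q) R (rox Q 1 x) =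
    AN.Zb φ ψ (fun q => ((AL.chi R q : ℝ) : ℂ) • AN.bG κ Om a q) R x := by
  unfold AN.Zb
  simp only [AN.gb969_zy, AN.gb969_pm, AN.gb969_hz, AN.gb969_hs, ← AN.gb969_smul]
  unfold AN.bG AL.chi
  simp only [AN.gb969_qX hQ, AN.gb969_inv hQ, AN.rt_norm hQ (AN.gb969_one _)]

private theorem mb514_ZZ {Q : Matrix (Fin 9) (Fin 9) ℝ} (hQ : Q * Q.transpose = 1) (φ : Spl dh dm d) (ψ : Spl r ds dh)
    (κ : ℝ) (Om : Cfg r → Matrix (Fin dm) (Fin dm) ℝ) (a : Cfg r → Cfg ds → F) (R : ℝ) (u : Cfg d → F) :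
    AL.ZZ κ φ ψ Om a R u = AL.ZZ κ φ ψ (fun η => Om (rox Q.transpose 1 η))
      (fun η s => a (rox Q.transpose 1 η) (rox Q.transpose 1 s)) R (AJ.rotu Q 1 u) := by
  unfold AL.ZZ
  symm
  rw [mb514_rotu, ← (AN.rt_mp hQ (AN.gb969_one d)).integral_comp (mb514_emb hQ d)]
  refine integral_congr_ae (Eventually.of_forall fun x => ?_)
  simp only [mb514_Zb hQ, AN.gb969_inv hQ]

omit [InnerProductSpace ℂ F] in
private theorem mb514_Sec2 {Q : Matrix (Fin 9) (Fin 9) ℝ} (hQ : Q * Q.transpose = 1) (A : Set (Cfg r))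
    (a : Cfg r → Cfg ds → F) (ha : AL.Sec2 A a) :
    AL.Sec2 (rox Q 1 '' A) (fun η s => a (rox Q.transpose 1 η) (rox Q.transpose 1 s)) := by
  have hT := AN.gb969_hR' hQ
  refine ⟨?_, ?_⟩
  · have h1 := (AN.rt_mp hT (AN.gb969_one r)).prod (AN.rt_mp hT (AN.gb969_one ds))
    exact ha.1.comp_measurePreserving h1
  · intro η s h
    exact ⟨rox Q.transpose 1 η, ha.2 _ _ h, AN.gb969_inv' hQ η⟩

omit [InnerProductSpace ℂ F] in
private theorem mb514_n2 {Q : Matrix (Fin 9) (Fin 9) ℝ} (hQ : Q * Q.transpose = 1) (a : Cfg r → Cfg ds → F) :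
    AL.n2 (fun η s => a (rox Q.transpose 1 η) (rox Q.transpose 1 s)) = AL.n2 a := by
  have hT := AN.gb969_hR' hQ
  have h1 := (AN.rt_mp hT (AN.gb969_one r)).prod (AN.rt_mp hT (AN.gb969_one ds))
  have h2 : MeasurableEmbedding (Prod.map (rox Q.transpose 1 : Cfg r → Cfg r) (rox Q.transpose 1 : Cfg ds → Cfg ds)) :=
    (mb514_emb hT r).prodMap (mb514_emb hT ds)
  exact h1.integral_comp h2 (fun q : Cfg r × Cfg ds => ‖a q.1 q.2‖ ^ 2)

private theorem mb514_SqM {Q : Matrix (Fin 9) (Fin 9) ℝ} (hQ : Q * Q.transpose = 1) (S : Setup d F)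
    (h1 : (1 : Matrix (Fin d) (Fin d) ℝ) * (1 : Matrix (Fin d) (Fin d) ℝ).transpose = 1)
    (R : ℕ → ℝ) (u : ℕ → Cfg d → F) (hu : AL.SqM S R u) : AL.SqM (S.rot Q hQ 1 h1) R (fun n => AJ.rotu Q 1 (u n)) where
  inv := by
    intro n
    rw [mb514_rotu]
    exact AN.gb969_GInv S hQ h1 (hu.inv n)
  pos := hu.pos
  lim := hu.lim
  bd := by
    intro s t hs hst
    obtain ⟨C, hC⟩ := hu.bd s t hs hst
    refine ⟨C, fun n => ?_⟩
    rw [mb514_rotu, AN.gb969_mas hQ]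
    exact hC n

/-- **MB5a** -/
theorem covZ : CovZStmt F := by
  intro Q hQ
  exact ⟨fun d dh dm r ds φ ψ κ Om a R u => mb514_ZZ hQ φ ψ κ Om a R u,
    fun r ds A a ha => ⟨mb514_Sec2 hQ A a ha, mb514_n2 hQ a⟩,
    fun d S h1 R u hu => mb514_SqM hQ S h1 R u hu⟩

/-- a sum of squares of antisymmetric matrices is invertible if one of them is -/
private theorem mb514_det (D : Fin 9 → Matrix (Fin dm) (Fin dm) ℝ) (ha : ∀ i, (D i)ᵀ = -D i) (h8 : (D 8).det ≠ 0) :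
    (∑ i, D i * D i).det ≠ 0 := by
  intro h0
  obtain ⟨v, hv, hv0⟩ := Matrix.exists_mulVec_eq_zero_iff.2 h0
  have h1 : v ⬝ᵥ ((∑ i, D i * D i) *ᵥ v) = -∑ i, (D i *ᵥ v) ⬝ᵥ (D i *ᵥ v) := by
    rw [Matrix.sum_mulVec, dotProduct_sum, ← Finset.sum_neg_distrib]
    refine Finset.sum_congr rfl fun i _ => ?_
    rw [← Matrix.mulVec_mulVec, Matrix.dotProduct_mulVec, ← Matrix.mulVec_transpose, ha i, Matrix.neg_mulVec,
      neg_dotProduct]
  rw [hv0, dotProduct_zero] at h1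
  have h2 : ∀ i, 0 ≤ (D i *ᵥ v) ⬝ᵥ (D i *ᵥ v) := fun i =>
    Finset.sum_nonneg fun j _ => mul_self_nonneg _
  have h3 : ∑ i, (D i *ᵥ v) ⬝ᵥ (D i *ᵥ v) = 0 := by linarith
  have h4 := (Finset.sum_eq_zero_iff_of_nonneg fun i _ => h2 i).1 h3 8 (Finset.mem_univ _)
  have h5 : D 8 *ᵥ v = 0 := dotProduct_self_eq_zero.1 h4
  exact h8 (Matrix.exists_mulVec_eq_zero_iff.1 ⟨v, hv, h5⟩)

/-- the sum of squares does not change under rotations -/
private theorem mb514_sq {Q : Matrix (Fin 9) (Fin 9) ℝ} (hQ : Q * Q.transpose = 1) (D : Fin 9 → Matrix (Fin dm) (Fin dm) ℝ) :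
    ∑ i, (∑ j, Q i j • D j) * (∑ j, Q i j • D j) = ∑ i, D i * D i := by
  have hT : Q.transpose * Q = 1 := mul_eq_one_comm.1 hQ
  have h0 : ∀ j k, ∑ i, Q i j * Q i k = if j = k then 1 else 0 := by
    intro j k
    have h := congrFun (congrFun hT j) k
    rw [Matrix.mul_apply, Matrix.one_apply] at h
    simpa [Matrix.transpose_apply] using h
  have h1 : ∀ i, (∑ j, Q i j • D j) * (∑ j, Q i j • D j) = ∑ j, ∑ k, (Q i j * Q i k) • (D j * D k) := by
    intro i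
    rw [Finset.sum_mul_sum]
    refine Finset.sum_congr rfl fun j _ => Finset.sum_congr rfl fun k _ => ?_
    rw [smul_mul_smul_comm]
  simp only [h1]
  rw [Finset.sum_comm]
  refine Finset.sum_congr rfl fun j _ => ?_
  rw [Finset.sum_comm]
  simp only [← Finset.sum_smul, h0]
  simp

/-- **MB5** -/
theorem piece_of (S : Setup d F) : PieceOfStmt S := by
  intro hCov hP hF dh dm r ds φ ψ z₀ hStd L Om K U hB η₀ hη₀ Q hQ h8
  have h1 : (1 : Matrix (Fin d) (Fin d) ℝ) * (1 : Matrix (Fin d) (Fin d) ℝ).transpose = 1 := AN.gb969_one d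
  have hφ : S.IsSub φ := hStd.std.sub
  have hφ' : (S.rot Q hQ 1 h1).IsSub φ := by
    intro A B C
    rw [AX.rot_f]
    exact hφ A B C
  have hc' : AN.IsZ (S.rot Q hQ 1 h1) φ ψ := by
    intro a B C
    rw [AX.rot_f]
    exact hStd.cen a B C
  have hη' : rox Q 1 η₀ ≠ 0 := by
    intro h0
    apply hη₀
    rw [← norm_eq_zero, ← AN.rt_norm hQ (AN.gb969_one r), h0, norm_zero]
  have h8' : ((S.rot Q hQ 1 h1).Dz φ ψ (rox Q 1 η₀) 8).det ≠ 0 := by
    rw [AX.rot_Dz]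
    exact h8
  set M := AX.Mz S φ (spsw ψ) with hM
  have hrz : ∀ y : Cfg r, rox Q.transpose 1 y = AX.rz Q.transpose y := AX.rox_one Q.transpose
  have hcont : Continuous fun y : Cfg r => rox Q.transpose 1 y := by
    have h := (AX.rzL r Q.transpose).continuous
    refine h.congr fun y => ?_
    rw [hrz]
    rfl
  -- the regular set in the rotated frame
  set G : Set (Cfg r) := {y | (∑ i, DM M (rox Q.transpose 1 y) i * DM M (rox Q.transpose 1 y) i).det ≠ 0} with hG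
  have hGo : IsOpen G := by
    have hd : Continuous fun y : Cfg r => (∑ i, DM M (rox Q.transpose 1 y) i * DM M (rox Q.transpose 1 y) i).det := by
      have h3 : Continuous fun y : Cfg r => ∑ i, DM M y i * DM M y i := by
        unfold DM
        fun_prop
      exact (h3.comp hcont).matrix_det
    exact isOpen_ne_fun hd continuous_const
  have hG₀ : rox Q 1 η₀ ∈ G := by
    show (∑ i, DM M (rox Q.transpose 1 (rox Q 1 η₀)) i * DM M (rox Q.transpose 1 (rox Q 1 η₀)) i).det ≠ 0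
    rw [AN.gb969_inv hQ, ← mb514_sq hQ (DM M η₀)]
    have h2 : ∀ i, ∑ j, Q i j • DM M η₀ j = DM M (AX.rz Q η₀) i := fun i => (AX.DM_rz M Q η₀ i).symm
    simp only [h2]
    refine mb514_det (DM M (AX.rz Q η₀)) ?_ ?_
    · intro i
      have h3 := AX.Mz_anti S φ (spsw ψ)
      simp only [DM, Matrix.transpose_sum, Matrix.transpose_smul, hM, h3, smul_neg, Finset.sum_neg_distrib]
    · rw [hM, AX.DM_Dz, ← AX.rox_one]
      exact h8
  obtain ⟨δ₁, hδ₁, hball⟩ := Metric.nhds_basis_closedBall.mem_iff.1 (hGo.mem_nhds hG₀)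
  have hOm : ∀ η ∈ Metric.closedBall (rox Q 1 η₀) δ₁,
      IsOm (S.rot Q hQ 1 h1).κ ((S.rot Q hQ 1 h1).Dz φ ψ η) (Om (rox Q.transpose 1 η)) := by
    intro η hη
    have h2 : (∑ i, DM M (rox Q.transpose 1 η) i * DM M (rox Q.transpose 1 η) i).det ≠ 0 := hball hη
    have h3 := ((AX.covF0 S φ Q hQ h1 (DM M (rox Q.transpose 1 η)) (Om (rox Q.transpose 1 η))).2.2).1 (hB.om _ h2)
    have h4 : (fun i => ∑ j, Q i j • DM M (rox Q.transpose 1 η) j) = (S.rot Q hQ 1 h1).Dz φ ψ η := by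
      rw [AX.rot_Dz]
      funext i
      rw [← AX.DM_rz, hrz, AX.rz_rz hQ, hM, AX.DM_Dz]
    rw [h4] at h3
    exact h3
  have hOc : ContinuousOn (fun η => Om (rox Q.transpose 1 η)) (Metric.closedBall (rox Q 1 η₀) δ₁) := by
    refine continuousOn_pi.2 fun A => continuousOn_pi.2 fun B => ?_
    have h2 : ContinuousOn (fun η => Om η A B) {η | (∑ i, DM M η i * DM M η i).det ≠ 0} := (hB.om_smooth A B).continuousOn
    exact h2.comp hcont.continuousOn fun η hη => hball hη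
  obtain ⟨δ, hδ, H⟩ := hP (S.rot Q hQ 1 h1) hF dh dm r ds φ ψ hφ' hc' (rox Q 1 η₀) hη' h8'
    (fun η => Om (rox Q.transpose 1 η)) δ₁ hδ₁ hOm hOc
  obtain ⟨hC1, hC2, hC3⟩ := hCov Q hQ
  refine ⟨δ, hδ, fun A hA hAs ε hε R u hu a ha e he => ?_⟩
  have hcQ : Continuous fun y : Cfg r => rox Q 1 y := by
    have h := (AX.rzL r Q).continuous
    refine h.congr fun y => ?_
    rw [AX.rox_one]
    rfl
  have hA' : IsCompact (rox Q 1 '' A) := hA.image hcQ
  have hAs' : rox Q 1 '' A ⊆ Metric.closedBall (rox Q 1 η₀) δ := by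
    rintro _ ⟨η, hη, rfl⟩
    have h2 := hAs hη
    rw [Metric.mem_closedBall, dist_eq_norm] at h2 ⊢
    have h3 := (AN.rtE Q hQ (1 : Matrix (Fin r) (Fin r) ℝ) (AN.gb969_one r)).map_sub η η₀
    have h4 : rox Q 1 (η - η₀) = rox Q 1 η - rox Q 1 η₀ := h3
    rw [← h4, AN.rt_norm hQ (AN.gb969_one r)]
    exact h2
  have h5 := H (rox Q 1 '' A) hA' hAs' ε hε R (fun n => AJ.rotu Q 1 (u n)) (hC3 d S h1 R u hu)
    (fun η s => a (rox Q.transpose 1 η) (rox Q.transpose 1 s)) (hC2 r ds A a ha).1 e he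
  have hres : ∀ (v : Cfg d → F) (p : Cfg dh × Wsp dm), (S.rot Q hQ 1 h1).res φ v p.1 p.2 = S.res φ v p.1 p.2 := by
    intro v p
    have h6 : (S.rot Q hQ 1 h1).Jd φ p.1 = S.Jd φ p.1 := by
      unfold Setup.Jd Setup.Dy Setup.Dm
      simp only [AX.rot_f]
    unfold Setup.res
    rw [h6]
  filter_upwards [h5] with n hn
  rw [(hC2 r ds A a ha).2] at hn
  simp only [hres] at hn
  rw [hC1 d dh dm r ds φ ψ S.κ Om a (R n) (u n)]
  exact hn

end Vale.Agent.P353.Z.AM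
end

section

/-! # P353, all `N`, block REP: **R0**, gauge invariant test functions are equivariant -/

open MeasureTheory Filter Topology
open scoped ContDiff

namespace Vale.Agent.P353.AN.REP

open Vale.Agent.P353.Z Vale.Agent.P353.Z.U Vale.Agent.P353.Z.AN Vale.Agent.P353.AN.G

variable {N d : ℕ} {F : Type*} [NormedAddCommGroup F] [InnerProductSpace ℂ F]

/-- **R0** -/
theorem core_stmt (M : BFSS.Model N d F) : CoreStmt M := by
  intro hF S hrep u hu hG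
  exact ⟨hu.1, hu.2, fun V x => core_eqv M S hrep u hu.1 hG V x⟩

end Vale.Agent.P353.AN.REP
end

section

/-! # P353, all `N`, block REP: representatives of different types have disjoint supports (R5, helper435) -/

open MeasureTheory Filter Topology
open scoped ContDiff

namespace Vale.Agent.P353.AN.REP

open Vale.Agent.P353.Z Vale.Agent.P353.Z.U Vale.Agent.P353.Z.AN Vale.Agent.P353.AN.G

variable {N d dh dm r ds : ℕ} {F : Type*} [NormedAddCommGroup F] [InnerProductSpace ℂ F]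

/-- the slice point of `η` depends continuously on `η` -/
lemma h435_emb_cont (φ : Spl dh dm d) (ψ : Spz r ds dh) :
    Continuous fun η : Cfg r => emb φ (Vale.Agent.P353.Z.AN.cmb ψ η 0) 0 := by
  refine (PiLp.continuous_toLp 2 _).comp (continuous_pi fun p => ?_)
  rcases φ.symm p.2 with A | B
  · show Continuous fun η : Cfg r =>
      Sum.elim (fun a => η (p.1, a)) (fun b => (0 : Cfg ds) (p.1, b)) (ψ.symm A)
    rcases ψ.symm A with a | b
    · exact (EuclideanSpace.proj (𝕜 := ℝ) (p.1, a)).continuous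
    · exact continuous_const
  · exact continuous_const

/-- a continuous function that is positive on a compact product is bounded below -/
lemma h435_pos {G A B : Type*} [TopologicalSpace G] [CompactSpace G] [TopologicalSpace A] [TopologicalSpace B]
    {K : Set A} {K' : Set B} (hK : IsCompact K) (hK' : IsCompact K') {g : G × A × B → ℝ} (hg : Continuous g)
    (hpos : ∀ (U : G), ∀ η ∈ K, ∀ η' ∈ K', 0 < g (U, η, η')) :
    ∃ δ : ℝ, 0 < δ ∧ ∀ (U : G), ∀ η ∈ K, ∀ η' ∈ K', δ ≤ g (U, η, η') := by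
  have hc : IsCompact ((Set.univ : Set G) ×ˢ (K ×ˢ K')) := isCompact_univ.prod (hK.prod hK')
  rcases Set.eq_empty_or_nonempty ((Set.univ : Set G) ×ˢ (K ×ˢ K')) with he | hne'
  · refine ⟨1, one_pos, fun U η hη η' hη' => ?_⟩
    have h1 : (U, η, η') ∈ (Set.univ : Set G) ×ˢ (K ×ˢ K') := ⟨Set.mem_univ _, hη, hη'⟩
    rw [he] at h1
    exact absurd h1 (Set.notMem_empty _)
  · obtain ⟨p, hp, hmin⟩ := hc.exists_isMinOn hne' hg.continuousOn
    obtain ⟨U, η, η'⟩ := p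
    refine ⟨g (U, η, η'), hpos U η hp.2.1 η' hp.2.2, fun U₁ η₁ hη₁ η₁' hη₁' => ?_⟩
    exact hmin (show (U₁, η₁, η₁') ∈ (Set.univ : Set G) ×ˢ (K ×ˢ K') from ⟨Set.mem_univ _, hη₁, hη₁'⟩)

/-- two disjoint families of orbits over compact sets have a positive distance -/
lemma h435_dist {G A B E : Type*} [TopologicalSpace G] [CompactSpace G] [TopologicalSpace A] [TopologicalSpace B]
    [NormedAddCommGroup E] (a : G → E → E) (ha : Continuous fun p : G × E => a p.1 p.2) {e : A → E} (he : Continuous e)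
    {e' : B → E} (he' : Continuous e') {K : Set A} {K' : Set B} (hK : IsCompact K) (hK' : IsCompact K')
    (hne : ∀ (U : G), ∀ η ∈ K, ∀ η' ∈ K', a U (e η) ≠ e' η') :
    ∃ δ : ℝ, 0 < δ ∧ ∀ (U : G), ∀ η ∈ K, ∀ η' ∈ K', δ ≤ ‖a U (e η) - e' η'‖ := by
  have h1 : Continuous fun p : G × A × B => a p.1 (e p.2.1) :=
    ha.comp (continuous_fst.prodMk (he.comp (continuous_fst.comp continuous_snd)))
  have h2 : Continuous fun p : G × A × B => ‖a p.1 (e p.2.1) - e' p.2.2‖ :=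
    (h1.sub (he'.comp (continuous_snd.comp continuous_snd))).norm
  exact h435_pos hK hK' h2 fun U η hη η' hη' => norm_pos_iff.2 (sub_ne_zero.2 (hne U η hη η' hη'))

/-- where the average does not vanish, some translate is close to the scaled slice point of the support -/
lemma h435_near (M : BFSS.Model N d F) (φ : Spl dh dm d) (ψ : Spz r ds dh)
    (b : Cfg r × Cfg ds × Cfg dm → F) (L : ℝ) (hL : ∀ q ∈ tsupport b, ‖q‖ ≤ L) (hL0 : 0 ≤ L) (R : ℝ) (hR : 1 ≤ R)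
    (x : Cfg d) (hx : avg M (Zb φ ψ b R) x ≠ 0) :
    ∃ (U : BFSS.SU N) (η : Cfg r), η ∈ Prod.fst '' tsupport b ∧
      ‖M.act U⁻¹ x - R • emb φ (Vale.Agent.P353.Z.AN.cmb ψ η 0) 0‖ ≤ 2 * L := by
  obtain ⟨U, hU⟩ : ∃ U : BFSS.SU N, Zb φ ψ b R (M.act U⁻¹ x) ≠ 0 := by
    by_contra hcon
    push Not at hcon
    apply hx
    unfold avg
    have h0 : (fun U : BFSS.SU N => M.S U (Zb φ ψ b R (M.act U⁻¹ x))) = fun _ => 0 := by
      funext U
      rw [hcon U, map_zero]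
    rw [h0, integral_zero]
  have hR0 : 0 < R := lt_of_lt_of_le one_pos hR
  obtain ⟨y, hy⟩ : ∃ y, y = M.act U⁻¹ x := ⟨_, rfl⟩
  rw [← hy] at hU
  have hbq : b (R⁻¹ • hz ψ (zy φ y), hs ψ (zy φ y), Real.sqrt R • pm φ y) ≠ 0 := by
    intro h0
    apply hU
    unfold Zb
    rw [h0, smul_zero]
  have hq := subset_tsupport b (Function.mem_support.2 hbq)
  have hn := hL _ hq
  rw [Prod.norm_def, Prod.norm_def] at hn
  have n2 : ‖hs ψ (zy φ y)‖ ≤ L := le_trans (le_trans (le_max_left _ _) (le_max_right _ _)) hn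
  have n3 : ‖Real.sqrt R • pm φ y‖ ≤ L := le_trans (le_trans (le_max_right _ _) (le_max_right _ _)) hn
  refine ⟨U, R⁻¹ • hz ψ (zy φ y), ⟨_, hq, rfl⟩, ?_⟩
  rw [← hy]
  obtain ⟨η, hη⟩ : ∃ η, η = R⁻¹ • hz ψ (zy φ y) := ⟨_, rfl⟩
  rw [← hη]
  have m1 : hz ψ (zy φ (y - R • emb φ (Vale.Agent.P353.Z.AN.cmb ψ η 0) 0)) = 0 := by
    rw [sup_hz, hη, smul_smul, mul_inv_cancel₀ hR0.ne', one_smul, sub_self]
  have m3 : ‖pm φ y‖ ≤ L := by
    refine le_trans ?_ n3
    rw [norm_smul, Real.norm_of_nonneg (Real.sqrt_nonneg R)]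
    have h1 : 1 ≤ Real.sqrt R := Real.one_le_sqrt.2 hR
    exact le_mul_of_one_le_left (norm_nonneg _) h1
  have hsq := sup_norm_sq φ ψ (y - R • emb φ (Vale.Agent.P353.Z.AN.cmb ψ η 0) 0)
  rw [m1, sup_hs, sup_pm, norm_zero] at hsq
  have p2 := pow_le_pow_left₀ (norm_nonneg _) n2 2
  have p3 := pow_le_pow_left₀ (norm_nonneg _) m3 2
  refine le_of_sq_le_sq ?_ (by positivity)
  rw [hsq]
  nlinarith [sq_nonneg L]

/-- **R5** different types have disjoint supports -/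
theorem disj_stmt (M : BFSS.Model N d F) : DisjStmt M := by
  intro S dh dm r ds dh' dm' r' ds' φ ψ φ' ψ' hne b b' hb hb'
  obtain ⟨hmul, hone, hadd, hsm, hnorm, hcont, -⟩ := act_stmt M
  have hsub : ∀ (U : BFSS.SU N) (x y : Cfg d), M.act U (x - y) = M.act U x - M.act U y := by
    intro U x y
    rw [sub_eq_add_neg, hadd, ← neg_one_smul ℝ y, hsm, neg_one_smul, ← sub_eq_add_neg]
  -- bounds of the supports
  obtain ⟨L, hL0, hL⟩ : ∃ L : ℝ, 0 < L ∧ ∀ q ∈ tsupport b, ‖q‖ ≤ L := by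
    obtain ⟨C, hC⟩ := hb.cs.isBounded.exists_norm_le
    exact ⟨max C 1, lt_of_lt_of_le one_pos (le_max_right _ _), fun q hq => (hC q hq).trans (le_max_left _ _)⟩
  obtain ⟨L', hL0', hL'⟩ : ∃ L : ℝ, 0 < L ∧ ∀ q ∈ tsupport b', ‖q‖ ≤ L := by
    obtain ⟨C, hC⟩ := hb'.cs.isBounded.exists_norm_le
    exact ⟨max C 1, lt_of_lt_of_le one_pos (le_max_right _ _), fun q hq => (hC q hq).trans (le_max_left _ _)⟩
  -- the distance of the two orbits
  obtain ⟨K, hK⟩ : ∃ K : Set (Cfg r), K = Prod.fst '' tsupport b := ⟨_, rfl⟩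
  obtain ⟨K', hK'⟩ : ∃ K : Set (Cfg r'), K = Prod.fst '' tsupport b' := ⟨_, rfl⟩
  have hKc : IsCompact K := by
    rw [hK]
    exact hb.cs.isCompact.image continuous_fst
  have hKc' : IsCompact K' := by
    rw [hK']
    exact hb'.cs.isCompact.image continuous_fst
  obtain ⟨δ, hδ, hδg⟩ := h435_dist (fun U y => M.act U y) hcont (h435_emb_cont φ ψ) (h435_emb_cont φ' ψ') hKc hKc'
    (fun U η hη η' hη' => by
      rw [hK] at hη
      rw [hK'] at hη'
      obtain ⟨q, hq, hq1⟩ := hη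
      obtain ⟨q', hq', hq1'⟩ := hη'
      refine hne _ ?_ _ ?_ _
      · rw [← hq1]; exact hb.reg q hq
      · rw [← hq1']; exact hb'.reg q' hq')
  filter_upwards [eventually_ge_atTop (1 : ℝ), eventually_gt_atTop ((2 * L + 2 * L') / δ)] with R hR1 hR2 x
  by_contra hcon
  push Not at hcon
  obtain ⟨hx, hx'⟩ := hcon
  obtain ⟨U, η, hη, hn⟩ := h435_near M φ ψ b L hL hL0.le R hR1 x hx
  obtain ⟨U', η', hη', hn'⟩ := h435_near M φ' ψ' b' L' hL' hL0'.le R hR1 x hx'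
  rw [← hK] at hη
  rw [← hK'] at hη'
  have h1 := hδg (U'⁻¹ * U) η hη η' hη'
  have hR0 : 0 < R := lt_of_lt_of_le one_pos hR1
  have e1 : M.act (U'⁻¹ * U) (M.act U⁻¹ x) = M.act U'⁻¹ x := by
    rw [← hmul, mul_assoc, mul_inv_cancel, mul_one]
  have h2 : R * ‖M.act (U'⁻¹ * U) (emb φ (Vale.Agent.P353.Z.AN.cmb ψ η 0) 0) - emb φ' (Vale.Agent.P353.Z.AN.cmb ψ' η' 0) 0‖ ≤ 2 * L + 2 * L' := by
    have e2 : R • (M.act (U'⁻¹ * U) (emb φ (Vale.Agent.P353.Z.AN.cmb ψ η 0) 0) - emb φ' (Vale.Agent.P353.Z.AN.cmb ψ' η' 0) 0) =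
        (M.act U'⁻¹ x - R • emb φ' (Vale.Agent.P353.Z.AN.cmb ψ' η' 0) 0) -
          M.act (U'⁻¹ * U) (M.act U⁻¹ x - R • emb φ (Vale.Agent.P353.Z.AN.cmb ψ η 0) 0) := by
      rw [hsub, hsm, e1, smul_sub]
      abel
    rw [← Real.norm_of_nonneg hR0.le, ← norm_smul, e2]
    refine (norm_sub_le _ _).trans ?_
    rw [hnorm]
    linarith
  rw [div_lt_iff₀ hδ] at hR2
  have h3 : R * δ ≤ R * ‖M.act (U'⁻¹ * U) (emb φ (Vale.Agent.P353.Z.AN.cmb ψ η 0) 0) - emb φ' (Vale.Agent.P353.Z.AN.cmb ψ' η' 0) 0‖ :=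
    mul_le_mul_of_nonneg_left h1 hR0.le
  linarith

end Vale.Agent.P353.AN.REP
end

section

/-! # P353, all `N`, block REP: R5 in general colour frames (helper38), adapted from `AN/REP/Disj.lean` -/

open MeasureTheory Filter Topology
open scoped ContDiff

namespace Vale.Agent.P353.AN.REP

open Vale.Agent.P353.Z Vale.Agent.P353.Z.U Vale.Agent.P353.Z.AN Vale.Agent.P353.AN.G

variable {N d dh dm r ds : ℕ} {F : Type*} [NormedAddCommGroup F] [InnerProductSpace ℂ F]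

/-- **R5, general form**: representatives of different types in different colour frames have disjoint supports -/
def DisjOStmt (M : BFSS.Model N d F) : Prop := ∀ (dh dm r ds dh' dm' r' ds' : ℕ) (φ : Spl dh dm d) (ψ : Spz r ds dh)
  (φ' : Spl dh' dm' d) (ψ' : Spz r' ds' dh') (A A' : Cfg d ≃L[ℝ] Cfg d) (G : Set (Cfg r)) (G' : Set (Cfg r')),
  (∀ η ∈ G, ∀ η' ∈ G', ∀ U, M.act U (A.symm (emb φ (Vale.Agent.P353.Z.AN.cmb ψ η 0) 0)) ≠ A'.symm (emb φ' (Vale.Agent.P353.Z.AN.cmb ψ' η' 0) 0)) →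
  ∀ (b : Cfg r × Cfg ds × Cfg dm → F) (b' : Cfg r' × Cfg ds' × Cfg dm' → F),
  HasCompactSupport b → (∀ q ∈ tsupport b, q.1 ∈ G) → HasCompactSupport b' → (∀ q ∈ tsupport b', q.1 ∈ G') →
  ∀ᶠ R in atTop, ∀ x : Cfg d,
    avg M (fun y => Zb φ ψ b R (A y)) x = 0 ∨ avg M (fun y => Zb φ' ψ' b' R (A' y)) x = 0

/-- where the average does not vanish, some translate is close to the scaled slice point of the support -/
lemma h38_near (M : BFSS.Model N d F) (φ : Spl dh dm d) (ψ : Spz r ds dh) (A : Cfg d ≃L[ℝ] Cfg d)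
    (b : Cfg r × Cfg ds × Cfg dm → F) (L : ℝ) (hL : ∀ q ∈ tsupport b, ‖q‖ ≤ L) (hL0 : 0 ≤ L) (R : ℝ) (hR : 1 ≤ R)
    (x : Cfg d) (hx : avg M (fun y => Zb φ ψ b R (A y)) x ≠ 0) :
    ∃ (U : BFSS.SU N) (η : Cfg r), η ∈ Prod.fst '' tsupport b ∧
      ‖M.act U⁻¹ x - R • A.symm (emb φ (Vale.Agent.P353.Z.AN.cmb ψ η 0) 0)‖ ≤ ‖(A.symm : Cfg d →L[ℝ] Cfg d)‖ * (2 * L) := by
  obtain ⟨U, hU⟩ : ∃ U : BFSS.SU N, Zb φ ψ b R (A (M.act U⁻¹ x)) ≠ 0 := by
    by_contra hcon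
    push Not at hcon
    apply hx
    unfold avg
    have h0 : (fun U : BFSS.SU N => M.S U (Zb φ ψ b R (A (M.act U⁻¹ x)))) = fun _ => 0 := by
      funext U
      rw [hcon U, map_zero]
    show ∫ U, M.S U (Zb φ ψ b R (A (M.act U⁻¹ x))) ∂_ = 0
    rw [h0, integral_zero]
  have hR0 : 0 < R := lt_of_lt_of_le one_pos hR
  obtain ⟨y, hy⟩ : ∃ y, y = A (M.act U⁻¹ x) := ⟨_, rfl⟩
  have hy' : M.act U⁻¹ x = A.symm y := by rw [hy, A.symm_apply_apply]
  rw [← hy] at hU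
  have hbq : b (R⁻¹ • hz ψ (zy φ y), hs ψ (zy φ y), Real.sqrt R • pm φ y) ≠ 0 := by
    intro h0
    apply hU
    unfold Zb
    rw [h0, smul_zero]
  have hq := subset_tsupport b (Function.mem_support.2 hbq)
  have hn := hL _ hq
  rw [Prod.norm_def, Prod.norm_def] at hn
  have n2 : ‖hs ψ (zy φ y)‖ ≤ L := le_trans (le_trans (le_max_left _ _) (le_max_right _ _)) hn
  have n3 : ‖Real.sqrt R • pm φ y‖ ≤ L := le_trans (le_trans (le_max_right _ _) (le_max_right _ _)) hn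
  refine ⟨U, R⁻¹ • hz ψ (zy φ y), ⟨_, hq, rfl⟩, ?_⟩
  obtain ⟨η, hη⟩ : ∃ η, η = R⁻¹ • hz ψ (zy φ y) := ⟨_, rfl⟩
  rw [← hη, hy']
  have m1 : hz ψ (zy φ (y - R • emb φ (Vale.Agent.P353.Z.AN.cmb ψ η 0) 0)) = 0 := by
    rw [sup_hz, hη, smul_smul, mul_inv_cancel₀ hR0.ne', one_smul, sub_self]
  have m3 : ‖pm φ y‖ ≤ L := by
    refine le_trans ?_ n3
    rw [norm_smul, Real.norm_of_nonneg (Real.sqrt_nonneg R)]
    have h1 : 1 ≤ Real.sqrt R := Real.one_le_sqrt.2 hR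
    exact le_mul_of_one_le_left (norm_nonneg _) h1
  have hsq := sup_norm_sq φ ψ (y - R • emb φ (Vale.Agent.P353.Z.AN.cmb ψ η 0) 0)
  rw [m1, sup_hs, sup_pm, norm_zero] at hsq
  have p2 := pow_le_pow_left₀ (norm_nonneg _) n2 2
  have p3 := pow_le_pow_left₀ (norm_nonneg _) m3 2
  have h1 : ‖y - R • emb φ (Vale.Agent.P353.Z.AN.cmb ψ η 0) 0‖ ≤ 2 * L := by
    refine le_of_sq_le_sq ?_ (by positivity)
    rw [hsq]
    nlinarith [sq_nonneg L]
  have e : A.symm y - R • A.symm (emb φ (Vale.Agent.P353.Z.AN.cmb ψ η 0) 0) =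
      (A.symm : Cfg d →L[ℝ] Cfg d) (y - R • emb φ (Vale.Agent.P353.Z.AN.cmb ψ η 0) 0) := by
    rw [map_sub, map_smul]; rfl
  rw [e]
  exact ((A.symm : Cfg d →L[ℝ] Cfg d).le_opNorm _).trans
    (mul_le_mul_of_nonneg_left h1 (norm_nonneg _))

/-- **R5** different types have disjoint supports (general form) -/
theorem disjO_stmt (M : BFSS.Model N d F) : DisjOStmt M := by
  intro dh dm r ds dh' dm' r' ds' φ ψ φ' ψ' A A' G G' hne b b' hb hbG hb' hbG'
  obtain ⟨hmul, hone, hadd, hsm, hnorm, hcont, -⟩ := act_stmt M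
  have hsub : ∀ (U : BFSS.SU N) (x y : Cfg d), M.act U (x - y) = M.act U x - M.act U y := by
    intro U x y
    rw [sub_eq_add_neg, hadd, ← neg_one_smul ℝ y, hsm, neg_one_smul, ← sub_eq_add_neg]
  -- bounds of the supports
  obtain ⟨L, hL0, hL⟩ : ∃ L : ℝ, 0 < L ∧ ∀ q ∈ tsupport b, ‖q‖ ≤ L := by
    obtain ⟨C, hC⟩ := hb.isCompact.isBounded.exists_norm_le
    exact ⟨max C 1, lt_of_lt_of_le one_pos (le_max_right _ _), fun q hq => (hC q hq).trans (le_max_left _ _)⟩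
  obtain ⟨L', hL0', hL'⟩ : ∃ L : ℝ, 0 < L ∧ ∀ q ∈ tsupport b', ‖q‖ ≤ L := by
    obtain ⟨C, hC⟩ := hb'.isCompact.isBounded.exists_norm_le
    exact ⟨max C 1, lt_of_lt_of_le one_pos (le_max_right _ _), fun q hq => (hC q hq).trans (le_max_left _ _)⟩
  obtain ⟨Λ, hΛ⟩ : ∃ Λ : ℝ, Λ = ‖(A.symm : Cfg d →L[ℝ] Cfg d)‖ * (2 * L) := ⟨_, rfl⟩
  obtain ⟨Λ', hΛ'⟩ : ∃ Λ : ℝ, Λ = ‖(A'.symm : Cfg d →L[ℝ] Cfg d)‖ * (2 * L') := ⟨_, rfl⟩
  -- the distance of the two orbits
  obtain ⟨K, hK⟩ : ∃ K : Set (Cfg r), K = Prod.fst '' tsupport b := ⟨_, rfl⟩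
  obtain ⟨K', hK'⟩ : ∃ K : Set (Cfg r'), K = Prod.fst '' tsupport b' := ⟨_, rfl⟩
  have hKc : IsCompact K := by
    rw [hK]
    exact hb.isCompact.image continuous_fst
  have hKc' : IsCompact K' := by
    rw [hK']
    exact hb'.isCompact.image continuous_fst
  obtain ⟨δ, hδ, hδg⟩ := h435_dist (fun U y => M.act U y) hcont
    (A.symm.continuous.comp (h435_emb_cont φ ψ)) (A'.symm.continuous.comp (h435_emb_cont φ' ψ')) hKc hKc'
    (fun U η hη η' hη' => by
      rw [hK] at hη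
      rw [hK'] at hη'
      obtain ⟨q, hq, hq1⟩ := hη
      obtain ⟨q', hq', hq1'⟩ := hη'
      refine hne _ ?_ _ ?_ _
      · rw [← hq1]; exact hbG q hq
      · rw [← hq1']; exact hbG' q' hq')
  filter_upwards [eventually_ge_atTop (1 : ℝ), eventually_gt_atTop ((Λ + Λ') / δ)] with R hR1 hR2 x
  by_contra hcon
  push Not at hcon
  obtain ⟨hx, hx'⟩ := hcon
  obtain ⟨U, η, hη, hn⟩ := h38_near M φ ψ A b L hL hL0.le R hR1 x hx
  obtain ⟨U', η', hη', hn'⟩ := h38_near M φ' ψ' A' b' L' hL' hL0'.le R hR1 x hx'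
  rw [← hK] at hη
  rw [← hK'] at hη'
  rw [← hΛ] at hn
  rw [← hΛ'] at hn'
  have h1 : δ ≤ ‖M.act (U'⁻¹ * U) (A.symm (emb φ (Vale.Agent.P353.Z.AN.cmb ψ η 0) 0)) - A'.symm (emb φ' (Vale.Agent.P353.Z.AN.cmb ψ' η' 0) 0)‖ :=
    hδg (U'⁻¹ * U) η hη η' hη'
  have hR0 : 0 < R := lt_of_lt_of_le one_pos hR1
  have e1 : M.act (U'⁻¹ * U) (M.act U⁻¹ x) = M.act U'⁻¹ x := by
    rw [← hmul, mul_assoc, mul_inv_cancel, mul_one]
  have h2 : R * ‖M.act (U'⁻¹ * U) (A.symm (emb φ (Vale.Agent.P353.Z.AN.cmb ψ η 0) 0)) - A'.symm (emb φ' (Vale.Agent.P353.Z.AN.cmb ψ' η' 0) 0)‖ ≤ Λ + Λ' := by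
    have e2 : R • (M.act (U'⁻¹ * U) (A.symm (emb φ (Vale.Agent.P353.Z.AN.cmb ψ η 0) 0)) - A'.symm (emb φ' (Vale.Agent.P353.Z.AN.cmb ψ' η' 0) 0)) =
        (M.act U'⁻¹ x - R • A'.symm (emb φ' (Vale.Agent.P353.Z.AN.cmb ψ' η' 0) 0)) -
          M.act (U'⁻¹ * U) (M.act U⁻¹ x - R • A.symm (emb φ (Vale.Agent.P353.Z.AN.cmb ψ η 0) 0)) := by
      rw [hsub, hsm, e1, smul_sub]
      abel
    rw [← Real.norm_of_nonneg hR0.le, ← norm_smul, e2]
    refine (norm_sub_le _ _).trans ?_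
    rw [hnorm]
    linarith
  rw [div_lt_iff₀ hδ] at hR2
  have h3 : R * δ ≤ R * ‖M.act (U'⁻¹ * U) (A.symm (emb φ (Vale.Agent.P353.Z.AN.cmb ψ η 0) 0)) - A'.symm (emb φ' (Vale.Agent.P353.Z.AN.cmb ψ' η' 0) 0)‖ :=
    mul_le_mul_of_nonneg_left h1 hR0.le
  linarith

end Vale.Agent.P353.AN.REP
end
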