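import Mathlib
import Vale.Agent.P353.BdA.B15
import Vale.Agent.P353.BdZ.B17
import Vale.Agent.P353.BdA.B14
import Vale.Agent.P353.BdA.B22
import Vale.Agent.P353.BdZ.B16
import Vale.Agent.P353.BdZ.B9
import Vale.Agent.P353.BdA.B2
import Vale.Agent.P353.BdA.B20
import Vale.Agent.P353.BdA.B12
import Vale.Agent.P353.BdA.B23
import Vale.Agent.P353.BdA.B17
import Vale.Agent.P353.BdA.B21

set_option linter.all false

section

/-! # P353, all `N`, block H: average over a circle of rotations (helper973) -/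

open MeasureTheory Filter Topology
open scoped ContDiff ComplexConjugate

namespace Vale.Agent.P353.Z.AH.Cir

universe w

variable {d : ℕ} {F : Type w} [NormedAddCommGroup F] [InnerProductSpace ℂ F]

lemma cont_RR (k l : Fin 9) : Continuous fun t : ℝ => (RR k l t : Cfg d →L[ℝ] Cfg d) := by
  unfold RR
  exact (continuous_const.add ((Real.continuous_cos.sub continuous_const).smul continuous_const)).add
    (Real.continuous_sin.smul continuous_const)

variable (S : Setup d F) [CompleteSpace F]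

lemma cont_st (k l : Fin 9) : Continuous (S.st k l) :=
  continuous_iff_continuousAt.mpr fun t => (S.hasDerivAt_st k l t).continuousAt

/-- joint continuity of rotated functions -/
lemma cont_Ut (k l : Fin 9) {u : Cfg d → F} (hu : Continuous u) :
    Continuous fun p : ℝ × Cfg d => S.Ut k l p.1 u p.2 := by
  unfold Setup.Ut
  have h1 : Continuous fun p : ℝ × Cfg d => RR k l (-p.1) p.2 :=
    ((cont_RR k l).comp (continuous_neg.comp continuous_fst)).clm_apply continuous_snd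
  exact ((cont_st S k l).comp continuous_fst).clm_apply (hu.comp h1)

lemma supp_Ut {k l : Fin 9} (h : k ≠ l) {u : Cfg d → F} {r : ℝ} (hr : ∀ x, r < ‖x‖ → u x = 0) (t : ℝ)
    (x : Cfg d) (hx : r < ‖x‖) : S.Ut k l t u x = 0 := by
  unfold Setup.Ut
  rw [hr _ (by rwa [RR_norm h]), map_zero]

lemma exists_r {u : Cfg d → F} (hu : Setup.Tst u) : ∃ r : ℝ, ∀ x, r < ‖x‖ → u x = 0 := by
  obtain ⟨r, hr⟩ := hu.2.isBounded.subset_closedBall 0
  refine ⟨r, fun x hx => image_eq_zero_of_notMem_tsupport fun h => ?_⟩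
  have := hr h
  rw [mem_closedBall_zero_iff] at this
  linarith

lemma nsq_Ut {k l : Fin 9} (h : k ≠ l) (t : ℝ) (u : Cfg d → F) : nsq (S.Ut k l t u) = nsq u :=
  S.integral_Ut' h t u

/-- the distance of `u` and its rotation -/
lemma diff_bound {k l : Fin 9} (h : k ≠ l) {u : Cfg d → F} (hu : Setup.Tst u) {t : ℝ} (ht : 0 ≤ t) :
    nsq (fun x => u x - S.Ut k l t u x) ≤ t ^ 2 * nsq (S.J k l u) := by
  have hUt : Setup.Tst (S.Ut k l t u) := hu.Ut S h t
  set g : Cfg d → F := fun x => u x - S.Ut k l t u x with hg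
  have hgT : Setup.Tst g := hu.sub hUt
  have hdiff : Differentiable ℝ u := hu.1.differentiable (by simp)
  set ψ : ℝ → ℂ := fun s => ∫ x, inner ℂ (g x) (S.Ut k l s u x) with hψ
  have hd : ∀ s, HasDerivAt ψ (∫ x, inner ℂ (g x) (Complex.I • S.J k l (S.Ut k l s u) x)) s := fun s =>
    S.hasDerivAt_integral_Ut h (hgT.1.continuous.locallyIntegrable) hu s
  have hJ : ∀ s, nsq (fun x => Complex.I • S.J k l (S.Ut k l s u) x) = nsq (S.J k l u) := by
    intro s
    rw [nsq_csmul, Complex.norm_I, one_pow, one_mul]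
    have h1 : S.J k l (S.Ut k l s u) = S.Ut k l s (S.J k l u) := by
      funext x
      rw [S.J_Ut h s hdiff]
      rfl
    rw [h1, nsq_Ut S h]
  have hb : ∀ s, ‖∫ x, inner ℂ (g x) (Complex.I • S.J k l (S.Ut k l s u) x)‖ ≤
      Real.sqrt (nsq g) * Real.sqrt (nsq (S.J k l u)) := by
    intro s
    have hT : Setup.Tst (fun x => Complex.I • S.J k l (S.Ut k l s u) x) :=
      U.HB.Tst_csmul Complex.I ((hu.Ut S h s).J S k l)
    have h1 := ipr_le hgT hT
    rw [hJ s] at h1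
    exact h1
  have hmv : ‖ψ t - ψ 0‖ ≤ Real.sqrt (nsq g) * Real.sqrt (nsq (S.J k l u)) * ‖t - 0‖ :=
    Convex.norm_image_sub_le_of_norm_hasDerivWithin_le (fun s _ => (hd s).hasDerivWithinAt)
      (fun s _ => hb s) convex_univ (Set.mem_univ _) (Set.mem_univ _)
  have h0 : ψ 0 = ∫ x, inner ℂ (g x) (u x) := by
    simp only [hψ]
    congr 1
    funext x
    simp only [Setup.Ut, S.st_zero, neg_zero, RR_zero]
    rfl
  have h1 : ψ 0 - ψ t = ipr g g := by
    rw [h0]
    simp only [hψ]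
    rw [← integral_sub (hgT.inner_int hu.1.continuous) (hgT.inner_int hUt.1.continuous)]
    unfold ipr
    congr 1
    funext x
    rw [hg]
    simp only [inner_sub_right]
  rw [sub_zero, Real.norm_eq_abs, abs_of_nonneg ht, norm_sub_rev, h1, ipr_self' hgT, Complex.norm_real,
    Real.norm_eq_abs, abs_of_nonneg (nsq_nonneg g)] at hmv
  rcases (nsq_nonneg g).eq_or_lt with h2 | h2
  · rw [← h2]
    have := nsq_nonneg (S.J k l u)
    positivity
  · have h3 : Real.sqrt (nsq g) ^ 2 = nsq g := Real.sq_sqrt (nsq_nonneg g)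
    have h4 : 0 < Real.sqrt (nsq g) := Real.sqrt_pos.mpr h2
    have h5 : Real.sqrt (nsq g) ≤ t * Real.sqrt (nsq (S.J k l u)) := by
      refine le_of_mul_le_mul_left (a := Real.sqrt (nsq g)) ?_ h4
      rw [← sq, h3]
      linarith
    calc nsq g = Real.sqrt (nsq g) ^ 2 := h3.symm
      _ ≤ (t * Real.sqrt (nsq (S.J k l u))) ^ 2 := by gcongr
      _ = _ := by rw [mul_pow, Real.sq_sqrt (nsq_nonneg _)]

/-- the average over the rotations by `T s`, `s ∈ [0,1]` -/
noncomputable def cav (k l : Fin 9) (T : ℝ) (u : Cfg d → F) (x : Cfg d) : F :=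
  ∫ s : unitInterval, S.Ut k l (T * s) u x

lemma cont_fam (k l : Fin 9) (T : ℝ) {u : Cfg d → F} (hu : Continuous u) :
    Continuous fun p : unitInterval × Cfg d => S.Ut k l (T * p.1) u p.2 := by
  have h1 := cont_Ut S k l hu
  exact h1.comp ((continuous_const.mul (continuous_subtype_val.comp continuous_fst)).prodMk continuous_snd)

/-- smoothness of the average and its derivative -/
lemma cav_smooth [FiniteDimensional ℂ F] (k l : Fin 9) (T : ℝ) {u : Cfg d → F} (hu : ContDiff ℝ ∞ u) :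
    ContDiff ℝ ∞ (cav S k l T u) ∧ ∀ x w, fderiv ℝ (cav S k l T u) x w =
      ∫ s : unitInterval, fderiv ℝ (S.Ut k l (T * s) u) x w := by
  have hfd : FiniteDimensional ℝ F := FiniteDimensional.complexToReal F
  have h := AN.G.smInt unitInterval (Cfg d) (volume : Measure unitInterval)
    (fun s => RR k l (-(T * s)))
    ((cont_RR k l).comp (continuous_neg.comp (continuous_const.mul continuous_subtype_val)))
    F F (fun s => (S.st k l (T * s)).restrictScalars ℝ) (by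
      have h1 : Continuous fun s : unitInterval => S.st k l (T * s) :=
        (cont_st S k l).comp (continuous_const.mul continuous_subtype_val)
      refine continuous_clm_apply.2 fun v => ?_
      exact h1.clm_apply continuous_const) u hu
  refine ⟨h.1, fun x w => ?_⟩
  have h2 := h.2 x w
  refine h2.trans ?_
  refine integral_congr_ae (Eventually.of_forall fun s => ?_)
  exact (S.fderiv_Ut k l (T * s) (hu.differentiable (by simp)) x w).symm

lemma cav_Tst [FiniteDimensional ℂ F] {k l : Fin 9} (h : k ≠ l) (T : ℝ) {u : Cfg d → F} (hu : Setup.Tst u) :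
    Setup.Tst (cav S k l T u) := by
  refine ⟨(cav_smooth S k l T hu.1).1, ?_⟩
  obtain ⟨r, hr⟩ := exists_r hu
  refine HasCompactSupport.intro (isCompact_closedBall (0 : Cfg d) r) fun x hx => ?_
  have h1 : r < ‖x‖ := by
    rw [mem_closedBall_zero_iff] at hx
    exact not_le.mp hx
  unfold cav
  simp only [supp_Ut S h hr _ x h1, integral_zero]

/-- first order operators commute with the average -/
lemma op_cav [FiniteDimensional ℂ F] (k l : Fin 9) (T : ℝ) {u : Cfg d → F} (hu : ContDiff ℝ ∞ u)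
    (c : Fin 9 → Fin d → F →L[ℂ] F) (c0 : F →L[ℂ] F) (x : Cfg d) :
    (∑ i, ∑ A, c i A (pd i A (cav S k l T u) x)) + c0 (cav S k l T u x) =
      ∫ s : unitInterval, ((∑ i, ∑ A, c i A (pd i A (S.Ut k l (T * s) u) x)) + c0 (S.Ut k l (T * s) u x)) := by
  have hfd : FiniteDimensional ℝ F := FiniteDimensional.complexToReal F
  have hdiff : Differentiable ℝ u := hu.differentiable (by simp)
  have hfc : ∀ w, Continuous fun s : unitInterval => fderiv ℝ (S.Ut k l (T * s) u) x w := by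
    intro w
    simp only [S.fderiv_Ut k l _ hdiff]
    have h1 : Continuous fun s : unitInterval => (RR k l (-(T * s)) : Cfg d →L[ℝ] Cfg d) :=
      (cont_RR k l).comp (continuous_neg.comp (continuous_const.mul continuous_subtype_val))
    have h2 : Continuous fun s : unitInterval => S.st k l (T * s) :=
      (cont_st S k l).comp (continuous_const.mul continuous_subtype_val)
    have h3 : Continuous (fderiv ℝ u) := hu.continuous_fderiv (by simp)
    exact h2.clm_apply ((h3.comp (h1.clm_apply continuous_const)).clm_apply (h1.clm_apply continuous_const))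
  have hc0 : Continuous fun s : unitInterval => S.Ut k l (T * s) u x :=
    fam_cont (cont_fam S k l T hu.continuous) x
  have h2 : ∀ i A, Continuous fun s : unitInterval => c i A (pd i A (S.Ut k l (T * s) u) x) := fun i A =>
    (c i A).continuous.comp (hfc _)
  have h3 : Continuous fun s : unitInterval => c0 (S.Ut k l (T * s) u x) := c0.continuous.comp hc0
  rw [integral_add (int_fam _ (continuous_finsetSum _ fun i _ =>
    continuous_finsetSum _ fun A _ => h2 i A)) (int_fam _ h3),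
    integral_finsetSum _ fun i _ => int_fam _ (continuous_finsetSum _ fun A _ => h2 i A)]
  congr 1
  · refine Finset.sum_congr rfl fun i _ => ?_
    rw [integral_finsetSum _ fun A _ => int_fam _ (h2 i A)]
    refine Finset.sum_congr rfl fun A _ => ?_
    have h4 := ContinuousLinearMap.integral_comp_comm (c i A)
      (int_fam (volume : Measure unitInterval) (hfc (EuclideanSpace.single (i, A) 1)))
    rw [← (cav_smooth S k l T hu).2 x _] at h4
    exact h4.symm
  · rw [ContinuousLinearMap.integral_comp_comm c0 (int_fam _ hc0)]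
    rfl

lemma Qm_eq' (m : ℝ) (β : Fin 16) (u : Cfg d → F) (x : Cfg d) :
    S.Qm m β u x = (∑ i, ∑ A, ((-Complex.I) • S.vec (S.g i) A β) (pd i A u x)) +
      (S.W β x + (m : ℂ) • S.MM β x) (u x) := by
  simp only [Setup.Qm, Setup.Q, _root_.smul_apply, _root_.add_apply, Finset.smul_sum]
  abel

lemma J_eq' (k l : Fin 9) (u : Cfg d → F) (x : Cfg d) :
    S.J k l u x = (∑ i, ∑ A, ((-Complex.I * ((if i = l then (x (k, A) : ℂ) else 0) -
      (if i = k then (x (l, A) : ℂ) else 0))) • (1 : F →L[ℂ] F)) (pd i A u x)) +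
      S.Skl k l (u x) := by
  rw [Finset.sum_comm]
  have h : ∀ (c : ℂ) (w : F), (c • (1 : F →L[ℂ] F)) w = c • w := fun c w => rfl
  simp only [Setup.J, h]
  simp only [mul_smul, sub_smul,
    Finset.smul_sum, Finset.sum_sub_distrib, ite_smul, zero_smul, smul_sub, smul_ite, smul_zero,
    Finset.sum_ite_eq', Finset.mem_univ, if_true]

lemma G_eq' (C : Fin d) (u : Cfg d → F) (x : Cfg d) :
    S.G C u x = (∑ i, ∑ A, ((-Complex.I * ∑ B, (S.f C B A : ℂ) * (x (i, B) : ℂ)) • (1 : F →L[ℂ] F))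
      (pd i A u x)) + S.cS C (u x) := by
  have h : ∀ (c : ℂ) (w : F), (c • (1 : F →L[ℂ] F)) w = c • w := fun c w => rfl
  simp only [Setup.G, h]
  congr 1
  rw [Finset.smul_sum]
  refine Finset.sum_congr rfl fun i _ => ?_
  rw [Finset.sum_comm, Finset.smul_sum]
  refine Finset.sum_congr rfl fun A _ => ?_
  rw [mul_smul, Finset.sum_smul]

lemma Qm_cav [FiniteDimensional ℂ F] (k l : Fin 9) (T m : ℝ) (β : Fin 16) {u : Cfg d → F}
    (hu : ContDiff ℝ ∞ u) (x : Cfg d) :
    S.Qm m β (cav S k l T u) x = ∫ s : unitInterval, S.Qm m β (S.Ut k l (T * s) u) x := by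
  rw [Qm_eq', op_cav S k l T hu]
  exact integral_congr_ae (Eventually.of_forall fun s => (Qm_eq' S m β _ x).symm)

lemma J_cav [FiniteDimensional ℂ F] (k l : Fin 9) (T : ℝ) (a b : Fin 9) {u : Cfg d → F}
    (hu : ContDiff ℝ ∞ u) (x : Cfg d) :
    S.J a b (cav S k l T u) x = ∫ s : unitInterval, S.J a b (S.Ut k l (T * s) u) x := by
  rw [J_eq', op_cav S k l T hu]
  exact integral_congr_ae (Eventually.of_forall fun s => (J_eq' S a b _ x).symm)

lemma G_cav [FiniteDimensional ℂ F] (k l : Fin 9) (T : ℝ) (C : Fin d) {u : Cfg d → F}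
    (hu : ContDiff ℝ ∞ u) (x : Cfg d) :
    S.G C (cav S k l T u) x = ∫ s : unitInterval, S.G C (S.Ut k l (T * s) u) x := by
  rw [G_eq', op_cav S k l T hu]
  exact integral_congr_ae (Eventually.of_forall fun s => (G_eq' S C _ x).symm)

end Vale.Agent.P353.Z.AH.Cir
end

section

/-! # P353, all `N`, block H: H1 and H2 (helper409) -/

open MeasureTheory Filter Topology Matrix
open scoped ContDiff

namespace Vale.Agent.P353.Z.AH

variable {d : ℕ} {F : Type*} [NormedAddCommGroup F] [InnerProductSpace ℂ F]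

open U U.HB U.CG

/-- Cauchy-Schwarz for the pairing, in the form `‖⟨f,g⟩‖ ≤ (‖f‖² + ‖g‖²)/2` -/
lemma norm_E_le {f g : Cfg d → F} (hf : Setup.Tst f) (hg : Setup.Tst g) :
    ‖E f g‖ ≤ (nsq f + nsq g) / 2 := by
  have h1 : ‖E f g‖ ≤ ∫ x, ‖inner ℂ (f x) (g x)‖ := norm_integral_le_integral_norm _
  refine h1.trans ?_
  have i1 := memLp_norm_sq_int hf.memLp
  have i2 := memLp_norm_sq_int hg.memLp
  have h2 : (nsq f + nsq g) / 2 = ∫ x, (‖f x‖ ^ 2 + ‖g x‖ ^ 2) / 2 := by
    rw [nsq, nsq, ← integral_add i1 i2, integral_div]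
  rw [h2]
  refine integral_mono_of_nonneg (Filter.Eventually.of_forall fun x => norm_nonneg _)
    ((i1.add i2).div_const 2) (Filter.Eventually.of_forall fun x => ?_)
  have h3 := norm_inner_le_norm (𝕜 := ℂ) (f x) (g x)
  have h4 : ‖f x‖ * ‖g x‖ ≤ (‖f x‖ ^ 2 + ‖g x‖ ^ 2) / 2 := by
    nlinarith [sq_nonneg (‖f x‖ - ‖g x‖)]
  exact h3.trans h4

variable (S : Setup d F)

theorem hA1 : A1Stmt S := a1 S (a1a S) (a1b S (fbmn S (f10 S)))
theorem hA7 : A7Stmt S := a7 S (hA1 S)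
theorem hA4 : A4Stmt S := a4 S (hA1 S) (a2 (S := S)) (a3 (S := S)) (hA7 S)

/-- `∑ |Γ_{αβ}|` -/
noncomputable def cGam : ℝ := ∑ α, ∑ β, ‖S.Gam α β‖

lemma cGam_nonneg : 0 ≤ cGam S := Finset.sum_nonneg fun _ _ => Finset.sum_nonneg fun _ _ => norm_nonneg _

/-- `16 H Q_α u = Q_α 16 H u - 8 i m (ΓQ)_α u` for gauge invariant `u` -/
lemma HH_Qm (m : ℝ) {u : Cfg d → F} (hu : S.GInv u) (α : Fin 16) (x : Cfg d) :
    HH S m (S.Qm m α u) x = S.Qm m α (HH S m u) x -
      (8 * Complex.I * m) • ∑ β, S.Gam α β • S.Qm m β u x := by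
  have hA7 := hA7 S
  have e1 : HH S m u = fun y => (16 : ℂ) • S.Hm m u y := funext fun y => hA7 m u hu.1.1 y
  have e2 : S.Hm m u = fun y => (1 / 16 : ℂ) • HH S m u y := by
    funext y
    rw [e1]
    simp only [smul_smul]
    norm_num
  have hH : ContDiff ℝ ∞ (S.Hm m u) := by
    rw [e2]
    exact contDiff_const.smul (contDiff_HH S m hu.1.1)
  have h1 := hA4 S m α u hu.1.1 x
  simp only [hu.2, map_zero, Finset.sum_const_zero, smul_zero, sub_zero] at h1
  have h2 : HH S m (S.Qm m α u) x = (16 : ℂ) • S.Hm m (S.Qm m α u) x :=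
    hA7 m _ (contDiff_Qm S m α hu.1.1) x
  rw [e1, Qm_csmul S m α 16 hH, h2, sub_eq_iff_eq_add.mp h1, smul_add, smul_smul, sub_eq_add_neg,
    ← neg_smul, add_comm]
  congr 2
  ring

/-- **H1** -/
theorem qq : QQStmt S := by
  refine ⟨8 * cGam S, mul_nonneg (by norm_num) (cGam_nonneg S), ?_⟩
  intro m hm u hu
  have hQt : ∀ α, Setup.Tst (S.Qm m α u) := fun α => Tst_Qm S m α hu.1
  have hHt : Setup.Tst (HH S m u) := Tst_HH S m hu.1
  -- the energy of `Q_α u`
  have h1 : ∀ α, ((∑ β, nsq (S.Qm m β (S.Qm m α u)) : ℝ) : ℂ) =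
      E (S.Qm m α u) (S.Qm m α (HH S m u)) -
        (8 * Complex.I * m) * ∑ β, S.Gam α β * E (S.Qm m α u) (S.Qm m β u) := by
    intro α
    rw [← E_HH S m (hQt α)]
    unfold E
    have hc1 : Continuous (S.Qm m α (HH S m u)) := (contDiff_Qm S m α hHt.1).continuous
    have hs : ∀ β, Integrable fun x => inner ℂ (S.Qm m α u x) (S.Gam α β • S.Qm m β u x) := by
      intro β
      exact (hQt α).inner_int (continuous_const.smul (hQt β).1.continuous)
    simp only [HH_Qm S m hu α, inner_sub_right, inner_smul_right, inner_sum]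
    rw [integral_sub ((hQt α).inner_int hc1) ?_, integral_const_mul, integral_finsetSum]
    · simp only [integral_const_mul]
    · intro β _
      simpa only [inner_smul_right] using hs β
    · refine (integrable_finsetSum _ fun β _ => ?_).const_mul _
      simpa only [inner_smul_right] using hs β
  have h2 : ∑ α, E (S.Qm m α u) (S.Qm m α (HH S m u)) = ((nsq (HH S m u) : ℝ) : ℂ) := by
    rw [← E_self]
    exact (inner_HH S m hu.1 hHt).symm
  have h3 : ((∑ α, ∑ β, nsq (S.Qm m β (S.Qm m α u)) : ℝ) : ℂ) = ((nsq (HH S m u) : ℝ) : ℂ) -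
      (8 * Complex.I * m) * ∑ α, ∑ β, S.Gam α β * E (S.Qm m α u) (S.Qm m β u) := by
    rw [Complex.ofReal_sum]
    simp only [h1]
    rw [Finset.sum_sub_distrib, h2, Finset.mul_sum]
  set X : ℂ := ∑ α, ∑ β, S.Gam α β * E (S.Qm m α u) (S.Qm m β u) with hX
  have hen : ∀ α, nsq (S.Qm m α u) ≤ S.en m u := fun α =>
    Finset.single_le_sum (f := fun β => nsq (S.Qm m β u)) (fun β _ => nsq_nonneg _)
      (Finset.mem_univ α)
  have h4 : ‖X‖ ≤ cGam S * S.en m u := by
    rw [hX, cGam, Finset.sum_mul]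
    refine (norm_sum_le _ _).trans (Finset.sum_le_sum fun α _ => ?_)
    rw [Finset.sum_mul]
    refine (norm_sum_le _ _).trans (Finset.sum_le_sum fun β _ => ?_)
    rw [norm_mul]
    refine mul_le_mul_of_nonneg_left ?_ (norm_nonneg _)
    refine (norm_E_le (hQt α) (hQt β)).trans ?_
    linarith [hen α, hen β]
  have h5 : ∑ α, ∑ β, nsq (S.Qm m β (S.Qm m α u)) ≤ nsq (HH S m u) +
      ‖(8 * Complex.I * m) * X‖ := by
    have h6 := congrArg Complex.re h3
    rw [Complex.ofReal_re, Complex.sub_re, Complex.ofReal_re] at h6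
    rw [h6]
    have h7 := Complex.abs_re_le_norm ((8 * Complex.I * m) * X)
    linarith [neg_abs_le ((8 * Complex.I * m) * X).re]
  refine h5.trans ?_
  have h8 : ‖(8 * Complex.I * (m : ℂ)) * X‖ = 8 * m * ‖X‖ := by
    rw [norm_mul, norm_mul, norm_mul, Complex.norm_I, Complex.norm_real, Real.norm_of_nonneg hm]
    norm_num
  rw [h8]
  have h9 : 8 * m * ‖X‖ ≤ 8 * m * (cGam S * S.en m u) :=
    mul_le_mul_of_nonneg_left h4 (by positivity)
  linarith

/-! ### H2 -/

lemma rc_comm (k l : Fin 9) : rc k l = rc l k := by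
  unfold rc
  simp only [and_comm]

lemma rc_abs {k l : Fin 9} (h : Same k l) : 1 ≤ |rc k l| := by
  unfold rc
  by_cases hk : k.val < 3
  · have hl : l.val < 3 := h.2.1 hk
    rw [if_pos ⟨hk, hl⟩]
    norm_num
  · have hl : ¬ l.val < 3 := fun hl => hk (h.2.2 hl)
    rw [if_neg (fun hh => hk hh.1), if_pos ⟨by omega, by omega⟩]
    norm_num

lemma J_swap' (k l : Fin 9) (u : Cfg d → F) (x : Cfg d) : S.J l k u x = -S.J k l u x := by
  have h1 : S.Skl l k = -S.Skl k l := by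
    unfold Setup.Skl
    rw [S.g2_swap l k, CS.tot_neg, smul_neg]
  unfold Setup.J
  rw [h1, neg_add, ← smul_neg, ← Finset.sum_neg_distrib]
  congr 2
  refine Finset.sum_congr rfl fun A _ => ?_
  rw [neg_sub]

/-- orthogonality of the matrices `Γγ^{ij}` -/
lemma ortho (k l i j : Fin 9) :
    ∑ α, ∑ β, (starRingEnd ℂ) ((S.Gam * S.g2 k l) α β) * (S.Gam * S.g2 i j) α β =
      16 * ((if k = i then 1 else 0) * (if l = j then 1 else 0)
        - (if l = i then 1 else 0) * (if k = j then 1 else 0)) := by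
  have h1 : ∑ α, ∑ β, (starRingEnd ℂ) ((S.Gam * S.g2 k l) α β) * (S.Gam * S.g2 i j) α β =
      ((S.Gam * S.g2 k l)ᴴ * (S.Gam * S.g2 i j)).trace := by
    rw [Matrix.trace, Finset.sum_comm]
    refine Finset.sum_congr rfl fun β _ => ?_
    rw [Matrix.diag_apply, Matrix.mul_apply]
    rfl
  have h2 : (S.Gam * S.g2 k l)ᴴ * (S.Gam * S.g2 i j) = -(S.g2 k l * S.g2 i j) := by
    rw [Matrix.conjTranspose_mul, a5_g2_conj, a5_Gam_conj]
    calc -S.g2 k l * -S.Gam * (S.Gam * S.g2 i j) = S.g2 k l * (S.Gam * S.Gam) * S.g2 i j := by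
          simp only [neg_mul_neg, mul_assoc]
      _ = -(S.g2 k l * S.g2 i j) := by rw [S.Gam_sq]; simp
  rw [h1, h2, Matrix.trace_neg, S.trace_g2_g2]
  ring

lemma delta2 (w : Fin 9 → Fin 9 → F) (k l : Fin 9) :
    ∑ i, ∑ j, (((if k = i then (1 : ℂ) else 0) * (if l = j then 1 else 0)) • w i j) = w k l := by
  rw [Finset.sum_eq_single k, Finset.sum_eq_single l]
  · simp
  · intro j _ hj
    rw [if_neg (Ne.symm hj), mul_zero, zero_smul]
  · intro h; exact absurd (Finset.mem_univ _) h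
  · intro i _ hi
    refine Finset.sum_eq_zero fun j _ => ?_
    rw [if_neg (Ne.symm hi), zero_mul, zero_smul]
  · intro h; exact absurd (Finset.mem_univ _) h

/-- the rotation generators from the anticommutators -/
lemma J_eq (m : ℝ) {u : Cfg d → F} (hu : S.GInv u) {k l : Fin 9} (x : Cfg d) :
    (32 * m * rc k l : ℂ) • S.J k l u x = ∑ α, ∑ β,
      (starRingEnd ℂ) ((S.Gam * S.g2 k l) α β) • (S.Qm m α (S.Qm m β u) x +
        S.Qm m β (S.Qm m α u) x) := by
  have h1 : ∀ α β, S.Qm m α (S.Qm m β u) x + S.Qm m β (S.Qm m α u) x =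
      (if α = β then (2 : ℂ) • S.Hm m u x else 0) +
      (m : ℂ) • (∑ i, ∑ j, ((rc i j : ℂ) * (S.Gam * S.g2 i j) α β) • S.J i j u x) := by
    intro α β
    rw [hA1 S m α β u hu.1.1 x]
    simp only [hu.2, smul_zero, Finset.sum_const_zero, add_zero]
  simp only [h1, smul_add, Finset.sum_add_distrib]
  have h2 : ∑ α, ∑ β, (starRingEnd ℂ) ((S.Gam * S.g2 k l) α β) •
      (if α = β then (2 : ℂ) • S.Hm m u x else 0) = 0 := by
    have h3 : ∀ α, ∑ β, (starRingEnd ℂ) ((S.Gam * S.g2 k l) α β) •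
        (if α = β then (2 : ℂ) • S.Hm m u x else 0) =
        (starRingEnd ℂ) ((S.Gam * S.g2 k l) α α) • ((2 : ℂ) • S.Hm m u x) := by
      intro α
      rw [Finset.sum_eq_single α]
      · rw [if_pos rfl]
      · intro β _ hβ
        rw [if_neg (Ne.symm hβ), smul_zero]
      · intro h; exact absurd (Finset.mem_univ _) h
    simp only [h3]
    rw [← Finset.sum_smul, ← map_sum]
    have h4 : ∑ α, (S.Gam * S.g2 k l) α α = 0 := S.trace_Gam_g2_a1 k l
    rw [h4, map_zero, zero_smul]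
  rw [h2, zero_add]
  have h5 : ∑ α, ∑ β, (starRingEnd ℂ) ((S.Gam * S.g2 k l) α β) • (m : ℂ) •
      (∑ i, ∑ j, ((rc i j : ℂ) * (S.Gam * S.g2 i j) α β) • S.J i j u x) =
      ∑ i, ∑ j, ((m : ℂ) * rc i j * ∑ α, ∑ β, (starRingEnd ℂ) ((S.Gam * S.g2 k l) α β) *
        (S.Gam * S.g2 i j) α β) • S.J i j u x := by
    simp only [Finset.smul_sum, smul_smul, Finset.mul_sum, Finset.sum_smul]
    have h2 : ∀ (w : Fin 16 → Fin 16 → Fin 9 → Fin 9 → F),
        ∑ α, ∑ β, ∑ i, ∑ j, w α β i j = ∑ i, ∑ j, ∑ α, ∑ β, w α β i j := by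
      intro w
      calc ∑ α, ∑ β, ∑ i, ∑ j, w α β i j = ∑ α, ∑ i, ∑ β, ∑ j, w α β i j :=
            Finset.sum_congr rfl fun α _ => Finset.sum_comm
        _ = ∑ i, ∑ α, ∑ β, ∑ j, w α β i j := Finset.sum_comm
        _ = ∑ i, ∑ α, ∑ j, ∑ β, w α β i j :=
            Finset.sum_congr rfl fun i _ => Finset.sum_congr rfl fun α _ => Finset.sum_comm
        _ = ∑ i, ∑ j, ∑ α, ∑ β, w α β i j :=
            Finset.sum_congr rfl fun i _ => Finset.sum_comm
    rw [h2]
    refine Finset.sum_congr rfl fun i _ => Finset.sum_congr rfl fun j _ =>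
      Finset.sum_congr rfl fun α _ => Finset.sum_congr rfl fun β _ => ?_
    congr 1
    ring
  rw [h5]
  simp only [ortho S k l]
  have h6 : ∀ i j, ((m : ℂ) * rc i j * (16 * ((if k = i then 1 else 0) * (if l = j then 1 else 0)
        - (if l = i then 1 else 0) * (if k = j then 1 else 0)))) • S.J i j u x =
      ((if k = i then (1 : ℂ) else 0) * (if l = j then 1 else 0)) •
        ((16 * m * rc i j : ℂ) • S.J i j u x) -
      ((if l = i then (1 : ℂ) else 0) * (if k = j then 1 else 0)) •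
        ((16 * m * rc i j : ℂ) • S.J i j u x) := by
    intro i j
    rw [smul_smul, smul_smul, ← sub_smul]
    congr 1
    ring
  simp only [h6, Finset.sum_sub_distrib]
  rw [delta2 (fun i j => (16 * m * rc i j : ℂ) • S.J i j u x) k l,
    delta2 (fun i j => (16 * m * rc i j : ℂ) • S.J i j u x) l k]
  rw [J_swap' S k l, rc_comm l k, smul_neg, sub_neg_eq_add, ← add_smul]
  congr 1
  ring

/-- `∑ |(Γγ^{kl})_{αβ}|²` -/
noncomputable def cJ : ℝ := ∑ k, ∑ l, ∑ α, ∑ β, ‖(S.Gam * S.g2 k l) α β‖ ^ 2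

lemma cJ_nonneg : 0 ≤ cJ S := Finset.sum_nonneg fun _ _ => Finset.sum_nonneg fun _ _ =>
  Finset.sum_nonneg fun _ _ => Finset.sum_nonneg fun _ _ => by positivity

lemma le_cJ (k l : Fin 9) (α β : Fin 16) : ‖(S.Gam * S.g2 k l) α β‖ ^ 2 ≤ cJ S := by
  have h1 : ‖(S.Gam * S.g2 k l) α β‖ ^ 2 ≤ ∑ β, ‖(S.Gam * S.g2 k l) α β‖ ^ 2 :=
    Finset.single_le_sum (f := fun β => ‖(S.Gam * S.g2 k l) α β‖ ^ 2)
      (fun _ _ => by positivity) (Finset.mem_univ β)
  have h2 : ∑ β, ‖(S.Gam * S.g2 k l) α β‖ ^ 2 ≤ ∑ α, ∑ β, ‖(S.Gam * S.g2 k l) α β‖ ^ 2 :=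
    Finset.single_le_sum (f := fun α => ∑ β, ‖(S.Gam * S.g2 k l) α β‖ ^ 2)
      (fun _ _ => Finset.sum_nonneg fun _ _ => by positivity) (Finset.mem_univ α)
  have h3 : ∑ α, ∑ β, ‖(S.Gam * S.g2 k l) α β‖ ^ 2 ≤
      ∑ l, ∑ α, ∑ β, ‖(S.Gam * S.g2 k l) α β‖ ^ 2 :=
    Finset.single_le_sum (f := fun l => ∑ α, ∑ β, ‖(S.Gam * S.g2 k l) α β‖ ^ 2)
      (fun _ _ => Finset.sum_nonneg fun _ _ => Finset.sum_nonneg fun _ _ => by positivity)
      (Finset.mem_univ l)
  have h4 : ∑ l, ∑ α, ∑ β, ‖(S.Gam * S.g2 k l) α β‖ ^ 2 ≤ cJ S :=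
    Finset.single_le_sum (f := fun k => ∑ l, ∑ α, ∑ β, ‖(S.Gam * S.g2 k l) α β‖ ^ 2)
      (fun _ _ => Finset.sum_nonneg fun _ _ => Finset.sum_nonneg fun _ _ =>
        Finset.sum_nonneg fun _ _ => by positivity) (Finset.mem_univ k)
  linarith

lemma nsq_smul (c : ℂ) (f : Cfg d → F) : nsq (fun x => c • f x) = ‖c‖ ^ 2 * nsq f := by
  rw [nsq, nsq, ← integral_const_mul]
  refine integral_congr_ae (Filter.Eventually.of_forall fun x => ?_)
  simp only [norm_smul, mul_pow]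

/-- **H2** -/
theorem jbd : JbdStmt S := by
  obtain ⟨C, hC, hqq⟩ := qq S
  have hcJ := cJ_nonneg S
  refine ⟨1024 * cJ S * (1 + C), by positivity, ?_⟩
  intro m hm u hu k l hkl
  have hQt : ∀ α, Setup.Tst (S.Qm m α u) := fun α => Tst_Qm S m α hu.1
  have hQQ : ∀ α β, Setup.Tst (S.Qm m α (S.Qm m β u)) := fun α β => Tst_Qm S m α (hQt β)
  set D : Fin 16 × Fin 16 → Cfg d → F := fun p x =>
    (starRingEnd ℂ) ((S.Gam * S.g2 k l) p.1 p.2) • (S.Qm m p.1 (S.Qm m p.2 u) x +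
      S.Qm m p.2 (S.Qm m p.1 u) x) with hD
  have h1 : nsq (fun x => (32 * m * rc k l : ℂ) • S.J k l u x) =
      nsq (fun x => ∑ p, D p x) := by
    congr 1
    funext x
    rw [J_eq S m hu x, Fintype.sum_prod_type]
  have h2 : nsq (fun x => ∑ p, D p x) ≤ 256 * ∑ p, nsq (D p) := by
    have h := nsq_sum_le Finset.univ D (fun p _ =>
      (Tst_csmul _ ((hQQ p.1 p.2).add (hQQ p.2 p.1))).memLp)
    have hc : ((Finset.univ : Finset (Fin 16 × Fin 16)).card : ℝ) = 256 := by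
      simp only [Finset.card_univ, Fintype.card_prod, Fintype.card_fin]
      norm_num
    rwa [hc] at h
  have h3 : ∀ p, nsq (D p) ≤ cJ S * (2 * nsq (S.Qm m p.1 (S.Qm m p.2 u)) +
      2 * nsq (S.Qm m p.2 (S.Qm m p.1 u))) := by
    intro p
    rw [hD]
    simp only
    rw [nsq_smul, RCLike.norm_conj]
    have h4 := nsq_add_le (hQQ p.1 p.2).memLp (hQQ p.2 p.1).memLp
    exact mul_le_mul (le_cJ S k l p.1 p.2) h4 (nsq_nonneg _) hcJ
  set T : ℝ := ∑ α, ∑ β, nsq (S.Qm m β (S.Qm m α u)) with hT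
  have h4 : ∑ p, nsq (D p) ≤ cJ S * (4 * T) := by
    refine (Finset.sum_le_sum fun p _ => h3 p).trans ?_
    rw [← Finset.mul_sum]
    refine mul_le_mul_of_nonneg_left ?_ hcJ
    rw [Fintype.sum_prod_type]
    simp only [Finset.sum_add_distrib, ← Finset.mul_sum]
    have h5 : ∑ α, ∑ β, nsq (S.Qm m α (S.Qm m β u)) = T := by
      rw [hT, Finset.sum_comm]
    rw [h5]
    linarith
  have h6 : (32 * m * rc k l) ^ 2 * nsq (S.J k l u) =
      nsq (fun x => (32 * m * rc k l : ℂ) • S.J k l u x) := by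
    rw [nsq_smul]
    congr 1
    have : (32 * m * rc k l : ℂ) = ((32 * m * rc k l : ℝ) : ℂ) := by push_cast; rfl
    rw [this, Complex.norm_real, Real.norm_eq_abs, sq_abs]
  have h7 : m ^ 2 * nsq (S.J k l u) ≤ (32 * m * rc k l) ^ 2 * nsq (S.J k l u) := by
    refine mul_le_mul_of_nonneg_right ?_ (nsq_nonneg _)
    have h8 : 1 ≤ (rc k l) ^ 2 := by
      rw [← sq_abs]
      nlinarith [rc_abs hkl]
    nlinarith [sq_nonneg m]
  have h9 := hqq m hm.le u hu
  have hen : 0 ≤ S.en m u := Finset.sum_nonneg fun _ _ => nsq_nonneg _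
  have hHH := nsq_nonneg (HH S m u)
  calc m ^ 2 * nsq (S.J k l u) ≤ 256 * (cJ S * (4 * T)) := by
        rw [h6, h1] at h7
        linarith
    _ = 1024 * cJ S * T := by ring
    _ ≤ 1024 * cJ S * (nsq (HH S m u) + C * m * S.en m u) :=
        mul_le_mul_of_nonneg_left h9 (by positivity)
    _ ≤ 1024 * cJ S * ((1 + C) * (nsq (HH S m u) + m * S.en m u)) := by
        refine mul_le_mul_of_nonneg_left ?_ (by positivity)
        have a1 : 0 ≤ C * nsq (HH S m u) := mul_nonneg hC hHH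
        have a2 : 0 ≤ m * S.en m u := mul_nonneg hm.le hen
        nlinarith
    _ = _ := by ring

end Vale.Agent.P353.Z.AH
end

section

/-! # P353, all `N`, block H: `CircStmt` (helper973) -/

open MeasureTheory Filter Topology
open scoped ContDiff ComplexConjugate

namespace Vale.Agent.P353.Z.AH

namespace Cir

universe w

variable {d : ℕ} {F : Type w} [NormedAddCommGroup F] [InnerProductSpace ℂ F]

lemma int_unit {G : Type*} [NormedAddCommGroup G] [NormedSpace ℝ G] (g : ℝ → G) :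
    ∫ s : unitInterval, g s = ∫ s in (0 : ℝ)..1, g s := by
  rw [unitInterval.volume_def, integral_subtype_comap measurableSet_Icc, integral_Icc_eq_integral_Ioc,
    intervalIntegral.integral_of_le zero_le_one]

lemma RR_period (k l : Fin 9) (x : Cfg d) : RR k l (-(4 * Real.pi)) x = x := by
  ext ⟨i, A⟩
  rw [RR_apply, Real.cos_neg, Real.sin_neg]
  have h1 : Real.cos (4 * Real.pi) = 1 := by
    have := Real.cos_nat_mul_two_pi 2
    rw [← this]
    congr 1
    push_cast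
    ring
  have h2 : Real.sin (4 * Real.pi) = 0 := by
    have := Real.sin_nat_mul_pi 4
    rw [← this]
    congr 1
  rw [h1, h2]
  ring

variable (S : Setup d F) [CompleteSpace F]

lemma Ut_period {k l : Fin 9} {c : ℂ} (hc : ∀ v, S.st k l (4 * Real.pi) v = c • v) (u : Cfg d → F) (x : Cfg d) :
    S.Ut k l (4 * Real.pi) u x = c • u x := by
  unfold Setup.Ut
  rw [hc, RR_period]

lemma J_cav_zero [FiniteDimensional ℂ F] {k l : Fin 9} (h : k ≠ l)
    (hc : ∀ v, S.st k l (4 * Real.pi) v = v) {u : Cfg d → F} (hu : ContDiff ℝ ∞ u) (x : Cfg d) :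
    S.J k l (cav S k l (4 * Real.pi) u) x = 0 := by
  have hdiff : Differentiable ℝ u := hu.differentiable (by simp)
  set T : ℝ := 4 * Real.pi with hT
  have hT0 : T ≠ 0 := by positivity
  rw [J_cav S k l T k l hu]
  have e : ∀ s : ℝ, S.J k l (S.Ut k l (T * s) u) x = S.Ut k l (T * s) (S.J k l u) x := by
    intro s
    rw [S.J_Ut h _ hdiff]
    rfl
  have hcont : Continuous fun s : ℝ => S.J k l (S.Ut k l (T * s) u) x := by
    simp only [e]
    exact (cont_Ut S k l (S.contDiff_J k l hu).continuous).comp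
      ((continuous_const.mul continuous_id).prodMk continuous_const)
  rw [int_unit (fun s : ℝ => S.J k l (S.Ut k l (T * s) u) x)]
  have hder : ∀ s : ℝ, HasDerivAt (fun s => S.Ut k l (T * s) u x)
      (T • (Complex.I • S.J k l (S.Ut k l (T * s) u) x)) s := by
    intro s
    have h1 := S.hasDerivAt_Ut h (T * s) hdiff x
    have h2 : HasDerivAt (fun s : ℝ => T * s) T s := by
      simpa using (hasDerivAt_id s).const_mul T
    exact h1.scomp s h2
  have hint := intervalIntegral.integral_eq_sub_of_hasDerivAt (a := 0) (b := 1) (fun s _ => hder s)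
    ((hcont.const_smul Complex.I).const_smul T |>.intervalIntegrable _ _)
  rw [intervalIntegral.integral_smul] at hint
  have h3 : ∫ s in (0 : ℝ)..1, Complex.I • S.J k l (S.Ut k l (T * s) u) x =
      Complex.I • ∫ s in (0 : ℝ)..1, S.J k l (S.Ut k l (T * s) u) x := intervalIntegral.integral_smul _ _
  rw [h3, mul_one, mul_zero] at hint
  have h4 : S.Ut k l T u x = u x := by
    have := Ut_period S (c := 1) (fun v => by rw [hc, one_smul]) u x
    rwa [one_smul] at this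
  have h5 : S.Ut k l 0 u x = u x := by
    simp only [Setup.Ut, S.st_zero, neg_zero, RR_zero]
    rfl
  rw [h4, h5, sub_self, smul_eq_zero, smul_eq_zero] at hint
  rcases hint with h6 | h6 | h6
  · exact absurd h6 hT0
  · exact absurd h6 Complex.I_ne_zero
  · exact h6

lemma cav_near [FiniteDimensional ℂ F] {k l : Fin 9} (h : k ≠ l) {T : ℝ} (hT : 0 ≤ T) {u : Cfg d → F}
    (hu : Setup.Tst u) :
    nsq (fun x => u x - cav S k l T u x) ≤ T ^ 2 * nsq (S.J k l u) := by
  obtain ⟨r, hr⟩ := exists_r hu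
  have h1 := jensen (volume : Measure unitInterval) (κ := Unit)
    (f := fun _ s x => u x - S.Ut k l (T * s) u x) (r := r)
    (fun _ => (hu.1.continuous.comp continuous_snd).sub (cont_fam S k l T hu.1.continuous))
    (fun _ s x hx => by rw [hr x hx, supp_Ut S h hr _ x hx, sub_zero])
    (fun _ s => hu.sub (hu.Ut S h _))
    (g := fun _ x => u x - cav S k l T u x)
    (fun _ x => by
      rw [integral_sub (integrable_const _) (int_fam _ (fam_cont (cont_fam S k l T hu.1.continuous) x))]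
      simp only [integral_const, probReal_univ, one_smul]
      rfl)
    (fun _ => hu.sub (cav_Tst S h T hu)) (B := T ^ 2 * nsq (S.J k l u))
    (fun s => by
      rw [Finset.univ_unique, Finset.sum_singleton]
      have hs0 : 0 ≤ T * (s : ℝ) := mul_nonneg hT s.2.1
      refine (diff_bound S h hu hs0).trans ?_
      have hs1 : T * (s : ℝ) ≤ T := mul_le_of_le_one_right hT s.2.2
      have := nsq_nonneg (S.J k l u)
      gcongr)
  rwa [Finset.univ_unique, Finset.sum_singleton] at h1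

lemma cav_J [FiniteDimensional ℂ F] {k l : Fin 9} (h : k ≠ l) {a b : Fin 9} (hab : a ≠ b) (hak : a ≠ k)
    (hal : a ≠ l) (hbk : b ≠ k) (hbl : b ≠ l) (T : ℝ) {u : Cfg d → F} (hu : Setup.Tst u) :
    nsq (S.J a b (cav S k l T u)) ≤ nsq (S.J a b u) := by
  have hdiff : Differentiable ℝ u := hu.1.differentiable (by simp)
  have hJ : Setup.Tst (S.J a b u) := hu.J S a b
  have e : ∀ (s : ℝ) x, S.J a b (S.Ut k l s u) x = S.Ut k l s (S.J a b u) x := fun s x =>
    J_Ut' S h hab hak hal hbk hbl s hdiff x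
  obtain ⟨r, hr⟩ := exists_r hJ
  have h1 := jensen (volume : Measure unitInterval) (κ := Unit)
    (f := fun _ s x => S.Ut k l (T * s) (S.J a b u) x) (r := r)
    (fun _ => cont_fam S k l T hJ.1.continuous)
    (fun _ s x hx => supp_Ut S h hr _ x hx)
    (fun _ s => hJ.Ut S h _)
    (g := fun _ => S.J a b (cav S k l T u))
    (fun _ x => by
      rw [J_cav S k l T a b hu.1]
      simp only [e])
    (fun _ => (cav_Tst S h T hu).J S a b) (B := nsq (S.J a b u))
    (fun s => by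
      rw [Finset.univ_unique, Finset.sum_singleton]
      exact (nsq_Ut S h (T * s) (S.J a b u)).le)
  rwa [Finset.univ_unique, Finset.sum_singleton] at h1

lemma cav_en [FiniteDimensional ℂ F] {k l : Fin 9} (h : Same k l) (T m : ℝ) {u : Cfg d → F}
    (hu : Setup.Tst u) : S.en m (cav S k l T u) ≤ S.en m u := by
  have hdiff : Differentiable ℝ u := hu.1.differentiable (by simp)
  have hQ : ∀ c, Setup.Tst (S.Qm m c u) := fun c => U.HB.Tst_Qm S m c hu
  have e : ∀ (b : Fin 16) (s : ℝ) x, S.Qm m b (S.Ut k l s u) x =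
      ∑ c, S.gt k l s b c • S.Ut k l s (S.Qm m c u) x := by
    intro b s x
    rw [Qm_Ut S h s m b hdiff x, map_sum]
    refine Finset.sum_congr rfl fun c _ => ?_
    rw [map_smul]
    rfl
  choose r hr using fun c => exists_r (hQ c)
  have hgt : ∀ b c, Continuous fun s : ℝ => S.gt k l s b c := by
    intro b c
    simp only [Setup.gt, Matrix.add_apply, Matrix.smul_apply, smul_eq_mul]
    fun_prop
  have h1 := jensen (volume : Measure unitInterval) (κ := Fin 16)
    (f := fun b s => S.Qm m b (S.Ut k l (T * s) u)) (r := ∑ c, |r c|)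
    (fun b => by
      simp only [e]
      refine continuous_finsetSum _ fun c _ => ?_
      exact ((hgt b c).comp (continuous_const.mul (continuous_subtype_val.comp continuous_fst))).smul
        (cont_fam S k l T (hQ c).1.continuous))
    (fun b s x hx => by
      rw [e]
      refine Finset.sum_eq_zero fun c _ => ?_
      have h2 : r c < ‖x‖ := by
        refine lt_of_le_of_lt ?_ hx
        exact (le_abs_self _).trans
          (Finset.single_le_sum (f := fun c => |r c|) (fun c _ => abs_nonneg _) (Finset.mem_univ c))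
      rw [supp_Ut S h.1 (hr c) _ x h2, smul_zero])
    (fun b s => U.HB.Tst_Qm S m b (hu.Ut S h.1 _))
    (g := fun b => S.Qm m b (cav S k l T u))
    (fun b x => Qm_cav S k l T m b hu.1 x)
    (fun b => U.HB.Tst_Qm S m b (cav_Tst S h.1 T hu)) (B := S.en m u)
    (fun s => (en_Ut S h (T * s) m hu).le)
  exact h1

end Cir

open Cir in
/-- **H3** -/
theorem circ {d : ℕ} {F : Type*} [NormedAddCommGroup F] [InnerProductSpace ℂ F] [FiniteDimensional ℂ F]
    (S : Setup d F) : CircStmt S := by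
  have hFc : CompleteSpace F := FiniteDimensional.complete ℂ F
  intro hI hne k l hkl
  obtain ⟨c, hc⟩ := st_scalar S hI hne hkl.1
  set T : ℝ := 4 * Real.pi with hT
  have hT0 : 0 < T := by positivity
  refine ⟨T ^ 2 + T ^ 2 / ‖1 - c‖ ^ 2, by positivity, fun P hP u hu => ?_⟩
  have hJn := nsq_nonneg (S.J k l u)
  by_cases h1 : c = 1
  · have hc' : ∀ v, S.st k l (4 * Real.pi) v = v := fun v => by rw [hc, h1, one_smul]
    have hdiff : Differentiable ℝ u := hu.1.1.differentiable (by simp)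
    have hJ0 : ∀ x, S.J k l (cav S k l T u) x = 0 := J_cav_zero S hkl.1 hc' hu.1.1
    refine ⟨cav S k l T u, ⟨cav_Tst S hkl.1 T hu.1, fun C x => ?_, fun a b hab x => ?_⟩, ?_, ?_, ?_⟩
    · rw [G_cav S k l T C hu.1.1]
      have h2 : ∀ s : ℝ, S.G C (S.Ut k l s u) x = 0 := by
        intro s
        rw [G_Ut S hkl.1 s C hdiff, hu.2.1, map_zero]
      simp only [h2, integral_zero]
    · have hlk : ∀ x, S.J l k (cav S k l T u) x = 0 := by
        intro x
        rw [J_swap', hJ0, neg_zero]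
      rcases hab with hab | ⟨rfl, rfl⟩ | ⟨rfl, rfl⟩
      · rcases (hP a b hab).2 with ⟨rfl, rfl⟩ | ⟨rfl, rfl⟩ | ⟨h2, h3, h4, h5⟩
        · exact hJ0 x
        · exact hlk x
        · rw [J_cav S k l T a b hu.1.1]
          have h6 : ∀ s : ℝ, S.J a b (S.Ut k l s u) x = 0 := by
            intro s
            rw [J_Ut' S hkl.1 (hP a b hab).1.1 h2 h3 h4 h5 s hdiff, hu.2.2 a b hab, map_zero]
          simp only [h6, integral_zero]
      · exact hJ0 x
      · exact hlk x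
    · refine (cav_near S hkl.1 hT0.le hu.1).trans ?_
      have : 0 ≤ T ^ 2 / ‖1 - c‖ ^ 2 := by positivity
      nlinarith
    · exact fun m => cav_en S hkl T m hu.1
    · exact fun a b hab h2 h3 h4 h5 => cav_J S hkl.1 hab.1 h2 h3 h4 h5 T hu.1
  · have hc1 : 0 < ‖1 - c‖ := norm_pos_iff.mpr (sub_ne_zero.mpr (Ne.symm h1))
    have hz : (fun _ : Cfg d => (0 : F)) = fun x => (0 : ℂ) • u x := by
      funext x
      rw [zero_smul]
    have hInv : S.InvP P (fun _ : Cfg d => (0 : F)) := by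
      rw [hz]
      exact InvP_csmul 0 hu
    have hJz : ∀ a b x, S.J a b (fun _ : Cfg d => (0 : F)) x = 0 := by
      intro a b x
      rw [hz, U.HB.J_csmul S a b 0 hu.1.1, zero_smul]
    refine ⟨fun _ => 0, ⟨hInv.1, hInv.2.1, fun a b _ x => hJz a b x⟩, ?_, ?_, ?_⟩
    · have h2 := diff_bound S hkl.1 hu.1 hT0.le
      have h3 : (fun x => u x - S.Ut k l T u x) = fun x => (1 - c) • u x := by
        funext x
        rw [Ut_period S hc, sub_smul, one_smul]
      rw [h3, nsq_csmul] at h2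
      simp only [sub_zero]
      have h4 : nsq u ≤ T ^ 2 / ‖1 - c‖ ^ 2 * nsq (S.J k l u) := by
        rw [div_mul_eq_mul_div, le_div_iff₀ (by positivity)]
        linarith
      refine h4.trans ?_
      have : 0 ≤ T ^ 2 := by positivity
      nlinarith
    · intro m
      have h2 : S.en m (fun _ : Cfg d => (0 : F)) = 0 := by
        rw [hz, en_csmul m 0 hu.1]
        simp
      rw [h2]
      exact en_nonneg m u
    · intro a b _ _ _ _ _
      have h2 : nsq (S.J a b (fun _ : Cfg d => (0 : F))) = 0 := by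
        unfold nsq
        simp only [hJz, norm_zero]
        simp
      rw [h2]
      exact nsq_nonneg _

end Vale.Agent.P353.Z.AH
end

section

/-! # P353, all `N`, block H (counting): H7, density of the range of `HH + lam` -/

open MeasureTheory Filter Topology
open scoped ContDiff

namespace Vale.Agent.P353.Z.AH

variable {d : ℕ} {F : Type*} [NormedAddCommGroup F] [InnerProductSpace ℂ F]

namespace Dn

open U U.HB

variable (S : Setup d F)

lemma GInv_add {u v : Cfg d → F} (hu : S.GInv u) (hv : S.GInv v) :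
    S.GInv (fun y => u y + v y) := by
  refine ⟨hu.1.add hv.1, fun C x => ?_⟩
  rw [G_add S C hu.1.1 hv.1.1, hu.2, hv.2, add_zero]

lemma GInv_csmul (c : ℂ) {u : Cfg d → F} (hu : S.GInv u) : S.GInv (fun y => c • u y) := by
  refine ⟨Tst_csmul c hu.1, fun C x => ?_⟩
  rw [G_csmul S C c hu.1.1, hu.2, smul_zero]

lemma GInv_zero : S.GInv (fun _ : Cfg d => (0 : F)) := by
  refine ⟨Tst_zero, fun C x => ?_⟩
  have h := G_csmul S C 0 (u := fun _ => (0 : F)) contDiff_const x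
  simpa using h

lemma GInv_HH (m : ℝ) {u : Cfg d → F} (hu : S.GInv u) : S.GInv (HH S m u) := by
  have hA3 : A3Stmt S := a3 S
  refine ⟨Tst_HH S m hu.1, fun C x => ?_⟩
  have h0 : S.G C u = fun _ => 0 := funext fun y => hu.2 C y
  have h1 : ∀ β, S.G C (S.Qm m β u) = fun _ => 0 := by
    intro β
    funext y
    rw [hA3 m C β u hu.1.1 y, h0, Qm_zero]
  have h2 : ∀ β, S.G C (S.Qm m β (S.Qm m β u)) x = 0 := by
    intro β
    rw [hA3 m C β _ (contDiff_Qm S m β hu.1.1) x, h1, Qm_zero]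
  have h3 : ∀ s : Finset (Fin 16), S.G C (fun y => ∑ β ∈ s, S.Qm m β (S.Qm m β u) y) x = 0 := by
    intro s
    classical
    induction s using Finset.induction_on with
    | empty =>
      have := (GInv_zero S).2 C x
      simpa using this
    | insert b s hb ih =>
      simp only [Finset.sum_insert hb]
      rw [G_add S C (contDiff_Qm S m b (contDiff_Qm S m b hu.1.1))
        (ContDiff.sum fun β _ => contDiff_Qm S m β (contDiff_Qm S m β hu.1.1)), h2, ih, add_zero]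
  exact h3 Finset.univ

/-- the operator `HH + lam` -/
noncomputable def HL (m lam : ℝ) (u : Cfg d → F) (x : Cfg d) : F := HH S m u x + (lam : ℂ) • u x

lemma GInv_HL (m lam : ℝ) {u : Cfg d → F} (hu : S.GInv u) : S.GInv (HL S m lam u) :=
  GInv_add S (GInv_HH S m hu) (GInv_csmul S _ hu)

/-- gauge invariant test functions in `L²` -/
def GSub : Submodule ℂ (Lp F 2 (volume : Measure (Cfg d))) where
  carrier := {f | ∃ φ, S.GInv φ ∧ f =ᵐ[volume] φ}
  zero_mem' := ⟨fun _ => 0, GInv_zero S, Lp.coeFn_zero _ _ _⟩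
  add_mem' := by
    rintro f g ⟨φ, hφ, hf⟩ ⟨ψ, hψ, hg⟩
    exact ⟨fun y => φ y + ψ y, GInv_add S hφ hψ, (Lp.coeFn_add f g).trans (hf.add hg)⟩
  smul_mem' := by
    rintro c f ⟨φ, hφ, hf⟩
    exact ⟨fun y => c • φ y, GInv_csmul S c hφ, (Lp.coeFn_smul c f).trans (hf.const_smul c)⟩

/-- range of `HH + lam` on gauge invariant test functions -/
def RSub (m lam : ℝ) : Submodule ℂ (Lp F 2 (volume : Measure (Cfg d))) where
  carrier := {f | ∃ φ, S.GInv φ ∧ f =ᵐ[volume] HL S m lam φ}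
  zero_mem' := by
    refine ⟨fun _ => 0, GInv_zero S, ?_⟩
    have h : HL S m lam (fun _ : Cfg d => (0 : F)) = fun _ => 0 := by
      funext x
      have h1 := HH_csmul S m 0 (u := fun _ => (0 : F)) contDiff_const x
      simp only [smul_zero, zero_smul] at h1
      simp only [HL, h1, smul_zero, add_zero]
    rw [h]
    exact Lp.coeFn_zero _ _ _
  add_mem' := by
    rintro f g ⟨φ, hφ, hf⟩ ⟨ψ, hψ, hg⟩
    refine ⟨fun y => φ y + ψ y, GInv_add S hφ hψ, (Lp.coeFn_add f g).trans ?_⟩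
    filter_upwards [hf, hg] with x hx hy
    rw [Pi.add_apply, hx, hy]
    simp only [HL, HH_add S m hφ.1.1 hψ.1.1, smul_add]
    abel
  smul_mem' := by
    rintro c f ⟨φ, hφ, hf⟩
    refine ⟨fun y => c • φ y, GInv_csmul S c hφ, (Lp.coeFn_smul c f).trans ?_⟩
    filter_upwards [hf] with x hx
    rw [Pi.smul_apply, hx]
    simp only [HL, HH_csmul S m c hφ.1.1, smul_add]
    rw [smul_comm]

lemma R_le_G (m lam : ℝ) : RSub S m lam ≤ GSub S := by
  rintro f ⟨φ, hφ, hf⟩
  exact ⟨HL S m lam φ, GInv_HL S m lam hφ, hf⟩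

lemma clG_of_mem {f : Lp F 2 (volume : Measure (Cfg d))} (hf : f ∈ closure (GSub S : Set _)) :
    ∃ w : ℕ → Cfg d → F, (∀ n, S.GInv (w n)) ∧ L2t w f := by
  obtain ⟨g, hg, hl⟩ := mem_closure_iff_seq_limit.mp hf
  choose w hw hw2 using hg
  refine ⟨w, hw, fun n => (hw n).1.memLp, Lp.memLp f, ?_⟩
  have h1 : ∀ n, nsq (fun x => w n x - f x) = ‖g n - f‖ ^ 2 := by
    intro n
    rw [norm_Lp (u := fun x => w n x - f x)]
    refine (Lp.coeFn_sub (g n) f).trans ?_
    filter_upwards [hw2 n] with x hx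
    rw [Pi.sub_apply, hx]
  simp only [h1]
  have h2 := (tendsto_iff_norm_sub_tendsto_zero.mp hl).pow 2
  simpa using h2

end Dn

open U U.HB Dn in
/-- **H7** -/
theorem dens [CompleteSpace F] (S : Setup d F) (h : WSPStmt S) : DenseStmt S := by
  intro m lam hlam f hf δ hδ
  set R := (RSub S m lam).topologicalClosure with hR
  have hRG : R ≤ (GSub S).topologicalClosure :=
    Submodule.topologicalClosure_mono (R_le_G S m lam)
  have : CompleteSpace R := (Submodule.isClosed_topologicalClosure _).completeSpace_coe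
  obtain ⟨w, hw, Ψ, hΨ, hsum⟩ := Submodule.exists_add_mem_mem_orthogonal (K := R) (toL hf.1)
  have hΨe : Ψ = toL hf.1 - w := by rw [hsum]; abel
  have hcl : Ψ ∈ closure (GSub S : Set (Lp F 2 (volume : Measure (Cfg d)))) := by
    have h1 : toL hf.1 ∈ (GSub S).topologicalClosure :=
      Submodule.le_topologicalClosure _ ⟨f, hf, coe_toL hf.1⟩
    have h2 : Ψ ∈ (GSub S).topologicalClosure := by
      rw [hΨe]
      exact Submodule.sub_mem _ h1 (hRG hw)
    exact h2
  obtain ⟨v, hv, hvl⟩ := clG_of_mem S hcl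
  have hP : ∀ φ : Cfg d → F, S.InvP (fun _ _ => False) φ ↔ S.GInv φ := fun φ =>
    ⟨fun h => ⟨h.1, h.2.1⟩, fun h => ⟨h.1, h.2, fun _ _ h' => h'.elim⟩⟩
  obtain ⟨u, hu, hul, hue⟩ := h (fun _ _ => False) (fun _ _ h' => h'.elim) m lam hlam.le Ψ
    ⟨v, fun n => (hP _).2 (hv n), hvl⟩ (by
      intro φ hφ
      have hφ' := (hP φ).1 hφ
      have h1 : toL (GInv_HL S m lam hφ').1 ∈ R :=
        Submodule.le_topologicalClosure _ ⟨φ, hφ', coe_toL _⟩
      have h2 := (Submodule.mem_orthogonal R Ψ).mp hΨ _ h1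
      rw [inner_Lp (coe_toL _) (EventuallyEq.rfl (f := (Ψ : Cfg d → F)))] at h2
      exact h2)
  have hz : nsq (Ψ : Cfg d → F) = 0 := by
    have h1 : Tendsto (fun n => lam * nsq (u n)) atTop (𝓝 0) := by
      refine squeeze_zero (fun n => mul_nonneg hlam.le (nsq_nonneg _)) (fun n => ?_) hue
      have : 0 ≤ S.en m (u n) := Finset.sum_nonneg fun β _ => nsq_nonneg _
      linarith
    have h2 : Tendsto (fun n => lam * nsq (u n)) atTop (𝓝 (lam * nsq (Ψ : Cfg d → F))) :=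
      hul.lim_nsq.const_mul lam
    have h3 := tendsto_nhds_unique h1 h2
    rcases mul_eq_zero.1 h3.symm with h4 | h4
    · exact absurd h4 hlam.ne'
    · exact h4
  have hΨ0 : Ψ = 0 := by
    have h1 := norm_Lp (EventuallyEq.rfl (f := (Ψ : Cfg d → F)) (l := ae volume))
    rw [hz] at h1
    exact norm_eq_zero.mp (by nlinarith [norm_nonneg Ψ])
  have hmem : toL hf.1 ∈ closure (RSub S m lam : Set (Lp F 2 (volume : Measure (Cfg d)))) := by
    have h1 : toL hf.1 ∈ R := by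
      rw [hsum, hΨ0, add_zero]
      exact hw
    exact h1
  obtain ⟨g, ⟨φ, hφ, hg⟩, hd⟩ := Metric.mem_closure_iff.1 hmem (Real.sqrt δ) (Real.sqrt_pos.2 hδ)
  refine ⟨φ, hφ, ?_⟩
  have h1 : nsq (fun x => HL S m lam φ x - f x) = ‖g - toL hf.1‖ ^ 2 := by
    rw [norm_Lp (u := fun x => HL S m lam φ x - f x)]
    refine (Lp.coeFn_sub g (toL hf.1)).trans ?_
    filter_upwards [hg, coe_toL hf.1] with x hx hy
    rw [Pi.sub_apply, hx, hy]
  have h2 : ‖g - toL hf.1‖ < Real.sqrt δ := by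
    rwa [dist_comm, dist_eq_norm] at hd
  change nsq (fun x => HL S m lam φ x - f x) ≤ δ
  rw [h1]
  calc ‖g - toL hf.1‖ ^ 2 ≤ Real.sqrt δ ^ 2 := by gcongr
    _ = δ := Real.sq_sqrt hδ.le

end Vale.Agent.P353.Z.AH
end

section

/-! # P353, all `N`, block H (counting), H6: weak = strong, general sector and mass (helper653) -/

open MeasureTheory Filter Topology
open scoped ContDiff

namespace Vale.Agent.P353.Z.AH

variable {d : ℕ} {F : Type*} [NormedAddCommGroup F] [InnerProductSpace ℂ F]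

namespace WSP

open Vale.Agent.P353.Z.Moll Vale.Agent.P353.Z.U Vale.Agent.P353.Z.U.HB Vale.Agent.P353.Z.U.WS

variable (S : Setup d F)

/-- the weak form of `J k l Ψ = 0` -/
def wJ1 (k l : Fin 9) (Ψ : Cfg d → F) : Prop :=
  ∀ ζ : Cfg d → F, Setup.Tst ζ → ∫ x, inner ℂ (S.J k l ζ x) (Ψ x) = 0

lemma J_mo_zero1 [CompleteSpace F] {g : ℝ → ℝ} {Ψ : Cfg d → F}
    (hΨ : MemLp Ψ 2 (volume : Measure (Cfg d))) {k l : Fin 9} (hw : wJ1 S k l Ψ)
    (hg : ContDiff ℝ ∞ g) (hc : HasCompactSupport (rad (dc := d) g)) (x : Cfg d) :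
    S.J k l (mo (rad g) Ψ) x = 0 := by
  rw [J_eq_Dop, Dop_mo_eq_zero hg hc (S.Skl_symm k l) (jco_lin k l) (jco_rot k l) (locInt hΨ) ?_ x]
  intro ζ hζ
  have := hw ζ hζ
  simpa only [J_eq_Dop] using this

variable {P : Fin 9 → Fin 9 → Prop}

lemma wG_of_limP {Ψ : Cfg d → F} {w : ℕ → Cfg d → F} (hw : ∀ n, S.InvP P (w n))
    (hl : L2t w Ψ) : S.wG Ψ := by
  intro C ζ hζ
  have h1 := (L2t_const (hζ.G S C).memLp).lim_inner hl
  refine tendsto_nhds_unique h1 (tendsto_const_nhds.congr fun n => ?_)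
  rw [G_symm S C ζ (w n) hζ (hw n).1.1]
  simp [(hw n).2.1]

lemma wJ_of_limP {Ψ : Cfg d → F} {w : ℕ → Cfg d → F} (hw : ∀ n, S.InvP P (w n))
    (hl : L2t w Ψ) {k l : Fin 9} (hkl : P k l) : wJ1 S k l Ψ := by
  intro ζ hζ
  have h1 := (L2t_const (hζ.J S k l).memLp).lim_inner hl
  refine tendsto_nhds_unique h1 (tendsto_const_nhds.congr fun n => ?_)
  rw [J_symm S k l ζ (w n) hζ (hw n).1.1]
  simp [(hw n).2.2 k l hkl]

lemma InvP_rad {f : ℝ → ℝ} (hf : ContDiff ℝ ∞ f) (hc : HasCompactSupport (rad (dc := d) f))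
    {u : Cfg d → F} (hu : ContDiff ℝ ∞ u) (hG : ∀ C x, S.G C u x = 0)
    (hJ : ∀ k l, P k l → ∀ x, S.J k l u x = 0) :
    S.InvP P (fun y => ((rad f y : ℝ) : ℂ) • u y) := by
  have hd : ∀ x, DifferentiableAt ℝ u x := fun x => (hu.differentiable (by simp)) x
  refine ⟨⟨(Setup.contDiff_ofReal (contDiff_rad hf)).smul hu, hc.mono ?_⟩, fun C x => ?_,
    fun k l h x => ?_⟩
  · intro x hx
    simp only [Function.mem_support] at hx ⊢
    intro h0
    exact hx (by simp [h0])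
  · rw [G_rad S hf C u x (hd x), hG, smul_zero]
  · rw [J_rad S hf k l u x (hd x), hJ k l h, smul_zero]

lemma InvP_mo [CompleteSpace F] {g : ℝ → ℝ} (hg : ContDiff ℝ ∞ g)
    (hc : HasCompactSupport (rad (dc := d) g)) {u : Cfg d → F} (hu : S.InvP P u) :
    S.InvP P (mo (rad g) u) := by
  have hl : L2t (fun _ : ℕ => u) u := L2t_const hu.1.memLp
  exact ⟨mo_Tst (contDiff_rad hg) hc hu.1,
    fun C x => G_mo_zero S hu.1.memLp (wG_of_limP S (fun _ => hu) hl) hg hc C x,
    fun k l h x => J_mo_zero1 S hu.1.memLp (wJ_of_limP S (fun _ => hu) hl h) hg hc x⟩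

/-- the error term of the mollified equation, with mass -/
lemma err_boundP [CompleteSpace F] (h7 : A7Stmt S) (m lam : ℝ) {Ψ : Cfg d → F}
    {w : ℕ → Cfg d → F} (hw : ∀ n, Setup.Tst (w n)) (hl : L2t w Ψ)
    (h0 : ∀ φ, S.InvP P φ → ∫ x, inner ℂ (HH S m φ x + (lam : ℂ) • φ x) (Ψ x) = 0)
    {ε η : ℝ} (hη : 0 ≤ η) {ρ : Cfg d → ℝ} (h : IsMol ε ρ) (he : ∀ x, ρ (-x) = ρ x)
    {u : Cfg d → F} (hu : Setup.Tst u) (hui : S.InvP P (mo ρ u))
    (hb : ∀ x t, ρ (x - t) ≠ 0 → u t ≠ 0 → ‖S.esaW m x - S.esaW m t‖ ≤ η) :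
    ‖(∫ x, inner ℂ (u x) (HH S m (mo ρ Ψ) x)) +
      (lam : ℂ) * ∫ x, inner ℂ (u x) (mo ρ Ψ x)‖ ≤
      η * (Real.sqrt (nsq u) * Real.sqrt (nsq Ψ)) := by
  set E : Cfg d → F := fun x => ∫ t, ρ (x - t) • (S.esaW m x - S.esaW m t) (u t) with hE
  have hmoT : Setup.Tst (mo ρ u) := mo_Tst h.contDiff h.hcs hu
  have hHT : Setup.Tst (HH S m u) := Tst_HH S m hu
  have hEe : E = fun x => HH S m (mo ρ u) x - mo ρ (HH S m u) x := by
    funext x
    rw [HH_mo S h7 m h.contDiff h.hcs hu x]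
    simp only [hE]
    abel
  have hET : Setup.Tst E := by
    rw [hEe]
    exact (Tst_HH S m hmoT).sub (mo_Tst h.contDiff h.hcs hHT)
  have hEb : ∀ x, ‖E x‖ ≤ η * mo ρ (fun t => ‖u t‖) x := by
    intro x
    have hi : Integrable (fun t => ρ (x - t) • ‖u t‖) :=
      integrable_mo h.contDiff.continuous h.hcs (hu.1.continuous.norm.locallyIntegrable) x
    have e : η * mo ρ (fun t => ‖u t‖) x = ∫ t, η * (ρ (x - t) • ‖u t‖) := by
      rw [integral_const_mul]; rfl
    rw [e]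
    refine norm_integral_le_of_norm_le (hi.const_mul _) (Eventually.of_forall fun t => ?_)
    rw [norm_smul, Real.norm_of_nonneg (h.nonneg _), smul_eq_mul]
    by_cases h1 : ρ (x - t) = 0
    · rw [h1]; simp
    · by_cases h2 : u t = 0
      · rw [h2]; simp
      · calc ρ (x - t) * ‖(S.esaW m x - S.esaW m t) (u t)‖ ≤ ρ (x - t) * (η * ‖u t‖) := by
              refine mul_le_mul_of_nonneg_left ?_ (h.nonneg _)
              exact ((S.esaW m x - S.esaW m t).le_opNorm _).trans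
                (mul_le_mul_of_nonneg_right (hb x t h1 h2) (norm_nonneg _))
          _ = _ := by ring
  have hEn := (nsq_le_mo h hu.memLp hET.1.continuous.aestronglyMeasurable hEb).2
  have h1 : (∫ x, inner ℂ (u x) (HH S m (mo ρ Ψ) x)) +
      (lam : ℂ) * ∫ x, inner ℂ (u x) (mo ρ Ψ x) = - ∫ x, inner ℂ (E x) (Ψ x) := by
    have hsm : ContDiff ℝ ∞ (mo ρ Ψ) := contDiff_mo h.contDiff h.hcs (locInt hl.mem')
    rw [← HH_symm S m hu hsm, mo_symm h he hHT hw hl, mo_symm h he hu hw hl]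
    have i1 := integrable_inner_memLp (Tst_HH S m hmoT).memLp hl.mem'
    have i2 := integrable_inner_memLp (mo_Tst h.contDiff h.hcs hHT).memLp hl.mem'
    have i3 := integrable_inner_memLp hmoT.memLp hl.mem'
    have h2 : ∫ x, inner ℂ (E x) (Ψ x) = (∫ x, inner ℂ (HH S m (mo ρ u) x) (Ψ x)) -
        ∫ x, inner ℂ (mo ρ (HH S m u) x) (Ψ x) := by
      rw [← integral_sub i1 i2]
      refine integral_congr_ae (Eventually.of_forall fun x => ?_)
      simp only [hEe, inner_sub_left]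
    have h3 : (∫ x, inner ℂ (HH S m (mo ρ u) x) (Ψ x)) +
        (lam : ℂ) * ∫ x, inner ℂ (mo ρ u x) (Ψ x) = 0 := by
      rw [← integral_const_mul, ← integral_add i1 (i3.const_mul _), ← h0 _ hui]
      refine integral_congr_ae (Eventually.of_forall fun x => ?_)
      simp only [inner_add_left, inner_smul_left, Complex.conj_ofReal]
    rw [h2]
    linear_combination h3
  rw [h1, norm_neg]
  refine (cs_inner hET.memLp hl.mem').trans ?_
  rw [← mul_assoc]
  refine mul_le_mul_of_nonneg_right ?_ (Real.sqrt_nonneg _)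
  calc Real.sqrt (∫ x, ‖E x‖ ^ 2) ≤ Real.sqrt (η ^ 2 * nsq u) := Real.sqrt_le_sqrt hEn
    _ = η * Real.sqrt (nsq u) := by
        rw [Real.sqrt_mul (sq_nonneg _), Real.sqrt_sq hη]

/-- `⟨χ²v, v⟩ = ‖χv‖²` -/
lemma inner_cut (χ : Cfg d → ℝ) (v : Cfg d → F) :
    ∫ x, inner ℂ (((χ x : ℝ) : ℂ) • ((χ x : ℝ) : ℂ) • v x) (v x) =
      ((nsq (fun x => ((χ x : ℝ) : ℂ) • v x) : ℝ) : ℂ) := by
  unfold nsq
  rw [← integral_complex_ofReal]
  refine integral_congr_ae (Eventually.of_forall fun x => ?_)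
  simp only
  have h : (inner ℂ (v x) (v x) : ℂ) = ((‖v x‖ : ℝ) : ℂ) ^ 2 := inner_self_eq_norm_sq_to_K _
  rw [inner_smul_left, inner_smul_left, Complex.conj_ofReal, h,
    norm_smul, Complex.norm_real, mul_pow, Real.norm_eq_abs, sq_abs]
  push_cast
  ring

end WSP

open WSP Vale.Agent.P353.Z.Moll Vale.Agent.P353.Z.U Vale.Agent.P353.Z.U.HB
  Vale.Agent.P353.Z.U.WS in
/-- **weak = strong**, with the identity `A7` as a hypothesis -/
theorem wsp_of [CompleteSpace F] (S : Setup d F) (h7 : A7Stmt S) : WSPStmt S := by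
  rintro P - m lam hlam Ψ ⟨w, hw, hl⟩ h0
  have hΨ : MemLp Ψ 2 (volume : Measure (Cfg d)) := hl.mem'
  have hwT : ∀ n, Setup.Tst (w n) := fun n => (hw n).1
  have hwG := wG_of_limP S hw hl
  set N : ℝ := nsq Ψ with hN
  have hN0 : 0 ≤ N := nsq_nonneg _
  set C1 : ℝ := ∑ β, S.esaC β ^ 2 with hC1
  have hC10 : 0 ≤ C1 := Finset.sum_nonneg fun β _ => sq_nonneg _
  obtain ⟨K, hK, hcut⟩ := exists_rc
  have hcut' : ∀ n : ℕ, ∃ h : ℝ → ℝ, IsRC K ((n : ℝ) + 1) h := fun n => hcut _ (by positivity)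
  choose h hh using hcut'
  have key : ∀ η : ℝ, 0 < η → ∃ u, S.InvP P u ∧ nsq (fun x => u x - Ψ x) ≤ η ∧
      S.en m u + lam * nsq u ≤ η := by
    intro η hη
    have h1 : Tendsto (fun n : ℕ => (K / ((n : ℝ) + 1)) ^ 2 * C1 * N) atTop (𝓝 0) := by
      have := (tendsto_one_div_add_atTop_nhds_zero_nat (𝕜 := ℝ)).const_mul K
      rw [mul_zero] at this
      have h2 := ((this.pow 2).mul_const C1).mul_const N
      have h3 : (0 : ℝ) ^ 2 * C1 * N = 0 := by ring
      rw [h3] at h2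
      refine h2.congr fun n => ?_
      rw [mul_one_div]
    have hη8 : 0 < η / 8 := by positivity
    obtain ⟨n, hn1, hn2⟩ := ((h1.eventually (gt_mem_nhds (half_pos hη))).and
      ((cut_tendsto hΨ hh).eventually (gt_mem_nhds hη8))).exists
    set R : ℝ := (n : ℝ) + 1 with hR
    have hR0 : 0 < R := by positivity
    set χ : Cfg d → ℝ := rad (h n) with hχ
    have hc := hh n
    have hχs : ContDiff ℝ ∞ χ := contDiff_rad hc.contDiff
    have hχc : HasCompactSupport χ := by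
      refine HasCompactSupport.intro (isCompact_closedBall (0 : Cfg d) R) fun x hx => ?_
      rw [Metric.mem_closedBall, dist_zero_right, not_le] at hx
      exact hc.zero x hx.le
    set η' : ℝ := η / (2 * (N + 1)) with hη'
    have hη'0 : 0 < η' := by positivity
    have huc := (isCompact_closedBall (0 : Cfg d) (R + 1)).uniformContinuousOn_of_continuous
      (S.esa_W_continuous m).continuousOn
    obtain ⟨δ, hδ, hδ'⟩ := Metric.uniformContinuousOn_iff.mp huc η' hη'0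
    obtain ⟨ε₀, hε₀, happ⟩ := mo_approx hΨ hη8
    set ε : ℝ := min (min δ 1) ε₀ with hε
    have hε0 : 0 < ε := lt_min (lt_min hδ one_pos) hε₀
    obtain ⟨g, hg, hmol⟩ := exists_mol hε0
    set ρ : Cfg d → ℝ := rad g with hρ
    have heven : ∀ x, ρ (-x) = ρ x := fun x => by simp [hρ, rad]
    set v : Cfg d → F := mo ρ Ψ with hv
    have hvs : ContDiff ℝ ∞ v := contDiff_mo hmol.contDiff hmol.hcs (locInt hΨ)
    obtain ⟨hvm, hvN⟩ := nsq_mo_le hmol hΨ
    have hvG : ∀ C x, S.G C v x = 0 := fun C x => G_mo_zero S hΨ hwG hg hmol.hcs C x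
    have hvJ : ∀ k l, P k l → ∀ x, S.J k l v x = 0 := fun k l hkl x =>
      J_mo_zero1 S hΨ (wJ_of_limP S hw hl hkl) hg hmol.hcs x
    set u : Cfg d → F := fun x => ((χ x : ℝ) : ℂ) • v x with hu
    have hui : S.InvP P u := InvP_rad S hc.contDiff hχc hvs hvG hvJ
    set u2 : Cfg d → F := fun x => ((χ x : ℝ) : ℂ) • u x with hu2
    have hu2i : S.InvP P u2 := InvP_rad S hc.contDiff hχc hui.1.1 hui.2.1 hui.2.2
    have hle : ∀ {a : Cfg d → F}, MemLp a 2 (volume : Measure (Cfg d)) →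
        nsq (fun x => ((χ x : ℝ) : ℂ) • a x) ≤ nsq a := by
      intro a ha
      refine integral_mono_of_nonneg (Eventually.of_forall fun x => by positivity)
        (memLp_norm_sq_int ha) (Eventually.of_forall fun x => ?_)
      simp only
      rw [norm_smul, Complex.norm_real, Real.norm_of_nonneg (hc.nonneg x), mul_pow]
      have h2 : χ x ^ 2 ≤ 1 := pow_le_one₀ (hc.nonneg x) (hc.le_one x)
      calc χ x ^ 2 * ‖a x‖ ^ 2 ≤ 1 * ‖a x‖ ^ 2 := by gcongr
        _ = _ := one_mul _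
    refine ⟨u, hui, ?_, ?_⟩
    · -- `L²` distance
      have m1 : MemLp (fun x => v x - Ψ x) 2 (volume : Measure (Cfg d)) := hvm.sub hΨ
      have m3 : MemLp (fun x => ((χ x : ℝ) : ℂ) • Ψ x) 2 (volume : Measure (Cfg d)) := by
        refine hΨ.of_le ((Complex.continuous_ofReal.comp hχs.continuous
          ).aestronglyMeasurable.smul hΨ.1) (Eventually.of_forall fun x => ?_)
        rw [norm_smul, Complex.norm_real, Real.norm_of_nonneg (hc.nonneg x)]
        exact mul_le_of_le_one_left (norm_nonneg _) (hc.le_one x)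
      have m4 : MemLp (fun x => ((χ x : ℝ) : ℂ) • v x) 2 (volume : Measure (Cfg d)) :=
        hui.1.memLp
      have m2 : MemLp (fun x => ((χ x : ℝ) : ℂ) • (v x - Ψ x)) 2
          (volume : Measure (Cfg d)) := by
        have := m4.sub m3
        refine this.ae_eq (Eventually.of_forall fun x => ?_)
        simp only [Pi.sub_apply, smul_sub]
      have e : (fun x => u x - Ψ x) = fun x => ((χ x : ℝ) : ℂ) • (v x - Ψ x) +
          (((χ x : ℝ) : ℂ) • Ψ x - Ψ x) := by
        funext x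
        rw [smul_sub]
        abel
      have h2 := nsq_add_le m2 (m3.sub hΨ)
      have h3 := hle m1
      have h4 := happ ε (min_le_right _ _) ρ hmol
      rw [e]
      have h5 : nsq (fun x => ((χ x : ℝ) : ℂ) • (v x - Ψ x) + (((χ x : ℝ) : ℂ) • Ψ x - Ψ x)) ≤
          2 * nsq (fun x => ((χ x : ℝ) : ℂ) • (v x - Ψ x)) +
          2 * nsq (fun x => ((χ x : ℝ) : ℂ) • Ψ x - Ψ x) := h2
      linarith
    · -- energy
      have hen : S.en m u = ∑ β, nsq (S.Qm m β u) := rfl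
      rw [hen, loc_energy S m hχs hχc hvs]
      have h2 : ‖(∫ x, inner ℂ (u2 x) (HH S m v x)) +
          (lam : ℂ) * ∫ x, inner ℂ (u2 x) (v x)‖ ≤
          η' * (Real.sqrt (nsq u2) * Real.sqrt (nsq Ψ)) := by
        refine err_boundP S h7 m lam hwT hl h0 hη'0.le hmol heven hu2i.1
          (InvP_mo S hg hmol.hcs hu2i) fun x t hxt ht => ?_
        have h3 : ‖x - t‖ < ε := by
          by_contra h4
          exact hxt (hmol.supp _ (not_lt.mp h4))
        have h5 : dist x t < δ := by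
          rw [dist_eq_norm]
          exact h3.trans_le ((min_le_left _ _).trans (min_le_left _ _))
        have h6 : ‖t‖ ≤ R := by
          by_contra h4
          apply ht
          have h7 : χ t = 0 := hc.zero t (not_le.mp h4).le
          simp only [hu2]
          rw [h7]
          simp
        have h7 : ‖x‖ ≤ R + 1 := by
          have h8 : ‖x - t‖ < 1 := h3.trans_le ((min_le_left _ _).trans (min_le_right _ _))
          have h9 : ‖x‖ ≤ ‖x - t‖ + ‖t‖ := by
            have := norm_add_le (x - t) t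
            simpa using this
          linarith
        have h9 := hδ' x (by simpa using h7) t (by simpa using h6.trans (by linarith)) h5
        rw [dist_eq_norm] at h9
        exact h9.le
      have h3 : nsq u2 ≤ N := (hle hui.1.memLp).trans ((hle hvm).trans hvN)
      have h4 : Real.sqrt (nsq u2) * Real.sqrt (nsq Ψ) ≤ N := by
        calc Real.sqrt (nsq u2) * Real.sqrt (nsq Ψ) ≤ Real.sqrt N * Real.sqrt N := by
              gcongr
          _ = N := Real.mul_self_sqrt hN0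
      have h5 : η' * (Real.sqrt (nsq u2) * Real.sqrt (nsq Ψ)) ≤ η / 2 := by
        calc η' * (Real.sqrt (nsq u2) * Real.sqrt (nsq Ψ)) ≤ η' * (N + 1) := by
              gcongr
              linarith
          _ = η / 2 := by rw [hη']; field_simp
      have h6 : ∑ β, ∫ x, ‖S.esaD χ β x (v x)‖ ^ 2 ≤ (K / R) ^ 2 * C1 * N := by
        have h3 : ∀ β, ∫ x, ‖S.esaD χ β x (v x)‖ ^ 2 ≤ (K / R * S.esaC β) ^ 2 * N := by
          intro β
          refine (nsq_op_le (fun x => D_norm S (fun j B x => hc.grad j B x) β x) hvm).trans ?_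
          exact mul_le_mul_of_nonneg_left hvN (sq_nonneg _)
        refine (Finset.sum_le_sum fun β _ => h3 β).trans (le_of_eq ?_)
        rw [hC1, Finset.mul_sum, Finset.sum_mul]
        refine Finset.sum_congr rfl fun β _ => ?_
        ring
      have h7 := (Complex.re_le_norm ((∫ x, inner ℂ (u2 x) (HH S m v x)) +
          (lam : ℂ) * ∫ x, inner ℂ (u2 x) (v x))).trans (h2.trans h5)
      have h8 : ∫ x, inner ℂ (u2 x) (v x) = ((nsq u : ℝ) : ℂ) := inner_cut χ v
      rw [h8, Complex.add_re, ← Complex.ofReal_mul, Complex.ofReal_re] at h7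
      change (∫ x, inner ℂ (u2 x) (HH S m v x)).re + _ + _ ≤ η
      linarith
  have hpos : ∀ n : ℕ, (0 : ℝ) < 1 / ((n : ℝ) + 1) := fun n => by positivity
  choose u hu1 hu2 hu3 using fun n : ℕ => key _ (hpos n)
  have ht := tendsto_one_div_add_atTop_nhds_zero_nat (𝕜 := ℝ)
  refine ⟨u, hu1, ⟨fun n => (hu1 n).1.memLp, hΨ, ?_⟩, ?_⟩
  · exact squeeze_zero (fun n => nsq_nonneg _) hu2 ht
  · refine squeeze_zero (fun n => add_nonneg ?_ (mul_nonneg hlam (nsq_nonneg _))) hu3 ht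
    exact Finset.sum_nonneg fun β _ => nsq_nonneg _

/-- **H6** weak = strong, general form -/
theorem wsp [CompleteSpace F] (S : Setup d F) : WSPStmt S :=
  wsp_of S (U.a7 S (U.a1 S (U.a1a S) (U.a1b S (U.fbmn S (U.f10 S)))))

end Vale.Agent.P353.Z.AH
end

section

/-! # P353, all `N`, block H: theorem S6 for weak profile systems (helper973) -/

open MeasureTheory Filter Topology
open scoped ContDiff ComplexConjugate

namespace Vale.Agent.P353.Z.AJ

open AH

variable {d : ℕ} {F : Type*} [NormedAddCommGroup F] [InnerProductSpace ℂ F]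
variable {S : Setup d F} {ι : Type} (P : PW S ι)

/-- no profiles -/
lemma no_profW (hE : P.LimEq) (α : ∀ i, P.D i) (hα : ∀ i, ‖(α i : P.H i) - P.g i‖ ≤ 1 / 4)
    {R : ℕ → ℝ} (hR : ∀ k : ℕ, (k : ℝ) + 1 ≤ R k)
    {u : ℕ → Cfg d → F} (hu : ∀ k, S.GInv (u k)) (hn : ∀ k, nsq (u k) = 1)
    (he : ∀ k, R k ^ 2 * S.en ((R k)⁻¹ ^ 2) (u k) ≤ 1 / ((k : ℝ) + 1))
    (ho : ∀ k i, inner ℂ (Zv P i (R k) (α i)) (U.HB.toL (hu k).1) = 0) :
    Prof.Bdd S R u 1 ∧ ∀ i (a : P.D i), Tendsto (fun n => ipr (P.Z i (R n) a) (u n)) atTop (𝓝 0) := by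
  have hRlim : Tendsto R atTop atTop :=
    tendsto_atTop_mono hR (tendsto_atTop_add_const_right _ _ tendsto_natCast_atTop_atTop)
  have hB : Prof.Bdd S R u 1 := by
    refine ⟨hRlim, hu, fun n => (hn n).le, fun n => (he n).trans ?_⟩
    rw [div_le_one (by positivity)]
    linarith [Nat.cast_nonneg (α := ℝ) n]
  refine ⟨hB, fun i a => ?_⟩
  rw [tendsto_iff_ultrafilter]
  intro V hV
  obtain ⟨C, hC, hub⟩ := P.ub i
  obtain ⟨C', hC', hub'⟩ := ub' P i
  have hBL : BdL S R u 1 := ⟨hRlim, hu, fun n => (hn n).le⟩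
  obtain ⟨W, hW⟩ := profileW (z := fun n b => ipr (P.Z i (R n) b) (u n)) hC
    (fun c b b' => P.Z_lin i b b' c R u 1 hBL)
    (fun b ε hε => by simpa using hub b R u 1 hBL ε hε) V hV
  -- zero mode equation
  have h1 : ∀ β (b : P.D i), inner ℂ (P.Ds i β b : P.H i) W = 0 := by
    intro β b
    have h2 := (hE R u 1 hB i β b).mono_left hV
    have h3 : Tendsto (fun n => (R n : ℂ) * ipr (P.Z i (R n) b) (S.Qm ((R n)⁻¹ ^ 2) β (u n))) V (𝓝 0) := by
      have h4 : Tendsto (fun n : ℕ => (C' * ‖(b : P.H i)‖ + 1) * Real.sqrt (1 / ((n : ℝ) + 1))) atTop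
          (𝓝 ((C' * ‖(b : P.H i)‖ + 1) * Real.sqrt 0)) :=
        ((Real.continuous_sqrt.tendsto _).comp tendsto_one_div_add_atTop_nhds_zero_nat).const_mul _
      rw [Real.sqrt_zero, mul_zero] at h4
      refine squeeze_zero_norm' ?_ (h4.mono_left hV)
      filter_upwards [hV (hRlim.eventually (hub' b 1 one_pos))] with n hn'
      have hQ := GInv_Qm ((R n)⁻¹ ^ 2) β (hu n)
      rw [← ipr_csmul]
      refine (hn' _ (GInv_csmul _ hQ)).trans ?_
      refine mul_le_mul_of_nonneg_left (Real.sqrt_le_sqrt ?_) (by positivity)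
      rw [nsq_csmul, Complex.norm_real, Real.norm_eq_abs, sq_abs]
      refine le_trans ?_ (he n)
      have : nsq (S.Qm ((R n)⁻¹ ^ 2) β (u n)) ≤ S.en ((R n)⁻¹ ^ 2) (u n) :=
        Finset.single_le_sum (f := fun β => nsq (S.Qm ((R n)⁻¹ ^ 2) β (u n)))
          (fun β _ => nsq_nonneg _) (Finset.mem_univ β)
      gcongr
    have h6 := tendsto_nhds_unique h2 (h3.sub (hW (P.Ds i β b)))
    rw [zero_sub] at h6
    exact neg_eq_zero.mp h6.symm
  obtain ⟨c, hc⟩ := P.ker i W h1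
  -- orthogonality
  have h3 : inner ℂ (α i : P.H i) W = 0 := by
    refine tendsto_nhds_unique (hW (α i)) ?_
    refine tendsto_const_nhds.congr' ?_
    filter_upwards [hV (hRlim.eventually (Zv_inner P (α i)))] with n hn'
    rw [← hn' _ (hu n).1, ho n i]
  have hc0 : c = 0 := by
    rw [hc, inner_smul_right, mul_eq_zero] at h3
    refine h3.resolve_right fun h4 => ?_
    have h5 : (inner ℂ ((α i : P.H i) - P.g i) (P.g i) : ℂ) = -1 := by
      rw [inner_sub_left, h4, inner_self_eq_norm_sq_to_K, P.g_norm i]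
      simp
    have h6 := norm_inner_le_norm (𝕜 := ℂ) ((α i : P.H i) - P.g i) (P.g i)
    rw [h5, P.g_norm i, mul_one, norm_neg, norm_one] at h6
    linarith [hα i]
  have hW0 : W = 0 := by rw [hc, hc0, zero_smul]
  have h4 := hW a
  rw [hW0, inner_zero_right] at h4
  exact h4

/-- local limits vanish if there is no zero mode -/
lemma no_local [CompleteSpace F] (hloc : LocStmt S)
    (hz : ∀ Ψ : Lp F 2 (volume : Measure (Cfg d)), S.IsZM Ψ → Ψ = 0) {R : ℕ → ℝ} {u : ℕ → Cfg d → F}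
    (hR : ∀ k : ℕ, (k : ℝ) + 1 ≤ R k) (hRlim : Tendsto R atTop atTop) (hu : ∀ k, S.Inv (u k))
    (hn : ∀ k, nsq (u k) = 1) (he' : ∀ k, R k ^ 2 * S.en ((R k)⁻¹ ^ 2) (u k) ≤ 1 / ((k : ℝ) + 1)) :
    ∀ ζ : Cfg d → F, Setup.Tst ζ → Tendsto (fun n => ipr ζ (u n)) atTop (𝓝 0) := by
  intro ζ hζ
  rw [tendsto_iff_ultrafilter]
  intro V hV
  have hnorm : ∀ n, ‖U.HB.toL (hu n).1‖ ≤ 1 := by
    intro n
    have := toL_norm (hu n).1
    rw [hn n] at this
    nlinarith [norm_nonneg (U.HB.toL (hu n).1)]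
  obtain ⟨Ψ, -, hΨ⟩ := profile (H := Lp F 2 (volume : Measure (Cfg d))) (D := ⊤)
    (J := fun _ a => (a : Lp F 2 (volume : Measure (Cfg d)))) (fun a b => tendsto_const_nhds) V hV
    zero_le_one hnorm
  have hΨ' : ∀ ξ : Cfg d → F, Setup.Tst ξ →
      Tendsto (fun n => ipr ξ (u n)) V (𝓝 (∫ x, inner ℂ (ξ x) (Ψ x))) := by
    intro ξ hξ
    have h1 := hΨ ⟨U.HB.toL hξ, Submodule.mem_top⟩
    have h2 : inner ℂ (U.HB.toL hξ) Ψ = ∫ x, inner ℂ (ξ x) (Ψ x) :=
      U.HB.inner_Lp (U.HB.coe_toL hξ) (Filter.EventuallyEq.refl _ _)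
    simp only at h1
    rw [h2] at h1
    refine h1.congr fun n => ?_
    exact toL_inner hξ (hu n).1
  have hm : Tendsto (fun n => (R n)⁻¹ ^ 2) atTop (𝓝 0) := by
    have := (tendsto_inv_atTop_zero.comp hRlim).pow 2
    simpa using this
  have hen : Tendsto (fun n => S.en ((R n)⁻¹ ^ 2) (u n)) atTop (𝓝 0) := by
    refine squeeze_zero (fun n => en_nonneg _ _) (fun n => ?_) tendsto_one_div_add_atTop_nhds_zero_nat
    have h1 := he' n
    have h2 : 1 ≤ R n := by
      have := hR n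
      have h0 : (0 : ℝ) ≤ n := Nat.cast_nonneg n
      linarith
    have h3 := en_nonneg (S := S) ((R n)⁻¹ ^ 2) (u n)
    have h4 : 1 ≤ R n ^ 2 := one_le_pow₀ h2
    calc S.en ((R n)⁻¹ ^ 2) (u n) = 1 * S.en ((R n)⁻¹ ^ 2) (u n) := (one_mul _).symm
      _ ≤ R n ^ 2 * S.en ((R n)⁻¹ ^ 2) (u n) := mul_le_mul_of_nonneg_right h4 h3
      _ ≤ _ := h1
  have hzm := hloc V (fun n => (R n)⁻¹ ^ 2) u 1 Ψ (hm.mono_left hV) hu (fun n => (hn n).le)
    (hen.mono_left hV) hΨ'
  have h0 := hz Ψ hzm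
  have h1 := hΨ' ζ hζ
  have h2 : ∫ x, inner ℂ (ζ x) (Ψ x) = 0 := by
    rw [h0]
    have h3 : ∫ x, inner ℂ (ζ x) ((0 : Lp F 2 (volume : Measure (Cfg d))) x) = ∫ _ : Cfg d, (0 : ℂ) := by
      refine integral_congr_ae ?_
      filter_upwards [Lp.coeFn_zero F 2 (volume : Measure (Cfg d))] with x hx
      rw [hx]
      exact inner_zero_right _
    rw [h3, integral_zero]
  rw [h2] at h1
  exact h1

/-- **S6** for weak profile systems -/
theorem s6W [CompleteSpace F] [Fintype ι] (hloc : LocStmt S) : AJ.S6Stmt S P := by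
  classical
  intro hE hNL hL
  by_contra hcon
  have hz : ∀ Ψ : Lp F 2 (volume : Measure (Cfg d)), S.IsZM Ψ → Ψ = 0 := by
    intro Ψ hΨ
    by_contra h
    exact hcon ⟨Ψ, hΨ, h⟩
  choose α hα _ using fun i => P.app i (1 / 4) (by norm_num)
  set R : ℕ → ℝ := fun k => (k : ℝ) + 1 with hRdef
  have hR : ∀ k : ℕ, (k : ℝ) + 1 ≤ R k := fun k => le_rfl
  have hR0 : ∀ k, 0 < R k := fun k => by positivity
  have hv := fun k => vec hL (fun i => Zv P i (R k) (α i)) (m := (R k)⁻¹ ^ 2)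
    (c := (R k)⁻¹ ^ 2 * (1 / ((k : ℝ) + 1))) (by have := hR0 k; positivity) (by have := hR0 k; positivity)
  choose u hu hn he ho using hv
  have he' : ∀ k, R k ^ 2 * S.en ((R k)⁻¹ ^ 2) (u k) ≤ 1 / ((k : ℝ) + 1) := by
    intro k
    have h1 := he k
    have h2 := hR0 k
    calc R k ^ 2 * S.en ((R k)⁻¹ ^ 2) (u k) ≤ R k ^ 2 * ((R k)⁻¹ ^ 2 * (1 / ((k : ℝ) + 1))) := by gcongr
      _ = 1 / ((k : ℝ) + 1) := by field_simp
  obtain ⟨hB, hprof⟩ := no_profW P hE α hα hR (fun k => Inv_GInv (hu k)) hn he' ho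
  have hlocal := no_local hloc hz hR hB.R_lim hu hn he'
  have h1 := hNL R u 1 hB hprof hlocal
  have h2 : Tendsto (fun n => nsq (u n)) atTop (𝓝 1) := by
    simp only [hn]
    exact tendsto_const_nhds
  exact zero_ne_one (tendsto_nhds_unique h1 h2)

end Vale.Agent.P353.Z.AJ
end

section

/-! # P353, all `N`, block H: theorem S7 for weak profile systems (helper973) -/

open MeasureTheory Filter Topology
open scoped ContDiff ComplexConjugate

namespace Vale.Agent.P353.Z.AJ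

open AH

section abs

variable {L : Type*} [NormedAddCommGroup L] [InnerProductSpace ℂ L] {K : Type*} [Fintype K]

/-- lower bound for Gram matrices close to positive ones -/
lemma gram_lowerW {α : Type*} {f : Filter α} (y : α → K → L) (G : α → K → K → ℂ)
    (hG : ∀ k l, Tendsto (fun n => inner ℂ (y n k) (y n l) - G n k l) f (𝓝 0)) {κ : ℝ} (hκ : 0 < κ)
    (hpos : ∀ᶠ n in f, ∀ c : K → ℂ, κ * ∑ k, ‖c k‖ ^ 2 ≤ (∑ k, ∑ l, c l * (conj (c k) * G n k l)).re) :
    ∀ᶠ n in f, ∀ c : K → ℂ, κ / 2 * ∑ k, ‖c k‖ ^ 2 ≤ ‖∑ k, c k • y n k‖ ^ 2 := by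
  set θ : ℝ := κ / (2 * (Fintype.card K + 1)) with hθ
  have hθ0 : 0 < θ := by positivity
  have hθ1 : θ * Fintype.card K ≤ κ / 2 := by
    rw [hθ]
    have h1 : (0 : ℝ) ≤ Fintype.card K := Nat.cast_nonneg _
    rw [div_mul_eq_mul_div, div_le_div_iff₀ (by positivity) (by norm_num)]
    nlinarith
  have hev : ∀ᶠ n in f, ∀ k l, ‖inner ℂ (y n k) (y n l) - G n k l‖ < θ := by
    rw [eventually_all]
    intro k
    rw [eventually_all]
    intro l
    have h := (hG k l).norm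
    rw [norm_zero] at h
    exact h.eventually_lt_const hθ0
  filter_upwards [hev, hpos] with n hn hp c
  rw [norm_sum_sq]
  have h1 : (∑ k, ∑ l, c l * (conj (c k) * inner ℂ (y n k) (y n l))) =
      (∑ k, ∑ l, c l * (conj (c k) * G n k l)) +
        ∑ k, ∑ l, c l * (conj (c k) * (inner ℂ (y n k) (y n l) - G n k l)) := by
    rw [← Finset.sum_add_distrib]
    refine Finset.sum_congr rfl fun k _ => ?_
    rw [← Finset.sum_add_distrib]
    refine Finset.sum_congr rfl fun l _ => ?_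
    ring
  have h2 : ‖∑ k, ∑ l, c l * (conj (c k) * (inner ℂ (y n k) (y n l) - G n k l))‖ ≤
      κ / 2 * ∑ k, ‖c k‖ ^ 2 := by
    calc ‖∑ k, ∑ l, c l * (conj (c k) * (inner ℂ (y n k) (y n l) - G n k l))‖
        ≤ ∑ k, ∑ l, ‖c k‖ * ‖c l‖ * θ := by
          refine (norm_sum_le _ _).trans (Finset.sum_le_sum fun k _ => ?_)
          refine (norm_sum_le _ _).trans (Finset.sum_le_sum fun l _ => ?_)
          rw [norm_mul, norm_mul, RCLike.norm_conj]
          have := (hn k l).le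
          calc ‖c l‖ * (‖c k‖ * ‖inner ℂ (y n k) (y n l) - G n k l‖) ≤ ‖c l‖ * (‖c k‖ * θ) := by gcongr
            _ = _ := by ring
      _ = (∑ k, ‖c k‖) ^ 2 * θ := by
          rw [sq, Finset.sum_mul_sum, Finset.sum_mul]
          refine Finset.sum_congr rfl fun k _ => ?_
          rw [Finset.sum_mul]
      _ ≤ (Fintype.card K * ∑ k, ‖c k‖ ^ 2) * θ := by
          gcongr
          exact sum_norm_sq_le c
      _ = (θ * Fintype.card K) * ∑ k, ‖c k‖ ^ 2 := by ring
      _ ≤ _ := by gcongr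
  rw [h1, Complex.add_re]
  have h3 := hp c
  have h4 := (abs_le.mp (Complex.abs_re_le_norm (∑ k, ∑ l, c l * (conj (c k) *
    (inner ℂ (y n k) (y n l) - G n k l))))).1
  linarith

end abs

variable {d : ℕ} {F : Type*} [NormedAddCommGroup F] [InnerProductSpace ℂ F]
variable {S : Setup d F} {ι : Type} (P : PW S ι)

/-- torus invariant low vectors close to the trial functions -/
lemma trialW (hE : P.LimEq) (hQQ : QQStmt S) (hD : DenseStmt S) (hJ : JbdStmt S)
    (hA : ∃ C : ℝ, 0 ≤ C ∧ ∀ u : Cfg d → F, S.GInv u →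
      ∃ v : Cfg d → F, S.InvP plT v ∧ (∀ m, S.en m v ≤ S.en m u) ∧
      nsq (fun x => u x - v x) ≤ C * (nsq (S.J 1 2 u) + nsq (S.J 3 4 u) + nsq (S.J 5 6 u) + nsq (S.J 7 8 u)))
    {J : ∀ i, P.D i → ℝ → ℝ → Cfg d → F} (hRep : P.Rep J) (i : ι) :
    ∃ c₀ M₀ : ℝ, 0 < c₀ ∧ 0 ≤ M₀ ∧ ∀ η : ℝ, 0 < η → ∃ (a : P.D i) (ε : ℝ), 0 < ε ∧
      ∀ᶠ R : ℝ in atTop, S.GInv (J i a ε R) ∧ c₀ ≤ nsq (J i a ε R) ∧ nsq (J i a ε R) ≤ M₀ ∧
      ∃ v : Cfg d → F, S.InvP plT v ∧
      nsq (fun x => v x - J i a ε R x) ≤ η ∧ R ^ 2 * S.en (R⁻¹ ^ 2) v ≤ η := by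
  obtain ⟨CA, hCA, hA⟩ := hA
  obtain ⟨CJ, hCJ, hJ⟩ := hJ
  obtain ⟨c₀, M₀, hc₀, hM₀, hcore⟩ := coreW P hE hQQ hD hRep i
  refine ⟨c₀, M₀, hc₀, hM₀, fun η hη => ?_⟩
  set η' : ℝ := η / (16 * CA * CJ + 2) with hη'
  have hη'0 : 0 < η' := by positivity
  have hη'1 : η' ≤ η := by
    rw [hη']
    refine div_le_self hη.le ?_
    have : 0 ≤ CA * CJ := mul_nonneg hCA hCJ
    linarith
  obtain ⟨a, ε, hε, hev⟩ := hcore η' hη'0
  refine ⟨a, ε, hε, ?_⟩
  filter_upwards [hev, eventually_ge_atTop (1 : ℝ)] with R ⟨hf, hf1, hf2, w, hw, h1, h2, h3⟩ hR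
  refine ⟨hf, hf1, hf2, ?_⟩
  have hR0 : 0 < R := by linarith
  obtain ⟨v, hv, hv2, hv3⟩ := hA w hw
  have hm : (0 : ℝ) < R⁻¹ ^ 2 := by positivity
  have hJ' : ∀ k l, Same k l → nsq (S.J k l w) ≤ 2 * CJ * η' := by
    intro k l hkl
    have h4 := hJ (R⁻¹ ^ 2) hm w hw k l hkl
    have h5 : nsq (S.J k l w) = R ^ 4 * ((R⁻¹ ^ 2) ^ 2 * nsq (S.J k l w)) := by
      field_simp
    rw [h5]
    calc R ^ 4 * ((R⁻¹ ^ 2) ^ 2 * nsq (S.J k l w))
        ≤ R ^ 4 * (CJ * (nsq (U.HB.HH S (R⁻¹ ^ 2) w) + R⁻¹ ^ 2 * S.en (R⁻¹ ^ 2) w)) := by gcongr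
      _ = CJ * (R ^ 4 * nsq (U.HB.HH S (R⁻¹ ^ 2) w) + R ^ 2 * S.en (R⁻¹ ^ 2) w) := by
          field_simp
      _ ≤ CJ * (η' + η') := by gcongr
      _ = _ := by ring
  refine ⟨v, hv, ?_, ?_⟩
  · have h6 := nsq_tri hv.1 hw.1 hf.1
    have h7 : nsq (fun x => v x - w x) = nsq (fun x => w x - v x) := by
      unfold nsq
      simp only [norm_sub_rev]
    rw [h7] at h6
    have h8 : nsq (fun x => w x - v x) ≤ CA * (4 * (2 * CJ * η')) := by
      refine hv3.trans (mul_le_mul_of_nonneg_left ?_ hCA)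
      have e1 := hJ' 1 2 ⟨by decide, by decide⟩
      have e2 := hJ' 3 4 ⟨by decide, by decide⟩
      have e3 := hJ' 5 6 ⟨by decide, by decide⟩
      have e4 := hJ' 7 8 ⟨by decide, by decide⟩
      linarith
    have h9 : (16 * CA * CJ + 2) * η' = η := by
      rw [hη']
      field_simp
    nlinarith
  · have h6 := hv2 (R⁻¹ ^ 2)
    calc R ^ 2 * S.en (R⁻¹ ^ 2) v ≤ R ^ 2 * S.en (R⁻¹ ^ 2) w := by gcongr
      _ ≤ η' := h2
      _ ≤ η := hη'1

open Classical in
/-- a gauge invariant test function as an `L²` vector -/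
noncomputable def Gv (S : Setup d F) (u : Cfg d → F) : Lp F 2 (volume : Measure (Cfg d)) :=
  if h : S.GInv u then U.HB.toL h.1 else 0

lemma Gv_of {u : Cfg d → F} (h : S.GInv u) : Gv S u = U.HB.toL h.1 := by
  unfold Gv
  rw [dif_pos h]

/-- trial functions are asymptotically orthogonal to zero modes -/
lemma mixedW (hK : KerCutStmt S) {f : ℝ → Cfg d → F} {M₀ : ℝ} (hM₀ : 0 ≤ M₀)
    (hf : ∀ᶠ R in atTop, S.GInv (f R) ∧ nsq (f R) ≤ M₀)
    (hs : ∃ c : ℝ, 0 < c ∧ ∀ᶠ R in atTop, ∀ x : Cfg d, ‖x‖ ≤ c * R → f R x = 0)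
    {Ψ : Lp F 2 (volume : Measure (Cfg d))} (hΨ : S.IsZM Ψ) :
    Tendsto (fun R => inner ℂ Ψ (Gv S (f R))) atTop (𝓝 0) := by
  rw [Metric.tendsto_nhds]
  intro ε hε
  set δ : ℝ := (ε / (2 * (Real.sqrt M₀ + 1))) ^ 2 with hδ
  have hδ0 : 0 < δ := by positivity
  obtain ⟨R₁, hR₁⟩ := (hK Ψ hΨ δ hδ0).exists
  obtain ⟨u, hu, hu1, -⟩ := hR₁
  obtain ⟨c, hc, hsupp⟩ := hs
  obtain ⟨r, hr⟩ := hu.1.2.isBounded.subset_closedBall 0
  filter_upwards [hsupp, hf, eventually_ge_atTop (r / c)] with R h1 ⟨h2, h3⟩ h4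
  rw [dist_zero_right]
  have h5 : inner ℂ (U.HB.toL hu.1) (Gv S (f R)) = 0 := by
    rw [Gv_of h2, toL_inner]
    unfold ipr
    rw [← integral_zero (Cfg d) ℂ]
    refine integral_congr_ae (Eventually.of_forall fun x => ?_)
    by_cases hx : x ∈ tsupport u
    · have h6 : ‖x‖ ≤ r := by simpa using hr hx
      have h7 : ‖x‖ ≤ c * R := by
        rw [div_le_iff₀ hc] at h4
        linarith
      simp only
      rw [h1 x h7, inner_zero_right]
    · simp only
      rw [image_eq_zero_of_notMem_tsupport hx, inner_zero_left]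
  have h6 : inner ℂ Ψ (Gv S (f R)) = inner ℂ (Ψ - U.HB.toL hu.1) (Gv S (f R)) := by
    rw [inner_sub_left, h5, sub_zero]
  have h7 : ‖Ψ - U.HB.toL hu.1‖ ^ 2 ≤ δ := by
    rw [norm_sub_rev]
    have h8 : U.HB.toL hu.1 - Ψ =ᵐ[volume] fun x => u x - Ψ x := by
      filter_upwards [Lp.coeFn_sub (U.HB.toL hu.1) Ψ, U.HB.coe_toL hu.1] with x h1 h2
      rw [h1, Pi.sub_apply, h2]
    rw [U.HB.norm_Lp h8]
    exact hu1
  have h8 : ‖Ψ - U.HB.toL hu.1‖ ≤ ε / (2 * (Real.sqrt M₀ + 1)) :=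
    abs_le_of_sq_le_sq' h7 (by positivity) |>.2
  have h9 : ‖Gv S (f R)‖ ≤ Real.sqrt M₀ + 1 := by
    have h10 : ‖Gv S (f R)‖ ≤ Real.sqrt M₀ := by
      rw [Gv_of h2]
      refine Real.le_sqrt_of_sq_le ?_
      rw [toL_norm]
      exact h3
    linarith
  rw [h6]
  calc ‖inner ℂ (Ψ - U.HB.toL hu.1) (Gv S (f R))‖ ≤ ‖Ψ - U.HB.toL hu.1‖ * ‖Gv S (f R)‖ :=
        norm_inner_le_norm _ _
    _ ≤ ε / (2 * (Real.sqrt M₀ + 1)) * (Real.sqrt M₀ + 1) := by gcongr
    _ = ε / 2 := by field_simp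
    _ < ε := by linarith

/-- positivity of the limiting Gram matrix -/
lemma pos_gram {b : ℕ} [Fintype ι] [DecidableEq ι] {Ψ : Fin b → Lp F 2 (volume : Measure (Cfg d))}
    {κ κ₁ : ℝ} (hκ1 : κ ≤ κ₁)
    (hlow : ∀ c : Fin b → ℂ, κ₁ * ∑ k, ‖c k‖ ^ 2 ≤ ‖∑ k, c k • Ψ k‖ ^ 2) (n : ι → ℝ) (hn : ∀ i, κ ≤ n i)
    (G : Fin b ⊕ ι → Fin b ⊕ ι → ℂ) (hG1 : ∀ j j', G (Sum.inl j) (Sum.inl j') = inner ℂ (Ψ j) (Ψ j'))
    (hG2 : ∀ i i', G (Sum.inr i) (Sum.inr i') = if i = i' then ((n i : ℝ) : ℂ) else 0)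
    (hG3 : ∀ j i, G (Sum.inl j) (Sum.inr i) = 0) (hG4 : ∀ j i, G (Sum.inr i) (Sum.inl j) = 0)
    (c : Fin b ⊕ ι → ℂ) :
    κ * ∑ k, ‖c k‖ ^ 2 ≤ (∑ k, ∑ l, c l * (conj (c k) * G k l)).re := by
  have e1 : (∑ k, ∑ l, c l * (conj (c k) * G k l)) =
      (∑ j, ∑ j', c (Sum.inl j') * (conj (c (Sum.inl j)) * inner ℂ (Ψ j) (Ψ j'))) +
        ∑ i, ((‖c (Sum.inr i)‖ ^ 2 * n i : ℝ) : ℂ) := by
    rw [Fintype.sum_sum_type]
    congr 1
    · refine Finset.sum_congr rfl fun j _ => ?_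
      rw [Fintype.sum_sum_type]
      simp [hG1, hG3]
    · refine Finset.sum_congr rfl fun i _ => ?_
      rw [Fintype.sum_sum_type]
      simp only [hG2, hG4, mul_zero, Finset.sum_const_zero, zero_add, mul_ite, Finset.sum_ite_eq,
        Finset.mem_univ, if_true]
      rw [← mul_assoc, Complex.mul_conj, Complex.normSq_eq_norm_sq]
      push_cast
      ring
  rw [e1, Complex.add_re, ← norm_sum_sq, ← Complex.ofReal_sum, Complex.ofReal_re, Fintype.sum_sum_type, mul_add]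
  refine add_le_add ?_ ?_
  · refine le_trans ?_ (hlow fun j => c (Sum.inl j))
    exact mul_le_mul_of_nonneg_right hκ1 (Finset.sum_nonneg fun k _ => by positivity)
  · rw [Finset.mul_sum]
    refine Finset.sum_le_sum fun i _ => ?_
    have h1 := hn i
    have h2 : (0 : ℝ) ≤ ‖c (Sum.inr i)‖ ^ 2 := by positivity
    nlinarith

theorem s7W [Fintype ι] (hQQ : QQStmt S) (hD : DenseStmt S) (hJ : JbdStmt S)
    (hA : ∃ C : ℝ, 0 ≤ C ∧ ∀ u : Cfg d → F, S.GInv u →
      ∃ v : Cfg d → F, S.InvP plT v ∧ (∀ m, S.en m v ≤ S.en m u) ∧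
      nsq (fun x => u x - v x) ≤ C * (nsq (S.J 1 2 u) + nsq (S.J 3 4 u) + nsq (S.J 5 6 u) + nsq (S.J 7 8 u)))
    (hK : KerCutStmt S) : AJ.S7Stmt S P := by
  classical
  rintro hE ⟨J, hRep⟩ b Ψ hΨ hli
  obtain ⟨κ₁, hκ₁, hlow⟩ := indep_lower hli
  choose c₀ M₀ hc₀ hM₀ htr using fun i => trialW P hE hQQ hD hJ hA hRep i
  obtain ⟨κ₂, hκ₂, hκ₂c⟩ : ∃ κ₂ : ℝ, 0 < κ₂ ∧ ∀ i, κ₂ ≤ c₀ i := by
    rcases isEmpty_or_nonempty ι with h | h
    · exact ⟨1, one_pos, fun i => (IsEmpty.false i).elim⟩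
    · obtain ⟨i₀, hi₀⟩ := Finite.exists_min c₀
      exact ⟨c₀ i₀, hc₀ i₀, hi₀⟩
  set κ : ℝ := min κ₁ κ₂ with hκ
  have hκ0 : 0 < κ := lt_min hκ₁ hκ₂
  have hκ1 : κ ≤ κ₁ := min_le_left _ _
  have hκ4 : κ ≤ κ₂ := min_le_right _ _
  set K := Fin b ⊕ ι with hKdef
  set N : ℝ := (Fintype.card K : ℝ) with hN
  have hN0 : 0 ≤ N := Nat.cast_nonneg _
  set η : ℝ := min (1 / 2) (κ / (8 * (N + 1))) with hη
  have hη0 : 0 < η := lt_min (by norm_num) (by positivity)
  have hη2 : η * N ≤ κ / 8 := by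
    have h1 : η ≤ κ / (8 * (N + 1)) := min_le_right _ _
    rw [le_div_iff₀ (by positivity)] at h1
    nlinarith
  choose a ε hε hev using fun i => htr i η hη0
  have hev1 : ∀ i, ∀ᶠ R in atTop, S.GInv (J i (a i) (ε i) R) ∧ nsq (J i (a i) (ε i) R) ≤ M₀ i :=
    fun i => (hev i).mono fun R h => ⟨h.1, h.2.2.1⟩
  have hall : ∀ᶠ R : ℝ in atTop, ∀ i, S.GInv (J i (a i) (ε i) R) ∧ c₀ i ≤ nsq (J i (a i) (ε i) R) ∧
      nsq (J i (a i) (ε i) R) ≤ M₀ i ∧ ∃ v : Cfg d → F, S.InvP plT v ∧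
      nsq (fun x => v x - J i (a i) (ε i) R x) ≤ η ∧ R ^ 2 * S.en (R⁻¹ ^ 2) v ≤ η := by
    rw [eventually_all]
    exact hev
  -- ideal vectors and their Gram matrix
  set y : ℝ → K → Lp F 2 (volume : Measure (Cfg d)) :=
    fun R k => Sum.elim Ψ (fun i => Gv S (J i (a i) (ε i) R)) k with hy
  set G : ℝ → K → K → ℂ := fun R k l => match k, l with
    | Sum.inl j, Sum.inl j' => inner ℂ (Ψ j) (Ψ j')
    | Sum.inr i, Sum.inr i' => if i = i' then ((nsq (J i (a i) (ε i) R) : ℝ) : ℂ) else 0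
    | _, _ => 0 with hG
  have hGlim : ∀ k l, Tendsto (fun R => inner ℂ (y R k) (y R l) - G R k l) atTop (𝓝 0) := by
    rintro (j | i) (j' | i')
    · have h1 : ∀ R, inner ℂ (y R (Sum.inl j)) (y R (Sum.inl j')) - G R (Sum.inl j) (Sum.inl j') = 0 := by
        intro R
        simp [hy, hG]
      simp only [h1]
      exact tendsto_const_nhds
    · have h1 : ∀ R, inner ℂ (y R (Sum.inl j)) (y R (Sum.inr i')) - G R (Sum.inl j) (Sum.inr i') =
          inner ℂ (Ψ j) (Gv S (J i' (a i') (ε i') R)) := by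
        intro R
        simp [hy, hG]
      simp only [h1]
      exact mixedW hK (hM₀ i') (hev1 i') (hRep.supp i' (a i') (ε i') (hε i')) (hΨ j)
    · have h1 : ∀ R, inner ℂ (y R (Sum.inr i)) (y R (Sum.inl j')) - G R (Sum.inr i) (Sum.inl j') =
          conj (inner ℂ (Ψ j') (Gv S (J i (a i) (ε i) R))) := by
        intro R
        simp [hy, hG, inner_conj_symm]
      simp only [h1]
      have h2 := (Complex.continuous_conj.tendsto _).comp
        (mixedW hK (hM₀ i) (hev1 i) (hRep.supp i (a i) (ε i) (hε i)) (hΨ j'))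
      rw [map_zero] at h2
      exact h2
    · refine tendsto_const_nhds.congr' ?_
      by_cases hii : i = i'
      · subst hii
        filter_upwards [hev1 i] with R hR
        have h1 : inner ℂ (y R (Sum.inr i)) (y R (Sum.inr i)) = ((nsq (J i (a i) (ε i) R) : ℝ) : ℂ) := by
          change inner ℂ (Gv S (J i (a i) (ε i) R)) (Gv S (J i (a i) (ε i) R)) = _
          rw [Gv_of hR.1, toL_inner, ipr_self]
        have h3 : G R (Sum.inr i) (Sum.inr i) = ((nsq (J i (a i) (ε i) R) : ℝ) : ℂ) := by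
          simp only [hG, if_true]
        rw [h1, h3, sub_self]
      · filter_upwards [hev1 i, hev1 i', hRep.disj i i' hii (a i) (a i') (ε i) (ε i') (hε i) (hε i')] with R hR hR' hd
        have h1 : inner ℂ (y R (Sum.inr i)) (y R (Sum.inr i')) = (0 : ℂ) := by
          change inner ℂ (Gv S (J i (a i) (ε i) R)) (Gv S (J i' (a i') (ε i') R)) = _
          rw [Gv_of hR.1, Gv_of hR'.1, toL_inner]
          unfold ipr
          rw [← integral_zero (Cfg d) ℂ]
          refine integral_congr_ae (Eventually.of_forall fun x => ?_)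
          rcases hd x with h | h
          · simp only [h, inner_zero_left]
          · simp only [h, inner_zero_right]
        have h3 : G R (Sum.inr i) (Sum.inr i') = 0 := by simp only [hG, if_neg hii]
        rw [h1, h3, sub_self]
  have hpos : ∀ᶠ R : ℝ in atTop, ∀ c : K → ℂ, κ * ∑ k, ‖c k‖ ^ 2 ≤
      (∑ k, ∑ l, c l * (conj (c k) * G R k l)).re := by
    filter_upwards [hall] with R hR c
    exact pos_gram hκ1 hlow (fun i => nsq (J i (a i) (ε i) R)) (fun i => hκ4.trans ((hκ₂c i).trans (hR i).2.1))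
      (G R) (fun j j' => rfl) (fun i i' => rfl) (fun j i => rfl) (fun j i => rfl) c
  have hgram := gram_lowerW y G hGlim hκ0 hpos
  -- choose `R`
  have hker : ∀ᶠ R : ℝ in atTop, ∀ j : Fin b, ∃ u : Cfg d → F, S.Inv u ∧
      nsq (fun x => u x - Ψ j x) ≤ η ∧ R ^ 2 * S.en (R⁻¹ ^ 2) u ≤ η := by
    rw [eventually_all]
    exact fun j => hK (Ψ j) (hΨ j) η hη0
  obtain ⟨R, hR, hRg, hRk, hRa⟩ := ((eventually_ge_atTop (1 : ℝ)).and (hgram.and (hker.and hall))).exists
  have hR0 : 0 < R := by linarith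
  choose u hu hu1 hu2 using hRk
  choose v hv hv1 hv2 using fun i => (hRa i).2.2.2
  set z : K → Cfg d → F := Sum.elim u v with hz
  have hzi : ∀ k, S.InvP plT (z k) := by
    rintro (j | i)
    · exact Inv_InvP (hu j)
    · exact hv i
  have hze : ∀ k, S.en (R⁻¹ ^ 2) (z k) ≤ η / R ^ 2 := by
    rintro (j | i)
    · rw [le_div_iff₀ (by positivity), mul_comm]
      exact hu2 j
    · rw [le_div_iff₀ (by positivity), mul_comm]
      exact hv2 i
  have hzy : ∀ k, ‖U.HB.toL (hzi k).1 - y R k‖ ≤ Real.sqrt η := by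
    rintro (j | i)
    · refine Real.le_sqrt_of_sq_le ?_
      have h1 : U.HB.toL (hzi (Sum.inl j)).1 - y R (Sum.inl j) =ᵐ[volume] fun x => u j x - Ψ j x := by
        filter_upwards [Lp.coeFn_sub (U.HB.toL (hzi (Sum.inl j)).1) (Ψ j),
          U.HB.coe_toL (hzi (Sum.inl j)).1] with x h1 h2
        change (U.HB.toL (hzi (Sum.inl j)).1 - Ψ j : Lp F 2 (volume : Measure (Cfg d))) x = _
        rw [h1, Pi.sub_apply, h2]
        rfl
      rw [U.HB.norm_Lp h1]
      exact hu1 j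
    · refine Real.le_sqrt_of_sq_le ?_
      have h0 : y R (Sum.inr i) = U.HB.toL (hRa i).1.1 := Gv_of (hRa i).1
      rw [h0]
      have h1 : U.HB.toL (hzi (Sum.inr i)).1 - U.HB.toL (hRa i).1.1 =ᵐ[volume]
          fun x => v i x - J i (a i) (ε i) R x := by
        filter_upwards [Lp.coeFn_sub (U.HB.toL (hzi (Sum.inr i)).1) (U.HB.toL (hRa i).1.1),
          U.HB.coe_toL (hzi (Sum.inr i)).1, U.HB.coe_toL (hRa i).1.1] with x h1 h2 h3
        rw [h1, Pi.sub_apply, h2, h3]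
        rfl
      rw [U.HB.norm_Lp h1]
      exact hv1 i
  refine ⟨R⁻¹ ^ 2, by positivity, lowP_of (K := K) hzi (fun c hc => ?_) (by simp [hKdef])⟩
  have hcpos : 0 < ∑ k, ‖c k‖ ^ 2 := by
    obtain ⟨k, hk⟩ := Function.ne_iff.mp hc
    refine Finset.sum_pos' (fun k _ => by positivity) ⟨k, Finset.mem_univ k, ?_⟩
    have : 0 < ‖c k‖ := norm_pos_iff.mpr hk
    positivity
  have h1 := gram_pert (y := y R) (z := fun k => U.HB.toL (hzi k).1) (κ := κ / 2) (by positivity)
    (Real.sqrt_nonneg η) (by rw [Real.sq_sqrt hη0.le]; linarith) hzy c (hRg c)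
  rw [toL_comb] at h1
  have h2 := en_comb_le (S := S) (R⁻¹ ^ 2) c (fun k => (hzi k).1) hze
  have h3 : (Fintype.card K : ℝ) * (∑ k, ‖c k‖ ^ 2) * (η / R ^ 2) = (η * N) * (∑ k, ‖c k‖ ^ 2) * R⁻¹ ^ 2 := by
    rw [hN]
    field_simp
  rw [h3] at h2
  have hRi : 0 < R⁻¹ ^ 2 := by positivity
  calc S.en (R⁻¹ ^ 2) (fun x => ∑ k, c k • z k x) ≤ (η * N) * (∑ k, ‖c k‖ ^ 2) * R⁻¹ ^ 2 := h2
    _ ≤ (κ / 8) * (∑ k, ‖c k‖ ^ 2) * R⁻¹ ^ 2 := by gcongr
    _ < 8 * R⁻¹ ^ 2 * (κ / 2 / 4 * ∑ k, ‖c k‖ ^ 2) := by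
        have : 0 < κ * (∑ k, ‖c k‖ ^ 2) * R⁻¹ ^ 2 := by positivity
        nlinarith
    _ ≤ _ := by gcongr

end Vale.Agent.P353.Z.AJ
end

section

/-! # P353, all `N`, block H: `dim ker = 1` from weak profile systems (helper973) -/

open MeasureTheory Filter Topology
open scoped ContDiff ComplexConjugate

namespace Vale.Agent.P353.Z.AJ

open AH

variable {d : ℕ} {F : Type*} [NormedAddCommGroup F] [InnerProductSpace ℂ F]

/-- **Top** for weak profile systems -/
theorem topW [FiniteDimensional ℂ F] (S : Setup d F) (hQQ : QQStmt S) (hD : DenseStmt S) (hJ : JbdStmt S)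
    (hA : AvgStmt S) (hK : KerCutStmt S) (hloc : LocStmt S) (hBr : BridgeStmt S) : AJ.TopStmt S := by
  have hFc : CompleteSpace F := FiniteDimensional.complete ℂ F
  intro hirr hne ι _ P hE hNL hRep hcount hL
  -- theorem B after the bridge
  have hB : ∀ k : ℕ, (∃ m : ℝ, 0 < m ∧ S.LowP plT k m (8 * m)) → ∀ m' : ℝ, 0 < m' → ∀ c : ℝ, 0 < c →
      S.Low k m' c := by
    rintro k ⟨m, hm, h⟩ m' hm' c hc
    exact U.All.thmB_all S k m hm (hBr k m hm h (8 * m) (by positivity)) m' hm' c hc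
  obtain ⟨Ψ₀, h0, hn0⟩ := s6W P hloc hE hNL hL
  refine ⟨Ψ₀, h0, hn0, fun Ψ hΨ => ?_⟩
  by_contra hcon
  have hli : LinearIndependent ℂ ![Ψ₀, Ψ] := by
    rw [LinearIndependent.pair_iff]
    intro s t hst
    have ht : t = 0 := by
      by_contra ht
      refine hcon ⟨-(t⁻¹ * s), ?_⟩
      have h1 : Ψ = t⁻¹ • (t • Ψ) := by rw [smul_smul, inv_mul_cancel₀ ht, one_smul]
      have h2 : t • Ψ = -(s • Ψ₀) := eq_neg_of_add_eq_zero_right hst
      rw [h1, h2, smul_neg, smul_smul, neg_smul]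
    rw [ht, zero_smul, add_zero] at hst
    exact ⟨(smul_eq_zero.mp hst).resolve_right hn0, ht⟩
  have h7 := s7W P hQQ hD hJ (hA hirr hne) hK hE hRep 2 ![Ψ₀, Ψ] (by
    intro j
    fin_cases j
    · exact h0
    · exact hΨ) hli
  have h8 := hB _ h7
  obtain ⟨M, hM, hC⟩ := U.All.thmC_all S (Fintype.card ι + 1) hirr hne hcount
  obtain ⟨ε, hε, hno⟩ := hC M le_rfl
  apply hno
  have h9 := h8 M hM ε hε
  have e : 2 + Fintype.card ι = Fintype.card ι + 1 + 1 := by ring
  rw [e] at h9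
  exact h9

end Vale.Agent.P353.Z.AJ
end

section

/-! # P353, all `N`, block G: covariance of the supercharges and of the rotation generators -/

open MeasureTheory Filter Topology
open scoped ContDiff

namespace Vale.Agent.P353.AN.G

open Vale.Agent.P353.Z Vale.Agent.P353.Z.U

universe w

namespace QAct

section Alg

variable {N d : ℕ} {F : Type w} [NormedAddCommGroup F] [InnerProductSpace ℂ F]

/-- the matrix of the adjoint action -/
noncomputable def O (M : BFSS.Model N d F) (U : BFSS.SU N) : Matrix (Fin d) (Fin d) ℝ :=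
  Matrix.of fun B A => BFSS.adCoeff M.T U B A

variable (M : BFSS.Model N d F) (S : Setup d F) (hS : Rep M S) (U : BFSS.SU N)

include hS in
theorem mem_grp : O M U ∈ S.grp := adS M (fun S a t => exp_mem S a t) S hS U

include hS in
theorem orth1 (A B : Fin d) : ∑ C, O M U C A * O M U C B = if A = B then 1 else 0 := by
  have h := congrFun (congrFun (mem_grp M S hS U).1 A) B
  rw [Matrix.mul_apply] at h
  simpa [Matrix.transpose_apply, Matrix.one_apply] using h

include hS in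
theorem orth2 (A B : Fin d) : ∑ C, O M U A C * O M U B C = if A = B then 1 else 0 := by
  have h0 : O M U * (O M U).transpose = 1 := mul_eq_one_comm.1 (mem_grp M S hS U).1
  have h := congrFun (congrFun h0 A) B
  rw [Matrix.mul_apply] at h
  simpa [Matrix.transpose_apply, Matrix.one_apply] using h

theorem coeff_inv (A B : Fin d) : BFSS.adCoeff M.T U⁻¹ B A = O M U A B := by
  unfold O BFSS.adCoeff
  rw [Matrix.of_apply]
  congr 1
  have h : (U⁻¹ : BFSS.SU N).val = U.val.conjTranspose := rfl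
  rw [h, Matrix.conjTranspose_conjTranspose]
  calc (M.T B * (U.val.conjTranspose * M.T A * U.val)).trace =
      (M.T B * U.val.conjTranspose * M.T A * U.val).trace := by simp only [Matrix.mul_assoc]
    _ = (U.val * (M.T B * U.val.conjTranspose * M.T A)).trace := Matrix.trace_mul_comm _ _
    _ = ((U.val * M.T B * U.val.conjTranspose) * M.T A).trace := by simp only [Matrix.mul_assoc]
    _ = _ := Matrix.trace_mul_comm _ _

theorem act_apply (x : Cfg d) (i : Fin 9) (B : Fin d) :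
    M.act U x (i, B) = ∑ A, O M U B A * x (i, A) := rfl

theorem act_inv_apply (x : Cfg d) (i : Fin 9) (B : Fin d) :
    M.act U⁻¹ x (i, B) = ∑ A, O M U A B * x (i, A) := by
  have : M.act U⁻¹ x (i, B) = ∑ A, BFSS.adCoeff M.T U⁻¹ B A * x (i, A) := rfl
  rw [this]
  exact Finset.sum_congr rfl fun A _ => by rw [coeff_inv]

include hS in
/-- coordinates of `x` in terms of those of `y = act U⁻¹ x` -/
theorem coord (x : Cfg d) (i : Fin 9) (A : Fin d) :
    x (i, A) = ∑ B, O M U A B * M.act U⁻¹ x (i, B) := by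
  simp only [act_inv_apply, Finset.mul_sum]
  rw [Finset.sum_comm]
  have h : ∀ C, ∑ B, O M U A B * (O M U C B * x (i, C)) =
      (if A = C then 1 else 0) * x (i, C) := by
    intro C
    rw [← orth2 M S hS U A C, Finset.sum_mul]
    exact Finset.sum_congr rfl fun B _ => by ring
  simp only [h]
  simp

/-- a family of operators that is rotated by `U` -/
def Rot (X : Fin d → F →L[ℂ] F) : Prop :=
  ∀ A v, M.S U (X A v) = ∑ B, (O M U B A : ℂ) • X B (M.S U v)

include hS in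
theorem rot_vec (K : Matrix (Fin 16) (Fin 16) ℂ) (β : Fin 16) :
    Rot M U (fun A => S.vec K A β) := by
  intro A v
  simp only [CS.vec, _root_.sum_apply, _root_.smul_apply, map_sum,
    map_smul, hS.hth, M.S_rotates, Finset.smul_sum]
  rw [Finset.sum_comm]
  refine Finset.sum_congr rfl fun B _ => Finset.sum_congr rfl fun γ _ => ?_
  rw [smul_comm]
  rfl

include hS in
/-- contraction of a rotated family with rotated coefficients -/
theorem rot_sum {X : Fin d → F →L[ℂ] F} (hX : Rot M U X) (a b : Fin d → ℝ)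
    (hab : ∀ A, a A = ∑ B, O M U A B * b B) (v : F) :
    ∑ A, (a A : ℂ) • X A (M.S U v) = M.S U (∑ B, (b B : ℂ) • X B v) := by
  have hX' : ∀ A v, M.S U (X A v) = ∑ B, (O M U B A : ℂ) • X B (M.S U v) := hX
  rw [map_sum]
  simp only [map_smul, hX', hab, Complex.ofReal_sum, Complex.ofReal_mul, Finset.sum_smul,
    Finset.smul_sum]
  rw [Finset.sum_comm]
  refine Finset.sum_congr rfl fun B _ => Finset.sum_congr rfl fun A _ => ?_
  rw [smul_smul, mul_comm]

theorem rot_sum' {X : Fin d → F →L[ℂ] F} (hX : Rot M U X) (u : Fin d → F) :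
    ∑ A, X A (∑ B, (O M U A B : ℂ) • M.S U (u B)) = M.S U (∑ B, X B (u B)) := by
  have hX' : ∀ A v, M.S U (X A v) = ∑ B, (O M U B A : ℂ) • X B (M.S U v) := hX
  rw [map_sum]
  simp only [map_smul, hX', map_sum]
  rw [Finset.sum_comm]

include hS in
/-- the structure constants -/
theorem f_rot (A B' C' : Fin d) : ∑ B, ∑ C, S.f A B C * O M U B B' * O M U C C' =
    ∑ A', O M U A A' * S.f A' B' C' := by
  have h := (mem_grp M S hS U).2.1
  symm
  have h1 : ∑ A', O M U A A' * S.f A' B' C' = ∑ A', ∑ D, ∑ B, ∑ C,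
      O M U A A' * (O M U D A' * O M U B B' * O M U C C' * S.f D B C) := by
    refine Finset.sum_congr rfl fun A' _ => ?_
    rw [← h A' B' C']
    simp only [Finset.mul_sum]
  rw [h1, Finset.sum_comm]
  have h2 : ∀ D, ∑ A', ∑ B, ∑ C, O M U A A' * (O M U D A' * O M U B B' * O M U C C' * S.f D B C) =
      (if A = D then 1 else 0) * ∑ B, ∑ C, S.f D B C * O M U B B' * O M U C C' := by
    intro D
    rw [← orth2 M S hS U A D, Finset.sum_mul]
    refine Finset.sum_congr rfl fun A' _ => ?_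
    simp only [Finset.mul_sum]
    refine Finset.sum_congr rfl fun B _ => Finset.sum_congr rfl fun C _ => ?_
    ring
  simp only [h2]
  simp

include hS in
theorem FF_rot (x : Cfg d) (i j : Fin 9) (A : Fin d) :
    S.FF A i j x = ∑ A', O M U A A' * S.FF A' i j (M.act U⁻¹ x) := by
  unfold Setup.FF
  have h1 : ∀ B C, S.f A B C * x (i, B) * x (j, C) = ∑ B', ∑ C',
      (S.f A B C * O M U B B' * O M U C C') * (M.act U⁻¹ x (i, B') * M.act U⁻¹ x (j, C')) := by
    intro B C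
    rw [coord M S hS U x i B, coord M S hS U x j C]
    simp only [Finset.mul_sum, Finset.sum_mul]
    rw [Finset.sum_comm]
    refine Finset.sum_congr rfl fun B' _ => Finset.sum_congr rfl fun C' _ => ?_
    ring
  calc S.κ * ∑ B, ∑ C, S.f A B C * x (i, B) * x (j, C) =
      S.κ * ∑ B', ∑ C', (∑ B, ∑ C, S.f A B C * O M U B B' * O M U C C') *
        (M.act U⁻¹ x (i, B') * M.act U⁻¹ x (j, C')) := by
        congr 1
        simp only [h1, Finset.sum_mul]
        rw [Finset.sum_congr rfl fun B _ => Finset.sum_comm]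
        rw [Finset.sum_comm]
        refine Finset.sum_congr rfl fun B' _ => ?_
        rw [Finset.sum_congr rfl fun B _ => Finset.sum_comm]
        rw [Finset.sum_comm]
    _ = _ := by
        simp only [f_rot M S hS U, Finset.mul_sum, Finset.sum_mul]
        rw [Finset.sum_congr rfl fun B _ => Finset.sum_comm]
        rw [Finset.sum_comm]
        refine Finset.sum_congr rfl fun A' _ => Finset.sum_congr rfl fun B' _ =>
          Finset.sum_congr rfl fun C' _ => ?_
        ring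

/-! ### derivatives -/

/-- the action as a linear map -/
noncomputable def actL : Cfg d →L[ℝ] Cfg d :=
  LinearMap.toContinuousLinearMap
    { toFun := M.act U
      map_add' := fun x y => by
        ext p
        have h : ∀ z : Cfg d, M.act U z p = ∑ A, O M U p.2 A * z (p.1, A) := fun _ => rfl
        rw [PiLp.add_apply, h, h, h, ← Finset.sum_add_distrib]
        exact Finset.sum_congr rfl fun A _ => by rw [PiLp.add_apply]; ring
      map_smul' := fun c x => by
        ext p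
        have h : ∀ z : Cfg d, M.act U z p = ∑ A, O M U p.2 A * z (p.1, A) := fun _ => rfl
        rw [PiLp.smul_apply, h, h, smul_eq_mul, Finset.mul_sum]
        exact Finset.sum_congr rfl fun A _ => by
          rw [PiLp.smul_apply, smul_eq_mul, RingHom.id_apply]; ring }

theorem actL_apply (x : Cfg d) : actL M U x = M.act U x := rfl

theorem act_single (i : Fin 9) (A : Fin d) :
    M.act U⁻¹ (EuclideanSpace.single (i, A) 1) =
      ∑ B, O M U A B • EuclideanSpace.single (i, B) (1 : ℝ) := by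
  ext p
  obtain ⟨j, B⟩ := p
  rw [act_inv_apply, WithLp.ofLp_sum, Finset.sum_apply]
  simp only [PiLp.smul_apply, EuclideanSpace.single_apply, smul_eq_mul, Prod.mk.injEq]
  by_cases hj : j = i
  · subst hj
    simp
  · simp [hj]

theorem pd_rot {v : Cfg d → F} (hv : ContDiff ℝ ∞ v) (i : Fin 9) (A : Fin d) (x : Cfg d) :
    pd i A (fun y => M.S U (v (M.act U⁻¹ y))) x =
      ∑ B, (O M U A B : ℂ) • M.S U (pd i B v (M.act U⁻¹ x)) := by
  have hd : DifferentiableAt ℝ v (M.act U⁻¹ x) := (hv.differentiable (by simp)).differentiableAt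
  have h1 : HasFDerivAt (fun y => M.S U (v (M.act U⁻¹ y)))
      (((M.S U).restrictScalars ℝ).comp ((fderiv ℝ v (M.act U⁻¹ x)).comp (actL M U⁻¹))) x := by
    have h2 : HasFDerivAt (fun y => M.act U⁻¹ y) (actL M U⁻¹) x := (actL M U⁻¹).hasFDerivAt
    have h3 : HasFDerivAt v (fderiv ℝ v (M.act U⁻¹ x)) (M.act U⁻¹ x) := hd.hasFDerivAt
    exact ((M.S U).restrictScalars ℝ).hasFDerivAt.comp x (h3.comp x h2)
  unfold pd
  rw [h1.fderiv]
  change M.S U (fderiv ℝ v (M.act U⁻¹ x) (M.act U⁻¹ (EuclideanSpace.single (i, A) 1))) = _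
  rw [act_single, map_sum, map_sum]
  refine Finset.sum_congr rfl fun B _ => ?_
  have h3 : fderiv ℝ v (M.act U⁻¹ x) (O M U A B • EuclideanSpace.single (i, B) (1 : ℝ)) =
      (O M U A B : ℂ) • fderiv ℝ v (M.act U⁻¹ x) (EuclideanSpace.single (i, B) 1) := by
    rw [map_smul, Complex.coe_smul]
  rw [h3, map_smul]

include hS in
theorem dot_rot (a b : Fin d → ℝ) (hab : ∀ A, a A = ∑ B, O M U A B * b B) (p q : Fin d → F)
    (hpq : ∀ A, p A = ∑ B, (O M U A B : ℂ) • q B) :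
    ∑ A, (a A : ℂ) • p A = ∑ B, (b B : ℂ) • q B := by
  have h1 : ∀ A, (a A : ℂ) • p A = ∑ B, ∑ B', ((O M U A B * O M U A B' : ℝ) * b B' : ℂ) • q B := by
    intro A
    rw [hab, hpq, Finset.smul_sum]
    refine Finset.sum_congr rfl fun B _ => ?_
    rw [smul_smul, Complex.ofReal_sum, Finset.sum_mul, Finset.sum_smul]
    refine Finset.sum_congr rfl fun B' _ => ?_
    congr 1
    push_cast
    ring
  simp only [h1]
  rw [Finset.sum_comm]
  refine Finset.sum_congr rfl fun B _ => ?_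
  rw [Finset.sum_comm]
  have h2 : ∀ B', ∑ A, (((O M U A B * O M U A B' : ℝ) : ℂ) * (b B' : ℂ)) • q B =
      (if B = B' then (b B' : ℂ) else 0) • q B := by
    intro B'
    rw [← Finset.sum_smul, ← Finset.sum_mul, ← Complex.ofReal_sum, orth1 M S hS U B B']
    split_ifs <;> simp
  simp only [h2]
  rw [← Finset.sum_smul]
  simp

include hS in
theorem Skl_rot (k l : Fin 9) (u : F) : S.Skl k l (M.S U u) = M.S U (S.Skl k l u) := by
  unfold Setup.Skl CS.tot CS.bil
  rw [_root_.smul_apply, _root_.smul_apply, map_smul]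
  congr 1
  simp only [_root_.sum_apply, map_sum, mul_apply_eq_comp]
  rw [Finset.sum_comm]
  conv_rhs => rw [Finset.sum_comm]
  refine Finset.sum_congr rfl fun α _ => ?_
  have hth : Rot M U (fun A => S.th α A) := by
    intro A v
    rw [hS.hth]
    exact M.S_rotates U α A v
  have hvec := rot_vec M S hS U (S.g2 k l) α
  symm
  calc ∑ A, M.S U (S.th α A (S.vec (S.g2 k l) A α u)) =
      ∑ A, ∑ B, ∑ C, ((O M U B A * O M U C A : ℝ) : ℂ) •
        S.th α B (S.vec (S.g2 k l) C α (M.S U u)) := by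
        refine Finset.sum_congr rfl fun A _ => ?_
        rw [hth A]
        refine Finset.sum_congr rfl fun B _ => ?_
        rw [hvec A, map_sum, Finset.smul_sum]
        refine Finset.sum_congr rfl fun C _ => ?_
        rw [map_smul, smul_smul]
        push_cast
        rfl
    _ = ∑ B, ∑ C, (if B = C then (1 : ℂ) else 0) • S.th α B (S.vec (S.g2 k l) C α (M.S U u)) := by
        rw [Finset.sum_comm]
        refine Finset.sum_congr rfl fun B _ => ?_
        rw [Finset.sum_comm]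
        refine Finset.sum_congr rfl fun C _ => ?_
        rw [← Finset.sum_smul, ← Complex.ofReal_sum, orth2 M S hS U B C]
        split_ifs <;> simp
    _ = _ := by
        refine Finset.sum_congr rfl fun B _ => ?_
        simp

end Alg

end QAct

open QAct in
theorem qAct {N d : ℕ} {F : Type w} [NormedAddCommGroup F] [InnerProductSpace ℂ F]
    (M : BFSS.Model N d F) : QActStmt M := by
  intro S hS U v hv
  refine ⟨fun m β x => ?_, fun k l x => ?_⟩
  · unfold Setup.Qm Setup.Q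
    simp only [map_add, map_smul]
    congr 1
    · congr 1
      · congr 1
        rw [map_sum]
        refine Finset.sum_congr rfl fun i _ => ?_
        simp only [pd_rot M U hv]
        exact rot_sum' M U (rot_vec M S hS U (S.g i) β) _
      · unfold Setup.W
        rw [_root_.smul_apply, _root_.smul_apply, map_smul]
        congr 1
        simp only [_root_.sum_apply, _root_.smul_apply]
        rw [Finset.sum_comm]
        conv_rhs => rw [Finset.sum_comm, map_sum]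
        refine Finset.sum_congr rfl fun i _ => ?_
        rw [Finset.sum_comm]
        conv_rhs => rw [Finset.sum_comm, map_sum]
        refine Finset.sum_congr rfl fun j _ => ?_
        exact rot_sum M S hS U (rot_vec M S hS U (S.g2 i j) β) _ _ (FF_rot M S hS U x i j) _
    · congr 1
      unfold Setup.MM
      simp only [_root_.sum_apply, _root_.smul_apply]
      rw [map_sum]
      refine Finset.sum_congr rfl fun i _ => ?_
      refine rot_sum M S hS U (rot_vec M S hS U (S.g i * S.Gam) β) _ _ (fun A => ?_) _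
      rw [coord M S hS U x i A, Finset.mul_sum]
      exact Finset.sum_congr rfl fun B _ => by ring
  · unfold Setup.J
    simp only [map_add, map_smul]
    congr 1
    · congr 1
      rw [Finset.sum_sub_distrib, Finset.sum_sub_distrib, map_sub]
      congr 1
      · rw [dot_rot M S hS U (fun A => x (k, A)) (fun B => M.act U⁻¹ x (k, B))
          (fun A => coord M S hS U x k A) _ (fun B => M.S U (pd l B v (M.act U⁻¹ x)))
          (fun A => pd_rot M U hv l A x), map_sum]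
        simp only [map_smul]
      · rw [dot_rot M S hS U (fun A => x (l, A)) (fun B => M.act U⁻¹ x (l, B))
          (fun A => coord M S hS U x l A) _ (fun B => M.S U (pd k B v (M.act U⁻¹ x)))
          (fun A => pd_rot M U hv k A x), map_sum]
        simp only [map_smul]
    · exact Skl_rot M S hS U k l _

end Vale.Agent.P353.AN.G
end

section

/-! # P353, all `N`, block E: the sharp cutoffs of block L are admissible (helper249) -/

open MeasureTheory Filter Topology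

namespace Vale.Agent.P353.Z.AE

/-- **EG-Chi** -/
theorem chiS : ChiStmt := by
  intro r ds dm
  refine ⟨fun R => ?_, fun R q => ?_, fun q => ?_, fun δ hδ => ?_⟩
  · unfold AL.chi
    refine Measurable.ite ?_ measurable_const measurable_const
    exact (measurableSet_le (measurable_norm.comp (measurable_fst.comp measurable_snd))
      measurable_const).inter (measurableSet_le
        (measurable_norm.comp (measurable_snd.comp measurable_snd)) measurable_const)
  · unfold AL.chi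
    split_ifs <;> simp
  · have h1 : ∀ᶠ R : ℝ in atTop, AL.chi R q = 1 := by
      have ha : Tendsto (fun R : ℝ => Real.sqrt R) atTop atTop := Real.tendsto_sqrt_atTop
      filter_upwards [ha.eventually_ge_atTop ‖q.2.1‖, eventually_ge_atTop ‖q.2.2‖] with R h2 h3
      unfold AL.chi
      rw [if_pos ⟨h2, h3⟩]
    exact tendsto_const_nhds.congr' (h1.mono fun R h => h.symm)
  · have ha : Tendsto (fun R : ℝ => Real.sqrt R) atTop atTop := Real.tendsto_sqrt_atTop
    filter_upwards [ha.eventually_ge_atTop (1 / δ), eventually_gt_atTop (0 : ℝ)] with R h1 h2 q hq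
    have h3 : ‖q.2.1‖ ≤ Real.sqrt R ∧ ‖q.2.2‖ ≤ R := by
      by_contra h
      exact hq (if_neg h)
    have h4 : 1 ≤ δ * Real.sqrt R := by
      rw [div_le_iff₀ hδ] at h1
      linarith
    have h5 : Real.sqrt R * Real.sqrt R = R := Real.mul_self_sqrt h2.le
    have h6 : 0 ≤ Real.sqrt R := Real.sqrt_nonneg R
    refine ⟨h3.1.trans ?_, h3.2.trans ?_⟩
    · calc Real.sqrt R = 1 * Real.sqrt R := by ring
        _ ≤ (δ * Real.sqrt R) * Real.sqrt R := mul_le_mul_of_nonneg_right h4 h6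
        _ = δ * R := by rw [mul_assoc, h5]
    · calc R = 1 * R := by ring
        _ ≤ (δ * Real.sqrt R) * R := mul_le_mul_of_nonneg_right h4 h2.le
        _ = δ * (R * Real.sqrt R) := by ring

end Vale.Agent.P353.Z.AE
end

section

/-! # P353, all `N`, block E: transport of the limit equation by a colour rotation (EG-RotO, EG-LimO) -/

open MeasureTheory Filter Topology Matrix
open scoped ContDiff

namespace Vale.Agent.P353.Z.AE

variable {d : ℕ} {F : Type*} [NormedAddCommGroup F] [InnerProductSpace ℂ F]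

lemma ro471_g (S : Setup d F) (h9 : (1 : Matrix (Fin 9) (Fin 9) ℝ) * (1 : Matrix (Fin 9) (Fin 9) ℝ)ᵀ = 1)
    (O : Matrix (Fin d) (Fin d) ℝ) (hO : O * Oᵀ = 1) : (S.rot 1 h9 O hO).g = S.g := by
  funext i
  show ∑ j, ((1 : Matrix (Fin 9) (Fin 9) ℝ) i j : ℂ) • S.g j = S.g i
  rw [Finset.sum_eq_single i]
  · simp
  · intro j _ hj
    rw [Matrix.one_apply_ne hj.symm]
    simp
  · simp

lemma ro471_Gam (S : Setup d F) (h9 : (1 : Matrix (Fin 9) (Fin 9) ℝ) * (1 : Matrix (Fin 9) (Fin 9) ℝ)ᵀ = 1)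
    (O : Matrix (Fin d) (Fin d) ℝ) (hO : O * Oᵀ = 1) : (S.rot 1 h9 O hO).Gam = S.Gam := by
  unfold Setup.Gam
  rw [ro471_g]

lemma ro471_N0 (S : Setup d F) (h9 : (1 : Matrix (Fin 9) (Fin 9) ℝ) * (1 : Matrix (Fin 9) (Fin 9) ℝ)ᵀ = 1)
    (O : Matrix (Fin d) (Fin d) ℝ) (hO : O * Oᵀ = 1) :
    AN.N0 (S.rot 1 h9 O hO) = AN.rotN 1 (AN.N0 S) := by
  funext i
  have h1 : AN.rotN 1 (AN.N0 S) i = AN.N0 S i := by
    show ∑ j, (((1 : Matrix (Fin 9) (Fin 9) ℝ) i j : ℝ) : ℂ) • AN.N0 S j = AN.N0 S i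
    rw [Finset.sum_eq_single i]
    · simp
    · intro j _ hj
      rw [Matrix.one_apply_ne hj.symm]
      simp
    · simp
  rw [h1]
  unfold AN.N0
  rw [ro471_g, ro471_Gam]

/-- the mass operator in terms of the mass matrices -/
lemma ro471_MM (S : Setup d F) (β : Fin 16) (x : Cfg d) : S.MM β x = S.Mx (AN.N0 S) β x := by
  simp only [Setup.MM, Setup.Mx, AN.N0, S.vec_smul, smul_smul]
  refine Finset.sum_congr rfl fun i _ => Finset.sum_congr rfl fun A _ => ?_
  rw [Complex.ofReal_mul, mul_comm]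

/-- facts about the colour rotation -/
structure Ro471 (O : Matrix (Fin d) (Fin d) ℝ) : Prop where
  l : ∀ x, rox 1 Oᵀ (rox 1 O x) = x
  r : ∀ x, rox 1 O (rox 1 Oᵀ x) = x
  mp : MeasurePreserving (rox 1 O : Cfg d → Cfg d) volume volume
  em : MeasurableEmbedding (rox 1 O : Cfg d → Cfg d)

lemma ro471_mk {S : Setup d F} (hR : AN.RotStmt S)
    (h9 : (1 : Matrix (Fin 9) (Fin 9) ℝ) * (1 : Matrix (Fin 9) (Fin 9) ℝ)ᵀ = 1)
    {O : Matrix (Fin d) (Fin d) ℝ} (hO : O * Oᵀ = 1) : Ro471 O := by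
  have h := AD.Tr.mkFx hR h9 hO
  have hl := h.l
  have hr := h.r
  simp only [Matrix.transpose_one] at hl hr
  exact ⟨hl, hr, h.mp, h.em⟩

/-- **EG-RotO** -/
theorem rotO (S : Setup d F) (hR : AN.RotStmt S) (hF : AN.FrameStmt S) : RotOStmt S := by
  intro h9 O hO
  have hX := AD.Tr.mkFx hR h9 hO
  have hY := ro471_mk hR h9 hO
  obtain ⟨-, -, -, -, -, hQ, hG⟩ := hR 1 h9 O hO
  have htst : ∀ u : Cfg d → F, Setup.Tst u → Setup.Tst fun x => u (rox 1 Oᵀ x) := by
    intro u hu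
    have := hX.tst hu
    simpa only [Matrix.transpose_one] using this
  have hback : ∀ u : Cfg d → F, (fun z => (fun x => u (rox 1 Oᵀ x)) (rox 1 O z)) = u := by
    intro u
    funext z
    show u (rox 1 Oᵀ (rox 1 O z)) = u z
    rw [hY.l]
  have hMM : ∀ β x, (S.rot 1 h9 O hO).MM β (rox 1 O x) = S.MM β x := by
    intro β x
    rw [ro471_MM, ro471_MM, ro471_N0]
    exact ((hF.2.2 (AN.N0 S)).1 1 h9 O hO hF.1).2 β x
  have hnsq : ∀ u : Cfg d → F, nsq (fun x => u (rox 1 Oᵀ x)) = nsq u := by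
    intro u
    unfold nsq
    rw [← hY.mp.integral_comp hY.em (fun x => ‖u (rox 1 Oᵀ x)‖ ^ 2)]
    simp only [hY.l]
  have hQm : ∀ u : Cfg d → F, Setup.Tst u → ∀ (m : ℝ) (β : Fin 16),
      (S.rot 1 h9 O hO).Qm m β (fun x => u (rox 1 Oᵀ x)) = fun x => S.Qm m β u (rox 1 Oᵀ x) := by
    intro u hu m β
    funext x
    have h1 : (S.rot 1 h9 O hO).Qm m β (fun x => u (rox 1 Oᵀ x)) (rox 1 O (rox 1 Oᵀ x)) =
        S.Qm m β u (rox 1 Oᵀ x) := by
      unfold Setup.Qm
      rw [hQ _ ((htst u hu).1.differentiable (by simp)) β (rox 1 Oᵀ x), hback, hMM]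
      simp only [hY.l]
    rw [hY.r] at h1
    exact h1
  refine ⟨?_, ?_, ?_⟩
  · intro u hu
    refine ⟨⟨htst u hu.1, ?_⟩, hnsq u, hQm u hu.1⟩
    intro C x
    have h1 := hG _ ((htst u hu.1).1.differentiable (by simp)) C (rox 1 Oᵀ x)
    rw [hY.r, hback] at h1
    rw [h1]
    refine Finset.sum_eq_zero fun C' _ => ?_
    rw [hu.2, smul_zero]
  · intro R Ψ C hB
    refine ⟨hB.R_lim, ?_, ?_, ?_⟩
    · intro n
      refine ⟨htst _ (hB.inv n).1, ?_⟩
      intro C x
      have h1 := hG _ ((htst _ (hB.inv n).1).1.differentiable (by simp)) C (rox 1 Oᵀ x)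
      rw [hY.r, hback] at h1
      rw [h1]
      refine Finset.sum_eq_zero fun C' _ => ?_
      rw [(hB.inv n).2, smul_zero]
    · intro n
      rw [hnsq]
      exact hB.norm n
    · intro n
      have h1 : (S.rot 1 h9 O hO).en ((R n)⁻¹ ^ 2) (fun x => Ψ n (rox 1 Oᵀ x)) = S.en ((R n)⁻¹ ^ 2) (Ψ n) := by
        unfold Setup.en
        refine Finset.sum_congr rfl fun β _ => ?_
        rw [hQm _ (hB.inv n).1, hnsq]
      rw [h1]
      exact hB.energy n
  · intro Z u
    unfold ipr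
    rw [← hY.mp.integral_comp hY.em (fun x => inner ℂ (Z x) (u (rox 1 Oᵀ x)))]
    simp only [hY.l]

/-- **EG-LimO** -/
theorem limO (S : Setup d F) (hL : ∀ S' : Setup d F, LimDStmt S') (hO : RotOStmt S) : LimOStmt S := by
  intro hfd h9 O hOO dh dm r ds n φ ψ L Om K U o T hD χ hχ R Ψ C hB β b hb
  obtain ⟨h1, h2, h3⟩ := hO h9 O hOO
  have h4 := hL (S.rot 1 h9 O hOO) hfd dh dm r ds n φ ψ L Om K U o T hD χ hχ R _ C (h2 R Ψ C hB) β b hb
  refine h4.congr fun k => ?_
  rw [h3, h3]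
  have h5 := (h1 (Ψ k) (hB.inv k)).2.2 ((R k)⁻¹ ^ 2) β
  rw [h5]
  rfl

end Vale.Agent.P353.Z.AE
end

section

/-! # P353, all `N`, block TW3: one shell -/

open MeasureTheory Filter Topology
open scoped ContDiff

namespace Vale.Agent.P353.Z.AT

variable {d dh dm : ℕ} {F : Type*} [NormedAddCommGroup F] [InnerProductSpace ℂ F]

/-- the norm of a slice point with `w = 0` -/
theorem tw3_norm_emb (φ : Spl dh dm d) (y : Cfg dh) : ‖emb φ y (0 : Wsp dm)‖ = ‖y‖ := by
  rw [EuclideanSpace.norm_eq, EuclideanSpace.norm_eq]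
  congr 1
  rw [Fintype.sum_prod_type, Fintype.sum_prod_type]
  refine Finset.sum_congr rfl fun i _ => ?_
  rw [← φ.sum_comp, Fintype.sum_sum_type]
  have h1 : ∀ A : Fin dh, emb φ y (0 : Wsp dm) (i, φ (Sum.inl A)) = y (i, A) := by
    intro A
    simp [emb]
  have h2 : ∀ B : Fin dm, emb φ y (0 : Wsp dm) (i, φ (Sum.inr B)) = 0 := by
    intro B
    simp only [emb, Equiv.symm_apply_apply, Sum.elim_inr]
    refine Fin.lastCases ?_ (fun j => ?_) i
    · exact Fin.lastCases_last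
    · simp
  simp [h1, h2]

theorem tw3_mas_mono {v : Cfg d → F} (hv : Setup.Tst v) {A B : Set (Cfg d)} (h : A ⊆ B) :
    ∫ x in A, ‖v x‖ ^ 2 ≤ ∫ x in B, ‖v x‖ ^ 2 :=
  setIntegral_mono_set hv.norm_sq_int.integrableOn (Eventually.of_forall fun x => sq_nonneg ‖v x‖)
    (Filter.Eventually.of_forall h)

omit [InnerProductSpace ℂ F] in
theorem tw3_mas_nonneg (v : Cfg d → F) (A : Set (Cfg d)) : 0 ≤ ∫ x in A, ‖v x‖ ^ 2 :=
  integral_nonneg fun x => sq_nonneg ‖v x‖

theorem tw3_enm_mono (S : Setup d F) (m : ℝ) {u : Cfg d → F} (hu : Setup.Tst u) {A B : Set (Cfg d)}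
    (h : A ⊆ B) : enm S m u A ≤ enm S m u B :=
  Finset.sum_le_sum fun β _ => tw3_mas_mono (U.HB.Tst_Qm S m β hu) h

/-- finite subadditivity of the mass -/
theorem tw3_union {v : Cfg d → F} (hv : Setup.Tst v) {n : ℕ} (A B : Set (Cfg d)) (D : Fin n → Set (Cfg d))
    (J : Finset (Fin n)) (h : A ⊆ B ∪ ⋃ k ∈ J, D k) :
    ∫ x in A, ‖v x‖ ^ 2 ≤ (∫ x in B, ‖v x‖ ^ 2) + ∑ k ∈ J, ∫ x in D k, ‖v x‖ ^ 2 := by
  have hi := hv.norm_sq_int
  have e : ∀ E : Set (Cfg d), ENNReal.ofReal (∫ x in E, ‖v x‖ ^ 2) = ∫⁻ x in E, ENNReal.ofReal (‖v x‖ ^ 2) :=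
    fun E => ofReal_integral_eq_lintegral_ofReal hi.integrableOn
      (Eventually.of_forall fun x => sq_nonneg ‖v x‖)
  have h0 : ∫⁻ x in ⋃ k ∈ J, D k, ENNReal.ofReal (‖v x‖ ^ 2) ≤
      ∑ k ∈ J, ∫⁻ x in D k, ENNReal.ofReal (‖v x‖ ^ 2) := by
    clear h
    classical
    induction J using Finset.induction_on with
    | empty => simp
    | insert k J hk ih =>
      rw [Finset.set_biUnion_insert, Finset.sum_insert hk]
      exact (lintegral_union_le _ _ _).trans (add_le_add le_rfl ih)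
  have h1 : ∫⁻ x in A, ENNReal.ofReal (‖v x‖ ^ 2) ≤
      (∫⁻ x in B, ENNReal.ofReal (‖v x‖ ^ 2)) + ∑ k ∈ J, ∫⁻ x in D k, ENNReal.ofReal (‖v x‖ ^ 2) :=
    (lintegral_mono_set h).trans ((lintegral_union_le _ _ _).trans (add_le_add le_rfl h0))
  have hn : ∀ E : Set (Cfg d), 0 ≤ ∫ x in E, ‖v x‖ ^ 2 := tw3_mas_nonneg v
  rw [← ENNReal.ofReal_le_ofReal_iff (add_nonneg (hn _) (Finset.sum_nonneg fun k _ => hn _)), e,
    ENNReal.ofReal_add (hn _) (Finset.sum_nonneg fun k _ => hn _), e,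
    ENNReal.ofReal_sum_of_nonneg fun k _ => hn _]
  simpa only [e] using h1

/-- the estimate in one ball (parameter of the cover) -/
def Tw3P (S : Setup d F) (R : Matrix (Fin 9) (Fin 9) ℝ) (O : Matrix (Fin d) (Fin d) ℝ) (dh dm : ℕ)
    (φ : Spl dh dm d) (Y : Cfg dh) (_ δ : ℝ) : Prop :=
  δ ≤ 1 / 4 ∧ ∃ R₁ C : ℝ, 1 ≤ R₁ ∧ 0 ≤ C ∧ ∀ s : ℝ, R₁ ≤ s → ∀ m : ℝ, 0 < m → m ≤ 1 → ∀ u, AD.GInv S u →
    m ^ 2 * s ^ 2 * AD.mas u {x | rox R O x ∈ Metric.ball (s • emb φ Y 0) (δ * s)} ≤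
      C * (enm S m u (AD.shl d ((‖Y‖ - 1 / 4) * s) ((‖Y‖ + 1 / 4) * s)) +
        (1 / s ^ 2 + m) * AD.mas u (AD.shl d ((‖Y‖ - 1 / 4) * s) ((‖Y‖ + 1 / 4) * s)))

theorem sh (S : Setup d F) : ShStmt S := by
  intro hF hC hRot hFr hInp hCov hTub hNc
  classical
  obtain ⟨n, η, hη, Rr, Oo, dhs, dms, φs, ys, rs, δs, hk, hcov⟩ := hCov hC (Tw3P S) (by
    intro R hR O hO dh dm φ Y hStd hdm hY
    obtain ⟨δ, R₁, C, h1, h2, h3, h4, h5⟩ := hTub hF hRot hFr R hR O hO (hInp R hR O hO) dh dm φ Y hStd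
      hdm hY (1 / 4) (by norm_num)
    exact ⟨1, δ, one_pos, h1, h2, R₁, C, h3, h4, h5⟩) 1 2 one_pos (by norm_num)
  obtain ⟨Rn, Cn, hRn, hCn, hn⟩ := hNc hF η hη
  have hk' : ∀ k, ∃ R₁ C : ℝ, 1 ≤ R₁ ∧ 0 ≤ C ∧ ∀ s : ℝ, R₁ ≤ s → ∀ m : ℝ, 0 < m → m ≤ 1 → ∀ u, AD.GInv S u →
      m ^ 2 * s ^ 2 * AD.mas u {x | rox (Rr k) (Oo k) x ∈ Metric.ball (s • emb (φs k) (ys k) 0) (δs k * s)} ≤
        C * (enm S m u (AD.shl d ((‖ys k‖ - 1 / 4) * s) ((‖ys k‖ + 1 / 4) * s)) +
          (1 / s ^ 2 + m) * AD.mas u (AD.shl d ((‖ys k‖ - 1 / 4) * s) ((‖ys k‖ + 1 / 4) * s))) := fun k => by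
    obtain ⟨_, _, _, _, _, _, h⟩ := hk k
    exact h
  have hδ : ∀ k, δs k ≤ 1 / 4 := fun k => by
    obtain ⟨_, _, _, _, _, h, _⟩ := hk k
    exact h
  have hrox : ∀ k x, ‖rox (Rr k) (Oo k) x‖ = ‖x‖ := fun k x => by
    obtain ⟨hR, hO, _⟩ := hk k
    exact (hRot (Rr k) hR (Oo k) hO).1 x
  choose Rk Ck hRk hCk hbk using hk'
  refine ⟨Rn + ∑ k, Rk k, Cn + ∑ k, Ck k, ?_, ?_, ?_⟩
  · have : 0 ≤ ∑ k, Rk k := Finset.sum_nonneg fun k _ => by linarith [hRk k]
    linarith
  · exact add_nonneg hCn (Finset.sum_nonneg fun k _ => hCk k)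
  intro s hs m hm hm1 u hu
  have hsum : 0 ≤ ∑ k, Rk k := Finset.sum_nonneg fun k _ => by linarith [hRk k]
  have hsn : Rn ≤ s := by linarith
  have hs1 : 1 ≤ s := by linarith
  have hs0 : 0 < s := by linarith
  have hsk : ∀ k, Rk k ≤ s := fun k => by
    have := Finset.single_le_sum (f := Rk) (fun k _ => by linarith [hRk k]) (Finset.mem_univ k)
    linarith
  -- the balls that meet the shell
  set J : Finset (Fin n) := Finset.univ.filter fun k =>
    ∃ x : Cfg d, s ≤ ‖x‖ ∧ ‖x‖ ≤ 2 * s ∧ rox (Rr k) (Oo k) x ∈ Metric.ball (s • emb (φs k) (ys k) 0) (δs k * s)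
    with hJ
  set Y0 : ℝ := enm S m u (AD.shl d (s / 2) (4 * s)) + (1 / s ^ 2 + m) * AD.mas u (AD.shl d (s / 2) (4 * s)) with hY0
  have hY0n : 0 ≤ Y0 := by
    have h1 : 0 ≤ enm S m u (AD.shl d (s / 2) (4 * s)) := Finset.sum_nonneg fun β _ => tw3_mas_nonneg _ _
    have h2 : 0 ≤ AD.mas u (AD.shl d (s / 2) (4 * s)) := tw3_mas_nonneg _ _
    positivity
  have hgood : ∀ k ∈ J, m ^ 2 * s ^ 2 *
      AD.mas u {x | rox (Rr k) (Oo k) x ∈ Metric.ball (s • emb (φs k) (ys k) 0) (δs k * s)} ≤ Ck k * Y0 := by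
    intro k hkJ
    obtain ⟨x, hx1, hx2, hx3⟩ := (Finset.mem_filter.1 hkJ).2
    have h1 : ‖s • emb (φs k) (ys k) (0 : Wsp (dms k))‖ = s * ‖ys k‖ := by
      rw [norm_smul, tw3_norm_emb, Real.norm_of_nonneg hs0.le]
    have h2 : ‖rox (Rr k) (Oo k) x - s • emb (φs k) (ys k) 0‖ < 1 / 4 * s := by
      rw [mem_ball_iff_norm] at hx3
      exact hx3.trans_le (mul_le_mul_of_nonneg_right (hδ k) hs0.le)
    have h3 := abs_norm_sub_norm_le (rox (Rr k) (Oo k) x) (s • emb (φs k) (ys k) (0 : Wsp (dms k)))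
    rw [h1, hrox k x] at h3
    have h4 := abs_lt.1 (lt_of_le_of_lt h3 h2)
    have hsub : AD.shl d ((‖ys k‖ - 1 / 4) * s) ((‖ys k‖ + 1 / 4) * s) ⊆ AD.shl d (s / 2) (4 * s) := by
      intro z hz
      have hz' : (‖ys k‖ - 1 / 4) * s < ‖z‖ ∧ ‖z‖ < (‖ys k‖ + 1 / 4) * s := hz
      refine ⟨?_, ?_⟩
      · nlinarith [hz'.1, h4.1, h4.2]
      · nlinarith [hz'.2, h4.1, h4.2]
    refine (hbk k s (hsk k) m hm hm1 u hu).trans (mul_le_mul_of_nonneg_left ?_ (hCk k))
    have hc : 0 ≤ 1 / s ^ 2 + m := by positivity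
    exact add_le_add (tw3_enm_mono S m hu.1 hsub) (mul_le_mul_of_nonneg_left (tw3_mas_mono hu.1 hsub) hc)
  have hcover : {x : Cfg d | s ≤ ‖x‖ ∧ ‖x‖ ≤ 2 * s} ⊆ {x | s ≤ ‖x‖ ∧ ‖x‖ ≤ 2 * s ∧ η * s ^ 4 ≤ S.V x} ∪
      ⋃ k ∈ J, {x | rox (Rr k) (Oo k) x ∈ Metric.ball (s • emb (φs k) (ys k) 0) (δs k * s)} := by
    intro x hx
    have hx' : s ≤ ‖x‖ ∧ ‖x‖ ≤ 2 * s := hx
    rcases le_total (η * s ^ 4) (S.V x) with h | h
    · exact Or.inl ⟨hx'.1, hx'.2, h⟩
    · obtain ⟨k, hk1⟩ := hcov s x hs0 (by linarith [hx'.1]) hx'.2 h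
      refine Or.inr (Set.mem_biUnion (x := k) ?_ hk1)
      exact Finset.mem_coe.2 (Finset.mem_filter.2 ⟨Finset.mem_univ _, x, hx'.1, hx'.2, hk1⟩)
  have hmain := tw3_union hu.1 _ _ _ J hcover
  have hms : 0 ≤ m ^ 2 * s ^ 2 := by positivity
  calc m ^ 2 * s ^ 2 * AD.mas u {x | s ≤ ‖x‖ ∧ ‖x‖ ≤ 2 * s}
      ≤ m ^ 2 * s ^ 2 * (AD.mas u {x | s ≤ ‖x‖ ∧ ‖x‖ ≤ 2 * s ∧ η * s ^ 4 ≤ S.V x} +
          ∑ k ∈ J, AD.mas u {x | rox (Rr k) (Oo k) x ∈ Metric.ball (s • emb (φs k) (ys k) 0) (δs k * s)}) :=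
        mul_le_mul_of_nonneg_left hmain hms
    _ = m ^ 2 * s ^ 2 * AD.mas u {x | s ≤ ‖x‖ ∧ ‖x‖ ≤ 2 * s ∧ η * s ^ 4 ≤ S.V x} +
          ∑ k ∈ J, m ^ 2 * s ^ 2 *
            AD.mas u {x | rox (Rr k) (Oo k) x ∈ Metric.ball (s • emb (φs k) (ys k) 0) (δs k * s)} := by
        rw [mul_add, Finset.mul_sum]
    _ ≤ Cn * Y0 + ∑ k ∈ J, Ck k * Y0 :=
        add_le_add (hn s hsn m hm hm1 u hu) (Finset.sum_le_sum hgood)
    _ ≤ Cn * Y0 + ∑ k, Ck k * Y0 := by
        gcongr
        · intro k _ _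
          exact mul_nonneg (hCk k) hY0n
        · exact Finset.subset_univ J
    _ = (Cn + ∑ k, Ck k) * Y0 := by rw [add_mul, Finset.sum_mul]

end Vale.Agent.P353.Z.AT
end

section

/-! # P353, all `N`, block JN: N1, all points are null -/

open MeasureTheory Filter Topology

namespace Vale.Agent.P353.Z.AJ

variable {d : ℕ} {F : Type*} [NormedAddCommGroup F] [InnerProductSpace ℂ F]

/-- the rotations are inverse to each other -/
theorem nulb_inv (S : Setup d F) {R : Matrix (Fin 9) (Fin 9) ℝ} (hR : R * R.transpose = 1)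
    {O : Matrix (Fin d) (Fin d) ℝ} (hO : O * O.transpose = 1) (x : Cfg d) :
    rox R O (rox R.transpose O.transpose x) = x := by
  have hR' : R.transpose * R.transpose.transpose = 1 := by
    rw [Matrix.transpose_transpose]
    exact mul_eq_one_comm.1 hR
  have hO' : O.transpose * O.transpose.transpose = 1 := by
    rw [Matrix.transpose_transpose]
    exact mul_eq_one_comm.1 hO
  have h := (AN.rot_stmt S R.transpose hR' O.transpose hO').2.2.1 x
  simpa only [Matrix.transpose_transpose] using h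

theorem nulb_norm (S : Setup d F) {R : Matrix (Fin 9) (Fin 9) ℝ} (hR : R * R.transpose = 1)
    {O : Matrix (Fin d) (Fin d) ℝ} (hO : O * O.transpose = 1) (x : Cfg d) :
    ‖rox R O x‖ = ‖x‖ := (AN.rot_stmt S R hR O hO).1 x

theorem nulb_ne (S : Setup d F) {R : Matrix (Fin 9) (Fin 9) ℝ} (hR : R * R.transpose = 1)
    {O : Matrix (Fin d) (Fin d) ℝ} (hO : O * O.transpose = 1) {x : Cfg d} :
    rox R O x ≠ 0 ↔ x ≠ 0 := by
  rw [← norm_ne_zero_iff, nulb_norm S hR hO, norm_ne_zero_iff]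

/-- **N1** -/
theorem nulB (S : Setup d F) : NulStmt S := by
  intro hfd hTr hNC hrot hIC Rn u hSq hyp
  have key : ∀ m : ℕ, ∀ Y, Y ≠ 0 → S.V Y = 0 → AD.cd S Y = m → AD.Nul Rn u Y := by
    intro m
    induction m using Nat.strong_induction_on with
    | _ m IH =>
      intro Y hY hV hm
      obtain ⟨Y', hY', _, hcd, himp, hspz⟩ := hyp Y hY hV
      refine himp ?_
      obtain ⟨R, hR, O, hO, dh, dm, ds, dz, φ, ψ, z₀, h, hpt, ε₁, hε₁, hSPZ⟩ := hspz
      obtain ⟨hLoc, hNC', hGeo⟩ := hrot R hR O hO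
      obtain ⟨t1, _, t3, t4, t5, _⟩ := hTr R hR O hO Rn u
      have hSq' := t1 hSq
      have hne : emb φ (AD.cmb ψ 0 z₀) 0 ≠ 0 := by
        rw [← hpt]
        exact (nulb_ne S hR hO).2 hY'
      obtain ⟨ε₀, hε₀, hL⟩ := hLoc hfd dh dm ds dz φ ψ z₀ h hne (hIC ds h.ss h.less)
      obtain ⟨ε₂, hε₂, hL2⟩ := hL (min ε₀ ε₁) (lt_min hε₀ hε₁) (min_le_left _ _)
      have hdh : dh = m := by
        rw [← (hGeo dh dm ds dz φ ψ z₀ h).1, ← hpt, t4, hcd, hm]
      have hsm : ∀ Z, Z ≠ 0 → (S.rot R hR O hO).V Z = 0 → AD.cd (S.rot R hR O hO) Z < dh →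
          AD.Nul Rn (fun n x => u n (rox R.transpose O.transpose x)) Z := by
        intro Z hZ hVZ hcZ
        obtain ⟨W, rfl⟩ : ∃ W, Z = rox R O W :=
          ⟨rox R.transpose O.transpose Z, (nulb_inv S hR hO Z).symm⟩
        rw [t5] at hVZ
        rw [t4, hdh] at hcZ
        obtain ⟨ε, hε, h1⟩ := IH _ hcZ W ((nulb_ne S hR hO).1 hZ) hVZ rfl
        exact ⟨ε, hε, (t3 W ε).2 h1⟩
      have hfin := hL2 Rn _ hSq' (fun Z hZ => hNC' hfd Rn _ hSq' Z hZ) hsm
        (hSPZ (min ε₀ ε₁) (lt_min hε₀ hε₁) (min_le_right _ _))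
      refine ⟨ε₂, hε₂, ?_⟩
      rw [← hpt] at hfin
      exact (t3 Y' ε₂).1 hfin
  intro Y hY
  by_cases hV : S.V Y = 0
  · exact key _ Y hY hV rfl
  · exact hNC hfd Rn u hSq Y hV

end Vale.Agent.P353.Z.AJ
end

section

/-! # P353, all `N`, block JN, C5: all slice functionals vanish at the regular points of the stratum -/

open MeasureTheory Filter Topology Matrix
open scoped ContDiff

namespace Vale.Agent.P353.Z.AJ

variable {d dh dm r ds n : ℕ} {F : Type} [NormedAddCommGroup F] [InnerProductSpace ℂ F]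

/-- the rotated setup is centreless -/
theorem so827_cless {S : Setup d F} (hC : AN.Cless S) (R : Matrix (Fin 9) (Fin 9) ℝ) (hR : R * R.transpose = 1)
    (O : Matrix (Fin d) (Fin d) ℝ) (hO : O * O.transpose = 1) :
    AN.Cless (S.rot R hR O hO) := by
  intro v hv
  have ho := AN.rt_orth hO
  have key : ∀ B C, ∑ A, (S.rot R hR O hO).f A B C * v A =
      ∑ b, O B b • ∑ c, O C c • ∑ a, S.f a b c * ∑ A, O A a * v A := by
    intro B C
    change ∑ A, (∑ a, ∑ b, ∑ c, O A a * O B b * O C c * S.f a b c) * v A = _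
    simp only [smul_eq_mul, Finset.sum_mul, Finset.mul_sum]
    rw [Finset.sum_comm]
    refine (Finset.sum_congr rfl fun a _ => Finset.sum_comm).trans ?_
    rw [Finset.sum_comm]
    refine Finset.sum_congr rfl fun b _ => ?_
    refine (Finset.sum_congr rfl fun a _ => Finset.sum_comm).trans ?_
    rw [Finset.sum_comm]
    refine Finset.sum_congr rfl fun c _ => Finset.sum_congr rfl fun a _ => Finset.sum_congr rfl fun A _ => ?_
    ring
  have h2 : ∀ k l, (∑ a, S.f a k l * ∑ A, O A a * v A) = 0 := by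
    intro k l
    rw [← AN.rt_two (M := ℝ) (fun A a => O A a) ho k l fun b c => ∑ a, S.f a b c * ∑ A, O A a * v A]
    refine Finset.sum_eq_zero fun B _ => Finset.sum_eq_zero fun C _ => ?_
    rw [← key B C, hv B C, smul_zero]
  have h3 := hC (fun a => ∑ A, O A a * v A) h2
  funext B
  have h4 : ∑ a, O B a * ∑ A, O A a * v A = v B := by
    simp only [Finset.mul_sum, ← mul_assoc]
    rw [Finset.sum_comm]
    simp only [← Finset.sum_mul]
    have h5 : ∀ A, ∑ a, O B a * O A a = if B = A then 1 else 0 := by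
      intro A
      have := congrFun (congrFun hO B) A
      rw [Matrix.mul_apply, Matrix.one_apply] at this
      simpa [Matrix.transpose_apply] using this
    simp [h5]
  rw [← h4]
  refine Finset.sum_eq_zero fun a _ => ?_
  rw [show (∑ A, O A a * v A) = 0 from congrFun h3 a, mul_zero]

/-- transport of gauge invariant test functions -/
theorem so827_ginv {S : Setup d F} (h : AN.RotStmt S) {R : Matrix (Fin 9) (Fin 9) ℝ} (hR : R * R.transpose = 1)
    {O : Matrix (Fin d) (Fin d) ℝ} (hO : O * O.transpose = 1) {u : Cfg d → F} (hu : AD.GInv S u) :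
    AD.GInv (S.rot R hR O hO) (rotu R O u) := by
  have hF := AD.Tr.mkFx h hR hO
  obtain ⟨_, _, _, _, _, _, hG⟩ := h R hR O hO
  have hT : Setup.Tst (rotu R O u) := hF.tst hu.1
  refine ⟨hT, fun C x => ?_⟩
  have h1 := hG (rotu R O u) (hT.1.differentiable (by simp)) C (rox R.transpose O.transpose x)
  have hback : (fun z => rotu R O u (rox R O z)) = u := by
    funext z
    show u (rox R.transpose O.transpose (rox R O z)) = u z
    rw [hF.l]
  rw [hF.r, hback] at h1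
  rw [h1]
  exact Finset.sum_eq_zero fun C' _ => by rw [hu.2 C', smul_zero]

theorem so827_mas {S : Setup d F} (h : AN.RotStmt S) {R : Matrix (Fin 9) (Fin 9) ℝ} (hR : R * R.transpose = 1)
    {O : Matrix (Fin d) (Fin d) ℝ} (hO : O * O.transpose = 1) (u : Cfg d → F) (s t : ℝ) :
    AD.mas (rotu R O u) (AD.shl d s t) = AD.mas u (AD.shl d s t) := by
  have hF := AD.Tr.mkFx h hR hO
  unfold AD.mas
  rw [hF.setInt' _ (hF.shl s t)]
  refine integral_congr_ae (Eventually.of_forall fun x => ?_)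
  show ‖u (rox R.transpose O.transpose (rox R O x))‖ ^ 2 = ‖u x‖ ^ 2
  rw [hF.l]

/-- transport of sequences -/
theorem so827_sqM {S : Setup d F} (h : AN.RotStmt S) {R : Matrix (Fin 9) (Fin 9) ℝ} (hR : R * R.transpose = 1)
    {O : Matrix (Fin d) (Fin d) ℝ} (hO : O * O.transpose = 1) {Rn : ℕ → ℝ} {u : ℕ → Cfg d → F}
    (hS : AL.SqM S Rn u) : AL.SqM (S.rot R hR O hO) Rn (fun n => rotu R O (u n)) where
  inv n := so827_ginv h hR hO (hS.inv n)
  pos := hS.pos
  lim := hS.lim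
  bd s t hs ht := by
    obtain ⟨C, hC⟩ := hS.bd s t hs ht
    exact ⟨C, fun n => (so827_mas h hR hO (u n) _ _).trans_le (hC n)⟩

theorem so827_rox_one (R : Matrix (Fin 9) (Fin 9) ℝ) (x : Cfg d) (p : Fin 9 × Fin d) :
    rox R 1 x p = ∑ j, R p.1 j * x (j, p.2) := by
  have e : rox R 1 x p = ∑ j, ∑ B, R p.1 j * (1 : Matrix (Fin d) (Fin d) ℝ) p.2 B * x (j, B) := rfl
  rw [e]
  refine Finset.sum_congr rfl fun j _ => ?_
  simp only [mul_assoc, ← Finset.mul_sum]
  simp [Matrix.one_apply]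

theorem so827_cmb (ψ : Spl r ds dh) (η : Cfg r) : AD.cmb (spsw ψ) 0 η = Z.cmb ψ η 0 := by
  ext ⟨i, A⟩
  obtain ⟨a, rfl⟩ := ψ.surjective A
  rcases a with a | a <;> simp [Z.cmb, AD.cmb, spsw]

theorem so827_rcmb (Q : Matrix (Fin 9) (Fin 9) ℝ) (ψ : Spl r ds dh) (η : Cfg r) :
    rox Q 1 (AN.cmb ψ η 0) = AD.cmb (spsw ψ) 0 (rox Q 1 η) := by
  ext ⟨i, A⟩
  obtain ⟨a, rfl⟩ := ψ.surjective A
  rw [so827_rox_one]
  rcases a with a | a
  · have h1 : AD.cmb (spsw ψ) 0 (rox Q 1 η) (i, ψ (Sum.inl a)) = rox Q 1 η (i, a) := by simp [AD.cmb, spsw]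
    rw [h1, so827_rox_one]
    refine Finset.sum_congr rfl fun j _ => ?_
    simp [AN.cmb]
  · have h1 : AD.cmb (spsw ψ) 0 (rox Q 1 η) (i, ψ (Sum.inr a)) = 0 := by simp [AD.cmb, spsw]
    rw [h1]
    refine Finset.sum_eq_zero fun j _ => ?_
    simp [AN.cmb]

/-- change of the name of the setup -/
theorem so827_asm [FiniteDimensional ℂ F] {S S₂ : Setup d F} {Y : Cfg d} {Rn : ℕ → ℝ} {u : ℕ → Cfg d → F}
    {Q : Matrix (Fin 9) (Fin 9) ℝ} (hQ : Q * Q.transpose = 1) {O : Matrix (Fin d) (Fin d) ℝ}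
    (hO : O * O.transpose = 1) {φ : Spl dh dm d} {ψ' : Spl ds r dh} {z : Cfg r} (he : S₂ = S.rot Q hQ O hO)
    (hx : rox Q O Y = emb φ (AD.cmb ψ' 0 z) 0) (h : AD.Std2 S₂ φ ψ' z) {ε₁ : ℝ} (hε₁ : 0 < ε₁)
    (H : ∀ ε : ℝ, 0 < ε → ε ≤ ε₁ → AD.SPZ S₂ φ ψ' z h ε Rn (fun n => rotu Q O (u n))) :
    SpzAt S Y Rn u := by
  subst he
  exact ⟨Q, hQ, O, hO, dh, dm, ds, r, φ, ψ', z, h, hx, ε₁, hε₁, H⟩

/-- **C5** -/
theorem spz_one_of (S : Setup d F) : SpzOneOfStmt S := by
  intro H hfin hCl hIC h9 O hO dh dm r ds n φ ψ z₀ h2 L Om K U o T hD R u hSq hZ Y η hη hRg hY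
  have h1 : (1 : Matrix (Fin d) (Fin d) ℝ) * (1 : Matrix (Fin d) (Fin d) ℝ).transpose = 1 := by simp
  have hRot := (H S).2.2.2.2.2.1
  have hComp := (H S).2.2.2.2.1
  set S₁ : Setup d F := S.rot 1 h9 O hO with hS₁
  have hdet : (∑ i, AD.Dz S₁ φ (spsw ψ) η i * AD.Dz S₁ φ (spsw ψ) η i).det ≠ 0 := by
    have h3 : ∀ i, AD.Dz S₁ φ (spsw ψ) η i = S₁.Dz φ ψ η i := fun i => by
      rw [AD.Dz, so827_cmb, Setup.Dz]
    simp only [h3]
    exact hRg
  obtain ⟨Q, hQ, h3⟩ := (H S₁).2.2.2.1 dh dm ds r φ (spsw ψ) z₀ h2 η hdet h1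
  obtain ⟨hc1, hc2, hc3⟩ := hComp Q hQ O hO h9 h1
  have hCl1 : AN.Cless S₁ := so827_cless hCl 1 h9 O hO
  have hCl2 : AN.Cless (S₁.rot Q hQ 1 h1) := so827_cless hCl1 Q hQ 1 h1
  have hic : AD.ICStmt h3.ss := hIC ds h3.ss h3.less
  obtain ⟨L', Om', K', U', n', o', T', hD'⟩ := (H (S₁.rot Q hQ 1 h1)).2.1 hfin dh dm r ds φ ψ (rox Q 1 η) h3 hic
  have hη' : rox Q 1 η ≠ 0 := by
    intro h0
    apply hη
    rw [← norm_eq_zero, ← AN.rt_norm hQ (O := (1 : Matrix (Fin r) (Fin r) ℝ)) (by simp) η, h0, norm_zero]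
  have hSq1 : AL.SqM S₁ R (fun k => rotu 1 O (u k)) := so827_sqM hRot h9 hO hSq
  have hRot1 := (H S₁).2.2.2.2.2.1
  have hSq2 : AL.SqM (S₁.rot Q hQ 1 h1) R (fun k => rotu Q 1 (rotu 1 O (u k))) := so827_sqM hRot1 hQ h1 hSq1
  have htr := (H S₁).2.2.1 hfin hCl1 Q hQ h1 dh dm r ds n n' φ ψ z₀ h2 L Om K U o T hD L' Om' K' U' o' T' hD'
    R (fun k => rotu 1 O (u k)) hSq1 hZ
  obtain ⟨ε₀, hε₀, hsp⟩ := (H (S₁.rot Q hQ 1 h1)).1 hfin hCl2 dh dm r ds n' φ ψ (rox Q 1 η) h3 hη' L' Om' K' U' o' T' hD'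
  have hu : ∀ k, rotu Q 1 (rotu 1 O (u k)) = rotu Q O (u k) := by
    intro k
    funext x
    show u k (rox (1 : Matrix (Fin 9) (Fin 9) ℝ).transpose O.transpose
      (rox Q.transpose (1 : Matrix (Fin d) (Fin d) ℝ).transpose x)) = u k (rox Q.transpose O.transpose x)
    congr 1
    have hF := AD.Tr.mkFx hRot hQ hO
    have hF1 := AD.Tr.mkFx hRot h9 hO
    have hFQ := AD.Tr.mkFx hRot hQ h1
    have e1 : rox Q 1 (rox 1 O (rox Q.transpose O.transpose x)) = x := by rw [hc2, hF.r]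
    calc rox (1 : Matrix (Fin 9) (Fin 9) ℝ).transpose O.transpose
          (rox Q.transpose (1 : Matrix (Fin d) (Fin d) ℝ).transpose x)
        = rox (1 : Matrix (Fin 9) (Fin 9) ℝ).transpose O.transpose
          (rox Q.transpose (1 : Matrix (Fin d) (Fin d) ℝ).transpose
            (rox Q 1 (rox 1 O (rox Q.transpose O.transpose x)))) := by rw [e1]
      _ = rox Q.transpose O.transpose x := by rw [hFQ.l, hF1.l]
  refine so827_asm hQ hO hc1 ?_ h3 hε₀ fun ε hε hε' => ?_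
  · rw [← hc2, hY, hc3, so827_rcmb]
  · have h4 := hsp ε hε hε' R (fun k => rotu Q 1 (rotu 1 O (u k))) hSq2 htr
    simp only [hu] at h4
    exact h4

end Vale.Agent.P353.Z.AJ
end

section

/-! # P353, all `N`, block JN, C4: transfer of the vanishing of the functionals to a rotated frame -/

open MeasureTheory Filter Topology Matrix
open scoped ContDiff

namespace Vale.Agent.P353.Z.AJ

variable {d dh dm r ds n : ℕ} {F : Type} [NormedAddCommGroup F] [InnerProductSpace ℂ F]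

theorem trf264_inv {Q : Matrix (Fin 9) (Fin 9) ℝ} (hQ : Q * Q.transpose = 1) (y : Cfg r) :
    rox Q 1 (rox Q.transpose 1 y) = y := by
  rw [AX.rox_one, AX.rox_one, AX.rz_rz hQ]

theorem trf264_inv' {Q : Matrix (Fin 9) (Fin 9) ℝ} (hQ : Q * Q.transpose = 1) (y : Cfg r) :
    rox Q.transpose 1 (rox Q 1 y) = y := by
  have hQT : Q.transpose * Q.transpose.transpose = 1 := by
    rw [Matrix.transpose_transpose]
    exact mul_eq_one_comm.1 hQ
  have h := trf264_inv hQT y
  rwa [Matrix.transpose_transpose] at h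

theorem trf264_zero (Q : Matrix (Fin 9) (Fin 9) ℝ) : rox Q 1 (0 : Cfg r) = 0 := by
  rw [AX.rox_one, ← AX.rzL_apply, map_zero]

/-- the functional sees `Om` on the support of the section only -/
theorem trf264_congr (κ : ℝ) (φ : Spl dh dm d) (ψ : Spl r ds dh)
    (Om Om₁ : Cfg r → Matrix (Fin dm) (Fin dm) ℝ) (a : Cfg r → Cfg ds → F) (R : ℝ) (u : Cfg d → F)
    (h : ∀ η s, a η s ≠ 0 → Om₁ η = Om η) :
    AL.ZZ κ φ ψ Om₁ a R u = AL.ZZ κ φ ψ Om a R u := by
  have hb : AN.bG (dm := dm) κ Om₁ a = AN.bG κ Om a := by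
    funext q
    by_cases h0 : a q.1 q.2.1 = 0
    · rw [AN.bG, AN.bG, h0, smul_zero, smul_zero]
    · rw [AN.bG, AN.bG, h _ _ h0]
  unfold AL.ZZ
  rw [hb]

theorem trf264_sq {R : Matrix (Fin 9) (Fin 9) ℝ} (hR : R * Rᵀ = 1)
    (D : Fin 9 → Matrix (Fin dm) (Fin dm) ℝ) :
    ∑ i, (∑ j, R i j • D j) * (∑ j, R i j • D j) = ∑ i, D i * D i := by
  have horth : ∀ k j, ∑ i, R i k * R i j = if k = j then 1 else 0 := by
    intro k j
    have hR' : Rᵀ * R = 1 := mul_eq_one_comm.1 hR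
    have h := congrFun (congrFun hR' k) j
    rw [Matrix.mul_apply, Matrix.one_apply] at h
    simpa [Matrix.transpose_apply] using h
  have h1 : ∀ i, (∑ j, R i j • D j) * (∑ j, R i j • D j) =
      ∑ k, ∑ j, (R i k * R i j) • (D k * D j) := by
    intro i
    rw [Finset.sum_mul_sum]
    refine Finset.sum_congr rfl fun k _ => Finset.sum_congr rfl fun j _ => ?_
    rw [smul_mul_smul_comm]
  simp only [h1]
  rw [Finset.sum_comm]
  refine Finset.sum_congr rfl fun k _ => ?_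
  rw [Finset.sum_comm]
  simp only [← Finset.sum_smul, horth, ite_smul, one_smul, zero_smul, Finset.sum_ite_eq,
    Finset.mem_univ, if_true]

theorem trf264_Mz (S : Setup d F) (φ : Spl dh dm d) (ψ : Spl r ds dh) (Q : Matrix (Fin 9) (Fin 9) ℝ)
    (hQ : Q * Q.transpose = 1) (h1 : (1 : Matrix (Fin d) (Fin d) ℝ) * (1 : Matrix (Fin d) (Fin d) ℝ).transpose = 1) :
    AX.Mz (S.rot Q hQ 1 h1) φ (spsw ψ) = AX.Mz S φ (spsw ψ) := by
  funext a
  ext B C
  simp only [AX.Mz, Matrix.of_apply, AX.rot_f]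

/-- regular points are frame independent -/
theorem trf264_reg (S : Setup d F) (φ : Spl dh dm d) (ψ : Spl r ds dh) {Q : Matrix (Fin 9) (Fin 9) ℝ}
    (hQ : Q * Q.transpose = 1) (η : Cfg r) :
    (∑ i, DM (AX.Mz S φ (spsw ψ)) (rox Q 1 η) i * DM (AX.Mz S φ (spsw ψ)) (rox Q 1 η) i) =
      ∑ i, S.Dz φ ψ η i * S.Dz φ ψ η i := by
  simp only [AX.rox_one, AX.DM_rz]
  rw [trf264_sq hQ, AX.DM_Dz]

/-- uniqueness of the frequency matrix in the two frames -/
theorem trf264_om (S : Setup d F) (φ : Spl dh dm d) (ψ : Spl r ds dh) {Q : Matrix (Fin 9) (Fin 9) ℝ}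
    (hQ : Q * Q.transpose = 1) (h1 : (1 : Matrix (Fin d) (Fin d) ℝ) * (1 : Matrix (Fin d) (Fin d) ℝ).transpose = 1)
    {L L' : Finset (Fin r → ℝ)} {Om Om' : Cfg r → Matrix (Fin dm) (Fin dm) ℝ} {K K' : Submodule ℂ F}
    {U U' : Cfg r → F →L[ℂ] F} (hB : AX.Bun S φ (AX.Mz S φ (spsw ψ)) L Om K U)
    (hB' : AX.Bun (S.rot Q hQ 1 h1) φ (AX.Mz (S.rot Q hQ 1 h1) φ (spsw ψ)) L' Om' K' U')
    (η : Cfg r) (hη : η ∈ AL.Rg S φ ψ) : Om' (rox Q 1 η) = Om η := by
  have hη' : (∑ i, S.Dz φ ψ η i * S.Dz φ ψ η i).det ≠ 0 := hη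
  rw [trf264_Mz] at hB'
  have e1 : (∑ i, DM (AX.Mz S φ (spsw ψ)) (rox Q 1 η) i * DM (AX.Mz S φ (spsw ψ)) (rox Q 1 η) i).det ≠ 0 := by
    rw [trf264_reg S φ ψ hQ]
    exact hη'
  have e2 := hB'.om _ e1
  have e3 : DM (AX.Mz S φ (spsw ψ)) (rox Q 1 η) = fun i => ∑ j, Q i j • DM (AX.Mz S φ (spsw ψ)) η j := by
    funext i
    rw [AX.rox_one, AX.DM_rz]
  rw [e3] at e2
  have e4 := ((AX.covF0 S φ Q hQ h1 (DM (AX.Mz S φ (spsw ψ)) η) (Om' (rox Q 1 η))).2.2).2 e2
  have e5 : IsOm S.κ (DM (AX.Mz S φ (spsw ψ)) η) (Om η) := by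
    refine hB.om _ ?_
    rw [AX.DM_Dz]
    exact hη'
  exact AX.omU dm S.κ _ _ _ S.κ_pos e4 e5

/-- finite sums of zero modes -/
theorem trf264_sum {e : ℕ} {T : Setup e F} (hZ : AL.ZMLStmt T) (o₀ : Cfg e → F) (h₀ : AD.ZM T o₀)
    (f : Fin n → Cfg e → F) (hf : ∀ j, AD.ZM T (f j)) (s : Finset (Fin n)) :
    AD.ZM T (fun x => ∑ j ∈ s, f j x) := by
  classical
  induction s using Finset.induction_on with
  | empty =>
    have h := hZ.2.1 0 o₀ h₀
    simp only [zero_smul] at h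
    simpa only [Finset.sum_empty] using h
  | insert a s ha ih =>
    have h := hZ.1 _ _ (hf a) ih
    simpa only [Finset.sum_insert ha] using h

/-- **C4** -/
theorem trf_of (S : Setup d F) : TrfOfStmt S := by
  intro hcov hzr hsec hiso hzml hfd hcl Q hQ h1 dh dm r ds n n' φ ψ z₀ hstd L Om K U o T hD L' Om' K' U' o' T'
    hD' R u hu hz b' hb'
  obtain ⟨hb2, A', hA'c, hA's, hA'0⟩ := hb'
  have hQT : Q.transpose * Q.transpose.transpose = 1 := by
    rw [Matrix.transpose_transpose]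
    exact mul_eq_one_comm.1 hQ
  have hB' := hD'.bun
  set a : Cfg r → Cfg ds → F := fun η s => AL.sc U' o' b' (rox Q 1 η) (rox Q 1 s) with ha
  -- the case of no zero modes
  rcases Nat.eq_zero_or_pos n' with hn | hn
  · subst hn
    have h0 : ∀ k, AL.ZZ S.κ φ ψ Om' (AL.sc U' o' b') (R k) (rotu Q 1 (u k)) = 0 := by
      intro k
      unfold AL.ZZ AN.Zb AN.bG AL.sc
      simp
    simp only [h0]
    exact tendsto_const_nhds
  -- section
  have hS2 := (hiso (S.rot Q hQ 1 h1) dh dm r ds n' φ ψ L' Om' K' U' o' T' hD' A' hA'c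
    (fun x hx hx' => hA's hx (Or.inl hx')) b' hb2 hA'0).1
  have hS2a : AL.Sec2 (rox Q.transpose 1 '' A') a := by
    have h := ((hcov Q.transpose hQT).2.1 r ds A' _ hS2).1
    rwa [Matrix.transpose_transpose] at h
  have hsupp : ∀ η s, a η s ≠ 0 → η ∈ rox Q.transpose 1 '' A' := hS2a.2
  -- regular points
  have hcollA : ∀ η' ∈ A', η' ∉ Coll L' := fun x hx hx' => hA's hx (Or.inl hx')
  have hreg : rox Q.transpose 1 '' A' ⊆ AL.Rg S φ ψ := by
    rintro _ ⟨η', hη', rfl⟩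
    have h := hB'.det η' (hcollA η' hη')
    rw [trf264_Mz] at h
    have h2 := trf264_reg S φ ψ hQ (rox Q.transpose 1 η')
    rw [trf264_inv hQ] at h2
    change (∑ i, S.Dz φ ψ (rox Q.transpose 1 η') i * S.Dz φ ψ (rox Q.transpose 1 η') i).det ≠ 0
    rw [← h2]
    exact h
  have h0A : (0 : Cfg r) ∉ rox Q.transpose 1 '' A' := by
    rintro ⟨η', hη', h⟩
    have h2 : η' = 0 := by
      rw [← trf264_inv hQ η', h, trf264_zero]
    exact hA's hη' (Or.inr h2)
  have hcomp : IsCompact (rox Q.transpose 1 '' A') := by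
    have hc : Continuous (rox Q.transpose 1 : Cfg r → Cfg r) := by
      have h : (rox Q.transpose 1 : Cfg r → Cfg r) = AX.rzL r Q.transpose := by
        funext y
        rw [AX.rox_one, AX.rzL_apply]
      rw [h]
      exact (AX.rzL r Q.transpose).continuous
    exact hA'c.image hc
  -- the functional
  have hkey : ∀ k, AL.ZZ S.κ φ ψ Om' (AL.sc U' o' b') (R k) (rotu Q 1 (u k)) =
      AL.ZZ S.κ φ ψ Om a (R k) (u k) := by
    intro k
    have h := (hcov Q hQ).1 d dh dm r ds φ ψ S.κ (fun η => Om' (rox Q 1 η)) a (R k) (u k)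
    simp only [ha, trf264_inv hQ] at h
    rw [← h]
    exact trf264_congr S.κ φ ψ Om _ _ (R k) (u k) fun η s hη =>
      trf264_om S φ ψ hQ h1 hD.bun hB' η (hreg (hsupp η s hη))
  simp only [hkey]
  refine hsec hfd hcl dh dm r ds n φ ψ z₀ hstd L Om K U o T hD R u hu hz _ hcomp hreg h0A a hS2a ?_
  refine Eventually.of_forall fun η => ⟨?_, ?_⟩
  · -- zero modes
    have h2 : (1 : Matrix (Fin ds) (Fin ds) ℝ) * (1 : Matrix (Fin ds) (Fin ds) ℝ).transpose = 1 := by
      rw [Matrix.transpose_one, Matrix.mul_one]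
    have hzo : ∀ j, AD.ZM (S.int φ ψ hD.sub hD.cen) (fun s => o' j (rox Q 1 s)) := by
      intro j
      have h3 := hD'.zm j
      rw [(hzr Q hQ).1 d dh dm r ds S h1 h2 φ ψ hD.sub hD.cen hD'.sub hD'.cen] at h3
      exact (hzr Q hQ).2 ds _ h2 _ h3
    have hzj : ∀ j, AD.ZM (S.int φ ψ hD.sub hD.cen)
        (fun s => b' (rox Q 1 η) j • U' (rox Q 1 η) (o' j (rox Q 1 s))) := by
      intro j
      refine (hzml ds _).2.1 _ _ ((hzml ds _).2.2.2.2 (U' (rox Q 1 η)) (Or.inl fun α B => ?_) _ (hzo j))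
      have h4 := hB'.U_comm (rox Q 1 η) α (ψ (Sum.inr B))
      rw [(AX.covF0 S φ Q hQ h1 (fun _ => 0) 0).1] at h4
      exact h4
    exact trf264_sum (hzml ds _) _ (hzo ⟨0, hn⟩) _ hzj Finset.univ
  · -- values
    by_cases hη : rox Q 1 η ∈ A'
    · have hηR : η ∈ AL.Rg S φ ψ := hreg ⟨rox Q 1 η, hη, trf264_inv' hQ η⟩
      have hmp : MeasurePreserving (rox Q 1 : Cfg ds → Cfg ds) volume volume :=
        AN.rt_mp hQ (by rw [Matrix.transpose_one, Matrix.mul_one])
      have hv : ∀ᵐ s ∂(volume : Measure (Cfg ds)), ∀ j, o' j (rox Q 1 s) ∈ K' := by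
        rw [ae_all_iff]
        intro j
        exact hmp.quasiMeasurePreserving.ae (hD'.val j)
      filter_upwards [hv] with s hs
      refine Submodule.sum_mem _ fun j _ => Submodule.smul_mem _ _ ?_
      have h5 := (hB'.U_mem _ (hcollA _ hη) (o' j (rox Q 1 s))).1 (hs j)
      rw [trf264_Mz] at h5
      have e3 : DM (AX.Mz S φ (spsw ψ)) (rox Q 1 η) = fun i => ∑ j, Q i j • DM (AX.Mz S φ (spsw ψ)) η j := by
        funext i
        rw [AX.rox_one, AX.DM_rz]
      rw [e3, (AX.covF0 S φ Q hQ h1 (DM (AX.Mz S φ (spsw ψ)) η) (Om' (rox Q 1 η))).2.1, AX.DM_Dz,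
        trf264_om S φ ψ hQ h1 hD.bun hB' η hηR] at h5
      exact h5
    · refine Eventually.of_forall fun s => ?_
      have h6 : a η s = 0 := by
        simp only [ha, AL.sc, hA'0 _ hη]
        simp
      rw [h6]
      exact Submodule.zero_mem _

end Vale.Agent.P353.Z.AJ
end

section

/-! # P353, all `N`, block REP, R1: averages over `SU(N)` do not change pairings with gauge invariant functions -/

open MeasureTheory Filter Topology
open scoped ContDiff

namespace Vale.Agent.P353.AN.REP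

open Vale.Agent.P353.Z Vale.Agent.P353.Z.U Vale.Agent.P353.Z.AN Vale.Agent.P353.AN.G

universe w

variable {N d : ℕ} {F : Type w} [NormedAddCommGroup F] [InnerProductSpace ℂ F]

/-- conjugated pairing of an average with a core function -/
theorem ipr_pair [FiniteDimensional ℂ F] (M : BFSS.Model N d F) (h22 : ActStmt M)
    {f u : Cfg d → F} (hf : Continuous f) (hu : Continuous u) (hc : HasCompactSupport u)
    (he : ∀ U x, u (M.act U x) = M.S U (u x)) :
    ∫ x, (inner ℂ (u x) (avg M f x) : ℂ) = ∫ x, (inner ℂ (u x) (f x) : ℂ) := by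
  have e1 : ∀ x, (inner ℂ (u x) (avg M f x) : ℂ) =
      ∫ U, (inner ℂ (u x) (M.S U (f (M.act U⁻¹ x))) : ℂ) ∂(hm N) :=
    fun x => AvgG.self_eq M h22 hf x _
  rw [integral_congr_ae (Eventually.of_forall e1), AvgG.swap_int M h22 hf hu hc]
  have e3 : ∀ U : BFSS.SU N,
      ∫ x, (inner ℂ (u x) (M.S U (f (M.act U⁻¹ x))) : ℂ) = ∫ x, (inner ℂ (u x) (f x) : ℂ) := by
    intro U
    rw [← AvgG.int_act M h22 U]
    have e4 : ∀ x, (inner ℂ (u (M.act U x))
        (M.S U (f (M.act U⁻¹ (M.act U x)))) : ℂ) = inner ℂ (u x) (f x) := by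
      intro x
      rw [← h22.1, inv_mul_cancel, h22.2.1, he U x, AvgG.inner_S]
    exact integral_congr_ae (Eventually.of_forall e4)
  rw [integral_congr_ae (Eventually.of_forall e3), integral_const]
  simp

/-- **R1** averages do not change the pairing with gauge invariant functions -/
theorem ipr_stmt (M : BFSS.Model N d F) (h0 : CoreStmt M) : IprStmt M := by
  intro hF S hS f hf
  have h22 : ActStmt M := act_stmt M
  have h23 : QActStmt M := qAct M
  have h24 : AvgDStmt M := avgD M (smInt (BFSS.SU N) (Cfg d)) h22 h23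
  have h25 : AvgCStmt M := avgC M h22
  have hw : Setup.Tst (avg M f) := (h24 S hS f hf).1
  have hcore := h25 f hf hw
  refine ⟨⟨hw, fun C x => gaussLaw M S hS _ hcore C x⟩, fun u hu => ?_⟩
  have hcu : M.IsCore u := h0 hF S hS u hu.1 hu.2
  have h1 := ipr_pair M h22 hf.1.continuous hu.1.1.continuous hu.1.2 hcu.2.2
  have h2 : ∀ g : Cfg d → F, ipr g u = (starRingEnd ℂ) (∫ x, (inner ℂ (u x) (g x) : ℂ)) := by
    intro g
    unfold ipr
    rw [← integral_conj]
    refine integral_congr_ae (Eventually.of_forall fun x => ?_)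
    exact (inner_conj_symm (g x) (u x)).symm
  rw [h2, h2, h1]

end Vale.Agent.P353.AN.REP
end

section

/-! # P353, all `N`, block SGN, S21: the `s` part of a normaliser element with trivial `z` part is inner (prover helper655) -/

open MeasureTheory Filter Topology Matrix
open scoped ContDiff

namespace Vale.Agent.P353.Z.AS

section Log

open scoped Matrix.Norms.L2Operator

/-- logarithm of a unitary matrix, commuting with everything that commutes with the matrix -/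
theorem ef655_log {N : ℕ} (V : Matrix (Fin N) (Fin N) ℂ) (hV : V ∈ unitary (Matrix (Fin N) (Fin N) ℂ)) :
    ∃ K : Matrix (Fin N) (Fin N) ℂ, K.IsHermitian ∧ NormedSpace.exp (Complex.I • K) = V ∧
      ∀ B : Matrix (Fin N) (Fin N) ℂ, V * B = B * V → star V * B = B * star V → K * B = B * K := by
  have hnorm : IsStarNormal V := by
    refine ⟨?_⟩
    rw [Commute, SemiconjBy, (Unitary.mem_iff.1 hV).1, (Unitary.mem_iff.1 hV).2]
  have hc : ContinuousOn Complex.arg (spectrum ℂ V) := (Matrix.finite_spectrum V).continuousOn _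
  refine ⟨cfc (fun z : ℂ => (Complex.arg z : ℂ)) V, ?_, ?_, fun B h1 h2 => ?_⟩
  · exact IsSelfAdjoint.cfc_arg V
  · rw [← CFC.exp_eq_normedSpace_exp (𝕜 := ℂ), ← cfc_comp_smul .., ← cfc_comp' ..]
    conv_rhs => rw [← cfc_id' ℂ V]
    refine cfc_congr fun y hy ↦ ?_
    have hy₁ : ‖y‖ = 1 := spectrum.norm_eq_one_of_unitary hV hy
    have hy0 : y ≠ 0 := by
      rintro rfl
      simp at hy₁
    have : Complex.I * y.arg = Complex.log y :=
      Complex.ext (by simp [Complex.log_re, hy₁]) (by simp [Complex.log_im])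
    simpa [← Complex.exp_eq_exp_ℂ, this] using Complex.exp_log hy0
  · exact (Commute.cfc (𝕜 := ℂ) (a := V) (b := B) h1 h2 _).eq

end Log

section Ex

variable {N d dh dm ds dz k : ℕ} {n : Fin k → ℕ} {T : Fin d → Matrix (Fin N) (Fin N) ℂ} {φ : Spl dh dm d} {ψ : Spl ds dz dh}
  {f : Fin d → Fin d → Fin d → ℝ}

/-- sums over the colours -/
theorem ef655_sum {V : Type*} [AddCommMonoid V] (φ : Spl dh dm d) (ψ : Spl ds dz dh) (g : Fin d → V) :
    ∑ A, g A = (∑ A, g (φ (Sum.inl (ψ (Sum.inl A))))) + (∑ A, g (φ (Sum.inl (ψ (Sum.inr A))))) +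
      ∑ A, g (φ (Sum.inr A)) := by
  rw [← φ.sum_comp, Fintype.sum_sum_type, ← ψ.sum_comp, Fintype.sum_sum_type]

theorem ef655_real (hb : Bas N d T f) {K : Matrix (Fin N) (Fin N) ℂ} (hK : K.conjTranspose = K) (A : Fin d) :
    (T A * K).trace = (((T A * K).trace.re : ℝ) : ℂ) := by
  symm
  rw [← Complex.conj_eq_iff_re]
  have h1 : (T A * K).conjTranspose.trace = star (T A * K).trace := Matrix.trace_conjTranspose _
  rw [Matrix.conjTranspose_mul, hb.herm, hK, Matrix.trace_mul_comm] at h1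
  exact h1.symm

theorem ef655_cyc (hb : Bas N d T f) (A B C : Fin d) : f A B C = f B C A := by
  have h1 := ANF.nr775_f hb A B C
  have h2 := ANF.nr775_f hb B C A
  have h3 : ((T A * T B - T B * T A) * T C).trace = ((T B * T C - T C * T B) * T A).trace := by
    rw [Matrix.sub_mul, Matrix.sub_mul, Matrix.trace_sub, Matrix.trace_sub]
    congr 1
    · rw [Matrix.mul_assoc, Matrix.trace_mul_comm]
    · rw [Matrix.mul_assoc, Matrix.mul_assoc, Matrix.trace_mul_comm, Matrix.mul_assoc, Matrix.trace_mul_comm,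
        Matrix.mul_assoc]
  rw [h3, ← h2] at h1
  have h4 := mul_left_cancel₀ Complex.I_ne_zero h1
  exact_mod_cast h4

/-- **S21** -/
theorem exF_stmt (f : Fin d → Fin d → Fin d → ℝ) (fr : NFr n T φ ψ) : ExFStmt f fr := by
  intro hb V hblk hz
  have hN : 0 < N := by
    have h0 : 0 < k := by have := fr.two; omega
    have h1 := fr.pos ⟨0, h0⟩
    have x := fr.E ⟨⟨0, h0⟩, ⟨0, by omega⟩⟩
    exact x.pos
  have hN' : (N : ℂ) ≠ 0 := by exact_mod_cast hN.ne'
  have hVu : V.val ∈ unitary (Matrix (Fin N) (Fin N) ℂ) := (Matrix.mem_specialUnitaryGroup_iff.1 V.2).1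
  have hV1 : V.val.conjTranspose * V.val = 1 := (Unitary.mem_iff.1 hVu).1
  have hV2 : V.val * V.val.conjTranspose = 1 := (Unitary.mem_iff.1 hVu).2
  -- V commutes with the z matrices
  have hfix : ∀ B, V.val * T (φ (Sum.inl (ψ (Sum.inr B)))) * V.val.conjTranspose = T (φ (Sum.inl (ψ (Sum.inr B)))) := by
    intro B
    set Y := V.val * T (φ (Sum.inl (ψ (Sum.inr B)))) * V.val.conjTranspose with hY
    have hYh : Y.conjTranspose = Y := by
      rw [hY, Matrix.conjTranspose_mul, Matrix.conjTranspose_mul, Matrix.conjTranspose_conjTranspose, hb.herm,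
        Matrix.mul_assoc]
    have hYt : Y.trace = 0 := by
      rw [hY, Matrix.trace_mul_comm, ← Matrix.mul_assoc, hV1, Matrix.one_mul, hb.tr0]
    have hc := ANF.nr775_complete hb hN Y
    rw [hYt, zero_div, zero_smul, add_zero, ef655_sum φ ψ] at hc
    have hco : ∀ A, (T A * Y).trace = ((adO T V A (φ (Sum.inl (ψ (Sum.inr B)))) : ℝ) : ℂ) := by
      intro A
      rw [ef655_real hb hYh A]
      rfl
    have h1 : ∀ A, ((T (φ (Sum.inl (ψ (Sum.inl A)))) * Y).trace • T (φ (Sum.inl (ψ (Sum.inl A)))) :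
        Matrix (Fin N) (Fin N) ℂ) = 0 := by
      intro A
      rw [hco, hblk.sz, Complex.ofReal_zero, zero_smul]
    have h2 : ∀ A, ((T (φ (Sum.inr A)) * Y).trace • T (φ (Sum.inr A)) : Matrix (Fin N) (Fin N) ℂ) = 0 := by
      intro A
      rw [hco, hblk.mh, Complex.ofReal_zero, zero_smul]
    have h3 : ∀ A, ((T (φ (Sum.inl (ψ (Sum.inr A)))) * Y).trace • T (φ (Sum.inl (ψ (Sum.inr A)))) :
        Matrix (Fin N) (Fin N) ℂ) = if A = B then T (φ (Sum.inl (ψ (Sum.inr A)))) else 0 := by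
      intro A
      have h4 : adO T V (φ (Sum.inl (ψ (Sum.inr A)))) (φ (Sum.inl (ψ (Sum.inr B)))) = if A = B then 1 else 0 := by
        have h5 : zO φ ψ (adO T V) A B = (1 : Matrix (Fin dz) (Fin dz) ℝ) A B := by rw [hz]
        rw [Matrix.one_apply] at h5
        exact h5
      rw [hco, h4]
      split_ifs <;> simp
    rw [Finset.sum_congr rfl fun A _ => h1 A, Finset.sum_congr rfl fun A _ => h2 A,
      Finset.sum_congr rfl fun A _ => h3 A] at hc
    simpa using hc
  have hcomV : ∀ B, V.val * T (φ (Sum.inl (ψ (Sum.inr B)))) = T (φ (Sum.inl (ψ (Sum.inr B)))) * V.val := by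
    intro B
    conv_rhs => rw [← hfix B]
    rw [Matrix.mul_assoc _ _ V.val, hV1, Matrix.mul_one]
  have hcomV' : ∀ B, star V.val * T (φ (Sum.inl (ψ (Sum.inr B)))) = T (φ (Sum.inl (ψ (Sum.inr B)))) * star V.val := by
    intro B
    have h := congrArg Matrix.conjTranspose (hcomV B)
    rw [Matrix.conjTranspose_mul, Matrix.conjTranspose_mul, hb.herm] at h
    exact h.symm
  obtain ⟨K, hKh, hKe, hKc⟩ := ef655_log V.val hVu
  have hKz : ∀ B, K * T (φ (Sum.inl (ψ (Sum.inr B)))) = T (φ (Sum.inl (ψ (Sum.inr B)))) * K := fun B =>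
    hKc _ (hcomV B) (hcomV' B)
  -- K commutes with block scalars
  have hbdz : ∀ v : Fin k → ℂ, K * bd fr.E v = bd fr.E v * K := by
    intro v
    have hbdBD : ANF.NrBD fr.E (bd fr.E v) := by
      intro s t h
      rw [ANF.nr775_bd, if_neg]
      rintro rfl
      exact h rfl
    have hc := ANF.nr775_complete hb hN (bd fr.E v)
    rw [ef655_sum φ ψ] at hc
    have h1 : ∀ A, ((T (φ (Sum.inr A)) * bd fr.E v).trace • T (φ (Sum.inr A)) : Matrix (Fin N) (Fin N) ℂ) = 0 := by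
      intro A
      rw [Matrix.trace_mul_comm, ANF.nr775_tr hbdBD (fr.m_eq A), zero_smul]
    have h2 : ∀ A, ((T (φ (Sum.inl (ψ (Sum.inl A)))) * bd fr.E v).trace • T (φ (Sum.inl (ψ (Sum.inl A)))) :
        Matrix (Fin N) (Fin N) ℂ) = 0 := by
      intro A
      obtain ⟨⟨a, i⟩, rfl⟩ := fr.es.surjective A
      have h3 : (T (φ (Sum.inl (ψ (Sum.inl (fr.es ⟨a, i⟩))))) * bd fr.E v).trace = 0 := by
        rw [fr.s_eq, ANF.EX808.tr_bk, ANF.EX808.blk_bd, Matrix.mul_smul, Matrix.mul_one, Matrix.trace_smul,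
          (fr.Tb_bas (n a) (fr.pos a)).tr0, smul_zero]
      rw [h3, zero_smul]
    rw [Finset.sum_congr rfl fun A _ => h1 A, Finset.sum_congr rfl fun A _ => h2 A, Finset.sum_const_zero,
      Finset.sum_const_zero, zero_add, add_zero] at hc
    rw [hc, Matrix.mul_add, Matrix.add_mul, Matrix.mul_sum, Matrix.sum_mul, Matrix.mul_smul, Matrix.smul_mul,
      Matrix.mul_one, Matrix.one_mul]
    congr 1
    refine Finset.sum_congr rfl fun A _ => ?_
    rw [Matrix.mul_smul, Matrix.smul_mul, hKz]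
  -- K is block diagonal
  have hKBD : ANF.NrBD fr.E K := by
    intro s t h
    have h1 := congrFun (congrFun (hbdz (Pi.single s.1 1)) (fr.E s)) (fr.E t)
    rw [Matrix.mul_apply, Matrix.mul_apply, ← fr.E.sum_comp, ← fr.E.sum_comp, Finset.sum_eq_single t,
      Finset.sum_eq_single s] at h1
    · rw [ANF.nr775_bd, ANF.nr775_bd, if_pos rfl, if_pos rfl, Pi.single_eq_same, Pi.single_eq_of_ne (Ne.symm h),
        mul_zero, one_mul] at h1
      exact h1.symm
    · intro r _ hr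
      rw [ANF.nr775_bd, if_neg (Ne.symm hr), zero_mul]
    · intro h2
      exact absurd (Finset.mem_univ _) h2
    · intro r _ hr
      rw [ANF.nr775_bd, if_neg hr, mul_zero]
    · intro h2
      exact absurd (Finset.mem_univ _) h2
  have hreal := fun A => ef655_real hb (K := K) hKh A
  set h : Fin ds → ℝ := fun A => (T (φ (Sum.inl (ψ (Sum.inl A)))) * K).trace.re with hh
  have hKexp : K = ∑ A, ((h A : ℝ) : ℂ) • T (φ (Sum.inl (ψ (Sum.inl A)))) +
      ((∑ A, (T (φ (Sum.inl (ψ (Sum.inr A)))) * K).trace • T (φ (Sum.inl (ψ (Sum.inr A))))) +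
        (K.trace / N) • (1 : Matrix (Fin N) (Fin N) ℂ)) := by
    have hc := ANF.nr775_complete hb hN K
    rw [ef655_sum φ ψ] at hc
    have h1 : ∀ A, ((T (φ (Sum.inr A)) * K).trace • T (φ (Sum.inr A)) : Matrix (Fin N) (Fin N) ℂ) = 0 := by
      intro A
      rw [Matrix.trace_mul_comm, ANF.nr775_tr hKBD (fr.m_eq A), zero_smul]
    rw [Finset.sum_congr rfl fun A _ => h1 A, Finset.sum_const_zero, add_zero,
      Finset.sum_congr rfl fun A _ => by rw [hreal (φ (Sum.inl (ψ (Sum.inl A))))], add_assoc] at hc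
    exact hc
  set Z : Matrix (Fin N) (Fin N) ℂ := (∑ A, (T (φ (Sum.inl (ψ (Sum.inr A)))) * K).trace • T (φ (Sum.inl (ψ (Sum.inr A))))) +
        (K.trace / N) • (1 : Matrix (Fin N) (Fin N) ℂ) with hZ
  have hZc : ∀ C : Fin ds, Z * T (φ (Sum.inl (ψ (Sum.inl C)))) = T (φ (Sum.inl (ψ (Sum.inl C)))) * Z := by
    intro C
    rw [hZ, Matrix.add_mul, Matrix.mul_add, Matrix.sum_mul, Matrix.mul_sum, Matrix.smul_mul, Matrix.mul_smul,
      Matrix.one_mul, Matrix.mul_one]
    congr 1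
    refine Finset.sum_congr rfl fun A _ => ?_
    rw [Matrix.smul_mul, Matrix.mul_smul, fr.z_eq, ANF.nst_bdcomm fr.E _ (ANF.nst_bd fr (ψ (Sum.inl C)))]
  set f' : Fin ds → Fin ds → Fin ds → ℝ := fun A B C =>
    f (φ (Sum.inl (ψ (Sum.inl A)))) (φ (Sum.inl (ψ (Sum.inl B)))) (φ (Sum.inl (ψ (Sum.inl C)))) with hf'
  have hcomm : ∀ A C : Fin ds, T (φ (Sum.inl (ψ (Sum.inl A)))) * T (φ (Sum.inl (ψ (Sum.inl C)))) -
      T (φ (Sum.inl (ψ (Sum.inl C)))) * T (φ (Sum.inl (ψ (Sum.inl A)))) =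
        ∑ B, (Complex.I * (f' A C B : ℂ)) • T (φ (Sum.inl (ψ (Sum.inl B)))) := by
    intro A C
    rw [hb.comm, ef655_sum φ ψ]
    have h1 : ∀ B, ((Complex.I * (f (φ (Sum.inl (ψ (Sum.inl A)))) (φ (Sum.inl (ψ (Sum.inl C)))) (φ (Sum.inr B)) : ℂ)) •
        T (φ (Sum.inr B)) : Matrix (Fin N) (Fin N) ℂ) = 0 := by
      intro B
      rw [ANF.nst_sub hb fr, Complex.ofReal_zero, mul_zero, zero_smul]
    have h2 : ∀ B, ((Complex.I * (f (φ (Sum.inl (ψ (Sum.inl A)))) (φ (Sum.inl (ψ (Sum.inl C))))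
        (φ (Sum.inl (ψ (Sum.inr B)))) : ℂ)) •
        T (φ (Sum.inl (ψ (Sum.inr B)))) : Matrix (Fin N) (Fin N) ℂ) = 0 := by
      intro B
      rw [ef655_cyc hb, ef655_cyc hb, ANF.nst_cen hb fr, Complex.ofReal_zero, mul_zero, zero_smul]
    rw [Finset.sum_congr rfl fun B _ => h1 B, Finset.sum_congr rfl fun B _ => h2 B, Finset.sum_const_zero,
      Finset.sum_const_zero, add_zero, add_zero]
  have hD : ∀ C : Fin ds, (Complex.I • K) * T (φ (Sum.inl (ψ (Sum.inl C)))) -
      T (φ (Sum.inl (ψ (Sum.inl C)))) * (Complex.I • K) =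
      ∑ B, ((adf f' (-h) B C : ℝ) : ℂ) • T (φ (Sum.inl (ψ (Sum.inl B)))) := by
    intro C
    have e1 : (Complex.I • K) * T (φ (Sum.inl (ψ (Sum.inl C)))) - T (φ (Sum.inl (ψ (Sum.inl C)))) * (Complex.I • K) =
        Complex.I • ∑ A, ((h A : ℝ) : ℂ) • (T (φ (Sum.inl (ψ (Sum.inl A)))) * T (φ (Sum.inl (ψ (Sum.inl C)))) -
          T (φ (Sum.inl (ψ (Sum.inl C)))) * T (φ (Sum.inl (ψ (Sum.inl A))))) := by
      conv_lhs => rw [hKexp]
      rw [Matrix.smul_mul, Matrix.mul_smul, ← smul_sub, Matrix.add_mul, Matrix.mul_add, hZc,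
        add_sub_add_right_eq_sub, Matrix.sum_mul, Matrix.mul_sum, ← Finset.sum_sub_distrib]
      congr 1
      refine Finset.sum_congr rfl fun A _ => ?_
      rw [Matrix.smul_mul, Matrix.mul_smul, smul_sub]
    rw [e1, Finset.smul_sum]
    have e2 : ∀ A, Complex.I • ((h A : ℝ) : ℂ) • (T (φ (Sum.inl (ψ (Sum.inl A)))) * T (φ (Sum.inl (ψ (Sum.inl C)))) -
          T (φ (Sum.inl (ψ (Sum.inl C)))) * T (φ (Sum.inl (ψ (Sum.inl A))))) =
        ∑ B, ((-(h A * f' A C B) : ℝ) : ℂ) • T (φ (Sum.inl (ψ (Sum.inl B)))) := by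
      intro A
      rw [hcomm, Finset.smul_sum, Finset.smul_sum]
      refine Finset.sum_congr rfl fun B _ => ?_
      rw [smul_smul, smul_smul]
      congr 1
      push_cast
      linear_combination ((h A : ℂ) * (f' A C B : ℂ)) * Complex.I_mul_I
    rw [Finset.sum_congr rfl fun A _ => e2 A, Finset.sum_comm]
    refine Finset.sum_congr rfl fun B _ => ?_
    rw [← Finset.sum_smul, ← Complex.ofReal_sum]
    congr 2
    simp only [adf, Matrix.of_apply, Pi.neg_apply]
    refine Finset.sum_congr rfl fun A _ => ?_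
    have h1 : f' B A C = f' A C B := ef655_cyc hb _ _ _
    rw [h1]
    ring
  have hconj := U.mad_conj (fun A : Fin ds => T (φ (Sum.inl (ψ (Sum.inl A))))) (Complex.I • K) (adf f' (-h)) hD
  have hstar : V.val.conjTranspose = NormedSpace.exp (-(Complex.I • K)) := by
    rw [← hKe, ← Matrix.exp_conjTranspose, Matrix.conjTranspose_smul, hKh.eq]
    simp
  refine ⟨-h, ?_⟩
  ext B A
  simp only [sO, Matrix.of_apply, adO]
  unfold BFSS.adCoeff
  rw [hstar]
  conv_lhs => rw [← hKe]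
  rw [hconj A, Matrix.mul_sum, Matrix.trace_sum, Finset.sum_eq_single B]
  · rw [Matrix.mul_smul, Matrix.trace_smul, hb.ortho, if_pos rfl]
    simp
  · intro C _ hC
    rw [Matrix.mul_smul, Matrix.trace_smul, hb.ortho, if_neg, smul_zero]
    intro h1
    have h2 := φ.injective h1
    have h3 := ψ.injective (Sum.inl.inj h2)
    exact hC (Sum.inl.inj h3).symm
  · intro h1
    exact absurd (Finset.mem_univ _) h1

end Ex

end Vale.Agent.P353.Z.AS
end
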