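import Mathlib
import Vale.Agent.P353.BdA.B22
import Vale.Agent.P353.BdA.B10
import Vale.Agent.P353.BdA.B7

set_option linter.all false

section

/-! # P353, all `N`, block SGN: S4 constancy of the eigenvalue (helper155) -/

open MeasureTheory Filter Topology Matrix
open scoped ContDiff

namespace Vale.Agent.P353.Z.AS

variable {d : ℕ} {F : Type*} [NormedAddCommGroup F] [InnerProductSpace ℂ F]

namespace E155

/-- pairs (unit vacuum vector, parameter) with eigenvalue in `Z` -/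
def AZ (S : Setup d F) (J : ℝ → Matrix (Fin 16 × Fin d) (Fin 16 × Fin d) ℂ) (M : F →L[ℂ] F) (Z : Set ℂ) :
    Set (Metric.sphere (0 : F) 1 × ℝ) :=
  {x | (x.1 : F) ∈ JV S (J x.2) ∧ M (x.1 : F) = (inner ℂ (x.1 : F) (M (x.1 : F)) : ℂ) • (x.1 : F) ∧
    (inner ℂ (x.1 : F) (M (x.1 : F)) : ℂ) ∈ Z}

lemma AZ_closed (S : Setup d F) {J : ℝ → Matrix (Fin 16 × Fin d) (Fin 16 × Fin d) ℂ} (hJ : Continuous J) (M : F →L[ℂ] F)
    {Z : Set ℂ} (hZ : IsClosed Z) : IsClosed (AZ S J M Z) := by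
  have hv : Continuous fun x : Metric.sphere (0 : F) 1 × ℝ => (x.1 : F) := continuous_subtype_val.comp continuous_fst
  have hM : Continuous fun x : Metric.sphere (0 : F) 1 × ℝ => M (x.1 : F) := M.continuous.comp hv
  have hi : Continuous fun x : Metric.sphere (0 : F) 1 × ℝ => (inner ℂ (x.1 : F) (M (x.1 : F)) : ℂ) := hv.inner hM
  refine IsClosed.inter ?_ (IsClosed.inter (isClosed_eq hM (hi.smul hv)) (hZ.preimage hi))
  have h1 : {x : Metric.sphere (0 : F) 1 × ℝ | (x.1 : F) ∈ JV S (J x.2)} =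
      ⋂ p, {x : Metric.sphere (0 : F) 1 × ℝ | ∑ q : Fin 16 × Fin d,
        ((1 : Matrix (Fin 16 × Fin d) (Fin 16 × Fin d) ℂ) - Complex.I • J x.2) p q • S.th q.1 q.2 (x.1 : F) = 0} := by
    ext x
    simp only [Set.mem_iInter]
    exact Iff.rfl
  change IsClosed {x : Metric.sphere (0 : F) 1 × ℝ | (x.1 : F) ∈ JV S (J x.2)}
  rw [h1]
  refine isClosed_iInter fun p => isClosed_eq ?_ continuous_const
  refine continuous_finset_sum _ fun q _ => Continuous.smul ?_ ((S.th q.1 q.2).continuous.comp hv)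
  have h2 : Continuous fun x : Metric.sphere (0 : F) 1 × ℝ => J x.2 p q :=
    (continuous_id.matrix_elem p q).comp (hJ.comp continuous_snd)
  have h3 : (fun x : Metric.sphere (0 : F) 1 × ℝ =>
      ((1 : Matrix (Fin 16 × Fin d) (Fin 16 × Fin d) ℂ) - Complex.I • J x.2) p q) =
      fun x => (1 : Matrix (Fin 16 × Fin d) (Fin 16 × Fin d) ℂ) p q - Complex.I * J x.2 p q := by
    funext x
    simp
  rw [h3]
  exact continuous_const.sub (continuous_const.mul h2)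

end E155

open E155

theorem eig_stmt (S : Setup d F) : LineStmt S → ImpTStmt S → EigStmt S := by
  intro hL hI hfd hIrr hne J T M hJ hC hT hTJ hImT hM h1 v0 hv0
  haveI : FiniteDimensional ℂ F := hfd
  haveI : ProperSpace F := FiniteDimensional.proper ℂ F
  have hTT : ∀ s, T * J s * Tᵀ = J s := by
    intro s
    rw [hTJ s, Matrix.mul_assoc, hT, Matrix.mul_one]
  choose ζ hζ using fun s => hL hIrr hne (J s) (hC s)
  have hζ1 : ∀ s, ζ s ∈ JV S (J s) := fun s => (hζ s).1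
  have hζn : ∀ s, ‖ζ s‖ = 1 := fun s => (hζ s).2.1
  have hζs : ∀ s, ∀ v ∈ JV S (J s), ∃ c : ℂ, v = c • ζ s := fun s => (hζ s).2.2
  have hinn : ∀ s, (inner ℂ (ζ s) (ζ s) : ℂ) = 1 := by
    intro s
    rw [inner_self_eq_norm_sq_to_K, hζn s]
    simp
  -- eigenvalues
  have hMζ : ∀ s, M (ζ s) = (inner ℂ (ζ s) (M (ζ s)) : ℂ) • ζ s := by
    intro s
    have h2 := hI T (J s) M hT hImT (ζ s) (hζ1 s)
    rw [hTT s] at h2
    obtain ⟨c, hc⟩ := hζs s _ h2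
    rw [hc, inner_smul_right, hinn s, mul_one]
  set lam : ℝ → ℂ := fun s => inner ℂ (ζ s) (M (ζ s)) with hlam
  have hMl : ∀ s, M (ζ s) = lam s • ζ s := hMζ
  -- the set where the eigenvalue lies in a closed set is closed
  have hset : ∀ Z : Set ℂ, Prod.snd '' AZ S J M Z = {s | lam s ∈ Z} := by
    intro Z
    ext s
    constructor
    · rintro ⟨⟨⟨v, hv⟩, s'⟩, ⟨hv1, hv2, hv3⟩, rfl⟩
      dsimp only at hv1 hv2 hv3 ⊢
      obtain ⟨c, hc⟩ := hζs s' v hv1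
      have hvn : ‖v‖ = 1 := by simpa using hv
      have h3 : (inner ℂ v (M v) : ℂ) = lam s' := by
        have h4 : (inner ℂ v v : ℂ) = 1 := by
          rw [inner_self_eq_norm_sq_to_K, hvn]
          simp
        have h5 : M v = lam s' • v := by
          rw [hc, map_smul, hMl, smul_comm]
        rw [h5, inner_smul_right, h4, mul_one]
      change lam s' ∈ Z
      rw [← h3]
      exact hv3
    · intro hs
      refine ⟨(⟨ζ s, by simp [hζn s]⟩, s), ⟨hζ1 s, hMζ s, hs⟩, rfl⟩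
  have hcl : ∀ Z : Set ℂ, IsClosed Z → IsClosed {s | lam s ∈ Z} := by
    intro Z hZ
    rw [← hset Z]
    exact isClosedMap_snd_of_compactSpace _ (AZ_closed S hJ M hZ)
  -- finitely many eigenvalues
  have hfin : Set.Finite (setOf (Module.End.HasEigenvalue (M : F →ₗ[ℂ] F))) := Module.End.finite_hasEigenvalue _
  have heig : ∀ s, Module.End.HasEigenvalue (M : F →ₗ[ℂ] F) (lam s) := by
    intro s
    refine Module.End.hasEigenvalue_of_hasEigenvector (x := ζ s) ⟨?_, ?_⟩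
    · rw [Module.End.mem_eigenspace_iff]
      exact hMl s
    · intro h
      have := hζn s
      rw [h, norm_zero] at this
      exact zero_ne_one this
  have hA : IsClosed {s | lam s = 1} := hcl {1} isClosed_singleton
  have hB : IsClosed {s | lam s ≠ 1} := by
    have h2 : {s | lam s ≠ 1} = {s | lam s ∈ setOf (Module.End.HasEigenvalue (M : F →ₗ[ℂ] F)) \ {1}} := by
      ext s
      simp only [Set.mem_setOf_eq, Set.mem_diff, Set.mem_singleton_iff, ne_eq]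
      exact ⟨fun h => ⟨heig s, h⟩, fun h => h.2⟩
    rw [h2]
    exact hcl _ (hfin.subset Set.diff_subset).isClosed
  have hclopen : IsClopen {s | lam s = 1} := by
    refine ⟨hA, ?_⟩
    have : {s | lam s = 1} = {s | lam s ≠ 1}ᶜ := by
      ext s
      simp
    rw [this]
    exact hB.isOpen_compl
  have h1m : (1 : ℝ) ∈ {s | lam s = 1} := by
    change (inner ℂ (ζ 1) (M (ζ 1)) : ℂ) = 1
    rw [h1 _ (hζ1 1), hinn]
  have huniv : {s | lam s = 1} = Set.univ := hclopen.eq_univ ⟨1, h1m⟩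
  have h0m : lam 0 = 1 := by
    have : (0 : ℝ) ∈ {s | lam s = 1} := by
      rw [huniv]
      exact Set.mem_univ _
    exact this
  obtain ⟨c, hc⟩ := hζs 0 v0 hv0
  rw [hc, map_smul, hMl, h0m, one_smul]

end Vale.Agent.P353.Z.AS
end

section

/-! # P353, all `N`, block SGN: a zero mode symmetric under the exchange of two equal summands -/

open MeasureTheory Filter Topology Matrix
open scoped ContDiff

namespace Vale.Agent.P353.Z.AS

universe u

/-! ### the three splittings -/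

section Spl

variable {d d1 d3 : ℕ}

/-- first copy against the rest -/
def sa1 (e : (Fin d1 ⊕ Fin d1) ⊕ Fin d3 ≃ Fin d) : Spl d1 (d1 + d3) d :=
  (Equiv.sumCongr (Equiv.refl (Fin d1)) finSumFinEquiv.symm).trans
    ((Equiv.sumAssoc (Fin d1) (Fin d1) (Fin d3)).symm.trans e)

/-- exchanged copies -/
def saE (e : (Fin d1 ⊕ Fin d1) ⊕ Fin d3 ≃ Fin d) : (Fin d1 ⊕ Fin d1) ⊕ Fin d3 ≃ Fin d :=
  (Equiv.sumCongr (Equiv.sumComm (Fin d1) (Fin d1)) (Equiv.refl (Fin d3))).trans e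

/-- third summand against the two copies -/
def sa3 (e : (Fin d1 ⊕ Fin d1) ⊕ Fin d3 ≃ Fin d) : Spl d3 (d1 + d1) d :=
  (Equiv.sumCongr (Equiv.refl (Fin d3)) finSumFinEquiv.symm).trans ((Equiv.sumComm (Fin d3) (Fin d1 ⊕ Fin d1)).trans e)

variable (e : (Fin d1 ⊕ Fin d1) ⊕ Fin d3 ≃ Fin d)

theorem sa1_inl (A : Fin d1) : sa1 e (Sum.inl A) = e (Sum.inl (Sum.inl A)) := rfl

theorem sa1_r1 (A : Fin d1) : sa1 e (Sum.inr (finSumFinEquiv (Sum.inl A))) = e (Sum.inl (Sum.inr A)) := by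
  simp [sa1]

theorem sa1_r2 (A : Fin d3) : sa1 e (Sum.inr (finSumFinEquiv (Sum.inr A))) = e (Sum.inr A) := by
  simp [sa1]

theorem sa2_inl (A : Fin d1) : sa1 (saE e) (Sum.inl A) = e (Sum.inl (Sum.inr A)) := rfl

theorem sa2_r1 (A : Fin d1) : sa1 (saE e) (Sum.inr (finSumFinEquiv (Sum.inl A))) = e (Sum.inl (Sum.inl A)) := by
  simp [sa1, saE]

theorem sa2_r2 (A : Fin d3) : sa1 (saE e) (Sum.inr (finSumFinEquiv (Sum.inr A))) = e (Sum.inr A) := by
  simp [sa1, saE]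

theorem sa3_inl (A : Fin d3) : sa3 e (Sum.inl A) = e (Sum.inr A) := rfl

theorem sa3_r1 (A : Fin d1) : sa3 e (Sum.inr (finSumFinEquiv (Sum.inl A))) = e (Sum.inl (Sum.inl A)) := by
  simp [sa3]

theorem sa3_r2 (A : Fin d1) : sa3 e (Sum.inr (finSumFinEquiv (Sum.inr A))) = e (Sum.inl (Sum.inr A)) := by
  change e (Sum.inl (finSumFinEquiv.symm (finSumFinEquiv (Sum.inr A)))) = _
  rw [Equiv.symm_apply_apply]

theorem sa_tag1 (A : Fin (d1 + d3)) : tag e (sa1 e (Sum.inr A)) ≠ 0 := by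
  obtain ⟨p, rfl⟩ := finSumFinEquiv.surjective A
  rcases p with p | p
  · rw [sa1_r1]
    simp [tag]
  · rw [sa1_r2]
    simp [tag]

theorem sa_tag3 (A : Fin (d1 + d1)) : tag e (sa3 e (Sum.inr A)) ≠ 2 := by
  obtain ⟨p, rfl⟩ := finSumFinEquiv.surjective A
  rcases p with p | p
  · rw [sa3_r1]
    simp [tag]
  · rw [sa3_r2]
    simp [tag]

theorem sa_tag1' (A : Fin d) (h : tag e A ≠ 0) : ∃ B, A = sa1 e (Sum.inr B) := by
  obtain ⟨p, rfl⟩ := e.surjective A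
  rcases p with (p | p) | p
  · exact absurd (by simp [tag]) h
  · exact ⟨_, (sa1_r1 e p).symm⟩
  · exact ⟨_, (sa1_r2 e p).symm⟩

theorem sa_tag3' (A : Fin d) (h : tag e A ≠ 2) : ∃ B, A = sa3 e (Sum.inr B) := by
  obtain ⟨p, rfl⟩ := e.surjective A
  rcases p with (p | p) | p
  · exact ⟨_, (sa3_r1 e p).symm⟩
  · exact ⟨_, (sa3_r2 e p).symm⟩
  · exact absurd (by simp [tag]) h

/-- sums over all colours -/
theorem sa_sum {M : Type*} [AddCommMonoid M] (g : Fin d → M) :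
    ∑ A, g A = (∑ A, g (sa1 e (Sum.inl A))) + (∑ A, g (sa1 (saE e) (Sum.inl A))) + ∑ A, g (sa3 e (Sum.inl A)) := by
  rw [← e.sum_comp, Fintype.sum_sum_type, Fintype.sum_sum_type]
  rfl

/-- the point with given coordinates -/
noncomputable def saP (x1 x2 : Cfg d1) (x3 : Cfg d3) : Cfg d :=
  AD.cmb (sa1 e) x1 (AD.cmb (finSumFinEquiv : Spl d1 d3 (d1 + d3)) x2 x3)

theorem saP_1 (x1 x2 : Cfg d1) (x3 : Cfg d3) : AD.sp (sa1 e) (saP e x1 x2 x3) = x1 := AD.sq873_sp _ _ _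

theorem saP_2 (x1 x2 : Cfg d1) (x3 : Cfg d3) : AD.sp (sa1 (saE e)) (saP e x1 x2 x3) = x2 := by
  ext ⟨i, A⟩
  change saP e x1 x2 x3 (i, sa1 (saE e) (Sum.inl A)) = _
  rw [sa2_inl, ← sa1_r1, saP, AD.cmb_inr, AD.cmb_inl]

theorem saP_3 (x1 x2 : Cfg d1) (x3 : Cfg d3) : AD.sp (sa3 e) (saP e x1 x2 x3) = x3 := by
  ext ⟨i, A⟩
  change saP e x1 x2 x3 (i, sa3 e (Sum.inl A)) = _
  rw [sa3_inl, ← sa1_r2, saP, AD.cmb_inr, AD.cmb_inr]

theorem saP_eq (x : Cfg d) : saP e (AD.sp (sa1 e) x) (AD.sp (sa1 (saE e)) x) (AD.sp (sa3 e) x) = x := by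
  refine AD.cmb_ext (sa1 e) (fun i A => ?_) (fun i B => ?_)
  · rw [saP, AD.cmb_inl]
    rfl
  · rw [saP, AD.cmb_inr]
    obtain ⟨p, rfl⟩ := finSumFinEquiv.surjective B
    rcases p with p | p
    · rw [AD.cmb_inl, sa1_r1]
      rfl
    · rw [AD.cmb_inr, sa1_r2]
      rfl

theorem saP_mp : MeasurePreserving (fun p : Cfg d1 × (Cfg d1 × Cfg d3) => saP e p.1 p.2.1 p.2.2)
    (volume.prod (volume.prod volume)) volume :=
  (AD.cmb_mp (sa1 e)).comp ((MeasurePreserving.id (volume : Measure (Cfg d1))).prod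
    (AD.cmb_mp (finSumFinEquiv : Spl d1 d3 (d1 + d3))))

theorem saP_cont : Continuous (fun p : Cfg d1 × (Cfg d1 × Cfg d3) => saP e p.1 p.2.1 p.2.2) := by
  have h1 := AX2.fu_continuous (sa1 e)
  have h2 := AX2.fu_continuous (finSumFinEquiv : Spl d1 d3 (d1 + d3))
  exact h1.comp (continuous_fst.prodMk (h2.comp continuous_snd))

theorem saP_me : MeasurableEmbedding (fun p : Cfg d1 × (Cfg d1 × Cfg d3) => saP e p.1 p.2.1 p.2.2) := by
  refine (saP_cont e).measurableEmbedding ?_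
  intro p q h
  have h1 := congrArg (AD.sp (sa1 e)) h
  have h2 := congrArg (AD.sp (sa1 (saE e))) h
  have h3 := congrArg (AD.sp (sa3 e)) h
  simp only [saP_1, saP_2, saP_3] at h1 h2 h3
  exact Prod.ext h1 (Prod.ext h2 h3)

/-- Tonelli for product functions -/
theorem saP_int (α β : Cfg d1 → ℝ) (γ : Cfg d3 → ℝ) :
    ∫ x : Cfg d, α (AD.sp (sa1 e) x) * (β (AD.sp (sa1 (saE e)) x) * γ (AD.sp (sa3 e) x)) =
      (∫ y, α y) * ((∫ y, β y) * ∫ y, γ y) := by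
  rw [← (saP_mp e).integral_comp (saP_me e)]
  simp only [saP_1, saP_2, saP_3]
  rw [integral_prod_mul (μ := (volume : Measure (Cfg d1))) (ν := (volume : Measure (Cfg d1)).prod (volume : Measure (Cfg d3)))
    α (fun p => β p.1 * γ p.2), integral_prod_mul]

theorem saP_intg {α β : Cfg d1 → ℝ} {γ : Cfg d3 → ℝ} (hα : Integrable α) (hβ : Integrable β) (hγ : Integrable γ) :
    Integrable fun x : Cfg d => α (AD.sp (sa1 e) x) * (β (AD.sp (sa1 (saE e)) x) * γ (AD.sp (sa3 e) x)) := by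
  rw [← (saP_mp e).integrable_comp_emb (saP_me e)]
  have h := Integrable.mul_prod hα (Integrable.mul_prod hβ hγ)
  refine h.congr (Eventually.of_forall fun p => ?_)
  simp only [Function.comp_apply, saP_1, saP_2, saP_3]

end Spl

/-! ### supercharge and gauge generators in the three groups -/

section Op

variable {d d1 d3 : ℕ} {E : Type*} [NormedAddCommGroup E] [InnerProductSpace ℂ E]

theorem sa_Q {e : (Fin d1 ⊕ Fin d1) ⊕ Fin d3 ≃ Fin d} {S : Setup d E} {S1 S2 : Setup d1 E} {S3 : Setup d3 E}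
    (h1 : AX2.FuS S S1 (sa1 e)) (h2 : AX2.FuS S S2 (sa1 (saE e))) (h3 : AX2.FuS S S3 (sa3 e)) (β : Fin 16) {u : Cfg d → E}
    (hu : ContDiff ℝ ∞ u) (x : Cfg d) :
    S.Q β u x = AX2.fuQ S1 (sa1 e) β u x + AX2.fuQ S2 (sa1 (saE e)) β u x + AX2.fuQ S3 (sa3 e) β u x := by
  have hFF : ∀ {d' d'' : ℕ} (ψ : Spl d' d'' d) (S' : Setup d' E) (_ : AX2.FuS S S' ψ) (A : Fin d') (i j : Fin 9),
      S'.FF A i j (AD.sp ψ x) = S.FF (ψ (Sum.inl A)) i j x := by
    intro d' d'' ψ S' h A i j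
    have := AX2.fu_FF h A i j (AD.sp ψ x) (AD.zp ψ x)
    rw [AD.sq873_cmb] at this
    exact this.symm
  have key : ∀ {d' d'' : ℕ} (ψ : Spl d' d'' d) (S' : Setup d' E) (_ : AX2.FuS S S' ψ),
      AX2.fuQ S' ψ β u x = ∑ A, ((-Complex.I) • ∑ i, S.vec (S.g i) (ψ (Sum.inl A)) β (pd i (ψ (Sum.inl A)) u x) +
        (1 / 2 : ℂ) • ∑ i, ∑ j, ((S.FF (ψ (Sum.inl A)) i j x : ℝ) : ℂ) • S.vec (S.g2 i j) (ψ (Sum.inl A)) β (u x)) := by
    intro d' d'' ψ S' h
    have hg2 : ∀ i j, S'.g2 i j = S.g2 i j := by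
      intro i j
      unfold CS.g2
      rw [h.g]
    rw [AX2.fuQ_eq S' ψ β hu, Finset.sum_add_distrib, ← Finset.smul_sum, ← Finset.smul_sum, Finset.sum_comm]
    unfold Setup.W
    simp only [_root_.smul_apply, _root_.sum_apply, hFF ψ S' h, AX2.fu_vec h, hg2, h.g]
  rw [key _ _ h1, key _ _ h2, key _ _ h3, ← sa_sum e (fun A => (-Complex.I) • ∑ i, S.vec (S.g i) A β (pd i A u x) +
        (1 / 2 : ℂ) • ∑ i, ∑ j, ((S.FF A i j x : ℝ) : ℂ) • S.vec (S.g2 i j) A β (u x))]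
  rw [Finset.sum_add_distrib, ← Finset.smul_sum, ← Finset.smul_sum, Finset.sum_comm]
  unfold Setup.Q Setup.W
  simp only [_root_.smul_apply, _root_.sum_apply]

/-- smooth complex linear operators applied to smooth functions -/
theorem sa_cda {X V W : Type*} [NormedAddCommGroup X] [NormedSpace ℝ X] [NormedAddCommGroup V] [NormedSpace ℂ V]
    [NormedAddCommGroup W] [NormedSpace ℂ W] {A : X → V →L[ℂ] W} (hA : ContDiff ℝ ∞ A) {u : X → V} (hu : ContDiff ℝ ∞ u) :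
    ContDiff ℝ ∞ fun x => A x (u x) :=
  ((isBoundedBilinearMap_apply (𝕜 := ℂ) (E := V) (F := W)).contDiff.restrict_scalars ℝ).comp (hA.prodMk hu)

/-- a trilinear map in finite dimension is smooth -/
theorem sa_tri [FiniteDimensional ℂ E] (τ : E →ₗ[ℂ] E →ₗ[ℂ] E →ₗ[ℂ] E) :
    ContDiff ℝ ∞ fun p : E × E × E => τ p.1 p.2.1 p.2.2 := by
  let c3 : (E →ₗ[ℂ] E) →ₗ[ℂ] (E →L[ℂ] E) := (LinearMap.toContinuousLinearMap (𝕜 := ℂ) (E := E) (F' := E)).toLinearMap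
  let τa : E →ₗ[ℂ] E →ₗ[ℂ] (E →L[ℂ] E) := τ.compr₂ c3
  let c2 : (E →ₗ[ℂ] (E →L[ℂ] E)) →ₗ[ℂ] (E →L[ℂ] E →L[ℂ] E) :=
    (LinearMap.toContinuousLinearMap (𝕜 := ℂ) (E := E) (F' := E →L[ℂ] E)).toLinearMap
  let τb : E →L[ℂ] E →L[ℂ] E →L[ℂ] E := LinearMap.toContinuousLinearMap (c2 ∘ₗ τa)
  have h : (fun p : E × E × E => τ p.1 p.2.1 p.2.2) = fun p => τb p.1 p.2.1 p.2.2 := rfl
  rw [h]
  refine sa_cda (sa_cda (sa_cda contDiff_const contDiff_fst) ?_) ?_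
  · exact contDiff_fst.comp contDiff_snd
  · exact contDiff_snd.comp contDiff_snd

end Op

/-! ### the exchange -/

section Exch

variable {d d1 d3 : ℕ} (e : (Fin d1 ⊕ Fin d1) ⊕ Fin d3 ≃ Fin d)

theorem saP_inv_mp : MeasurePreserving (fun x : Cfg d => (AD.sp (sa1 e) x, (AD.sp (sa1 (saE e)) x, AD.sp (sa3 e) x)))
    volume (volume.prod (volume.prod volume)) := by
  have hm : Measurable (fun x : Cfg d => (AD.sp (sa1 e) x, (AD.sp (sa1 (saE e)) x, AD.sp (sa3 e) x))) := by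
    have h1 := (AX2.fu_contDiff_sp (sa1 e)).continuous.measurable
    have h2 := (AX2.fu_contDiff_sp (sa1 (saE e))).continuous.measurable
    have h3 := (AX2.fu_contDiff_sp (sa3 e)).continuous.measurable
    exact h1.prodMk (h2.prodMk h3)
  refine ⟨hm, ?_⟩
  rw [← (saP_mp e).map_eq, Measure.map_map hm (saP_mp e).measurable]
  have : ((fun x : Cfg d => (AD.sp (sa1 e) x, (AD.sp (sa1 (saE e)) x, AD.sp (sa3 e) x))) ∘
      fun p : Cfg d1 × (Cfg d1 × Cfg d3) => saP e p.1 p.2.1 p.2.2) = id := by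
    funext p
    simp only [Function.comp_apply, saP_1, saP_2, saP_3, id_eq]
  rw [this, Measure.map_id]

theorem sa_ae1 {R : Cfg d1 → Prop} (h : ∀ᵐ y ∂(volume : Measure (Cfg d1)), R y) :
    ∀ᵐ x ∂(volume : Measure (Cfg d)), R (AD.sp (sa1 e) x) :=
  (Measure.quasiMeasurePreserving_fst.comp (saP_inv_mp e).quasiMeasurePreserving).ae h

theorem sa_ae2 {R : Cfg d1 → Prop} (h : ∀ᵐ y ∂(volume : Measure (Cfg d1)), R y) :
    ∀ᵐ x ∂(volume : Measure (Cfg d)), R (AD.sp (sa1 (saE e)) x) :=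
  ((Measure.quasiMeasurePreserving_fst.comp Measure.quasiMeasurePreserving_snd).comp
    (saP_inv_mp e).quasiMeasurePreserving).ae h

theorem saE_saE : saE (saE e) = e := by
  ext p
  rcases p with (p | p) | p <;> rfl

theorem sa_ext {x y : Cfg d} (h1 : AD.sp (sa1 e) x = AD.sp (sa1 e) y) (h2 : AD.sp (sa1 (saE e)) x = AD.sp (sa1 (saE e)) y)
    (h3 : AD.sp (sa3 e) x = AD.sp (sa3 e) y) : x = y := by
  rw [← saP_eq e x, ← saP_eq e y, h1, h2, h3]

theorem sa_ro (x : Cfg d) (i : Fin 9) (p : (Fin d1 ⊕ Fin d1) ⊕ Fin d3) :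
    ro (swO e) x (i, e p) = x (i, e (Sum.map Sum.swap id p)) := by
  change ∑ B, swO e (e p) B * x (i, B) = _
  rw [Finset.sum_eq_single (e (Sum.map Sum.swap id p))]
  · have : swO e (e p) (e (Sum.map Sum.swap id p)) = 1 := by
      unfold swO
      rw [Matrix.of_apply, if_pos]
      rw [Equiv.symm_apply_apply]
      rcases p with (p | p) | p <;> rfl
    rw [this, one_mul]
  · intro B _ hB
    have : swO e (e p) B = 0 := by
      unfold swO
      rw [Matrix.of_apply, if_neg]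
      intro h
      apply hB
      have h1 := e.injective h
      rw [h1]
      obtain ⟨q, rfl⟩ := e.surjective B
      rw [Equiv.symm_apply_apply]
      rcases q with (q | q) | q <;> rfl
    rw [this, zero_mul]
  · simp

theorem sa_ro1 (x : Cfg d) : AD.sp (sa1 e) (ro (swO e) x) = AD.sp (sa1 (saE e)) x := by
  ext ⟨i, A⟩
  exact sa_ro e x i (Sum.inl (Sum.inl A))

theorem sa_ro2 (x : Cfg d) : AD.sp (sa1 (saE e)) (ro (swO e) x) = AD.sp (sa1 e) x := by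
  ext ⟨i, A⟩
  exact sa_ro e x i (Sum.inl (Sum.inr A))

theorem sa_ro3 (x : Cfg d) : AD.sp (sa3 e) (ro (swO e) x) = AD.sp (sa3 e) x := by
  ext ⟨i, A⟩
  exact sa_ro e x i (Sum.inr A)

theorem sa_ro_mp : MeasurePreserving (ro (swO e) : Cfg d → Cfg d) volume volume := by
  have h := (saP_mp (saE e)).comp (saP_inv_mp e)
  have h2 : (ro (swO e) : Cfg d → Cfg d) = ((fun p : Cfg d1 × (Cfg d1 × Cfg d3) => saP (saE e) p.1 p.2.1 p.2.2) ∘
      fun x : Cfg d => (AD.sp (sa1 e) x, (AD.sp (sa1 (saE e)) x, AD.sp (sa3 e) x))) := by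
    funext x
    refine sa_ext e ?_ ?_ ?_
    · rw [sa_ro1]
      have := saP_2 (saE e) (AD.sp (sa1 e) x) (AD.sp (sa1 (saE e)) x) (AD.sp (sa3 e) x)
      rw [saE_saE] at this
      exact this.symm
    · rw [sa_ro2]
      exact (saP_1 (saE e) (AD.sp (sa1 e) x) (AD.sp (sa1 (saE e)) x) (AD.sp (sa3 e) x)).symm
    · rw [sa_ro3]
      exact (saP_3 (saE e) (AD.sp (sa1 e) x) (AD.sp (sa1 (saE e)) x) (AD.sp (sa3 e) x)).symm
  rw [h2]
  exact h

theorem sa_slc {m m' n n' : ℕ} (ψ : Spl m m' d) (ψ' : Spl n n' d) (h : ∀ A, ∃ B, ψ' (Sum.inl A) = ψ (Sum.inr B))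
    (y : Cfg m) (x : Cfg d) : AD.sp ψ' (AD.cmb ψ y (AD.zp ψ x)) = AD.sp ψ' x := by
  ext ⟨i, A⟩
  obtain ⟨B, hB⟩ := h A
  change AD.cmb ψ y (AD.zp ψ x) (i, ψ' (Sum.inl A)) = x (i, ψ' (Sum.inl A))
  rw [hB, AD.cmb_inr]
  rfl

end Exch

/-! ### product functions -/

section Trf

variable {d d1 d3 : ℕ} {E : Type*} [NormedAddCommGroup E] [InnerProductSpace ℂ E]

/-- product function -/
noncomputable def trf (e : (Fin d1 ⊕ Fin d1) ⊕ Fin d3 ≃ Fin d) (τ : E →ₗ[ℂ] E →ₗ[ℂ] E →ₗ[ℂ] E) {V1 V3 : Submodule ℂ E}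
    (a b : Cfg d1 → V1) (c : Cfg d3 → V3) (x : Cfg d) : E :=
  τ (a (AD.sp (sa1 e) x)) (b (AD.sp (sa1 (saE e)) x)) (c (AD.sp (sa3 e) x))

variable {e : (Fin d1 ⊕ Fin d1) ⊕ Fin d3 ≃ Fin d} {τ : E →ₗ[ℂ] E →ₗ[ℂ] E →ₗ[ℂ] E} {V1 V3 : Submodule ℂ E}

/-- norm property -/
def TrN (τ : E →ₗ[ℂ] E →ₗ[ℂ] E →ₗ[ℂ] E) (V1 V3 : Submodule ℂ E) : Prop :=
  ∀ (u u' : V1) (k : V3), ‖τ u u' k‖ = ‖u‖ * ‖u'‖ * ‖k‖

theorem trf_sq (hn : TrN τ V1 V3) (a b : Cfg d1 → V1) (c : Cfg d3 → V3) (x : Cfg d) :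
    ‖trf e τ a b c x‖ ^ 2 = ‖a (AD.sp (sa1 e) x)‖ ^ 2 * (‖b (AD.sp (sa1 (saE e)) x)‖ ^ 2 * ‖c (AD.sp (sa3 e) x)‖ ^ 2) := by
  unfold trf
  rw [hn]
  ring

theorem trf_int (hn : TrN τ V1 V3) (a b : Cfg d1 → V1) (c : Cfg d3 → V3) :
    ∫ x : Cfg d, ‖trf e τ a b c x‖ ^ 2 = (∫ y, ‖a y‖ ^ 2) * ((∫ y, ‖b y‖ ^ 2) * ∫ y, ‖c y‖ ^ 2) := by
  simp only [trf_sq hn]
  exact saP_int e (fun y => ‖a y‖ ^ 2) (fun y => ‖b y‖ ^ 2) (fun y => ‖c y‖ ^ 2)

theorem trf_intg (hn : TrN τ V1 V3) {a b : Cfg d1 → V1} {c : Cfg d3 → V3} (ha : Integrable fun y => ‖a y‖ ^ 2)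
    (hb : Integrable fun y => ‖b y‖ ^ 2) (hc : Integrable fun y => ‖c y‖ ^ 2) :
    Integrable fun x : Cfg d => ‖trf e τ a b c x‖ ^ 2 := by
  simp only [trf_sq hn]
  exact saP_intg e ha hb hc

theorem trf_sm [FiniteDimensional ℂ E] {a b : Cfg d1 → V1} {c : Cfg d3 → V3} (ha : StronglyMeasurable a)
    (hb : StronglyMeasurable b) (hc : StronglyMeasurable c) : StronglyMeasurable (trf e τ a b c) := by
  have h1 := (AX2.fu_contDiff_sp (sa1 e)).continuous.measurable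
  have h2 := (AX2.fu_contDiff_sp (sa1 (saE e))).continuous.measurable
  have h3 := (AX2.fu_contDiff_sp (sa3 e)).continuous.measurable
  have k1 : StronglyMeasurable fun x : Cfg d => ((a (AD.sp (sa1 e) x) : V1) : E) :=
    continuous_subtype_val.comp_stronglyMeasurable (ha.comp_measurable h1)
  have k2 : StronglyMeasurable fun x : Cfg d => ((b (AD.sp (sa1 (saE e)) x) : V1) : E) :=
    continuous_subtype_val.comp_stronglyMeasurable (hb.comp_measurable h2)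
  have k3 : StronglyMeasurable fun x : Cfg d => ((c (AD.sp (sa3 e) x) : V3) : E) :=
    continuous_subtype_val.comp_stronglyMeasurable (hc.comp_measurable h3)
  exact (sa_tri τ).continuous.comp_stronglyMeasurable (k1.prodMk (k2.prodMk k3))

theorem trf_tst [FiniteDimensional ℂ E] {a b : Cfg d1 → V1} {c : Cfg d3 → V3} (ha : Setup.Tst a) (hb : Setup.Tst b)
    (hc : Setup.Tst c) : Setup.Tst (trf e τ a b c) := by
  have v1 : ContDiff ℝ ∞ fun v : V1 => (v : E) := (V1.subtypeL.restrictScalars ℝ).contDiff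
  have v3 : ContDiff ℝ ∞ fun v : V3 => (v : E) := (V3.subtypeL.restrictScalars ℝ).contDiff
  constructor
  · exact (sa_tri τ).comp ((v1.comp (ha.1.comp (AX2.fu_contDiff_sp (sa1 e)))).prodMk
      ((v1.comp (hb.1.comp (AX2.fu_contDiff_sp (sa1 (saE e))))).prodMk (v3.comp (hc.1.comp (AX2.fu_contDiff_sp (sa3 e))))))
  · refine HasCompactSupport.intro (K := (fun p : Cfg d1 × (Cfg d1 × Cfg d3) => saP e p.1 p.2.1 p.2.2) ''
      (tsupport a ×ˢ (tsupport b ×ˢ tsupport c))) ((ha.2.isCompact.prod (hb.2.isCompact.prod hc.2.isCompact)).image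
        (saP_cont e)) fun x hx => ?_
    unfold trf
    by_cases h1 : AD.sp (sa1 e) x ∈ tsupport a
    · by_cases h2 : AD.sp (sa1 (saE e)) x ∈ tsupport b
      · by_cases h3 : AD.sp (sa3 e) x ∈ tsupport c
        · exact absurd ⟨(AD.sp (sa1 e) x, (AD.sp (sa1 (saE e)) x, AD.sp (sa3 e) x)), ⟨h1, h2, h3⟩, saP_eq e x⟩ hx
        · rw [image_eq_zero_of_notMem_tsupport h3, Submodule.coe_zero, map_zero]
      · rw [image_eq_zero_of_notMem_tsupport h2, Submodule.coe_zero, map_zero, LinearMap.zero_apply]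
    · rw [image_eq_zero_of_notMem_tsupport h1, Submodule.coe_zero, map_zero, LinearMap.zero_apply, LinearMap.zero_apply]

theorem trf_s1 (a b : Cfg d1 → V1) (c : Cfg d3 → V3) (x : Cfg d) (y : Cfg d1) :
    trf e τ a b c (AD.cmb (sa1 e) y (AD.zp (sa1 e) x)) = τ (a y) (b (AD.sp (sa1 (saE e)) x)) (c (AD.sp (sa3 e) x)) := by
  unfold trf
  rw [AD.sq873_sp, sa_slc _ _ fun A => ⟨_, (sa1_r1 e A).symm⟩, sa_slc _ _ fun A => ⟨_, (sa1_r2 e A).symm⟩]

theorem trf_s2 (a b : Cfg d1 → V1) (c : Cfg d3 → V3) (x : Cfg d) (y : Cfg d1) :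
    trf e τ a b c (AD.cmb (sa1 (saE e)) y (AD.zp (sa1 (saE e)) x)) =
      τ (a (AD.sp (sa1 e) x)) (b y) (c (AD.sp (sa3 e) x)) := by
  unfold trf
  rw [AD.sq873_sp, sa_slc _ _ fun A => ⟨_, (sa2_r1 e A).symm⟩, sa_slc _ _ fun A => ⟨_, (sa2_r2 e A).symm⟩]

theorem trf_s3 (a b : Cfg d1 → V1) (c : Cfg d3 → V3) (x : Cfg d) (y : Cfg d3) :
    trf e τ a b c (AD.cmb (sa3 e) y (AD.zp (sa3 e) x)) =
      τ (a (AD.sp (sa1 e) x)) (b (AD.sp (sa1 (saE e)) x)) (c y) := by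
  unfold trf
  rw [AD.sq873_sp, sa_slc _ _ fun A => ⟨_, (sa3_r1 e A).symm⟩, sa_slc _ _ fun A => ⟨_, (sa3_r2 e A).symm⟩]

end Trf

end Vale.Agent.P353.Z.AS
end

section

open MeasureTheory Filter Topology Matrix
open scoped ContDiff

namespace Vale.Agent.P353.Z.AS

universe u

section Lim

variable {m : ℕ} {V : Type*} [NormedAddCommGroup V] [InnerProductSpace ℂ V]

theorem sa_i1 {w : Cfg m → V} (hw : Setup.Tst w) (Ψ : Lp V 2 (volume : Measure (Cfg m))) :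
    Integrable fun y => ‖w y - Ψ y‖ ^ 2 := by
  have m2 : MemLp (fun x => w x - Ψ x) 2 (volume : Measure (Cfg m)) := hw.memLp.sub (Lp.memLp Ψ)
  exact m2.integrable_norm_pow (by norm_num)

theorem sa_i2 (Ψ : Lp V 2 (volume : Measure (Cfg m))) : Integrable fun y => ‖Ψ y‖ ^ 2 :=
  (Lp.memLp Ψ).integrable_norm_pow (by norm_num)

theorem sa_bdd {w : ℕ → Cfg m → V} (hw : ∀ n, Setup.Tst (w n)) (Ψ : Lp V 2 (volume : Measure (Cfg m)))
    (h : Tendsto (fun n => ∫ y, ‖w n y - Ψ y‖ ^ 2) atTop (𝓝 0)) : ∃ C : ℝ, 0 ≤ C ∧ ∀ n, ∫ y, ‖w n y‖ ^ 2 ≤ C := by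
  obtain ⟨B, hB⟩ := h.bddAbove_range
  have hB' : ∀ n, ∫ y, ‖w n y - Ψ y‖ ^ 2 ≤ B := fun n => hB ⟨n, rfl⟩
  have hb : ∀ n, ∫ y, ‖w n y‖ ^ 2 ≤ 2 * B + 2 * ∫ y, ‖Ψ y‖ ^ 2 := by
    intro n
    calc ∫ y, ‖w n y‖ ^ 2 ≤ ∫ y, (2 * ‖w n y - Ψ y‖ ^ 2 + 2 * ‖Ψ y‖ ^ 2) := by
          refine integral_mono (hw n).norm_sq_int (((sa_i1 (hw n) Ψ).const_mul 2).add ((sa_i2 Ψ).const_mul 2)) fun y => ?_
          have h1 : ‖w n y‖ ≤ ‖w n y - Ψ y‖ + ‖Ψ y‖ := by
            have := norm_add_le (w n y - Ψ y) (Ψ y)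
            rwa [sub_add_cancel] at this
          change ‖w n y‖ ^ 2 ≤ 2 * ‖w n y - Ψ y‖ ^ 2 + 2 * ‖Ψ y‖ ^ 2
          nlinarith [norm_nonneg (w n y), norm_nonneg (w n y - Ψ y), norm_nonneg (Ψ y),
            sq_nonneg (‖w n y - Ψ y‖ - ‖Ψ y‖)]
      _ = 2 * (∫ y, ‖w n y - Ψ y‖ ^ 2) + 2 * ∫ y, ‖Ψ y‖ ^ 2 := by
          rw [integral_add ((sa_i1 (hw n) Ψ).const_mul 2) ((sa_i2 Ψ).const_mul 2), integral_const_mul, integral_const_mul]
      _ ≤ 2 * B + 2 * ∫ y, ‖Ψ y‖ ^ 2 := by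
          have := hB' n
          linarith
  refine ⟨2 * B + 2 * ∫ y, ‖Ψ y‖ ^ 2, ?_, hb⟩
  exact le_trans (integral_nonneg fun _ => by positivity) (hb 0)

theorem sa_l3 {A X Y : ℕ → ℝ} {C D : ℝ} (hA : Tendsto A atTop (𝓝 0)) (hA0 : ∀ n, 0 ≤ A n) (hX0 : ∀ n, 0 ≤ X n)
    (hY0 : ∀ n, 0 ≤ Y n) (hX : ∀ n, X n ≤ C) (hY : ∀ n, Y n ≤ D) : Tendsto (fun n => A n * (X n * Y n)) atTop (𝓝 0) := by
  have hC : 0 ≤ C := (hX0 0).trans (hX 0)
  refine squeeze_zero (fun n => mul_nonneg (hA0 n) (mul_nonneg (hX0 n) (hY0 n))) (fun n => ?_)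
    (by simpa using hA.mul_const (C * D))
  exact mul_le_mul_of_nonneg_left (mul_le_mul (hX n) (hY n) (hY0 n) hC) (hA0 n)

theorem sa_n3 {G : Type*} [NormedAddCommGroup G] (p q r : G) :
    ‖p + q + r‖ ^ 2 ≤ 3 * (‖p‖ ^ 2 + ‖q‖ ^ 2 + ‖r‖ ^ 2) := by
  have h1 : ‖p + q + r‖ ≤ ‖p‖ + ‖q‖ + ‖r‖ := norm_add₃_le
  have h2 : ‖p + q + r‖ ^ 2 ≤ (‖p‖ + ‖q‖ + ‖r‖) ^ 2 := pow_le_pow_left₀ (norm_nonneg _) h1 2
  nlinarith [sq_nonneg (‖p‖ - ‖q‖), sq_nonneg (‖q‖ - ‖r‖), sq_nonneg (‖p‖ - ‖r‖)]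

/-- even approximants -/
theorem sa_even (Sa : Setup m V) (P1 : V →L[ℂ] V) (hP1 : ∀ α A v, P1 (Sa.th α A v) = -Sa.th α A (P1 v))
    (hPP : ∀ v, P1 (P1 v) = v) (hPn : ∀ v, ‖P1 v‖ = ‖v‖) {Φ : Lp V 2 (volume : Measure (Cfg m))} (hz : Sa.IsZM Φ)
    (hev : ∀ᵐ y ∂(volume : Measure (Cfg m)), P1 (Φ y) = Φ y) :
    ∃ a : ℕ → Cfg m → V, Sa.Apx Φ a ∧ ∀ n y, P1 (a n y) = a n y := by
  obtain ⟨w, hT, hG, hL, hQ⟩ := hz
  let L : V →L[ℂ] V := (1 / 2 : ℂ) • (1 + P1)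
  let L' : V →L[ℂ] V := (1 / 2 : ℂ) • (1 - P1)
  have hL1 : ∀ v, L v = (1 / 2 : ℂ) • (v + P1 v) := fun v => rfl
  have hL2 : ∀ v, L' v = (1 / 2 : ℂ) • (v - P1 v) := fun v => rfl
  have hn1 : ∀ v, ‖L v‖ ≤ ‖v‖ := by
    intro v
    rw [hL1, norm_smul]
    have h1 := norm_add_le v (P1 v)
    rw [hPn] at h1
    have h2 : ‖(1 / 2 : ℂ)‖ = 1 / 2 := by norm_num
    rw [h2]
    linarith
  have hn2 : ∀ v, ‖L' v‖ ≤ ‖v‖ := by
    intro v
    rw [hL2, norm_smul]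
    have h1 := norm_sub_le v (P1 v)
    rw [hPn] at h1
    have h2 : ‖(1 / 2 : ℂ)‖ = 1 / 2 := by norm_num
    rw [h2]
    linarith
  have ht1 : ∀ α A v, Sa.th α A (L v) = L' (Sa.th α A v) := by
    intro α A v
    rw [hL1, hL2, hP1, map_smul, map_add, sub_neg_eq_add]
  have ht2 : ∀ α A v, Sa.th α A (L' v) = L (Sa.th α A v) := by
    intro α A v
    rw [hL1, hL2, hP1, map_smul, map_sub, ← sub_eq_add_neg]
  refine ⟨fun n y => L (w n y), ⟨fun n => Setup.Tst.clm contDiff_const (hT n), fun n C x => ?_, ?_, fun β => ?_⟩, fun n y => ?_⟩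
  · rw [AX2.fube_G Sa Sa rfl L L' ht1 ht2 C (w n) x ((hT n).1.differentiable (by simp) x), hG, map_zero]
  · refine squeeze_zero (fun n => integral_nonneg fun _ => by positivity) (fun n => ?_) hL
    refine integral_mono_of_nonneg (Eventually.of_forall fun _ => by positivity) (sa_i1 (hT n) Φ) ?_
    filter_upwards [hev] with y hy
    have h1 : L (w n y) - Φ y = L (w n y - Φ y) := by
      have h2 : L (Φ y) = Φ y := by
        rw [hL1, hy, ← two_smul ℂ, smul_smul]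
        norm_num
      rw [map_sub, h2]
    rw [h1]
    exact pow_le_pow_left₀ (norm_nonneg _) (hn1 _) 2
  · refine squeeze_zero (fun n => integral_nonneg fun _ => by positivity) (fun n => ?_) (hQ β)
    refine integral_mono_of_nonneg (Eventually.of_forall fun _ => by positivity) ((hT n).Q Sa β).norm_sq_int
      (Eventually.of_forall fun x => ?_)
    simp only
    rw [AX2.fube_Q Sa Sa rfl rfl rfl L L' ht1 β (w n) x ((hT n).1.differentiable (by simp) x)]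
    exact pow_le_pow_left₀ (norm_nonneg _) (hn2 _) 2
  · simp only
    rw [hL1, map_smul, map_add, hPP, add_comm]

end Lim

section Core

variable {d d1 d3 : ℕ} {E : Type*} [NormedAddCommGroup E] [InnerProductSpace ℂ E]

/-- data of the product construction -/
structure SaC (e : (Fin d1 ⊕ Fin d1) ⊕ Fin d3 ≃ Fin d) (S : Setup d E) (S1 S2 : Setup d1 E) (S3 : Setup d3 E)
    (V1 V3 : Submodule ℂ E) (W P : E →L[ℂ] E) (τ : E →ₗ[ℂ] E →ₗ[ℂ] E →ₗ[ℂ] E) : Prop where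
  F1 : AX2.FuS S S1 (sa1 e)
  F2 : AX2.FuS S S2 (sa1 (saE e))
  F3 : AX2.FuS S S3 (sa3 e)
  f2 : S2.f = S1.f
  i1 : ∀ α A, ∀ v ∈ V1, S1.th α A v ∈ V1
  i3 : ∀ α A, ∀ v ∈ V3, S3.th α A v ∈ V3
  nrm : TrN τ V1 V3
  t1 : ∀ (u u' : V1) (k : V3) (α : Fin 16) (A : Fin d1), S1.th α A (τ u u' k) = τ (S1.th α A u) u' k
  t2 : ∀ (u u' : V1) (k : V3) (α : Fin 16) (A : Fin d1), P u = u → S2.th α A (τ u u' k) = τ u (S1.th α A u') k
  t3 : ∀ (u u' : V1) (k : V3) (α : Fin 16) (A : Fin d3), P u = u → P u' = u' →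
    S3.th α A (τ u u' k) = τ u u' (S3.th α A k)
  sw : ∀ (u u' : V1) (k : V3), P u = u → P u' = u' → W (τ u u' k) = τ u' u k

end Core

end Vale.Agent.P353.Z.AS
end

section

/-! # P353, all `N`, block SGN: the product zero mode of two equal summands and the rest -/

open MeasureTheory Filter Topology Matrix
open scoped ContDiff

namespace Vale.Agent.P353.Z.AS

universe u

section Core

variable {d d1 d3 : ℕ} {E : Type*} [NormedAddCommGroup E] [InnerProductSpace ℂ E] [FiniteDimensional ℂ E]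
  {e : (Fin d1 ⊕ Fin d1) ⊕ Fin d3 ≃ Fin d} {S : Setup d E} {S1 S2 : Setup d1 E} {S3 : Setup d3 E}
  {V1 V3 : Submodule ℂ E} {W P : E →L[ℂ] E} {τ : E →ₗ[ℂ] E →ₗ[ℂ] E →ₗ[ℂ] E}

/-- first slot -/
noncomputable def sl1 (τ : E →ₗ[ℂ] E →ₗ[ℂ] E →ₗ[ℂ] E) (V1 : Submodule ℂ E) (b c : E) : V1 →L[ℂ] E :=
  LinearMap.toContinuousLinearMap (((τ.flip b).flip c) ∘ₗ V1.subtype)

/-- second slot -/
noncomputable def sl2 (τ : E →ₗ[ℂ] E →ₗ[ℂ] E →ₗ[ℂ] E) (V1 : Submodule ℂ E) (a c : E) : V1 →L[ℂ] E :=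
  LinearMap.toContinuousLinearMap (((τ a).flip c) ∘ₗ V1.subtype)

/-- third slot -/
noncomputable def sl3 (τ : E →ₗ[ℂ] E →ₗ[ℂ] E →ₗ[ℂ] E) (V3 : Submodule ℂ E) (a b : E) : V3 →L[ℂ] E :=
  LinearMap.toContinuousLinearMap ((τ a b) ∘ₗ V3.subtype)

theorem sl1_apply (b c : E) (v : V1) : sl1 τ V1 b c v = τ v b c := rfl

theorem sl2_apply (a c : E) (v : V1) : sl2 τ V1 a c v = τ a v c := rfl

theorem sl3_apply (a b : E) (v : V3) : sl3 τ V3 a b v = τ a b v := rfl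


theorem sac_Q1 (h : SaC e S S1 S2 S3 V1 V3 W P τ) {a b : Cfg d1 → V1} {c : Cfg d3 → V3} (ha : Setup.Tst a) (β : Fin 16) (x : Cfg d) :
    AX2.fuQ S1 (sa1 e) β (trf e τ a b c) x = trf e τ ((S1.rst V1 h.i1).Q β a) b c x := by
  unfold AX2.fuQ
  simp only [trf_s1]
  exact AX2.fube_Q (S1.rst V1 h.i1) S1 rfl rfl rfl (sl1 τ V1 (b (AD.sp (sa1 (saE e)) x)) (c (AD.sp (sa3 e) x)))
    (sl1 τ V1 (b (AD.sp (sa1 (saE e)) x)) (c (AD.sp (sa3 e) x))) (fun α A v => h.t1 _ _ _ _ _) β a _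
    (ha.1.differentiable (by simp) _)

theorem sac_Q2 (h : SaC e S S1 S2 S3 V1 V3 W P τ) {a b : Cfg d1 → V1} {c : Cfg d3 → V3} (hb : Setup.Tst b) (pa : ∀ y, P (a y) = a y) (β : Fin 16)
    (x : Cfg d) :
    AX2.fuQ S2 (sa1 (saE e)) β (trf e τ a b c) x = trf e τ a ((S1.rst V1 h.i1).Q β b) c x := by
  unfold AX2.fuQ
  simp only [trf_s2]
  exact AX2.fube_Q (S1.rst V1 h.i1) S2 (h.F2.g.trans h.F1.g.symm) h.f2 (h.F2.κ.trans h.F1.κ.symm)
    (sl2 τ V1 (a (AD.sp (sa1 e) x)) (c (AD.sp (sa3 e) x)))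
    (sl2 τ V1 (a (AD.sp (sa1 e) x)) (c (AD.sp (sa3 e) x))) (fun α A v => h.t2 _ _ _ _ _ (pa _)) β b _
    (hb.1.differentiable (by simp) _)

theorem sac_Q3 (h : SaC e S S1 S2 S3 V1 V3 W P τ) {a b : Cfg d1 → V1} {c : Cfg d3 → V3} (hc : Setup.Tst c) (pa : ∀ y, P (a y) = a y)
    (pb : ∀ y, P (b y) = b y) (β : Fin 16) (x : Cfg d) :
    AX2.fuQ S3 (sa3 e) β (trf e τ a b c) x = trf e τ a b ((S3.rst V3 h.i3).Q β c) x := by
  unfold AX2.fuQ
  simp only [trf_s3]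
  exact AX2.fube_Q (S3.rst V3 h.i3) S3 rfl rfl rfl
    (sl3 τ V3 (a (AD.sp (sa1 e) x)) (b (AD.sp (sa1 (saE e)) x)))
    (sl3 τ V3 (a (AD.sp (sa1 e) x)) (b (AD.sp (sa1 (saE e)) x))) (fun α A v => h.t3 _ _ _ _ _ (pa _) (pb _)) β c _
    (hc.1.differentiable (by simp) _)

theorem sac_Q (h : SaC e S S1 S2 S3 V1 V3 W P τ) {a b : Cfg d1 → V1} {c : Cfg d3 → V3} (ha : Setup.Tst a) (hb : Setup.Tst b) (hc : Setup.Tst c)
    (pa : ∀ y, P (a y) = a y) (pb : ∀ y, P (b y) = b y) (β : Fin 16) (x : Cfg d) :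
    S.Q β (trf e τ a b c) x = trf e τ ((S1.rst V1 h.i1).Q β a) b c x + trf e τ a ((S1.rst V1 h.i1).Q β b) c x +
      trf e τ a b ((S3.rst V3 h.i3).Q β c) x := by
  rw [sa_Q h.F1 h.F2 h.F3 β (trf_tst ha hb hc).1, sac_Q1 h ha, sac_Q2 h hb pa, sac_Q3 h hc pa pb]

theorem sac_G (h : SaC e S S1 S2 S3 V1 V3 W P τ) {a b : Cfg d1 → V1} {c : Cfg d3 → V3} (ha : Setup.Tst a) (hb : Setup.Tst b) (hc : Setup.Tst c)
    (pa : ∀ y, P (a y) = a y) (pb : ∀ y, P (b y) = b y) (ga : ∀ A y, (S1.rst V1 h.i1).G A a y = 0)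
    (gb : ∀ A y, (S1.rst V1 h.i1).G A b y = 0) (gc : ∀ A y, (S3.rst V3 h.i3).G A c y = 0) (C : Fin d) (x : Cfg d) :
    S.G C (trf e τ a b c) x = 0 := by
  have hu := (trf_tst (e := e) (τ := τ) ha hb hc).1
  obtain ⟨p, rfl⟩ := e.surjective C
  rcases p with (A | A) | A
  · have h1 := AX2.fu_G h.F1 A hu (AD.sp (sa1 e) x) (AD.zp (sa1 e) x)
    rw [AD.sq873_cmb] at h1
    rw [sa1_inl] at h1
    rw [h1]
    simp only [trf_s1]
    refine (AX2.fube_G (S1.rst V1 h.i1) S1 rfl (sl1 τ V1 (b (AD.sp (sa1 (saE e)) x)) (c (AD.sp (sa3 e) x)))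
      (sl1 τ V1 (b (AD.sp (sa1 (saE e)) x)) (c (AD.sp (sa3 e) x))) (fun α A v => h.t1 _ _ _ _ _)
      (fun α A v => h.t1 _ _ _ _ _) A a _ (ha.1.differentiable (by simp) _)).trans ?_
    rw [ga, map_zero]
  · have h1 := AX2.fu_G h.F2 A hu (AD.sp (sa1 (saE e)) x) (AD.zp (sa1 (saE e)) x)
    rw [AD.sq873_cmb] at h1
    rw [sa2_inl] at h1
    rw [h1]
    simp only [trf_s2]
    refine (AX2.fube_G (S1.rst V1 h.i1) S2 h.f2 (sl2 τ V1 (a (AD.sp (sa1 e) x)) (c (AD.sp (sa3 e) x)))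
      (sl2 τ V1 (a (AD.sp (sa1 e) x)) (c (AD.sp (sa3 e) x))) (fun α A v => h.t2 _ _ _ _ _ (pa _))
      (fun α A v => h.t2 _ _ _ _ _ (pa _)) A b _ (hb.1.differentiable (by simp) _)).trans ?_
    rw [gb, map_zero]
  · have h1 := AX2.fu_G h.F3 A hu (AD.sp (sa3 e) x) (AD.zp (sa3 e) x)
    rw [AD.sq873_cmb] at h1
    rw [sa3_inl] at h1
    rw [h1]
    simp only [trf_s3]
    refine (AX2.fube_G (S3.rst V3 h.i3) S3 rfl (sl3 τ V3 (a (AD.sp (sa1 e) x)) (b (AD.sp (sa1 (saE e)) x)))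
      (sl3 τ V3 (a (AD.sp (sa1 e) x)) (b (AD.sp (sa1 (saE e)) x))) (fun α A v => h.t3 _ _ _ _ _ (pa _) (pb _))
      (fun α A v => h.t3 _ _ _ _ _ (pa _) (pb _)) A c _ (hc.1.differentiable (by simp) _)).trans ?_
    rw [gc, map_zero]

omit [FiniteDimensional ℂ E] in
theorem trf_d1 (a a' b : Cfg d1 → V1) (c : Cfg d3 → V3) (x : Cfg d) :
    trf e τ (fun y => a y - a' y) b c x = trf e τ a b c x - trf e τ a' b c x := by
  unfold trf
  rw [Submodule.coe_sub, map_sub, LinearMap.sub_apply, LinearMap.sub_apply]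

omit [FiniteDimensional ℂ E] in
theorem trf_d2 (a b b' : Cfg d1 → V1) (c : Cfg d3 → V3) (x : Cfg d) :
    trf e τ a (fun y => b y - b' y) c x = trf e τ a b c x - trf e τ a b' c x := by
  unfold trf
  rw [Submodule.coe_sub, map_sub, LinearMap.sub_apply]

omit [FiniteDimensional ℂ E] in
theorem trf_d3 (a b : Cfg d1 → V1) (c c' : Cfg d3 → V3) (x : Cfg d) :
    trf e τ a b (fun y => c y - c' y) x = trf e τ a b c x - trf e τ a b c' x := by
  unfold trf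
  rw [Submodule.coe_sub, map_sub]

omit [FiniteDimensional ℂ E] in
theorem sa_add3 {m : ℕ} {f g k : Cfg m → ℝ} (hf : Integrable f) (hg : Integrable g) (hk : Integrable k) :
    ∫ x, 3 * (f x + g x + k x) = 3 * ((∫ x, f x) + (∫ x, g x) + ∫ x, k x) := by
  have h1 : Integrable fun x => f x + g x := hf.add hg
  rw [integral_const_mul, integral_add h1 hk, integral_add hf hg]

theorem sac_core (h : SaC e S S1 S2 S3 V1 V3 W P τ) {a : ℕ → Cfg d1 → V1} {c : ℕ → Cfg d3 → V3}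
    {Φ : Lp V1 2 (volume : Measure (Cfg d1))} {K : Lp V3 2 (volume : Measure (Cfg d3))}
    (ha : (S1.rst V1 h.i1).Apx Φ a) (hc : (S3.rst V3 h.i3).Apx K c) (hΦ : Φ ≠ 0) (hK : K ≠ 0)
    (pa : ∀ n y, P (a n y) = a n y) (pΦ : ∀ᵐ y ∂(volume : Measure (Cfg d1)), P (Φ y) = Φ y) :
    ∃ Ψ : Lp E 2 (volume : Measure (Cfg d)), S.IsZM Ψ ∧ Ψ ≠ 0 ∧
      ∀ᵐ x ∂(volume : Measure (Cfg d)), W (Ψ x) = Ψ (ro (swO e) x) := by
  obtain ⟨aT, aG, aL, aQ⟩ := ha
  obtain ⟨cT, cG, cL, cQ⟩ := hc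
  have iΦ : Integrable fun y => ‖Φ y‖ ^ 2 := sa_i2 Φ
  have iK : Integrable fun y => ‖K y‖ ^ 2 := sa_i2 K
  have ia : ∀ n, Integrable fun y => ‖a n y‖ ^ 2 := fun n => (aT n).norm_sq_int
  have ic : ∀ n, Integrable fun y => ‖c n y‖ ^ 2 := fun n => (cT n).norm_sq_int
  have iaΦ : ∀ n, Integrable fun y => ‖a n y - Φ y‖ ^ 2 := fun n => sa_i1 (aT n) Φ
  have icK : ∀ n, Integrable fun y => ‖c n y - K y‖ ^ 2 := fun n => sa_i1 (cT n) K
  obtain ⟨A0, hA0, hA⟩ := sa_bdd aT Φ aL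
  obtain ⟨C0, hC0, hC⟩ := sa_bdd cT K cL
  have hsm : StronglyMeasurable (trf e τ (fun y => Φ y) (fun y => Φ y) (fun y => K y)) :=
    trf_sm (Lp.stronglyMeasurable Φ) (Lp.stronglyMeasurable Φ) (Lp.stronglyMeasurable K)
  have hint : Integrable fun x : Cfg d => ‖trf e τ (fun y => Φ y) (fun y => Φ y) (fun y => K y) x‖ ^ 2 :=
    trf_intg h.nrm iΦ iΦ iK
  have hm : MemLp (trf e τ (fun y => Φ y) (fun y => Φ y) (fun y => K y)) 2 (volume : Measure (Cfg d)) :=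
    (memLp_two_iff_integrable_sq_norm hsm.aestronglyMeasurable).2 hint
  have hT : ∀ n, Setup.Tst (trf e τ (a n) (a n) (c n)) := fun n => trf_tst (aT n) (aT n) (cT n)
  have nn : ∀ {m : ℕ} {X : Type _} [NormedAddCommGroup X] (w : Cfg m → X), 0 ≤ ∫ y, ‖w y‖ ^ 2 :=
    fun w => integral_nonneg fun _ => by positivity
  refine ⟨hm.toLp _, ⟨fun n => trf e τ (a n) (a n) (c n), hT, fun n C x => ?_, ?_, fun β => ?_⟩, ?_, ?_⟩
  · exact sac_G h (aT n) (aT n) (cT n) (pa n) (pa n) (aG n) (aG n) (cG n) C x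
  · have e1 : ∀ n, ∫ x, ‖trf e τ (a n) (a n) (c n) x - (hm.toLp _ : Lp E 2 (volume : Measure (Cfg d))) x‖ ^ 2 =
        ∫ x, ‖trf e τ (a n) (a n) (c n) x - trf e τ (fun y => Φ y) (fun y => Φ y) (fun y => K y) x‖ ^ 2 := by
      intro n
      refine integral_congr_ae ?_
      filter_upwards [hm.coeFn_toLp] with x hx
      rw [hx]
    simp only [e1]
    refine squeeze_zero (fun n => nn _) (fun n => ?_) (g := fun n =>
      3 * ((∫ y, ‖a n y - Φ y‖ ^ 2) * ((∫ y, ‖a n y‖ ^ 2) * ∫ y, ‖c n y‖ ^ 2) +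
        (∫ y, ‖a n y - Φ y‖ ^ 2) * ((∫ y, ‖Φ y‖ ^ 2) * ∫ y, ‖c n y‖ ^ 2) +
        (∫ y, ‖c n y - K y‖ ^ 2) * ((∫ y, ‖Φ y‖ ^ 2) * ∫ y, ‖Φ y‖ ^ 2))) ?_
    · have i1 := trf_intg (e := e) h.nrm (iaΦ n) (ia n) (ic n)
      have i2 := trf_intg (e := e) h.nrm iΦ (iaΦ n) (ic n)
      have i3 := trf_intg (e := e) h.nrm iΦ iΦ (icK n)
      calc ∫ x, ‖trf e τ (a n) (a n) (c n) x - trf e τ (fun y => Φ y) (fun y => Φ y) (fun y => K y) x‖ ^ 2
          ≤ ∫ x, 3 * (‖trf e τ (fun y => a n y - Φ y) (a n) (c n) x‖ ^ 2 +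
              ‖trf e τ (fun y => Φ y) (fun y => a n y - Φ y) (c n) x‖ ^ 2 +
              ‖trf e τ (fun y => Φ y) (fun y => Φ y) (fun y => c n y - K y) x‖ ^ 2) := by
            refine integral_mono_of_nonneg (Eventually.of_forall fun _ => by positivity) (((i1.add i2).add i3).const_mul 3)
              (Eventually.of_forall fun x => ?_)
            have h1 : trf e τ (a n) (a n) (c n) x - trf e τ (fun y => Φ y) (fun y => Φ y) (fun y => K y) x =
                trf e τ (fun y => a n y - Φ y) (a n) (c n) x + trf e τ (fun y => Φ y) (fun y => a n y - Φ y) (c n) x +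
                trf e τ (fun y => Φ y) (fun y => Φ y) (fun y => c n y - K y) x := by
              rw [trf_d1, trf_d2, trf_d3]
              abel
            simp only
            rw [h1]
            exact sa_n3 _ _ _
        _ = 3 * ((∫ x, ‖trf e τ (fun y => a n y - Φ y) (a n) (c n) x‖ ^ 2) +
              (∫ x, ‖trf e τ (fun y => Φ y) (fun y => a n y - Φ y) (c n) x‖ ^ 2) +
              ∫ x, ‖trf e τ (fun y => Φ y) (fun y => Φ y) (fun y => c n y - K y) x‖ ^ 2) := by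
            exact sa_add3 i1 i2 i3
        _ ≤ _ := by
            rw [trf_int h.nrm, trf_int h.nrm, trf_int h.nrm]
            refine le_of_eq ?_
            ring
    · have l1 := sa_l3 aL (fun n => nn _) (fun n => nn (a n)) (fun n => nn (c n)) hA hC
      have l2 := sa_l3 aL (fun n => nn _) (fun n => nn (fun y => Φ y)) (fun n => nn (c n)) (fun n => le_rfl) hC
      have l3 := sa_l3 cL (fun n => nn _) (fun n => nn (fun y => Φ y)) (fun n => nn (fun y => Φ y)) (fun n => le_rfl)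
        (fun n => le_rfl)
      simpa using ((l1.add l2).add l3).const_mul 3
  · refine squeeze_zero (fun n => nn _) (fun n => ?_) (g := fun n =>
      3 * ((∫ y, ‖(S1.rst V1 h.i1).Q β (a n) y‖ ^ 2) * ((∫ y, ‖a n y‖ ^ 2) * ∫ y, ‖c n y‖ ^ 2) +
        (∫ y, ‖(S1.rst V1 h.i1).Q β (a n) y‖ ^ 2) * ((∫ y, ‖a n y‖ ^ 2) * ∫ y, ‖c n y‖ ^ 2) +
        (∫ y, ‖(S3.rst V3 h.i3).Q β (c n) y‖ ^ 2) * ((∫ y, ‖a n y‖ ^ 2) * ∫ y, ‖a n y‖ ^ 2))) ?_
    · have qa := ((aT n).Q (S1.rst V1 h.i1) β).norm_sq_int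
      have qc := ((cT n).Q (S3.rst V3 h.i3) β).norm_sq_int
      have i1 := trf_intg (e := e) h.nrm qa (ia n) (ic n)
      have i2 := trf_intg (e := e) h.nrm (ia n) qa (ic n)
      have i3 := trf_intg (e := e) h.nrm (ia n) (ia n) qc
      calc ∫ x, ‖S.Q β (trf e τ (a n) (a n) (c n)) x‖ ^ 2
          ≤ ∫ x, 3 * (‖trf e τ ((S1.rst V1 h.i1).Q β (a n)) (a n) (c n) x‖ ^ 2 +
              ‖trf e τ (a n) ((S1.rst V1 h.i1).Q β (a n)) (c n) x‖ ^ 2 +
              ‖trf e τ (a n) (a n) ((S3.rst V3 h.i3).Q β (c n)) x‖ ^ 2) := by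
            refine integral_mono_of_nonneg (Eventually.of_forall fun _ => by positivity) (((i1.add i2).add i3).const_mul 3)
              (Eventually.of_forall fun x => ?_)
            simp only
            rw [sac_Q h (aT n) (aT n) (cT n) (pa n) (pa n)]
            exact sa_n3 _ _ _
        _ = 3 * ((∫ x, ‖trf e τ ((S1.rst V1 h.i1).Q β (a n)) (a n) (c n) x‖ ^ 2) +
              (∫ x, ‖trf e τ (a n) ((S1.rst V1 h.i1).Q β (a n)) (c n) x‖ ^ 2) +
              ∫ x, ‖trf e τ (a n) (a n) ((S3.rst V3 h.i3).Q β (c n)) x‖ ^ 2) := by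
            exact sa_add3 i1 i2 i3
        _ ≤ _ := by
            rw [trf_int h.nrm, trf_int h.nrm, trf_int h.nrm]
            refine le_of_eq ?_
            ring
    · have l1 := sa_l3 (aQ β) (fun n => nn _) (fun n => nn (a n)) (fun n => nn (c n)) hA hC
      have l3 := sa_l3 (cQ β) (fun n => nn _) (fun n => nn (a n)) (fun n => nn (a n)) hA hA
      simpa using ((l1.add l1).add l3).const_mul 3
  · intro h0
    have hz : ∫ x : Cfg d, ‖trf e τ (fun y => Φ y) (fun y => Φ y) (fun y => K y) x‖ ^ 2 = 0 := by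
      rw [integral_eq_zero_of_ae]
      have h1 : (trf e τ (fun y => Φ y) (fun y => Φ y) (fun y => K y)) =ᵐ[(volume : Measure (Cfg d))] 0 := by
        have h2 := hm.coeFn_toLp
        rw [h0] at h2
        exact h2.symm.trans (Lp.coeFn_zero _ _ _)
      filter_upwards [h1] with x hx
      rw [hx]
      simp
    rw [trf_int h.nrm] at hz
    have p1 : (∫ y, ‖Φ y‖ ^ 2) ≠ 0 := fun hh => hΦ (AX2.fube_lpz Φ hh)
    have p3 : (∫ y, ‖K y‖ ^ 2) ≠ 0 := fun hh => hK (AX2.fube_lpz K hh)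
    exact (mul_ne_zero p1 (mul_ne_zero p1 p3)) hz
  · have h1 := sa_ro_mp (e := e)
    filter_upwards [hm.coeFn_toLp, h1.quasiMeasurePreserving.ae hm.coeFn_toLp, sa_ae1 e pΦ, sa_ae2 e pΦ] with x hx hx' k1 k2
    rw [hx, hx']
    unfold trf
    rw [sa_ro1, sa_ro2, sa_ro3]
    exact h.sw _ _ _ k1 k2

end Core

end Vale.Agent.P353.Z.AS
end

section

/-! # P353, all `N`, block SGN, S16: parity and even approximants on the vacuum subspace (helper221) -/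

open MeasureTheory Filter Topology Matrix
open scoped ContDiff

namespace Vale.Agent.P353.Z.AS

universe u

section Par

variable {d : ℕ} {E : Type*} [NormedAddCommGroup E] [InnerProductSpace ℂ E]

theorem sa_imp_th {S : Setup d E} {P : E →L[ℂ] E} (hP : Imp S (-1) P) (α : Fin 16) (A : Fin d) (v : E) :
    P (S.th α A v) = -S.th α A (P v) := by
  have h := congrArg (fun T : E →L[ℂ] E => T v) (hP.imp α A)
  have h1 : P (S.th α A v) = (∑ B, (((-1 : Matrix (Fin d) (Fin d) ℝ) B A : ℝ) : ℂ) • (S.th α B * P)) v := h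
  rw [h1, _root_.sum_apply, Finset.sum_eq_single A]
  · rw [Matrix.neg_apply, Matrix.one_apply_eq]
    push_cast
    rw [neg_smul, one_smul]
    rfl
  · intro B _ hB
    rw [Matrix.neg_apply, Matrix.one_apply_ne hB, neg_zero]
    push_cast
    rw [zero_smul]
    rfl
  · intro h
    exact absurd (Finset.mem_univ _) h

theorem sa_imp_am {S : Setup d E} {P : E →L[ℂ] E} (hP : Imp S (-1) P) (A : Fin d) (α : Fin 16) (v : E) :
    P (S.amF A α v) = -S.amF A α (P v) := by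
  rw [AX2.vci_amF_apply, AX2.vci_amF_apply, map_sub, map_smul, map_sum]
  simp only [map_smul, sa_imp_th hP, smul_neg, Finset.sum_neg_distrib]
  abel

end Par

/-- the parity of an irreducible module -/
theorem sa_par {d : ℕ} {E : Type u} [NormedAddCommGroup E] [InnerProductSpace ℂ E] (fd : FiniteDimensional ℂ E)
    (S : Setup d E) (hSec : AX2.SecStmt S) (hI : S.Irr) (hne : ∃ v : E, v ≠ 0) :
    ∃ P : E →L[ℂ] E, Imp S (-1) P ∧ (∀ v, P (P v) = v) ∧ (∀ α A v, P (S.th α A v) = -S.th α A (P v)) ∧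
      ∀ A α v, P (S.amF A α v) = -S.amF A α (P v) := by
  obtain ⟨⟨G, hG, -⟩, huni⟩ := hSec fd hI hne
  have hO : (-1 : Matrix (Fin d) (Fin d) ℝ) * (-1 : Matrix (Fin d) (Fin d) ℝ)ᵀ = 1 := by
    rw [Matrix.transpose_neg, Matrix.transpose_one, neg_mul_neg, one_mul]
  have hP : Imp S (-1) (G (-1)) := hG _ hO
  have h1 : Imp S 1 (1 : E →L[ℂ] E) := by
    refine ⟨by simp, fun α A => ?_, fun v => rfl, fun v _ => rfl⟩
    rw [one_mul, Finset.sum_eq_single A]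
    · rw [Matrix.one_apply_eq]
      simp
    · intro B _ hB
      rw [Matrix.one_apply_ne hB]
      simp
    · intro h
      exact absurd (Finset.mem_univ _) h
  have h2 : Imp S 1 (G (-1) * G (-1)) := by
    refine ⟨by simp, fun α A => ?_, fun v => ?_, fun v hv => ?_⟩
    · ext1 v
      have e1 : (G (-1) * G (-1) * S.th α A) v = S.th α A (G (-1) (G (-1) v)) := by
        change G (-1) (G (-1) (S.th α A v)) = _
        rw [sa_imp_th hP, map_neg, sa_imp_th hP, neg_neg]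
      rw [e1, _root_.sum_apply, Finset.sum_eq_single A]
      · rw [Matrix.one_apply_eq]
        push_cast
        rw [one_smul]
        rfl
      · intro B _ hB
        rw [Matrix.one_apply_ne hB]
        push_cast
        rw [zero_smul]
        rfl
      · intro h
        exact absurd (Finset.mem_univ _) h
    · change ‖G (-1) (G (-1) v)‖ = _
      rw [hP.norm, hP.norm]
    · change G (-1) (G (-1) v) = v
      rw [hP.vac v hv, hP.vac v hv]
  have h3 := huni 1 _ _ h2 h1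
  refine ⟨G (-1), hP, fun v => ?_, sa_imp_th hP, sa_imp_am hP⟩
  exact congrArg (fun T : E →L[ℂ] E => T v) h3

/-- even approximants of the zero mode on the vacuum subspace of the other colours -/
theorem sa_evd
    (hEv : ∀ (m : ℕ) (V : Type u) [NormedAddCommGroup V] [InnerProductSpace ℂ V] (T : Setup m V), EvenStmt T)
    {d d1 r : ℕ} {E : Type u} [NormedAddCommGroup E] [InnerProductSpace ℂ E] [FiniteDimensional ℂ E] {S : Setup d E}
    {κ : ℝ} {f1 : Fin d1 → Fin d1 → Fin d1 → ℝ} {P : E →L[ℂ] E} (hP : Imp S (-1) P) (hPP : ∀ v, P (P v) = v)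
    {ψ : Spl d1 r d} {S1 : Setup d1 E} (hF : AX2.FuS S S1 ψ) (hκ : S1.κ = κ) (hf : S1.f = f1) (h1 : OneA.{u} κ f1)
    (V : Submodule ℂ E) (hV : ∀ v, v ∈ V ↔ ∀ A α, S.amF (ψ (Sum.inr A)) α v = 0)
    (i1 : ∀ α A, ∀ v ∈ V, S1.th α A v ∈ V) (hI : (S1.rst V i1).Irr) (hne : ∃ v : V, v ≠ 0) :
    (∀ v ∈ V, P v ∈ V) ∧ ∃ (Φ : Lp V 2 (volume : Measure (Cfg d1))) (a : ℕ → Cfg d1 → V),
      (S1.rst V i1).Apx Φ a ∧ Φ ≠ 0 ∧ (∀ n y, P (a n y) = a n y) ∧
        ∀ᵐ y ∂(volume : Measure (Cfg d1)), P ((Φ y : V) : E) = ((Φ y : V) : E) := by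
  have hPV : ∀ v ∈ V, P v ∈ V := by
    intro v hv
    rw [hV] at hv ⊢
    intro A α
    have h2 := sa_imp_am hP (ψ (Sum.inr A)) α v
    rw [hv A α, map_zero] at h2
    exact (neg_eq_zero.1 h2.symm)
  refine ⟨hPV, ?_⟩
  set P1 : V →L[ℂ] V := opR V P hPV with hP1
  have hth : ∀ α A (v : V), P1 ((S1.rst V i1).th α A v) = -(S1.rst V i1).th α A (P1 v) := by
    intro α A v
    apply Subtype.ext
    change P (S1.th α A v) = -S1.th α A (P v)
    rw [hF.th, sa_imp_th hP]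
  have hPP1 : ∀ v : V, P1 (P1 v) = v := fun v => Subtype.ext (hPP v)
  have hn1 : ∀ v : V, ‖P1 v‖ = ‖v‖ := fun v => hP.norm v
  have hImp : Imp (S1.rst V i1) (-1) P1 := by
    refine ⟨?_, fun α A => ?_, hn1, fun v hv => ?_⟩
    · rw [Matrix.transpose_neg, Matrix.transpose_one, neg_mul_neg, one_mul]
    · ext1 v
      rw [_root_.sum_apply, Finset.sum_eq_single A]
      · rw [Matrix.neg_apply, Matrix.one_apply_eq]
        push_cast
        rw [neg_smul, one_smul]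
        exact hth α A v
      · intro B _ hB
        rw [Matrix.neg_apply, Matrix.one_apply_ne hB, neg_zero]
        push_cast
        rw [zero_smul]
        rfl
      · intro h
        exact absurd (Finset.mem_univ _) h
    · apply Subtype.ext
      change P v = v
      refine hP.vac _ fun B α => ?_
      obtain ⟨p, rfl⟩ := ψ.surjective B
      rcases p with A | A
      · have h3 := congrArg Subtype.val (hv A α)
        rw [AX2.vci_amF_rst] at h3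
        have h4 : S.amF (ψ (Sum.inl A)) α (v : E) = S1.amF A α v := by
          rw [AX2.vci_amF_apply, AX2.vci_amF_apply]
          have e2 : S1.Gam = S.Gam := by
            change S1.g 0 * S1.g 1 * S1.g 2 = S.g 0 * S.g 1 * S.g 2
            rw [hF.g]
          simp only [hF.th, e2]
        rw [h4, h3]
        rfl
      · exact (hV v).1 v.2 A α
  have fV : FiniteDimensional ℂ V := inferInstance
  obtain ⟨Φ, hz, h0, -⟩ := h1 V fV (S1.rst V i1) hf hκ hI hne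
  have hPΦ := hEv d1 V (S1.rst V i1) fV hI hne P1 hImp Φ hz
  obtain ⟨a, ha, hev⟩ := sa_even (S1.rst V i1) P1 hth hPP1 hn1 hz hPΦ
  refine ⟨Φ, a, ha, h0, fun n y => congrArg Subtype.val (hev n y), ?_⟩
  filter_upwards [hPΦ] with y hy
  exact congrArg Subtype.val hy

end Vale.Agent.P353.Z.AS
end
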