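import Mathlib
import Vale.Agent.P353.BdA.B17
import Vale.Agent.P353.BdA.B22
import Vale.Agent.P353.BdZ.B17
import Vale.Agent.P353.BdA.B34
import Vale.Agent.P353.BdA.B32
import Vale.Agent.P353.BdA.B12
import Vale.Agent.P353.BdA.B42
import Vale.Agent.P353.BdA.B21
import Vale.Agent.P353.BdA.B14
import Vale.Agent.P353.BdA.B20
import Vale.Agent.P353.BdA.B1
import Vale.Agent.P353.BdA.B36
import Vale.Agent.P353.BdA.B31
import Vale.Agent.P353.BdA.B51
import Vale.Agent.P353.BdA.B45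

set_option linter.all false

section

/-! # P353, all `N`, block SGN: adjoint matrices are symmetries (`AdSymStmt`) -/

open MeasureTheory Filter Topology Matrix
open scoped ContDiff

namespace Vale.Agent.P353.Z.AS

universe u

namespace As518

variable {N d : ℕ} {T : Fin d → Matrix (Fin N) (Fin N) ℂ} {f : Fin d → Fin d → Fin d → ℝ}

lemma real (hb : Bas N d T f) (U : BFSS.SU N) (B A : Fin d) :
    (T B * (U.val * T A * U.val.conjTranspose)).trace = ((adO T U B A : ℝ) : ℂ) := by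
  rw [adO, Matrix.of_apply, BFSS.adCoeff]
  symm
  rw [← Complex.conj_eq_iff_re]
  have h1 : (T B * (U.val * T A * U.val.conjTranspose)).conjTranspose.trace =
      star (T B * (U.val * T A * U.val.conjTranspose)).trace :=
    Matrix.trace_conjTranspose _
  rw [Matrix.conjTranspose_mul, Matrix.conjTranspose_mul, Matrix.conjTranspose_mul,
    Matrix.conjTranspose_conjTranspose, hb.herm, hb.herm, ← Matrix.mul_assoc U.val,
    Matrix.trace_mul_comm] at h1
  exact h1.symm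

lemma unit1 (V : BFSS.SU N) : V.val.conjTranspose * V.val = 1 :=
  (Unitary.mem_iff.1 (Matrix.mem_specialUnitaryGroup_iff.1 V.2).1).1

lemma unit2 (V : BFSS.SU N) : V.val * V.val.conjTranspose = 1 :=
  (Unitary.mem_iff.1 (Matrix.mem_specialUnitaryGroup_iff.1 V.2).1).2

/-- `V T_A V* = ∑ ad(V)_{CA} T_C` -/
lemma conj (hb : Bas N d T f) (hN : 0 < N) (V : BFSS.SU N) (A : Fin d) :
    V.val * T A * V.val.conjTranspose = ∑ C, ((adO T V C A : ℝ) : ℂ) • T C := by
  have h := ANF.nr775_complete hb hN (V.val * T A * V.val.conjTranspose)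
  have ht : (V.val * T A * V.val.conjTranspose).trace = 0 := by
    rw [Matrix.trace_mul_comm, ← Matrix.mul_assoc, unit1, one_mul, hb.tr0]
  rw [ht, zero_div, zero_smul, add_zero] at h
  rw [h]
  refine Finset.sum_congr rfl fun C _ => ?_
  rw [real hb]

lemma ad_mul (hb : Bas N d T f) (hN : 0 < N) (U V : BFSS.SU N) : adO T (U * V) = adO T U * adO T V := by
  ext B A
  have h1 : (U * V).val * T A * (U * V).val.conjTranspose =
      ∑ C, ((adO T V C A : ℝ) : ℂ) • (U.val * T C * U.val.conjTranspose) := by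
    have e : (U * V).val * T A * (U * V).val.conjTranspose =
        U.val * (V.val * T A * V.val.conjTranspose) * U.val.conjTranspose := by
      change U.val * V.val * T A * (U.val * V.val).conjTranspose = _
      rw [Matrix.conjTranspose_mul]
      simp only [Matrix.mul_assoc]
    rw [e, conj hb hN V A, Finset.mul_sum, Finset.sum_mul]
    refine Finset.sum_congr rfl fun C _ => ?_
    rw [Matrix.mul_smul, Matrix.smul_mul]
  have h2 : ((adO T (U * V) B A : ℝ) : ℂ) = (((adO T U * adO T V) B A : ℝ) : ℂ) := by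
    rw [← real hb (U * V) B A, h1, Finset.mul_sum, Matrix.trace_sum, Matrix.mul_apply]
    push_cast
    refine Finset.sum_congr rfl fun C _ => ?_
    rw [Matrix.mul_smul, Matrix.trace_smul, real hb, smul_eq_mul, mul_comm]
  exact_mod_cast h2

lemma ad_orth (hb : Bas N d T f) (hN : 0 < N) (V : BFSS.SU N) : adO T V * (adO T V)ᵀ = 1 := by
  have h1 : ∀ A B, (T A * T B).trace = ((((adO T V)ᵀ * adO T V) A B : ℝ) : ℂ) := by
    intro A B
    have e1 : (T A * T B).trace =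
        ((V.val * T A * V.val.conjTranspose) * (V.val * T B * V.val.conjTranspose)).trace := by
      have e2 : (V.val * T A * V.val.conjTranspose) * (V.val * T B * V.val.conjTranspose) =
          V.val * (T A * (V.val.conjTranspose * V.val) * T B) * V.val.conjTranspose := by
        simp only [Matrix.mul_assoc]
      rw [e2, unit1, Matrix.mul_one, Matrix.trace_mul_comm (V.val * (T A * T B)) V.val.conjTranspose, ← Matrix.mul_assoc,
        unit1, Matrix.one_mul]
    rw [e1, conj hb hN V A, Finset.sum_mul, Matrix.trace_sum, Matrix.mul_apply]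
    push_cast
    refine Finset.sum_congr rfl fun C _ => ?_
    rw [Matrix.smul_mul, Matrix.trace_smul, real hb, smul_eq_mul, Matrix.transpose_apply]
  have h2 : (adO T V)ᵀ * adO T V = 1 := by
    ext A B
    have h3 := h1 A B
    rw [hb.ortho] at h3
    rw [Matrix.one_apply]
    split_ifs at h3 ⊢
    · exact_mod_cast h3.symm
    · exact_mod_cast h3.symm
  exact mul_eq_one_comm.1 h2

lemma ad_inv (hb : Bas N d T f) (hN : 0 < N) (V : BFSS.SU N) (A B C : Fin d) :
    ∑ A', ∑ B', ∑ C', adO T V A' A * adO T V B' B * adO T V C' C * f A' B' C' = f A B C := by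
  have h1 : Complex.I * ((∑ A', ∑ B', ∑ C', adO T V A' A * adO T V B' B * adO T V C' C * f A' B' C' : ℝ) : ℂ) =
      (((V.val * T A * V.val.conjTranspose) * (V.val * T B * V.val.conjTranspose) -
        (V.val * T B * V.val.conjTranspose) * (V.val * T A * V.val.conjTranspose)) *
        (V.val * T C * V.val.conjTranspose)).trace := by
    have e1 : ((∑ A', ((adO T V A' A : ℝ) : ℂ) • T A') * (∑ B', ((adO T V B' B : ℝ) : ℂ) • T B') -
        (∑ B', ((adO T V B' B : ℝ) : ℂ) • T B') * (∑ A', ((adO T V A' A : ℝ) : ℂ) • T A')) *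
        (∑ C', ((adO T V C' C : ℝ) : ℂ) • T C') =
        ∑ A', ∑ B', ∑ C', (((adO T V A' A * adO T V B' B * adO T V C' C : ℝ) : ℂ)) •
          ((T A' * T B' - T B' * T A') * T C') := by
      have e2 : (∑ A', ((adO T V A' A : ℝ) : ℂ) • T A') * (∑ B', ((adO T V B' B : ℝ) : ℂ) • T B') -
          (∑ B', ((adO T V B' B : ℝ) : ℂ) • T B') * (∑ A', ((adO T V A' A : ℝ) : ℂ) • T A') =
          ∑ A', ∑ B', ((adO T V A' A * adO T V B' B : ℝ) : ℂ) • (T A' * T B' - T B' * T A') := by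
        rw [Finset.sum_mul_sum, Finset.sum_mul_sum, Finset.sum_comm (f := fun B' A' =>
          ((adO T V B' B : ℝ) : ℂ) • T B' * ((adO T V A' A : ℝ) : ℂ) • T A'), ← Finset.sum_sub_distrib]
        refine Finset.sum_congr rfl fun A' _ => ?_
        rw [← Finset.sum_sub_distrib]
        refine Finset.sum_congr rfl fun B' _ => ?_
        rw [Matrix.smul_mul, Matrix.mul_smul, Matrix.smul_mul, Matrix.mul_smul, smul_smul, smul_smul, smul_sub,
          Complex.ofReal_mul, mul_comm ((adO T V B' B : ℝ) : ℂ)]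
      rw [e2, Finset.sum_mul]
      refine Finset.sum_congr rfl fun A' _ => ?_
      rw [Finset.sum_mul]
      refine Finset.sum_congr rfl fun B' _ => ?_
      rw [Finset.mul_sum]
      refine Finset.sum_congr rfl fun C' _ => ?_
      rw [Matrix.smul_mul, Matrix.mul_smul, smul_smul]
      congr 1
      push_cast
      ring
    rw [conj hb hN V A, conj hb hN V B, conj hb hN V C, e1]
    simp only [Matrix.trace_sum, Matrix.trace_smul, ← ANF.nr775_f hb, smul_eq_mul]
    push_cast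
    simp only [Finset.mul_sum]
    refine Finset.sum_congr rfl fun A' _ => Finset.sum_congr rfl fun B' _ => Finset.sum_congr rfl fun C' _ => ?_
    ring
  have h2 : (((V.val * T A * V.val.conjTranspose) * (V.val * T B * V.val.conjTranspose) -
        (V.val * T B * V.val.conjTranspose) * (V.val * T A * V.val.conjTranspose)) *
        (V.val * T C * V.val.conjTranspose)).trace = ((T A * T B - T B * T A) * T C).trace := by
    have e3 : ∀ X Y : Matrix (Fin N) (Fin N) ℂ, (V.val * X * V.val.conjTranspose) * (V.val * Y * V.val.conjTranspose) =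
        V.val * (X * Y) * V.val.conjTranspose := by
      intro X Y
      have e4 : (V.val * X * V.val.conjTranspose) * (V.val * Y * V.val.conjTranspose) =
          V.val * (X * (V.val.conjTranspose * V.val) * Y) * V.val.conjTranspose := by
        simp only [Matrix.mul_assoc]
      rw [e4, unit1, Matrix.mul_one]
    rw [e3, e3, ← Matrix.sub_mul, ← Matrix.mul_sub, e3, Matrix.trace_mul_comm, ← Matrix.mul_assoc, unit1, Matrix.one_mul]
  rw [h2, ← ANF.nr775_f hb] at h1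
  have h3 := mul_left_cancel₀ Complex.I_ne_zero h1
  exact_mod_cast h3

end As518

open As518 in
/-- **SGN-S19** -/
theorem adSym_stmt : AdSymStmt.{u} := by
  intro N d F _ _ T S hb
  rcases Nat.eq_zero_or_pos N with hN | hN
  · have hd : d = 0 := by rw [hb.dim_eq, hN]; rfl
    subst hd
    refine ⟨fun V => ⟨?_, fun A => A.elim0⟩, fun V W => ?_⟩
    · ext A
      exact A.elim0
    · ext A
      exact A.elim0
  · exact ⟨fun V => ⟨ad_orth hb hN V, ad_inv hb hN V⟩, fun V W => ad_mul hb hN V W⟩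

end Vale.Agent.P353.Z.AS
end

section

/-! # P353, all `N`, block SGN: `SwpStmt` from `SwpAStmt` (helper379)

The zero mode is unique up to a factor, so the covariance of one nonzero zero mode gives it for all of them. -/

open MeasureTheory Filter Topology Matrix
open scoped ContDiff

namespace Vale.Agent.P353.Z.AS

universe u

lemma swp379_qmp {d : ℕ} {O : Matrix (Fin d) (Fin d) ℝ} (h : O * Oᵀ = 1) :
    Measure.QuasiMeasurePreserving (ro O : Cfg d → Cfg d) volume volume := by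
  have h' : O.transpose * O = 1 := mul_eq_one_comm.1 h
  exact (U.pack_roE O h').measurePreserving.quasiMeasurePreserving

lemma swp379_smul {d : ℕ} {E : Type*} [NormedAddCommGroup E] [InnerProductSpace ℂ E] {O : Matrix (Fin d) (Fin d) ℝ}
    (h : O * Oᵀ = 1) (W : E →L[ℂ] E) (c : ℂ) {Ψ : Lp E 2 (volume : Measure (Cfg d))}
    (hΨ : ∀ᵐ x ∂(volume : Measure (Cfg d)), W (Ψ x) = Ψ (ro O x)) :
    ∀ᵐ x ∂(volume : Measure (Cfg d)), W ((c • Ψ) x) = (c • Ψ) (ro O x) := by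
  have h1 := Lp.coeFn_smul c Ψ
  have h2 := (swp379_qmp h).ae h1
  filter_upwards [hΨ, h1, h2] with x a1 a2 a3
  rw [a2, a3, Pi.smul_apply, Pi.smul_apply, map_smul, a1]

/-- **S17** -/
theorem swp_stmt : SwpAStmt.{u} → SwpStmt.{u} := by
  intro hA κ d d1 d3 e f f1 f3 hD h1 h3 hf E _ _ hfin S hSf hSκ hirr hne W hW Ψ hΨ
  obtain ⟨Φ, hΦ, hΦ0, hΦW⟩ := hA κ d d1 d3 e f f1 f3 hD h1 h3 E hfin S hSf hSκ hirr hne W hW
  obtain ⟨Ψ₀, -, -, hu⟩ := hf E hfin S hSf hSκ hirr hne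
  obtain ⟨a, ha⟩ := hu Φ hΦ
  obtain ⟨b, hb⟩ := hu Ψ hΨ
  have ha0 : a ≠ 0 := by
    rintro rfl
    exact hΦ0 (by rw [ha, zero_smul])
  have he : Ψ = (b * a⁻¹) • Φ := by
    rw [ha, smul_smul, mul_assoc, inv_mul_cancel₀ ha0, mul_one, hb]
  rw [he]
  exact swp379_smul hW.orth W _ hΦW

end Vale.Agent.P353.Z.AS
end

section

/-! # P353, all `N`, block SGN: preliminaries of S24 (helper620)

`SgC` = the conclusion of `SgnStmt` for one fixed `V`; it is closed under products; the common part of both kinds of generators. -/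

open MeasureTheory Filter Topology Matrix
open scoped ContDiff

namespace Vale.Agent.P353.Z.AS

universe u

section
variable {d dh dm ds dz : ℕ}

/-- a sum over all colours of terms supported on the `z` colours -/
lemma s620_sumz {M : Type*} [AddCommMonoid M] (φ : Spl dh dm d) (ψ : Spl ds dz dh) (g : Fin d → M)
    (h1 : ∀ B, g (φ (Sum.inr B)) = 0) (h2 : ∀ B, g (φ (Sum.inl (ψ (Sum.inl B)))) = 0) :
    ∑ B, g B = ∑ A : Fin dz, g (φ (Sum.inl (ψ (Sum.inr A)))) := by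
  rw [← φ.sum_comp, Fintype.sum_sum_type]
  simp only [h1, Finset.sum_const_zero, add_zero]
  rw [← ψ.sum_comp, Fintype.sum_sum_type]
  simp only [h2, Finset.sum_const_zero, zero_add]

lemma s620_blk {φ : Spl dh dm d} {ψ : Spl ds dz dh} {O O' : Matrix (Fin d) (Fin d) ℝ} (hO : Blk φ ψ O) (hO' : Blk φ ψ O') :
    Blk φ ψ (O * O') := by
  refine ⟨fun A B => ?_, fun A B => ?_, fun A B => ?_, fun A B => ?_⟩
  · rw [Matrix.mul_apply, ← φ.sum_comp, Fintype.sum_sum_type]
    simp [hO.hm, hO'.hm]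
  · rw [Matrix.mul_apply, ← φ.sum_comp, Fintype.sum_sum_type]
    simp [hO.mh, hO'.mh]
  · rw [Matrix.mul_apply, s249_sum φ ψ _ (fun C => by simp [hO.hm]) (fun C => by simp [hO.sz])]
    exact Finset.sum_eq_zero fun C _ => by rw [hO'.sz, mul_zero]
  · rw [Matrix.mul_apply, s620_sumz φ ψ _ (fun C => by simp [hO.hm]) (fun C => by simp [hO.zs])]
    exact Finset.sum_eq_zero fun C _ => by rw [hO'.zs, mul_zero]

lemma s620_smul {φ : Spl dh dm d} {ψ : Spl ds dz dh} {O O' : Matrix (Fin d) (Fin d) ℝ} (hO : Blk φ ψ O) :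
    sO φ ψ (O * O') = sO φ ψ O * sO φ ψ O' := by
  ext A B
  rw [Matrix.mul_apply]
  change (O * O') _ _ = _
  rw [Matrix.mul_apply, s249_sum φ ψ _ (fun C => by simp [hO.hm]) (fun C => by simp [hO.sz])]
  rfl

lemma s620_zmul {φ : Spl dh dm d} {ψ : Spl ds dz dh} {O O' : Matrix (Fin d) (Fin d) ℝ} (hO : Blk φ ψ O) :
    zO φ ψ (O * O') = zO φ ψ O * zO φ ψ O' := by
  ext A B
  rw [Matrix.mul_apply]
  change (O * O') _ _ = _
  rw [Matrix.mul_apply, s620_sumz φ ψ _ (fun C => by simp [hO.hm]) (fun C => by simp [hO.zs])]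
  rfl

end

section
variable {N d dh dm ds dz : ℕ} {F : Type u} [NormedAddCommGroup F] [InnerProductSpace ℂ F]

/-- conclusion of S24 for one fixed `V` -/
def SgC (M : BFSS.Model N d F) (S : Setup d F) (φ : Spl dh dm d) (ψ : Spl ds dz dh) {z₀ : Cfg dz}
    (h : AD.Std2 S φ ψ z₀) (Kc E : Matrix (Fin dm) (Fin dm) ℝ) (l : Fin dm → Fin dz → ℝ) (V : BFSS.SU N) : Prop :=
  ∀ η ∉ Coll (Finset.univ.image l), ro (zO φ ψ (adO M.T V)) η ∉ Coll (Finset.univ.image l) ∧
  ∀ Ψ ∈ h.ss.zms (vca (AX2.czs h) (S.Kr φ (1 - Complex.I • S.J0 Kc))), ∀ᵐ x ∂(volume : Measure (Cfg ds)),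
    M.S V (S.UU φ E l η (Ψ x)) = S.UU φ E l (ro (zO φ ψ (adO M.T V)) η) (Ψ (ro (sO φ ψ (adO M.T V)) x))

/-- the conclusion is closed under products -/
theorem sgC_mul {M : BFSS.Model N d F} {S : Setup d F} {φ : Spl dh dm d} {ψ : Spl ds dz dh} {z₀ : Cfg dz}
    {h : AD.Std2 S φ ψ z₀} {Kc E : Matrix (Fin dm) (Fin dm) ℝ} {l : Fin dm → Fin dz → ℝ} {V W : BFSS.SU N}
    (hmul : adO M.T (V * W) = adO M.T V * adO M.T W) (hW1 : adO M.T W * (adO M.T W)ᵀ = 1)
    (hVb : Blk φ ψ (adO M.T V)) (hWb : Blk φ ψ (adO M.T W))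
    (hV : SgC M S φ ψ h Kc E l V) (hW : SgC M S φ ψ h Kc E l W) : SgC M S φ ψ h Kc E l (V * W) := by
  intro η hη
  obtain ⟨h1, h2⟩ := hW η hη
  obtain ⟨h3, h4⟩ := hV _ h1
  rw [hmul, s620_zmul hVb, U.foot_ro_mul]
  refine ⟨h3, fun Ψ hΨ => ?_⟩
  filter_upwards [h2 Ψ hΨ, (swp379_qmp (s249_orth φ ψ hW1 hWb)).ae (h4 Ψ hΨ)] with x e1 e2
  rw [M.S_mul, e1, e2, s620_smul hVb, U.foot_ro_mul]

/-- common part of both kinds of generators -/
theorem sgC_of {M : BFSS.Model N d F} {S : Setup d F} {φ : Spl dh dm d} {ψ : Spl ds dz dh} {z₀ : Cfg dz}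
    (hfd : FiniteDimensional ℂ F) (hI : S.Irr) (hne : ∃ v : F, v ≠ 0)
    (h : AD.Std2 S φ ψ z₀) {t : Fin dz → ℝ} {Kc E : Matrix (Fin dm) (Fin dm) ℝ} {l : Fin dm → Fin dz → ℝ}
    (hRD : RD (AX.Mz S φ ψ) t Kc E l) (hFer : FerAtStmt S φ ψ) (hExt : ExtStmt S φ ψ) (hConn : AX.ConnStmt)
    (hComb : CombStmt.{u}) {V : BFSS.SU N} (hSym : Sym S (adO M.T V)) (hBlk : Blk φ ψ (adO M.T V))
    (hImp : Imp S (adO M.T V) (M.S V)) (hSS : SSig.{u} S.κ h.ss.f (sO φ ψ (adO M.T V)))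
    (hC : ∀ η, η ∉ Coll (Finset.univ.image l) → ro (zO φ ψ (adO M.T V)) η ∉ Coll (Finset.univ.image l))
    (η₀ : Cfg dz) (hη₀ : η₀ ∉ Coll (Finset.univ.image l)) (h3 : ∀ i : Fin 9, i.val < 3 → ∀ a, η₀ (i, a) = 0)
    (hex : ro (zO φ ψ (adO M.T V)) η₀ = η₀ ∨
      (ro (zO φ ψ (adO M.T V)) η₀ = RR 3 4 Real.pi η₀ ∧ ∀ t, RR 3 4 t η₀ ∉ Coll (Finset.univ.image l))) :
    SgC M S φ ψ h Kc E l V := by
  have hB := AX.bunAll S φ hfd dz (AX.Mz S φ ψ) t Kc E l hRD
  intro η hη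
  refine ⟨hC η hη, ?_⟩
  refine hComb d dh dm ds dz F hfd S φ ψ z₀ h hI hne _ _ _ _ hB (adO M.T V) (M.S V) hSym hBlk hImp hSS η ?_
  intro ζ hζ
  refine hExt hfd hI hConn _ _ _ _ hB (adO M.T V) (M.S V) hSym hBlk hImp hC ζ hζ η₀ hη₀ ?_ η hη
  exact hFer hfd hI _ _ _ _ hB (adO M.T V) (M.S V) hSym hBlk hImp η₀ hη₀ h3 hex ζ hζ

end

end Vale.Agent.P353.Z.AS
end

section

/-! # P353, all `N`, block SGN, S6 Cov: covariance of the complex structures -/

open MeasureTheory Filter Topology Matrix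
open scoped ContDiff

namespace Vale.Agent.P353.Z.AS

variable {d dh dm ds dz : ℕ} {F : Type*} [NormedAddCommGroup F] [InnerProductSpace ℂ F]

/-! ### entries of the complex structure -/

lemma cv76_hh (S : Setup d F) (φ : Spl dh dm d) (D : Fin 9 → Matrix (Fin dm) (Fin dm) ℝ)
    (Om : Matrix (Fin dm) (Fin dm) ℝ) (c s : ℝ) (α β : Fin 16) (A B : Fin dh) :
    JF S φ D Om c s (α, φ (Sum.inl A)) (β, φ (Sum.inl B)) = if A = B then S.Gam α β else 0 := by
  simp only [JF, Matrix.of_apply, Equiv.symm_apply_apply, Sum.elim_inl]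

lemma cv76_hm (S : Setup d F) (φ : Spl dh dm d) (D : Fin 9 → Matrix (Fin dm) (Fin dm) ℝ)
    (Om : Matrix (Fin dm) (Fin dm) ℝ) (c s : ℝ) (α β : Fin 16) (A : Fin dh) (B : Fin dm) :
    JF S φ D Om c s (α, φ (Sum.inl A)) (β, φ (Sum.inr B)) = 0 := by
  simp only [JF, Matrix.of_apply, Equiv.symm_apply_apply, Sum.elim_inl, Sum.elim_inr]

lemma cv76_mh (S : Setup d F) (φ : Spl dh dm d) (D : Fin 9 → Matrix (Fin dm) (Fin dm) ℝ)
    (Om : Matrix (Fin dm) (Fin dm) ℝ) (c s : ℝ) (α β : Fin 16) (A : Fin dm) (B : Fin dh) :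
    JF S φ D Om c s (α, φ (Sum.inr A)) (β, φ (Sum.inl B)) = 0 := by
  simp only [JF, Matrix.of_apply, Equiv.symm_apply_apply, Sum.elim_inl, Sum.elim_inr]

lemma cv76_mm (S : Setup d F) (φ : Spl dh dm d) (D : Fin 9 → Matrix (Fin dm) (Fin dm) ℝ)
    (Om : Matrix (Fin dm) (Fin dm) ℝ) (c s : ℝ) (α β : Fin 16) (A B : Fin dm) :
    JF S φ D Om c s (α, φ (Sum.inr A)) (β, φ (Sum.inr B)) =
      (c : ℂ) * ((S.κ : ℂ) * ∑ i, S.g i α β * (((Om⁻¹ * D i) A B : ℝ) : ℂ)) +
      (s : ℂ) * (if A = B then S.Gam α β else 0) := by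
  simp only [JF, Matrix.of_apply, Equiv.symm_apply_apply, Sum.elim_inr]

lemma cv76_cTl (O : Matrix (Fin d) (Fin d) ℝ) (X : Matrix (Fin 16 × Fin d) (Fin 16 × Fin d) ℂ)
    (α : Fin 16) (a : Fin d) (r : Fin 16 × Fin d) :
    (cT O * X) (α, a) r = ∑ a', ((O a a' : ℝ) : ℂ) * X (α, a') r := by
  rw [Matrix.mul_apply, Fintype.sum_prod_type, Finset.sum_eq_single α]
  · refine Finset.sum_congr rfl fun a' _ => ?_
    simp only [cT, Matrix.of_apply, if_true]
  · intro β _ hβ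
    refine Finset.sum_eq_zero fun a' _ => ?_
    simp only [cT, Matrix.of_apply, if_neg (Ne.symm hβ), zero_mul]
  · intro h
    exact absurd (Finset.mem_univ α) h

lemma cv76_cTr (O : Matrix (Fin d) (Fin d) ℝ) (X : Matrix (Fin 16 × Fin d) (Fin 16 × Fin d) ℂ)
    (β : Fin 16) (b : Fin d) (r : Fin 16 × Fin d) :
    (X * cT O) r (β, b) = ∑ b', X r (β, b') * ((O b' b : ℝ) : ℂ) := by
  rw [Matrix.mul_apply, Fintype.sum_prod_type, Finset.sum_eq_single β]
  · refine Finset.sum_congr rfl fun a' _ => ?_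
    simp only [cT, Matrix.of_apply, if_true]
  · intro γ _ hγ
    refine Finset.sum_eq_zero fun a' _ => ?_
    simp only [cT, Matrix.of_apply, if_neg hγ, mul_zero]
  · intro h
    exact absurd (Finset.mem_univ β) h

lemma cv76_sTl (g : Matrix (Fin 16) (Fin 16) ℂ) (X : Matrix (Fin 16 × Fin d) (Fin 16 × Fin d) ℂ)
    (α : Fin 16) (a : Fin d) (r : Fin 16 × Fin d) :
    ((sT g : Matrix (Fin 16 × Fin d) (Fin 16 × Fin d) ℂ) * X) (α, a) r = ∑ α', g α α' * X (α', a) r := by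
  rw [Matrix.mul_apply, Fintype.sum_prod_type]
  refine Finset.sum_congr rfl fun α' _ => ?_
  rw [Finset.sum_eq_single a]
  · simp only [sT, Matrix.of_apply, if_true]
  · intro b _ hb
    simp only [sT, Matrix.of_apply, if_neg (Ne.symm hb), zero_mul]
  · intro h
    exact absurd (Finset.mem_univ a) h

lemma cv76_sTr (g : Matrix (Fin 16) (Fin 16) ℂ) (X : Matrix (Fin 16 × Fin d) (Fin 16 × Fin d) ℂ)
    (β : Fin 16) (b : Fin d) (r : Fin 16 × Fin d) :
    (X * (sT g : Matrix (Fin 16 × Fin d) (Fin 16 × Fin d) ℂ)) r (β, b) = ∑ β', X r (β', b) * g β' β := by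
  rw [Matrix.mul_apply, Fintype.sum_prod_type]
  refine Finset.sum_congr rfl fun β' _ => ?_
  rw [Finset.sum_eq_single b]
  · simp only [sT, Matrix.of_apply, if_true]
  · intro a _ ha
    simp only [sT, Matrix.of_apply, if_neg ha, mul_zero]
  · intro h
    exact absurd (Finset.mem_univ b) h

/-! ### colour rotations -/

/-- the `m` part of `O` -/
noncomputable def cv76_P (φ : Spl dh dm d) (O : Matrix (Fin d) (Fin d) ℝ) : Matrix (Fin dm) (Fin dm) ℝ :=
  Matrix.of fun A B => O (φ (Sum.inr A)) (φ (Sum.inr B))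

lemma cv76_PP {φ : Spl dh dm d} {ψ : Spl ds dz dh} {O : Matrix (Fin d) (Fin d) ℝ} (hO : O * Oᵀ = 1)
    (hb : Blk φ ψ O) : cv76_P φ O * (cv76_P φ O)ᵀ = 1 := by
  ext A B
  have h := congrFun (congrFun hO (φ (Sum.inr A))) (φ (Sum.inr B))
  rw [Matrix.mul_apply, ← φ.sum_comp, Fintype.sum_sum_type] at h
  simp only [Matrix.transpose_apply, hb.mh, zero_mul, Finset.sum_const_zero, zero_add] at h
  rw [Matrix.mul_apply]
  simp only [cv76_P, Matrix.of_apply, Matrix.transpose_apply]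
  rw [h, Matrix.one_apply, Matrix.one_apply]
  simp only [EmbeddingLike.apply_eq_iff_eq, Sum.inr.injEq]

/-- transfer of the invariance of `f` -/
lemma cv76_f {S : Setup d F} {O : Matrix (Fin d) (Fin d) ℝ} (h : Sym S O) (E B C : Fin d) :
    ∑ A, O E A * S.f A B C = ∑ B', ∑ C', O B' B * O C' C * S.f E B' C' := by
  have h1 : ∀ A, O E A * S.f A B C = ∑ A', ∑ B', ∑ C', (O E A * O A' A) * (O B' B * O C' C * S.f A' B' C') := by
    intro A
    rw [← h.inv A B C]
    simp only [Finset.mul_sum]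
    refine Finset.sum_congr rfl fun A' _ => Finset.sum_congr rfl fun B' _ =>
      Finset.sum_congr rfl fun C' _ => ?_
    ring
  simp only [h1]
  rw [Finset.sum_comm]
  have h2 : ∀ A', ∑ A, O E A * O A' A = if E = A' then 1 else 0 := by
    intro A'
    have h3 := congrFun (congrFun h.orth E) A'
    rw [Matrix.mul_apply] at h3
    simpa only [Matrix.transpose_apply, Matrix.one_apply] using h3
  have h4 : ∀ A', ∑ A, ∑ B', ∑ C', (O E A * O A' A) * (O B' B * O C' C * S.f A' B' C') =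
      (if E = A' then 1 else 0) * ∑ B', ∑ C', (O B' B * O C' C * S.f A' B' C') := by
    intro A'
    rw [← h2 A', Finset.sum_mul]
    refine Finset.sum_congr rfl fun A _ => ?_
    simp only [Finset.mul_sum]
  simp only [h4, ite_mul, one_mul, zero_mul, Finset.sum_ite_eq, Finset.mem_univ, if_true]

lemma cv76_Mz {S : Setup d F} {φ : Spl dh dm d} {ψ : Spl ds dz dh} {O : Matrix (Fin d) (Fin d) ℝ}
    (h : Sym S O) (hb : Blk φ ψ O) (b : Fin dz) :
    cv76_P φ O * AX.Mz S φ ψ b = (∑ b', zO φ ψ O b' b • AX.Mz S φ ψ b') * cv76_P φ O := by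
  ext E C
  have h1 := cv76_f h (φ (Sum.inr E)) (φ (Sum.inl (ψ (Sum.inr b)))) (φ (Sum.inr C))
  rw [← φ.sum_comp, Fintype.sum_sum_type] at h1
  simp only [hb.mh, zero_mul, Finset.sum_const_zero, zero_add] at h1
  rw [← φ.sum_comp, Fintype.sum_sum_type] at h1
  have h2 : ∀ B' : Fin dm, ∑ C', O (φ (Sum.inr B')) (φ (Sum.inl (ψ (Sum.inr b)))) * O C' (φ (Sum.inr C)) *
      S.f (φ (Sum.inr E)) (φ (Sum.inr B')) C' = 0 := by
    intro B'
    refine Finset.sum_eq_zero fun C' _ => ?_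
    rw [hb.mh, zero_mul, zero_mul]
  simp only [h2, Finset.sum_const_zero, add_zero] at h1
  rw [← ψ.sum_comp, Fintype.sum_sum_type] at h1
  have h3 : ∀ B' : Fin ds, ∑ C', O (φ (Sum.inl (ψ (Sum.inl B')))) (φ (Sum.inl (ψ (Sum.inr b)))) *
      O C' (φ (Sum.inr C)) * S.f (φ (Sum.inr E)) (φ (Sum.inl (ψ (Sum.inl B')))) C' = 0 := by
    intro B'
    refine Finset.sum_eq_zero fun C' _ => ?_
    rw [hb.sz, zero_mul, zero_mul]
  simp only [h3, Finset.sum_const_zero, zero_add] at h1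
  rw [Matrix.mul_apply, Matrix.mul_apply]
  simp only [cv76_P, AX.Mz, zO, Matrix.of_apply, Matrix.sum_apply, Matrix.smul_apply, smul_eq_mul]
  rw [h1]
  simp only [Finset.sum_mul]
  rw [Finset.sum_comm]
  rw [← φ.sum_comp, Fintype.sum_sum_type]
  have h4 : ∀ C' : Fin dh, ∑ B', O (φ (Sum.inl (ψ (Sum.inr B')))) (φ (Sum.inl (ψ (Sum.inr b)))) *
      O (φ (Sum.inl C')) (φ (Sum.inr C)) * S.f (φ (Sum.inr E)) (φ (Sum.inl (ψ (Sum.inr B')))) (φ (Sum.inl C')) = 0 := by
    intro C'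
    refine Finset.sum_eq_zero fun B' _ => ?_
    rw [hb.hm, mul_zero, zero_mul]
  simp only [h4, Finset.sum_const_zero, zero_add]
  refine Finset.sum_congr rfl fun C' _ => Finset.sum_congr rfl fun B' _ => ?_
  ring

lemma cv76_D {S : Setup d F} {φ : Spl dh dm d} {ψ : Spl ds dz dh} {O : Matrix (Fin d) (Fin d) ℝ}
    (h : Sym S O) (hb : Blk φ ψ O) (η : Cfg dz) (i : Fin 9) :
    cv76_P φ O * AD.Dz S φ ψ η i = AD.Dz S φ ψ (ro (zO φ ψ O) η) i * cv76_P φ O := by
  rw [← AX.DM_Mz, ← AX.DM_Mz]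
  unfold DM
  have e1 : ∀ b', (ro (zO φ ψ O) η) (i, b') = ∑ b, zO φ ψ O b' b * η (i, b) := fun b' => rfl
  simp only [e1]
  rw [Finset.mul_sum]
  have e2 : ∀ b, cv76_P φ O * (η (i, b) • AX.Mz S φ ψ b) =
      (∑ b', (zO φ ψ O b' b * η (i, b)) • AX.Mz S φ ψ b') * cv76_P φ O := by
    intro b
    rw [Matrix.mul_smul, cv76_Mz h hb b, ← Matrix.smul_mul, Finset.smul_sum]
    congr 1
    refine Finset.sum_congr rfl fun b' _ => ?_
    rw [smul_smul, mul_comm]
  simp only [e2]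
  rw [← Finset.sum_mul, Finset.sum_comm]
  congr 1
  refine Finset.sum_congr rfl fun b' _ => ?_
  rw [Finset.sum_smul]

/-- conjugation of `Ω` -/
lemma cv76_om {κ : ℝ} {D D' : Fin 9 → Matrix (Fin dm) (Fin dm) ℝ} {Om P : Matrix (Fin dm) (Fin dm) ℝ}
    (h : IsOm κ D Om) (hP : P * Pᵀ = 1) (hD : ∀ i, P * D i = D' i * P) : IsOm κ D' (P * Om * Pᵀ) := by
  have hP' : Pᵀ * P = 1 := mul_eq_one_comm.mp hP
  have hsum : ∑ i, D' i * D' i = P * (∑ i, D i * D i) * Pᵀ := by
    rw [Finset.mul_sum, Finset.sum_mul]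
    refine Finset.sum_congr rfl fun i _ => ?_
    have e1 : D' i = P * D i * Pᵀ := by
      rw [hD i, Matrix.mul_assoc, hP, Matrix.mul_one]
    calc D' i * D' i = (P * D i * Pᵀ) * (P * D i * Pᵀ) := by rw [e1]
      _ = P * D i * (Pᵀ * P) * (D i * Pᵀ) := by simp only [Matrix.mul_assoc]
      _ = P * (D i * D i) * Pᵀ := by rw [hP', Matrix.mul_one]; simp only [Matrix.mul_assoc]
  refine { symm := ?_, pos := ?_, sq := ?_, comm := ?_ }
  · rw [Matrix.transpose_mul, Matrix.transpose_mul, Matrix.transpose_transpose, h.symm, Matrix.mul_assoc]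
  · intro v hv
    have h1 : Pᵀ *ᵥ v ≠ 0 := by
      intro h0
      apply hv
      have h2 : P *ᵥ (Pᵀ *ᵥ v) = v := by rw [Matrix.mulVec_mulVec, hP, Matrix.one_mulVec]
      rw [← h2, h0, Matrix.mulVec_zero]
    have h3 := h.pos _ h1
    have h4 : v ⬝ᵥ ((P * Om * Pᵀ) *ᵥ v) = (Pᵀ *ᵥ v) ⬝ᵥ (Om *ᵥ (Pᵀ *ᵥ v)) := by
      rw [← Matrix.mulVec_mulVec, ← Matrix.mulVec_mulVec, Matrix.dotProduct_mulVec,
        ← Matrix.mulVec_transpose]
    rw [h4]
    exact h3
  · calc (P * Om * Pᵀ) * (P * Om * Pᵀ) = P * Om * (Pᵀ * P) * (Om * Pᵀ) := by simp only [Matrix.mul_assoc]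
      _ = P * (Om * Om) * Pᵀ := by rw [hP', Matrix.mul_one]; simp only [Matrix.mul_assoc]
      _ = _ := by
        rw [h.sq, hsum, Matrix.mul_neg, Matrix.neg_mul, Matrix.mul_smul, Matrix.smul_mul]
  · intro M hM
    rw [hsum] at hM
    have h1 : (Pᵀ * M * P) * (∑ i, D i * D i) = (∑ i, D i * D i) * (Pᵀ * M * P) := by
      calc (Pᵀ * M * P) * (∑ i, D i * D i) = Pᵀ * (M * (P * (∑ i, D i * D i) * Pᵀ)) * P := by
            simp only [Matrix.mul_assoc, hP', Matrix.mul_one]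
        _ = Pᵀ * ((P * (∑ i, D i * D i) * Pᵀ) * M) * P := by rw [hM]
        _ = (Pᵀ * P) * ((∑ i, D i * D i) * (Pᵀ * M * P)) := by simp only [Matrix.mul_assoc]
        _ = _ := by rw [hP', Matrix.one_mul]
    have h2 := h.comm _ h1
    calc M * (P * Om * Pᵀ) = (P * Pᵀ) * M * (P * Om * Pᵀ) := by rw [hP, Matrix.one_mul]
      _ = P * ((Pᵀ * M * P) * Om) * Pᵀ := by simp only [Matrix.mul_assoc]
      _ = P * (Om * (Pᵀ * M * P)) * Pᵀ := by rw [h2]
      _ = P * Om * Pᵀ * M * (P * Pᵀ) := by simp only [Matrix.mul_assoc]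
      _ = P * Om * Pᵀ * M := by rw [hP, Matrix.mul_one]

lemma cv76_inv {Om P : Matrix (Fin dm) (Fin dm) ℝ} (hP : P * Pᵀ = 1) :
    P * Om⁻¹ = (P * Om * Pᵀ)⁻¹ * P := by
  have hP' : Pᵀ * P = 1 := mul_eq_one_comm.mp hP
  rw [Matrix.mul_inv_rev, Matrix.mul_inv_rev, Matrix.inv_eq_right_inv hP, Matrix.inv_eq_right_inv hP']
  simp only [Matrix.mul_assoc, hP', Matrix.mul_one]

lemma cv76_col {S : Setup d F} {φ : Spl dh dm d} {ψ : Spl ds dz dh} {O : Matrix (Fin d) (Fin d) ℝ}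
    (h : Sym S O) (hb : Blk φ ψ O) (η : Cfg dz) (Om Om' : Matrix (Fin dm) (Fin dm) ℝ)
    (h1 : IsOm S.κ (AD.Dz S φ ψ η) Om) (h2 : IsOm S.κ (AD.Dz S φ ψ (ro (zO φ ψ O) η)) Om') (c s : ℝ) :
    cT O * JF S φ (AD.Dz S φ ψ η) Om c s = JF S φ (AD.Dz S φ ψ (ro (zO φ ψ O) η)) Om' c s * cT O := by
  have hP := cv76_PP h.orth hb
  have hOm : Om' = cv76_P φ O * Om * (cv76_P φ O)ᵀ :=
    AX.omU dm S.κ _ _ _ S.κ_pos h2 (cv76_om h1 hP (cv76_D h hb η))
  have key : ∀ i, cv76_P φ O * (Om⁻¹ * AD.Dz S φ ψ η i) =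
      (Om'⁻¹ * AD.Dz S φ ψ (ro (zO φ ψ O) η) i) * cv76_P φ O := by
    intro i
    rw [← Matrix.mul_assoc, cv76_inv hP, ← hOm, Matrix.mul_assoc, cv76_D h hb η i, Matrix.mul_assoc]
  ext ⟨α, a⟩ ⟨β, b⟩
  rw [cv76_cTl, cv76_cTr, ← φ.sum_comp, Fintype.sum_sum_type, ← φ.sum_comp, Fintype.sum_sum_type]
  obtain ⟨a, rfl⟩ := φ.surjective a
  obtain ⟨b, rfl⟩ := φ.surjective b
  rcases a with A | A <;> rcases b with B | B
  · simp only [cv76_hh, cv76_hm, cv76_mh, hb.hm, Complex.ofReal_zero, zero_mul, mul_zero,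
      Finset.sum_const_zero, add_zero, mul_ite, ite_mul, Finset.sum_ite_eq, Finset.sum_ite_eq',
      Finset.mem_univ, if_true]
    ring
  · simp only [cv76_hh, cv76_hm, cv76_mm, hb.hm, Complex.ofReal_zero, zero_mul, mul_zero,
      Finset.sum_const_zero, add_zero]
  · simp only [cv76_hh, cv76_mh, cv76_mm, hb.mh, Complex.ofReal_zero, zero_mul, mul_zero,
      Finset.sum_const_zero, add_zero]
  · simp only [cv76_hm, cv76_mh, cv76_mm, mul_zero, zero_mul, Finset.sum_const_zero, zero_add]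
    have e1 : ∀ i, ∑ A', ((O (φ (Sum.inr A)) (φ (Sum.inr A')) : ℝ) : ℂ) *
        (((Om⁻¹ * AD.Dz S φ ψ η i) A' B : ℝ) : ℂ) =
        ∑ B', (((Om'⁻¹ * AD.Dz S φ ψ (ro (zO φ ψ O) η) i) A B' : ℝ) : ℂ) *
          ((O (φ (Sum.inr B')) (φ (Sum.inr B)) : ℝ) : ℂ) := by
      intro i
      have h3 := congrFun (congrFun (key i) A) B
      rw [Matrix.mul_apply, Matrix.mul_apply] at h3
      simp only [cv76_P, Matrix.of_apply] at h3
      exact_mod_cast h3
    simp only [mul_add, add_mul, Finset.sum_add_distrib]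
    congr 1
    · have e2 : ∀ A', ((O (φ (Sum.inr A)) (φ (Sum.inr A')) : ℝ) : ℂ) * ((c : ℂ) * ((S.κ : ℂ) *
          ∑ i, S.g i α β * (((Om⁻¹ * AD.Dz S φ ψ η i) A' B : ℝ) : ℂ))) =
          (c : ℂ) * (S.κ : ℂ) * ∑ i, S.g i α β * (((O (φ (Sum.inr A)) (φ (Sum.inr A')) : ℝ) : ℂ) *
            (((Om⁻¹ * AD.Dz S φ ψ η i) A' B : ℝ) : ℂ)) := by
        intro A'
        simp only [Finset.mul_sum]
        refine Finset.sum_congr rfl fun i _ => ?_
        ring
      have e3 : ∀ B', ((c : ℂ) * ((S.κ : ℂ) *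
          ∑ i, S.g i α β * (((Om'⁻¹ * AD.Dz S φ ψ (ro (zO φ ψ O) η) i) A B' : ℝ) : ℂ))) *
            ((O (φ (Sum.inr B')) (φ (Sum.inr B)) : ℝ) : ℂ) =
          (c : ℂ) * (S.κ : ℂ) * ∑ i, S.g i α β *
            ((((Om'⁻¹ * AD.Dz S φ ψ (ro (zO φ ψ O) η) i) A B' : ℝ) : ℂ) *
              ((O (φ (Sum.inr B')) (φ (Sum.inr B)) : ℝ) : ℂ)) := by
        intro B'
        simp only [Finset.mul_sum, Finset.sum_mul]
        refine Finset.sum_congr rfl fun i _ => ?_
        ring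
      simp only [e2, e3, ← Finset.mul_sum]
      congr 1
      rw [Finset.sum_comm]
      conv_rhs => rw [Finset.sum_comm]
      refine Finset.sum_congr rfl fun i _ => ?_
      rw [← Finset.mul_sum, ← Finset.mul_sum, e1 i]
    · simp only [mul_ite, ite_mul, mul_zero, zero_mul, Finset.sum_ite_eq, Finset.sum_ite_eq',
        Finset.mem_univ, if_true]
      ring

/-! ### rotations -/

lemma cv76_gtG (S : Setup d F) {k l : Fin 9} (h : Same k l) (t : ℝ) :
    gtt S k l t * S.Gam = S.Gam * gtt S k l t := by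
  simp only [gtt, add_mul, mul_add, Matrix.smul_mul, Matrix.mul_smul, one_mul, mul_one,
    S.Gam_comm_g2 h]

lemma cv76_DR (S : Setup d F) (φ : Spl dh dm d) (ψ : Spl ds dz dh) (k l : Fin 9) (t : ℝ) (η : Cfg dz)
    (i : Fin 9) : AD.Dz S φ ψ (RR k l t η) i = AD.Dz S φ ψ η i +
      (Real.cos t - 1) • ((if i = k then AD.Dz S φ ψ η k else 0) + (if i = l then AD.Dz S φ ψ η l else 0)) +
      Real.sin t • ((if i = k then AD.Dz S φ ψ η l else 0) - (if i = l then AD.Dz S φ ψ η k else 0)) := by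
  rw [← AX.DM_Mz, ← AX.DM_Mz]
  unfold DM
  simp only [RR_apply]
  have e : ∀ a, (η (i, a) + (Real.cos t - 1) *
      ((if i = k then η (k, a) else 0) + (if i = l then η (l, a) else 0)) +
      Real.sin t * ((if i = k then η (l, a) else 0) - (if i = l then η (k, a) else 0))) • AX.Mz S φ ψ a =
      η (i, a) • AX.Mz S φ ψ a + (Real.cos t - 1) • ((if i = k then η (k, a) • AX.Mz S φ ψ a else 0) +
        (if i = l then η (l, a) • AX.Mz S φ ψ a else 0)) +
      Real.sin t • ((if i = k then η (l, a) • AX.Mz S φ ψ a else 0) -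
        (if i = l then η (k, a) • AX.Mz S φ ψ a else 0)) := by
    intro a
    split_ifs <;> module
  have hs : ∀ (p : Prop) [Decidable p] (f : Fin dz → Matrix (Fin dm) (Fin dm) ℝ),
      (∑ x, if p then f x else 0) = if p then ∑ x, f x else 0 := by
    intro p _ f
    split_ifs
    · rfl
    · exact Finset.sum_const_zero
  simp only [e, Finset.sum_add_distrib, ← Finset.smul_sum, Finset.sum_sub_distrib, hs]

lemma cv76_two (c s : ℝ) (hcs : c ^ 2 + s ^ 2 = 1) (a b : Matrix (Fin dm) (Fin dm) ℝ) :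
    ((c • a + s • b) * (c • a + s • b) - a * a) + ((c • b - s • a) * (c • b - s • a) - b * b) = 0 := by
  simp only [add_mul, mul_add, sub_mul, mul_sub, Matrix.smul_mul, Matrix.mul_smul, smul_smul]
  linear_combination (norm := module) hcs • (a * a + b * b)

lemma cv76_sqg {k l : Fin 9} (h : k ≠ l) (c s : ℝ) (hcs : c ^ 2 + s ^ 2 = 1)
    (X Y : Fin 9 → Matrix (Fin dm) (Fin dm) ℝ)
    (hY : ∀ i, Y i = X i + (c - 1) • ((if i = k then X k else 0) + (if i = l then X l else 0)) +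
      s • ((if i = k then X l else 0) - (if i = l then X k else 0))) :
    ∑ i, Y i * Y i = ∑ i, X i * X i := by
  have e : ∀ i, Y i * Y i = X i * X i +
      ((if i = k then ((c • X k + s • X l) * (c • X k + s • X l) - X k * X k) else 0) +
      (if i = l then ((c • X l - s • X k) * (c • X l - s • X k) - X l * X l) else 0)) := by
    intro i
    by_cases h1 : i = k
    · subst h1
      have e1 : Y i = c • X i + s • X l := by
        rw [hY i]
        simp only [if_true, if_neg h]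
        module
      rw [e1]
      simp only [if_true, if_neg h]
      abel
    · by_cases h2 : i = l
      · subst h2
        have e1 : Y i = c • X i - s • X k := by
          rw [hY i]
          simp only [if_true, if_neg h1]
          module
        rw [e1]
        simp only [if_true, if_neg h1]
        abel
      · have e1 : Y i = X i := by
          rw [hY i]
          simp only [if_neg h1, if_neg h2]
          module
        rw [e1]
        simp only [if_neg h1, if_neg h2, add_zero]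
  simp only [e, Finset.sum_add_distrib, Finset.sum_ite_eq', Finset.mem_univ, if_true]
  rw [cv76_two c s hcs, add_zero]

lemma cv76_sq (S : Setup d F) (φ : Spl dh dm d) (ψ : Spl ds dz dh) {k l : Fin 9} (h : k ≠ l) (t : ℝ)
    (η : Cfg dz) : ∑ i, AD.Dz S φ ψ (RR k l t η) i * AD.Dz S φ ψ (RR k l t η) i =
      ∑ i, AD.Dz S φ ψ η i * AD.Dz S φ ψ η i :=
  cv76_sqg h (Real.cos t) (Real.sin t) (Real.cos_sq_add_sin_sq t) _ _ (cv76_DR S φ ψ k l t η)

lemma cv76_XB (S : Setup d F) {k l : Fin 9} (h : k ≠ l) (t : ℝ) (A : Fin d) (v v' : Fin 9 → ℝ)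
    (hv : ∀ i, v' i = v i + (Real.cos t - 1) * ((if i = k then v k else 0) + (if i = l then v l else 0)) +
      Real.sin t * ((if i = k then v l else 0) - (if i = l then v k else 0))) :
    (∑ i, ((v' i : ℝ) : ℂ) • S.g i) * gtt S k l t = gtt S k l t * ∑ i, ((v i : ℝ) : ℂ) • S.g i := by
  have h1 := S.XB_RR h t A (WithLp.toLp 2 fun p : Fin 9 × Fin d => v p.1)
  have h2 : S.XB A (RR k l t (WithLp.toLp 2 fun p : Fin 9 × Fin d => v p.1)) =
      ∑ i, ((v' i : ℝ) : ℂ) • S.g i := by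
    unfold Setup.XB
    refine Finset.sum_congr rfl fun i _ => ?_
    rw [RR_apply, hv i]
  rw [h2] at h1
  exact h1

/-- **S6 Cov** -/
theorem cov_stmt (S : Setup d F) (φ : Spl dh dm d) (ψ : Spl ds dz dh) : CovStmt S φ ψ := by
  refine ⟨fun O h hb η Om Om' h1 h2 c s => cv76_col h hb η Om Om' h1 h2 c s, ?_⟩
  intro k l hkl t η Om h1
  have hsq := cv76_sq S φ ψ hkl.1 t η
  refine ⟨?_, ?_⟩
  · exact { symm := h1.symm, pos := h1.pos, sq := by rw [hsq]; exact h1.sq
            comm := fun M hM => h1.comm M (by rw [← hsq]; exact hM) }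
  · intro c s
    ext ⟨α, a⟩ ⟨β, b⟩
    rw [cv76_sTl, cv76_sTr]
    obtain ⟨a, rfl⟩ := φ.surjective a
    obtain ⟨b, rfl⟩ := φ.surjective b
    have hG : ∑ α', gtt S k l t α α' * S.Gam α' β = ∑ β', S.Gam α β' * gtt S k l t β' β := by
      have := congrFun (congrFun (cv76_gtG S hkl t) α) β
      rwa [Matrix.mul_apply, Matrix.mul_apply] at this
    rcases a with A | A <;> rcases b with B | B
    · simp only [cv76_hh]
      by_cases hAB : A = B
      · simp only [if_pos hAB]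
        exact hG
      · simp only [if_neg hAB, mul_zero, zero_mul]
    · simp only [cv76_hm, mul_zero, zero_mul]
    · simp only [cv76_mh, mul_zero, zero_mul]
    · simp only [cv76_mm, mul_add, add_mul, Finset.sum_add_distrib]
      congr 1
      · have hX := cv76_XB S hkl.1 t (φ (Sum.inr A)) (fun i => (Om⁻¹ * AD.Dz S φ ψ η i) A B)
          (fun i => (Om⁻¹ * AD.Dz S φ ψ (RR k l t η) i) A B) (by
            intro i
            rw [cv76_DR]
            simp only [Matrix.mul_add, Matrix.mul_sub, Matrix.mul_smul, Matrix.add_apply,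
              Matrix.sub_apply, Matrix.smul_apply, smul_eq_mul]
            split_ifs <;> simp)
        have hX2 := congrFun (congrFun hX α) β
        rw [Matrix.mul_apply, Matrix.mul_apply] at hX2
        simp only [Matrix.sum_apply, Matrix.smul_apply, smul_eq_mul] at hX2
        have e1 : ∀ α', gtt S k l t α α' * ((c : ℂ) * ((S.κ : ℂ) *
            ∑ i, S.g i α' β * (((Om⁻¹ * AD.Dz S φ ψ η i) A B : ℝ) : ℂ))) =
            (c : ℂ) * (S.κ : ℂ) * (gtt S k l t α α' *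
              ∑ i, (((Om⁻¹ * AD.Dz S φ ψ η i) A B : ℝ) : ℂ) * S.g i α' β) := by
          intro α'
          simp only [Finset.mul_sum]
          refine Finset.sum_congr rfl fun i _ => ?_
          ring
        have e2 : ∀ β', ((c : ℂ) * ((S.κ : ℂ) *
            ∑ i, S.g i α β' * (((Om⁻¹ * AD.Dz S φ ψ (RR k l t η) i) A B : ℝ) : ℂ))) *
              gtt S k l t β' β =
            (c : ℂ) * (S.κ : ℂ) * ((∑ i, (((Om⁻¹ * AD.Dz S φ ψ (RR k l t η) i) A B : ℝ) : ℂ) *
              S.g i α β') * gtt S k l t β' β) := by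
          intro β'
          simp only [Finset.mul_sum, Finset.sum_mul]
          refine Finset.sum_congr rfl fun i _ => ?_
          ring
        simp only [e1, e2, ← Finset.mul_sum]
        congr 1
        exact hX2.symm
      · by_cases hAB : A = B
        · simp only [if_pos hAB]
          have e1 : ∀ α', gtt S k l t α α' * ((s : ℂ) * S.Gam α' β) =
              (s : ℂ) * (gtt S k l t α α' * S.Gam α' β) := fun α' => by ring
          have e2 : ∀ β', (s : ℂ) * S.Gam α β' * gtt S k l t β' β =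
              (s : ℂ) * (S.Gam α β' * gtt S k l t β' β) := fun β' => by ring
          simp only [e1, e2, ← Finset.mul_sum]
          rw [hG]
        · simp only [if_neg hAB, mul_zero, zero_mul]

end Vale.Agent.P353.Z.AS
end

section

/-! # P353, all `N`, block SGN: S9 RPar (helper216) -/

open MeasureTheory Filter Topology Matrix
open scoped ContDiff

namespace Vale.Agent.P353.Z.AS

variable {d dh dm ds dz : ℕ} {F : Type*} [NormedAddCommGroup F] [InnerProductSpace ℂ F]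

/-- a real `J` with a nonzero vacuum vector is a complex structure -/
lemma rp_cstr (S : Setup d F) (J : Matrix (Fin 16 × Fin d) (Fin 16 × Fin d) ℂ) (hr : ∀ p q, (J p q).im = 0)
    (v : F) (hv : v ∈ JV S J) (h0 : v ≠ 0) : CStr J := by
  set A : Matrix (Fin 16 × Fin d) (Fin 16 × Fin d) ℂ :=
    (1 : Matrix (Fin 16 × Fin d) (Fin 16 × Fin d) ℂ) - Complex.I • J with hA
  have hk : ∀ p, ∑ q : Fin 16 × Fin d, A p q • S.th q.1 q.2 v = 0 := hv
  let a : Fin 16 × Fin d → (F →L[ℂ] F) := fun p => ∑ q : Fin 16 × Fin d, A p q • S.th q.1 q.2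
  have ha : ∀ p, a p v = 0 := by
    intro p
    have := hk p
    simpa [a, _root_.sum_apply, _root_.smul_apply] using this
  have hac : ∀ p r, a p * a r + a r * a p = ((A * Aᵀ) p r) • (1 : F →L[ℂ] F) := by
    intro p r
    have e1 : a p * a r = ∑ q : Fin 16 × Fin d, ∑ s : Fin 16 × Fin d,
        (A p q * A r s) • (S.th q.1 q.2 * S.th s.1 s.2) := by
      simp only [a, Finset.sum_mul_sum, smul_mul_smul_comm]
    have e2 : a r * a p = ∑ q : Fin 16 × Fin d, ∑ s : Fin 16 × Fin d,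
        (A p q * A r s) • (S.th s.1 s.2 * S.th q.1 q.2) := by
      simp only [a, Finset.sum_mul_sum, smul_mul_smul_comm]
      rw [Finset.sum_comm]
      refine Finset.sum_congr rfl fun q _ => Finset.sum_congr rfl fun s _ => ?_
      rw [mul_comm (A r s)]
    rw [e1, e2, ← Finset.sum_add_distrib]
    simp only [← Finset.sum_add_distrib, ← smul_add, S.th_anti]
    rw [Matrix.mul_apply, Finset.sum_smul]
    refine Finset.sum_congr rfl fun q _ => ?_
    rw [Finset.sum_eq_single q]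
    · simp [Matrix.transpose_apply]
    · intro s _ hs
      have : ¬ (q.1 = s.1 ∧ q.2 = s.2) := by
        rintro ⟨h1, h2⟩
        exact hs (Prod.ext h1.symm h2.symm)
      rw [if_neg this, smul_zero]
    · intro h; exact absurd (Finset.mem_univ _) h
  have hz : A * Aᵀ = 0 := by
    ext p r
    have h1 := congrArg (fun T : F →L[ℂ] F => T v) (hac p r)
    simp only [_root_.add_apply, mul_apply_eq_comp, ha, map_zero, add_zero, _root_.smul_apply,
      one_apply_eq_self] at h1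
    rcases smul_eq_zero.1 h1.symm with h | h
    · rw [h]; rfl
    · exact absurd h h0
  -- real and imaginary parts
  have hexp : A * Aᵀ = (1 : Matrix (Fin 16 × Fin d) (Fin 16 × Fin d) ℂ) - J * Jᵀ - Complex.I • (J + Jᵀ) := by
    rw [hA, Matrix.transpose_sub, Matrix.transpose_one, Matrix.transpose_smul, sub_mul, mul_sub, mul_sub,
      Matrix.mul_smul, Matrix.smul_mul, Matrix.smul_mul, Matrix.mul_smul, one_mul, mul_one, one_mul, smul_smul,
      Complex.I_mul_I]
    module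
  have hent : ∀ p r, ((1 : Matrix (Fin 16 × Fin d) (Fin 16 × Fin d) ℂ) p r - (J * Jᵀ) p r) -
      Complex.I * (J p r + J r p) = 0 := by
    intro p r
    have := congrFun (congrFun (hexp.symm.trans hz) p) r
    simpa [Matrix.sub_apply, Matrix.smul_apply, Matrix.add_apply, mul_add] using this
  have hJJim : ∀ p r, ((J * Jᵀ) p r).im = 0 := by
    intro p r
    rw [Matrix.mul_apply, Complex.im_sum]
    refine Finset.sum_eq_zero fun q _ => ?_
    rw [Complex.mul_im, Matrix.transpose_apply, hr, hr]; ring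
  have h1im : ∀ p r, ((1 : Matrix (Fin 16 × Fin d) (Fin 16 × Fin d) ℂ) p r).im = 0 := by
    intro p r
    rw [Matrix.one_apply]; split_ifs <;> simp
  have hanti : ∀ p r, J p r + J r p = 0 := by
    intro p r
    have h1 := congrArg Complex.im (hent p r)
    have h2 : (J p r + J r p).im = 0 := by rw [Complex.add_im, hr, hr, add_zero]
    simp only [Complex.sub_im, Complex.mul_im, Complex.I_re, Complex.I_im, zero_mul, one_mul, hJJim, h1im,
      sub_zero, zero_add, zero_sub, Complex.zero_im, neg_eq_zero] at h1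
    exact Complex.ext (by simpa using h1) (by simpa using h2)
  have hJt : Jᵀ = -J := by
    ext p r
    rw [Matrix.transpose_apply, Matrix.neg_apply]
    exact eq_neg_of_add_eq_zero_left (hanti r p)
  have hsq : J * Jᵀ = 1 := by
    ext p r
    have h1 := hent p r
    rw [hanti, mul_zero, sub_zero] at h1
    exact (sub_eq_zero.1 h1).symm
  refine ⟨⟨hr, hJt⟩, ?_⟩
  rw [hJt, mul_neg] at hsq
  rw [← hsq, neg_neg]

/-- `tr((γ^{kl})ᵀ Γ) = 0` -/
lemma rp_trG (S : Setup d F) (k l : Fin 9) (h : k ≠ l) : ∑ α, ∑ β, S.g2 k l α β * S.Gam α β = 0 := by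
  obtain ⟨m, hm, hk, hl⟩ : ∃ m : Fin 9, 3 ≤ m.val ∧ m ≠ k ∧ m ≠ l := by
    revert k l
    decide
  have e0 : ∑ α, ∑ β, S.g2 k l α β * S.Gam α β = Matrix.trace (S.g2 k l * S.Gamᵀ) := by
    simp only [Matrix.trace, Matrix.diag_apply, Matrix.mul_apply, Matrix.transpose_apply]
  rw [e0, S.Gam_transpose, mul_neg, Matrix.trace_neg, neg_eq_zero]
  set X := S.g2 k l * S.Gam with hX
  have e1 : S.g m * S.g2 k l = S.g2 k l * S.g m := by
    rw [S.g2_eq_mul h, ← mul_assoc, S.g_ac hk, neg_mul, mul_assoc, S.g_ac hl, mul_neg, neg_neg, mul_assoc]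
  have e2 : S.g m * X = -(X * S.g m) := by
    rw [hX, ← mul_assoc, e1, mul_assoc, S.g_Gam_anti hm, mul_neg, mul_assoc]
  have e3 : Matrix.trace (S.g m * (S.g m * X)) = Matrix.trace X := by
    rw [← mul_assoc, S.g_sq', one_mul]
  have e4 : Matrix.trace (S.g m * (S.g m * X)) = -Matrix.trace X := by
    rw [e2, mul_neg, Matrix.trace_neg, ← mul_assoc, Matrix.trace_mul_comm, ← mul_assoc, S.g_sq', one_mul]
  have e5 : Matrix.trace X = -Matrix.trace X := e3.symm.trans e4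
  have e6 : (2 : ℂ) * Matrix.trace X = 0 := by linear_combination e5
  exact (mul_eq_zero.1 e6).resolve_left two_ne_zero

lemma rp_trOm (D Om : Matrix (Fin dm) (Fin dm) ℝ) (hD : Dᵀ = -D) (hO : Omᵀ = Om) : Matrix.trace (Om⁻¹ * D) = 0 := by
  have h1 : Matrix.trace (Om⁻¹ * D) = Matrix.trace ((Om⁻¹ * D)ᵀ) := (Matrix.trace_transpose _).symm
  rw [Matrix.transpose_mul, Matrix.transpose_nonsing_inv, hO, hD, neg_mul, Matrix.trace_neg, Matrix.trace_mul_comm D] at h1
  linarith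

/-- the trace term of S2 vanishes for `JF` (no commutativity needed) -/
lemma rp_tr (S : Setup d F) (φ : Spl dh dm d) (k l : Fin 9) (h : k ≠ l) (D : Fin 9 → Matrix (Fin dm) (Fin dm) ℝ)
    (Om : Matrix (Fin dm) (Fin dm) ℝ) (hD : ∀ i, (D i)ᵀ = -D i) (hO : Omᵀ = Om) :
    ∑ α, ∑ β, ∑ A, S.g2 k l α β * JF S φ D Om 1 0 (α, A) (β, A) = 0 := by
  have e : ∀ α β, ∑ A, S.g2 k l α β * JF S φ D Om 1 0 (α, A) (β, A) = (dh : ℂ) * (S.g2 k l α β * S.Gam α β) := by
    intro α β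
    rw [← Finset.mul_sum, ← φ.sum_comp, Fintype.sum_sum_type]
    simp only [JF, Matrix.of_apply, Equiv.symm_apply_apply, Sum.elim_inl, Sum.elim_inr, if_true,
      Finset.sum_const, Finset.card_univ, Fintype.card_fin, nsmul_eq_mul, Complex.ofReal_one, one_mul,
      Complex.ofReal_zero, zero_mul, add_zero]
    have h0 : ∑ B, (S.κ : ℂ) * ∑ i, S.g i α β * (((Om⁻¹ * D i) B B : ℝ) : ℂ) = 0 := by
      rw [← Finset.mul_sum, Finset.sum_comm]
      have : ∀ i, ∑ B, S.g i α β * (((Om⁻¹ * D i) B B : ℝ) : ℂ) = 0 := by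
        intro i
        rw [← Finset.mul_sum, ← Complex.ofReal_sum]
        have h1 : ∑ B, (Om⁻¹ * D i) B B = Matrix.trace (Om⁻¹ * D i) := rfl
        rw [h1, rp_trOm _ _ (hD i) hO, Complex.ofReal_zero, mul_zero]
      simp only [this, Finset.sum_const_zero, mul_zero]
    rw [h0, add_zero]
    ring
  simp only [e, ← Finset.mul_sum]
  rw [rp_trG S k l h, mul_zero]

/-- `JF` is real -/
lemma rp_real (S : Setup d F) (φ : Spl dh dm d) (D : Fin 9 → Matrix (Fin dm) (Fin dm) ℝ)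
    (Om : Matrix (Fin dm) (Fin dm) ℝ) (c s : ℝ) (p q : Fin 16 × Fin d) : (JF S φ D Om c s p q).im = 0 := by
  simp only [JF, Matrix.of_apply]
  rcases φ.symm p.2 with A | A <;> rcases φ.symm q.2 with B | B
  · simp only [Sum.elim_inl]
    split_ifs
    · exact S.Gam_real _ _
    · rfl
  · simp
  · simp
  · simp only [Sum.elim_inr]
    have h1 : (∑ i, S.g i p.1 q.1 * (((Om⁻¹ * D i) A B : ℝ) : ℂ)).im = 0 := by
      rw [Complex.im_sum]
      refine Finset.sum_eq_zero fun i _ => ?_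
      rw [Complex.mul_im, S.g_real, Complex.ofReal_im]; ring
    have h2 : ((if A = B then S.Gam p.1 q.1 else 0 : ℂ)).im = 0 := by
      split_ifs
      · exact S.Gam_real _ _
      · rfl
    simp only [Complex.add_im, Complex.mul_im, Complex.ofReal_im, Complex.ofReal_re, h1, h2, mul_zero, zero_mul, add_zero]

/-- **S9 RPar** -/
theorem rPar_stmt (S : Setup d F) (φ : Spl dh dm d) (ψ : Spl ds dz dh) : LineStmt S → TwoStmt S → ImpTStmt S →
    JFStmt S φ → CovStmt S φ ψ → VacRStmt S φ → EtaStmt S φ ψ → RParStmt S φ ψ := by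
  intro _ hTwo hImp _ hCov hVac hEta hfin hirr L Om K U hB ζ hζ k l hkl η hη t
  have : CompleteSpace F := FiniteDimensional.complete ℂ F
  by_cases hz : ζ = 0
  · subst hz; simp
  obtain ⟨hE1, hE2⟩ := hEta hfin hirr L Om K U hB
  obtain ⟨hV1, -, -⟩ := hVac hfin k l hkl
  have hne : k ≠ l := hkl.1
  -- data at the rotated points
  have hOm : ∀ s, IsOm S.κ (AD.Dz S φ ψ (RR k l s η)) (Om (RR k l s η)) := by
    intro s
    have := hB.om (RR k l s η) (hB.det _ (hη s))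
    rwa [AX.DM_Mz] at this
  have hRR0 : RR k l 0 η = η := by rw [RR_zero]; rfl
  have hOm0 : IsOm S.κ (AD.Dz S φ ψ η) (Om η) := by
    have := hOm 0
    rwa [hRR0] at this
  have hOmE : ∀ s, Om (RR k l s η) = Om η := fun s =>
    AX.omU dm S.κ _ _ _ S.κ_pos (hOm s) ((hCov.2 k l hkl s η (Om η) hOm0).1)
  have hb : ∀ s, U (RR k l s η) ζ ∈ JV S (JF S φ (AD.Dz S φ ψ (RR k l s η)) (Om η) 1 0) := by
    intro s
    have := (hE1 _ (hη s) ζ).1 hζ
    rwa [hOmE s] at this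
  have hηc : η ∉ Coll L := by
    have := hη 0
    rwa [hRR0] at this
  have hb0 : U η ζ ∈ JV S (JF S φ (AD.Dz S φ ψ η) (Om η) 1 0) := (hE1 _ hηc ζ).1 hζ
  have ha : ∀ s, spr S k l s (U η ζ) ∈ JV S (JF S φ (AD.Dz S φ ψ (RR k l s η)) (Om η) 1 0) := by
    intro s
    obtain ⟨i1, -, i3⟩ := hV1 s
    have h1 := hImp _ _ _ i3 i1 _ hb0
    have h2 := (hCov.2 k l hkl s η (Om η) hOm0).2 1 0
    rw [h2, Matrix.mul_assoc, i3, Matrix.mul_one] at h1
    exact h1
  have hlin : ∀ s, ∃ c : ℂ, spr S k l s (U η ζ) = c • U (RR k l s η) ζ := by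
    intro s
    refine hE2 ζ hζ hz _ (hη s) _ ?_
    rw [hOmE s]
    exact ha s
  have hUn : ∀ η', inner ℂ (U η' ζ) (U η' ζ) = inner ℂ ζ ζ := fun η' => hB.U_inner _ _ _
  have hζζ : inner ℂ ζ ζ ≠ 0 := inner_self_ne_zero.2 hz
  have hUne : ∀ η', U η' ζ ≠ 0 := by
    intro η' h0
    have := hUn η'
    rw [h0, inner_zero_left] at this
    exact hζζ this.symm
  -- derivative of the two curves
  have hRRd : ∀ s, ∃ ξ : Cfg dz, HasDerivAt (fun s => RR k l s η) ξ s := by
    intro s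
    have h1 := hasDerivAt_RR_neg hne (-s) η
    have h2 := HasDerivAt.scomp s h1 (hasDerivAt_neg s)
    have e : (fun s => (RR k l s : Cfg dz →L[ℝ] Cfg dz) η) = (fun s => (RR k l (-s) : Cfg dz →L[ℝ] Cfg dz) η) ∘ Neg.neg := by
      funext r
      simp
    rw [e]
    exact ⟨_, h2⟩
  have hopen : IsOpen (Coll L)ᶜ := hB.closed.isOpen_compl
  have hUd : ∀ η' ∉ Coll L, HasFDerivAt U (fderiv ℝ U η') η' := by
    intro η' h'
    exact ((hB.U_smooth.contDiffAt (hopen.mem_nhds h')).differentiableAt (by simp)).hasFDerivAt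
  have hg : ∀ s, HasDerivAt (fun s => inner ℂ (U (RR k l s η) ζ) (spr S k l s (U η ζ))) 0 s := by
    intro s
    obtain ⟨ξ, hξ⟩ := hRRd s
    obtain ⟨c, hc⟩ := hlin s
    have d1 : HasDerivAt (fun s => U (RR k l s η)) (fderiv ℝ U (RR k l s η) ξ) s :=
      (hUd _ (hη s)).comp_hasDerivAt s hξ
    have d2 : HasDerivAt (fun s => U (RR k l s η) ζ) ((fderiv ℝ U (RR k l s η) ξ) ζ) s :=
      ((ContinuousLinearMap.apply ℂ F ζ).restrictScalars ℝ).hasFDerivAt.comp_hasDerivAt s d1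
    have d3 : HasDerivAt (fun s => spr S k l s (U η ζ)) (((Complex.I • S.Skl k l) * S.st k l s) (U η ζ)) s := by
      have h := S.hasDerivAt_st k l s
      exact ((ContinuousLinearMap.apply ℂ F (U η ζ)).restrictScalars ℝ).hasFDerivAt.comp_hasDerivAt s h
    have d4 := d2.inner ℂ d3
    have e1 : inner ℂ ((fderiv ℝ U (RR k l s η) ξ) ζ) (spr S k l s (U η ζ)) = 0 := by
      rw [hc, inner_smul_right, ← inner_conj_symm, hB.U_par _ (hη s) ζ hζ.1 ζ hζ.1 ξ, map_zero, mul_zero]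
    have hJ : CStr (JF S φ (AD.Dz S φ ψ (RR k l s η)) (Om η) 1 0) :=
      rp_cstr S _ (rp_real S φ _ _ 1 0) _ (hb s) (hUne _)
    have hDa : ∀ i, (AD.Dz S φ ψ (RR k l s η) i)ᵀ = -AD.Dz S φ ψ (RR k l s η) i := by
      intro i
      rw [← AX.DM_Mz]
      simp only [DM, Matrix.transpose_sum, Matrix.transpose_smul, AX.Mz_anti, smul_neg, Finset.sum_neg_distrib]
    have e2 : inner ℂ (U (RR k l s η) ζ) (S.Skl k l (U (RR k l s η) ζ)) = 0 := by
      rw [((hTwo _ hJ _ (hb s)).2 k l hne), rp_tr S φ k l hne _ _ hDa hOm0.symm, mul_zero, zero_mul]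
    have e3 : ((Complex.I • S.Skl k l) * S.st k l s) (U η ζ) = Complex.I • S.Skl k l (spr S k l s (U η ζ)) := rfl
    have e4 : inner ℂ (U (RR k l s η) ζ) (((Complex.I • S.Skl k l) * S.st k l s) (U η ζ)) +
        inner ℂ ((fderiv ℝ U (RR k l s η) ξ) ζ) (spr S k l s (U η ζ)) = 0 := by
      rw [e1, e3, hc, map_smul, inner_smul_right, inner_smul_right, e2]
      simp
    exact d4.congr_deriv e4
  have hconst := is_const_of_deriv_eq_zero (fun s => (hg s).differentiableAt) (fun s => (hg s).deriv) t 0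
  have hs0 : spr S k l 0 (U η ζ) = U η ζ := by
    have := S.st_zero k l
    have h' : S.st k l 0 (U η ζ) = U η ζ := by rw [this]; rfl
    exact h'
  simp only [hRR0, hs0, hUn] at hconst
  obtain ⟨c, hc⟩ := hlin t
  rw [hc, inner_smul_right, hUn] at hconst
  have hc1 : c = 1 := mul_right_cancel₀ hζζ (by rw [hconst, one_mul])
  rw [hc, hc1, one_smul]

end Vale.Agent.P353.Z.AS
end

section

/-! # P353, all `N`, block SGN: S10 FerAt -/

open MeasureTheory Filter Topology Matrix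
open scoped ContDiff

namespace Vale.Agent.P353.Z.AS

variable {d dh dm ds dz : ℕ} {F : Type*} [NormedAddCommGroup F] [InnerProductSpace ℂ F]

private lemma fa514_ImT_mul (S : Setup d F) {T1 T2 : Matrix (Fin 16 × Fin d) (Fin 16 × Fin d) ℂ} {M1 M2 : F →L[ℂ] F}
    (h1 : ImT S T1 M1) (h2 : ImT S T2 M2) : ImT S (T1 * T2) (M1 * M2) := by
  intro q
  rw [mul_assoc, h2 q, Finset.mul_sum]
  have h3 : ∀ p : Fin 16 × Fin d, M1 * (T2 p q • (S.th p.1 p.2 * M2)) =
      ∑ r : Fin 16 × Fin d, (T1 r p * T2 p q) • (S.th r.1 r.2 * (M1 * M2)) := by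
    intro p
    rw [mul_smul_comm, ← mul_assoc, h1 p, Finset.sum_mul, Finset.smul_sum]
    refine Finset.sum_congr rfl fun r _ => ?_
    rw [smul_mul_assoc, smul_smul, mul_comm (T2 p q), mul_assoc]
  simp only [h3]
  rw [Finset.sum_comm]
  refine Finset.sum_congr rfl fun r _ => ?_
  rw [← Finset.sum_smul, Matrix.mul_apply]

private lemma fa514_cT_imp (S : Setup d F) {O : Matrix (Fin d) (Fin d) ℝ} {G : F →L[ℂ] F} (h : Imp S O G) :
    ImT S (cT O) G := by
  intro q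
  rw [h.imp q.1 q.2, Fintype.sum_prod_type, Finset.sum_eq_single q.1]
  · refine Finset.sum_congr rfl fun B _ => ?_
    simp [cT]
  · intro α _ hα
    refine Finset.sum_eq_zero fun B _ => ?_
    simp [cT, hα]
  · simp

private lemma fa514_cT_orth {O : Matrix (Fin d) (Fin d) ℝ} (h : O * Oᵀ = 1) :
    (cT O : Matrix (Fin 16 × Fin d) (Fin 16 × Fin d) ℂ) * (cT O)ᵀ = 1 := by
  ext p q
  rw [Matrix.mul_apply, Fintype.sum_prod_type]
  have h0 : ∀ A B, ∑ C, O A C * O B C = if A = B then 1 else 0 := by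
    intro A B
    have h1 := congrFun (congrFun h A) B
    rw [Matrix.mul_apply, Matrix.one_apply] at h1
    simpa [Matrix.transpose_apply] using h1
  rw [Finset.sum_eq_single p.1]
  · by_cases hpq : p.1 = q.1
    · have h2 : ∀ C, (cT O) p (p.1, C) * (cT O)ᵀ (p.1, C) q = ((O p.2 C * O q.2 C : ℝ) : ℂ) := by
        intro C
        simp [cT, Matrix.transpose_apply, hpq]
      simp only [h2]
      rw [← Complex.ofReal_sum, h0]
      by_cases h3 : p.2 = q.2
      · have h4 : p = q := Prod.ext hpq h3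
        rw [if_pos h3, h4, Matrix.one_apply_eq, Complex.ofReal_one]
      · have h4 : p ≠ q := fun h => h3 (by rw [h])
        simp [h3, h4]
    · have h4 : p ≠ q := fun h => hpq (by rw [h])
      rw [Matrix.one_apply_ne h4]
      refine Finset.sum_eq_zero fun C _ => ?_
      have h5 : q.1 ≠ p.1 := fun h => hpq h.symm
      simp [cT, Matrix.transpose_apply, h5]
  · intro α _ hα
    refine Finset.sum_eq_zero fun C _ => ?_
    simp [cT, hα.symm]
  · simp

/-- `JF` is affine in `c`, `s` -/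
private lemma fa514_JF_aff (S : Setup d F) (φ : Spl dh dm d) (D : Fin 9 → Matrix (Fin dm) (Fin dm) ℝ)
    (Om : Matrix (Fin dm) (Fin dm) ℝ) (c s : ℝ) : JF S φ D Om c s = JF S φ D Om 0 0 +
      (c : ℂ) • (JF S φ D Om 1 0 - JF S φ D Om 0 0) + (s : ℂ) • (JF S φ D Om 0 1 - JF S φ D Om 0 0) := by
  ext p q
  simp only [JF, Matrix.of_apply, Matrix.add_apply, Matrix.smul_apply, Matrix.sub_apply]
  rcases φ.symm p.2 with a | a <;> rcases φ.symm q.2 with b | b <;> simp

private lemma fa514_JF_cont (S : Setup d F) (φ : Spl dh dm d) (D : Fin 9 → Matrix (Fin dm) (Fin dm) ℝ)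
    (Om : Matrix (Fin dm) (Fin dm) ℝ) :
    Continuous fun s : ℝ => JF S φ D Om (Real.cos (Real.pi / 2 * s)) (Real.sin (Real.pi / 2 * s)) := by
  have h : (fun s : ℝ => JF S φ D Om (Real.cos (Real.pi / 2 * s)) (Real.sin (Real.pi / 2 * s))) = fun s : ℝ =>
      JF S φ D Om 0 0 + ((Real.cos (Real.pi / 2 * s) : ℝ) : ℂ) • (JF S φ D Om 1 0 - JF S φ D Om 0 0) +
        ((Real.sin (Real.pi / 2 * s) : ℝ) : ℂ) • (JF S φ D Om 0 1 - JF S φ D Om 0 0) := by
    funext s
    exact fa514_JF_aff S φ D Om _ _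
  rw [h]
  fun_prop

private lemma fa514_Dz_zero (S : Setup d F) (φ : Spl dh dm d) (ψ : Spl ds dz dh) (η : Cfg dz) (i : Fin 9)
    (h : ∀ a, η (i, a) = 0) : AD.Dz S φ ψ η i = 0 := by
  rw [← AX.DM_Mz]
  simp [DM, h]

/-- core of S10: the matrices `D_i(η)` commute -/
theorem fa514_core (S : Setup d F) (φ : Spl dh dm d) (ψ : Spl ds dz dh) (hE : EigStmt S) (hJ : JFStmt S φ)
    (hC : CovStmt S φ ψ) (hV : VacRStmt S φ) (hEta : EtaStmt S φ ψ) (hR : RParStmt S φ ψ)
    (hF : FiniteDimensional ℂ F) (hI : S.Irr) (L : Finset (Fin dz → ℝ)) (Om : Cfg dz → Matrix (Fin dm) (Fin dm) ℝ)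
    (K : Submodule ℂ F) (U : Cfg dz → F →L[ℂ] F) (hB : AX.Bun S φ (AX.Mz S φ ψ) L Om K U)
    (O : Matrix (Fin d) (Fin d) ℝ) (G : F →L[ℂ] F) (hS : Sym S O) (hBlk : Blk φ ψ O) (hG : Imp S O G)
    (η : Cfg dz) (hη : η ∉ Coll L) (h3 : ∀ i : Fin 9, i.val < 3 → ∀ a, η (i, a) = 0)
    (hcomm : ∀ i j, AD.Dz S φ ψ η i * AD.Dz S φ ψ η j = AD.Dz S φ ψ η j * AD.Dz S φ ψ η i)
    (hor : ro (zO φ ψ O) η = η ∨ (ro (zO φ ψ O) η = RR 3 4 Real.pi η ∧ ∀ t, RR 3 4 t η ∉ Coll L))
    (ζ : F) (hζ : Gv S φ K ζ) : G (U η ζ) = U (ro (zO φ ψ O) η) ζ := by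
  by_cases hne : ∃ v : F, v ≠ 0
  swap
  · push Not at hne
    rw [hne (G (U η ζ)), hne (U (ro (zO φ ψ O) η) ζ)]
  have hOm : IsOm S.κ (AD.Dz S φ ψ η) (Om η) := by
    have h := hB.om η (hB.det η hη)
    rwa [AX.DM_Mz] at h
  have hanti : ∀ i, (AD.Dz S φ ψ η i)ᵀ = -AD.Dz S φ ψ η i := by
    intro i
    rw [← AX.DM_Mz]
    simp only [DM, Matrix.transpose_sum, Matrix.transpose_smul, AX.Mz_anti, smul_neg, Finset.sum_neg_distrib]
  obtain ⟨-, hJ2, -, hJ4⟩ := hJ (AD.Dz S φ ψ η) (Om η) hanti hcomm hOm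
  have hD : ∀ i : Fin 9, i.val < 3 → AD.Dz S φ ψ η i = 0 := fun i hi => fa514_Dz_zero S φ ψ η i (h3 i hi)
  set J : ℝ → Matrix (Fin 16 × Fin d) (Fin 16 × Fin d) ℂ := fun s =>
    JF S φ (AD.Dz S φ ψ η) (Om η) (Real.cos (Real.pi / 2 * s)) (Real.sin (Real.pi / 2 * s)) with hJdef
  have hJc : Continuous J := fa514_JF_cont S φ _ _
  have hJs : ∀ s, CStr (J s) := fun s =>
    hJ2 (hD 0 (by decide)) (hD 1 (by decide)) (hD 2 (by decide)) _ _ (Real.cos_sq_add_sin_sq _)
  have hJ0 : J 0 = JF S φ (AD.Dz S φ ψ η) (Om η) 1 0 := by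
    simp only [hJdef, mul_zero, Real.cos_zero, Real.sin_zero]
  have hJ1 : J 1 = JF S φ (AD.Dz S φ ψ η) (Om η) 0 1 := by
    simp only [hJdef, mul_one, Real.cos_pi_div_two, Real.sin_pi_div_two]
  have hmem : U η ζ ∈ JV S (J 0) := by
    rw [hJ0]
    exact ((hEta hF hI L Om K U hB).1 η hη ζ).1 hζ
  have hcT := fa514_cT_orth (d := d) hG.orth
  rcases hor with hA | ⟨hA, hA2⟩
  · have h1 := hE hF hI hne J (cT O) G hJc hJs hcT ?_ (fa514_cT_imp S hG) hG.norm ?_ (U η ζ) hmem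
    · rw [hA]
      exact h1
    · intro s
      have h2 := hC.1 O hS hBlk η (Om η) (Om η) hOm (by rw [hA]; exact hOm) (Real.cos (Real.pi / 2 * s))
        (Real.sin (Real.pi / 2 * s))
      rw [hA] at h2
      exact h2
    · intro v hv
      rw [hJ1] at hv
      exact hG.vac v ((hJ4 v).1 hv)
  · have h34 : Same (3 : Fin 9) 4 := ⟨by decide, by decide⟩
    obtain ⟨hV1, hV2, -⟩ := hV hF 3 4 h34
    obtain ⟨hi, hn, ho⟩ := hV1 (-Real.pi)
    have hOm2 : IsOm S.κ (AD.Dz S φ ψ (RR 3 4 Real.pi η)) (Om η) := (hC.2 3 4 h34 Real.pi η (Om η) hOm).1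
    have hM : ∀ v, ‖(spr S 3 4 (-Real.pi) * G) v‖ = ‖v‖ := by
      intro v
      change ‖spr S 3 4 (-Real.pi) (G v)‖ = ‖v‖
      rw [hn, hG.norm]
    have hT : (sT (gtt S 3 4 (-Real.pi)) * cT O) * (sT (gtt S 3 4 (-Real.pi)) * cT O)ᵀ = 1 := by
      rw [Matrix.transpose_mul, Matrix.mul_assoc, ← Matrix.mul_assoc (cT O), hcT, Matrix.one_mul]
      exact ho
    have h1 := hE hF hI hne J (sT (gtt S 3 4 (-Real.pi)) * cT O) (spr S 3 4 (-Real.pi) * G) hJc hJs hT ?_
      (fa514_ImT_mul S hi (fa514_cT_imp S hG)) hM ?_ (U η ζ) hmem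
    · have h2 : spr S 3 4 (-Real.pi) (G (U η ζ)) = U η ζ := h1
      have h4 : spr S 3 4 Real.pi (spr S 3 4 (-Real.pi) (G (U η ζ))) = G (U η ζ) := by
        have h5 := DFunLike.congr_fun (S.st_mul_neg 3 4 Real.pi) (G (U η ζ))
        exact h5
      rw [h2] at h4
      rw [← h4, hA]
      exact hR hF hI L Om K U hB ζ hζ 3 4 h34 η hA2 Real.pi
    · intro s
      have h2 := hC.1 O hS hBlk η (Om η) (Om η) hOm (by rw [hA]; exact hOm2) (Real.cos (Real.pi / 2 * s))
        (Real.sin (Real.pi / 2 * s))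
      rw [hA] at h2
      have h4 := (hC.2 3 4 h34 (-Real.pi) (RR 3 4 Real.pi η) (Om η) hOm2).2 (Real.cos (Real.pi / 2 * s))
        (Real.sin (Real.pi / 2 * s))
      have h5 : RR 3 4 (-Real.pi) (RR 3 4 Real.pi η) = η := RR_neg_cancel h34.1 Real.pi η
      rw [h5] at h4
      change (sT (gtt S 3 4 (-Real.pi)) * cT O) * JF S φ (AD.Dz S φ ψ η) (Om η) (Real.cos (Real.pi / 2 * s))
        (Real.sin (Real.pi / 2 * s)) = JF S φ (AD.Dz S φ ψ η) (Om η) (Real.cos (Real.pi / 2 * s))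
        (Real.sin (Real.pi / 2 * s)) * (sT (gtt S 3 4 (-Real.pi)) * cT O)
      rw [Matrix.mul_assoc, h2, ← Matrix.mul_assoc, h4, Matrix.mul_assoc]
    · intro v hv
      rw [hJ1] at hv
      have h2 := (hJ4 v).1 hv
      change spr S 3 4 (-Real.pi) (G v) = v
      rw [hG.vac v h2]
      exact (hV2 v h2).2 _

/-- **S10 FerAt** -/
theorem ferAt_stmt (S : Setup d F) (φ : Spl dh dm d) (ψ : Spl ds dz dh) : EigStmt S → ImpTStmt S → JFStmt S φ →
    CovStmt S φ ψ → VacRStmt S φ → EtaStmt S φ ψ → RParStmt S φ ψ → FerAtStmt S φ ψ := by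
  intro hE _ hJ hC hV hEta hR hF hI L Om K U hB O G hS hBlk hG η hη h3 hor ζ hζ
  by_cases hne : ∃ v : F, v ≠ 0
  · exact fa514_core S φ ψ hE hJ hC hV hEta hR hF hI L Om K U hB O G hS hBlk hG η hη h3 (eta_comm S φ ψ hB hne hη) hor ζ hζ
  · push Not at hne
    rw [hne (G (U η ζ)), hne (U (ro (zO φ ψ O) η) ζ)]

end Vale.Agent.P353.Z.AS
end

section

/-! # P353, all `N`, block SGN, S13: gauge invariance of zero modes (helper232) -/

open MeasureTheory Filter Topology Matrix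
open scoped ContDiff

namespace Vale.Agent.P353.Z.AS

universe u

variable {d : ℕ} {F : Type*} [NormedAddCommGroup F] [InnerProductSpace ℂ F]

private lemma sex_comm (S : Setup d F) (a : Fin d → ℝ) (α : Fin 16) (B : Fin d) (w : F) :
    AN.eqvK S a (S.th α B w) = S.th α B (AN.eqvK S a w) + ∑ D, ((S.adm a D B : ℝ) : ℂ) • S.th α D w := by
  have h : ∀ C, S.cS C (S.th α B w) = S.th α B (S.cS C w) + Complex.I • ∑ E, (S.f C B E : ℂ) • S.th α E w := by
    intro C
    have h1 := congrArg (fun T : F →L[ℂ] F => T w) (U.comm_cS S C 1 B α)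
    simp only [S.vec_one] at h1
    simp only [_root_.sub_apply, mul_apply_eq_comp, _root_.smul_apply, _root_.sum_apply] at h1
    rw [← h1]
    abel
  simp only [AN.eqvK, _root_.smul_apply, _root_.sum_apply, h, map_smul, map_sum, smul_add, Finset.sum_add_distrib]
  congr 1
  simp only [Finset.smul_sum, smul_smul]
  rw [Finset.sum_comm]
  refine Finset.sum_congr rfl fun D _ => ?_
  rw [← Finset.sum_smul]
  congr 1
  simp only [Setup.adm, Matrix.of_apply]
  push_cast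
  refine Finset.sum_congr rfl fun C _ => ?_
  rw [S.f_cyc D C B]
  have hI : Complex.I * Complex.I = -1 := Complex.I_mul_I
  linear_combination (-(a C : ℂ) * (S.f C B D : ℂ)) * hI

private lemma sex_exp (S : Setup d F) (hF : FiniteDimensional ℂ F) (a : Fin d → ℝ) (α : Fin 16) (A : Fin d) (v : F) :
    AN.spn S a (S.th α A v) = ∑ B, ((NormedSpace.exp (S.adm a) B A : ℝ) : ℂ) • S.th α B (AN.spn S a v) := by
  have : CompleteSpace F := FiniteDimensional.complete ℂ F
  let _ : NormedAlgebra ℚ (F →L[ℂ] F) := NormedAlgebra.restrictScalars ℚ ℂ (F →L[ℂ] F)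
  set K := AN.eqvK S a with hKd
  have hK : AN.spn S a = NormedSpace.exp K := rfl
  have hw : ∀ t : ℝ, HasDerivAt (fun t : ℝ => (NormedSpace.exp (t • K)) v) (K ((NormedSpace.exp (t • K)) v)) t := by
    intro t
    have h1 : HasDerivAt (fun t : ℝ => NormedSpace.exp (t • K)) (K * NormedSpace.exp (t • K)) t :=
      hasDerivAt_exp_smul_const' (𝕂 := ℝ) K t
    have h2 : HasDerivAt (fun t : ℝ => (NormedSpace.exp (t • K)).restrictScalars ℝ)
        ((K * NormedSpace.exp (t • K)).restrictScalars ℝ) t :=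
      (ContinuousLinearMap.restrictScalarsL ℂ F F ℝ ℝ).hasFDerivAt.comp_hasDerivAt t h1
    have h3 := h2.clm_apply (hasDerivAt_const t v)
    refine h3.congr_deriv ?_
    simp
  have hh : ∀ t : ℝ, HasDerivAt (fun t : ℝ => ∑ B, ((NormedSpace.exp (t • S.adm a) B A : ℝ) : ℂ) •
      S.th α B ((NormedSpace.exp (t • K)) v))
      (K (∑ B, ((NormedSpace.exp (t • S.adm a) B A : ℝ) : ℂ) • S.th α B ((NormedSpace.exp (t • K)) v))) t := by
    intro t
    have h1 : HasDerivAt (fun t : ℝ => ∑ B, ((NormedSpace.exp (t • S.adm a) B A : ℝ) : ℂ) •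
        S.th α B ((NormedSpace.exp (t • K)) v))
        (∑ B, (((NormedSpace.exp (t • S.adm a) B A : ℝ) : ℂ) • S.th α B (K ((NormedSpace.exp (t • K)) v)) +
          (((S.adm a * NormedSpace.exp (t • S.adm a)) B A : ℝ) : ℂ) • S.th α B ((NormedSpace.exp (t • K)) v))) t := by
      refine HasDerivAt.fun_sum fun B _ => ?_
      have e1 : HasDerivAt (fun t : ℝ => ((NormedSpace.exp (t • S.adm a) B A : ℝ) : ℂ))
          (((S.adm a * NormedSpace.exp (t • S.adm a)) B A : ℝ) : ℂ) t :=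
        (U.gx983_hasDerivAt_exp (S.adm a) t B A).ofReal_comp
      have e2 : HasDerivAt (fun t : ℝ => S.th α B ((NormedSpace.exp (t • K)) v))
          (S.th α B (K ((NormedSpace.exp (t • K)) v))) t :=
        ((S.th α B).restrictScalars ℝ).hasFDerivAt.comp_hasDerivAt t (hw t)
      exact e1.smul e2
    refine h1.congr_deriv ?_
    rw [map_sum, Finset.sum_add_distrib]
    simp only [map_smul, hKd, sex_comm, smul_add, Finset.sum_add_distrib]
    congr 1
    simp only [Matrix.mul_apply, Finset.smul_sum, smul_smul]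
    rw [Finset.sum_comm]
    refine Finset.sum_congr rfl fun B _ => ?_
    rw [← Finset.sum_smul]
    congr 1
    push_cast
    exact Finset.sum_congr rfl fun C _ => by ring
  have hE' : ∀ t : ℝ, HasDerivAt
      (fun t : ℝ => (NormedSpace.exp (t • (-K))).restrictScalars ℝ)
      ((NormedSpace.exp (t • (-K)) * (-K)).restrictScalars ℝ) t := fun t =>
    (ContinuousLinearMap.restrictScalarsL ℂ F F ℝ ℝ).hasFDerivAt.comp_hasDerivAt t
      (hasDerivAt_exp_smul_const (𝕂 := ℝ) (-K) t)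
  have hg : ∀ t : ℝ, HasDerivAt (fun t : ℝ =>
      (NormedSpace.exp (t • (-K))) (∑ B, ((NormedSpace.exp (t • S.adm a) B A : ℝ) : ℂ) •
      S.th α B ((NormedSpace.exp (t • K)) v))) 0 t := by
    intro t
    have h := (hE' t).clm_apply (hh t)
    refine h.congr_deriv ?_
    simp
  have hc := is_const_of_deriv_eq_zero (f := fun t : ℝ =>
      (NormedSpace.exp (t • (-K))) (∑ B, ((NormedSpace.exp (t • S.adm a) B A : ℝ) : ℂ) •
      S.th α B ((NormedSpace.exp (t • K)) v)))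
    (fun t => (hg t).differentiableAt) (fun t => (hg t).deriv) 1 0
  simp only [one_smul, zero_smul, NormedSpace.exp_zero, one_apply_eq_self] at hc
  have hinv : NormedSpace.exp K * NormedSpace.exp (-K) = 1 := by
    have hcm : Commute K (-K) := (Commute.refl _).neg_right
    rw [← NormedSpace.exp_add_of_commute hcm, add_neg_cancel, NormedSpace.exp_zero]
  have h6 := congrArg (fun T : F →L[ℂ] F => T (∑ B, ((NormedSpace.exp (S.adm a) B A : ℝ) : ℂ) •
      S.th α B ((NormedSpace.exp K) v))) hinv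
  simp only [mul_apply_eq_comp, one_apply_eq_self] at h6
  rw [hc] at h6
  rw [hK, ← h6]
  congr 1
  rw [Finset.sum_eq_single A]
  · simp
  · intro B _ hB
    simp [Matrix.one_apply_ne hB]
  · intro h
    exact absurd (Finset.mem_univ _) h

private lemma sex_fix (S : Setup d F) (hF : FiniteDimensional ℂ F) (a : Fin d → ℝ) (v : F) (hv : AN.eqvK S a v = 0) :
    AN.spn S a v = v := by
  have : CompleteSpace F := FiniteDimensional.complete ℂ F
  let _ : NormedAlgebra ℚ (F →L[ℂ] F) := NormedAlgebra.restrictScalars ℚ ℂ (F →L[ℂ] F)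
  set K := AN.eqvK S a with hKd
  have hK : AN.spn S a = NormedSpace.exp K := rfl
  have hw : ∀ t : ℝ, HasDerivAt (fun t : ℝ => (NormedSpace.exp (t • K)) v) 0 t := by
    intro t
    have h1 : HasDerivAt (fun t : ℝ => NormedSpace.exp (t • K)) (NormedSpace.exp (t • K) * K) t :=
      hasDerivAt_exp_smul_const (𝕂 := ℝ) K t
    have h2 : HasDerivAt (fun t : ℝ => (NormedSpace.exp (t • K)).restrictScalars ℝ)
        ((NormedSpace.exp (t • K) * K).restrictScalars ℝ) t :=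
      (ContinuousLinearMap.restrictScalarsL ℂ F F ℝ ℝ).hasFDerivAt.comp_hasDerivAt t h1
    have h3 := h2.clm_apply (hasDerivAt_const t v)
    refine h3.congr_deriv ?_
    simp [hv]
  have hc := is_const_of_deriv_eq_zero (f := fun t : ℝ => (NormedSpace.exp (t • K)) v)
    (fun t => (hw t).differentiableAt) (fun t => (hw t).deriv) 1 0
  simp only [one_smul, zero_smul, NormedSpace.exp_zero, one_apply_eq_self] at hc
  rw [hK]
  exact hc

private lemma sex_imp (S : Setup d F) (hF : FiniteDimensional ℂ F) (a : Fin d → ℝ) :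
    Imp S (NormedSpace.exp (S.adm a)) (AN.spn S a) := by
  refine ⟨?_, fun α A => ?_, (AN.eqv_stmt S hF).1 a, fun v hv => ?_⟩
  · have h := U.gx983_orth S a 1
    rw [one_smul] at h
    exact mul_eq_one_comm.1 h
  · refine ContinuousLinearMap.ext fun v => ?_
    simp only [mul_apply_eq_comp, _root_.sum_apply, _root_.smul_apply]
    exact sex_exp S hF a α A v
  · refine sex_fix S hF a v ?_
    simp only [AN.eqvK, _root_.smul_apply, _root_.sum_apply]
    rw [Finset.sum_eq_zero fun C _ => by rw [AX2.csV_stmt S v hv C, smul_zero], smul_zero]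

private lemma sex_ro (O : Matrix (Fin d) (Fin d) ℝ) (x : Cfg d) : ro O x = rox 1 O x := by
  ext p
  simp only [ro, rox]
  rw [Finset.sum_eq_single p.1]
  · simp
  · intro j _ hj
    exact Finset.sum_eq_zero fun B _ => by rw [Matrix.one_apply_ne hj.symm, zero_mul, zero_mul]
  · intro h
    exact absurd (Finset.mem_univ _) h

omit [InnerProductSpace ℂ F] in
private lemma sex_L2t {O : Matrix (Fin d) (Fin d) ℝ} (hO : O * O.transpose = 1) {u : ℕ → Cfg d → F} {g : Cfg d → F}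
    (h : L2t u g) : L2t (fun n x => u n (ro O x)) (fun x => g (ro O x)) := by
  have h1 : (1 : Matrix (Fin 9) (Fin 9) ℝ) * (1 : Matrix (Fin 9) (Fin 9) ℝ).transpose = 1 := by simp
  have hmp : MeasurePreserving (rox (1 : Matrix (Fin 9) (Fin 9) ℝ) O : Cfg d → Cfg d) volume volume := AN.rt_mp h1 hO
  have hemb : MeasurableEmbedding (rox (1 : Matrix (Fin 9) (Fin 9) ℝ) O : Cfg d → Cfg d) :=
    (AN.rtE 1 h1 O hO).toHomeomorph.measurableEmbedding
  simp only [sex_ro]
  refine ⟨fun n => (h.mem n).comp_measurePreserving hmp, h.mem'.comp_measurePreserving hmp, ?_⟩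
  have h2 : ∀ n, nsq (fun x => u n (rox 1 O x) - g (rox 1 O x)) = nsq (fun x => u n x - g x) := by
    intro n
    exact hmp.integral_comp hemb (fun x => ‖u n x - g x‖ ^ 2)
  simp only [h2]
  exact h.lim

/-- **S13** -/
theorem sex_stmt (hS : ∀ (d : ℕ) (E : Type u) [NormedAddCommGroup E] [InnerProductSpace ℂ E] (S : Setup d E),
    AX2.SecStmt S) : SexStmt.{u} := by
  intro κ d f a E _ _ hE S hf hκ hI hne W hW Ψ hΨ
  obtain ⟨u, hu1, hu2, hu3, _⟩ := hΨ
  have had : adf f a = S.adm a := by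
    rw [← hf]
    rfl
  rw [had] at hW ⊢
  have hWs : W = AN.spn S a := (hS d E S hE hI hne).2 _ _ _ hW (sex_imp S hE a)
  have hL : L2t u Ψ := Lp_L2t hu1 hu3
  have hL1 : L2t (fun n x => W (u n x)) (fun x => W (Ψ x)) := hL.op (A := fun _ => W) continuous_const fun _ => le_rfl
  have hL2 : L2t (fun n x => u n (ro (NormedSpace.exp (S.adm a)) x)) (fun x => Ψ (ro (NormedSpace.exp (S.adm a)) x)) :=
    sex_L2t hW.orth hL
  have heq : (fun n x => u n (ro (NormedSpace.exp (S.adm a)) x)) = fun n x => W (u n x) := by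
    funext n x
    rw [hWs]
    exact (AN.eqv_stmt S hE).2.2.2.2 (u n) (hu1 n).1 (hu2 n) a x
  have t1 := hL1.lim_toLp
  have t2 := hL2.lim_toLp
  have e1 : ∀ n, (hL2.mem n).toLp (fun x => u n (ro (NormedSpace.exp (S.adm a)) x)) =
      (hL1.mem n).toLp (fun x => W (u n x)) := by
    intro n
    refine MemLp.toLp_congr _ _ (Eventually.of_forall fun x => ?_)
    exact congrFun (congrFun heq n) x
  have t3 := tendsto_nhds_unique t1 (t2.congr e1)
  have t4 := (MemLp.toLp_eq_toLp_iff hL1.mem' hL2.mem').1 t3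
  exact t4

end Vale.Agent.P353.Z.AS
end

section

/-! # P353, all `N`, block SGN: S22, direct sums of finite families (helper925) -/

open MeasureTheory Filter Topology Matrix
open scoped ContDiff

namespace Vale.Agent.P353.Z.AS

universe u

theorem oneFam_stmt : OneFamStmt.{u} := by
  intro hP hZ κ k dd ff D e f h1 h2 h3
  refine ANF.one925_sum hP hZ κ k dd ff h3 D e f ?_
  intro a b c i j l
  by_cases h : a = b ∧ a = c
  · obtain ⟨rfl, rfl⟩ := h
    rw [dif_pos ⟨rfl, rfl⟩]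
    exact h1 a i j l
  · rw [dif_neg h]
    exact h2 _ _ _ fun h' => h ⟨h'.1, h'.1.trans h'.2⟩

end Vale.Agent.P353.Z.AS
end

section

/-! # P353, all `N`, block SGN, S23: the `s` part of an exchange (helper206) -/

open MeasureTheory Filter Topology Matrix
open scoped ContDiff

namespace Vale.Agent.P353.Z.AS

universe u

variable {N d dh dm ds dz k : ℕ} {n : Fin k → ℕ} {T : Fin d → Matrix (Fin N) (Fin N) ℂ} {φ : Spl dh dm d} {ψ : Spl ds dz dh}

/-- the structure constants of the semisimple part -/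
private noncomputable def sf206 {F : Type u} [NormedAddCommGroup F] [InnerProductSpace ℂ F] (S : Setup d F) (φ : Spl dh dm d)
    (ψ : Spl ds dz dh) : Fin ds → Fin ds → Fin ds → ℝ := fun A B C =>
  S.f (φ (Sum.inl (ψ (Sum.inl A)))) (φ (Sum.inl (ψ (Sum.inl B)))) (φ (Sum.inl (ψ (Sum.inl C))))

private lemma sf206_cast (fr : NFr n T φ ψ) :
    ∀ (m m' : ℕ) (h : m = m') (i j l : Fin (m ^ 2 - 1)),
      fr.fb m' (Fin.cast (by rw [h]) i) (Fin.cast (by rw [h]) j) (Fin.cast (by rw [h]) l) = fr.fb m i j l := by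
  intro m m' h i j l
  subst h
  rfl

/-- same block -/
private lemma sf206_same {F : Type u} [NormedAddCommGroup F] [InnerProductSpace ℂ F] {S : Setup d F} {fr : NFr n T φ ψ}
    (hB : Bas N d T S.f) (hSf : ANF.SfStmt S fr) (a : Fin k) (i j l : Fin (n a ^ 2 - 1)) :
    sf206 S φ ψ (fr.es ⟨a, i⟩) (fr.es ⟨a, j⟩) (fr.es ⟨a, l⟩) = fr.fb (n a) i j l := by
  have h := hSf hB a a a i j l
  rw [dif_pos ⟨rfl, rfl⟩] at h
  exact h

/-- different blocks -/
private lemma sf206_diff {F : Type u} [NormedAddCommGroup F] [InnerProductSpace ℂ F] {S : Setup d F} {fr : NFr n T φ ψ}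
    (hB : Bas N d T S.f) (hSf : ANF.SfStmt S fr) (s t v : Σ a, Fin (n a ^ 2 - 1)) (h : ¬ (s.1 = t.1 ∧ t.1 = v.1)) :
    sf206 S φ ψ (fr.es s) (fr.es t) (fr.es v) = 0 := by
  have h1 := hSf hB s.1 t.1 v.1 s.2 t.2 v.2
  rw [dif_neg (fun h2 => h ⟨h2.1, h2.1.symm.trans h2.2⟩)] at h1
  exact h1

/-- blocks different from `a`, `b` -/
private abbrev Rb206 {k : ℕ} (a b : Fin k) : Type := {x : Fin k // x ≠ a ∧ x ≠ b}

private noncomputable def g206 {k : ℕ} (a b : Fin k) (x : Fin (Fintype.card (Rb206 a b))) : Fin k :=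
  ((Fintype.equivFin (Rb206 a b)).symm x).1

private lemma g206_ne {k : ℕ} (a b : Fin k) (x : Fin (Fintype.card (Rb206 a b))) : g206 a b x ≠ a ∧ g206 a b x ≠ b :=
  ((Fintype.equivFin (Rb206 a b)).symm x).2

private lemma g206_inj {k : ℕ} (a b : Fin k) : Function.Injective (g206 a b) := by
  intro x y h
  exact (Fintype.equivFin (Rb206 a b)).symm.injective (Subtype.ext h)

private lemma g206_surj {k : ℕ} (a b c : Fin k) (h1 : c ≠ a) (h2 : c ≠ b) : ∃ x, g206 a b x = c := by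
  refine ⟨Fintype.equivFin (Rb206 a b) ⟨c, h1, h2⟩, ?_⟩
  rw [g206, Equiv.symm_apply_apply]

/-- the positions of the rest -/
private abbrev M206 {k : ℕ} (n : Fin k → ℕ) (a b : Fin k) : Type :=
  Σ x : Fin (Fintype.card (Rb206 a b)), Fin (n (g206 a b x) ^ 2 - 1)

/-- decomposition of the positions -/
private noncomputable def E206 {k : ℕ} (n : Fin k → ℕ) (a b : Fin k) (hab : n a = n b) :
    (Fin (n a ^ 2 - 1) ⊕ Fin (n a ^ 2 - 1)) ⊕ M206 n a b → Σ a, Fin (n a ^ 2 - 1) :=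
  Sum.elim (Sum.elim (fun i => ⟨a, i⟩) (fun i => ⟨b, Fin.cast (by rw [hab]) i⟩)) (fun y => ⟨g206 a b y.1, y.2⟩)

private lemma E206_bij {k : ℕ} (n : Fin k → ℕ) (a b : Fin k) (hne : a ≠ b) (hab : n a = n b) :
    Function.Bijective (E206 n a b hab) := by
  constructor
  · rintro ((i | i) | ⟨x, i⟩) ((j | j) | ⟨y, j⟩) h
    · have h1 : i = j := by simpa [E206] using h
      rw [h1]
    · exact absurd (congrArg Sigma.fst h) hne
    · exact absurd (congrArg Sigma.fst h).symm (g206_ne a b y).1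
    · exact absurd (congrArg Sigma.fst h).symm hne
    · have h1 : i = j := by simpa [E206] using h
      rw [h1]
    · exact absurd (congrArg Sigma.fst h).symm (g206_ne a b y).2
    · exact absurd (congrArg Sigma.fst h) (g206_ne a b x).1
    · exact absurd (congrArg Sigma.fst h) (g206_ne a b x).2
    · have h1 : x = y := g206_inj a b (congrArg Sigma.fst h)
      subst h1
      have h2 : i = j := by simpa [E206] using h
      rw [h2]
  · rintro ⟨c, i⟩
    by_cases h1 : c = a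
    · subst h1
      exact ⟨Sum.inl (Sum.inl i), rfl⟩
    · by_cases h2 : c = b
      · subst h2
        exact ⟨Sum.inl (Sum.inr (Fin.cast (by rw [hab]) i)), rfl⟩
      · obtain ⟨x, rfl⟩ := g206_surj a b c h1 h2
        exact ⟨Sum.inr ⟨x, i⟩, rfl⟩

/-- the full decomposition -/
private noncomputable def e206 {k ds : ℕ} {n : Fin k → ℕ} (es : (Σ a, Fin (n a ^ 2 - 1)) ≃ Fin ds) (a b : Fin k) (hne : a ≠ b)
    (hab : n a = n b) : (Fin (n a ^ 2 - 1) ⊕ Fin (n a ^ 2 - 1)) ⊕ Fin (Fintype.card (M206 n a b)) ≃ Fin ds :=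
  ((Equiv.sumCongr (Equiv.refl _) (Fintype.equivFin (M206 n a b)).symm).trans
    (Equiv.ofBijective _ (E206_bij n a b hne hab))).trans es

private lemma e206_1 {k ds : ℕ} {n : Fin k → ℕ} (es : (Σ a, Fin (n a ^ 2 - 1)) ≃ Fin ds) (a b : Fin k) (hne : a ≠ b)
    (hab : n a = n b) (i : Fin (n a ^ 2 - 1)) : e206 es a b hne hab (Sum.inl (Sum.inl i)) = es ⟨a, i⟩ := rfl

private lemma e206_2 {k ds : ℕ} {n : Fin k → ℕ} (es : (Σ a, Fin (n a ^ 2 - 1)) ≃ Fin ds) (a b : Fin k) (hne : a ≠ b)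
    (hab : n a = n b) (i : Fin (n a ^ 2 - 1)) : e206 es a b hne hab (Sum.inl (Sum.inr i)) =
      es ⟨b, Fin.cast (by rw [hab]) i⟩ := rfl

private lemma e206_3 {k ds : ℕ} {n : Fin k → ℕ} (es : (Σ a, Fin (n a ^ 2 - 1)) ≃ Fin ds) (a b : Fin k) (hne : a ≠ b)
    (hab : n a = n b) (y : M206 n a b) : e206 es a b hne hab (Sum.inr (Fintype.equivFin (M206 n a b) y)) =
      es ⟨g206 a b y.1, y.2⟩ := by
  show es (E206 n a b hab (Sum.map id (Fintype.equivFin (M206 n a b)).symm (Sum.inr (Fintype.equivFin (M206 n a b) y)))) = _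
  rw [Sum.map_inr, Equiv.symm_apply_apply]
  rfl

/-- every position is one of the three kinds -/
private lemma e206_cases {k ds : ℕ} {n : Fin k → ℕ} (es : (Σ a, Fin (n a ^ 2 - 1)) ≃ Fin ds) (a b : Fin k) (hne : a ≠ b)
    (hab : n a = n b) (A : Fin ds) : (∃ i, A = e206 es a b hne hab (Sum.inl (Sum.inl i))) ∨
      (∃ i, A = e206 es a b hne hab (Sum.inl (Sum.inr i))) ∨
      ∃ y, A = e206 es a b hne hab (Sum.inr (Fintype.equivFin (M206 n a b) y)) := by
  obtain ⟨x, rfl⟩ := (e206 es a b hne hab).surjective A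
  rcases x with (i | i) | j
  · exact Or.inl ⟨i, rfl⟩
  · exact Or.inr (Or.inl ⟨i, rfl⟩)
  · exact Or.inr (Or.inr ⟨(Fintype.equivFin (M206 n a b)).symm j, by rw [Equiv.apply_symm_apply]⟩)

private lemma e206_tag {k ds : ℕ} {n : Fin k → ℕ} (es : (Σ a, Fin (n a ^ 2 - 1)) ≃ Fin ds) (a b : Fin k) (hne : a ≠ b)
    (hab : n a = n b) (s : Σ a, Fin (n a ^ 2 - 1)) :
    tag (e206 es a b hne hab) (es s) = if s.1 = a then 0 else if s.1 = b then 1 else 2 := by
  rcases e206_cases es a b hne hab (es s) with ⟨i, h⟩ | ⟨i, h⟩ | ⟨y, h⟩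
  · have h1 : s = ⟨a, i⟩ := es.injective (h.trans (e206_1 es a b hne hab i))
    rw [h, tag, Equiv.symm_apply_apply, h1, if_pos rfl]
    rfl
  · have h1 : s = ⟨b, Fin.cast (by rw [hab]) i⟩ := es.injective (h.trans (e206_2 es a b hne hab i))
    rw [h, tag, Equiv.symm_apply_apply, h1, if_neg (fun h => hne h.symm), if_pos rfl]
    rfl
  · have h1 : s = ⟨g206 a b y.1, y.2⟩ := es.injective (h.trans (e206_3 es a b hne hab y))
    rw [h, tag, Equiv.symm_apply_apply, h1, if_neg (g206_ne a b y.1).1, if_neg (g206_ne a b y.1).2]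
    rfl

/-- the exchange as a permutation matrix -/
private lemma e206_sw {k ds : ℕ} {n : Fin k → ℕ} (es : (Σ a, Fin (n a ^ 2 - 1)) ≃ Fin ds) (a b : Fin k) (hne : a ≠ b)
    (hab : n a = n b) (t : Σ a, Fin (n a ^ 2 - 1)) :
    e206 es a b hne hab (Sum.map Sum.swap id ((e206 es a b hne hab).symm (es t))) =
      es (if h : t.1 = a then ⟨b, Fin.cast (by rw [h, hab]) t.2⟩ else
        if h : t.1 = b then ⟨a, Fin.cast (by rw [h, hab]) t.2⟩ else t) := by
  rcases e206_cases es a b hne hab (es t) with ⟨i, h⟩ | ⟨i, h⟩ | ⟨y, h⟩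
  · have h1 : t = ⟨a, i⟩ := es.injective (h.trans (e206_1 es a b hne hab i))
    rw [h, Equiv.symm_apply_apply]
    subst h1
    rw [dif_pos rfl]
    exact e206_2 es a b hne hab i
  · have h1 : t = ⟨b, Fin.cast (by rw [hab]) i⟩ := es.injective (h.trans (e206_2 es a b hne hab i))
    rw [h, Equiv.symm_apply_apply]
    subst h1
    rw [dif_neg (fun h => hne h.symm), dif_pos rfl]
    exact e206_1 es a b hne hab i
  · have h1 : t = ⟨g206 a b y.1, y.2⟩ := es.injective (h.trans (e206_3 es a b hne hab y))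
    rw [h, Equiv.symm_apply_apply]
    subst h1
    rw [dif_neg (g206_ne a b y.1).1, dif_neg (g206_ne a b y.1).2]
    exact e206_3 es a b hne hab y

/-- **S23** -/
theorem swF_stmt {F : Type u} [NormedAddCommGroup F] [InnerProductSpace ℂ F] (S : Setup d F) (fr : NFr n T φ ψ) :
    SwFStmt S fr := by
  intro hB hSw hSf hOF hP hZ hSwp hOne a b hne hab V c hc hV
  obtain ⟨-, -, hsO⟩ := hSw hB a b hne hab V c hc hV
  set e := e206 fr.es a b hne hab with he
  set f3 : Fin (Fintype.card (M206 n a b)) → Fin (Fintype.card (M206 n a b)) → Fin (Fintype.card (M206 n a b)) → ℝ :=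
    fun A B C => sf206 S φ ψ (e (Sum.inr A)) (e (Sum.inr B)) (e (Sum.inr C)) with hf3
  -- the structure constants are a double
  have hD : Dbl e (sf206 S φ ψ) (fr.fb (n a)) f3 := by
    refine ⟨?_, ?_, fun A B C => rfl, ?_⟩
    · intro A B C
      rw [he, e206_1, e206_1, e206_1]
      exact sf206_same hB hSf a A B C
    · intro A B C
      rw [he, e206_2, e206_2, e206_2, sf206_same hB hSf b]
      exact sf206_cast fr (n a) (n b) hab A B C
    · intro A B C hmix
      obtain ⟨s, rfl⟩ := fr.es.surjective A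
      obtain ⟨t, rfl⟩ := fr.es.surjective B
      obtain ⟨v, rfl⟩ := fr.es.surjective C
      refine sf206_diff hB hSf s t v fun h => hmix ?_
      rw [he, e206_tag, e206_tag, e206_tag, h.1, h.2]
      exact ⟨rfl, rfl⟩
  -- uniqueness for the rest and for everything
  have h3 : OneA.{u} 1 f3 := by
    refine hOF hP hZ 1 (Fintype.card (Rb206 a b)) (fun x => n (g206 a b x) ^ 2 - 1) (fun x => fr.fb (n (g206 a b x)))
      (Fintype.card (M206 n a b)) (Fintype.equivFin (M206 n a b)) f3 ?_ ?_ (fun x => hOne _)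
    · intro x i j l
      rw [hf3]
      show sf206 S φ ψ (e (Sum.inr _)) (e (Sum.inr _)) (e (Sum.inr _)) = _
      rw [he, e206_3, e206_3, e206_3]
      exact sf206_same hB hSf (g206 a b x) i j l
    · intro s t v h
      rw [hf3]
      show sf206 S φ ψ (e (Sum.inr _)) (e (Sum.inr _)) (e (Sum.inr _)) = _
      rw [he, e206_3, e206_3, e206_3]
      refine sf206_diff hB hSf _ _ _ fun h' => h ⟨g206_inj a b h'.1, g206_inj a b h'.2⟩
  have hA : OneA.{u} 1 (sf206 S φ ψ) := by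
    refine hOF hP hZ 1 k (fun x => n x ^ 2 - 1) (fun x => fr.fb (n x)) ds fr.es (sf206 S φ ψ) ?_ ?_ hOne
    · intro x i j l
      exact sf206_same hB hSf x i j l
    · intro s t v h
      exact sf206_diff hB hSf s t v h
  have hmain := hSwp 1 ds (n a ^ 2 - 1) (Fintype.card (M206 n a b)) e (sf206 S φ ψ) (fr.fb (n a)) f3 hD (hOne a) h3 hA
  have hO : sO φ ψ (adO T V) = swO e := by
    ext A B
    obtain ⟨s, rfl⟩ := fr.es.surjective A
    obtain ⟨t, rfl⟩ := fr.es.surjective B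
    rw [hsO s t, swO, Matrix.of_apply, he, e206_sw]
    simp only [EmbeddingLike.apply_eq_iff_eq]
  rw [hO]
  exact hmain

end Vale.Agent.P353.Z.AS
end

section

/-! # P353, all `N`, block X: X-Conn, the complement of the collision set is connected (prover helper213) -/

open MeasureTheory Filter Topology Matrix
open scoped ContDiff

namespace Vale.Agent.P353.Z.AX

variable {r : ℕ}

/-- the functional `y ↦ ∑_A l_A y_{i,A}` for `i < 8` -/
private noncomputable def xcP (l : Fin r → ℝ) (i : Fin 8) : Cfg r →ₗ[ℝ] ℝ where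
  toFun y := ∑ A, l A * y (i.castSucc, A)
  map_add' y z := by
    simp only [PiLp.add_apply, mul_add, Finset.sum_add_distrib]
  map_smul' c y := by
    simp only [PiLp.smul_apply, smul_eq_mul, RingHom.id_apply, Finset.mul_sum]
    exact Finset.sum_congr rfl fun A _ => by ring

private lemma xcP_apply (l : Fin r → ℝ) (i : Fin 8) (y : Cfg r) :
    xcP l i y = ∑ A, l A * y (i.castSucc, A) := rfl

private lemma xc_mem {L : Finset (Fin r → ℝ)} {y : Cfg r} :
    y ∈ Coll L ↔ ∃ l ∈ L, ∀ i, xcP l i y = 0 := Iff.rfl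

/-- the subspace of `z` with `P(z) ∥ P(x)` -/
private noncomputable def xcW (l : Fin r → ℝ) (x : Cfg r) : Submodule ℝ (Cfg r) :=
  ⨅ i : Fin 8, ⨅ j : Fin 8, LinearMap.ker (xcP l j x • xcP l i - xcP l i x • xcP l j)

private lemma xcW_mem (l : Fin r → ℝ) (x z : Cfg r) :
    z ∈ xcW l x ↔ ∀ i j, xcP l j x * xcP l i z = xcP l i x * xcP l j z := by
  simp only [xcW, Submodule.mem_iInf, LinearMap.mem_ker, LinearMap.sub_apply, LinearMap.smul_apply, smul_eq_mul,
    sub_eq_zero]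

/-- a point with prescribed value of one functional -/
private lemma xc_pt (l : Fin r → ℝ) (hl : l ≠ 0) (j : Fin 8) :
    ∃ z : Cfg r, xcP l j z ≠ 0 ∧ ∀ i, i ≠ j → xcP l i z = 0 := by
  obtain ⟨A, hA⟩ := Function.ne_iff.1 hl
  refine ⟨EuclideanSpace.single (j.castSucc, A) 1, ?_, fun i hij => ?_⟩
  · rw [xcP_apply, Finset.sum_eq_single A]
    · simpa using hA
    · intro B _ hB
      simp [hB]
    · simp
  · rw [xcP_apply]
    refine Finset.sum_eq_zero fun B _ => ?_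
    have : i.castSucc ≠ j.castSucc := fun h => hij (Fin.castSucc_injective _ h)
    simp [this]

private lemma xcW_ne (l : Fin r → ℝ) (hl : l ≠ 0) (x : Cfg r) (hx : ∃ i, xcP l i x ≠ 0) : xcW l x ≠ ⊤ := by
  intro h
  obtain ⟨i, hi⟩ := hx
  obtain ⟨j, hj⟩ : ∃ j : Fin 8, j ≠ i := exists_ne i
  obtain ⟨z, hz, hz'⟩ := xc_pt l hl j
  have h1 : z ∈ xcW l x := by rw [h]; trivial
  have h2 := (xcW_mem l x z).1 h1 j i
  rw [hz' i hj.symm, mul_zero] at h2
  exact (mul_ne_zero hi hz) h2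

/-- the segment from `x` to a point off `W(x)` avoids the subspace -/
private lemma xc_seg (l : Fin r → ℝ) (x z : Cfg r) (hx : ∃ i, xcP l i x ≠ 0) (hz : z ∉ xcW l x) (w : Cfg r)
    (hw : w ∈ segment ℝ x z) : ∃ i, xcP l i w ≠ 0 := by
  by_contra hc
  push Not at hc
  obtain ⟨a, b, ha, hb, hab, rfl⟩ := hw
  have h1 : ∀ i, a * xcP l i x + b * xcP l i z = 0 := fun i => by
    have := hc i
    rwa [map_add, map_smul, map_smul, smul_eq_mul, smul_eq_mul] at this
  by_cases hb0 : b = 0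
  · obtain ⟨i, hi⟩ := hx
    have h2 := h1 i
    rw [hb0, zero_mul, add_zero] at h2
    have ha1 : a = 1 := by linarith
    rw [ha1, one_mul] at h2
    exact hi h2
  · refine hz ((xcW_mem l x z).2 fun i j => ?_)
    have e1 := h1 i
    have e2 := h1 j
    have : b * (xcP l j x * xcP l i z) = b * (xcP l i x * xcP l j z) := by
      linear_combination xcP l j x * e1 - xcP l i x * e2
    exact mul_left_cancel₀ hb0 this

/-- **X-Conn**: the complement of the collision set is connected -/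
theorem conn : ConnStmt := by
  intro r L hL
  classical
  have hcomp : ∀ {y : Cfg r}, y ∈ (Coll L)ᶜ ↔ ∀ l ∈ L, ∃ i, xcP l i y ≠ 0 := by
    intro y
    rw [Set.mem_compl_iff, xc_mem]
    push Not
    rfl
  refine isPreconnected_of_forall_pair fun x hx y hy => ?_
  rw [hcomp] at hx hy
  obtain ⟨z, hz⟩ : ∃ z : Cfg r, ∀ l ∈ L, z ∉ xcW l x ∧ z ∉ xcW l y := by
    let T : Finset (Submodule ℝ (Cfg r)) := L.image (fun l => xcW l x) ∪ L.image (fun l => xcW l y)
    have hT : (⊤ : Submodule ℝ (Cfg r)) ∉ T := by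
      intro h
      rcases Finset.mem_union.1 h with h | h
      · obtain ⟨l, hl, e⟩ := Finset.mem_image.1 h
        exact xcW_ne l (hL l hl) x (hx l hl) e
      · obtain ⟨l, hl, e⟩ := Finset.mem_image.1 h
        exact xcW_ne l (hL l hl) y (hy l hl) e
    have h1 := Subspace.biUnion_ne_univ_of_top_notMem (s := T) hT
    obtain ⟨z, hz⟩ := (Set.ne_univ_iff_exists_notMem _).1 h1
    refine ⟨z, fun l hl => ⟨fun h => hz ?_, fun h => hz ?_⟩⟩
    · exact Set.mem_biUnion (Finset.mem_coe.2 (Finset.mem_union_left _ (Finset.mem_image_of_mem _ hl))) h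
    · exact Set.mem_biUnion (Finset.mem_coe.2 (Finset.mem_union_right _ (Finset.mem_image_of_mem _ hl))) h
  refine ⟨segment ℝ x z ∪ segment ℝ y z, ?_, Or.inl (left_mem_segment ℝ x z), Or.inr (left_mem_segment ℝ y z), ?_⟩
  · rintro w (hw | hw)
    · exact hcomp.2 fun l hl => xc_seg l x z (hx l hl) (hz l hl).1 w hw
    · exact hcomp.2 fun l hl => xc_seg l y z (hy l hl) (hz l hl).2 w hw
  · exact IsPreconnected.union z (right_mem_segment ℝ x z) (right_mem_segment ℝ y z)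
      (convex_segment x z).isPreconnected (convex_segment y z).isPreconnected

end Vale.Agent.P353.Z.AX
end

section

/-! # P353, all `N`, block SGN: S24, assembly (helper620) -/

open MeasureTheory Filter Topology Matrix
open scoped ContDiff

namespace Vale.Agent.P353.Z.AS

universe u

section
variable {d dh dm ds dz : ℕ} {F : Type u} [NormedAddCommGroup F] [InnerProductSpace ℂ F]

theorem s620_eta (S : Setup d F) (φ : Spl dh dm d) (ψ : Spl ds dz dh) : EtaStmt S φ ψ :=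
  eta_stmt S φ ψ (line_stmt S) (jF_stmt S φ)

theorem s620_rPar (S : Setup d F) (φ : Spl dh dm d) (ψ : Spl ds dz dh) : RParStmt S φ ψ :=
  rPar_stmt S φ ψ (line_stmt S) (two_stmt S) (impT_stmt S) (jF_stmt S φ) (cov_stmt S φ ψ) (vacR_stmt S φ) (s620_eta S φ ψ)

theorem s620_ferAt (S : Setup d F) (φ : Spl dh dm d) (ψ : Spl ds dz dh) : FerAtStmt S φ ψ :=
  ferAt_stmt S φ ψ (eig_stmt S (line_stmt S) (impT_stmt S)) (impT_stmt S) (jF_stmt S φ) (cov_stmt S φ ψ) (vacR_stmt S φ)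
    (s620_eta S φ ψ) (s620_rPar S φ ψ)

theorem s620_ext (S : Setup d F) (φ : Spl dh dm d) (ψ : Spl ds dz dh) : ExtStmt S φ ψ :=
  ext_stmt' S φ ψ (impT_stmt S) (cov_stmt S φ ψ) (s620_eta S φ ψ)

theorem s620_sex : SexStmt.{u} := sex_stmt fun _ _ _ _ S => AX2.sec_of AX2.wick_stmt S

theorem s620_comb : CombStmt.{u} := comb_stmt fun S => AX2.rst_stmt S

end

/-- **S24 Sgn** -/
theorem sgn_stmt : SwpAStmt.{u} → AX2.ProdStmt.{u} → AX2.ImpMStmt.{u} → SgnStmt.{u} := by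
  intro hSwpA hProd hImpM N d dh dm ds dz k n F _ _ hfd M S φ ψ fr z₀ h hRep hOne t Kc E l hRD V hV
  have hI : S.Irr := by
    intro W hW
    exact M.θ_irreducible W (by rw [← hRep.hth]; exact hW)
  have hne : ∃ v : F, v ≠ 0 := M.nontrivial
  have hBas : Bas N d M.T S.f := by
    rw [hRep.hf]
    exact ANF.basM_stmt N d F M
  obtain ⟨hSym, hmul⟩ := adSym_stmt N d F M.T S hBas
  have hImp : ∀ V, Imp S (adO M.T V) (M.S V) := fun V => hImpM N d F hfd M S hRep V
  have hVal : ANF.ValStmt S.f fr := ANF.val_stmt S.f fr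
  obtain ⟨hC, hA, hBx⟩ := etaStar_stmt S fr hBas hVal (ANF.reg_stmt S fr) coll_stmt t Kc E l hRD
  have hssf : h.ss.f = fun A B C => S.f (φ (Sum.inl (ψ (Sum.inl A)))) (φ (Sum.inl (ψ (Sum.inl B))))
      (φ (Sum.inl (ψ (Sum.inl C)))) := rfl
  have key := ANF.nrm_stmt S.f fr hVal hBas (fun V => Blk φ ψ (adO M.T V) ∧ SgC M S φ ψ h Kc E l V) ?_ ?_ ?_ V hV
  · exact key.2
  · rintro V W ⟨hV1, hV2⟩ ⟨hW1, hW2⟩
    refine ⟨?_, sgC_mul (hmul V W) (hSym W).orth hV1 hW1 hV2 hW2⟩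
    rw [hmul]
    exact s620_blk hV1 hW1
  · intro V hV hz
    refine ⟨hV, ?_⟩
    obtain ⟨η₀, h1, h2⟩ := hA
    obtain ⟨a, ha⟩ := exF_stmt S.f fr hBas V hV hz
    refine sgC_of hfd hI hne h hRD (s620_ferAt S φ ψ) (s620_ext S φ ψ) AX.conn s620_comb (hSym V) hV (hImp V) ?_
      (hC _ (hSym V) hV) η₀ h1 h2 (Or.inl ?_)
    · rw [ha, hssf]
      exact s620_sex S.κ ds _ a
    · rw [hz, U.foot_ro_one]
  · intro a b hab hn V c hc hVc
    obtain ⟨hV, hval, -⟩ := ANF.sw_stmt S.f fr hVal hBas a b hab hn V c hc hVc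
    refine ⟨hV, ?_⟩
    obtain ⟨η₀, h1, h2, h3⟩ := hBx a b hab hn
    have h0 : η₀ ∉ Coll (Finset.univ.image l) := by
      have h4 := h2 0
      rwa [RR_zero] at h4
    refine sgC_of hfd hI hne h hRD (s620_ferAt S φ ψ) (s620_ext S φ ψ) AX.conn s620_comb (hSym V) hV (hImp V) ?_
      (hC _ (hSym V) hV) η₀ h0 h1 (Or.inr ⟨?_, h2⟩)
    · rw [hRep.hκ, hssf]
      exact swF_stmt S fr hBas (ANF.sw_stmt S.f fr hVal) (ANF.sf_stmt S fr) oneFam_stmt hProd AX2.zero_stmt (swp_stmt hSwpA)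
        hOne a b hab hn V c hc hVc
    · refine (hVal hBas).2.2.1 _ _ fun i e => ?_
      rw [hval, h3]

end Vale.Agent.P353.Z.AS
end

section

/-! # P353, all `N`, block SGN: the product construction for two copies (S15 Tri, helper489) -/

open MeasureTheory Filter Topology Matrix
open scoped ContDiff

namespace Vale.Agent.P353.Z.AS

universe u

variable {d : ℕ} {F : Type u} [NormedAddCommGroup F] [InnerProductSpace ℂ F]

/-- the fermions of some of the colours -/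
noncomputable def trS (S : Setup d F) {n : ℕ} (i : Fin n → Fin d) (hi : Function.Injective i) : Setup n F where
  g := S.g
  g_symm := S.g_symm
  g_anti := S.g_anti
  th := fun α A => S.th α (i A)
  th_anti := by
    intro α A β B
    rw [S.th_anti]
    by_cases h : α = β ∧ A = B
    · rw [if_pos h, if_pos ⟨h.1, by rw [h.2]⟩]
    · rw [if_neg h, if_neg fun h' => h ⟨h'.1, hi h'.2⟩]
  κ := 1
  κ_pos := one_pos
  f := fun _ _ _ => 0
  f_swap := fun _ _ _ => neg_zero.symm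
  f_cyc := fun _ _ _ => rfl
  f_jac := fun _ _ _ _ => by simp
  g_real := S.g_real
  th_sa := fun α A v w => S.th_sa α (i A) v w

lemma tr_amF (S : Setup d F) {n : ℕ} (i : Fin n → Fin d) (hi : Function.Injective i) (A : Fin n) (α : Fin 16) :
    (trS S i hi).amF A α = S.amF (i A) α := rfl

lemma tr_rep_ι {n : ℕ} (S : Setup n F) (p : Fin 16 × Fin n) : S.rep (FreeAlgebra.ι ℂ p) = S.th p.1 p.2 := by
  unfold Setup.rep
  rw [FreeAlgebra.lift_ι_apply]

/-- parity of words -/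
noncomputable def trP (n : ℕ) : FreeAlgebra ℂ (Fin 16 × Fin n) →ₐ[ℂ] FreeAlgebra ℂ (Fin 16 × Fin n) :=
  FreeAlgebra.lift ℂ fun p => -FreeAlgebra.ι ℂ p

lemma trP_ι {n : ℕ} (p : Fin 16 × Fin n) : trP n (FreeAlgebra.ι ℂ p) = -FreeAlgebra.ι ℂ p := by
  unfold trP
  rw [FreeAlgebra.lift_ι_apply]

lemma trP_trP {n : ℕ} (X : FreeAlgebra ℂ (Fin 16 × Fin n)) : trP n (trP n X) = X := by
  have h : (trP n).comp (trP n) = AlgHom.id ℂ _ := by
    apply FreeAlgebra.hom_ext
    funext p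
    change trP n (trP n (FreeAlgebra.ι ℂ p)) = FreeAlgebra.ι ℂ p
    rw [trP_ι, map_neg, trP_ι, neg_neg]
  exact congrArg (fun φ : FreeAlgebra ℂ (Fin 16 × Fin n) →ₐ[ℂ] FreeAlgebra ℂ (Fin 16 × Fin n) => φ X) h

/-- an intertwiner of generators intertwines words -/
lemma tr_int {κ : Type*} (R R' : FreeAlgebra ℂ κ →ₐ[ℂ] (F →L[ℂ] F)) (T : F →L[ℂ] F)
    (h : ∀ p, T * R (FreeAlgebra.ι ℂ p) = R' (FreeAlgebra.ι ℂ p) * T) (X : FreeAlgebra ℂ κ) : T * R X = R' X * T := by
  refine FreeAlgebra.induction ℂ κ (motive := fun x => T * R x = R' x * T) ?_ h ?_ ?_ X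
  · intro c
    rw [AlgHom.commutes, AlgHom.commutes]
    exact (Algebra.commutes c T).symm
  · intro a b ha hb
    rw [map_mul, map_mul, ← mul_assoc, ha, mul_assoc, hb, mul_assoc]
  · intro a b ha hb
    rw [map_add, map_add, mul_add, add_mul, ha, hb]

lemma tr_int_apply {κ : Type*} (R R' : FreeAlgebra ℂ κ →ₐ[ℂ] (F →L[ℂ] F)) (T : F →L[ℂ] F)
    (h : ∀ p, T * R (FreeAlgebra.ι ℂ p) = R' (FreeAlgebra.ι ℂ p) * T) (X : FreeAlgebra ℂ κ) (v : F) :
    T (R X v) = R' X (T v) := by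
  have h1 := congrArg (fun A : F →L[ℂ] F => A v) (tr_int R R' T h X)
  exact h1

/-- operators which anticommute with the fermions of the words -/
lemma tr_anti (S : Setup d F) {n : ℕ} (i : Fin n → Fin d) (hi : Function.Injective i) (T : F →L[ℂ] F)
    (h : ∀ α A, T * S.th α (i A) = -(S.th α (i A) * T)) (X : FreeAlgebra ℂ (Fin 16 × Fin n)) (v : F) :
    T ((trS S i hi).rep X v) = (trS S i hi).rep (trP n X) (T v) := by
  refine tr_int_apply ((trS S i hi).rep) (((trS S i hi).rep).comp (trP n)) T (fun p => ?_) X v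
  change T * (trS S i hi).rep (FreeAlgebra.ι ℂ p) = (trS S i hi).rep (trP n (FreeAlgebra.ι ℂ p)) * T
  rw [trP_ι, map_neg, tr_rep_ι, neg_mul]
  exact h p.1 p.2

lemma tr_th_anti (S : Setup d F) {A B : Fin d} (h : A ≠ B) (α β : Fin 16) :
    S.th α A * S.th β B = -(S.th β B * S.th α A) := by
  rw [eq_neg_iff_add_eq_zero, S.th_anti, if_neg fun h' => h h'.2]

lemma tr_am_anti (S : Setup d F) {A B : Fin d} (h : A ≠ B) (α β : Fin 16) :
    S.amF A α * S.th β B = -(S.th β B * S.amF A α) := by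
  unfold Setup.amF CS.vec
  rw [sub_mul, mul_sub, tr_th_anti S h, smul_mul_assoc, mul_smul_comm, Finset.sum_mul, Finset.mul_sum]
  have e : ∑ γ, S.Gam α γ • S.th γ A * S.th β B = -∑ γ, S.th β B * S.Gam α γ • S.th γ A := by
    rw [← Finset.sum_neg_distrib]
    refine Finset.sum_congr rfl fun γ _ => ?_
    rw [smul_mul_assoc, mul_smul_comm, tr_th_anti S h, smul_neg]
  rw [e, smul_neg]
  abel

/-- the vectors killed by the annihilators of the other colours are obtained from the vacuum -/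
lemma tr_ex (S : Setup d F) (hfd : FiniteDimensional ℂ F) (hirr : S.Irr) (hne : ∃ v : F, v ≠ 0) {n m : ℕ}
    (i : Fin n → Fin d) (hi : Function.Injective i) (j : Fin m → Fin d) (hj : Function.Injective j)
    (hij : ∀ A B, i A ≠ j B) (hc : ∀ C, (∃ A, i A = C) ∨ ∃ B, j B = C) {ζ : F} (h0 : ζ ≠ 0)
    (hζ : ∀ A α, S.amF A α ζ = 0) {v : F} (hv : ∀ A α, S.amF (j A) α v = 0) :
    ∃ X, (trS S i hi).rep X ζ = v := by
  have hA : Ant (trS S i hi) (trS S j hj) := ⟨rfl, fun α A β B => by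
    change S.th α (i A) * S.th β (j B) + S.th β (j B) * S.th α (i A) = 0
    rw [S.th_anti, if_neg fun h' => hij A B h'.2]⟩
  have hI : IrrOn2 (trS S i hi) (trS S j hj) (⊤ : Submodule ℂ F) := by
    refine ⟨fun _ _ _ _ => Submodule.mem_top, fun _ _ _ _ => Submodule.mem_top, ?_, fun W _ h1 h2 => ?_⟩
    · intro h
      obtain ⟨w, hw⟩ := hne
      have : w ∈ (⊤ : Submodule ℂ F) := Submodule.mem_top
      rw [h, Submodule.mem_bot] at this
      exact hw this
    · refine hirr W fun α C w hw => ?_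
      rcases hc C with ⟨A, rfl⟩ | ⟨B, rfl⟩
      · exact h1 α A w hw
      · exact h2 α B w hw
  obtain ⟨hirr1, -⟩ := AX2.vci_main (trS S i hi) (trS S j hj) hfd hA ⊤ hI
  obtain ⟨L, hL⟩ : ∃ L : FreeAlgebra ℂ (Fin 16 × Fin n) →ₗ[ℂ] F, ∀ X, L X = (trS S i hi).rep X ζ :=
    ⟨{ toFun := fun X => (trS S i hi).rep X ζ
       map_add' := fun X Y => by rw [map_add]; rfl
       map_smul' := fun c X => by rw [map_smul]; rfl }, fun _ => rfl⟩
  have hle : LinearMap.range L ≤ vca (trS S j hj) (⊤ : Submodule ℂ F) := by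
    rintro _ ⟨X, rfl⟩
    refine ⟨Submodule.mem_top, fun B β => ?_⟩
    rw [tr_amF, hL, tr_anti S i hi (S.amF (j B) β) (fun α A => tr_am_anti S (hij A B).symm β α) X ζ, hζ, map_zero]
  have hinv : ∀ α A, ∀ w ∈ LinearMap.range L, (trS S i hi).th α A w ∈ LinearMap.range L := by
    rintro α A _ ⟨X, rfl⟩
    refine ⟨FreeAlgebra.ι ℂ (α, A) * X, ?_⟩
    rw [hL, hL, map_mul, tr_rep_ι]
    rfl
  rcases hirr1.irr _ hle hinv with h | h
  · exfalso
    have h1 : ζ ∈ LinearMap.range L := ⟨1, by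
      rw [hL, map_one]
      rfl⟩
    rw [h, Submodule.mem_bot] at h1
    exact h0 h1
  · have h1 : v ∈ vca (trS S j hj) (⊤ : Submodule ℂ F) := ⟨Submodule.mem_top, fun A α => hv A α⟩
    rw [← h] at h1
    obtain ⟨X, hX⟩ := h1
    exact ⟨X, by rw [← hL, hX]⟩

/-- section of words, even on even vectors -/
lemma tr_sec {n : ℕ} (S : Setup n F) {ζ : F} (P : F →L[ℂ] F) (hP : ∀ α A, P * S.th α A = -(S.th α A * P)) (hPζ : P ζ = ζ) :
    ∃ s : F →ₗ[ℂ] FreeAlgebra ℂ (Fin 16 × Fin n), (∀ X, S.rep (s (S.rep X ζ)) ζ = S.rep X ζ) ∧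
      ∀ v, P v = v → trP n (s v) = s v := by
  obtain ⟨L, hL⟩ : ∃ L : FreeAlgebra ℂ (Fin 16 × Fin n) →ₗ[ℂ] F, ∀ X, L X = S.rep X ζ :=
    ⟨{ toFun := fun X => S.rep X ζ
       map_add' := fun X Y => by rw [map_add]; rfl
       map_smul' := fun c X => by rw [map_smul]; rfl }, fun _ => rfl⟩
  obtain ⟨g, hg⟩ := L.rangeRestrict.exists_rightInverse_of_surjective L.range_rangeRestrict
  obtain ⟨s₀, hs₀⟩ := LinearMap.exists_extend g
  have h1 : ∀ X, L (s₀ (L X)) = L X := by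
    intro X
    have h2 : s₀ (L X) = g (L.rangeRestrict X) :=
      congrArg (fun φ : LinearMap.range L →ₗ[ℂ] FreeAlgebra ℂ (Fin 16 × Fin n) => φ (L.rangeRestrict X)) hs₀
    have h3 : L.rangeRestrict (g (L.rangeRestrict X)) = L.rangeRestrict X :=
      congrArg (fun φ : LinearMap.range L →ₗ[ℂ] LinearMap.range L => φ (L.rangeRestrict X)) hg
    rw [h2]
    exact congrArg Subtype.val h3
  have h4 : ∀ X, P (L X) = L (trP n X) := by
    intro X
    rw [hL, hL]
    have h5 := tr_int_apply S.rep ((S.rep).comp (trP n)) P (fun p => by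
      change P * S.rep (FreeAlgebra.ι ℂ p) = S.rep (trP n (FreeAlgebra.ι ℂ p)) * P
      rw [trP_ι, map_neg, tr_rep_ι, neg_mul, hP]) X ζ
    rw [h5, hPζ]
    rfl
  refine ⟨(1 / 2 : ℂ) • (s₀ + (trP n).toLinearMap ∘ₗ s₀ ∘ₗ (P : F →ₗ[ℂ] F)), fun X => ?_, fun v hv => ?_⟩
  · rw [← hL, ← hL]
    change L ((1 / 2 : ℂ) • (s₀ (L X) + trP n (s₀ (P (L X))))) = L X
    have h6 : L (trP n (s₀ (P (L X)))) = L X := by
      rw [← h4, h4 X, h1, h4, trP_trP]
    rw [map_smul, map_add, h1, h6, ← two_smul ℂ, smul_smul]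
    norm_num
  · change trP n ((1 / 2 : ℂ) • (s₀ v + trP n (s₀ (P v)))) = (1 / 2 : ℂ) • (s₀ v + trP n (s₀ (P v)))
    rw [hv, map_smul, map_add, trP_trP, add_comm]

lemma tr_impP {S : Setup d F} {P : F →L[ℂ] F} (hP : Imp S (-1) P) (α : Fin 16) (A : Fin d) :
    P * S.th α A = -(S.th α A * P) := by
  rw [hP.imp, Finset.sum_eq_single A]
  · simp
  · intro B _ hB
    simp [hB]
  · intro h
    exact absurd (Finset.mem_univ _) h

lemma tr_impW {d1 d3 : ℕ} {e : (Fin d1 ⊕ Fin d1) ⊕ Fin d3 ≃ Fin d} {S : Setup d F} {W : F →L[ℂ] F} (hW : Imp S (swO e) W)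
    (α : Fin 16) (A : Fin d) : W * S.th α A = S.th α (e (Sum.map Sum.swap id (e.symm A))) * W := by
  rw [hW.imp, Finset.sum_eq_single (e (Sum.map Sum.swap id (e.symm A)))]
  · simp [swO]
  · intro B _ hB
    simp [swO, hB]
  · intro h
    exact absurd (Finset.mem_univ _) h

/-- **S15 Tri** -/
theorem tri_stmt : AX2.WickStmt.{u} → TriStmt.{u} := by
  intro hWick d d1 d3 e F _ _ hfd S hirr hne W P hW hP
  obtain ⟨ζ, hn, hζ, -, -⟩ := AF.vacF S hirr hne
  have h0 : ζ ≠ 0 := fun h => by rw [h, norm_zero] at hn; exact zero_ne_one hn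
  have hPζ : P ζ = ζ := hP.vac ζ hζ
  have hWζ : W ζ = ζ := hW.vac ζ hζ
  -- the colours
  obtain ⟨i1, hi1⟩ : ∃ i1 : Fin d1 → Fin d, ∀ A, i1 A = e (Sum.inl (Sum.inl A)) := ⟨_, fun _ => rfl⟩
  obtain ⟨i2, hi2⟩ : ∃ i2 : Fin d1 → Fin d, ∀ A, i2 A = e (Sum.inl (Sum.inr A)) := ⟨_, fun _ => rfl⟩
  obtain ⟨i3, hi3⟩ : ∃ i3 : Fin d3 → Fin d, ∀ A, i3 A = e (Sum.inr A) := ⟨_, fun _ => rfl⟩
  have j1 : Function.Injective i1 := fun A B h => by
    rw [hi1, hi1] at h
    exact Sum.inl_injective (Sum.inl_injective (e.injective h))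
  have j2 : Function.Injective i2 := fun A B h => by
    rw [hi2, hi2] at h
    exact Sum.inr_injective (Sum.inl_injective (e.injective h))
  have j3 : Function.Injective i3 := fun A B h => by
    rw [hi3, hi3] at h
    exact Sum.inr_injective (e.injective h)
  have n12 : ∀ A B, i1 A ≠ i2 B := fun A B h => by
    rw [hi1, hi2] at h
    simpa using e.injective h
  have n13 : ∀ A B, i1 A ≠ i3 B := fun A B h => by
    rw [hi1, hi3] at h
    simpa using e.injective h
  have n23 : ∀ A B, i2 A ≠ i3 B := fun A B h => by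
    rw [hi2, hi3] at h
    simpa using e.injective h
  have t1 : ∀ A, tag e (i1 A) = 0 := fun A => by rw [hi1]; simp [tag]
  have t2 : ∀ A, tag e (i2 A) = 1 := fun A => by rw [hi2]; simp [tag]
  have t3 : ∀ A, tag e (i3 A) = 2 := fun A => by rw [hi3]; simp [tag]
  have hcov : ∀ C, (∃ A, i1 A = C) ∨ (∃ A, i2 A = C) ∨ ∃ A, i3 A = C := by
    intro C
    rcases h : e.symm C with (A | A) | A
    · exact Or.inl ⟨A, by rw [hi1, ← h, Equiv.apply_symm_apply]⟩
    · exact Or.inr (Or.inl ⟨A, by rw [hi2, ← h, Equiv.apply_symm_apply]⟩)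
    · exact Or.inr (Or.inr ⟨A, by rw [hi3, ← h, Equiv.apply_symm_apply]⟩)
  -- the vectors of the first copy
  have hE1 : ∀ u : F, (∀ A α, tag e A ≠ 0 → S.amF A α u = 0) → ∃ X, (trS S i1 j1).rep X ζ = u := by
    intro u hu
    refine tr_ex S hfd hirr hne i1 j1 (fun B : Fin (d1 + d3) => Sum.elim i2 i3 (finSumFinEquiv.symm B)) ?_ ?_ ?_ h0 hζ ?_
    · refine Function.Injective.comp ?_ finSumFinEquiv.symm.injective
      exact Function.Injective.sumElim j2 j3 n23
    · intro A B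
      rcases finSumFinEquiv.symm B with B | B
      · exact n12 A B
      · exact n13 A B
    · intro C
      rcases hcov C with h | ⟨A, h⟩ | ⟨A, h⟩
      · exact Or.inl h
      · exact Or.inr ⟨finSumFinEquiv (Sum.inl A), by
          rw [Equiv.symm_apply_apply]
          exact h⟩
      · exact Or.inr ⟨finSumFinEquiv (Sum.inr A), by
          rw [Equiv.symm_apply_apply]
          exact h⟩
    · intro B α
      refine hu _ α ?_
      rcases finSumFinEquiv.symm B with B | B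
      · change tag e (i2 B) ≠ 0
        rw [t2]; decide
      · change tag e (i3 B) ≠ 0
        rw [t3]; decide
  have hE3 : ∀ k : F, (∀ A α, tag e A ≠ 2 → S.amF A α k = 0) → ∃ X, (trS S i3 j3).rep X ζ = k := by
    intro k hk
    refine tr_ex S hfd hirr hne i3 j3 (fun B : Fin (d1 + d1) => Sum.elim i1 i2 (finSumFinEquiv.symm B)) ?_ ?_ ?_ h0 hζ ?_
    · refine Function.Injective.comp ?_ finSumFinEquiv.symm.injective
      exact Function.Injective.sumElim j1 j2 n12
    · intro A B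
      rcases finSumFinEquiv.symm B with B | B
      · exact (n13 B A).symm
      · exact (n23 B A).symm
    · intro C
      rcases hcov C with ⟨A, h⟩ | ⟨A, h⟩ | h
      · exact Or.inr ⟨finSumFinEquiv (Sum.inl A), by
          rw [Equiv.symm_apply_apply]
          exact h⟩
      · exact Or.inr ⟨finSumFinEquiv (Sum.inr A), by
          rw [Equiv.symm_apply_apply]
          exact h⟩
      · exact Or.inl h
    · intro B α
      refine hk _ α ?_
      rcases finSumFinEquiv.symm B with B | B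
      · change tag e (i1 B) ≠ 2
        rw [t1]; decide
      · change tag e (i2 B) ≠ 2
        rw [t2]; decide
  obtain ⟨s, hs1, hs2⟩ := tr_sec (trS S i1 j1) (ζ := ζ) P (fun α A => tr_impP hP α (i1 A)) hPζ
  -- universality of the vacuum
  have w11 : ∀ (X : FreeAlgebra ℂ (Fin 16 × Fin d1)) (v : F), (∀ A α, S.amF (i1 A) α v = 0) →
      ‖(trS S i1 j1).rep X v‖ = ‖(trS S i1 j1).rep X ζ‖ * ‖v‖ := by
    intro X v hv
    have h := (hWick d1 F F (trS S i1 j1) (trS S i1 j1) rfl ζ v (fun A α => hζ _ α) (fun A α => hv A α)).2 X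
    rw [hn, mul_one] at h
    exact h.symm
  have w12 : ∀ (X : FreeAlgebra ℂ (Fin 16 × Fin d1)) (v : F), (∀ A α, S.amF (i2 A) α v = 0) →
      ‖(trS S i2 j2).rep X v‖ = ‖(trS S i1 j1).rep X ζ‖ * ‖v‖ := by
    intro X v hv
    have h := (hWick d1 F F (trS S i1 j1) (trS S i2 j2) rfl ζ v (fun A α => hζ _ α) (fun A α => hv A α)).2 X
    rw [hn, mul_one] at h
    exact h.symm
  have z11 : ∀ (X Y : FreeAlgebra ℂ (Fin 16 × Fin d1)) (v : F), (∀ A α, S.amF (i1 A) α v = 0) →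
      (trS S i1 j1).rep X ζ = (trS S i1 j1).rep Y ζ → (trS S i1 j1).rep X v = (trS S i1 j1).rep Y v := by
    intro X Y v hv h
    have h1 := w11 (X - Y) v hv
    have h2 : (trS S i1 j1).rep (X - Y) ζ = 0 := by
      rw [map_sub, _root_.sub_apply, h, sub_self]
    rw [h2, norm_zero, zero_mul, norm_eq_zero, map_sub, _root_.sub_apply, sub_eq_zero] at h1
    exact h1
  have z12 : ∀ (X Y : FreeAlgebra ℂ (Fin 16 × Fin d1)) (v : F), (∀ A α, S.amF (i2 A) α v = 0) →
      (trS S i1 j1).rep X ζ = (trS S i1 j1).rep Y ζ → (trS S i2 j2).rep X v = (trS S i2 j2).rep Y v := by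
    intro X Y v hv h
    have h1 := w12 (X - Y) v hv
    have h2 : (trS S i1 j1).rep (X - Y) ζ = 0 := by
      rw [map_sub, _root_.sub_apply, h, sub_self]
    rw [h2, norm_zero, zero_mul, norm_eq_zero, map_sub, _root_.sub_apply, sub_eq_zero] at h1
    exact h1
  -- words of the second copy preserve the vacuum condition of the first copy
  have hk1 : ∀ (X : FreeAlgebra ℂ (Fin 16 × Fin d1)) (k : F), (∀ A α, tag e A ≠ 2 → S.amF A α k = 0) →
      ∀ A α, S.amF (i1 A) α ((trS S i2 j2).rep X k) = 0 := by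
    intro X k hk A α
    rw [tr_anti S i2 j2 (S.amF (i1 A) α) (fun β B => tr_am_anti S (n12 A B) α β) X k,
      hk _ α (by rw [t1]; decide), map_zero]
  have hk2 : ∀ (k : F), (∀ A α, tag e A ≠ 2 → S.amF A α k = 0) → ∀ A α, S.amF (i2 A) α k = 0 := by
    intro k hk A α
    exact hk _ α (by rw [t2]; decide)
  have hsu : ∀ u : F, (∀ A α, tag e A ≠ 0 → S.amF A α u = 0) → (trS S i1 j1).rep (s u) ζ = u := by
    intro u hu
    obtain ⟨X, rfl⟩ := hE1 u hu
    exact hs1 X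
  -- fermions of the first copy preserve the first space
  have hth1 : ∀ u : F, (∀ A α, tag e A ≠ 0 → S.amF A α u = 0) → ∀ β B, ∀ A α, tag e A ≠ 0 →
      S.amF A α (S.th β (i1 B) u) = 0 := by
    intro u hu β B A α hA
    have hne' : A ≠ i1 B := fun h => hA (by rw [h, t1])
    have h := congrArg (fun T : F →L[ℂ] F => T u) (tr_am_anti S hne' α β)
    have h' : S.amF A α (S.th β (i1 B) u) = -(S.th β (i1 B) (S.amF A α u)) := h
    rw [h', hu A α hA, map_zero, neg_zero]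
  have hthr : ∀ (u : F), (∀ A α, tag e A ≠ 0 → S.amF A α u = 0) → ∀ β B,
      (trS S i1 j1).rep (FreeAlgebra.ι ℂ (β, B) * s u) ζ = (trS S i1 j1).rep (s (S.th β (i1 B) u)) ζ := by
    intro u hu β B
    rw [hsu _ (hth1 u hu β B), map_mul, tr_rep_ι]
    change S.th β (i1 B) ((trS S i1 j1).rep (s u) ζ) = _
    rw [hsu u hu]
  -- the trilinear map
  obtain ⟨τ, hτ⟩ : ∃ τ : F →ₗ[ℂ] F →ₗ[ℂ] F →ₗ[ℂ] F, ∀ u u' k,
      τ u u' k = (trS S i1 j1).rep (s u) ((trS S i2 j2).rep (s u') k) := by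
    refine ⟨LinearMap.mk₂ ℂ (fun u u' => (((trS S i1 j1).rep (s u) * (trS S i2 j2).rep (s u') : F →L[ℂ] F) : F →ₗ[ℂ] F))
      ?_ ?_ ?_ ?_, fun u u' k => rfl⟩
    · intro u v w
      rw [map_add, map_add, add_mul]
      rfl
    · intro c u w
      rw [map_smul, map_smul, smul_mul_assoc]
      rfl
    · intro u v w
      rw [map_add, map_add, mul_add]
      rfl
    · intro c u w
      rw [map_smul, map_smul, mul_smul_comm]
      rfl
  refine ⟨τ, ⟨?_, ?_, ?_, ?_, ?_⟩⟩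
  · intro u u' k hu hu' hk
    rw [hτ, w11 _ _ (hk1 _ k hk), w12 _ _ (hk2 k hk), hsu u hu, hsu u' hu', mul_assoc]
  · intro u u' k α A hu hu' hk
    rw [hτ, hτ, ← hi1]
    have h := z11 _ _ _ (hk1 (s u') k hk) (hthr u hu α A)
    rw [← h, map_mul, tr_rep_ι]
    rfl
  · intro u u' k α A hPu hu hu' hk
    rw [hτ, hτ, ← hi1, ← hi2,
      tr_anti S i1 j1 (S.th α (i2 A)) (fun β B => tr_th_anti S (n12 B A).symm α β), hs2 u hPu]
    congr 1
    have h := z12 _ _ _ (hk2 k hk) (hthr u' hu' α A)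
    rw [← h, map_mul, tr_rep_ι]
    rfl
  · intro u u' k α A hPu hPu' hu hu' hk
    rw [hτ, hτ, ← hi3,
      tr_anti S i1 j1 (S.th α (i3 A)) (fun β B => tr_th_anti S (n13 B A).symm α β), hs2 u hPu,
      tr_anti S i2 j2 (S.th α (i3 A)) (fun β B => tr_th_anti S (n23 B A).symm α β), hs2 u' hPu']
  · intro u u' k hPu hPu' hu hu' hk
    have hW1 : ∀ X v, W ((trS S i1 j1).rep X v) = (trS S i2 j2).rep X (W v) := by
      intro X v
      refine tr_int_apply _ _ W (fun p => ?_) X v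
      rw [tr_rep_ι, tr_rep_ι]
      change W * S.th p.1 (i1 p.2) = S.th p.1 (i2 p.2) * W
      rw [tr_impW hW, hi1, hi2, Equiv.symm_apply_apply]
      rfl
    have hW2 : ∀ X v, W ((trS S i2 j2).rep X v) = (trS S i1 j1).rep X (W v) := by
      intro X v
      refine tr_int_apply _ _ W (fun p => ?_) X v
      rw [tr_rep_ι, tr_rep_ι]
      change W * S.th p.1 (i2 p.2) = S.th p.1 (i1 p.2) * W
      rw [tr_impW hW, hi1, hi2, Equiv.symm_apply_apply]
      rfl
    have hW3 : ∀ X v, W ((trS S i3 j3).rep X v) = (trS S i3 j3).rep X (W v) := by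
      intro X v
      refine tr_int_apply _ _ W (fun p => ?_) X v
      rw [tr_rep_ι]
      change W * S.th p.1 (i3 p.2) = S.th p.1 (i3 p.2) * W
      rw [tr_impW hW, hi3, Equiv.symm_apply_apply]
      rfl
    have hWk : W k = k := by
      obtain ⟨X, rfl⟩ := hE3 k hk
      rw [hW3, hWζ]
    rw [hτ, hτ, hW1, hW2, hWk]
    -- even words commute with the words of the other copy
    have hc := tr_int_apply ((trS S i2 j2).rep) ((trS S i2 j2).rep) ((trS S i1 j1).rep (s u')) (fun p => by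
      rw [tr_rep_ι]
      ext v
      have h := tr_anti S i1 j1 (S.th p.1 (i2 p.2)) (fun β B => tr_th_anti S (n12 B p.2).symm p.1 β) (s u') v
      rw [hs2 u' hPu'] at h
      exact h.symm) (s u) k
    exact hc.symm

end Vale.Agent.P353.Z.AS
end

section

/-! # P353, all `N`, block SGN: data of the product construction (helper973) -/

open MeasureTheory Filter Topology Matrix
open scoped ContDiff

namespace Vale.Agent.P353.Z.AS

universe u

/-- the vacuum space of the complementary colours is irreducible -/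
theorem sd_irr {d m m' : ℕ} {E : Type u} [NormedAddCommGroup E] [InnerProductSpace ℂ E] (fd : FiniteDimensional ℂ E)
    (S : Setup d E) (hI : S.Irr) (hne : ∃ v : E, v ≠ 0) (ψ : Spl m m' d) (hs : S.IsSub ψ) (hs' : S.IsSub (spsw ψ)) :
    IrrOn (S.sub ψ hs) (vca (S.sub (spsw ψ) hs') ⊤) := by
  have hAnt : Ant (S.sub ψ hs) (S.sub (spsw ψ) hs') := by
    refine ⟨rfl, fun α A β B => ?_⟩
    have h := S.th_anti α (ψ (Sum.inl A)) β (ψ (Sum.inr B))
    have hne' : ¬(α = β ∧ ψ (Sum.inl A) = ψ (Sum.inr B)) := by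
      rintro ⟨-, h⟩
      exact absurd (ψ.injective h) (by simp)
    rw [if_neg hne'] at h
    exact h
  obtain ⟨v₀, hv₀⟩ := hne
  have hI2 : IrrOn2 (S.sub ψ hs) (S.sub (spsw ψ) hs') (⊤ : Submodule ℂ E) := by
    refine ⟨fun _ _ _ _ => Submodule.mem_top, fun _ _ _ _ => Submodule.mem_top, ?_, ?_⟩
    · intro h
      have : v₀ ∈ (⊤ : Submodule ℂ E) := Submodule.mem_top
      rw [h, Submodule.mem_bot] at this
      exact hv₀ this
    · intro W _ hW1 hW2
      refine hI W fun α A v hv => ?_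
      obtain ⟨p, rfl⟩ := ψ.surjective A
      rcases p with a | b
      · exact hW1 α a v hv
      · exact hW2 α b v hv
  exact (AX2.vci_main (S.sub ψ hs) (S.sub (spsw ψ) hs') fd hAnt ⊤ hI2).1

theorem sd_vne {m : ℕ} {E : Type u} [NormedAddCommGroup E] [InnerProductSpace ℂ E] {S : Setup m E} {V : Submodule ℂ E}
    (h : IrrOn S V) : ∃ v : V, v ≠ 0 := by
  obtain ⟨v, hv, hv0⟩ := (Submodule.ne_bot_iff _).1 h.ne
  exact ⟨⟨v, hv⟩, fun h => hv0 (congrArg Subtype.val h)⟩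

section Tags

variable {d d1 d3 : ℕ} (e : (Fin d1 ⊕ Fin d1) ⊕ Fin d3 ≃ Fin d)

theorem sd_g1 (A : Fin d1) : tag e (sa1 e (Sum.inl A)) = 0 := by
  rw [sa1_inl]
  simp [tag]

theorem sd_g2 (A : Fin d1) : tag e (sa1 (saE e) (Sum.inl A)) = 1 := by
  rw [sa2_inl]
  simp [tag]

theorem sd_g3 (A : Fin d3) : tag e (sa3 e (Sum.inl A)) = 2 := by
  rw [sa3_inl]
  simp [tag]

theorem sd_g2' (A : Fin (d1 + d3)) : tag e (sa1 (saE e) (Sum.inr A)) ≠ 1 := by
  obtain ⟨p, rfl⟩ := finSumFinEquiv.surjective A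
  rcases p with p | p
  · rw [sa2_r1]
    simp [tag]
  · rw [sa2_r2]
    simp [tag]

end Tags

section Subs

variable {d d1 d3 : ℕ} {e : (Fin d1 ⊕ Fin d1) ⊕ Fin d3 ≃ Fin d} {f : Fin d → Fin d → Fin d → ℝ}
  {f1 : Fin d1 → Fin d1 → Fin d1 → ℝ} {f3 : Fin d3 → Fin d3 → Fin d3 → ℝ} {E : Type u} [NormedAddCommGroup E]
  [InnerProductSpace ℂ E] {S : Setup d E}

theorem sd_s1 (hD : Dbl e f f1 f3) (hf : S.f = f) : S.IsSub (sa1 e) := by
  intro A B C
  rw [hf]
  refine hD.mix _ _ _ fun h => ?_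
  have h1 := h.2
  rw [sd_g1] at h1
  exact sa_tag1 e C h1.symm

theorem sd_s1' (hD : Dbl e f f1 f3) (hf : S.f = f) : S.IsSub (spsw (sa1 e)) := by
  intro A B C
  rw [hf]
  refine hD.mix _ _ _ fun h => ?_
  have h1 : tag e (sa1 e (Sum.inr B)) = tag e (sa1 e (Sum.inl C)) := h.2
  rw [sd_g1] at h1
  exact sa_tag1 e B h1

theorem sd_s2 (hD : Dbl e f f1 f3) (hf : S.f = f) : S.IsSub (sa1 (saE e)) := by
  intro A B C
  rw [hf]
  refine hD.mix _ _ _ fun h => ?_
  have h1 := h.2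
  rw [sd_g2] at h1
  exact sd_g2' e C h1.symm

theorem sd_s2' (hD : Dbl e f f1 f3) (hf : S.f = f) : S.IsSub (spsw (sa1 (saE e))) := by
  intro A B C
  rw [hf]
  refine hD.mix _ _ _ fun h => ?_
  have h1 : tag e (sa1 (saE e) (Sum.inr B)) = tag e (sa1 (saE e) (Sum.inl C)) := h.2
  rw [sd_g2] at h1
  exact sd_g2' e B h1

theorem sd_s3 (hD : Dbl e f f1 f3) (hf : S.f = f) : S.IsSub (sa3 e) := by
  intro A B C
  rw [hf]
  refine hD.mix _ _ _ fun h => ?_
  have h1 := h.2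
  rw [sd_g3] at h1
  exact sa_tag3 e C h1.symm

theorem sd_s3' (hD : Dbl e f f1 f3) (hf : S.f = f) : S.IsSub (spsw (sa3 e)) := by
  intro A B C
  rw [hf]
  refine hD.mix _ _ _ fun h => ?_
  have h1 : tag e (sa3 e (Sum.inr B)) = tag e (sa3 e (Sum.inl C)) := h.2
  rw [sd_g3] at h1
  exact sa_tag3 e B h1

theorem sd_V1 (hs : S.IsSub (spsw (sa1 e))) (v : E) : v ∈ vca (S.sub (spsw (sa1 e)) hs) ⊤ ↔
    ∀ A α, tag e A ≠ 0 → S.amF A α v = 0 := by
  constructor
  · intro h A α hA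
    obtain ⟨B, rfl⟩ := sa_tag1' e A hA
    exact h.2 B α
  · intro h
    exact ⟨Submodule.mem_top, fun A α => h _ α (sa_tag1 e A)⟩

theorem sd_V1' (hs : S.IsSub (spsw (sa1 e))) (v : E) : v ∈ vca (S.sub (spsw (sa1 e)) hs) ⊤ ↔
    ∀ A α, S.amF (sa1 e (Sum.inr A)) α v = 0 :=
  ⟨fun h => h.2, fun h => ⟨Submodule.mem_top, h⟩⟩

theorem sd_V3 (hs : S.IsSub (spsw (sa3 e))) (v : E) : v ∈ vca (S.sub (spsw (sa3 e)) hs) ⊤ ↔
    ∀ A α, tag e A ≠ 2 → S.amF A α v = 0 := by
  constructor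
  · intro h A α hA
    obtain ⟨B, rfl⟩ := sa_tag3' e A hA
    exact h.2 B α
  · intro h
    exact ⟨Submodule.mem_top, fun A α => h _ α (sa_tag3 e A)⟩

/-- the fields of `SaC` -/
theorem sd_sac (hD : Dbl e f f1 f3) (hf : S.f = f) {W P : E →L[ℂ] E} {τ : E →ₗ[ℂ] E →ₗ[ℂ] E →ₗ[ℂ] E}
    (hT : Tri e S W P τ)
    (i1 : ∀ α A, ∀ v ∈ vca (S.sub (spsw (sa1 e)) (sd_s1' hD hf)) ⊤, (S.sub (sa1 e) (sd_s1 hD hf)).th α A v ∈
      vca (S.sub (spsw (sa1 e)) (sd_s1' hD hf)) ⊤)
    (i3 : ∀ α A, ∀ v ∈ vca (S.sub (spsw (sa3 e)) (sd_s3' hD hf)) ⊤, (S.sub (sa3 e) (sd_s3 hD hf)).th α A v ∈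
      vca (S.sub (spsw (sa3 e)) (sd_s3' hD hf)) ⊤) :
    SaC e S (S.sub (sa1 e) (sd_s1 hD hf)) (S.sub (sa1 (saE e)) (sd_s2 hD hf)) (S.sub (sa3 e) (sd_s3 hD hf))
      (vca (S.sub (spsw (sa1 e)) (sd_s1' hD hf)) ⊤) (vca (S.sub (spsw (sa3 e)) (sd_s3' hD hf)) ⊤) W P τ where
  F1 := ⟨rfl, rfl, fun _ _ => rfl, fun _ _ _ => rfl, sd_s1 hD hf, sd_s1' hD hf⟩
  F2 := ⟨rfl, rfl, fun _ _ => rfl, fun _ _ _ => rfl, sd_s2 hD hf, sd_s2' hD hf⟩
  F3 := ⟨rfl, rfl, fun _ _ => rfl, fun _ _ _ => rfl, sd_s3 hD hf, sd_s3' hD hf⟩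
  f2 := by
    funext A B C
    change S.f (e (Sum.inl (Sum.inr A))) (e (Sum.inl (Sum.inr B))) (e (Sum.inl (Sum.inr C))) =
      S.f (e (Sum.inl (Sum.inl A))) (e (Sum.inl (Sum.inl B))) (e (Sum.inl (Sum.inl C)))
    rw [hf, hD.a1, hD.a2]
  i1 := i1
  i3 := i3
  nrm := fun u u' k => hT.norm u u' k ((sd_V1 _ _).1 u.2) ((sd_V1 _ _).1 u'.2) ((sd_V3 _ _).1 k.2)
  t1 := fun u u' k α A => hT.t1 u u' k α A ((sd_V1 _ _).1 u.2) ((sd_V1 _ _).1 u'.2) ((sd_V3 _ _).1 k.2)
  t2 := fun u u' k α A hu => hT.t2 u u' k α A hu ((sd_V1 _ _).1 u.2) ((sd_V1 _ _).1 u'.2) ((sd_V3 _ _).1 k.2)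
  t3 := fun u u' k α A hu hu' => hT.t3 u u' k α A hu hu' ((sd_V1 _ _).1 u.2) ((sd_V1 _ _).1 u'.2) ((sd_V3 _ _).1 k.2)
  sw := fun u u' k hu hu' => hT.sw u u' k hu hu' ((sd_V1 _ _).1 u.2) ((sd_V1 _ _).1 u'.2) ((sd_V3 _ _).1 k.2)

end Subs

/-- the parity operator (statement of `sa_par`, SwpE) -/
def ParH : Prop := ∀ {d : ℕ} {E : Type u} [NormedAddCommGroup E] [InnerProductSpace ℂ E] (_ : FiniteDimensional ℂ E) (S : Setup d E) (_ : AX2.SecStmt S) (_ : S.Irr) (_ : ∃ v : E, v ≠ 0), ∃ P : E →L[ℂ] E, Imp S (-1) P ∧ (∀ v, P (P v) = v) ∧ (∀ α A v, P (S.th α A v) = -S.th α A (P v)) ∧ (∀ A α v, P (S.amF A α v) = -S.amF A α (P v))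

/-- even approximants (statement of `sa_evd`, SwpE) -/
def EvdH : Prop := ∀ (_ : ∀ (m : ℕ) (V : Type u) [NormedAddCommGroup V] [InnerProductSpace ℂ V] (T : Setup m V), EvenStmt T) {d d1 r : ℕ} {E : Type u} [NormedAddCommGroup E] [InnerProductSpace ℂ E] [FiniteDimensional ℂ E] {S : Setup d E} {κ : ℝ} {f1 : Fin d1 → Fin d1 → Fin d1 → ℝ} {P : E →L[ℂ] E} (_ : Imp S (-1) P) (_ : ∀ v, P (P v) = v) {ψ : Spl d1 r d} {S1 : Setup d1 E} (_ : AX2.FuS S S1 ψ) (_ : S1.κ = κ) (_ : S1.f = f1) (_ : OneA.{u} κ f1) (V : Submodule ℂ E) (_ : ∀ v, v ∈ V ↔ ∀ A α, S.amF (ψ (Sum.inr A)) α v = 0) (i1 : ∀ α A, ∀ v ∈ V, S1.th α A v ∈ V) (_ : (S1.rst V i1).Irr) (_ : ∃ v : V, v ≠ 0), (∀ v ∈ V, P v ∈ V) ∧ ∃ (Φ : Lp V 2 (volume : Measure (Cfg d1))) (a : ℕ → Cfg d1 → V), (S1.rst V i1).Apx Φ a ∧ Φ ≠ 0 ∧ (∀ n y, P (a n y) = a n y) ∧ ∀ᵐ y ∂(volume : Measure (Cfg d1)), P ((Φ y : V) : E) = ((Φ y : V) : E)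

/-- **data of the product construction** -/
theorem sa_data (sa_par : ParH.{u}) (sa_evd : EvdH.{u}) (hTri : TriStmt.{u})
    (hEv : ∀ (m : ℕ) (V : Type u) [NormedAddCommGroup V] [InnerProductSpace ℂ V] (T : Setup m V), EvenStmt T)
    {d d1 d3 : ℕ} {e : (Fin d1 ⊕ Fin d1) ⊕ Fin d3 ≃ Fin d} {f : Fin d → Fin d → Fin d → ℝ}
    {f1 : Fin d1 → Fin d1 → Fin d1 → ℝ} {f3 : Fin d3 → Fin d3 → Fin d3 → ℝ} {κ : ℝ} (hD : Dbl e f f1 f3)
    (h1 : OneA.{u} κ f1) (h3 : OneA.{u} κ f3) {E : Type u} [NormedAddCommGroup E] [InnerProductSpace ℂ E]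
    (fd : FiniteDimensional ℂ E) (S : Setup d E) (hSec : AX2.SecStmt S) (hf : S.f = f) (hκ : S.κ = κ) (hI : S.Irr)
    (hne : ∃ v : E, v ≠ 0) (W : E →L[ℂ] E) (hW : Imp S (swO e) W) :
    ∃ (S1 S2 : Setup d1 E) (S3 : Setup d3 E) (V1 V3 : Submodule ℂ E) (P : E →L[ℂ] E)
      (τ : E →ₗ[ℂ] E →ₗ[ℂ] E →ₗ[ℂ] E) (hC : SaC e S S1 S2 S3 V1 V3 W P τ)
      (Φ : Lp V1 2 (volume : Measure (Cfg d1))) (K : Lp V3 2 (volume : Measure (Cfg d3)))
      (a : ℕ → Cfg d1 → V1) (c : ℕ → Cfg d3 → V3),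
      (S1.rst V1 hC.i1).Apx Φ a ∧ (S3.rst V3 hC.i3).Apx K c ∧ Φ ≠ 0 ∧ K ≠ 0 ∧
      (∀ n y, P (a n y) = a n y) ∧ ∀ᵐ y ∂(volume : Measure (Cfg d1)), P ((Φ y : V1) : E) = ((Φ y : V1) : E) := by
  obtain ⟨P, hP, hPP, -, -⟩ := sa_par fd S hSec hI hne
  obtain ⟨τ, hT⟩ := hTri d d1 d3 e E fd S hI hne W P hW hP
  have hirr1 := sd_irr fd S hI hne (sa1 e) (sd_s1 hD hf) (sd_s1' hD hf)
  have hirr3 := sd_irr fd S hI hne (sa3 e) (sd_s3 hD hf) (sd_s3' hD hf)
  have hC := sd_sac hD hf hT hirr1.inv hirr3.inv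
  obtain ⟨-, Φ, a, hA, hΦ, hPa, hPΦ⟩ := sa_evd hEv hP hPP (ψ := sa1 e) (S1 := S.sub (sa1 e) (sd_s1 hD hf)) hC.F1 hκ
    (by
      funext A B C
      change S.f (e (Sum.inl (Sum.inl A))) (e (Sum.inl (Sum.inl B))) (e (Sum.inl (Sum.inl C))) = _
      rw [hf, hD.a1]) h1 (vca (S.sub (spsw (sa1 e)) (sd_s1' hD hf)) ⊤) (sd_V1' _) hirr1.inv
    (AX2.pz775_irr _ _ hirr1) (sd_vne hirr1)
  obtain ⟨K, hKz, hK0, -⟩ := h3 (vca (S.sub (spsw (sa3 e)) (sd_s3' hD hf)) ⊤) inferInstance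
    ((S.sub (sa3 e) (sd_s3 hD hf)).rst _ hirr3.inv)
    (by
      funext A B C
      change S.f (e (Sum.inr A)) (e (Sum.inr B)) (e (Sum.inr C)) = _
      rw [hf, hD.a3]) hκ (AX2.pz775_irr _ _ hirr3) (sd_vne hirr3)
  obtain ⟨c, hc⟩ := hKz
  exact ⟨_, _, _, _, _, P, τ, hC, Φ, K, a, c, hA, hc, hΦ, hK0, hPa, hPΦ⟩

end Vale.Agent.P353.Z.AS
end

section

/-! # P353, all `N`, block SGN, S16: a symmetric zero mode -/

open MeasureTheory Filter Topology Matrix
open scoped ContDiff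

namespace Vale.Agent.P353.Z.AS

universe u

/-- **S16 SwpA** -/
theorem swpA_stmt (hTri : TriStmt.{u})
    (hEv : ∀ (m : ℕ) (V : Type u) [NormedAddCommGroup V] [InnerProductSpace ℂ V] (T : Setup m V), EvenStmt T)
    (hSec : ∀ (m : ℕ) (V : Type u) [NormedAddCommGroup V] [InnerProductSpace ℂ V] (T : Setup m V), AX2.SecStmt T) :
    SwpAStmt.{u} := by
  intro κ d d1 d3 e f f1 f3 hD h1 h3 E _ _ fd S hf hκ hI hne W hW
  obtain ⟨S1, S2, S3, V1, V3, P, τ, hC, Φ, K, a, c, ha, hc, hΦ, hK, pa, pΦ⟩ :=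
    sa_data sa_par sa_evd hTri hEv hD h1 h3 fd S (hSec d E S) hf hκ hI hne W hW
  exact sac_core hC ha hc hΦ hK pa pΦ

end Vale.Agent.P353.Z.AS
end

section

/-! # P353, all `N`, block SGN: assembly, leaves without hypotheses -/

open Matrix

namespace Vale.Agent.P353.Z.AS

universe u

variable {d dh dm ds dz : ℕ} {F : Type*} [NormedAddCommGroup F] [InnerProductSpace ℂ F]

theorem eigAll (S : Setup d F) : EigStmt S := eig_stmt S (line_stmt S) (impT_stmt S)

theorem etaAll (S : Setup d F) (φ : Spl dh dm d) (ψ : Spl ds dz dh) : EtaStmt S φ ψ :=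
  eta_stmt S φ ψ (line_stmt S) (jF_stmt S φ)

theorem rParAll (S : Setup d F) (φ : Spl dh dm d) (ψ : Spl ds dz dh) : RParStmt S φ ψ :=
  rPar_stmt S φ ψ (line_stmt S) (two_stmt S) (impT_stmt S) (jF_stmt S φ) (cov_stmt S φ ψ) (vacR_stmt S φ) (etaAll S φ ψ)

theorem ferAtAll (S : Setup d F) (φ : Spl dh dm d) (ψ : Spl ds dz dh) : FerAtStmt S φ ψ :=
  ferAt_stmt S φ ψ (eigAll S) (impT_stmt S) (jF_stmt S φ) (cov_stmt S φ ψ) (vacR_stmt S φ) (etaAll S φ ψ) (rParAll S φ ψ)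

theorem extAll (S : Setup d F) (φ : Spl dh dm d) (ψ : Spl ds dz dh) : ExtStmt S φ ψ :=
  ext_stmt' S φ ψ (impT_stmt S) (cov_stmt S φ ψ) (etaAll S φ ψ)

theorem sexAll : SexStmt.{u} := sex_stmt fun _ _ _ _ S => AX2.secAll S

theorem evenAll {d : ℕ} {F : Type u} [NormedAddCommGroup F] [InnerProductSpace ℂ F] (S : Setup d F) : EvenStmt S :=
  even_stmt S (AX2.secAll S)

theorem triAll : TriStmt.{u} := tri_stmt AX2.wick_stmt

theorem swpAAll : SwpAStmt.{u} := swpA_stmt triAll (fun _ _ _ _ S => evenAll S) fun _ _ _ _ S => AX2.secAll S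

theorem swpAll : SwpStmt.{u} := swp_stmt swpAAll

theorem combAll : CombStmt.{u} := comb_stmt fun S => AX2.rst_stmt S

end Vale.Agent.P353.Z.AS
end

section

/-! # P353, all `N`, block SGN: unconditional output (helper620) -/

namespace Vale.Agent.P353.Z.AS

universe u

/-- **S24**, unconditional: covariance of the ground state sections under the normaliser -/
theorem sgnAll : SgnStmt.{u} := sgn_stmt swpAAll AX2.prodAll AX2.impMAll

end Vale.Agent.P353.Z.AS
end
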