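import Mathlib
import Vale.Agent.P353.BdA.B15
import Vale.Agent.P353.BdA.B41
import Vale.Agent.P353.BdA.B45
import Vale.Agent.P353.BdA.B40
import Vale.Agent.P353.BdA.B23
import Vale.Agent.P353.BdA.B22
import Vale.Agent.P353.BdA.B28
import Vale.Agent.P353.BdA.B39
import Vale.Agent.P353.BdA.B37
import Vale.Agent.P353.BdA.B2
import Vale.Agent.P353.BdA.B13
import Vale.Agent.P353.BdA.B25
import Vale.Agent.P353.BdA.B35
import Vale.Agent.P353.BdA.B21
import Vale.Agent.P353.BdA.B36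
import Vale.Agent.P353.BdA.B44
import Vale.Agent.P353.BdA.B4
import Vale.Agent.P353.BdA.B34
import Vale.Agent.P353.BdA.B42
import Vale.Agent.P353.BdA.B24
import Vale.Agent.P353.BdA.B31
import Vale.Agent.P353.BdA.B14
import Vale.Agent.P353.BdA.B20
import Vale.Agent.P353.BdA.B27
import Vale.Agent.P353.BdA.B17
import Vale.Agent.P353.BdA.B32
import Vale.Agent.P353.BdA.B18
import Vale.Agent.P353.BdA.B3
import Vale.Agent.P353.BdA.B30
import Vale.Agent.P353.BdA.B11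
import Vale.Agent.P353.BdA.B16
import Vale.Agent.P353.BdA.B33
import Vale.Agent.P353.BdA.B29
import Vale.Agent.P353.BdA.B7
import Vale.Agent.P353.BdA.B6
import Vale.Agent.P353.BdA.B26
import Vale.Agent.P353.BdA.B9
import Vale.Agent.P353.BdA.B38
import Vale.Agent.P353.BdA.B10
import Vale.Agent.P353.BdA.B43
import Vale.Agent.P353.BdA.B5
import Vale.Agent.P353.BdA.B12
import Vale.Agent.P353.BdA.B49
import Vale.Agent.P353.BdA.B19
import Vale.Agent.P353.BdA.B8
import Vale.Agent.P353.BdA.B50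
import Vale.Agent.P353.BdA.B46

set_option linter.all false

section

/-! # P353, all `N`, block H: assembly (helper973) -/

open MeasureTheory Filter Topology
open scoped ContDiff ComplexConjugate

namespace Vale.Agent.P353.Z.AH

variable {d : ℕ} {F : Type*} [NormedAddCommGroup F] [InnerProductSpace ℂ F] [FiniteDimensional ℂ F]

theorem avgAll (S : Setup d F) : AvgStmt S := avg S (circ S)

theorem wspAll (S : Setup d F) : WSPStmt S := by
  have hFc : CompleteSpace F := FiniteDimensional.complete ℂ F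
  exact wsp S

theorem densAll (S : Setup d F) : DenseStmt S := by
  have hFc : CompleteSpace F := FiniteDimensional.complete ℂ F
  exact dens S (wspAll S)

theorem bridgeAll (S : Setup d F) : BridgeStmt S := bridge S (cgapT S) (wspAll S)

/-- `dim ker = 1` from a weak profile system -/
theorem topWAll (S : Setup d F) : AJ.TopStmt S :=
  AJ.topW S (qq S) (densAll S) (jbd S) (avgAll S) (kerCut S) (loc S) (bridgeAll S)

/-- `dim ker = 1` from a profile system -/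
theorem topAll (S : Setup d F) : TopStmt S :=
  top S (qq S) (densAll S) (jbd S) (avgAll S) (kerCut S) (loc S) (bridgeAll S)

end Vale.Agent.P353.Z.AH
end

section

/-! # P353, all `N`, block G: G34, the stabiliser of a zero of `V_1` fixes the vacuum -/

open MeasureTheory Filter Topology
open scoped ContDiff

namespace Vale.Agent.P353.AN.G

open Vale.Agent.P353.Z Vale.Agent.P353.Z.U

section Log

open scoped Matrix.Norms.L2Operator

/-- `mad_log`; the logarithm commutes with everything that commutes with `U` -/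
theorem stab_log {N : ℕ} (U : Matrix (Fin N) (Fin N) ℂ)
    (hU : U ∈ unitary (Matrix (Fin N) (Fin N) ℂ)) :
    ∃ K : Matrix (Fin N) (Fin N) ℂ, K.IsHermitian ∧ NormedSpace.exp (Complex.I • K) = U ∧
      ∀ X, U * X = X * U → K * X = X * K := by
  have hnorm : IsStarNormal U := by
    refine ⟨?_⟩
    rw [Commute, SemiconjBy, (Unitary.mem_iff.1 hU).1, (Unitary.mem_iff.1 hU).2]
  have hc : ContinuousOn Complex.arg (spectrum ℂ U) :=
    (Matrix.finite_spectrum U).continuousOn _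
  refine ⟨cfc (fun z : ℂ => (Complex.arg z : ℂ)) U, ?_, ?_, ?_⟩
  · exact IsSelfAdjoint.cfc_arg U
  · rw [← CFC.exp_eq_normedSpace_exp (𝕜 := ℂ), ← cfc_comp_smul ..,
      ← cfc_comp' ..]
    conv_rhs => rw [← cfc_id' ℂ U]
    refine cfc_congr fun y hy ↦ ?_
    have hy₁ : ‖y‖ = 1 := spectrum.norm_eq_one_of_unitary hU hy
    have hy0 : y ≠ 0 := by
      rintro rfl
      simp at hy₁
    have : Complex.I * y.arg = Complex.log y :=
      Complex.ext (by simp [Complex.log_re, hy₁]) (by simp [Complex.log_im])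
    simpa [← Complex.exp_eq_exp_ℂ, this] using Complex.exp_log hy0
  · intro X hX
    have h2 : star U * X = X * star U := by
      have e1 := (Unitary.mem_iff.1 hU).1
      have e2 := (Unitary.mem_iff.1 hU).2
      calc star U * X = star U * X * (U * star U) := by rw [e2, mul_one]
        _ = star U * (X * U) * star U := by noncomm_ring
        _ = star U * (U * X) * star U := by rw [hX]
        _ = star U * U * X * star U := by noncomm_ring
        _ = X * star U := by rw [e1, one_mul]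
    have h1 : Commute U X := hX
    exact (h1.cfc h2 _).eq

end Log

/-- determinant of the exponential of a skew-Hermitian matrix -/
theorem stab_det {N : ℕ} (H : Matrix (Fin N) (Fin N) ℂ) (hH : H.IsHermitian) :
    (NormedSpace.exp (Complex.I • H)).det = Complex.exp (Complex.I * H.trace) := by
  obtain ⟨V, hV⟩ : ∃ V : Matrix (Fin N) (Fin N) ℂ,
    V = (hH.eigenvectorUnitary : Matrix (Fin N) (Fin N) ℂ) := ⟨_, rfl⟩
  have hVm := hH.eigenvectorUnitary.2
  rw [← hV] at hVm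
  have e1 : star V * V = 1 := (Unitary.mem_iff.1 hVm).1
  have e2 : V * star V = 1 := (Unitary.mem_iff.1 hVm).2
  have hinv : V⁻¹ = star V := Matrix.inv_eq_right_inv e2
  have hunit : IsUnit V := ⟨⟨V, star V, e2, e1⟩, rfl⟩
  have hs : H = V * Matrix.diagonal (fun i => ((hH.eigenvalues i : ℝ) : ℂ)) * star V := by
    have := hH.spectral_theorem
    rw [Unitary.conjStarAlgAut_apply] at this
    rw [hV]
    exact this
  have h1 : Complex.I • H =
      V * (Complex.I • Matrix.diagonal (fun i => ((hH.eigenvalues i : ℝ) : ℂ))) * V⁻¹ := by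
    rw [hinv, Matrix.mul_smul, Matrix.smul_mul, ← hs]
  rw [h1, Matrix.exp_conj _ _ hunit, Matrix.det_mul, Matrix.det_mul]
  have h2 : V.det * (V⁻¹).det = 1 := by
    rw [← Matrix.det_mul, hinv, e2, Matrix.det_one]
  have h3 : Complex.I • Matrix.diagonal (fun i => ((hH.eigenvalues i : ℝ) : ℂ)) =
      Matrix.diagonal (fun i => Complex.I * ((hH.eigenvalues i : ℝ) : ℂ)) := by
    rw [← Matrix.diagonal_smul]
    rfl
  rw [h3, Matrix.exp_diagonal, Matrix.det_diagonal]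
  have h4 : ∀ i, NormedSpace.exp (fun i => Complex.I * ((hH.eigenvalues i : ℝ) : ℂ)) i =
      Complex.exp (Complex.I * ((hH.eigenvalues i : ℝ) : ℂ)) := by
    intro i
    rw [Pi.coe_exp, ← Complex.exp_eq_exp_ℂ]
  rw [Finset.prod_congr rfl fun i _ => h4 i, ← Complex.exp_sum, ← Finset.mul_sum,
    hH.trace_eq_sum_eigenvalues]
  calc V.det * Complex.exp _ * (V⁻¹).det = V.det * (V⁻¹).det * Complex.exp _ := by ring
    _ = _ := by rw [h2, one_mul]; rfl

theorem stab_scalar {N : ℕ} (c : ℂ) :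
    NormedSpace.exp (c • (1 : Matrix (Fin N) (Fin N) ℂ)) = Complex.exp c • 1 := by
  rw [Matrix.smul_one_eq_diagonal, Matrix.exp_diagonal, Matrix.smul_one_eq_diagonal]
  congr 1
  funext j
  rw [Pi.coe_exp, ← Complex.exp_eq_exp_ℂ]

universe w

variable {N d : ℕ} {F : Type w} [NormedAddCommGroup F] [InnerProductSpace ℂ F]

/-- an element of the stabiliser commutes with the matrices of `ξ` -/
theorem stab_comm (M : BFSS.Model N d F) (hN : 0 < N) (ξ : Cfg d) (U : BFSS.SU N)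
    (hU : M.act U ξ = ξ) (i : Fin 9) : U.val * (∑ A, ((ξ (i, A) : ℝ) : ℂ) • M.T A) =
      (∑ A, ((ξ (i, A) : ℝ) : ℂ) • M.T A) * U.val := by
  have h1 : U.val * (∑ A, ((ξ (i, A) : ℝ) : ℂ) • M.T A) * U.val.conjTranspose =
      ∑ A, ((ξ (i, A) : ℝ) : ℂ) • M.T A := by
    rw [Matrix.mul_sum, Matrix.sum_mul]
    have h2 : ∀ A, U.val * (((ξ (i, A) : ℝ) : ℂ) • M.T A) * U.val.conjTranspose =
        ∑ C, ((BFSS.adCoeff M.T U C A * ξ (i, A) : ℝ) : ℂ) • M.T C := by
      intro A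
      rw [Matrix.mul_smul, Matrix.smul_mul, act_conj M hN, Finset.smul_sum]
      refine Finset.sum_congr rfl fun C _ => ?_
      rw [smul_smul, Complex.ofReal_mul, mul_comm]
    rw [Finset.sum_congr rfl fun A _ => h2 A, Finset.sum_comm]
    refine Finset.sum_congr rfl fun C _ => ?_
    rw [← Finset.sum_smul, ← Complex.ofReal_sum]
    congr 2
    have h3 := congrArg (fun x : Cfg d => x (i, C)) hU
    exact h3
  have h4 := congrArg (· * U.val) h1
  simp only [Matrix.mul_assoc, act_unit, mul_one] at h4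
  exact h4

/-- **G34 Stab** -/
theorem stab [FiniteDimensional ℂ F] (M : BFSS.Model N d F)
    (h14 : ∀ S : Setup d F, HKillStmt S) (h32 : ExpHStmt M) (h33 : CenStmt M) : StabStmt M := by
  intro hd S hS ξ hξ E Ω hΩ U hU
  have hN : 0 < N := by
    rcases Nat.eq_zero_or_pos N with h | h
    · have h1 := M.dim_eq
      rw [h] at h1
      simp at h1
      omega
    · exact h
  have hN' : (N : ℂ) ≠ 0 := by exact_mod_cast hN.ne'
  have hUu : U.val ∈ unitary (Matrix (Fin N) (Fin N) ℂ) :=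
    (Matrix.mem_specialUnitaryGroup_iff.1 U.2).1
  obtain ⟨K, hK, hKU, hKc⟩ := stab_log U.val hUu
  -- the trace is real
  have htr : K.trace = ((K.trace.re : ℝ) : ℂ) := by
    symm
    rw [← Complex.conj_eq_iff_re]
    have h1 := Matrix.trace_conjTranspose K
    rw [hK.eq] at h1
    exact h1.symm
  obtain ⟨τ, hτ⟩ : ∃ τ : ℝ, τ = K.trace.re / N := ⟨_, rfl⟩
  have hτ' : K.trace / N = ((τ : ℝ) : ℂ) := by
    rw [hτ, htr]
    push_cast
    simp
  obtain ⟨H, hHd⟩ : ∃ H : Matrix (Fin N) (Fin N) ℂ,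
    H = K - ((τ : ℝ) : ℂ) • (1 : Matrix (Fin N) (Fin N) ℂ) := ⟨_, rfl⟩
  have hHh : H.conjTranspose = H := by
    rw [hHd, Matrix.conjTranspose_sub, hK.eq, Matrix.conjTranspose_smul, Matrix.conjTranspose_one]
    simp
  have hHt : H.trace = 0 := by
    rw [hHd, Matrix.trace_sub, Matrix.trace_smul, Matrix.trace_one, ← hτ']
    simp only [Fintype.card_fin, smul_eq_mul]
    field_simp
    ring
  obtain ⟨h, hh⟩ := cen_coef M hN H hHh hHt
  have hHc : ∀ X, U.val * X = X * U.val → H * X = X * H := by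
    intro X hX
    rw [hHd, sub_mul, mul_sub, hKc X hX, Matrix.smul_mul, Matrix.mul_smul, one_mul, mul_one]
  -- the coefficients kill `ξ`
  have hkill : ∀ i B, ∑ C, ∑ A, h C * S.f C A B * ξ (i, A) = 0 := by
    intro i B
    have h1 := hHc _ (stab_comm M hN ξ U hU i)
    have h2 : H * (∑ A, ((ξ (i, A) : ℝ) : ℂ) • M.T A) - (∑ A, ((ξ (i, A) : ℝ) : ℂ) • M.T A) * H =
        ∑ C, ∑ A, ((h C * ξ (i, A) : ℝ) : ℂ) • (M.T C * M.T A - M.T A * M.T C) := by
      rw [hh, Matrix.sum_mul, Matrix.mul_sum, ← Finset.sum_sub_distrib]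
      refine Finset.sum_congr rfl fun C _ => ?_
      rw [Matrix.mul_sum, Matrix.sum_mul, ← Finset.sum_sub_distrib]
      refine Finset.sum_congr rfl fun A _ => ?_
      rw [Matrix.smul_mul, Matrix.mul_smul, Matrix.mul_smul, Matrix.smul_mul, smul_smul, smul_smul,
        smul_sub, Complex.ofReal_mul]
    rw [h1, sub_self] at h2
    have h3 := congrArg (fun X => (M.T B * X).trace) h2
    simp only [mul_zero, Matrix.trace_zero, Matrix.mul_sum, Matrix.trace_sum, Matrix.mul_smul,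
      Matrix.trace_smul, M.T_comm, M.T_orthonormal] at h3
    have h4 : ∀ C A, ∑ D, (Complex.I * (M.f C A D : ℂ)) • (if B = D then (1 : ℂ) else 0) =
        Complex.I * (M.f C A B : ℂ) := by
      intro C A
      rw [Finset.sum_eq_single B]
      · rw [if_pos rfl, smul_eq_mul, mul_one]
      · intro D _ hD
        rw [if_neg (Ne.symm hD), smul_zero]
      · intro hB
        exact absurd (Finset.mem_univ B) hB
    simp only [h4] at h3
    have h5 : Complex.I * ((∑ C, ∑ A, h C * S.f C A B * ξ (i, A) : ℝ) : ℂ) = 0 := by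
      rw [h3]
      push_cast
      rw [Finset.mul_sum]
      refine Finset.sum_congr rfl fun C _ => ?_
      rw [Finset.mul_sum]
      refine Finset.sum_congr rfl fun A _ => ?_
      rw [hS.hf, smul_eq_mul]
      ring
    rcases mul_eq_zero.1 h5 with h6 | h6
    · exact absurd h6 Complex.I_ne_zero
    · exact_mod_cast h6
  have hk := h14 S ξ hξ E Ω hΩ h hkill
  -- the group element `V = exp(iH)`
  have hVm : NormedSpace.exp (Complex.I • H) ∈ Matrix.specialUnitaryGroup (Fin N) ℂ := by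
    rw [Matrix.mem_specialUnitaryGroup_iff, Matrix.mem_unitaryGroup_iff]
    constructor
    · rw [Matrix.star_eq_conjTranspose, ← Matrix.exp_conjTranspose, Matrix.conjTranspose_smul, hHh]
      have e1 : star Complex.I • H = -(Complex.I • H) := by simp
      rw [e1, ← Matrix.exp_add_of_commute _ _
        (Commute.neg_right (Commute.refl (Complex.I • H))), add_neg_cancel, NormedSpace.exp_zero]
    · rw [stab_det H hHh, hHt, mul_zero, Complex.exp_zero]
  obtain ⟨V, hV⟩ : ∃ V : BFSS.SU N, V.val = NormedSpace.exp (Complex.I • H) := ⟨⟨_, hVm⟩, rfl⟩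
  obtain ⟨z, hz⟩ : ∃ z : ℂ, z = Complex.exp (Complex.I * ((τ : ℝ) : ℂ)) := ⟨_, rfl⟩
  have hUV : U.val = z • V.val := by
    have e1 : Complex.I • K = (Complex.I * ((τ : ℝ) : ℂ)) • (1 : Matrix (Fin N) (Fin N) ℂ) +
        Complex.I • H := by
      rw [hHd, smul_sub, smul_smul, add_sub_cancel]
    have e2 : Commute ((Complex.I * ((τ : ℝ) : ℂ)) • (1 : Matrix (Fin N) (Fin N) ℂ))
        (Complex.I • H) := (Commute.one_left _).smul_left _
    rw [← hKU, e1, Matrix.exp_add_of_commute _ _ e2, stab_scalar, ← hz, hV, Matrix.smul_mul,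
      one_mul]
  have hzn : z * star z = 1 := by
    rw [hz, RCLike.star_def, ← Complex.exp_conj, ← Complex.exp_add]
    simp
  have hzN : z ^ N = 1 := by
    have h1 : (z • V.val).det = 1 := by
      rw [← hUV]
      exact (Matrix.mem_specialUnitaryGroup_iff.1 U.2).2
    rw [Matrix.det_smul, (Matrix.mem_specialUnitaryGroup_iff.1 V.2).2, mul_one,
      Fintype.card_fin] at h1
    exact h1
  have hWm : z • (1 : Matrix (Fin N) (Fin N) ℂ) ∈ Matrix.specialUnitaryGroup (Fin N) ℂ := by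
    rw [Matrix.mem_specialUnitaryGroup_iff, Matrix.mem_unitaryGroup_iff]
    constructor
    · rw [star_smul, star_one, Matrix.smul_mul, one_mul, smul_smul, hzn, one_smul]
    · rw [Matrix.det_smul, Matrix.det_one, mul_one, Fintype.card_fin, hzN]
  obtain ⟨W, hW⟩ : ∃ W : BFSS.SU N, W.val = z • (1 : Matrix (Fin N) (Fin N) ℂ) :=
    ⟨⟨_, hWm⟩, rfl⟩
  have hfac : U = W * V := by
    apply Subtype.ext
    show U.val = W.val * V.val
    rw [hW, hUV, Matrix.smul_mul, one_mul]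
  have hVfix : M.S V Ω = Ω := h32 hd S hS h Ω hk V (by rw [← hh, hV])
  rw [hfac, M.S_mul, hVfix]
  exact h33 hd W z hW Ω

end Vale.Agent.P353.AN.G
end

section

/-! # P353, all `N`, block G35: zeros of `V_1` for all partitions, in different orbits -/

open MeasureTheory Filter Topology
open scoped ContDiff

namespace Vale.Agent.P353.AN.G

open Vale.Agent.P353.Z Vale.Agent.P353.Z.U

universe w

namespace Zer935

variable {N d : ℕ} {F : Type w} [NormedAddCommGroup F] [InnerProductSpace ℂ F]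

/-- the configuration of a triple of matrices -/
noncomputable def conf (M : BFSS.Model N d F) (J : Fin 3 → Matrix (Fin N) (Fin N) ℂ) : Cfg d :=
  WithLp.toLp 2 fun p =>
    if h : p.1.val < 3 then -2 * (M.T p.2 * J ⟨p.1.val, h⟩).trace.re else 0

lemma conf_c3 (M : BFSS.Model N d F) (J : Fin 3 → Matrix (Fin N) (Fin N) ℂ) (k : Fin 3)
    (A : Fin d) : conf M J (Setup.c3 k, A) = -2 * (M.T A * J k).trace.re := by
  have hk : (Setup.c3 k).val < 3 := k.2
  show (if h : (Setup.c3 k).val < 3 then -2 * (M.T A * J ⟨(Setup.c3 k).val, h⟩).trace.re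
    else 0) = _
  rw [dif_pos hk]
  rfl

lemma conf_six (M : BFSS.Model N d F) (J : Fin 3 → Matrix (Fin N) (Fin N) ℂ) (i : Fin 9)
    (hi : ¬ i.val < 3) (A : Fin d) : conf M J (i, A) = 0 := by
  show (if h : i.val < 3 then -2 * (M.T A * J ⟨i.val, h⟩).trace.re else 0) = _
  rw [dif_neg hi]

lemma tr_real (M : BFSS.Model N d F) {J : Fin 3 → Matrix (Fin N) (Fin N) ℂ} (hJ : Cnt.JT J)
    (k : Fin 3) (A : Fin d) : (((M.T A * J k).trace.re : ℝ) : ℂ) = (M.T A * J k).trace := by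
  rw [← Complex.conj_eq_iff_re]
  have h1 : (M.T A * J k).conjTranspose.trace = star (M.T A * J k).trace :=
    Matrix.trace_conjTranspose _
  rw [Matrix.conjTranspose_mul, hJ.herm, M.T_hermitian, Matrix.trace_mul_comm] at h1
  exact h1.symm

lemma tr_zero {J : Fin 3 → Matrix (Fin N) (Fin N) ℂ} (hJ : Cnt.JT J) (k : Fin 3) :
    (J k).trace = 0 := by
  have h := congrArg Matrix.trace (hJ.comm k)
  rw [Matrix.trace_sub, Matrix.trace_mul_comm, sub_self, Matrix.trace_smul, smul_eq_mul] at h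
  exact (mul_eq_zero.1 h.symm).resolve_left Complex.I_ne_zero

lemma Jx_conf (M : BFSS.Model N d F) (hN : 0 < N) {J : Fin 3 → Matrix (Fin N) (Fin N) ℂ}
    (hJ : Cnt.JT J) (k : Fin 3) : Cnt.Jx M (conf M J) k = J k := by
  have h := mad_complete M hN (J k)
  rw [tr_zero hJ, zero_div, zero_smul, add_zero] at h
  rw [h]
  unfold Cnt.Jx
  refine Finset.sum_congr rfl fun A _ => ?_
  have e : -(1 / 2) * (-2 * (M.T A * J k).trace.re) = (M.T A * J k).trace.re := by ring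
  rw [conf_c3, e, tr_real M hJ k A]

lemma Jx_bracket (M : BFSS.Model N d F) {S : Setup d F} (hR : Rep M S) (x : Cfg d) (k : Fin 3) :
    Cnt.Jx M x (k + 1) * Cnt.Jx M x (k + 2) - Cnt.Jx M x (k + 2) * Cnt.Jx M x (k + 1) =
      ∑ A, (Complex.I * (((1 / 4) * ∑ B, ∑ C, S.f A B C *
      x (Setup.c3 (k + 1), B) * x (Setup.c3 (k + 2), C) : ℝ) : ℂ)) • M.T A := by
  have e1 : Cnt.Jx M x (k + 1) * Cnt.Jx M x (k + 2) - Cnt.Jx M x (k + 2) * Cnt.Jx M x (k + 1) =
      ∑ B, ∑ C, (((1 / 4) * (x (Setup.c3 (k + 1), B) * x (Setup.c3 (k + 2), C)) : ℝ) : ℂ) •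
        (M.T B * M.T C - M.T C * M.T B) := by
    unfold Cnt.Jx
    rw [Finset.sum_mul_sum, Finset.sum_mul_sum, Finset.sum_comm (γ := Fin d)
      (f := fun i j => (((-(1 / 2) * x (Setup.c3 (k + 2), i) : ℝ) : ℂ) • M.T i) *
        (((-(1 / 2) * x (Setup.c3 (k + 1), j) : ℝ) : ℂ) • M.T j)), ← Finset.sum_sub_distrib]
    refine Finset.sum_congr rfl fun B _ => ?_
    rw [← Finset.sum_sub_distrib]
    refine Finset.sum_congr rfl fun C _ => ?_
    rw [smul_mul_smul_comm, smul_mul_smul_comm, smul_sub]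
    push_cast
    congr 2 <;> ring
  rw [e1]
  have e2 : ∀ B C, M.T B * M.T C - M.T C * M.T B =
      ∑ A, (Complex.I * ((S.f A B C : ℝ) : ℂ)) • M.T A := by
    intro B C
    rw [M.T_comm]
    refine Finset.sum_congr rfl fun A _ => ?_
    rw [S.f_cyc A B C, hR.hf]
  simp only [e2, Finset.smul_sum, smul_smul]
  rw [Finset.sum_congr rfl (fun B _ => Finset.sum_comm), Finset.sum_comm]
  refine Finset.sum_congr rfl fun A _ => ?_
  simp only [← Finset.sum_smul]
  congr 1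
  push_cast
  simp only [Finset.mul_sum]
  refine Finset.sum_congr rfl fun B _ => Finset.sum_congr rfl fun C _ => ?_
  ring

/-- coefficients of a combination of the `T_A` -/
lemma tr_sum (M : BFSS.Model N d F) (c : Fin d → ℂ) (A : Fin d) :
    (M.T A * ∑ B, c B • M.T B).trace = c A := by
  rw [Finset.mul_sum, Matrix.trace_sum]
  simp only [Matrix.mul_smul, Matrix.trace_smul, M.T_orthonormal, smul_eq_mul, mul_ite, mul_one,
    mul_zero, Finset.sum_ite_eq, Finset.mem_univ, if_true]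

lemma GG_conf (M : BFSS.Model N d F) {S : Setup d F} (hR : Rep M S) (hN : 0 < N)
    {J : Fin 3 → Matrix (Fin N) (Fin N) ℂ} (hJ : Cnt.JT J) (k : Fin 3) (A : Fin d) :
    S.GG 1 k A (conf M J) = 0 := by
  have h1 := Jx_bracket M hR (conf M J) k
  rw [Jx_conf M hN hJ, Jx_conf M hN hJ, hJ.comm k, ← Jx_conf M hN hJ k] at h1
  have h2 := congrArg (fun X => (M.T A * X).trace) h1
  simp only [tr_sum] at h2
  have h3 : (M.T A * (Complex.I • Cnt.Jx M (conf M J) k)).trace =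
      Complex.I * (((-(1 / 2) * conf M J (Setup.c3 k, A)) : ℝ) : ℂ) := by
    rw [Matrix.mul_smul, Matrix.trace_smul, smul_eq_mul]
    unfold Cnt.Jx
    rw [tr_sum M (fun A => ((-(1 / 2) * conf M J (Setup.c3 k, A) : ℝ) : ℂ)) A]
  rw [h3] at h2
  have h4 := mul_left_cancel₀ Complex.I_ne_zero h2
  have h5 : -(1 / 2) * conf M J (Setup.c3 k, A) = (1 / 4) * ∑ B, ∑ C, S.f A B C *
      conf M J (Setup.c3 (k + 1), B) * conf M J (Setup.c3 (k + 2), C) :=
    Complex.ofReal_injective h4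
  unfold Setup.GG Setup.FF
  rw [hR.hκ, one_mul, mul_one]
  linarith

lemma Vm_conf (M : BFSS.Model N d F) {S : Setup d F} (hR : Rep M S) (hN : 0 < N)
    {J : Fin 3 → Matrix (Fin N) (Fin N) ℂ} (hJ : Cnt.JT J) : S.Vm 1 (conf M J) = 0 := by
  rw [sq_stmt S 1 (conf M J)]
  have h1 : ∑ k, ∑ A, S.GG 1 k A (conf M J) ^ 2 = 0 :=
    Finset.sum_eq_zero fun k _ => Finset.sum_eq_zero fun A _ => by
      rw [GG_conf M hR hN hJ]; simp
  have h2 : (∑ i : Fin 9, ∑ A, if i.val < 3 then 0 else conf M J (i, A) ^ 2) = 0 :=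
    Finset.sum_eq_zero fun i _ => Finset.sum_eq_zero fun A _ => by
      split_ifs with h
      · rfl
      · rw [conf_six M J i h]; simp
  have h3 : (∑ i : Fin 9, ∑ j : Fin 9, ∑ A,
      if i.val < 3 ∧ j.val < 3 then 0 else S.FF A i j (conf M J) ^ 2) = 0 :=
    Finset.sum_eq_zero fun i _ => Finset.sum_eq_zero fun j _ => Finset.sum_eq_zero fun A _ => by
      split_ifs with h
      · rfl
      · have h0 : S.FF A i j (conf M J) = 0 := by
          unfold Setup.FF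
          rw [Finset.sum_eq_zero, mul_zero]
          intro B _
          refine Finset.sum_eq_zero fun C _ => ?_
          by_cases hi : i.val < 3
          · have hj : ¬ j.val < 3 := fun hj => h ⟨hi, hj⟩
            rw [conf_six M J j hj, mul_zero]
          · rw [conf_six M J i hi, mul_zero, zero_mul]
        rw [h0]; simp
  rw [h1, h2, h3]
  simp

lemma Jx_act (M : BFSS.Model N d F) (hN : 0 < N) (U : BFSS.SU N) (x : Cfg d) (k : Fin 3) :
    Cnt.Jx M (M.act U x) k = U.val * Cnt.Jx M x k * U.val.conjTranspose := by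
  unfold Cnt.Jx
  rw [Finset.mul_sum, Finset.sum_mul]
  have h1 : ∀ A, U.val * (((-(1 / 2) * x (Setup.c3 k, A) : ℝ) : ℂ) • M.T A) *
      U.val.conjTranspose = ∑ B, (((-(1 / 2) * (BFSS.adCoeff M.T U B A * x (Setup.c3 k, A)) : ℝ))
        : ℂ) • M.T B := by
    intro A
    rw [Matrix.mul_smul, Matrix.smul_mul, act_conj M hN, Finset.smul_sum]
    refine Finset.sum_congr rfl fun B _ => ?_
    rw [smul_smul]
    congr 1
    push_cast
    ring
  simp only [h1]
  rw [Finset.sum_comm]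
  refine Finset.sum_congr rfl fun B _ => ?_
  rw [← Finset.sum_smul, ← Complex.ofReal_sum]
  congr 2
  show -(1 / 2) * (∑ A, BFSS.adCoeff M.T U B A * x (Setup.c3 k, A)) = _
  rw [Finset.mul_sum]

end Zer935

open Zer935 in
/-- **G35 Zer** -/
theorem zer {N d : ℕ} {F : Type w} [NormedAddCommGroup F] [InnerProductSpace ℂ F]
    (M : BFSS.Model N d F) (h5 : RepStmt N) : ZerStmt M := by
  intro S hR
  rcases Nat.eq_zero_or_pos N with hN | hN
  · subst hN
    refine ⟨fun _ => 0, fun _ => ?_, fun π π' _ _ => Subsingleton.elim π π'⟩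
    rw [sq_stmt S 1 0]
    simp [Setup.GG, Setup.FF]
  · obtain ⟨J, hJ, hd⟩ := h5
    refine ⟨fun π => conf M (J π), fun π => Vm_conf M hR hN (hJ π), fun π π' U h => ?_⟩
    refine hd π π' U fun k => ?_
    rw [← Jx_conf M hN (hJ π') k, ← Jx_conf M hN (hJ π) k, ← Jx_act M hN]
    exact congrArg (fun x => Cnt.Jx M x k) h.symm

end Vale.Agent.P353.AN.G
end

section

/-! # P353, all `N`, block G: `c_N ≥ p(N)` -/

open MeasureTheory Filter Topology
open scoped ContDiff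

namespace Vale.Agent.P353.AN.G

open Vale.Agent.P353.Z Vale.Agent.P353.Z.U

universe w

variable {N d : ℕ} {F : Type w} [NormedAddCommGroup F] [InnerProductSpace ℂ F]

/-- **Block G**: the BMN model of `SU(N)` has `p(N)` low states for every mass -/
theorem gMain (M : BFSS.Model N d F) : GStmt M := by
  have hF : FiniteDimensional ℂ F := finiteDimensional_of_model M
  have h2 : SqCommStmt := sqComm
  have h6 : ∀ S : Setup d F, PerpKStmt S := fun S => perpK S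
  have h7 : ∀ S : Setup d F, GapStmt S := fun S => gap S (gap3 d (cas d))
  have h8 : ∀ S : Setup d F, TanStmt S := fun S => tan S
  have h9 : ∀ S : Setup d F, LinNStmt S := fun S => linN S
  have h10 : ∀ S : Setup d F, LinLStmt S := fun S => linL S (All.A4 S) (crit S)
  have h11 : ∀ S : Setup d F, LowExStmt S := fun S => lowEx S
  have h12 : ∀ S : Setup d F, KillStmt S := fun S => kill S (h6 S) (h7 S) (h8 S) (h9 S) (h10 S)
  have h13 : ∀ S : Setup d F, VacDStmt S := fun S => vacD S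
  have h14 : ∀ S : Setup d F, HKillStmt S := fun S => hKill S (h13 S)
  have h15 : ∀ S : Setup d F, VfStmt S := fun S => vfEx S
  have h16 : ∀ S : Setup d F, VfKStmt S := fun S => vfK S h2
  have h17 : ∀ S : Setup d F, JKillStmt S := fun S => jKill S (h13 S)
  have h18 : TvTstStmt d F := tvTst d F
  have h19 : ∀ S : Setup d F, TvQStmt S := fun S => tvQ S
  have h20 : ∀ S : Setup d F, TvJStmt S := fun S => tvJ S
  have h21 : GRatStmt d := gRat d
  have h22 : ActStmt M := act_stmt M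
  have h23 : QActStmt M := qAct M
  have h24 : AvgDStmt M := avgD M (smInt (BFSS.SU N) (Cfg d)) h22 h23
  have h25 : AvgCStmt M := avgC M h22
  have h26 : AvgGStmt M := avgG M h22 h24 h25
  have h27 : AvgBStmt M := avgB M h22
  have h28 : DblStmt M := dbl M h22
  have h29 : RatStmt M := rat M h18 h21 h22 h28
  have h30 : NearConStmt M := nearCon M h2 h22
  have h31 : HalfStmt M := half M h22
  have h32 : ExpHStmt M := expH M
  have h33 : CenStmt M := cen M h11 h14 h32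
  have h34 : StabStmt M := stab M h14 h32 h33
  have h35 : ZerStmt M := zer M (rep N)
  have h36 : OneStmt M := one_stmt M h11 h12 h15 h16 h17 h18 h19 h20 h22 h24 h25 h26 h27 h29 h30 h31 h34
  exact main_stmt M h22 h35 h36

end Vale.Agent.P353.AN.G
end

section

/-! # P353, all `N`: induction on `N` (helper973)

`SysStmt N` = existence of a weak profile system for the models of size `N`, given uniqueness for all smaller sizes. -/

open MeasureTheory Filter Topology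
open scoped ContDiff

namespace Vale.Agent.P353.Z.Fin1

/-- uniqueness of the zero mode for all models of size `n` -/
def UniqN (n : ℕ) : Prop := ∀ (d : ℕ) (F : Type) [NormedAddCommGroup F] [InnerProductSpace ℂ F]
  (M : BFSS.Model n d F) (S : Setup d F), U.Rep M S → One S

/-- the weak profile system, given the induction hypothesis -/
def SysStmt (N : ℕ) : Prop := (∀ n, 1 ≤ n → n < N → UniqN n) → ∀ (d : ℕ) (F : Type) [NormedAddCommGroup F]
  [InnerProductSpace ℂ F] (_ : FiniteDimensional ℂ F) (M : BFSS.Model N d F) (S : Setup d F), U.Rep M S →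
  ∃ (ι : Type) (_ : Fintype ι) (P : PW S ι), Fintype.card ι + 1 = Fintype.card (Nat.Partition N) ∧
    P.LimEq ∧ P.NoLoss ∧ ∃ J, P.Rep J

lemma irr_of {N d : ℕ} {F : Type*} [NormedAddCommGroup F] [InnerProductSpace ℂ F] {M : BFSS.Model N d F}
    {S : Setup d F} (hS : U.Rep M S) : S.Irr := by
  intro W hW
  refine M.θ_irreducible W fun α A v hv => ?_
  have := hW α A v hv
  rwa [hS.hth] at this

theorem uniqN_one : UniqN 1 := by
  intro d F _ _ M S hS
  have hF : FiniteDimensional ℂ F := U.finiteDimensional_of_model M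
  have hd : d = 0 := M.dim_eq
  subst hd
  exact AX2.zero_stmt S.κ S.f F hF S rfl rfl (irr_of hS) M.nontrivial

/-- one step of the induction -/
theorem uniq_step {N : ℕ} (hN : 2 ≤ N) (hsys : SysStmt N) (hih : ∀ n, 1 ≤ n → n < N → UniqN n) : UniqN N := by
  classical
  intro d F _ _ M S hS
  have hF : FiniteDimensional ℂ F := U.finiteDimensional_of_model M
  obtain ⟨ι, _, P, hcard, hE, hNL, hRep⟩ := hsys hih d F hF M S hS
  have hcnt : S.OrbCount (Fintype.card (Nat.Partition N)) :=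
    U.count_of M (U.adS M fun S a t => U.exp_mem S a t) (fun S => U.sq_stmt S) S hS
  have hd : 0 < d := by
    have h1 := M.dim_eq
    have h2 : 2 ^ 2 ≤ N ^ 2 := Nat.pow_le_pow_left hN 2
    omega
  have hL := AN.G.gMain M hd S hS
  rw [← hcard] at hcnt hL
  exact AH.topWAll S (irr_of hS) M.nontrivial ι P hE hNL hRep hcnt hL

theorem uniq_all (hsys : ∀ N, 2 ≤ N → SysStmt N) : ∀ N, 1 ≤ N → UniqN N := by
  intro N
  induction N using Nat.strong_induction_on with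
  | _ N ih =>
    intro hN
    rcases Nat.eq_or_lt_of_le hN with h | h
    · rw [← h]
      exact uniqN_one
    · exact uniq_step h (hsys N h) fun n hn hnN => ih n hnN hn

/-- the theorem for the model as posed -/
theorem thresh (hsys : ∀ N, 2 ≤ N → SysStmt N)
    (hTop : ∀ (N d : ℕ) (F : Type) [NormedAddCommGroup F] [InnerProductSpace ℂ F] (M : BFSS.Model N d F), TopOfStmt M)
    (hBack : ∀ (N d : ℕ) (F : Type) [NormedAddCommGroup F] [InnerProductSpace ℂ F] (M : BFSS.Model N d F), 2 ≤ N → BackStmt M)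
    {N d : ℕ} {F : Type} [NormedAddCommGroup F] [InnerProductSpace ℂ F] (hN : 2 ≤ N) (M : BFSS.Model N d F) :
    ∃ Φ : BFSS.Conf d → F, M.IsZeroEnergyState Φ ∧ ¬ (∀ᵐ x ∂BFSS.leb d, Φ x = 0) ∧
      ∀ Ψ, M.IsZeroEnergyState Ψ → ∃ c : ℂ, ∀ᵐ x ∂BFSS.leb d, Ψ x = c • Φ x :=
  hTop N d F M hN (fun S hS => uniq_all hsys N (by omega) d F M S hS) (hBack N d F M hN)

end Vale.Agent.P353.Z.Fin1
end

section

/-! # P353, all `N`: the theorem from the weak profile systems (helper973) -/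

open MeasureTheory Filter Topology
open scoped ContDiff

namespace Vale.Agent.P353.Z.Fin1

universe u

/-- the theorem for the model as posed, fermion spaces in `Type` -/
theorem thresh0 (hsys : ∀ N, 2 ≤ N → SysStmt N)
    (N d : ℕ) (F : Type) [NormedAddCommGroup F] [InnerProductSpace ℂ F] (M : BFSS.Model N d F) (hN : 2 ≤ N) : Uniq M :=
  thresh hsys (fun _ _ _ _ _ M => top_of M)
    (fun _ _ _ _ _ M hN => back_of M (core_of M) (U.finiteDimensional_of_model M) hN) hN M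

/-- the theorem for the model as posed, every universe -/
theorem threshU (hU : UnivStmt.{u}) (hsys : ∀ N, 2 ≤ N → SysStmt N)
    {N d : ℕ} {F : Type u} [NormedAddCommGroup F] [InnerProductSpace ℂ F] (M : BFSS.Model N d F) (hN : 2 ≤ N) :
    ∃ Φ : BFSS.Conf d → F, M.IsZeroEnergyState Φ ∧ ¬ (∀ᵐ x ∂BFSS.leb d, Φ x = 0) ∧
      ∀ Ψ, M.IsZeroEnergyState Ψ → ∃ c : ℂ, ∀ᵐ x ∂BFSS.leb d, Ψ x = c • Φ x :=
  hU (thresh0 hsys) N d F M hN

end Vale.Agent.P353.Z.Fin1
end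

section

/-! # P353, all `N`: the final theorem from the weak profile systems (helper973) -/

open MeasureTheory Filter Topology
open scoped ContDiff

namespace Vale.Agent.P353.Z.AFinal

open Vale.Agent.P353.Z.Fin1

/-- the final theorem, given the weak profile systems -/
theorem one_of (hsys : ∀ N, 2 ≤ N → SysStmt N) {N d : ℕ} {F : Type*} [NormedAddCommGroup F] [InnerProductSpace ℂ F]
    (M : BFSS.Model N d F) (hN : 2 ≤ N) :
    ∃ Φ : BFSS.Conf d → F, M.IsZeroEnergyState Φ ∧ ¬ (∀ᵐ x ∂BFSS.leb d, Φ x = 0) ∧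
      ∀ Ψ, M.IsZeroEnergyState Ψ → ∃ c : ℂ, ∀ᵐ x ∂BFSS.leb d, Ψ x = c • Φ x :=
  threshU univS hsys M hN

end Vale.Agent.P353.Z.AFinal
end

section

/-! # P353, all `N`, block SY: frames exist -/

open MeasureTheory Filter Topology Matrix
open scoped ContDiff

namespace Vale.Agent.P353.Z.ASY

open Vale.Agent.P353.Z.AJK

variable {N d : ℕ} {F : Type} [NormedAddCommGroup F] [InnerProductSpace ℂ F]

theorem frs (M : BFSS.Model N d F) (S : Setup d F) : FrStmt M S := by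
  intro hEx hRotM hBas hRep k n hk hn hs
  obtain ⟨dh, dm, ds, dz, φ, ψ, O, hO, ⟨fr⟩⟩ := hEx N d k n M.T M.f (hBas N d F M) hk hn hs
  obtain ⟨M', hrep, hT, hS, hact, -⟩ := hRotM N d F M S hRep O h91 hO
  have hT' : (fun A => ∑ B, ((O A B : ℝ) : ℂ) • M.T B) = M'.T := (funext hT).symm
  rw [hT'] at fr
  exact ⟨⟨O, hO, dh, dm, ds, dz, φ, ψ, M', fr, hrep, hT, hS, hact⟩⟩

end Vale.Agent.P353.Z.ASY
end

section

/-! # P353, all `N`, block SY: the algebraic inputs (unconditional, helper667) -/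

namespace Vale.Agent.P353.Z.ASY

/-- outputs of the blocks NF, X2, COV and of the leaves of block SY -/
theorem algAll : Alg where
  ex := ANF.exAll
  rotM := ANF.rotMAll
  basM := ANF.basMAll
  val := fun f fr => ANF.valAll f fr
  reg := fun S fr => ANF.regAll S fr
  std := fun S fr => ANF.std_stmt S fr
  one := fun S fr => ANF.oneAll S fr
  ih := AX2.ihAll
  prod := AX2.prodAll
  zero := AX2.zeroAll
  x2 := AX2.x2All
  zms := fun S => AX2.zms_stmt S
  cnt := cnt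
  frs := fun M S => frs M S
  pt := fun M S => pt M S
  cov := fun M S => covB M S (ACov.covM M)
  sep := fun M S => sepB M S (ACov.disM M)

end Vale.Agent.P353.Z.ASY
end

section

/-! # P353, all `N`, block D, L9: the vacuum coefficient (`SecOfStmt`) -/

open MeasureTheory Filter Topology Matrix
open scoped ContDiff

namespace Vale.Agent.P353.Z.AD

variable {d dh dm ds dz r : ℕ} {F : Type*} [NormedAddCommGroup F] [InnerProductSpace ℂ F]

lemma gn_smooth_w (S : Setup d F) (φ : Spl dh dm d) (ψ : Spl ds dz dh)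
    (hg : ContDiffOn ℝ ∞ (fun p : Cfg dz × Wsp dm => gn S φ ψ p.1 p.2) {p | p.1 ∈ UZ S φ ψ})
    {yz : Cfg dz} (hyz : yz ∈ UZ S φ ψ) : ContDiff ℝ ∞ (fun w => gn S φ ψ yz w) := by
  have hU2 : IsOpen {p : Cfg dz × Wsp dm | p.1 ∈ UZ S φ ψ} := (isOpen_UZ S φ ψ).preimage continuous_fst
  refine contDiff_iff_contDiffAt.2 fun w => ?_
  have h1 : ContDiffAt ℝ ∞ (fun p : Cfg dz × Wsp dm => gn S φ ψ p.1 p.2) (yz, w) :=
    hg.contDiffAt (hU2.mem_nhds hyz)
  have h2 : ContDiffAt ℝ ∞ (fun w : Wsp dm => ((yz, w) : Cfg dz × Wsp dm)) w :=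
    (contDiff_const.prodMk contDiff_id).contDiffAt
  exact h1.comp w h2

/-- **L9** -/
theorem secOf (S : Setup d F) : SecOfStmt S := by
  intro hFV hS hG _ hFin dh dm ds dz φ ψ z₀ h
  have := hFin
  obtain ⟨ε₀, c, Cg, B, V⟩ := exists_vacD S hS hG φ ψ z₀ h
  have hsc := (hS hFin dh dm ds dz φ ψ z₀ h).1
  have hF : ∀ yz ∈ UZ S φ ψ, Frz (Dz S φ ψ yz) ∧ IsOm S.κ (Dz S φ ψ yz) (omc S.κ (Dz S φ ψ yz)) :=
    fun yz hyz => hsc yz hyz
  have hrot : ∀ yz ∈ UZ S φ ψ, ∀ (C : Fin dh) (f : Wsp dm → F), FT f →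
      ∫ w, ((gn S φ ψ yz w : ℝ) : ℂ) • rotP S φ C f w = 0 := fun yz hyz C f hf =>
    gn_rot S φ ψ h (hF yz hyz).1 (hF yz hyz).2 C (gn_smooth_w S φ ψ V.hg hyz) hf
  have hc := V.c_pos
  have hCg := V.Cg_pos
  have hπ := Real.pi_pos
  refine ⟨ε₀, Cg ^ 2 * (Real.pi / (2 * c)) ^ (4 * dm) * (2 * (1 + B) ^ 2 + 2), V.ε₀_pos, by positivity,
    fun R hR v hv hs => ?_⟩
  have hR0 : 0 < R := by linarith
  exact ⟨V.sec_smooth hR0 hv hs, VacD.sec_hcs hv S φ,
    fun hG yz => V.sec_gauss hR0 hv hs (hFV dh dm φ).1 (hFV dh dm φ).2 h hF hrot hG yz,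
    fun yz => V.sec_nsq hR0 hv hs yz, fun yz => V.sec_en hR0 hv hs (hFV dh dm φ).1 h yz,
    fun i A => V.sec_der hR0 hv hs i A⟩

end Vale.Agent.P353.Z.AD
end

section

/-! # P353, all `N`, block D: L14 inner completeness for all centreless setups -/

open MeasureTheory Filter Topology Matrix
open scoped ContDiff

namespace Vale.Agent.P353.Z.AD

variable {d dh dm ds dz : ℕ} {F : Type*} [NormedAddCommGroup F] [InnerProductSpace ℂ F]

namespace ICAll

lemma emb_inl (φ : Spl dh dm d) (y : Cfg dh) (w : Wsp dm) (i : Fin 9) (A : Fin dh) :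
    emb φ y w (i, φ (Sum.inl A)) = y (i, A) := by
  simp [emb]

lemma emb_inr0 (φ : Spl dh dm d) (y : Cfg dh) (i : Fin 9) (B : Fin dm) :
    emb φ y 0 (i, φ (Sum.inr B)) = 0 := by
  have h : (emb φ y (0 : Wsp dm)) (i, φ (Sum.inr B)) =
      Fin.lastCases (motive := fun _ => ℝ) 0 (fun _ => (0 : ℝ)) i := by
    simp [emb]
  rw [h]
  refine Fin.lastCases (motive := fun i => Fin.lastCases (motive := fun _ => ℝ) 0 (fun _ => (0 : ℝ)) i = 0)
    ?_ (fun j => ?_) i
  · rw [Fin.lastCases_last]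
  · rw [Fin.lastCases_castSucc]

/-- colour vectors of the first summand -/
noncomputable def incl (φ : Spl dh dm d) : (Fin dh → ℝ) →ₗ[ℝ] (Fin d → ℝ) where
  toFun := fun v A => Sum.elim v (fun _ => 0) (φ.symm A)
  map_add' := by
    intro v w
    funext A
    simp only [Pi.add_apply]
    rcases φ.symm A with a | b
    · simp only [Sum.elim_inl, Pi.add_apply]
    · simp only [Sum.elim_inr, add_zero]
  map_smul' := by
    intro c v
    funext A
    simp only [Pi.smul_apply, RingHom.id_apply]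
    rcases φ.symm A with a | b
    · simp only [Sum.elim_inl, Pi.smul_apply]
    · simp only [Sum.elim_inr, smul_zero]

lemma incl_inl (φ : Spl dh dm d) (v : Fin dh → ℝ) (a : Fin dh) : incl φ v (φ (Sum.inl a)) = v a := by
  show Sum.elim v (fun _ => 0) (φ.symm (φ (Sum.inl a))) = v a
  rw [Equiv.symm_apply_apply, Sum.elim_inl]

lemma incl_inr (φ : Spl dh dm d) (v : Fin dh → ℝ) (b : Fin dm) : incl φ v (φ (Sum.inr b)) = 0 := by
  show Sum.elim v (fun _ => (0 : ℝ)) (φ.symm (φ (Sum.inr b))) = 0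
  rw [Equiv.symm_apply_apply, Sum.elim_inr]

lemma incl_inj (φ : Spl dh dm d) : Function.Injective (incl φ) := by
  intro v w h
  funext a
  rw [← incl_inl φ v a, h, incl_inl]

lemma incl_mem (S : Setup d F) (φ : Spl dh dm d) (y : Cfg dh) (h : AN.Std S φ y) (v : Fin dh → ℝ) :
    incl φ v ∈ cz S (emb φ y 0) := by
  intro i C
  rw [← φ.sum_comp, Fintype.sum_sum_type]
  have h2 : ∀ b : Fin dm, (∑ B, S.f (φ (Sum.inr b)) B C * incl φ v (φ (Sum.inr b)) *
      (emb φ y (0 : Wsp dm)) (i, B)) = 0 := by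
    intro b
    refine Finset.sum_eq_zero fun B _ => ?_
    rw [incl_inr, mul_zero, zero_mul]
  have h1 : ∀ a : Fin dh, (∑ B, S.f (φ (Sum.inl a)) B C * incl φ v (φ (Sum.inl a)) *
      (emb φ y (0 : Wsp dm)) (i, B)) = 0 := by
    intro a
    rw [← φ.sum_comp, Fintype.sum_sum_type]
    have h3 : ∀ b : Fin dm, S.f (φ (Sum.inl a)) (φ (Sum.inr b)) C * incl φ v (φ (Sum.inl a)) *
      (emb φ y (0 : Wsp dm)) (i, φ (Sum.inr b)) = 0 := by
      intro b
      rw [emb_inr0, mul_zero]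
    rw [Finset.sum_eq_zero (fun b _ => h3 b), add_zero]
    obtain ⟨c, rfl⟩ := φ.surjective C
    rcases c with c | c
    · have h4 : ∀ b : Fin dh, S.f (φ (Sum.inl a)) (φ (Sum.inl b)) (φ (Sum.inl c)) *
          incl φ v (φ (Sum.inl a)) * (emb φ y (0 : Wsp dm)) (i, φ (Sum.inl b)) =
          (- v a) * (S.f (φ (Sum.inl b)) (φ (Sum.inl a)) (φ (Sum.inl c)) * y (i, b)) := by
        intro b
        rw [incl_inl, emb_inl, S.f_swap]
        ring
      rw [Finset.sum_congr rfl (fun b _ => h4 b), ← Finset.mul_sum, h.cen, mul_zero]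
    · refine Finset.sum_eq_zero fun b _ => ?_
      rw [h.sub, zero_mul, zero_mul]
  rw [Finset.sum_eq_zero (fun a _ => h1 a), Finset.sum_eq_zero (fun b _ => h2 b), add_zero]

/-- the centraliser of a standard point contains `h` -/
lemma cd_ge (S : Setup d F) (φ : Spl dh dm d) (y : Cfg dh) (h : AN.Std S φ y) :
    dh ≤ cd S (emb φ y 0) := by
  have h1 : Module.finrank ℝ (Fin dh → ℝ) ≤ Module.finrank ℝ (cz S (emb φ y 0)) :=
    LinearMap.finrank_le_finrank_of_injective (f := (incl φ).codRestrict _ (incl_mem S φ y h))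
      (LinearMap.injective_codRestrict_iff _ |>.2 (incl_inj φ))
  rw [Module.finrank_fin_fun] at h1
  exact h1

lemma cmb_zero (ψ : Spl ds 0 dh) (z₀ : Cfg 0) : cmb ψ 0 z₀ = 0 := by
  ext p
  show Sum.elim (fun A => (0 : Cfg ds) (p.1, A)) (fun B => z₀ (p.1, B)) (ψ.symm p.2) = 0
  rcases ψ.symm p.2 with a | b
  · rfl
  · exact b.elim0

lemma emb_zero (φ : Spl dh 0 d) (w : Wsp 0) : emb φ 0 w = 0 := by
  ext p
  show Sum.elim (fun A => (0 : Cfg dh) (p.1, A))
    (fun B => Fin.lastCases (motive := fun _ => ℝ) 0 (fun j => w (j, B)) p.1) (φ.symm p.2) = 0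
  rcases φ.symm p.2 with a | b
  · rfl
  · exact b.elim0

lemma card_spl (φ : Spl dh dm d) : dh + dm = d := by
  have h := Fintype.card_congr φ
  rw [Fintype.card_sum, Fintype.card_fin, Fintype.card_fin, Fintype.card_fin] at h
  exact h

lemma ds_lt (φ : Spl dh dm d) (ψ : Spl ds dz dh) (z₀ : Cfg dz) (h : emb φ (cmb ψ 0 z₀) 0 ≠ 0) :
    ds < d := by
  have h1 := card_spl φ
  have h2 := card_spl ψ
  by_contra hcon
  have hdm : dm = 0 := by omega
  have hdz : dz = 0 := by omega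
  subst hdm
  subst hdz
  apply h
  rw [cmb_zero, emb_zero]

lemma meas_shl (d : ℕ) (s t : ℝ) : MeasurableSet (shl d s t) := by
  have h1 : IsOpen (shl d s t) := by
    have : shl d s t = (fun x : Cfg d => ‖x‖) ⁻¹' Set.Ioo s t := by
      ext x
      rfl
    rw [this]
    exact isOpen_Ioo.preimage continuous_norm
  exact h1.measurableSet

/-- local data at a point -/
def Loc (S : Setup d F) (Y : Cfg d) (P : (ℕ → ℝ) → (ℕ → Cfg d → F) → Prop) : Prop :=
  (∃ ε : ℝ, 0 < ε ∧ ∀ (R : ℕ → ℝ) (u : ℕ → Cfg d → F), Sq S R u →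
    (∀ Y', Y' ≠ 0 → S.V Y' = 0 → cd S Y' < cd S Y → Nul R u Y') → P R u → NulE R u Y ε) ∧
  (∀ (R : ℕ → ℝ) (u : ℕ → Cfg d → F), Sq S R u →
    (∃ C : ℝ, ∀ k : ℤ, ∀ᶠ n in atTop, mas (u n) (shl d ((2 : ℝ) ^ k * R n) ((2 : ℝ) ^ (k + 1) * R n)) ≤
      C * (2 : ℝ) ^ (3 * |k|)) →
    (∀ s t : ℝ, 0 < s → s < t → Tendsto (fun n => R n ^ 2 * ena S (u n) (shl d (s * R n) (t * R n))) atTop (𝓝 0)) →
    ∃ l : ℕ → ℕ, StrictMono l ∧ P (fun n => R (l n)) (fun n => u (l n)))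

lemma exists_loc (hfin : FiniteDimensional ℂ F) (d : ℕ) (S : Setup d F)
    (H : ∀ (R : Matrix (Fin 9) (Fin 9) ℝ) (hR : R * R.transpose = 1)
      (O : Matrix (Fin d) (Fin d) ℝ) (hO : O * O.transpose = 1),
      LocStmt (S.rot R hR O hO) ∧ LioStmt (S.rot R hR O hO) ∧ NonCommStmt (S.rot R hR O hO))
    (hStd : Std2Stmt S) (hTr : TrStmt S)
    (IH : ∀ m < d, ∀ T : Setup m F, AN.Cless T → ICStmt T) (Y : Cfg d) (hY : Y ≠ 0) (hV : S.V Y = 0) :
    ∃ P, Loc S Y P := by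
  obtain ⟨R, hR, O, hO, dh, dm, ds, dz, φ, ψ, z₀, h, hYe⟩ := hStd Y hV
  obtain ⟨HL, HLio, HN⟩ := H R hR O hO
  have hF := Tr.mkFx (AN.rot_stmt S) hR hO
  have hne : emb φ (cmb ψ 0 z₀) 0 ≠ 0 := by
    rw [← hYe]
    intro h0
    apply hY
    rw [← norm_eq_zero, ← hF.nm, h0, norm_zero]
  have hIC : ICStmt h.ss := IH ds (ds_lt φ ψ z₀ hne) h.ss h.less
  obtain ⟨ε₀, hε₀, HL⟩ := HL hfin dh dm ds dz φ ψ z₀ h hne hIC
  obtain ⟨ε₀', hε₀', HLio⟩ := HLio hfin dh dm ds dz φ ψ z₀ h hne hIC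
  obtain ⟨ε₁, hε₁, HL⟩ := HL (min ε₀ ε₀') (lt_min hε₀ hε₀') (min_le_left _ _)
  have HLio := HLio (min ε₀ ε₀') (lt_min hε₀ hε₀') (min_le_right _ _)
  refine ⟨fun Rn u => SPZ (S.rot R hR O hO) φ ψ z₀ h (min ε₀ ε₀') Rn
    (fun n x => u n (rox R.transpose O.transpose x)), ⟨ε₁, hε₁, ?_⟩, ?_⟩
  · intro Rn u hS hnul hP
    obtain ⟨t1, -, t3, t4, t5, -⟩ := hTr R hR O hO Rn u
    have hS' := t1 hS
    rw [← t3, hYe]
    refine HL Rn _ hS' (HN hfin Rn _ hS') ?_ hP
    intro Y' hY' hV' hc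
    have hYY : rox R O (rox R.transpose O.transpose Y') = Y' := hF.r Y'
    have h1 : Nul Rn u (rox R.transpose O.transpose Y') := by
      refine hnul _ ?_ ?_ ?_
      · intro h0
        apply hY'
        rw [← norm_eq_zero, ← hYY, hF.nm, h0, norm_zero]
      · rw [← t5, hYY]
        exact hV'
      · rw [← t4, hYY, ← t4 Y, hYe]
        exact lt_of_lt_of_le hc (cd_ge _ φ _ h.std)
    obtain ⟨ε, hε, h2⟩ := h1
    refine ⟨ε, hε, ?_⟩
    rw [← hYY, t3]
    exact h2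
  · intro Rn u hS hg he
    obtain ⟨t1, t2, -, -, -, t6⟩ := hTr R hR O hO Rn u
    have hS' := t1 hS
    have hA : ∃ C : ℝ, ∀ k : ℤ, ∀ᶠ n in atTop,
        mas (fun x => u n (rox R.transpose O.transpose x))
          (shl d ((2 : ℝ) ^ k * Rn n) ((2 : ℝ) ^ (k + 1) * Rn n)) ≤ C * (2 : ℝ) ^ (3 * |k|) := by
      obtain ⟨C, hC⟩ := hg
      refine ⟨C, fun k => ?_⟩
      filter_upwards [hC k] with n hn
      rw [(t2 n _ (meas_shl d _ _) (t6 _ _)).1]
      exact hn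
    have hB : ∀ s t : ℝ, 0 < s → s < t → Tendsto (fun n => Rn n ^ 2 *
        ena (S.rot R hR O hO) (fun x => u n (rox R.transpose O.transpose x))
          (shl d (s * Rn n) (t * Rn n))) atTop (𝓝 0) := by
      intro s t hs ht
      refine (he s t hs ht).congr fun n => ?_
      rw [(t2 n _ (meas_shl d _ _) (t6 _ _)).2 (hS.inv n).1]
    obtain ⟨l, hl, h10⟩ := HLio Rn (fun n x => u n (rox R.transpose O.transpose x)) hS' hA hB
    exact ⟨l, hl, h10⟩

end ICAll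

open ICAll in
/-- L14 -/
theorem icAllOf (F : Type*) [NormedAddCommGroup F] [InnerProductSpace ℂ F] : ICAllOfStmt F := by
  intro hfin H hdisc hLR d
  induction d using Nat.strong_induction_on with
  | _ d IH =>
    intro S _
    have hloc : ∀ Y : Cfg d, ∃ P : (ℕ → ℝ) → (ℕ → Cfg d → F) → Prop, Y ≠ 0 → S.V Y = 0 → Loc S Y P := by
      intro Y
      by_cases h1 : Y ≠ 0 ∧ S.V Y = 0
      · obtain ⟨P, hP⟩ := exists_loc hfin d S
          (fun R hR O hO => ⟨(H d _).1, (H d _).2.1, (H d _).2.2.2.2.1⟩)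
          (H d S).2.2.1 (H d S).2.2.2.1 (fun m hm T hT => (IH m hm T hT).1) Y h1.1 h1.2
        exact ⟨P, fun _ _ => hP⟩
      · exact ⟨fun _ _ => True, fun h2 h3 => absurd ⟨h2, h3⟩ h1⟩
    choose PZ hPZ using hloc
    have hL : LocHyp S PZ := fun Y hY hV => (hPZ Y hY hV).1
    have hLio : LioHyp S PZ := fun R u hS hg he Y hY hV => (hPZ Y hY hV).2 R u hS hg he
    obtain ⟨-, -, -, -, h5, h6, h7, h8, h9, h10, h11, h12⟩ := H d S
    have hDy : DyStmt S := h8 h5 h6 h7 hfin PZ hL hLio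
    exact ⟨h12 h9 h10 h11 hDy hdisc (hLR d) hfin, PZ, hL, hLio⟩

end Vale.Agent.P353.Z.AD
end

section

/-! # P353, all `N`, block D: assembly of everything landed (chain check)

Hypothesis that is still open: `LioStmt` for centreless setups (E, GLUE, X1, L). -/

open MeasureTheory Filter Topology
open scoped ContDiff

namespace Vale.Agent.P353.Z.AD

variable {d dh dm ds dz : ℕ} {F : Type*} [NormedAddCommGroup F] [InnerProductSpace ℂ F]

/-! ### block A -/

theorem tubeAll (S : Setup d F) : AN.TubeStmt S :=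
  AN.tube_stmt S (AN.det_stmt S (AN.dexp_stmt S)) AN.coo_stmt (AN.inj_stmt S (AN.det_stmt S (AN.dexp_stmt S)) AN.coo_stmt)

theorem normAll (S : Setup d F) : AN.NormStmt S := AN.norm_stmt S (tubeAll S) (AN.dec_stmt S)

theorem cutAll (S : Setup d F) : AN.CutStmt S := AN.cut_stmt S (AN.bd_stmt S)

/-! ### block C -/

theorem calcAll (dh dm : ℕ) (F : Type*) [NormedAddCommGroup F] [InnerProductSpace ℂ F] :
    AN.CalcA dh dm F ∧ AN.CalcB dh dm F := ⟨AN.calcA dh dm F, AN.calcB dh dm F (AN.calcA dh dm F)⟩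

theorem opAll (S : Setup d F) (φ : Spl dh dm d) : AN.OpStmt S φ :=
  AN.op_stmt S φ (calcAll dh dm F).1 (calcAll dh dm F).2

theorem fIntAll (S : Setup d F) (φ : Spl dh dm d) : AN.FIntStmt S φ :=
  AN.fInt_stmt S φ (calcAll dh dm F).1 (calcAll dh dm F).2 (opAll S φ)

theorem enHAll (S : Setup d F) (φ : Spl dh dm d) : AN.EnHStmt S φ :=
  AN.enH_stmt S φ (calcAll dh dm F).1 (calcAll dh dm F).2 fun S' => AN.gen_stmt S'

theorem crudeAll (S : Setup d F) (φ : Spl dh dm d) : AN.CrudeStmt S φ :=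
  AN.crude_stmt S φ (calcAll dh dm F).1 (calcAll dh dm F).2 (opAll S φ) (fIntAll S φ)
    (AN.cross_stmt S φ (calcAll dh dm F).1 (calcAll dh dm F).2 (opAll S φ))
    (AN.par_stmt S φ (calcAll dh dm F).1 (calcAll dh dm F).2 (opAll S φ))
    (AN.rem_stmt S φ (calcAll dh dm F).1 (calcAll dh dm F).2 (opAll S φ) (fIntAll S φ) (enHAll S φ))

theorem outAll (S : Setup d F) (φ : Spl dh dm d) : AN.OutStmt S φ :=
  AN.out_stmt S φ (calcAll dh dm F).1 (calcAll dh dm F).2 (opAll S φ) (AN.coef_stmt S φ (AN.bd_stmt S))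
    (AN.fibOut_stmt S φ om (fibAll S φ)) (fIntAll S φ) (enHAll S φ)
    (AN.mass_stmt S φ (calcAll dh dm F).1 (calcAll dh dm F).2) (crudeAll S φ)

/-! ### block D, local part -/

theorem farAll (S : Setup d F) : FarStmt S := farOf S (geo_all S) (tubeAll S) cmbS

theorem gnAll [FiniteDimensional ℂ F] (S : Setup d F) : GnStmt S := gnOf S (scal S) qfS inferInstance

theorem ufAll [FiniteDimensional ℂ F] (S : Setup d F) : UFStmt S :=
  ufOf S (fun _ _ φ => fibAll S φ) (scal S) (gnAll S) cmbS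

theorem secAll [FiniteDimensional ℂ F] (S : Setup d F) : SecStmt S :=
  secOf S (fun _ _ φ => ⟨f0S S φ, vacSpin S φ⟩) (scal S) (gnAll S) cmbS

theorem cutLocAll (S : Setup d F) : CutLocStmt S :=
  cutLocOf S (normAll S) (AN.gh_stmt S) (cutAll S) (AN.bd_stmt S) cmbS

theorem relAll [FiniteDimensional ℂ F] (S : Setup d F) : RelStmt S :=
  relOf S (secAll S) (gnAll S) (scal S) cmbS fun _ => U.lr

theorem locAll [FiniteDimensional ℂ F] (S : Setup d F) : LocStmt S :=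
  locOf S (farAll S) (splitQ S) (ufAll S) (secAll S) (cutLocAll S) (relAll S) cmbS
    (fun _ _ φ => outAll S φ) (AN.frame_stmt S) fun dh dm => calcAll dh dm F

/-! ### block D, engine -/

theorem all_cless_rot {S : Setup d F} (hC : AN.Cless S) (R : Matrix (Fin 9) (Fin 9) ℝ) (hR : R * R.transpose = 1)
    (O : Matrix (Fin d) (Fin d) ℝ) (hO : O * O.transpose = 1) : AN.Cless (S.rot R hR O hO) := by
  intro v hv
  have hO' : O.transpose * O = 1 := mul_eq_one_comm.1 hO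
  have h0 : ∀ k l, ∑ E, O E k * O E l = if k = l then 1 else 0 := by
    intro k l
    have := congrFun (congrFun hO' k) l
    rw [Matrix.mul_apply, Matrix.one_apply] at this
    simpa [Matrix.transpose_apply] using this
  have hf : ∀ A B C, (S.rot R hR O hO).f A B C = ∑ A', ∑ B', ∑ C', O A A' * O B B' * O C C' * S.f A' B' C' :=
    fun _ _ _ => rfl
  have h1 : (fun A' => ∑ A, O A A' * v A) = 0 := by
    refine hC _ fun B' C' => ?_
    have h2 : ∑ B, ∑ C, O B B' * O C C' * ∑ A, (S.rot R hR O hO).f A B C * v A = 0 := by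
      refine Finset.sum_eq_zero fun B _ => Finset.sum_eq_zero fun C _ => ?_
      rw [hv B C, mul_zero]
    have h3 : ∑ B, ∑ C, O B B' * O C C' * ∑ A, (S.rot R hR O hO).f A B C * v A =
        ∑ A', S.f A' B' C' * ∑ A, O A A' * v A := by
      simp only [hf, Finset.sum_mul, Finset.mul_sum]
      calc ∑ B, ∑ C, ∑ A, ∑ A', ∑ B'', ∑ C'', O B B' * O C C' *
            (O A A' * O B B'' * O C C'' * S.f A' B'' C'' * v A)
          = ∑ A, ∑ A', ∑ B'', ∑ C'', (∑ B, O B B' * O B B'') * (∑ C, O C C' * O C C'') *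
              (O A A' * S.f A' B'' C'' * v A) := by
            simp only [Finset.sum_mul, Finset.mul_sum]
            rw [Finset.sum_comm_cycle]
            refine Finset.sum_congr rfl fun A _ => ?_
            rw [Finset.sum_comm_cycle]
            refine Finset.sum_congr rfl fun A' _ => ?_
            rw [Finset.sum_comm_cycle]
            refine Finset.sum_congr rfl fun B'' _ => ?_
            rw [Finset.sum_comm_cycle]
            refine Finset.sum_congr rfl fun C'' _ => ?_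
            rw [Finset.sum_comm]
            refine Finset.sum_congr rfl fun C _ => Finset.sum_congr rfl fun B _ => ?_
            ring
        _ = ∑ A', ∑ A, S.f A' B' C' * (O A A' * v A) := by
            simp only [h0, ite_mul, mul_ite, one_mul, mul_one, zero_mul, mul_zero, Finset.sum_ite_eq,
              Finset.mem_univ, if_true]
            rw [Finset.sum_comm]
            refine Finset.sum_congr rfl fun A' _ => Finset.sum_congr rfl fun A _ => ?_
            ring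
    rw [h3] at h2
    exact h2
  have h4 : ∀ A, ∑ A', O A A' * ∑ B, O B A' * v B = v A := by
    intro A
    have h5 : ∀ k l, ∑ E, O k E * O l E = if k = l then 1 else 0 := by
      intro k l
      have := congrFun (congrFun hO k) l
      rw [Matrix.mul_apply, Matrix.one_apply] at this
      simpa [Matrix.transpose_apply] using this
    calc ∑ A', O A A' * ∑ B, O B A' * v B = ∑ B, (∑ A', O A A' * O B A') * v B := by
          simp only [Finset.sum_mul, Finset.mul_sum]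
          rw [Finset.sum_comm]
          refine Finset.sum_congr rfl fun B _ => Finset.sum_congr rfl fun A' _ => ?_
          ring
      _ = v A := by simp [h5]
  funext A
  rw [← h4 A]
  refine Finset.sum_eq_zero fun A' _ => ?_
  have := congrFun h1 A'
  simp only [Pi.zero_apply] at this
  rw [this, mul_zero]

/-- **L14** for centreless setups: `LioStmt` is only needed for centreless setups -/
theorem icAllC (hfin : FiniteDimensional ℂ F)
    (H : ∀ (d : ℕ) (S : Setup d F), LocStmt S ∧ Std2Stmt S ∧ TrStmt S ∧ NonCommStmt S ∧ NulAllStmt S ∧ ShellStmt S ∧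
      DyOfStmt S ∧ DecStmt S ∧ KWStmt S ∧ HInfStmt S ∧ ICOfStmt S)
    (hLio : ∀ (d : ℕ) (S : Setup d F), AN.Cless S → LioStmt S) (hdisc : DiscStmt) (hLR : ∀ d, U.LRStmt d F) (d : ℕ) :
    ∀ S : Setup d F, AN.Cless S → ICStmt S ∧ DyStmt S ∧ ∃ PZ, LocHyp S PZ ∧ LioHyp S PZ := by
  induction d using Nat.strong_induction_on with
  | _ d IH =>
    intro S hS
    obtain ⟨h1, h2, h3, h5, h6, h7, h8, h9, h10, h11, h12⟩ := H d S
    have hloc : ∀ Y : Cfg d, ∃ P : (ℕ → ℝ) → (ℕ → Cfg d → F) → Prop, Y ≠ 0 → S.V Y = 0 → ICAll.Loc S Y P := by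
      intro Y
      by_cases hY : Y ≠ 0 ∧ S.V Y = 0
      · obtain ⟨P, hP⟩ := ICAll.exists_loc hfin d S
          (fun R hR O hO => ⟨(H d _).1, hLio d _ (all_cless_rot hS R hR O hO), (H d _).2.2.2.1⟩)
          h2 h3 (fun m hm T hT => (IH m hm T hT).1) Y hY.1 hY.2
        exact ⟨P, fun _ _ => hP⟩
      · exact ⟨fun _ _ => True, fun h2 h3 => absurd ⟨h2, h3⟩ hY⟩
    choose PZ hPZ using hloc
    have hL : LocHyp S PZ := fun Y hY hV => (hPZ Y hY hV).1
    have hLi : LioHyp S PZ := fun R u hS hg he Y hY hV => (hPZ Y hY hV).2 R u hS hg he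
    have hDy : DyStmt S := h8 h5 h6 h7 hfin PZ hL hLi
    exact ⟨h12 h9 h10 h11 hDy hdisc (hLR d) hfin, hDy, PZ, hL, hLi⟩

/-- everything about one setup except `LioStmt` -/
theorem engAll [FiniteDimensional ℂ F] (d : ℕ) (S : Setup d F) :
    LocStmt S ∧ Std2Stmt S ∧ TrStmt S ∧ NonCommStmt S ∧ NulAllStmt S ∧ ShellStmt S ∧
      DyOfStmt S ∧ DecStmt S ∧ KWStmt S ∧ HInfStmt S ∧ ICOfStmt S :=
  ⟨locAll S, std2 S, trOf S (AN.rot_stmt S), nonComm S, nulAll S, shell S, dyOf S,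
    decKW S, kwOf S, hInf S, icOf S⟩

/-- **OUTPUT OF BLOCK D**: inner completeness, the dyadic inequality and the engine for every centreless setup -/
theorem icAll [FiniteDimensional ℂ F]
    (hLio : ∀ (d : ℕ) (S : Setup d F), AN.Cless S → LioStmt S) (d : ℕ) (S : Setup d F) (hS : AN.Cless S) :
    ICStmt S ∧ DyStmt S ∧ ∃ PZ, LocHyp S PZ ∧ LioHyp S PZ :=
  icAllC inferInstance engAll hLio disc (fun _ => U.lr) d S hS

/-- the local theorem in all rotated frames -/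
theorem locRotAll [FiniteDimensional ℂ F] (S : Setup d F)
    (R : Matrix (Fin 9) (Fin 9) ℝ) (hR : R * R.transpose = 1) (O : Matrix (Fin d) (Fin d) ℝ)
    (hO : O * O.transpose = 1) : LocStmt (S.rot R hR O hO) := locAll _

end Vale.Agent.P353.Z.AD
end

section

/-! # P353, all `N`, blocks A and GL: unconditional outputs -/

open MeasureTheory Filter Topology
open scoped ContDiff

namespace Vale.Agent.P353.Z.AN.All

variable {d : ℕ} {F : Type*} [NormedAddCommGroup F] [InnerProductSpace ℂ F] (S : Setup d F)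

theorem dexp : DexpStmt S := dexp_stmt S
theorem det : DetStmt S := det_stmt S (dexp S)
theorem inj : InjStmt S := inj_stmt S (det S) coo_stmt
theorem tube : TubeStmt S := tube_stmt S (det S) coo_stmt (inj S)
theorem dec : DecStmt S := dec_stmt S
theorem norm : NormStmt S := norm_stmt S (tube S) (dec S)
theorem bd : BdStmt S := bd_stmt S
theorem rot : RotStmt S := rot_stmt S
theorem std : StdStmt S := std_stmt S
theorem cov : CovStmt S := cov_stmt S (std S) (rot S)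
theorem gh : GhStmt S := gh_stmt S
theorem cut : CutStmt S := cut_stmt S (bd S)
theorem sym : SymStmt S := Vale.Agent.P353.Z.AN.Sy.sym S

theorem tubeJ : TubeJStmt S := tubeJ_stmt S (det S) coo_stmt (inj S)
theorem eqv : EqvStmt S := eqv_stmt S
theorem tayT : TayTStmt S := tayT_stmt S (bd S)
theorem mea : MeaStmt S := mea_stmt S (det S) (eqv S)
theorem pair : PairStmt S := pair_stmt S (tubeJ S) (eqv S) (mea S)
theorem wgt : WgtStmt S := wgt_stmt S (tayT S) (eqv S) (mea S)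
theorem cnv : CnvStmt S := cnv_stmt S (tayT S) (eqv S) (mea S) (det S)
theorem sup : SupStmt S := sup_stmt S (tube S)
theorem gau : GauStmt := gau_stmt
theorem mom : MomStmt := mom_stmt
theorem glu : GluStmt S := glu_stmt S (pair S) (mea S) (wgt S) (cnv S) (sup S) gau mom (norm S)
theorem gluBd : GluBdStmt S := gluBd_stmt S (pair S) (mea S) (wgt S) (sup S) (norm S)
theorem gluK : GluKStmt S := gluK_stmt S (fun S' => gluBd S') (rot S)
theorem pc : PcStmt S := pc_stmt S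

theorem sfu : SfuStmt S := sfu_stmt S (glu S) (pc S) (norm S) (mea S) gau AD.cmbS
theorem glob : GlobStmt S := glob_stmt S fun S1 => sfu S1

end Vale.Agent.P353.Z.AN.All
end

section

/-! # P353, all `N`, block E: unconditional outputs -/

open MeasureTheory Filter Topology Matrix
open scoped ContDiff

namespace Vale.Agent.P353.Z.AE

variable {d dh dm r ds : ℕ} {F : Type*} [NormedAddCommGroup F] [InnerProductSpace ℂ F]

theorem mzAll (S : Setup d F) (φ : Spl dh dm d) (ψ : Spl r ds dh) : MzStmt S φ ψ := mz S φ ψ alg qfS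

theorem bzAll (S : Setup d F) (φ : Spl dh dm d) (ψ : Spl r ds dh) : BzStmt S φ ψ := bzf S φ ψ (mzAll S φ ψ)

theorem coefAll (S : Setup d F) (φ : Spl dh dm d) : AN.CoefStmt S φ := AN.coef_stmt S φ (AN.bd_stmt S)

theorem negAll (S : Setup d F) (φ : Spl dh dm d) (ψ : Spl r ds dh) : NegStmt S φ ψ :=
  neg S φ ψ (ugap S φ ψ (ugapC S φ ψ (fibAll S φ) (mzAll S φ ψ) (prC S φ ψ (mzAll S φ ψ) (bzAll S φ ψ)) (vacQ1 S φ alg qfS))
    (pert2 S φ ψ) (coefAll S φ) (AN.fibOut_stmt S φ om (fibAll S φ)))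
    (AD.calcAll dh dm F).1 (AD.calcAll dh dm F).2 (AD.fIntAll S φ)
    (AN.par_stmt S φ (AD.calcAll dh dm F).1 (AD.calcAll dh dm F).2 (AD.opAll S φ)) (coefAll S φ)
    (AN.fibOut_stmt S φ om (fibAll S φ)) (bzAll S φ ψ)

/-- limit equation on the slice -/
theorem locAll (S : Setup d F) (φ : Spl dh dm d) (ψ : Spl r ds dh) : LocStmt S φ ψ :=
  loc S φ ψ (AD.calcAll dh dm F).1 (AD.calcAll dh dm F).2 (AD.opAll S φ) (AN.All.sym S) (negAll S φ ψ) (trf S φ ψ)
    (decH2 S φ ψ) (dec1 S φ ψ (trf S φ ψ) (vacQ1 S φ alg qfS) (pert2 S φ ψ))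
    (decR S φ ψ (qrVac S φ ψ (cov S φ alg qfS) (wick S φ))) (decM S φ ψ (trf S φ ψ)) (bzAll S φ ψ) (coefAll S φ)
    (AD.outAll S φ)

theorem cutGAll (S : Setup d F) (φ : Spl dh dm d) : CutGStmt S φ :=
  cutG S φ (AN.All.norm S) (AN.All.gh S) (AN.All.cut S) (AN.All.bd S) (AN.frame_stmt S) (AN.All.dec S) (qInv S)

theorem locGAll (S : Setup d F) (φ : Spl dh dm d) (ψ : Spl r ds dh) : LocGStmt S φ ψ :=
  locG S φ ψ (locAll S φ ψ) (bzAll S φ ψ) (cutGAll S φ) (tlS S φ ψ) (qInv S)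

theorem gluDAll (S : Setup d F) : GluDStmt S := gluD S (AN.All.glu S)

theorem locZAll (S : Setup d F) (φ : Spl dh dm d) (ψ : Spl r ds dh) : LocZStmt S φ ψ :=
  locZ S φ ψ (gluDAll S) (locGAll S φ ψ) (qInv S) (tlS S φ ψ)

/-- **global limit equation** -/
theorem gLimAll (S : Setup d F) (φ : Spl dh dm d) (ψ : Spl r ds dh) : GLimStmt S φ ψ :=
  gLim S φ ψ (fun S' => locZAll S' φ ψ) (zInt S φ ψ)

theorem limDAll (S : Setup d F) : LimDStmt S :=
  limD S (fun _ _ _ _ φ ψ => ⟨gLimAll S φ ψ, zInt S φ ψ⟩) (fun _ T => zmApp T) (AN.frame_stmt S)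

theorem rotOAll (S : Setup d F) : RotOStmt S := rotO S (AN.All.rot S) (AN.frame_stmt S)

/-- limit equation in a rotated colour frame -/
theorem limOAll (S : Setup d F) : LimOStmt S := limO S limDAll (rotOAll S)

end Vale.Agent.P353.Z.AE
end

section

/-! # P353, all `N`, block L, U6: the uniform bound -/

open MeasureTheory Filter Topology Matrix
open scoped ContDiff

namespace Vale.Agent.P353.Z.AL

variable {d dh dm r ds n : ℕ} {F : Type*} [NormedAddCommGroup F] [InnerProductSpace ℂ F]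

/-- Cauchy–Schwarz on a set -/
lemma ub399_cs {X : Type*} [MeasurableSpace X] {μ : Measure X} {s : Set X} {f g : X → F}
    (hf : MemLp f 2 μ) (hg : IntegrableOn (fun x => ‖g x‖ ^ 2) s μ) :
    ‖∫ x in s, inner ℂ (f x) (g x) ∂μ‖ ≤
      Real.sqrt (∫ x, ‖f x‖ ^ 2 ∂μ) * Real.sqrt (∫ x in s, ‖g x‖ ^ 2 ∂μ) := by
  have hf1 : MemLp (fun x => ‖f x‖) 2 (μ.restrict s) := (hf.restrict s).norm
  have hg0 : AEStronglyMeasurable (fun x => ‖g x‖) (μ.restrict s) := by
    have h1 : AEStronglyMeasurable (fun x => ‖g x‖ ^ 2) (μ.restrict s) := hg.aestronglyMeasurable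
    have h2 := Real.continuous_sqrt.comp_aestronglyMeasurable h1
    refine h2.congr (Filter.Eventually.of_forall fun x => ?_)
    exact Real.sqrt_sq (norm_nonneg _)
  have hg1 : MemLp (fun x => ‖g x‖) 2 (μ.restrict s) := (memLp_two_iff_integrable_sq hg0).2 hg
  have hf2 : Integrable (fun x => ‖f x‖ ^ 2) μ := (memLp_two_iff_integrable_sq_norm hf.1).1 hf
  have h1 : ‖∫ x in s, inner ℂ (f x) (g x) ∂μ‖ ≤ ∫ x in s, ‖f x‖ * ‖g x‖ ∂μ :=
    norm_integral_le_of_norm_le (hf1.integrable_mul hg1)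
      (Filter.Eventually.of_forall fun x => norm_inner_le_norm _ _)
  have h2 : ∫ x in s, ‖f x‖ * ‖g x‖ ∂μ ≤ (∫ x in s, ‖f x‖ ^ (2 : ℝ) ∂μ) ^ (1 / (2 : ℝ)) *
      (∫ x in s, ‖g x‖ ^ (2 : ℝ) ∂μ) ^ (1 / (2 : ℝ)) :=
    integral_mul_le_Lp_mul_Lq_of_nonneg Real.HolderConjugate.two_two
      (Filter.Eventually.of_forall fun x => norm_nonneg _)
      (Filter.Eventually.of_forall fun x => norm_nonneg _) (by simpa using hf1) (by simpa using hg1)
  simp only [Real.rpow_two, ← Real.sqrt_eq_rpow] at h2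
  refine h1.trans (h2.trans (mul_le_mul_of_nonneg_right (Real.sqrt_le_sqrt ?_) (Real.sqrt_nonneg _)))
  exact setIntegral_le_integral hf2 (Filter.Eventually.of_forall fun x => by positivity)

open Classical in
/-- restriction of a section -/
noncomputable def ub399r (K : Set (Cfg r)) (a : Cfg r → Cfg ds → F) (η : Cfg r) (s : Cfg ds) : F :=
  if η ∈ K then a η s else 0

lemma ub399r_ind (K : Set (Cfg r)) (a : Cfg r → Cfg ds → F) :
    (fun q : Cfg r × Cfg ds => ub399r K a q.1 q.2) =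
      (Prod.fst ⁻¹' K).indicator (fun q : Cfg r × Cfg ds => a q.1 q.2) := by
  funext q
  unfold ub399r Set.indicator
  rfl

lemma ub399r_mem {K A : Set (Cfg r)} (hK : MeasurableSet K) {a : Cfg r → Cfg ds → F} (ha : Sec2 A a) :
    Sec2 (A ∩ K) (ub399r K a) := by
  refine ⟨?_, fun η s h => ?_⟩
  · rw [ub399r_ind]
    exact ha.1.indicator (measurable_fst hK)
  · unfold ub399r at h
    split_ifs at h with h1
    · exact ⟨ha.2 η s h, h1⟩
    · exact absurd rfl h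

lemma ub399_mono {A B : Set (Cfg r)} (h : A ⊆ B) {a : Cfg r → Cfg ds → F} (ha : Sec2 A a) : Sec2 B a :=
  ⟨ha.1, fun η s h1 => h (ha.2 η s h1)⟩

lemma ub399_int {A : Set (Cfg r)} {a : Cfg r → Cfg ds → F} (ha : Sec2 A a) :
    Integrable (fun q : Cfg r × Cfg ds => ‖a q.1 q.2‖ ^ 2) (volume.prod volume) :=
  (memLp_two_iff_integrable_sq_norm ha.1.1).1 ha.1

lemma ub399r_norm (K : Set (Cfg r)) (a : Cfg r → Cfg ds → F) (η : Cfg r) (s : Cfg ds) :
    ‖ub399r K a η s‖ ≤ ‖a η s‖ := by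
  unfold ub399r
  split_ifs with h1
  · exact le_rfl
  · rw [norm_zero]
    exact norm_nonneg _

lemma ub399r_n2 (K : Set (Cfg r)) {A : Set (Cfg r)} {a : Cfg r → Cfg ds → F} (ha : Sec2 A a) :
    n2 (ub399r K a) ≤ n2 a := by
  refine integral_mono_of_nonneg (Filter.Eventually.of_forall fun q => by positivity) (ub399_int ha)
    (Filter.Eventually.of_forall fun q => ?_)
  exact pow_le_pow_left₀ (norm_nonneg _) (ub399r_norm K a q.1 q.2) 2

lemma ub399r_add (K : Set (Cfg r)) (a : Cfg r → Cfg ds → F) :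
    (fun η s => ub399r K a η s + ub399r Kᶜ a η s) = a := by
  funext η s
  unfold ub399r
  by_cases h : η ∈ K
  · rw [if_pos h, if_neg (fun h1 => h1 h), add_zero]
  · rw [if_neg h, if_pos (show η ∈ Kᶜ from h), zero_add]

/-- slice bound -/
lemma ub399_sl (S : Setup d F) (hfin : FiniteDimensional ℂ F) (hMea : AN.MeaStmt S) (hGau : AN.GauStmt)
    (hAlg : AlgStmt) (hTail : TailStmt S) (hVG : VGStmt S) {φ : Spl dh dm d} {ψ : Spl r ds dh}
    (hsub : S.IsSub φ) {Om : Cfg r → Matrix (Fin dm) (Fin dm) ℝ} {A : Set (Cfg r)} (hA : IsCompact A)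
    (h1 : ∀ η ∈ A, Frz (AN.Dz S φ ψ η) ∧ IsOm S.κ (AN.Dz S φ ψ η) (Om η)) (h2 : ContinuousOn Om A)
    {a : Cfg r → Cfg ds → F} (ha : Sec2 A a) {ε R : ℝ} (hR : 0 < R) {u : Cfg d → F}
    (hu : IntegrableOn (fun p : Cfg dh × Wsp dm => ‖S.res φ u p.1 p.2‖ ^ 2) (Nr ψ A dm R ε)
      (volume.prod volume)) :
    ‖Sl S φ ψ Om A ε a R u‖ ≤ Real.sqrt (n2 a) *
      Real.sqrt (∫ p in Nr ψ A dm R ε, ‖S.res φ u p.1 p.2‖ ^ 2 ∂(volume.prod volume)) := by
  have h3 := hVG hfin hGau hAlg dh dm r ds φ ψ Om A hA h1 h2 a ha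
  have h4 := ((hTail hfin hMea dh dm r ds φ ψ hsub (AN.vG S φ ψ Om a) h3.1).1 R hR)
  have h5 := ub399_cs (s := Nr ψ A dm R ε) h4.1 hu
  rw [h4.2, h3.2] at h5
  exact h5

lemma ub399_frz {S : Setup d F} {φ : Spl dh dm d} {ψ : Spl r ds dh} {z₀ : Cfg r}
    (h : AD.Std2 S φ (spsw ψ) z₀) {η : Cfg r} (hη : η ∈ R8 S φ ψ) : Frz (AN.Dz S φ ψ η) := by
  have h1 : AD.Dz S φ (spsw ψ) η = S.Dz φ ψ η := by
    rw [← AX.DM_Mz, AX.DM_Dz]
  have h2 := AX.frz_Dz h η
  rw [h1] at h2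
  exact h2 hη

lemma ub399_om {S : Setup d F} {φ : Spl dh dm d} {ψ : Spl r ds dh} {L : Finset (Fin r → ℝ)}
    {Om : Cfg r → Matrix (Fin dm) (Fin dm) ℝ} {K : Submodule ℂ F} {U : Cfg r → F →L[ℂ] F}
    (hB : AX.Bun S φ (AX.Mz S φ (spsw ψ)) L Om K U) {η : Cfg r} (hη : η ∈ Rg S φ ψ) :
    IsOm S.κ (AN.Dz S φ ψ η) (Om η) := by
  have h1 := hB.om η
  rw [AX.DM_Dz] at h1
  exact h1 hη

lemma ub399_omc {S : Setup d F} {φ : Spl dh dm d} {ψ : Spl r ds dh} {L : Finset (Fin r → ℝ)}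
    {Om : Cfg r → Matrix (Fin dm) (Fin dm) ℝ} {K : Submodule ℂ F} {U : Cfg r → F →L[ℂ] F}
    (hB : AX.Bun S φ (AX.Mz S φ (spsw ψ)) L Om K U) : ContinuousOn Om (Rg S φ ψ) := by
  have h1 : ∀ A B, ContinuousOn (fun η => Om η A B) (Rg S φ ψ) := fun A B =>
    (hB.om_smooth A B).continuousOn.mono fun η hη => by
      show (∑ i, DM (AX.Mz S φ (spsw ψ)) η i * DM (AX.Mz S φ (spsw ψ)) η i).det ≠ 0
      rw [AX.DM_Dz]
      exact hη
  exact continuousOn_pi.2 fun A => continuousOn_pi.2 fun B => h1 A B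

/-- **U6** -/
theorem ub_of (S : Setup d F) : UBOfStmt S := by
  intro hLin hMea hGau hAlg hTail hVG hMasK hGluC hCrd hNull hfin hcl dh dm r ds φ ψ z₀ hstd L Om K U hB
  obtain ⟨C0, hC0, hmas⟩ := hMasK hcl dh dm r ds φ ψ z₀ hstd
  refine ⟨Real.sqrt C0, Real.sqrt_pos.2 hC0, ?_⟩
  intro s t hs hst A hA hAsh hAR R u hSq a ha e he
  have h0A : (0 : Cfg r) ∉ A := fun h => by
    have h1 := (hAsh h).1
    rw [norm_zero] at h1
    linarith
  obtain ⟨CA, hCA, hcrd⟩ := hCrd hfin dh dm r ds φ ψ z₀ hstd L Om K U hB A hA hAR h0A R u hSq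
  set Km : ℕ → Set (Cfg r) := fun m => {η | 1 / ((m : ℝ) + 1) ≤ |(S.Dz φ ψ η 8).det|} with hKm
  have hcl : ∀ m, IsClosed (Km m) := fun m =>
    isClosed_le continuous_const ((nu399_cont S φ ψ 8).matrix_det.abs)
  have hKc : ∀ m, IsCompact (A ∩ Km m) := fun m => hA.inter_right (hcl m)
  have hK8 : ∀ m, A ∩ Km m ⊆ R8 S φ ψ := fun m η hη h => by
    have h1 : 1 / ((m : ℝ) + 1) ≤ |(S.Dz φ ψ η 8).det| := hη.2
    rw [h, abs_zero] at h1
    have h2 : 0 < 1 / ((m : ℝ) + 1) := by positivity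
    linarith
  have hlim : Tendsto (fun m => n2 (ub399r (Km m)ᶜ a)) atTop (𝓝 0) := by
    have h1 : Tendsto (fun m : ℕ => ∫ q : Cfg r × Cfg ds, ‖ub399r (Km m)ᶜ a q.1 q.2‖ ^ 2 ∂(volume.prod volume))
        atTop (𝓝 (∫ q : Cfg r × Cfg ds, (0 : ℝ) ∂((volume : Measure (Cfg r)).prod (volume : Measure (Cfg ds))))) := by
      refine tendsto_integral_of_dominated_convergence (fun q => ‖a q.1 q.2‖ ^ 2) (fun m => ?_)
        (ub399_int ha) (fun m => Filter.Eventually.of_forall fun q => ?_) ?_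
      · exact ((ub399r_mem (hcl m).measurableSet.compl ha).1.1.norm.pow 2)
      · rw [Real.norm_eq_abs, abs_of_nonneg (by positivity)]
        exact pow_le_pow_left₀ (norm_nonneg _) (ub399r_norm _ a q.1 q.2) 2
      · have h2 : ∀ᵐ η ∂(volume : Measure (Cfg r)), (S.Dz φ ψ η 8).det ≠ 0 := by
          rw [ae_iff]
          simpa using hNull dh dm r ds φ ψ z₀ hstd
        have h3 : ∀ᵐ q ∂((volume : Measure (Cfg r)).prod (volume : Measure (Cfg ds))),
            (S.Dz φ ψ q.1 8).det ≠ 0 := Measure.quasiMeasurePreserving_fst.ae h2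
        filter_upwards [h3] with q hq
        have h4 : 0 < |(S.Dz φ ψ q.1 8).det| := abs_pos.2 hq
        obtain ⟨m₀, hm₀⟩ := exists_nat_one_div_lt h4
        apply tendsto_const_nhds.congr'
        filter_upwards [eventually_ge_atTop m₀] with m hm
        have h5 : q.1 ∈ Km m := by
          show 1 / ((m : ℝ) + 1) ≤ _
          refine le_trans ?_ hm₀.le
          exact one_div_le_one_div_of_le (by positivity) (by exact_mod_cast Nat.succ_le_succ hm)
        unfold ub399r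
        rw [if_neg (fun h6 => h6 h5), norm_zero]
        norm_num
    rw [integral_zero] at h1
    exact h1
  have hlim2 : Tendsto (fun m => CA * Real.sqrt (n2 (ub399r (Km m)ᶜ a))) atTop (𝓝 0) := by
    have h1 := (hlim.sqrt).const_mul CA
    rwa [Real.sqrt_zero, mul_zero] at h1
  obtain ⟨m, hm⟩ := (hlim2.eventually_lt_const (show (0 : ℝ) < e / 3 by positivity)).exists
  have ham : Sec2 (A ∩ Km m) (ub399r (Km m) a) := ub399r_mem (hcl m).measurableSet ha
  have hbm : Sec2 A (ub399r (Km m)ᶜ a) :=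
    ub399_mono Set.inter_subset_left (ub399r_mem (hcl m).measurableSet.compl ha)
  obtain ⟨ε1, hε1, hglu⟩ := hGluC hfin dh dm r ds φ ψ z₀ hstd L Om K U hB (A ∩ Km m) (hKc m) (hK8 m)
    (fun h => h0A h.1)
  obtain ⟨ε2, hε2, hmk⟩ := hmas s t hs hst (A ∩ Km m) (hKc m) (Set.inter_subset_left.trans hAsh) (hK8 m)
  have hg := hglu (min ε1 ε2) (lt_min hε1 hε2) (min_le_left _ _) R u hSq _ ham
  have hg2 := (hg.norm).eventually_lt_const (show ‖(0 : ℂ)‖ < e / 3 by rw [norm_zero]; positivity)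
  filter_upwards [hcrd _ hbm, hg2] with k hk1 hk2
  have hlin := ((hLin hfin dh dm r ds φ ψ L Om K U hB A hA hAR (R k) (hSq.pos k) (u k) (hSq.inv k).1).2.1
    (ub399r (Km m) a) (ub399r (Km m)ᶜ a) (ub399_mono Set.inter_subset_left ham) hbm)
  rw [ub399r_add] at hlin
  obtain ⟨hi1, hi2⟩ := hmk (min ε1 ε2) (lt_min hε1 hε2) (min_le_right _ _) (R k) (hSq.pos k) (u k) (hSq.inv k)
  have hsl := ub399_sl S hfin hMea hGau hAlg hTail hVG hstd.std.sub (hKc m)
    (fun η hη => ⟨ub399_frz hstd (hK8 m hη), ub399_om hB (hAR hη.1)⟩)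
    ((ub399_omc hB).mono fun η hη => hAR hη.1) ham (hSq.pos k) hi1
  have h1 : ‖Sl S φ ψ Om (A ∩ Km m) (min ε1 ε2) (ub399r (Km m) a) (R k) (u k)‖ ≤
      Real.sqrt C0 * Real.sqrt (n2 a) * Real.sqrt (AD.mas (u k) (AD.shl d (s * R k) (t * R k))) := by
    refine hsl.trans ?_
    have h2 := mul_le_mul (Real.sqrt_le_sqrt (ub399r_n2 (Km m) ha)) (Real.sqrt_le_sqrt hi2)
      (Real.sqrt_nonneg _) (Real.sqrt_nonneg _)
    refine h2.trans (le_of_eq ?_)
    rw [Real.sqrt_mul hC0.le]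
    ring
  have h2 : ZZ S.κ φ ψ Om a (R k) (u k) =
      (ZZ S.κ φ ψ Om (ub399r (Km m) a) (R k) (u k) -
        Sl S φ ψ Om (A ∩ Km m) (min ε1 ε2) (ub399r (Km m) a) (R k) (u k)) +
      Sl S φ ψ Om (A ∩ Km m) (min ε1 ε2) (ub399r (Km m) a) (R k) (u k) +
      ZZ S.κ φ ψ Om (ub399r (Km m)ᶜ a) (R k) (u k) := by
    rw [hlin]
    ring
  rw [h2]
  refine (norm_add₃_le).trans ?_
  linarith

end Vale.Agent.P353.Z.AL
end

section

/-! # P353, all `N`, block L (LIO): assembly -/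

open MeasureTheory Filter Topology Matrix
open scoped ContDiff

namespace Vale.Agent.P353.Z.AL

variable {d dh dm r ds n : ℕ} {F : Type*} [NormedAddCommGroup F] [InnerProductSpace ℂ F]

/-- Liouville theorem -/
theorem liouAll {K : Type*} [NormedAddCommGroup K] [InnerProductSpace ℂ K] [CompleteSpace K] (T : Setup r K) :
    AD.LiouStmt T := by
  intro hcut hr L hL f hf hI hC hw
  obtain ⟨h1, h2⟩ := AD.liouA T hcut hr L hL f hf hI hC hw
  exact AD.liouB T hr h1 hI hC h2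

theorem det0 (S : Setup d F) : AN.DetStmt S := AN.det_stmt S (AN.dexp_stmt S)

theorem mea0 (S : Setup d F) : AN.MeaStmt S := AN.mea_stmt S (det0 S) (AN.eqv_stmt S)

theorem tube0 (S : Setup d F) : AN.TubeStmt S :=
  AN.tube_stmt S (det0 S) AN.coo_stmt (AN.inj_stmt S (det0 S) AN.coo_stmt)

theorem norm0 (S : Setup d F) : AN.NormStmt S := AN.norm_stmt S (tube0 S) (AN.dec_stmt S)

theorem tubeJ0 (S : Setup d F) : AN.TubeJStmt S :=
  AN.tubeJ_stmt S (det0 S) AN.coo_stmt (AN.inj_stmt S (det0 S) AN.coo_stmt)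

theorem tayT0 (S : Setup d F) : AN.TayTStmt S := AN.tayT_stmt S (AN.bd_stmt S)

theorem pair0 (S : Setup d F) : AN.PairStmt S := AN.pair_stmt S (tubeJ0 S) (AN.eqv_stmt S) (mea0 S)

theorem wgt0 (S : Setup d F) : AN.WgtStmt S := AN.wgt_stmt S (tayT0 S) (AN.eqv_stmt S) (mea0 S)

theorem gluBd0 (S : Setup d F) : AN.GluBdStmt S :=
  AN.gluBd_stmt S (pair0 S) (mea0 S) (wgt0 S) (AN.sup_stmt S (tube0 S)) (norm0 S)

theorem gluK0 (S : Setup d F) : AN.GluKStmt S := AN.gluK_stmt S (fun S' => gluBd0 S') (AN.rot_stmt S)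

theorem datAll (S : Setup d F) : DatStmt S :=
  dat_of S (fun _ _ φ => AX.bunAll S φ) AX.root fun _ S' => ⟨zml S', zmf S'⟩

theorem masKAll (S : Setup d F) : MasKStmt S :=
  masK_of S (tubK_of S (injU_of S fun _ S' => AP.inj S') (det0 S) AN.coo_stmt) (det0 S) AN.coo_stmt

theorem cnv0 (S : Setup d F) : AN.CnvStmt S := AN.cnv_stmt S (tayT0 S) (AN.eqv_stmt S) (mea0 S) (det0 S)

theorem glu0 (S : Setup d F) : AN.GluStmt S :=
  AN.glu_stmt S (pair0 S) (mea0 S) (wgt0 S) (cnv0 S) (AN.sup_stmt S (tube0 S)) AN.gau_stmt AN.mom_stmt (norm0 S)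

theorem gluCAll (S : Setup d F) : GluCStmt S :=
  gluC_of S (glu0 S) (norm0 S) (mea0 S) AN.gau_stmt alg (rad S) supZ (lin S) (tail S) (vg S)

theorem gluAAll (S : Setup d F) : GluAStmt S := gluA_ofC S (gluCAll S)

/-- uniform bound (mass bound up to the collisions) -/
theorem ubAll (S : Setup d F) : UBStmt S :=
  ub_of S (lin S) (mea0 S) AN.gau_stmt alg (tail S) (vg S) (masKAll S) (gluCAll S)
    (crd_of S (gluK0 S) AN.mom_stmt (rad S) supZ) (null8 S)

/-- no profiles for vanishing energy, from the limit equation -/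
theorem spzAll (S : Setup d F) : SpzStmt S :=
  spz_of S (gluAAll S) (sf S) (ubAll S) (iso S) (lin S) (fun _ S' => zml S') AF.cut

theorem lioE (S : Setup d F)
    (hE : ∀ (dh dm r ds : ℕ) (φ : Spl dh dm d) (ψ : Spl r ds dh), AE.GLimStmt S φ ψ) (hC : AN.Cless S) : AD.LioStmt S :=
  lio_of S hC (datAll S)
    (zero_of S riesz (lin S) (ubAll S) (iso S)
      (eq_of S (fun _ _ _ _ φ ψ => AE.gLimL S φ ψ (hE _ _ _ _ φ ψ)) (AN.frame_stmt S) (AE.qInv S) (fun _ T => AE.zmApp T)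
        (ubAll S) (lin S) (iso S))
      (fun _ _ T => liouAll T) AF.cut)
    (spzAll S)

end Vale.Agent.P353.Z.AL
end

section

/-! # P353, all `N`, block SY: the weak profile system of a model (assembly, helper667) -/

open MeasureTheory Filter Topology Matrix
open scoped ContDiff

namespace Vale.Agent.P353.Z.ASY

open Vale.Agent.P353.Z.AJK

variable {N d : ℕ} {F : Type} [NormedAddCommGroup F] [InnerProductSpace ℂ F]

/-- `su(N)` has no centre -/
lemma cless_model {M : BFSS.Model N d F} {S : Setup d F} (hN : 1 ≤ N) (hbas : Bas N d M.T M.f) (hRep : U.Rep M S) :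
    AN.Cless S := by
  intro v hv
  rw [hRep.hf] at hv
  set X : Matrix (Fin N) (Fin N) ℂ := ∑ A, ((v A : ℝ) : ℂ) • M.T A with hX
  have h0 : X = 0 := by
    refine ANF.nst_centre hN hbas X ?_ fun B => ?_
    · rw [hX, Matrix.trace_sum]
      simp [Matrix.trace_smul, hbas.tr0]
    · have h1 : X * M.T B - M.T B * X = 0 := by
        have h2 : X * M.T B - M.T B * X = ∑ A, ((v A : ℝ) : ℂ) • (M.T A * M.T B - M.T B * M.T A) := by
          rw [hX, Finset.sum_mul, Finset.mul_sum, ← Finset.sum_sub_distrib]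
          refine Finset.sum_congr rfl fun A _ => ?_
          rw [Matrix.smul_mul, Matrix.mul_smul, smul_sub]
        rw [h2]
        simp only [hbas.comm, Finset.smul_sum, smul_smul]
        rw [Finset.sum_comm]
        refine Finset.sum_eq_zero fun C _ => ?_
        rw [← Finset.sum_smul]
        have h3 : ∑ A, ((v A : ℝ) : ℂ) * (Complex.I * (M.f A B C : ℂ)) = 0 := by
          have h4 : ∑ A, ((v A : ℝ) : ℂ) * (Complex.I * (M.f A B C : ℂ)) = Complex.I * ((∑ A, M.f A B C * v A : ℝ) : ℂ) := by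
            push_cast
            rw [Finset.mul_sum]
            exact Finset.sum_congr rfl fun A _ => by ring
          rw [h4, hv B C]
          simp
        rw [h3, zero_smul]
      exact sub_eq_zero.1 h1
  funext B
  have h5 : (X * M.T B).trace = ((v B : ℝ) : ℂ) := by
    rw [hX, Finset.sum_mul, Matrix.trace_sum]
    simp [Matrix.trace_smul, hbas.ortho]
  rw [h0, Matrix.zero_mul, Matrix.trace_zero] at h5
  have h6 : (v B : ℂ) = 0 := h5.symm
  exact_mod_cast h6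

/-- outputs of the analytic blocks used by `pwT` -/
structure Ana (F : Type) [NormedAddCommGroup F] [InnerProductSpace ℂ F] : Prop where
  rot : ∀ {d : ℕ} (S : Setup d F), AE.RotOStmt S
  iso : ∀ {d : ℕ} (S : Setup d F), AL.IsoStmt S
  lin : ∀ {d : ℕ} (S : Setup d F), AL.LinStmt S
  zmem : ∀ {d : ℕ} (S : Setup d F), AL.ZMemStmt S
  ub : ∀ {d : ℕ} (S : Setup d F), AL.UBStmt S
  limO : ∀ {d : ℕ} (S : Setup d F), AE.LimOStmt S
  chi : AE.ChiStmt
  ic : ∀ (e : ℕ) (T : Setup e F), AN.Cless T → AD.ICStmt T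

/-- the concrete system -/
noncomputable def sysP {S : Setup d F} (hfin : FiniteDimensional ℂ F) (hAn : Ana F) {ι : Type} (ty : ι → Ty S) (hC : AN.Cless S) :
    PW S ι :=
  pwT hfin (hAn.rot S) (fun S' => hAn.iso S') (fun S' => hAn.lin S') (fun S' => hAn.zmem S') (fun S' => hAn.ub S') ty hC

/-- **output of block JN (helper714)**: no loss -/
def NoLossOut : Prop := ∀ (N d : ℕ) (F : Type) [NormedAddCommGroup F] [InnerProductSpace ℂ F] (hfin : FiniteDimensional ℂ F)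
  (M : BFSS.Model N d F) (S : Setup d F), U.Rep M S → ∀ (hAn : Ana F) (ι : Type) (ty : ι → Ty S) (hC : AN.Cless S),
  AJ.CovT M S ty → (sysP hfin hAn ty hC).NoLoss

/-- **output of blocks REP, LOW, SGN (helper647, 858, 679)**: gauge invariant representatives -/
def RepOut : Prop := ∀ (N d : ℕ) (F : Type) [NormedAddCommGroup F] [InnerProductSpace ℂ F] (hfin : FiniteDimensional ℂ F)
  (M : BFSS.Model N d F) (S : Setup d F), U.Rep M S → ∀ (hAn : Ana F) (TD : ∀ p : Typ N, TyD M S (pn p.1)) (hC : AN.Cless S),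
  SepStmt M S → (∀ (p : Typ N) a, OneA.{0} 1 ((TD p).D.fr.fb (pn p.1 a))) →
  ∃ J, (sysP hfin hAn (fun p => (TD p).ty) hC).Rep J

/-- the covering property of the family -/
theorem covT {M : BFSS.Model N d F} {S : Setup d F} (hN : 1 ≤ N) (hA : Alg) (hRep : U.Rep M S)
    (TD : ∀ p : Typ N, TyD M S (pn p.1)) : AJ.CovT M S fun p : Typ N => (TD p).ty := by
  intro Y hY hV
  obtain ⟨p, hp, h⟩ := hA.cov M S hRep hN Y hY hV
  obtain ⟨U, η, hη, he⟩ := h (TD ⟨p, hp⟩).D (hA.val _ _)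
  refine ⟨⟨p, hp⟩, U, η, ?_, ?_, he⟩
  · rintro rfl
    have : Nontrivial (Fin (Multiset.card p.parts)) := Fin.nontrivial_iff_two_le.2 hp
    obtain ⟨a, b, hab⟩ := exists_pair_ne (Fin (Multiset.card p.parts))
    obtain ⟨i, hi⟩ := hη a b hab
    exact hi ((Finset.sum_eq_zero fun B _ => zero_mul _).trans (Finset.sum_eq_zero fun B _ => zero_mul _).symm)
  · exact ((hA.pt M S _ _ (TD ⟨p, hp⟩).D (hA.val _ _) (hA.reg _ _) (hA.std _ _) hA.basM).2.2 η).2 hη

/-- **the system exists** -/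
theorem sys (hA : Alg) (hAn : ∀ (F : Type) [NormedAddCommGroup F] [InnerProductSpace ℂ F] (_ : FiniteDimensional ℂ F), Ana F)
    (hNL : NoLossOut) (hRO : RepOut) (N : ℕ) (hN : 2 ≤ N) : Fin1.SysStmt N := by
  intro hih d F _ _ hfin M S hRep
  have hN1 : 1 ≤ N := by omega
  have IH : ∀ n, 1 ≤ n → n < N → IHM.{0} n := fun n h1 h2 d E _ _ _ M' S' h' => hih n h1 h2 d E M' S' h'
  obtain ⟨hcard, hpn⟩ := hA.cnt N hN1
  have hirr : S.Irr := Fin1.irr_of hRep
  have hTD : ∀ p : Typ N, Nonempty (TyD M S (pn p.1)) := by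
    intro p
    obtain ⟨h1, h2, h3⟩ := hpn p.1
    exact exTyD hfin hA (fun e T => (hAn F hfin).ic e T) hRep hirr M.nontrivial p.2 h1 h2 fun a => IH _ (h1 a) (h3 p.2 a)
  let TD : ∀ p : Typ N, TyD M S (pn p.1) := fun p => (hTD p).some
  have hC : AN.Cless S := cless_model hN1 (hA.basM N d F M) hRep
  have hOne : ∀ (p : Typ N) a, OneA.{0} 1 ((TD p).D.fr.fb (pn p.1 a)) := by
    intro p a
    obtain ⟨h1, h2, h3⟩ := hpn p.1
    exact hA.ih _ _ _ _ ((TD p).D.fr.Tb_bas _ (h1 a)) (IH _ (h1 a) (h3 p.2 a))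
  refine ⟨Typ N, inferInstance, sysP hfin (hAn F hfin) (fun p => (TD p).ty) hC, hcard, ?_, ?_, ?_⟩
  · exact pwT_limEq _ _ _ _ _ _ _ _ ((hAn F hfin).limO S) (hAn F hfin).chi
  · exact hNL N d F hfin M S hRep (hAn F hfin) _ _ hC (covT hN1 hA hRep TD)
  · exact hRO N d F hfin M S hRep (hAn F hfin) TD hC (hA.sep M S) hOne

end Vale.Agent.P353.Z.ASY
end

section

/-! # P353, all `N`, block SY: the analytic inputs (unconditional, helper667) -/

open MeasureTheory Filter Topology Matrix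
open scoped ContDiff

namespace Vale.Agent.P353.Z.ASY

/-- Liouville classification of the strata (blocks E and L) -/
theorem lioAll {d : ℕ} {F : Type*} [NormedAddCommGroup F] [InnerProductSpace ℂ F] (S : Setup d F) (hC : AN.Cless S) :
    AD.LioStmt S :=
  AL.lioE S (fun _ _ _ _ φ ψ => AE.gLimAll S φ ψ) hC

/-- inner completeness of every centreless setup (block D) -/
theorem icAll {F : Type*} [NormedAddCommGroup F] [InnerProductSpace ℂ F] [FiniteDimensional ℂ F] (d : ℕ) (S : Setup d F)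
    (hC : AN.Cless S) : AD.ICStmt S :=
  (AD.icAll (fun _ S' h => lioAll S' h) d S hC).1

/-- outputs of the analytic blocks -/
theorem anaAll (F : Type) [NormedAddCommGroup F] [InnerProductSpace ℂ F] (_ : FiniteDimensional ℂ F) : Ana F where
  rot := fun S => AE.rotOAll S
  iso := fun S => AL.iso S
  lin := fun S => AL.lin S
  zmem := fun S => AL.zmem S
  ub := fun S => AL.ubAll S
  limO := fun S => AE.limOAll S
  chi := AE.chiS
  ic := fun e T h => icAll e T h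

end Vale.Agent.P353.Z.ASY
end

section

/-! # P353, all `N`, block TW: assembly -/

open MeasureTheory Filter Topology
open scoped ContDiff

namespace Vale.Agent.P353.Z.AT

variable {d : ℕ} {F : Type*} [NormedAddCommGroup F] [InnerProductSpace ℂ F]

/-- the inputs of the local estimate -/
theorem tw_inp (S' : Setup d F) (hout : ∀ (dh dm : ℕ) (φ : Spl dh dm d), AN.OutStmt S' φ) : Inp S' where
  tube := AN.tube_stmt S' (AN.det_stmt S' (AN.dexp_stmt S')) AN.coo_stmt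
    (AN.inj_stmt S' (AN.det_stmt S' (AN.dexp_stmt S')) AN.coo_stmt)
  dec := AN.dec_stmt S'
  bd := AN.bd_stmt S'
  gh := AN.gh_stmt S'
  cut := AN.cut_stmt S' (AN.bd_stmt S')
  frame := AN.frame_stmt S'
  out := hout

/-- **TW**, assembled -/
theorem tw_all (S : Setup d F) (hF : FiniteDimensional ℂ F) (hC : AN.Cless S)
    (hout : ∀ (S' : Setup d F) (dh dm : ℕ) (φ : Spl dh dm d), AN.OutStmt S' φ) : TWStmt S :=
  sm4 S (sh S hF hC (AN.rot_stmt S) (AN.frame_stmt S) (fun R hR O hO => tw_inp (S.rot R hR O hO) (hout _))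
    (AN.cov_stmt S (AN.std S) (AN.rot_stmt S)) (tub1 S) (nc S))

end Vale.Agent.P353.Z.AT
end

section

/-! # P353, all `N`, block JN, C7: no loss of mass from the null points -/

open MeasureTheory Filter Topology Matrix
open scoped ContDiff

namespace Vale.Agent.P353.Z.AJ

variable {d : ℕ} {F : Type} [NormedAddCommGroup F] [InnerProductSpace ℂ F]

private lemma nlc7_ena_nonneg (S : Setup d F) (u : Cfg d → F) (A : Set (Cfg d)) :
    0 ≤ AD.ena S u A :=
  Finset.sum_nonneg fun _ _ => integral_nonneg fun _ => sq_nonneg _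

private lemma nlc7_sqM {S : Setup d F} {R : ℕ → ℝ} {u : ℕ → Cfg d → F} (h : AD.Sq S R u) :
    AL.SqM S R u where
  inv := h.inv
  pos := h.pos
  lim := h.lim
  bd s t hs hst := by
    obtain ⟨C, hC⟩ := h.bd s t hs hst
    exact ⟨C, fun n => (le_add_of_nonneg_right
      (mul_nonneg (sq_nonneg _) (nlc7_ena_nonneg _ _ _))).trans (hC n)⟩

/-- **C7** no loss. -/
theorem no_loss_of (S : Setup d F) : NoLossOfStmt S := by
  intro hF hCl hTW hBd hNl hNul hSh hS' hIC ι P hyp R Ψ C hb hZ hloc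
  refine hNl hF hTW hBd (hIC d S hCl) hSh R Ψ C hb (fun hSq Y hY => ?_) hloc
  refine hNul hF (hS' S).1 (hS' S).2.1
    (fun Q hQ O hO => ⟨(hS' (S.rot Q hQ O hO)).2.2.1, (hS' (S.rot Q hQ O hO)).2.1,
      (hS' (S.rot Q hQ O hO)).2.2.2⟩) hIC (fun n => max (R n) 1) Ψ hSq (fun Y hY hV => ?_) Y hY
  obtain ⟨Y', h1, h2, h3, h4, i, hi⟩ := hyp Y hY hV
  refine ⟨Y', h1, h2, h3, h4 _ _ hSq.inv, hi _ _ (nlc7_sqM hSq) fun a => ?_⟩
  have he : ∀ᶠ n in atTop, R n = max (R n) 1 := by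
    filter_upwards [hb.R_lim.eventually_ge_atTop 1] with n hn
    exact (max_eq_left hn).symm
  refine (hZ i a).congr' ?_
  filter_upwards [he] with n hn
  rw [← hn]

end Vale.Agent.P353.Z.AJ
end

section

/-! # P353, all `N`, block JN: no loss, assembly

The local theorem `LocStmt` and inner completeness `ICStmt` (block D) are hypotheses. -/

open MeasureTheory Filter Topology Matrix
open scoped ContDiff

namespace Vale.Agent.P353.Z.AJ

variable {N d : ℕ} {F : Type} [NormedAddCommGroup F] [InnerProductSpace ℂ F]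

/-- bundle sections (C2) for every setup -/
theorem seczAll (S : Setup d F) : SecZStmt S :=
  secz_of S (coef S) (AL.ubAll S) (AL.lin S) (AL.iso S) (fun _ S' => AL.zml S') fun r => AF.cut r

/-- transfer to rotated frames (C4) -/
theorem trfAll (S : Setup d F) : TrfStmt S :=
  trf_of S AM.covZ (zmrot F) (seczAll S) (fun S' => AL.iso S') fun _ S' => AL.zml S'

/-- no profiles in one rotated frame -/
theorem spzOneAll (S : Setup d F) : SpzOneStmt S :=
  spz_one_of S fun S' => ⟨AL.spzAll S', AL.datAll S', trfAll S', reg S', comp S', AN.rot_stmt S',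
    AD.trOf S' (AN.rot_stmt S')⟩

/-- **OUTPUT OF BLOCK JN**, from the local theorem and inner completeness -/
theorem noLossAll (M : BFSS.Model N d F) (S : Setup d F) (hRep : U.Rep M S)
    (hLoc : ∀ S' : Setup d F, AD.LocStmt S') (hIC : ∀ (e : ℕ) (T' : Setup e F), AN.Cless T' → AD.ICStmt T')
    (hfin : FiniteDimensional ℂ F) (hRot : AE.RotOStmt S) (hIso : ∀ S' : Setup d F, AL.IsoStmt S')
    (hLin : ∀ S' : Setup d F, AL.LinStmt S') (hZ : ∀ S' : Setup d F, AL.ZMemStmt S') (hUB : ∀ S' : Setup d F, AL.UBStmt S')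
    {ι : Type} (ty : ι → AJK.Ty S) (hC : AN.Cless S) (hCov : CovT M S ty) :
    (AJK.pwT hfin hRot hIso hLin hZ hUB ty hC).NoLoss :=
  no_loss_T M hfin S hRep (AN.REP.core_stmt M) (act_stmt M) (no_loss_of S) (spzOneAll S)
    (typT S) (AT.tw_all S hfin hC fun S' _ _ φ => AD.outAll S' φ) (AT.bd5 S) (nl S) (nulB S) (AD.shell S)
    (fun S' => ⟨AD.trOf S' (AN.rot_stmt S'), AD.nonComm S', hLoc S', AD.geo_all S'⟩) hIC hRot hIso hLin hZ hUB ι ty hC hCov

end Vale.Agent.P353.Z.AJ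
end

section

/-! # P353, all `N`: block JN in the form used by the system (helper714) -/

open MeasureTheory Filter Topology Matrix
open scoped ContDiff

namespace Vale.Agent.P353.Z.ASY

open Vale.Agent.P353.Z.AJK

/-- **no loss for the concrete system** -/
theorem noLossOut : NoLossOut := by
  intro N d F _ _ hfin M S hRep hAn ι ty hC hCov
  exact AJ.noLossAll M S hRep (fun S' => AD.locAll S') (fun e T' h => hAn.ic e T' h) hfin _ _ _ _ _ ty hC hCov

end Vale.Agent.P353.Z.ASY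
end

section

/-! # P353, all `N`, block REP: unconditional outputs -/

open MeasureTheory Filter Topology
open scoped ContDiff

namespace Vale.Agent.P353.AN.REP.All

open Vale.Agent.P353.Z Vale.Agent.P353.Z.U Vale.Agent.P353.Z.AN Vale.Agent.P353.AN.G

variable {N d : ℕ} {F : Type*} [NormedAddCommGroup F] [InnerProductSpace ℂ F] (M : BFSS.Model N d F) (S : Setup d F)

theorem core : CoreStmt M := core_stmt M
theorem ipr : IprStmt M := ipr_stmt M (core M)
theorem apx : ApxStmt S := apx_stmt S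
theorem wn : WnStmt S := wn_stmt S
theorem one : OneStmt M := one_stmt M (fun S => ⟨Vale.Agent.P353.Z.AN.All.gluK S, apx S, wn S⟩) (ipr M)
theorem disj : DisjOStmt M := disjO_stmt M

end Vale.Agent.P353.AN.REP.All
end

section

/-! # P353, all `N`, block SY: representatives of the functionals of the concrete weak profile system (fields `inv`, `supp`, `disj`, `rep`) -/

open MeasureTheory Filter Topology Matrix
open scoped ContDiff

namespace Vale.Agent.P353.Z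

/-- `PW.Rep` without the lower bound -/
structure PW.RepA {d : ℕ} {F : Type*} [NormedAddCommGroup F] [InnerProductSpace ℂ F] {S : Setup d F} {ι : Type} (P : PW S ι)
    (J : ∀ i, P.D i → ℝ → ℝ → Cfg d → F) : Prop where
  inv : ∀ i (a : P.D i) (ε : ℝ), 0 < ε → ∀ᶠ R in atTop, S.GInv (J i a ε R)
  supp : ∀ i (a : P.D i) (ε : ℝ), 0 < ε → ∃ c : ℝ, 0 < c ∧ ∀ᶠ R in atTop, ∀ x : Cfg d, ‖x‖ ≤ c * R → J i a ε R x = 0
  disj : ∀ i j, i ≠ j → ∀ (a : P.D i) (b : P.D j) (ε ε' : ℝ), 0 < ε → 0 < ε' → ∀ᶠ R in atTop, ∀ x : Cfg d,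
    J i a ε R x = 0 ∨ J j b ε' R x = 0
  rep : ∀ i (a : P.D i) (ε : ℝ), 0 < ε → ∀ (R : ℕ → ℝ) (u : ℕ → Cfg d → F) (A : ℝ), BdL S R u A →
    ∀ᶠ n in atTop, ‖ipr (J i a ε (R n)) (u n) - ipr (P.Z i (R n) a) (u n)‖ ≤ ε * Real.sqrt A

namespace ASY

open Vale.Agent.P353.Z.AJK

variable {N d k : ℕ} {F : Type} [NormedAddCommGroup F] [InnerProductSpace ℂ F]

/-- `Reg ⊆ Rg` -/
theorem rpt_reg {dh dm r ds : ℕ} (S : Setup d F) (φ : Spl dh dm d) (ψ : Spl r ds dh) : AN.Reg S φ ψ ⊆ AL.Rg S φ ψ := by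
  intro η hη hdet
  obtain ⟨v, hv, h0⟩ := Matrix.exists_mulVec_eq_zero_iff.2 hdet
  refine hv (hη v ?_)
  have h1 : ∑ i, (S.Dz φ ψ η i *ᵥ v) ⬝ᵥ (S.Dz φ ψ η i *ᵥ v) = 0 := by
    have h2 : v ⬝ᵥ ((∑ i, S.Dz φ ψ η i * S.Dz φ ψ η i) *ᵥ v) = 0 := by rw [h0, dotProduct_zero]
    rw [Matrix.sum_mulVec, dotProduct_sum] at h2
    have h3 : ∀ i, v ⬝ᵥ ((S.Dz φ ψ η i * S.Dz φ ψ η i) *ᵥ v) = -((S.Dz φ ψ η i *ᵥ v) ⬝ᵥ (S.Dz φ ψ η i *ᵥ v)) := by
      intro i
      have ha : (S.Dz φ ψ η i).transpose = -S.Dz φ ψ η i := AN.glk_anti S φ ψ η i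
      rw [← Matrix.mulVec_mulVec, Matrix.dotProduct_mulVec, ← Matrix.mulVec_transpose, ha, Matrix.neg_mulVec, neg_dotProduct]
    simp only [h3, Finset.sum_neg_distrib, neg_eq_zero] at h2
    exact h2
  intro i
  have hnn : ∀ w : Fin dm → ℝ, 0 ≤ w ⬝ᵥ w := fun w => Finset.sum_nonneg fun j _ => mul_self_nonneg (w j)
  have h4 := (Finset.sum_eq_zero_iff_of_nonneg fun i _ => hnn (S.Dz φ ψ η i *ᵥ v)).1 h1 i (Finset.mem_univ i)
  exact dotProduct_self_eq_zero.1 h4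

lemma rpt_cont {dh dm r ds : ℕ} {S : Setup d F} {φ : Spl dh dm d} {ψ : Spl r ds dh} {L : Finset (Fin r → ℝ)}
    {Om : Cfg r → Matrix (Fin dm) (Fin dm) ℝ} {K : Submodule ℂ F} {U : Cfg r → F →L[ℂ] F}
    (hB : AX.Bun S φ (AX.Mz S φ (spsw ψ)) L Om K U) :
    ContinuousOn Om (AN.Reg S φ ψ) ∧ ∀ η ∈ AN.Reg S φ ψ, IsOm S.κ (AN.Dz S φ ψ η) (Om η) := by
  have hdet : ∀ η ∈ AN.Reg S φ ψ, (∑ i, DM (AX.Mz S φ (spsw ψ)) η i * DM (AX.Mz S φ (spsw ψ)) η i).det ≠ 0 := by
    intro η hη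
    have h := rpt_reg S φ ψ hη
    simp only [AL.Rg, Set.mem_ofPred_eq] at h
    simp only [AX.DM_Dz]
    exact h
  refine ⟨?_, fun η hη => ?_⟩
  · refine continuousOn_pi.2 fun A => continuousOn_pi.2 fun B => ?_
    exact (hB.om_smooth A B).continuousOn.mono fun η hη => hdet η hη
  · have h := hB.om η (hdet η hη)
    have e : DM (AX.Mz S φ (spsw ψ)) η = AN.Dz S φ ψ η := by
      exact AX.DM_Dz S φ ψ η
    rwa [e] at h

/-- representatives for one type -/
theorem rpt_one (hfin : FiniteDimensional ℂ F) {M : BFSS.Model N d F} {S : Setup d F} {n : Fin k → ℕ} (t : TyD M S n)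
    (hIso : AL.IsoStmt t.ty.S') (a : DL t.ty.r (AL.Ek t.ty.n) t.ty.L) {ε : ℝ} (hε : 0 < ε) :
    ∃ b : Cfg t.D.dz × Cfg t.D.ds × Cfg t.D.dm → F, AN.REP.IsB t.D.S' t.D.φ (spsw t.D.ψ) b ∧
      (∀ R : ℝ, 0 < R → t.D.S'.GInv (AN.G.avg t.D.M' (AN.Zb t.D.φ (spsw t.D.ψ) b R))) ∧
      (∃ c : ℝ, 0 < c ∧ ∀ᶠ R in atTop, ∀ x : Cfg d, ‖x‖ ≤ c * R → AN.G.avg t.D.M' (AN.Zb t.D.φ (spsw t.D.ψ) b R) x = 0) ∧
      ∀ (R : ℕ → ℝ) (u : ℕ → Cfg d → F) (A : ℝ), BdL t.D.S' R u A → ∀ᶠ n in atTop,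
        ‖ipr (AN.G.avg t.D.M' (AN.Zb t.D.φ (spsw t.D.ψ) b (R n))) (u n) -
          AL.ZZ S.κ t.ty.φ t.ty.ψ t.ty.Om (AL.sc t.ty.U t.ty.o (rp a)) (R n) (u n)‖ ≤ ε * Real.sqrt A := by
  have hA : IsCompact (tsupport (rp a)) := (rp_tst a).1.2
  have hR : tsupport (rp a) ⊆ AL.Rg t.ty.S' t.ty.φ t.ty.ψ := sub_Rg t.ty (rp_tst a).2
  have hs := (sec2 t.ty hIso a hA (rp_tst a).2 subset_rfl).1
  obtain ⟨a', ham, ha2, -, hZ⟩ := AL.crd655_rep S.κ t.ty.φ t.ty.ψ t.ty.Om hA.isClosed.measurableSet hs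
  obtain ⟨hOc, hOI⟩ := rpt_cont t.dat.bun
  obtain ⟨b, h1, -, h3, h4, h5⟩ := AN.REP.All.one t.D.M' hfin t.D.S' t.D.rep t.D.dh t.D.dm t.D.dz t.D.ds t.D.φ (spsw t.D.ψ)
    t.dat.sub t.dat.cen t.pos t.ty.Om hOc hOI (fun R q => AL.chi R q) (AE.chiS _ _ _) a' (tsupport (rp a)) hA
    (hR.trans (AL.crd655_reg _ _ _)) ham ha2.1 ha2.2 ε hε
  refine ⟨b, h1, h3, h4, fun R u A hu => ?_⟩
  filter_upwards [h5 R u A hu, hu.R_lim.eventually_gt_atTop 0] with n hn hRn
  rw [← hZ (R n) hRn (u n)]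
  exact hn

lemma rpt_rox (O : Matrix (Fin d) (Fin d) ℝ) (x : Cfg d) : rox 1 O x = ro O x := by
  ext ⟨i, A⟩
  rw [AN.rt_apply]
  show _ = ∑ B, O A B * x (i, B)
  rw [Finset.sum_eq_single i]
  · simp
  · intro j _ hj
    simp [Matrix.one_apply_ne hj.symm]
  · intro h
    exact absurd (Finset.mem_univ _) h

lemma rpt_avg {M : BFSS.Model N d F} {S : Setup d F} {n : Fin k → ℕ} (D : FrM M S n) (f : Cfg d → F) (x : Cfg d) :
    AN.G.avg D.M' f (rox 1 D.O x) = AN.G.avg M (fun y => f (rox 1 D.O y)) x := by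
  unfold AN.G.avg
  rw [D.S_eq]
  refine integral_congr_ae (ae_of_all _ fun U => ?_)
  show M.S U (f (D.M'.act U⁻¹ (rox 1 D.O x))) = M.S U (f (rox 1 D.O (M.act U⁻¹ x)))
  rw [rpt_rox, rpt_rox, D.act_eq]

lemma rpt_ginv {S : Setup d F} {O : Matrix (Fin d) (Fin d) ℝ} (hO : O * O.transpose = 1) {v : Cfg d → F}
    (hv : (S.rot 1 h91 O hO).GInv v) : S.GInv (fun x => v (rox 1 O x)) := by
  have hL : ContDiff ℝ ∞ (rox 1 O : Cfg d → Cfg d) := (LinearMap.toContinuousLinearMap (AN.rtL 1 O)).contDiff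
  refine ⟨⟨hv.1.1.comp hL, ?_⟩, fun B x => ?_⟩
  · exact hv.1.2.comp_homeomorph (AN.rtE 1 h91 O hO).toHomeomorph
  · obtain ⟨-, -, -, -, -, -, hG⟩ := AN.rot_stmt S 1 h91 O hO
    have h1 : ∀ C, ∑ C', (O C C' : ℂ) • S.G C' (fun z => v (rox 1 O z)) x = 0 := by
      intro C
      rw [← hG v (hv.1.1.differentiable (by simp)) C x]
      exact hv.2 C _
    have h2 := AN.rt_one (K := ℂ) (fun A B => ((O A B : ℝ) : ℂ)) (fun k l => AN.rt_orthc hO k l) B
      fun C' => S.G C' (fun z => v (rox 1 O z)) x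
    rw [← h2]
    refine Finset.sum_eq_zero fun A _ => ?_
    rw [h1 A, smul_zero]

/-- representative attached to a profile -/
noncomputable def rptJ {M : BFSS.Model N d F} {S : Setup d F} {n : Fin k → ℕ} (t : TyD M S n)
    (b : Cfg t.D.dz × Cfg t.D.ds × Cfg t.D.dm → F) (R : ℝ) (x : Cfg d) : F :=
  AN.G.avg t.D.M' (AN.Zb t.D.φ (spsw t.D.ψ) b R) (rox 1 t.D.O x)

lemma rptJ_eq {M : BFSS.Model N d F} {S : Setup d F} {n : Fin k → ℕ} (t : TyD M S n)
    (b : Cfg t.D.dz × Cfg t.D.ds × Cfg t.D.dm → F) (R : ℝ) (x : Cfg d) :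
    rptJ t b R x = AN.G.avg M (fun y => AN.Zb t.D.φ (spsw t.D.ψ) b R (rox 1 t.D.O y)) x := rpt_avg t.D _ x

/-- the orthogonal change of the colour frame as a linear equivalence -/
noncomputable def rptA (O : Matrix (Fin d) (Fin d) ℝ) (hO : O * O.transpose = 1) : Cfg d ≃L[ℝ] Cfg d :=
  (AN.rtE 1 h91 O hO).toContinuousLinearEquiv

lemma rptA_apply (O : Matrix (Fin d) (Fin d) ℝ) (hO : O * O.transpose = 1) (x : Cfg d) : rptA O hO x = rox 1 O x := rfl

lemma rptA_symm (O : Matrix (Fin d) (Fin d) ℝ) (hO : O * O.transpose = 1) (x : Cfg d) :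
    (rptA O hO).symm x = ro O.transpose x := by
  rw [ContinuousLinearEquiv.symm_apply_eq, rptA_apply, rpt_rox]
  have hO' : O.transpose * O = 1 := mul_eq_one_comm.1 hO
  have h := AN.rt_inv (R := 1) h91 (O := O.transpose) (by rw [Matrix.transpose_transpose]; exact hO') x
  rw [Matrix.transpose_one, Matrix.transpose_transpose, rpt_rox, rpt_rox] at h
  exact h.symm

/-- **fields `inv`, `supp`, `disj`, `rep` of the concrete system** -/
theorem repA (hfin : FiniteDimensional ℂ F) {M : BFSS.Model N d F} {S : Setup d F} (hRot : AE.RotOStmt S)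
    (hIso : ∀ S' : Setup d F, AL.IsoStmt S') (hLin : ∀ S' : Setup d F, AL.LinStmt S') (hZ : ∀ S' : Setup d F, AL.ZMemStmt S')
    (hUB : ∀ S' : Setup d F, AL.UBStmt S') (hC : AN.Cless S) (hA : Alg) (TD : ∀ p : Typ N, TyD M S (pn p.1)) :
    ∃ J, (pwT hfin hRot hIso hLin hZ hUB (fun p : Typ N => (TD p).ty) hC).RepA J := by
  classical
  have H := fun (p : Typ N) (a : DL (TD p).ty.r (AL.Ek (TD p).ty.n) (TD p).ty.L) (ε : ℝ) (hε : 0 < ε) =>
    rpt_one hfin (TD p) (hIso _) a hε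
  choose b h1 h2 h3 h4 using H
  refine ⟨fun p a ε R => if h : 0 < ε then rptJ (TD p) (b p a ε h) R else 0, ⟨?_, ?_, ?_, ?_⟩⟩
  · intro p a ε hε
    filter_upwards [eventually_gt_atTop (0 : ℝ)] with R hR
    rw [dif_pos hε]
    exact rpt_ginv (TD p).D.hO (h2 p a ε hε R hR)
  · intro p a ε hε
    obtain ⟨c, hc, h⟩ := h3 p a ε hε
    refine ⟨c, hc, ?_⟩
    filter_upwards [h] with R hR x hx
    rw [dif_pos hε]
    refine hR _ ?_
    rw [AN.rt_norm h91 (TD p).D.hO]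
    exact hx
  · intro p q hpq a a' ε ε' hε hε'
    have hreg : ∀ (p : Typ N) (η : Cfg (TD p).D.dz), η ∈ AN.Reg (TD p).D.S' (TD p).D.φ (spsw (TD p).D.ψ) →
        ∀ a b, a ≠ b → ∃ i : Fin 9, (TD p).D.fr.val η i a ≠ (TD p).D.fr.val η i b := by
      intro p η hη
      exact ((hA.pt M S _ _ (TD p).D (hA.val _ _) (hA.reg _ _) (hA.std _ _) hA.basM).2.2 η).1 (rpt_reg _ _ _ hη)
    have hne : p.1 ≠ q.1 := fun h => hpq (Subtype.ext h)
    have h := AN.REP.All.disj M _ _ _ _ _ _ _ _ (TD p).D.φ (spsw (TD p).D.ψ) (TD q).D.φ (spsw (TD q).D.ψ)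
      (rptA (TD p).D.O (TD p).D.hO) (rptA (TD q).D.O (TD q).D.hO)
      (AN.Reg (TD p).D.S' (TD p).D.φ (spsw (TD p).D.ψ)) (AN.Reg (TD q).D.S' (TD q).D.φ (spsw (TD q).D.ψ))
      (fun η hη η' hη' U => by
        rw [rptA_symm, rptA_symm]
        exact hA.sep M S p.1 q.1 hne (TD p).D (TD q).D η η' (hreg p η hη) (hreg q η' hη') U)
      (b p a ε hε) (b q a' ε' hε') (h1 p a ε hε).cs (h1 p a ε hε).reg (h1 q a' ε' hε').cs (h1 q a' ε' hε').reg
    filter_upwards [h] with R hR x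
    rw [dif_pos hε, dif_pos hε', rptJ_eq, rptJ_eq]
    exact hR x
  · intro p a ε hε R u A hu
    have hu' : BdL (TD p).D.S' R (fun n => tr (TD p).ty.O (u n)) A :=
      ⟨hu.R_lim, fun n => (tr_GInv (TD p).ty hRot (hu.inv n)).1, fun n => (tr_GInv (TD p).ty hRot (hu.inv n)).2.trans_le (hu.norm n)⟩
    filter_upwards [h4 p a ε hε R _ A hu'] with n hn
    rw [dif_pos hε]
    have e1 : ipr (rptJ (TD p) (b p a ε hε) (R n)) (u n) =
        ipr (AN.G.avg (TD p).D.M' (AN.Zb (TD p).D.φ (spsw (TD p).D.ψ) (b p a ε hε) (R n))) (tr (TD p).ty.O (u n)) :=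
      (hRot h91 (TD p).D.O (TD p).D.hO).2.2 (AN.G.avg (TD p).D.M' (AN.Zb (TD p).D.φ (spsw (TD p).D.ψ) (b p a ε hε) (R n))) (u n)
    have e2 := ipr_ZT (TD p).ty hRot (R n) a (u n)
    rw [e1]
    change ‖_ - ipr (ZT (TD p).ty (R n) a) (u n)‖ ≤ _
    rw [e2]
    exact hn

end ASY

end Vale.Agent.P353.Z
end

section

/-! # P353, all `N`: lower bound for the averages of smooth profiles (helper647) -/

open MeasureTheory Filter Topology
open scoped ContDiff Manifold ENNReal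

namespace Vale.Agent.P353.AN.LWT

open Vale.Agent.P353.Z Vale.Agent.P353.Z.U Vale.Agent.P353.Z.AN Vale.Agent.P353.AN.G Vale.Agent.P353.AN.REP

variable {N d dh dm r ds : ℕ} {F : Type*} [NormedAddCommGroup F] [InnerProductSpace ℂ F]

/-- approximation by smooth profiles with a common compact support -/
lemma lwt_apx (S : Setup d F) (φ : Spl dh dm d) (ψ : Spz r ds dh) {b : Cfg r × Cfg ds × Cfg dm → F} (hb : Continuous b)
    (hbs : HasCompactSupport b) (L : Set (Cfg r)) (hL : ∀ q ∈ tsupport b, q.1 ∈ interior L) (hLR : L ⊆ Reg S φ ψ) :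
    ∃ Q : Set (Cfg r × Cfg ds × Cfg dm), IsCompact Q ∧ (∀ q ∈ Q, q.1 ∈ L) ∧ ∀ ε : ℝ, 0 < ε → ∃ β, IsB S φ ψ β ∧
      (∀ q, β q ≠ 0 → q ∈ Q) ∧ eLpNorm (fun q => β q - b q) 2 (wM r ds dm) ≤ ENNReal.ofReal ε := by
  have := rx_lf r ds dm
  have hU : IsOpen {q : Cfg r × Cfg ds × Cfg dm | q.1 ∈ interior L} := isOpen_interior.preimage continuous_fst
  obtain ⟨Q, hQ, hbQ, hQU⟩ := exists_compact_between hbs.isCompact hU hL
  obtain ⟨χ, hχ0, hχ1, hχ⟩ := exists_contMDiffMap_zero_one_of_isClosed (n := ⊤) 𝓘(ℝ, Cfg r × Cfg ds × Cfg dm)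
    (isOpen_interior (s := Q)).isClosed_compl hbs.isCompact.isClosed
    (Set.disjoint_left.2 fun x hx hx' => hx (hbQ hx'))
  have hχs : ContDiff ℝ ∞ (χ : Cfg r × Cfg ds × Cfg dm → ℝ) := χ.contMDiff.contDiff
  refine ⟨Q, hQ, fun q hq => interior_subset (hQU hq), fun ε hε => ?_⟩
  have hbm : MemLp b 2 (wM r ds dm) := hb.memLp_of_hasCompactSupport hbs
  obtain ⟨g, hg1, hg2, hg3⟩ := hbm.exist_eLpNorm_sub_le (by norm_num) (by norm_num) hε
  have hsupp : ∀ q : Cfg r × Cfg ds × Cfg dm, χ q • g q ≠ 0 → q ∈ Q := by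
    intro q hq
    by_contra hn
    refine hq ?_
    have h1 : q ∉ interior Q := fun h => hn (interior_subset h)
    have h2 : χ q = 0 := hχ0 h1
    rw [h2, zero_smul]
  refine ⟨fun q => χ q • g q, ⟨hχs.smul hg2, hg1.smul_left, fun q hq => ?_⟩, hsupp, ?_⟩
  · have h1 : q ∈ Q := closure_minimal (fun p hp => hsupp p hp) hQ.isClosed hq
    exact hLR (interior_subset (hQU h1))
  · refine le_trans (eLpNorm_mono (g := b - g) fun q => ?_) hg3
    have h1 : χ q • b q = b q := by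
      by_cases h : b q = 0
      · simp [h]
      · rw [show χ q = 1 from hχ1 (subset_tsupport _ h), one_smul]
    have h2 : χ q • g q - b q = χ q • (g q - b q) := by rw [smul_sub, h1]
    rw [h2, norm_smul, Pi.sub_apply, norm_sub_rev (b q)]
    refine mul_le_of_le_one_left (norm_nonneg _) ?_
    rw [Real.norm_eq_abs, abs_le]
    exact ⟨by linarith [(hχ q).1], (hχ q).2⟩

lemma lwt_nrm {f : Cfg d → F} (hf : MemLp f 2 (volume : Measure (Cfg d))) :
    eLpNorm f 2 (volume : Measure (Cfg d)) = ENNReal.ofReal (Real.sqrt (nsq f)) := by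
  have h2 := glu_real_sq hf
  have h5 : (eLpNorm f 2 (volume : Measure (Cfg d))).toReal ^ 2 = nsq f := by
    rw [← ENNReal.toReal_pow, ← h2]
    exact ENNReal.toReal_ofReal (nsq_nonneg f)
  rw [← h5, Real.sqrt_sq ENNReal.toReal_nonneg, ENNReal.ofReal_toReal hf.2.ne]

/-- Cauchy–Schwarz -/
lemma lwt_cs {f g : Cfg d → F} (hf : MemLp f 2 (volume : Measure (Cfg d))) (hg : MemLp g 2 (volume : Measure (Cfg d))) :
    ‖∫ x, (inner ℂ (f x) (g x) : ℂ)‖ ≤ Real.sqrt (nsq f) * Real.sqrt (nsq g) := by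
  have h1 := glu_cs (μ := (volume : Measure (Cfg d))) hf.1 hg.1
  rw [lwt_nrm hf, lwt_nrm hg, ← ENNReal.ofReal_mul (Real.sqrt_nonneg _), ← ofReal_norm] at h1
  exact (ENNReal.ofReal_le_ofReal_iff (by positivity)).1 h1

lemma lwt_self (f : Cfg d → F) : (∫ x, (inner ℂ (f x) (f x) : ℂ)) = ((nsq f : ℝ) : ℂ) := by
  unfold nsq
  rw [← integral_complex_ofReal]
  refine integral_congr_ae (Eventually.of_forall fun x => ?_)
  show inner ℂ (f x) (f x) = ((‖f x‖ ^ 2 : ℝ) : ℂ)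
  rw [inner_self_eq_norm_sq_to_K]
  push_cast
  rfl

lemma lwt_avg_cont [FiniteDimensional ℂ F] (M : BFSS.Model N d F) {f : Cfg d → F} (hf : Continuous f) : Continuous (avg M f) := by
  have h := AvgG.tr_cont M (act_stmt M) hf
  have h1 : Continuous (Function.uncurry fun (x : Cfg d) (U : BFSS.SU N) => M.S U (f (M.act U⁻¹ x))) :=
    h.comp (continuous_snd.prodMk continuous_fst)
  have h2 := continuous_parametric_integral_of_continuous (μ := hm N) h1 isCompact_univ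
  simp only [Measure.restrict_univ] at h2
  exact h2

lemma lwt_avg_cs (M : BFSS.Model N d F) {f : Cfg d → F} (hf : HasCompactSupport f) : HasCompactSupport (avg M f) := by
  obtain ⟨ρ, hρ⟩ := hf.isCompact.isBounded.subset_closedBall (0 : Cfg d)
  refine HasCompactSupport.intro (isCompact_closedBall (0 : Cfg d) ρ) fun x hx => ?_
  unfold avg
  have h1 : ∀ U : BFSS.SU N, M.S U (f (M.act U⁻¹ x)) = 0 := by
    intro U
    have h2 : f (M.act U⁻¹ x) = 0 := by
      by_contra hne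
      have h3 := hρ (subset_tsupport _ hne)
      rw [mem_closedBall_zero_iff, (act_stmt M).2.2.2.2.1 U⁻¹ x] at h3
      exact hx (mem_closedBall_zero_iff.2 h3)
    rw [h2, map_zero]
  simp [h1]

lemma lwt_le_of_sq {w f : ℝ} (hw : 0 ≤ w) (hf : 0 ≤ f) (h : w ≤ Real.sqrt w * f) : w ≤ f ^ 2 := by
  have h1 := Real.sqrt_nonneg w
  have h2 := Real.sq_sqrt hw
  by_cases h0 : Real.sqrt w = 0
  · rw [h0, zero_mul] at h
    exact h.trans (sq_nonneg f)
  · have h3 : 0 < Real.sqrt w := lt_of_le_of_ne h1 (Ne.symm h0)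
    have h4 : Real.sqrt w ≤ f := by
      have h5 : Real.sqrt w * Real.sqrt w ≤ Real.sqrt w * f := by nlinarith
      exact le_of_mul_le_mul_left h5 h3
    nlinarith

/-- averages are contractions in `L²` -/
lemma lwt_avg_le [FiniteDimensional ℂ F] (M : BFSS.Model N d F) {f : Cfg d → F} (hf : Continuous f) (hfs : HasCompactSupport f) :
    nsq (avg M f) ≤ nsq f := by
  have hc := lwt_avg_cont M hf
  have hs := lwt_avg_cs M hfs
  have h1 := ipr_pair M (act_stmt M) hf hc hs (fun U x => avgC_act M (act_stmt M) f U x)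
  rw [lwt_self] at h1
  have h2 := lwt_cs (hc.memLp_of_hasCompactSupport (p := 2) (μ := (volume : Measure (Cfg d))) hs)
    (hf.memLp_of_hasCompactSupport (p := 2) (μ := (volume : Measure (Cfg d))) hfs)
  rw [← h1, Complex.norm_real, Real.norm_eq_abs, abs_of_nonneg (nsq_nonneg _)] at h2
  have h3 := lwt_le_of_sq (nsq_nonneg (avg M f)) (Real.sqrt_nonneg _) h2
  rwa [Real.sq_sqrt (nsq_nonneg f)] at h3

/-- the uniform bound over `L` -/
def GKc (S : Setup d F) (φ : Spl dh dm d) (ψ : Spz r ds dh) (L : Set (Cfg r)) (δ C R₁ : ℝ) : Prop :=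
  ∀ R : ℝ, R₁ ≤ R → ∀ b : Cfg r × Cfg ds × Cfg dm → F, StronglyMeasurable b →
  (∀ q, b q ≠ 0 → q.1 ∈ L ∧ ‖q.2.1‖ ≤ δ * R ∧ ‖q.2.2‖ ≤ δ * (R * Real.sqrt R)) → MemLp b 2 (wM r ds dm) →
  ∀ u : Cfg d → F, Setup.Tst u → (∀ C x, S.G C u x = 0) →
    ‖∫ x, inner ℂ (Zb φ ψ b R x) (u x)‖ₑ ≤ ENNReal.ofReal C * eLpNorm b 2 (wM r ds dm) * eLpNorm u 2 volume

/-- real form -/
lemma lwt_gk {S : Setup d F} {φ : Spl dh dm d} {ψ : Spz r ds dh} {L : Set (Cfg r)} {δ C R₁ : ℝ} (hC : 0 < C)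
    (hK : GKc S φ ψ L δ C R₁) {R : ℝ} (hR : R₁ ≤ R) {b : Cfg r × Cfg ds × Cfg dm → F} (hb : StronglyMeasurable b)
    (hs : ∀ q, b q ≠ 0 → q.1 ∈ L ∧ ‖q.2.1‖ ≤ δ * R ∧ ‖q.2.2‖ ≤ δ * (R * Real.sqrt R)) {B : ℝ} (hB : 0 ≤ B)
    (hn : eLpNorm b 2 (wM r ds dm) ≤ ENNReal.ofReal B) {u : Cfg d → F} (hu : S.GInv u) :
    ‖ipr (Zb φ ψ b R) u‖ ≤ C * B * Real.sqrt (nsq u) := by
  have h := hK R hR b hb hs ⟨hb.aestronglyMeasurable, lt_of_le_of_lt hn ENNReal.ofReal_lt_top⟩ u hu.1 hu.2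
  rw [lwt_nrm hu.1.memLp, ← ofReal_norm] at h
  have h2 : ENNReal.ofReal C * eLpNorm b 2 (wM r ds dm) * ENNReal.ofReal (Real.sqrt (nsq u)) ≤
      ENNReal.ofReal (C * B * Real.sqrt (nsq u)) := by
    rw [ENNReal.ofReal_mul (by positivity), ENNReal.ofReal_mul hC.le]
    gcongr
  exact (ENNReal.ofReal_le_ofReal_iff (by positivity)).1 (h.trans h2)

/-- averages of smooth profiles are bounded by the weighted norm -/
lemma lwt_up (M : BFSS.Model N d F) (hF : FiniteDimensional ℂ F) {S : Setup d F} (hM : Rep M S) {φ : Spl dh dm d}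
    {ψ : Spz r ds dh} {L : Set (Cfg r)} {δ C R₁ : ℝ} (hC : 0 < C)
    (hK : GKc S φ ψ L δ C R₁) {R : ℝ} (hR0 : 0 < R) (hR : R₁ ≤ R) {b : Cfg r × Cfg ds × Cfg dm → F} (hb : IsB S φ ψ b)
    (hs : ∀ q, b q ≠ 0 → q.1 ∈ L ∧ ‖q.2.1‖ ≤ δ * R ∧ ‖q.2.2‖ ≤ δ * (R * Real.sqrt R)) {B : ℝ} (hB : 0 ≤ B)
    (hn : eLpNorm b 2 (wM r ds dm) ≤ ENNReal.ofReal B) : nsq (avg M (Zb φ ψ b R)) ≤ (C * B) ^ 2 := by
  obtain ⟨h1, h2⟩ := REP.All.ipr M hF S hM (Zb φ ψ b R) (ob_tst φ ψ b hb.sm hb.cs R hR0)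
  have h3 := lwt_gk hC hK hR hb.sm.continuous.stronglyMeasurable hs hB hn h1
  rw [← h2 _ h1] at h3
  have h4 : ipr (avg M (Zb φ ψ b R)) (avg M (Zb φ ψ b R)) = ((nsq (avg M (Zb φ ψ b R)) : ℝ) : ℂ) := lwt_self _
  rw [h4, Complex.norm_real, Real.norm_eq_abs, abs_of_nonneg (nsq_nonneg _)] at h3
  exact lwt_le_of_sq (nsq_nonneg _) (by positivity) (by linarith)

/-- scaling at fixed `R` -/
lemma lwt_scale (φ : Spl dh dm d) (ψ : Spz r ds dh) {R : ℝ} (hR : 0 < R) : ∃ c : ℝ, 0 ≤ c ∧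
    ∀ f : Cfg r × Cfg ds × Cfg dm → F, StronglyMeasurable f → ∀ B : ℝ, 0 ≤ B → eLpNorm f 2 (wM r ds dm) ≤ ENNReal.ofReal B →
      nsq (Zb φ ψ f R) ≤ c * B ^ 2 := by
  obtain ⟨-, h, -⟩ := LW.scl d dh dm r ds φ ψ R hR
  set p : ℝ := R ^ (3 * (dm : ℝ) - 9 * (r : ℝ) / 2) with hp
  have hp0 : 0 < p := Real.rpow_pos_of_pos hR _
  set q : ℝ := R ^ (9 * (r : ℝ) - 9 * (dm : ℝ) / 2) with hq
  have hq0 : 0 < q := Real.rpow_pos_of_pos hR _
  refine ⟨p ^ 2 * q, by positivity, fun f hf B hB hn => ?_⟩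
  have hfm : MemLp f 2 (wM r ds dm) := ⟨hf.aestronglyMeasurable, lt_of_le_of_lt hn ENNReal.ofReal_lt_top⟩
  have hz := glu_real_sq (glu_memLp φ ψ R hR (hfm.mono_measure (glu_w_le r ds dm)))
  rw [← glu_sq] at hz
  have h1 : ∫⁻ x, ‖Zb φ ψ f R x‖ₑ ^ 2 = ENNReal.ofReal (p ^ 2) * ∫⁻ x, ‖f (LW.sc φ ψ R x)‖ₑ ^ 2 := by
    rw [← lintegral_const_mul' _ _ ENNReal.ofReal_ne_top]
    refine lintegral_congr fun x => ?_
    show ‖((p : ℝ) : ℂ) • f (LW.sc φ ψ R x)‖ₑ ^ 2 = _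
    rw [enorm_smul, mul_pow, ← ofReal_norm, Complex.norm_real, Real.norm_eq_abs, abs_of_pos hp0,
      ← ENNReal.ofReal_pow hp0.le]
  rw [h1, h (fun q => ‖f q‖ₑ ^ 2) (hf.enorm.pow_const 2)] at hz
  have h2 : ∫⁻ q, ‖f q‖ₑ ^ 2 ∂(LW.v3 r ds dm) ≤ ENNReal.ofReal (B ^ 2) := by
    refine le_trans (lintegral_mono' (glu_w_le r ds dm) le_rfl) ?_
    rw [glu_sq, ENNReal.ofReal_pow hB]
    gcongr
  have h3 : ENNReal.ofReal (nsq (Zb φ ψ f R)) ≤ ENNReal.ofReal (p ^ 2 * q * B ^ 2) := by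
    rw [mul_assoc, ENNReal.ofReal_mul (by positivity), ENNReal.ofReal_mul hq0.le]
    refine le_trans (le_of_eq hz) ?_
    gcongr
  exact (ENNReal.ofReal_le_ofReal_iff (by positivity)).1 h3

lemma lwt_avg_add [FiniteDimensional ℂ F] (M : BFSS.Model N d F) {f g : Cfg d → F} (hf : Continuous f) (hg : Continuous g) :
    avg M (fun x => f x + g x) = fun x => avg M f x + avg M g x := by
  funext x
  unfold avg
  rw [← integral_add]
  · refine integral_congr_ae (Eventually.of_forall fun U => ?_)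
    exact map_add _ _ _
  · exact (AvgG.tr_cont_left M (act_stmt M) hf x).integrable_of_hasCompactSupport (HasCompactSupport.of_compactSpace _)
  · exact (AvgG.tr_cont_left M (act_stmt M) hg x).integrable_of_hasCompactSupport (HasCompactSupport.of_compactSpace _)

lemma lwt_Zb_cont (φ : Spl dh dm d) (ψ : Spz r ds dh) {b : Cfg r × Cfg ds × Cfg dm → F} (hb : Continuous b) {R : ℝ}
    (hR : 0 < R) : Continuous (Zb φ ψ b R) := by
  have h : Continuous fun x : Cfg d => ((R ^ (3 * (dm : ℝ) - 9 * (r : ℝ) / 2) : ℝ) : ℂ) • b (gluTR φ ψ R hR x) :=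
    continuous_const.smul (hb.comp (gluTR φ ψ R hR).continuous)
  exact h

lemma lwt_Zb_cs (φ : Spl dh dm d) (ψ : Spz r ds dh) {b : Cfg r × Cfg ds × Cfg dm → F} (hb : HasCompactSupport b) {R : ℝ}
    (hR : 0 < R) : HasCompactSupport (Zb φ ψ b R) := by
  have h1 : HasCompactSupport (b ∘ (gluTR φ ψ R hR).toHomeomorph) := hb.comp_homeomorph _
  exact h1.smul_left (f := fun _ => ((R ^ (3 * (dm : ℝ) - 9 * (r : ℝ) / 2) : ℝ) : ℂ))

lemma lwt_Zb_sub (φ : Spl dh dm d) (ψ : Spz r ds dh) (b b' : Cfg r × Cfg ds × Cfg dm → F) (R : ℝ) :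
    Zb φ ψ b R = fun x => Zb φ ψ (fun q => b q - b' q) R x + Zb φ ψ b' R x := by
  funext x
  unfold Zb
  rw [← smul_add]
  simp only [sub_add_cancel]

/-- splitting of the average -/
lemma lwt_split [FiniteDimensional ℂ F] (M : BFSS.Model N d F) (φ : Spl dh dm d) (ψ : Spz r ds dh)
    {b b' : Cfg r × Cfg ds × Cfg dm → F} (hb : Continuous b) (hbs : HasCompactSupport b) (hb' : Continuous b')
    (hbs' : HasCompactSupport b') {R : ℝ} (hR : 0 < R) :
    nsq (avg M (Zb φ ψ b R)) ≤ 2 * nsq (avg M (Zb φ ψ (fun q => b q - b' q) R)) + 2 * nsq (avg M (Zb φ ψ b' R)) := by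
  have hc1 : Continuous (Zb φ ψ (fun q => b q - b' q) R) := lwt_Zb_cont φ ψ (hb.sub hb') hR
  have hc2 : Continuous (Zb φ ψ b' R) := lwt_Zb_cont φ ψ hb' hR
  have hs1 : HasCompactSupport (Zb φ ψ (fun q => b q - b' q) R) := lwt_Zb_cs φ ψ (hbs.sub hbs') hR
  have hs2 : HasCompactSupport (Zb φ ψ b' R) := lwt_Zb_cs φ ψ hbs' hR
  have h1 : avg M (Zb φ ψ b R) = fun x => avg M (Zb φ ψ (fun q => b q - b' q) R) x + avg M (Zb φ ψ b' R) x := by
    rw [lwt_Zb_sub φ ψ b b' R, lwt_avg_add M hc1 hc2]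
  rw [h1]
  exact nsq_add_le
    ((lwt_avg_cont M hc1).memLp_of_hasCompactSupport (p := 2) (μ := (volume : Measure (Cfg d))) (lwt_avg_cs M hs1))
    ((lwt_avg_cont M hc2).memLp_of_hasCompactSupport (p := 2) (μ := (volume : Measure (Cfg d))) (lwt_avg_cs M hs2))

lemma lwt_supp_ev {δ : ℝ} (hδ : 0 < δ) {Q : Set (Cfg r × Cfg ds × Cfg dm)} (hQ : IsCompact Q) :
    ∀ᶠ R : ℝ in atTop, ∀ q ∈ Q, ‖q.2.1‖ ≤ δ * R ∧ ‖q.2.2‖ ≤ δ * (R * Real.sqrt R) := by
  obtain ⟨m, hm⟩ := hQ.isBounded.exists_norm_le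
  filter_upwards [eventually_ge_atTop 1, (tendsto_id.const_mul_atTop hδ).eventually_ge_atTop m] with R h1 h2 q hq
  have h3 := hm q hq
  have h4 : ‖q.2.1‖ ≤ m := ((norm_fst_le q.2).trans (norm_snd_le q)).trans h3
  have h5 : ‖q.2.2‖ ≤ m := ((norm_snd_le q.2).trans (norm_snd_le q)).trans h3
  have h6 : 1 ≤ Real.sqrt R := Real.one_le_sqrt.2 h1
  have h7 : m ≤ δ * R := h2
  refine ⟨h4.trans h7, h5.trans (h7.trans (mul_le_mul_of_nonneg_left ?_ hδ.le))⟩
  nlinarith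

/-- **lower bound for the averages of a smooth profile** -/
theorem lwt_claim (M : BFSS.Model N d F) (hF : FiniteDimensional ℂ F) {S : Setup d F} (hM : Rep M S) {φ : Spl dh dm d}
    {ψ : Spz r ds dh} {L : Set (Cfg r)} (hLR : L ⊆ Reg S φ ψ) {δ C R₁ : ℝ} (hδ : 0 < δ) (hC : 0 < C)
    (hK : GKc S φ ψ L δ C R₁) {b : Cfg r × Cfg ds × Cfg dm → F} (hb : Continuous b) (hbs : HasCompactSupport b)
    (hbL : ∀ q ∈ tsupport b, q.1 ∈ interior L) {g : Cfg r × Cfg ds × Cfg dm → F} (hg : IsB S φ ψ g)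
    (hgL : ∀ q, g q ≠ 0 → q.1 ∈ L) {e c₁ R₀ : ℝ} (he : 0 < e) (hc₁ : 0 < c₁) (hec : 64 * (C * e) ^ 2 ≤ c₁)
    (hge : eLpNorm (fun q => b q - g q) 2 (wM r ds dm) ≤ ENNReal.ofReal e)
    (hlow : ∀ R : ℝ, R₀ ≤ R → c₁ ≤ nsq (avg M (Zb φ ψ b R))) :
    ∀ᶠ R in atTop, c₁ / 4 ≤ nsq (avg M (Zb φ ψ g R)) := by
  obtain ⟨Q, hQ, hQL, hap⟩ := lwt_apx S φ ψ hb hbs L hbL hLR
  filter_upwards [eventually_ge_atTop 1, eventually_ge_atTop R₀, eventually_ge_atTop R₁, lwt_supp_ev hδ hQ,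
    lwt_supp_ev hδ hg.cs.isCompact] with R h1 h2 h3 h4 h5
  have hR0 : 0 < R := by linarith
  obtain ⟨cR, hcR, hsc⟩ := lwt_scale (F := F) (r := r) (ds := ds) φ ψ hR0
  obtain ⟨e', he', hee', hce'⟩ : ∃ e' : ℝ, 0 < e' ∧ e' ≤ e ∧ cR * e' ^ 2 ≤ c₁ / 32 := by
    refine ⟨min e (Real.sqrt (c₁ / (32 * (cR + 1)))), lt_min he (Real.sqrt_pos.2 (by positivity)), min_le_left _ _, ?_⟩
    have h6 : (min e (Real.sqrt (c₁ / (32 * (cR + 1))))) ^ 2 ≤ c₁ / (32 * (cR + 1)) := by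
      have h7 : min e (Real.sqrt (c₁ / (32 * (cR + 1)))) ≤ Real.sqrt (c₁ / (32 * (cR + 1))) := min_le_right _ _
      calc _ ≤ (Real.sqrt (c₁ / (32 * (cR + 1)))) ^ 2 :=
            pow_le_pow_left₀ (le_min he.le (Real.sqrt_nonneg _)) h7 2
        _ = _ := Real.sq_sqrt (by positivity)
    calc cR * (min e (Real.sqrt (c₁ / (32 * (cR + 1))))) ^ 2 ≤ (cR + 1) * (c₁ / (32 * (cR + 1))) := by
          refine mul_le_mul (by linarith) h6 (by positivity) (by linarith)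
      _ = c₁ / 32 := by field_simp
  obtain ⟨β, hβ, hβQ, hβe⟩ := hap e' he'
  have hβc := hβ.sm.continuous
  have hgc := hg.sm.continuous
  -- difference `b - β`
  have n1 : nsq (avg M (Zb φ ψ (fun q => b q - β q) R)) ≤ c₁ / 32 := by
    have a1 := lwt_avg_le M (lwt_Zb_cont φ ψ (hb.sub hβc) hR0) (lwt_Zb_cs φ ψ (hbs.sub hβ.cs) hR0)
    have a2 : eLpNorm (fun q => b q - β q) 2 (wM r ds dm) ≤ ENNReal.ofReal e' := by
      refine le_trans (le_of_eq ?_) hβe
      refine eLpNorm_congr_norm_ae (Eventually.of_forall fun q => ?_)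
      exact norm_sub_rev _ _
    exact a1.trans ((hsc _ (hb.sub hβc).stronglyMeasurable e' he'.le a2).trans hce')
  -- difference `β - g`
  have hβg : IsB S φ ψ (fun q => β q - g q) := by
    refine ⟨hβ.sm.sub hg.sm, hβ.cs.sub hg.cs, fun q hq => ?_⟩
    have h6 : q ∈ tsupport β ∪ tsupport g := tsupport_sub β g hq
    rcases h6 with h6 | h6
    · exact hβ.reg q h6
    · exact hg.reg q h6
  have n2 : nsq (avg M (Zb φ ψ (fun q => β q - g q) R)) ≤ c₁ / 16 := by
    have a2 : eLpNorm (fun q => β q - g q) 2 (wM r ds dm) ≤ ENNReal.ofReal (2 * e) := by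
      have a3 : (fun q => β q - g q) = (fun q => β q - b q) + fun q => b q - g q := by
        funext q
        simp
      rw [a3]
      refine (eLpNorm_add_le (hβc.sub hb).aestronglyMeasurable (hb.sub hgc).aestronglyMeasurable one_le_two).trans ?_
      refine (add_le_add hβe hge).trans ?_
      rw [← ENNReal.ofReal_add he'.le he.le]
      exact ENNReal.ofReal_le_ofReal (by linarith)
    have a4 := lwt_up M hF hM hC hK hR0 h3 hβg (fun q hq => by
      by_cases h0 : g q = 0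
      · have h7 : β q ≠ 0 := by
          intro h8
          exact hq (by simp [h0, h8])
        exact ⟨hQL q (hβQ q h7), h4 q (hβQ q h7)⟩
      · exact ⟨hgL q h0, h5 q (subset_tsupport _ h0)⟩) (by positivity : 0 ≤ 2 * e) a2
    nlinarith
  have s1 := lwt_split M φ ψ hb hbs hgc hg.cs hR0
  have s2 : nsq (avg M (Zb φ ψ (fun q => b q - g q) R)) ≤
      2 * nsq (avg M (Zb φ ψ (fun q => b q - g q - (β q - g q)) R)) + 2 * nsq (avg M (Zb φ ψ (fun q => β q - g q) R)) :=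
    lwt_split M φ ψ (hb.sub hgc) (hbs.sub hg.cs) (hβc.sub hgc) (hβ.cs.sub hg.cs) hR0
  have e3 : (fun q => b q - g q - (β q - g q)) = fun q => b q - β q := by
    funext q
    abel
  rw [e3] at s2
  have s3 := hlow R h2
  linarith

end Vale.Agent.P353.AN.LWT
end

section

/-! # P353, all `N`, block SY: comparison family for the lower bound of the representatives (helper647) -/

open MeasureTheory Filter Topology Matrix
open scoped ContDiff ENNReal

namespace Vale.Agent.P353.Z.ASY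

open Vale.Agent.P353.Z.AJK

variable {N d k : ℕ} {F : Type} [NormedAddCommGroup F] [InnerProductSpace ℂ F]

/-- strongly measurable representative of a section, with the almost everywhere equality -/
theorem lwb_rep {dh dm r ds : ℕ} (κ : ℝ) (φ : Spl dh dm d) (ψ : Spl r ds dh) (Om : Cfg r → Matrix (Fin dm) (Fin dm) ℝ)
    {A : Set (Cfg r)} (hA : MeasurableSet A) {a : Cfg r → Cfg ds → F} (ha : AL.Sec2 A a) :
    ∃ a' : Cfg r → Cfg ds → F, StronglyMeasurable (fun q : Cfg r × Cfg ds => a' q.1 q.2) ∧ AL.Sec2 A a' ∧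
      (AN.bG κ Om a : Cfg r × Cfg ds × Cfg dm → F) =ᵐ[AN.wM r ds dm] AN.bG κ Om a' ∧
      ∀ R, 0 < R → ∀ u : Cfg d → F, AL.ZZ κ φ ψ Om a' R u = AL.ZZ κ φ ψ Om a R u := by
  set B : Set (Cfg r × Cfg ds) := A ×ˢ Set.univ with hB
  have hBm : MeasurableSet B := hA.prod MeasurableSet.univ
  set g : Cfg r × Cfg ds → F := B.indicator (ha.1.1.mk _) with hg
  have hgm : StronglyMeasurable g := (ha.1.1.stronglyMeasurable_mk).indicator hBm
  have hga : (fun q : Cfg r × Cfg ds => a q.1 q.2) =ᵐ[volume.prod volume] g := by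
    filter_upwards [ha.1.1.ae_eq_mk] with q hq
    by_cases hqB : q ∈ B
    · rw [hg, Set.indicator_of_mem hqB, ← hq]
    · rw [hg, Set.indicator_of_notMem hqB]
      by_contra h0
      exact hqB ⟨ha.2 q.1 q.2 h0, Set.mem_univ _⟩
  refine ⟨fun η s => g (η, s), hgm, ⟨ha.1.ae_eq hga, fun η s h0 => ?_⟩, ?_, fun R hR u => ?_⟩
  · by_contra h1
    exact h0 (Set.indicator_of_notMem (fun h2 : (η, s) ∈ B => h1 h2.1) _)
  · have hT : Measure.QuasiMeasurePreserving (fun q : Cfg r × Cfg ds × Cfg dm => (q.1, q.2.1))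
        ((volume : Measure (Cfg r)).prod ((volume : Measure (Cfg ds)).prod (volume : Measure (Cfg dm))))
        ((volume : Measure (Cfg r)).prod (volume : Measure (Cfg ds))) := by
      have h5 : ((volume : Measure (Cfg ds)).prod (volume : Measure (Cfg dm))).IsAddHaarMeasure :=
        Measure.prod.instIsAddHaarMeasure _ _
      have h6 : ((volume : Measure (Cfg r)).prod ((volume : Measure (Cfg ds)).prod (volume : Measure (Cfg dm)))).IsAddHaarMeasure :=
        Measure.prod.instIsAddHaarMeasure _ _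
      have h7 : ((volume : Measure (Cfg r)).prod (volume : Measure (Cfg ds))).IsAddHaarMeasure :=
        Measure.prod.instIsAddHaarMeasure _ _
      exact AE.gd655_qmp ((LinearMap.fst ℝ (Cfg r) (Cfg ds × Cfg dm)).prod
        ((LinearMap.fst ℝ (Cfg ds) (Cfg dm)).comp (LinearMap.snd ℝ (Cfg r) (Cfg ds × Cfg dm))))
        (fun p => ⟨(p.1, p.2, 0), rfl⟩) _ _
    have h1 := hT.ae hga
    have h2 : AN.wM r ds dm ≪
        ((volume : Measure (Cfg r)).prod ((volume : Measure (Cfg ds)).prod (volume : Measure (Cfg dm)))) :=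
      withDensity_absolutelyContinuous _ _
    filter_upwards [h2.ae_le h1] with q hq
    show _ • a q.1 q.2.1 = _ • g (q.1, q.2.1)
    rw [hq]
  · have q1 : ∀ᵐ y : Cfg dh, a (R⁻¹ • AN.hz ψ y) (AN.hs ψ y) = g (R⁻¹ • AN.hz ψ y, AN.hs ψ y) :=
      (AE.gd655_qmp (AE.gd655L ψ R) (AE.gd655L_surj ψ hR.ne') (volume : Measure (Cfg dh))
        ((volume : Measure (Cfg r)).prod (volume : Measure (Cfg ds)))).ae hga
    have q2 : ∀ᵐ x : Cfg d, a (R⁻¹ • AN.hz ψ (AN.zy φ x)) (AN.hs ψ (AN.zy φ x)) =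
        g (R⁻¹ • AN.hz ψ (AN.zy φ x), AN.hs ψ (AN.zy φ x)) :=
      (AE.gd655_qmp (AE.gd655Z φ) (AE.gd655Z_surj φ) (volume : Measure (Cfg d)) (volume : Measure (Cfg dh))).ae q1
    unfold AL.ZZ
    refine integral_congr_ae ?_
    filter_upwards [q2] with x hx
    simp only [AN.Zb, AN.bG, hx]

/-- conclusion of LOW9 for a type -/
def OutC {M : BFSS.Model N d F} {S : Setup d F} {n : Fin k → ℕ} (t : TyD M S n) (c₁ : ℝ) : Prop :=
  ∀ ε : ℝ, 0 < ε → ∃ χ : Cfg t.D.dz → ℝ, ContDiff ℝ ∞ χ ∧ HasCompactSupport χ ∧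
    Disjoint (tsupport χ) (Coll (Finset.univ.image t.l)) ∧
    (∀ η, 0 ≤ χ η ∧ χ η ≤ 1) ∧ (∫ η : Cfg t.D.dz, (1 - χ η) ^ 2 * gss η ^ 2) ≤ ε ∧
    ∀ ε' : ℝ, 0 < ε' → ∃ b : Cfg t.D.dz × Cfg t.D.ds × Cfg t.D.dm → F, Continuous b ∧ HasCompactSupport b ∧
      (∀ q, b q ≠ 0 → q.1 ∈ tsupport χ) ∧
      eLpNorm (fun q => b q - AN.bG t.D.S'.κ (OmE t.D.S'.κ t.E t.l)
        (fun η s => ((χ η * gss η : ℝ) : ℂ) • t.D.S'.UU t.D.φ t.E t.l η (t.w0 s)) q) 2 (AN.wM _ _ _) ≤ ENNReal.ofReal ε' ∧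
      ∃ R₀ : ℝ, 1 ≤ R₀ ∧ ∀ R : ℝ, R₀ ≤ R → c₁ ≤ nsq (AN.G.avg t.D.M' (AN.Zb t.D.φ (spsw t.D.ψ) b R))

end Vale.Agent.P353.Z.ASY
end

section

/-! # P353, all `N`, block SY: truncated ground states of a type (helper667) -/

open MeasureTheory Filter Topology Matrix
open scoped ContDiff ENNReal

namespace Vale.Agent.P353.Z.AJK

variable {d : ℕ} {F : Type*} [NormedAddCommGroup F] [InnerProductSpace ℂ F] {S : Setup d F} (t : Ty S)

/-- normalisation of the ground state -/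
noncomputable def lwcN : ℝ := (‖(gcl t.Ω : HL t.r (AL.Ek t.n))‖)⁻¹

lemma lwcN_pos : 0 < lwcN t := inv_pos.2 (norm_pos_iff.2 (gcl_ne (Ω_ne t)))

/-- truncated ground state -/
noncomputable def lwcF (χ : Cfg t.r → ℝ) (η : Cfg t.r) : AL.Ek t.n := ((lwcN t * (χ η * gss η) : ℝ) : ℂ) • t.Ω

lemma lwc_supp (χ : Cfg t.r → ℝ) : tsupport (lwcF t χ) ⊆ tsupport χ := by
  refine closure_mono fun η hη h0 => hη ?_
  simp only [lwcF, h0, zero_mul, mul_zero, Complex.ofReal_zero, zero_smul]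

lemma lwc_tst {χ : Cfg t.r → ℝ} (h1 : ContDiff ℝ ∞ χ) (h2 : HasCompactSupport χ) (h3 : Disjoint (tsupport χ) (Coll t.L)) :
    TstOff t.L (lwcF t χ) := by
  refine ⟨⟨?_, ?_⟩, h3.mono_left (lwc_supp t χ)⟩
  · exact (Setup.contDiff_ofReal (contDiff_const.mul (h1.mul AF.contDiff_gss))).smul contDiff_const
  · exact h2.of_isClosed_subset (isClosed_tsupport _) (lwc_supp t χ)

lemma lwc_norm {χ : Cfg t.r → ℝ} (h : TstOff t.L (lwcF t χ)) :
    ‖((cl (lwcF t χ) h : DL t.r (AL.Ek t.n) t.L) : HL t.r (AL.Ek t.n)) - gT t‖ ^ 2 =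
      lwcN t ^ 2 * ∫ η : Cfg t.r, (1 - χ η) ^ 2 * gss η ^ 2 := by
  rw [norm_sq_eq]
  unfold nsq
  rw [← integral_const_mul]
  refine integral_congr_ae ?_
  have hg : gT t = (gcl ((lwcN t : ℂ) • t.Ω) : HL t.r (AL.Ek t.n)) := rfl
  filter_upwards [cl_ae (lwcF t χ) h, gcl_ae (r := t.r) ((lwcN t : ℂ) • t.Ω),
    Lp.coeFn_sub ((cl (lwcF t χ) h : DL t.r (AL.Ek t.n) t.L) : HL t.r (AL.Ek t.n)) (gT t)] with η h1 h2 h3
  rw [h3, Pi.sub_apply, h1, hg, h2, lwcF, smul_smul, ← sub_smul, norm_smul, t.Ω_norm, mul_one]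
  have e : ((lwcN t * (χ η * gss η) : ℝ) : ℂ) - (gss η : ℂ) * (lwcN t : ℂ) =
      ((-(lwcN t * ((1 - χ η) * gss η)) : ℝ) : ℂ) := by
    push_cast
    ring
  rw [e, Complex.norm_real, Real.norm_eq_abs, sq_abs]
  ring

lemma lwc_sc (χ : Cfg t.r → ℝ) (η : Cfg t.r) (s : Cfg t.ds) :
    AL.sc t.U t.o (lwcF t χ) η s = ((lwcN t * (χ η * gss η) : ℝ) : ℂ) • t.U η (∑ j, t.Ω j • t.o j s) := by
  unfold AL.sc lwcF
  rw [map_sum, Finset.smul_sum]
  refine Finset.sum_congr rfl fun j _ => ?_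
  rw [map_smul, smul_smul]
  rfl

lemma lwc_bG {r ds dm : ℕ} (κ c : ℝ) (Om : Cfg r → Matrix (Fin dm) (Fin dm) ℝ) (g : Cfg r → ℝ) (V : Cfg r → Cfg ds → F)
    (q : Cfg r × Cfg ds × Cfg dm) :
    AN.bG κ Om (fun η s => ((c * g η : ℝ) : ℂ) • V η s) q = (c : ℂ) • AN.bG κ Om (fun η s => ((g η : ℝ) : ℂ) • V η s) q := by
  simp only [AN.bG, smul_smul]
  congr 1
  push_cast
  ring

/-- scaling of the profile of LOW9 -/
lemma lwc_eL {r ds dm : ℕ} {κ c : ℝ} (hc : 0 ≤ c) (Om : Cfg r → Matrix (Fin dm) (Fin dm) ℝ) (g : Cfg r → ℝ)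
    (V : Cfg r → Cfg ds → F) {b : Cfg r × Cfg ds × Cfg dm → F} {e : ℝ} (_ : 0 ≤ e)
    (h : eLpNorm (fun q => b q - AN.bG κ Om (fun η s => ((g η : ℝ) : ℂ) • V η s) q) 2 (AN.wM r ds dm) ≤ ENNReal.ofReal e) :
    eLpNorm (fun q => (c : ℂ) • b q - AN.bG κ Om (fun η s => ((c * g η : ℝ) : ℂ) • V η s) q) 2 (AN.wM r ds dm) ≤
      ENNReal.ofReal (c * e) := by
  have e1 : (fun q => (c : ℂ) • b q - AN.bG κ Om (fun η s => ((c * g η : ℝ) : ℂ) • V η s) q) =
      (c : ℂ) • fun q => b q - AN.bG κ Om (fun η s => ((g η : ℝ) : ℂ) • V η s) q := by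
    funext q
    rw [lwc_bG, ← smul_sub]
    rfl
  rw [e1, eLpNorm_const_smul, ENNReal.ofReal_mul hc]
  refine mul_le_mul' (le_of_eq ?_) h
  rw [← ofReal_norm, Complex.norm_real, Real.norm_of_nonneg hc]

lemma lwc_avg {N d : ℕ} {F : Type*} [NormedAddCommGroup F] [InnerProductSpace ℂ F] {dh dm r ds : ℕ} (M : BFSS.Model N d F)
    (φ : Spl dh dm d) (ψ : Spl r ds dh) (b : Cfg r × Cfg ds × Cfg dm → F) (c R : ℝ) :
    nsq (AN.G.avg M (AN.Zb φ ψ (fun q => (c : ℂ) • b q) R)) = c ^ 2 * nsq (AN.G.avg M (AN.Zb φ ψ b R)) := by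
  have e1 : AN.G.avg M (AN.Zb φ ψ (fun q => (c : ℂ) • b q) R) = fun x => (c : ℂ) • AN.G.avg M (AN.Zb φ ψ b R) x := by
    funext x
    unfold AN.G.avg
    rw [← integral_smul]
    refine integral_congr_ae (ae_of_all _ fun U => ?_)
    simp only [AN.Zb]
    rw [smul_comm, map_smul]
  rw [e1, AH.nsq_csmul, Complex.norm_real, Real.norm_eq_abs, sq_abs]

end Vale.Agent.P353.Z.AJK
end

section

/-! # P353, all `N`, block SY: representation estimate for a given smooth profile (after helper7, `REP/OneE`) -/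

open MeasureTheory Filter Topology
open scoped ContDiff ENNReal

namespace Vale.Agent.P353.AN.LWT

open Vale.Agent.P353.Z Vale.Agent.P353.Z.U Vale.Agent.P353.Z.AN Vale.Agent.P353.AN.G Vale.Agent.P353.AN.REP

variable {N d dh dm r ds : ℕ} {F : Type*} [NormedAddCommGroup F] [InnerProductSpace ℂ F]

/-- the estimate of R4 for a given smooth profile supported over `L` -/
theorem lwd_est (S : Setup d F) (hW : WnStmt S)
    (φ : Spl dh dm d) (ψ : Spz r ds dh) (Om : Cfg r → Matrix (Fin dm) (Fin dm) ℝ)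
    (hOc : ContinuousOn Om (Reg S φ ψ)) (hO : ∀ η ∈ Reg S φ ψ, IsOm S.κ (Dz S φ ψ η) (Om η))
    (χ : ℝ → Cfg r × Cfg ds × Cfg dm → ℝ) (hχ : IsCo χ) (a : Cfg r → Cfg ds → F) (K : Set (Cfg r)) (hK : IsCompact K)
    (hKR : K ⊆ Reg S φ ψ) (ha : StronglyMeasurable (fun q : Cfg r × Cfg ds => a q.1 q.2))
    (ha2 : MemLp (fun q : Cfg r × Cfg ds => a q.1 q.2) 2 (volume.prod volume)) (hak : ∀ η s, a η s ≠ 0 → η ∈ K)
    {L : Set (Cfg r)} (hKL : K ⊆ L) {δ C R₁ : ℝ} (hδ : 0 < δ) (hC : 0 < C) (hB : LWT.GKc S φ ψ L δ C R₁)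
    {b : Cfg r × Cfg ds × Cfg dm → F} (hb : IsB S φ ψ b) (hbL : ∀ q, b q ≠ 0 → q.1 ∈ L) {ε' ε : ℝ} (hε0 : 0 < ε')
    (hε2 : C * (2 * ε') ≤ ε) (hbn : eLpNorm (fun q => b q - bG S.κ Om a q) 2 (wM r ds dm) ≤ ENNReal.ofReal ε') :
    ∀ (R : ℕ → ℝ) (u : ℕ → Cfg d → F) (A : ℝ), BdL S R u A → ∀ᶠ n in atTop,
      ‖ipr (Zb φ ψ b (R n)) (u n) -
        ipr (Zb φ ψ (fun q => ((χ (R n) q : ℝ) : ℂ) • bG S.κ Om a q) (R n)) (u n)‖ ≤ ε * Real.sqrt A := by
  intro R u A hu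
  have hε : 0 < ε := lt_of_lt_of_le (by positivity) hε2
  obtain ⟨Cw, hCw, hW'⟩ := hW dh dm r ds φ ψ K Om hK (hOc.mono hKR) (fun η hη => hO η (hKR hη))
  obtain ⟨hgs, hgn⟩ := hW' a ha hak
  have hg2 : MemLp (bG S.κ Om a : Cfg r × Cfg ds × Cfg dm → F) 2 (wM r ds dm) :=
    ⟨hgs.aestronglyMeasurable, lt_of_le_of_lt hgn (ENNReal.mul_lt_top ENNReal.ofReal_lt_top ha2.2)⟩
  have hgk : ∀ q : Cfg r × Cfg ds × Cfg dm, bG S.κ Om a q ≠ 0 → q.1 ∈ K := by
    intro q hq
    exact hak _ _ (right_ne_zero_of_smul hq)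
  have := rx_lf r ds dm
  have hbc : Continuous b := hb.sm.continuous
  have hb2 : MemLp b 2 (wM r ds dm) := hbc.memLp_of_hasCompactSupport hb.cs
  obtain ⟨M, hM⟩ := hb.cs.isCompact.isBounded.subset_closedBall (0 : Cfg r × Cfg ds × Cfg dm)
  have hM' : ∀ q, b q ≠ 0 → ‖q.2.1‖ ≤ M ∧ ‖q.2.2‖ ≤ M := by
    intro q hq
    have h1 := hM (subset_tsupport _ hq)
    rw [mem_closedBall_zero_iff] at h1
    have h2 : ‖q.2‖ ≤ ‖q‖ := norm_snd_le q
    exact ⟨((norm_fst_le q.2).trans h2).trans h1, ((norm_snd_le q.2).trans h2).trans h1⟩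
  have hA0 : 0 ≤ A := (nsq_nonneg (u 0)).trans (hu.norm 0)
  -- eventually
  have e1 : ∀ᶠ R in atTop, M ≤ δ * R := by
    filter_upwards [eventually_ge_atTop (M / δ)] with R hR
    rw [div_le_iff₀ hδ] at hR
    linarith
  have hall : ∀ᶠ R in atTop, R₁ ≤ R ∧ 1 ≤ R ∧ M ≤ δ * R ∧
      (∀ q, χ R q ≠ 0 → ‖q.2.1‖ ≤ δ * R ∧ ‖q.2.2‖ ≤ δ * (R * Real.sqrt R)) ∧
      eLpNorm (fun q => bG S.κ Om a q - ((χ R q : ℝ) : ℂ) • bG S.κ Om a q) 2 (wM r ds dm) ≤ ENNReal.ofReal ε' := by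
    filter_upwards [eventually_ge_atTop R₁, eventually_ge_atTop 1, e1, hχ.sup δ hδ, one_dct hχ hgs hg2 hε0]
      with R h1 h2 h3 h4 h5
    exact ⟨h1, h2, h3, h4, h5⟩
  filter_upwards [hu.R_lim.eventually hall] with n hn
  obtain ⟨hr1, hr2, hr3, hr4, hr5⟩ := hn
  obtain ⟨ρ, hρ⟩ : ∃ ρ, ρ = R n := ⟨_, rfl⟩
  obtain ⟨v, hv⟩ : ∃ v, v = u n := ⟨_, rfl⟩
  have hui := hu.inv n
  have hun := hu.norm n
  rw [← hρ] at hr1 hr2 hr3 hr4 hr5 ⊢
  rw [← hv] at hui hun ⊢
  have hρ0 : 0 < ρ := by linarith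
  have hcs : StronglyMeasurable fun q => ((χ ρ q : ℝ) : ℂ) • bG S.κ Om a q :=
    (Complex.measurable_ofReal.comp (hχ.meas ρ)).stronglyMeasurable.smul hgs
  have hc2 : MemLp (fun q => ((χ ρ q : ℝ) : ℂ) • bG S.κ Om a q) 2 (wM r ds dm) := by
    refine hg2.mono hcs.aestronglyMeasurable (ae_of_all _ fun q => ?_)
    rw [norm_smul, Complex.norm_real, Real.norm_of_nonneg (hχ.bd ρ q).1]
    exact mul_le_of_le_one_left (norm_nonneg _) (hχ.bd ρ q).2
  have hDs : StronglyMeasurable fun q => b q - ((χ ρ q : ℝ) : ℂ) • bG S.κ Om a q := hbc.stronglyMeasurable.sub hcs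
  have hD2 : MemLp (fun q => b q - ((χ ρ q : ℝ) : ℂ) • bG S.κ Om a q) 2 (wM r ds dm) := hb2.sub hc2
  have hMs : M ≤ δ * (ρ * Real.sqrt ρ) := by
    refine hr3.trans (mul_le_mul_of_nonneg_left ?_ hδ.le)
    have : 1 ≤ Real.sqrt ρ := Real.one_le_sqrt.2 hr2
    nlinarith
  have hest := hB ρ hr1 (fun q => b q - ((χ ρ q : ℝ) : ℂ) • bG S.κ Om a q) hDs (fun q hq => by
    by_cases h : b q = 0
    · have h2 : ((χ ρ q : ℝ) : ℂ) • bG S.κ Om a q ≠ 0 := by
        intro h3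
        apply hq
        rw [h, h3, sub_zero]
      have h4 : χ ρ q ≠ 0 := by
        intro h5
        apply h2
        rw [h5, Complex.ofReal_zero, zero_smul]
      exact ⟨hKL (hgk q (right_ne_zero_of_smul h2)), hr4 q h4⟩
    · exact ⟨hbL q h, (hM' q h).1.trans hr3, (hM' q h).2.trans hMs⟩) hD2 v hui.1 hui.2
  have hlin : ipr (Zb φ ψ b ρ) v - ipr (Zb φ ψ (fun q => ((χ ρ q : ℝ) : ℂ) • bG S.κ Om a q) ρ) v =
      ∫ x, inner ℂ (Zb φ ψ (fun q => b q - ((χ ρ q : ℝ) : ℂ) • bG S.κ Om a q) ρ x) (v x) := by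
    have i1 : Integrable (fun x => inner ℂ (Zb φ ψ b ρ x) (v x)) :=
      glu_int (glu_memLp φ ψ ρ hρ0 (hb2.mono_measure (glu_w_le r ds dm))) hui.1.memLp
    have i2 : Integrable (fun x => inner ℂ (Zb φ ψ (fun q => ((χ ρ q : ℝ) : ℂ) • bG S.κ Om a q) ρ x) (v x)) :=
      glu_int (glu_memLp φ ψ ρ hρ0 (hc2.mono_measure (glu_w_le r ds dm))) hui.1.memLp
    unfold ipr
    rw [← integral_sub i1 i2]
    refine integral_congr_ae (ae_of_all _ fun x => ?_)
    simp only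
    rw [← inner_sub_left]
    congr 1
    unfold Zb
    rw [← smul_sub]
  have hnorm : eLpNorm (fun q => b q - ((χ ρ q : ℝ) : ℂ) • bG S.κ Om a q) 2 (wM r ds dm) ≤ ENNReal.ofReal (2 * ε') := by
    have h1 : (fun q => b q - ((χ ρ q : ℝ) : ℂ) • bG S.κ Om a q) =
        (fun q => b q - bG S.κ Om a q) + fun q => bG S.κ Om a q - ((χ ρ q : ℝ) : ℂ) • bG S.κ Om a q := by
      funext q
      simp only [Pi.add_apply]
      abel
    rw [h1]
    refine (eLpNorm_add_le (hbc.stronglyMeasurable.sub hgs).aestronglyMeasurable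
      (hgs.sub hcs).aestronglyMeasurable (by norm_num)).trans ?_
    rw [two_mul, ENNReal.ofReal_add hε0.le hε0.le]
    exact add_le_add hbn hr5
  have hvn : eLpNorm v 2 volume ≤ ENNReal.ofReal (Real.sqrt A) := by
    refine glu_le_of_sq ?_
    rw [glu_sq, ← glu_real_sq hui.1.memLp, ← ENNReal.ofReal_pow (Real.sqrt_nonneg _), Real.sq_sqrt hA0]
    exact ENNReal.ofReal_le_ofReal hun
  rw [hlin]
  have hfin : ‖∫ x, inner ℂ (Zb φ ψ (fun q => b q - ((χ ρ q : ℝ) : ℂ) • bG S.κ Om a q) ρ x) (v x)‖ₑ ≤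
      ENNReal.ofReal (ε * Real.sqrt A) := by
    refine hest.trans ((mul_le_mul' (mul_le_mul' le_rfl hnorm) hvn).trans ?_)
    rw [← ENNReal.ofReal_mul hC.le, ← ENNReal.ofReal_mul (by positivity)]
    exact ENNReal.ofReal_le_ofReal (mul_le_mul_of_nonneg_right hε2 (Real.sqrt_nonneg _))
  rw [← ofReal_norm, ENNReal.ofReal_le_ofReal_iff (by positivity)] at hfin
  exact hfin

end Vale.Agent.P353.AN.LWT
end

section

/-! # P353, all `N`, block LOW: ground state data of a type -/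

open MeasureTheory Filter Topology
open scoped ContDiff

namespace Vale.Agent.P353.AN.LW

open Vale.Agent.P353.Z Vale.Agent.P353.Z.U Vale.Agent.P353.Z.AN Vale.Agent.P353.AN.G

variable {N d k : ℕ} {F : Type} [NormedAddCommGroup F] [InnerProductSpace ℂ F]

/-- **the types have ground state data** -/
theorem gsdT (hfin : FiniteDimensional ℂ F) {M : BFSS.Model N d F} {S : Setup d F} {n : Fin k → ℕ} (t : ASY.TyD M S n)
    (hAct : ActStmt t.D.M') (hSgn : AS.SgnStmt.{0}) (hZms : AX2.ZmsStmt t.std.ss) (hOne : ∀ a, OneA.{0} 1 (t.D.fr.fb (n a))) :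
    Gsd t.D.M' t.D.S' t.D.φ (spsw t.D.ψ) (Finset.univ.image t.l) (t.D.S'.UU t.D.φ t.E t.l) t.w0 (OmE t.D.S'.κ t.E t.l) := by
  obtain ⟨hw, hmem, hone⟩ := ASY.w0_mem t hZms
  refine gsd_of hAct t.dat.bun hw hone fun U hU η hη => ?_
  exact (hSgn N d t.D.dh t.D.dm t.D.ds t.D.dz k n F hfin t.D.M' t.D.S' t.D.φ t.D.ψ t.D.fr t.z₀ t.std t.D.rep hOne t.t t.Kc t.E
    t.l t.rd U hU η hη).2 _ hmem

/-- the semisimple part has no centre -/
theorem lessT {M : BFSS.Model N d F} {S : Setup d F} {n : Fin k → ℕ} (t : ASY.TyD M S n) :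
    Less t.D.S' t.D.φ (spsw t.D.ψ) := by
  intro v hv
  refine t.std.less v fun B C => ?_
  exact hv B C

/-- the `z` colours are central -/
theorem isZT {M : BFSS.Model N d F} {S : Setup d F} {n : Fin k → ℕ} (t : ASY.TyD M S n) :
    IsZ t.D.S' t.D.φ (spsw t.D.ψ) := t.dat.cen

end Vale.Agent.P353.AN.LW
end

section

/-! # P353, all `N`, block LOW: output of LOW1–LOW9 (unconditional) -/

open MeasureTheory Filter Topology
open scoped ContDiff

namespace Vale.Agent.P353.AN.LW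

open Vale.Agent.P353.Z Vale.Agent.P353.Z.U Vale.Agent.P353.Z.AN Vale.Agent.P353.AN.G

variable {N d dh dm r ds : ℕ} {F : Type*} [NormedAddCommGroup F] [InnerProductSpace ℂ F]

/-- there is a point off the collision set -/
theorem exists_notColl {Lc : Finset (Fin r → ℝ)} (h : ∀ l ∈ Lc, l ≠ 0) : ∃ z₀ : Cfg r, z₀ ∉ Coll Lc :=
  (AF.CutAux.ae_Coll h).exists

/-- lower bounds for the averages of compactly supported continuous approximations of the truncated ground states -/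
def LowAt (M : BFSS.Model N d F) (S : Setup d F) (φ : Spl dh dm d) (ψ : Spz r ds dh) (Lc : Finset (Fin r → ℝ))
    (V : Cfg r → F →L[ℂ] F) (w₀ : Cfg ds → F) (Ωm : Cfg r → Matrix (Fin dm) (Fin dm) ℝ) : Prop :=
  ∃ c₀ : ℝ, 0 < c₀ ∧ ∀ ε : ℝ, 0 < ε → ∃ χ : Cfg r → ℝ, ContDiff ℝ ∞ χ ∧ HasCompactSupport χ ∧ Disjoint (tsupport χ) (Coll Lc) ∧
    (∀ η, 0 ≤ χ η ∧ χ η ≤ 1) ∧ (∫ η : Cfg r, (1 - χ η) ^ 2 * gss η ^ 2) ≤ ε ∧
    ∀ ε' : ℝ, 0 < ε' → ∃ b : Cfg r × Cfg ds × Cfg dm → F, Continuous b ∧ HasCompactSupport b ∧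
      (∀ q, b q ≠ 0 → q.1 ∈ tsupport χ) ∧
      eLpNorm (fun q => b q - bG S.κ Ωm (fun η s => ((χ η * gss η : ℝ) : ℂ) • V η (w₀ s)) q) 2 (wM r ds dm) ≤ ENNReal.ofReal ε' ∧
      ∃ R₀ : ℝ, 1 ≤ R₀ ∧ ∀ R : ℝ, R₀ ≤ R → c₀ ≤ nsq (avg M (Zb φ ψ b R))

/-- **output of LOW1–LOW9** -/
theorem lowAt [hF : FiniteDimensional ℂ F] (M : BFSS.Model N d F) (S : Setup d F) (hRep : Rep M S) (φ : Spl dh dm d)
    (ψ : Spz r ds dh) (hsub : S.IsSub φ) (hz : IsZ S φ ψ) (hless : Less S φ ψ) (Lc : Finset (Fin r → ℝ))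
    (V : Cfg r → F →L[ℂ] F) (w₀ : Cfg ds → F) (Ωm : Cfg r → Matrix (Fin dm) (Fin dm) ℝ) (hG : Gsd M S φ ψ Lc V w₀ Ωm) :
    LowAt M S φ ψ Lc V w₀ Ωm := by
  obtain ⟨z₀, hz₀⟩ := exists_notColl hG.ne
  exact out M S φ ψ hF (core M S φ ψ hF hRep hsub hz hless (act_stmt M) (H.geo M) (H.good M) (H.goodA M) (pos M S φ ψ)
    (vol M S φ ψ) scl (avb M)) Lc V w₀ Ωm hG (mol M S φ ψ hF hRep (act_stmt M) Lc V w₀ Ωm hG) nrm (chi r) (AF.cut r) z₀ hz₀

end Vale.Agent.P353.AN.LW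
end

section

/-! # P353, all `N`, block SY: the lower bound of the representatives (helper647, helper667) -/

open MeasureTheory Filter Topology Matrix
open scoped ContDiff ENNReal

namespace Vale.Agent.P353.Z.ASY

open Vale.Agent.P353.Z.AJK

variable {N d k : ℕ} {F : Type} [NormedAddCommGroup F] [InnerProductSpace ℂ F]

lemma lwe_nsq {O : Matrix (Fin d) (Fin d) ℝ} (hO : O * O.transpose = 1) (f : Cfg d → F) :
    nsq (fun x => f (rox 1 O x)) = nsq f := by
  unfold nsq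
  exact (AN.rt_mp h91 hO).integral_comp (AN.rtE 1 h91 O hO).toHomeomorph.measurableEmbedding (fun x => ‖f x‖ ^ 2)

/-- comparison family for one type (lower bound) -/
theorem lwe_one (hfin : FiniteDimensional ℂ F) {M : BFSS.Model N d F} {S : Setup d F} {n : Fin k → ℕ} (t : TyD M S n)
    (hIso : AL.IsoStmt t.ty.S') {c₁ : ℝ} (hc₁ : 0 < c₁) (hO : OutC t c₁) {ε : ℝ} (hε : 0 < ε) :
    ∃ g₂ : DL t.ty.r (AL.Ek t.ty.n) t.ty.L, ‖(g₂ : HL t.ty.r (AL.Ek t.ty.n)) - gT t.ty‖ ≤ ε ∧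
    ∃ b : Cfg t.D.dz × Cfg t.D.ds × Cfg t.D.dm → F,
      (∀ R : ℝ, 0 < R → t.D.S'.GInv (AN.G.avg t.D.M' (AN.Zb t.D.φ (spsw t.D.ψ) b R))) ∧
      (∀ (R : ℕ → ℝ) (u : ℕ → Cfg d → F) (A : ℝ), BdL t.D.S' R u A → ∀ᶠ n in atTop,
        ‖ipr (AN.G.avg t.D.M' (AN.Zb t.D.φ (spsw t.D.ψ) b (R n))) (u n) -
          AL.ZZ S.κ t.ty.φ t.ty.ψ t.ty.Om (AL.sc t.ty.U t.ty.o (rp g₂)) (R n) (u n)‖ ≤ ε * Real.sqrt A) ∧
      ∀ᶠ R in atTop, lwcN t.ty ^ 2 * c₁ / 4 ≤ nsq (AN.G.avg t.D.M' (AN.Zb t.D.φ (spsw t.D.ψ) b R)) := by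
  obtain ⟨c, hc⟩ : ∃ c, c = lwcN t.ty := ⟨_, rfl⟩
  have hc0 : 0 < c := by rw [hc]; exact lwcN_pos _
  obtain ⟨χ, h1, h2, h3, h4, h5, h6⟩ := hO (ε ^ 2 / c ^ 2) (by positivity)
  have hT : TstOff t.ty.L (lwcF t.ty χ) := lwc_tst t.ty h1 h2 h3
  refine ⟨cl (lwcF t.ty χ) hT, ?_, ?_⟩
  · have e := lwc_norm t.ty hT
    have h7 : ‖((cl (lwcF t.ty χ) hT : DL t.ty.r (AL.Ek t.ty.n) t.ty.L) : HL t.ty.r (AL.Ek t.ty.n)) - gT t.ty‖ ^ 2 ≤ ε ^ 2 := by
      rw [e, ← hc]
      calc c ^ 2 * ∫ η, (1 - χ η) ^ 2 * gss η ^ 2 ≤ c ^ 2 * (ε ^ 2 / c ^ 2) := mul_le_mul_of_nonneg_left h5 (by positivity)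
        _ = ε ^ 2 := by field_simp
    exact le_of_sq_le_sq h7 hε.le
  have hK : IsCompact (tsupport χ) := h2
  have hKR : tsupport χ ⊆ AN.Reg t.D.S' t.D.φ (spsw t.D.ψ) := (sub_Rg t.ty h3).trans (AL.crd655_reg _ _ _)
  have hrp : rp (cl (lwcF t.ty χ) hT) = lwcF t.ty χ := rp_cl _ _
  have hs := (sec2 t.ty hIso (cl (lwcF t.ty χ) hT) hK h3 (by rw [hrp]; exact lwc_supp t.ty χ)).1
  obtain ⟨a', ham, ha2, hae, hZ⟩ := lwb_rep (dm := t.D.dm) S.κ t.ty.φ t.ty.ψ t.ty.Om hK.isClosed.measurableSet hs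
  obtain ⟨L, hL, hKL, hLR⟩ := exists_compact_between hK (AN.REP.rx_isOpen_Reg t.D.S' t.D.φ (spsw t.D.ψ)) hKR
  obtain ⟨δ, C, R₁, hδ, hC, hR₁, hGK⟩ := AN.All.gluK t.D.S' hfin t.D.dh t.D.dm t.D.dz t.D.ds t.D.φ (spsw t.D.ψ) L
    t.dat.sub t.dat.cen hL hLR
  obtain ⟨e, he0, he1, he2⟩ : ∃ e : ℝ, 0 < e ∧ 64 * (C * e) ^ 2 ≤ c ^ 2 * c₁ ∧ C * (2 * e) ≤ ε := by
    refine ⟨min (c * Real.sqrt c₁ / (8 * C)) (ε / (2 * C)), lt_min (by positivity) (by positivity), ?_, ?_⟩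
    · have h7 : C * min (c * Real.sqrt c₁ / (8 * C)) (ε / (2 * C)) ≤ c * Real.sqrt c₁ / 8 := by
        calc C * min (c * Real.sqrt c₁ / (8 * C)) (ε / (2 * C)) ≤ C * (c * Real.sqrt c₁ / (8 * C)) :=
              mul_le_mul_of_nonneg_left (min_le_left _ _) hC.le
          _ = c * Real.sqrt c₁ / 8 := by field_simp
      have h8 : 0 ≤ C * min (c * Real.sqrt c₁ / (8 * C)) (ε / (2 * C)) := by positivity
      have h9 := pow_le_pow_left₀ h8 h7 2
      have h10 : Real.sqrt c₁ ^ 2 = c₁ := Real.sq_sqrt hc₁.le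
      have h11 : (c * Real.sqrt c₁ / 8) ^ 2 = c ^ 2 * c₁ / 64 := by
        rw [div_pow, mul_pow, h10]
        norm_num
      rw [h11] at h9
      linarith
    · have h7 : min (c * Real.sqrt c₁ / (8 * C)) (ε / (2 * C)) ≤ ε / (2 * C) := min_le_right _ _
      rw [le_div_iff₀ (by positivity)] at h7
      linarith
  obtain ⟨b₀, p1, p2, p3, p4, R₀, -, p6⟩ := h6 (e / (2 * c)) (by positivity)
  obtain ⟨b, hbdef⟩ : ∃ b : Cfg t.D.dz × Cfg t.D.ds × Cfg t.D.dm → F, b = fun q => (c : ℂ) • b₀ q := ⟨_, rfl⟩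
  have hbc : Continuous b := by rw [hbdef]; exact p1.const_smul _
  have hbs : HasCompactSupport b := by rw [hbdef]; exact p2.smul_left
  have hbK : ∀ q ∈ tsupport b, q.1 ∈ tsupport χ := by
    intro q hq
    have hcl : IsClosed {q : Cfg t.D.dz × Cfg t.D.ds × Cfg t.D.dm | q.1 ∈ tsupport χ} :=
      (isClosed_tsupport χ).preimage continuous_fst
    refine closure_minimal (fun x hx => ?_) hcl hq
    rw [hbdef] at hx
    exact p3 x (right_ne_zero_of_smul hx)
  have hbL : ∀ q ∈ tsupport b, q.1 ∈ interior L := fun q hq => hKL (hbK q hq)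
  have hlow : ∀ R : ℝ, R₀ ≤ R → c ^ 2 * c₁ ≤ nsq (AN.G.avg t.D.M' (AN.Zb t.D.φ (spsw t.D.ψ) b R)) := by
    intro R hR
    rw [hbdef, lwc_avg]
    exact mul_le_mul_of_nonneg_left (p6 R hR) (by positivity)
  have hba : eLpNorm (fun q => b q - AN.bG S.κ t.ty.Om (AL.sc t.ty.U t.ty.o (lwcF t.ty χ)) q) 2
      (AN.wM t.D.dz t.D.ds t.D.dm) ≤ ENNReal.ofReal (e / 2) := by
    have h7 := lwc_eL (κ := S.κ) hc0.le t.ty.Om (fun η => χ η * gss η)
      (fun η s => t.ty.U η (∑ j, t.ty.Ω j • t.ty.o j s)) (by positivity) p4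
    have h8 : c * (e / (2 * c)) = e / 2 := by field_simp
    rw [h8] at h7
    have h9 : (AL.sc t.ty.U t.ty.o (lwcF t.ty χ)) =
        fun η s => ((c * (χ η * gss η) : ℝ) : ℂ) • t.ty.U η (∑ j, t.ty.Ω j • t.ty.o j s) := by
      funext η s
      have h10 := lwc_sc t.ty χ η s
      rw [← hc] at h10
      exact h10
    rw [h9, hbdef]
    exact h7
  obtain ⟨Q, hQ, hQL, hap⟩ := AN.LWT.lwt_apx t.D.S' t.D.φ (spsw t.D.ψ) hbc hbs L hbL hLR
  obtain ⟨β, q1, q2, q3⟩ := hap (e / 2) (by positivity)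
  have hβL : ∀ q, β q ≠ 0 → q.1 ∈ L := fun q hq => hQL q (q2 q hq)
  -- low
  have hge : eLpNorm (fun q => b q - β q) 2 (AN.wM t.D.dz t.D.ds t.D.dm) ≤ ENNReal.ofReal e := by
    refine le_trans (le_of_eq ?_) (q3.trans (ENNReal.ofReal_le_ofReal (by linarith)))
    exact eLpNorm_congr_norm_ae (ae_of_all _ fun q => norm_sub_rev _ _)
  have hlow2 := AN.LWT.lwt_claim t.D.M' hfin t.D.rep hLR hδ hC hGK hbc hbs hbL q1 hβL he0 (by positivity) he1 hge hlow
  -- rep
  obtain ⟨hOc, hOI⟩ := rpt_cont t.dat.bun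
  have hba' : eLpNorm (fun q => b q - AN.bG S.κ t.ty.Om a' q) 2 (AN.wM t.D.dz t.D.ds t.D.dm) ≤ ENNReal.ofReal (e / 2) := by
    refine le_trans (le_of_eq (eLpNorm_congr_ae ?_)) hba
    rw [hrp] at hae
    filter_upwards [hae] with q hq
    exact congrArg (fun z => b q - z) hq.symm
  have hβa : eLpNorm (fun q => β q - AN.bG S.κ t.ty.Om a' q) 2 (AN.wM t.D.dz t.D.ds t.D.dm) ≤ ENNReal.ofReal e := by
    have h7 : (fun q => β q - AN.bG S.κ t.ty.Om a' q) =
        (fun q => β q - b q) + fun q => b q - AN.bG S.κ t.ty.Om a' q := by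
      funext q
      simp only [Pi.add_apply]
      abel
    obtain ⟨Cw, hCw, hW'⟩ := AN.REP.All.wn t.D.S' t.D.dh t.D.dm t.D.dz t.D.ds t.D.φ (spsw t.D.ψ) (tsupport χ) t.ty.Om hK
      (hOc.mono hKR) (fun η hη => hOI η (hKR hη))
    obtain ⟨hgs, -⟩ := hW' a' ham ha2.2
    rw [h7]
    refine (eLpNorm_add_le (q1.sm.continuous.sub hbc).aestronglyMeasurable
      (hbc.stronglyMeasurable.sub hgs).aestronglyMeasurable (by norm_num)).trans ?_
    refine (add_le_add q3 hba').trans ?_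
    rw [← ENNReal.ofReal_add (by positivity) (by positivity)]
    exact ENNReal.ofReal_le_ofReal (by linarith)
  have hest := AN.LWT.lwd_est t.D.S' (AN.REP.All.wn t.D.S') t.D.φ (spsw t.D.ψ) t.ty.Om hOc hOI (fun R q => AL.chi R q)
    (AE.chiS _ _ _) a' (tsupport χ) hK hKR ham ha2.1 ha2.2 (fun η hη => interior_subset (hKL hη)) hδ hC hGK q1 hβL he0 he2
    hβa
  refine ⟨β, fun R hR => ?_, fun R u A hu => ?_, ?_⟩
  · exact (AN.REP.All.ipr t.D.M' hfin t.D.S' t.D.rep _ (AN.REP.ob_tst t.D.φ (spsw t.D.ψ) β q1.sm q1.cs R hR)).1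
  · filter_upwards [hest R u A hu, hu.R_lim.eventually_gt_atTop 0] with n hn hRn
    have h7 := (AN.REP.All.ipr t.D.M' hfin t.D.S' t.D.rep _
      (AN.REP.ob_tst t.D.φ (spsw t.D.ψ) β q1.sm q1.cs (R n) hRn)).2 (u n) (hu.inv n)
    exact (congrArg₂ (fun x y : ℂ => ‖x - y‖) h7 (hZ (R n) hRn (u n)).symm).trans_le hn
  · rw [← hc]
    exact hlow2

/-- **comparison family of the concrete system** -/
theorem lwe_cmp (hfin : FiniteDimensional ℂ F) {M : BFSS.Model N d F} {S : Setup d F} (hRot : AE.RotOStmt S)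
    (hIso : ∀ S' : Setup d F, AL.IsoStmt S') (hLin : ∀ S' : Setup d F, AL.LinStmt S') (hZ : ∀ S' : Setup d F, AL.ZMemStmt S')
    (hUB : ∀ S' : Setup d F, AL.UBStmt S') (hC : AN.Cless S) (TD : ∀ p : Typ N, TyD M S (pn p.1)) (hSgn : AS.SgnStmt.{0})
    (hZms : ∀ p : Typ N, AX2.ZmsStmt (TD p).std.ss) (p : Typ N) (hOne : ∀ a, OneA.{0} 1 ((TD p).D.fr.fb (pn p.1 a))) :
    AN.LW.Cmp (pwT hfin hRot hIso hLin hZ hUB (fun p : Typ N => (TD p).ty) hC) p := by
  have hG := AN.LW.gsdT hfin (TD p) (AN.G.act_stmt _) hSgn (hZms p) hOne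
  have : FiniteDimensional ℂ F := hfin
  obtain ⟨c₁, hc₁, hO⟩ := AN.LW.lowAt (TD p).D.M' (TD p).D.S' (TD p).D.rep (TD p).D.φ (spsw (TD p).D.ψ) (TD p).dat.sub
    (AN.LW.isZT (TD p)) (AN.LW.lessT (TD p)) _ _ _ _ hG
  refine ⟨lwcN (TD p).ty ^ 2 * c₁ / 4, by have := lwcN_pos (TD p).ty; positivity, fun ε hε => ?_⟩
  obtain ⟨g₂, h1, b, h2, h3, h4⟩ := lwe_one hfin (TD p) (hIso _) hc₁ hO hε
  refine ⟨g₂, h1, fun R => rptJ (TD p) b R, ⟨?_, ?_⟩, ?_⟩
  · filter_upwards [eventually_gt_atTop (0 : ℝ)] with R hR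
    exact rpt_ginv (TD p).D.hO (h2 R hR)
  · intro R u A hu
    have hu' : BdL (TD p).D.S' R (fun n => tr (TD p).ty.O (u n)) A :=
      ⟨hu.R_lim, fun n => (tr_GInv (TD p).ty hRot (hu.inv n)).1, fun n => (tr_GInv (TD p).ty hRot (hu.inv n)).2.trans_le (hu.norm n)⟩
    filter_upwards [h3 R _ A hu'] with n hn
    have e1 : ipr (rptJ (TD p) b (R n)) (u n) =
        ipr (AN.G.avg (TD p).D.M' (AN.Zb (TD p).D.φ (spsw (TD p).D.ψ) b (R n))) (tr (TD p).ty.O (u n)) :=
      (hRot h91 (TD p).D.O (TD p).D.hO).2.2 (AN.G.avg (TD p).D.M' (AN.Zb (TD p).D.φ (spsw (TD p).D.ψ) b (R n))) (u n)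
    have e2 := ipr_ZT (TD p).ty hRot (R n) g₂ (u n)
    rw [e1]
    change ‖_ - ipr (ZT (TD p).ty (R n) g₂) (u n)‖ ≤ _
    rw [e2]
    exact hn
  · filter_upwards [h4] with R hR
    refine hR.trans (le_of_eq ?_)
    exact (lwe_nsq (TD p).D.hO _).symm

/-- **gauge invariant representatives of the concrete system** -/
theorem repOf (hA : Alg) (hSgn : AS.SgnStmt.{0}) : RepOut := by
  intro N d F _ _ hfin M S hRep hAn TD hC hSep hOne
  obtain ⟨J, hJ⟩ := repA hfin (hAn.rot S) (fun S' => hAn.iso S') (fun S' => hAn.lin S') (fun S' => hAn.zmem S')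
    (fun S' => hAn.ub S') hC hA TD
  refine ⟨J, ⟨hJ.inv, hJ.supp, hJ.disj, hJ.rep, fun p => ?_⟩⟩
  obtain ⟨c₀, ε₀, h1, h2, h3⟩ := AN.LW.lowAll _ p (lwe_cmp hfin (hAn.rot S) (fun S' => hAn.iso S') (fun S' => hAn.lin S')
    (fun S' => hAn.zmem S') (fun S' => hAn.ub S') hC TD hSgn (fun _ => hA.zms _) p (hOne p))
  refine ⟨c₀, ε₀, h1, h2, fun a ha ε hε hε' => ?_⟩
  exact h3 a ha ε hε hε' (J p a ε) ⟨hJ.inv p a ε hε, hJ.rep p a ε hε⟩

end Vale.Agent.P353.Z.ASY
end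

section

/-! # P353, all `N`, block SY: the weak profile system of a model (unconditional, helper667) -/

namespace Vale.Agent.P353.Z.ASY

/-- the system exists for every `N ≥ 2`, given the representatives -/
theorem sysRep (hRO : RepOut) : ∀ N : ℕ, 2 ≤ N → Fin1.SysStmt N := fun N hN =>
  sys algAll (fun F _ _ h => anaAll F h) noLossOut hRO N hN

/-- **gauge invariant representatives** -/
theorem repOut : RepOut := repOf algAll AS.sgnAll

/-- **OUTPUT OF BLOCK SY**: the weak profile system for every `N ≥ 2` -/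
theorem sysAll : ∀ N : ℕ, 2 ≤ N → Fin1.SysStmt N := sysRep repOut

end Vale.Agent.P353.Z.ASY
end

section

/-! # P353, all `N`: the threshold bound state theorem -/

open MeasureTheory Filter Topology
open scoped ContDiff

namespace Vale.Agent.P353.Z.AFinal

/-- `dim ker H_N = 1` for every `N ≥ 2` -/
theorem one {N d : ℕ} {F : Type*} [NormedAddCommGroup F] [InnerProductSpace ℂ F] (M : BFSS.Model N d F) (hN : 2 ≤ N) :
    ∃ Φ : BFSS.Conf d → F, M.IsZeroEnergyState Φ ∧ ¬ (∀ᵐ x ∂BFSS.leb d, Φ x = 0) ∧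
      ∀ Ψ, M.IsZeroEnergyState Ψ → ∃ c : ℂ, ∀ᵐ x ∂BFSS.leb d, Ψ x = c • Φ x :=
  one_of ASY.sysAll M hN

end Vale.Agent.P353.Z.AFinal
end

section

/-! # P353, all `N`: the threshold bound state theorem, with existence of the data -/

open MeasureTheory Filter Topology
open scoped ContDiff

namespace Vale.Agent.P353.Z.AFinal

/-- the data exist and `dim ker H_N = 1`, for every `N ≥ 2` -/
theorem oneX {N : ℕ} (hN : 2 ≤ N) :
    (∃ (F : Type) (_ : NormedAddCommGroup F) (_ : InnerProductSpace ℂ F), Nonempty (BFSS.Model N (N ^ 2 - 1) F)) ∧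
    ∀ (d : ℕ) (F : Type*) [NormedAddCommGroup F] [InnerProductSpace ℂ F] (M : BFSS.Model N d F),
      ∃ Φ : BFSS.Conf d → F, M.IsZeroEnergyState Φ ∧ ¬ (∀ᵐ x ∂BFSS.leb d, Φ x = 0) ∧
        ∀ Ψ, M.IsZeroEnergyState Ψ → ∃ c : ℂ, ∀ᵐ x ∂BFSS.leb d, Ψ x = c • Φ x :=
  ⟨AEX.ex N (by omega), fun _ _ _ _ M => one M hN⟩

end Vale.Agent.P353.Z.AFinal
end
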