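import Mathlib
import Vale.Agent.P353.BdA.B10
import Vale.Agent.P353.BdA.B7

set_option linter.all false

section

/-! # P353, all `N`, block X2, X2-Fub, part B: coefficients of test functions in a finite dimensional space of `L²` functions -/

open MeasureTheory Filter Topology Matrix
open scoped ContDiff

namespace Vale.Agent.P353.Z.AX2

/-! ### parametric integrals with a locally integrable kernel -/

section wpar

set_option linter.unusedSectionVars false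

universe u v

variable {P W : Type} [NormedAddCommGroup P] [NormedSpace ℝ P]
  [NormedAddCommGroup W] [NormedSpace ℝ W] [FiniteDimensional ℝ W] [SecondCountableTopology W] [MeasurableSpace W] [BorelSpace W]
  {μ : Measure W}

lemma fb_int {E : Type u} {E' : Type v} [NormedAddCommGroup E] [NormedSpace ℝ E] [NormedAddCommGroup E']
    [NormedSpace ℝ E'] {k : W → E →L[ℝ] E'} (hk : LocallyIntegrable k μ) {Φ : P × W → E} (hΦ : Continuous Φ)
    (hc : HasCompactSupport Φ) (p : P) : Integrable (fun w => k w (Φ (p, w))) μ := by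
  set K₂ : Set W := Prod.snd '' tsupport Φ with hK₂
  have hK : IsCompact K₂ := hc.isCompact.image continuous_snd
  obtain ⟨M, hM⟩ := hc.exists_bound_of_continuous hΦ
  have hz : ∀ w, w ∉ K₂ → Φ (p, w) = 0 := fun w hw =>
    image_eq_zero_of_notMem_tsupport fun h => hw ⟨(p, w), h, rfl⟩
  have h1 : IntegrableOn k K₂ μ := hk.integrableOn_isCompact hK
  have h2 : IntegrableOn (fun w => k w (Φ (p, w))) K₂ μ := by
    refine Integrable.mono' (h1.norm.mul_const M) ?_ (Eventually.of_forall fun w => ?_)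
    · exact (ContinuousLinearMap.id ℝ (E →L[ℝ] E')).aestronglyMeasurable_comp₂ h1.aestronglyMeasurable
        (hΦ.comp (continuous_const.prodMk continuous_id)).aestronglyMeasurable
    · exact ((k w).le_opNorm _).trans (mul_le_mul_of_nonneg_left (hM _) (norm_nonneg _))
  refine (integrableOn_iff_integrable_of_support_subset fun w hw => ?_).1 h2
  by_contra h
  exact hw (by simp only [hz w h, map_zero])

lemma fb_cint {E : Type u} {E' : Type v} [NormedAddCommGroup E] [NormedSpace ℝ E] [NormedAddCommGroup E']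
    [NormedSpace ℝ E'] {k : W → E →L[ℝ] E'} (hk : LocallyIntegrable k μ) {Φ : P × W → P →L[ℝ] E} (hΦ : Continuous Φ)
    (hc : HasCompactSupport Φ) (p : P) : Integrable (fun w => (k w).comp (Φ (p, w))) μ := by
  set K₂ : Set W := Prod.snd '' tsupport Φ with hK₂
  have hK : IsCompact K₂ := hc.isCompact.image continuous_snd
  obtain ⟨M, hM⟩ := hc.exists_bound_of_continuous hΦ
  have hz : ∀ w, w ∉ K₂ → Φ (p, w) = 0 := fun w hw =>
    image_eq_zero_of_notMem_tsupport fun h => hw ⟨(p, w), h, rfl⟩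
  have h1 : Integrable (K₂.indicator fun w => ‖k w‖ * M) μ := by
    rw [integrable_indicator_iff hK.measurableSet]
    exact (hk.integrableOn_isCompact hK).norm.mul_const M
  refine Integrable.mono' h1 ?_ (Eventually.of_forall fun w => ?_)
  · exact (ContinuousLinearMap.compL ℝ P E E').aestronglyMeasurable_comp₂ hk.aestronglyMeasurable
      (hΦ.comp (continuous_const.prodMk continuous_id)).aestronglyMeasurable
  · by_cases hw : w ∈ K₂
    · rw [Set.indicator_of_mem hw]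
      exact (ContinuousLinearMap.opNorm_comp_le _ _).trans (mul_le_mul_of_nonneg_left (hM _) (norm_nonneg _))
    · rw [Set.indicator_of_notMem hw, hz w hw, ContinuousLinearMap.comp_zero, norm_zero]

lemma fb_hasFDerivAt {E : Type u} {E' : Type v} [NormedAddCommGroup E] [NormedSpace ℝ E] [NormedAddCommGroup E']
    [NormedSpace ℝ E'] {k : W → E →L[ℝ] E'} (hk : LocallyIntegrable k μ) {Φ : P × W → E} (hΦ : ContDiff ℝ ∞ Φ)
    (hc : HasCompactSupport Φ) (p₀ : P) :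
    HasFDerivAt (fun p => ∫ w, k w (Φ (p, w)) ∂μ)
      (∫ w, (k w).comp ((fderiv ℝ Φ (p₀, w)).comp (ContinuousLinearMap.inl ℝ P W)) ∂μ) p₀ := by
  set Φ' : P × W → P →L[ℝ] E := fun q => (fderiv ℝ Φ q).comp (ContinuousLinearMap.inl ℝ P W) with hΦ'
  have hs : ContDiff ℝ ∞ Φ' := AD.par_smooth hΦ
  have hc' : HasCompactSupport Φ' := AD.par_supp hc
  obtain ⟨M, hM⟩ := hc'.exists_bound_of_continuous hs.continuous
  set K₂ : Set W := Prod.snd '' tsupport Φ' with hK₂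
  have hK : IsCompact K₂ := hc'.isCompact.image continuous_snd
  refine hasFDerivAt_integral_of_dominated_of_fderiv_le (F := fun p w => k w (Φ (p, w)))
    (F' := fun p w => (k w).comp (Φ' (p, w))) (s := Set.univ) (bound := K₂.indicator fun w => ‖k w‖ * M) univ_mem
    (Eventually.of_forall fun p => ?_) (fb_int hk hΦ.continuous hc p₀)
    ?_ (Eventually.of_forall fun w p _ => ?_) ?_ (Eventually.of_forall fun w p _ => ?_)
  · exact (fb_int hk hΦ.continuous hc p).aestronglyMeasurable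
  · exact (fb_cint hk hs.continuous hc' p₀).aestronglyMeasurable
  · by_cases hw : w ∈ K₂
    · rw [Set.indicator_of_mem hw]
      exact (ContinuousLinearMap.opNorm_comp_le _ _).trans (mul_le_mul_of_nonneg_left (hM _) (norm_nonneg _))
    · rw [Set.indicator_of_notMem hw]
      have : Φ' (p, w) = 0 := image_eq_zero_of_notMem_tsupport fun h => hw ⟨(p, w), h, rfl⟩
      rw [this, ContinuousLinearMap.comp_zero, norm_zero]
  · rw [integrable_indicator_iff hK.measurableSet]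
    exact (hk.integrableOn_isCompact hK).norm.mul_const M
  · have h1 : HasFDerivAt Φ (fderiv ℝ Φ (p, w)) (p, w) :=
      (hΦ.differentiable (by simp) _).hasFDerivAt
    have h2 : HasFDerivAt (fun p : P => (p, w)) (ContinuousLinearMap.inl ℝ P W) p :=
      (hasFDerivAt_id p).prodMk (hasFDerivAt_const w p)
    exact (k w).hasFDerivAt.comp p (h1.comp p h2)

end wpar

/-! ### the coefficients -/

variable {d d1 d2 : ℕ} {F : Type*} [NormedAddCommGroup F] [InnerProductSpace ℂ F]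

/-- the coefficient of `u` along `o` -/
noncomputable def fbc (ψ : Spl d1 d2 d) (o : Lp F 2 (volume : Measure (Cfg d1))) (u : Cfg d → F) (x2 : Cfg d2) : ℂ :=
  ∫ x1, inner ℂ (o x1) (u (AD.cmb ψ x1 x2))

/-- the kernel of the coefficient -/
noncomputable def fbk (v : F) : F →L[ℝ] ℂ := (innerSL ℂ v).restrictScalars ℝ

lemma fbk_cont : Continuous (fbk : F → F →L[ℝ] ℂ) :=
  (ContinuousLinearMap.continuous_restrictScalars ℝ).comp (innerSL ℂ).continuous

lemma fbk_norm (v : F) : ‖fbk v‖ ≤ ‖v‖ := by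
  refine ContinuousLinearMap.opNorm_le_bound _ (norm_nonneg _) fun w => ?_
  exact norm_inner_le_norm v w

lemma fbk_loc (o : Lp F 2 (volume : Measure (Cfg d1))) : LocallyIntegrable (fun x1 => fbk (o x1)) volume := by
  have h := (Lp.memLp o).locallyIntegrable (by norm_num)
  intro x
  obtain ⟨s, hs, h1⟩ := h x
  refine ⟨s, hs, Integrable.mono' h1.norm ?_ (Eventually.of_forall fun y => fbk_norm _)⟩
  exact fbk_cont.comp_aestronglyMeasurable h1.aestronglyMeasurable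

/-- `u` in the coordinates `(x2, x1)` -/
noncomputable def fbU (ψ : Spl d1 d2 d) (u : Cfg d → F) (q : Cfg d2 × Cfg d1) : F := u (fuE (spsw ψ) q)

omit [NormedAddCommGroup F] [InnerProductSpace ℂ F] in
lemma fbU_apply (ψ : Spl d1 d2 d) (u : Cfg d → F) (x2 : Cfg d2) (x1 : Cfg d1) :
    fbU ψ u (x2, x1) = u (AD.cmb ψ x1 x2) := by
  unfold fbU
  rw [fuE_apply, fu_cmb_sw]

lemma fbU_smooth (ψ : Spl d1 d2 d) {u : Cfg d → F} (hu : Setup.Tst u) : ContDiff ℝ ∞ (fbU ψ u) :=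
  hu.1.comp (fuE (spsw ψ)).contDiff

lemma fbU_hcs (ψ : Spl d1 d2 d) {u : Cfg d → F} (hu : Setup.Tst u) : HasCompactSupport (fbU ψ u) := by
  have hcont : Continuous fun x : Cfg d => (AD.zp ψ x, AD.sp ψ x) :=
    (fu_contDiff_sp (spsw ψ)).continuous.prodMk (fu_contDiff_sp ψ).continuous
  refine HasCompactSupport.intro (K := (fun x : Cfg d => (AD.zp ψ x, AD.sp ψ x)) '' tsupport u)
    (hu.2.isCompact.image hcont) ?_
  rintro ⟨x2, x1⟩ hq
  rw [fbU_apply]
  refine image_eq_zero_of_notMem_tsupport fun h => hq ⟨_, h, ?_⟩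
  simp only [AD.sq873_zp, AD.sq873_sp]

lemma fbc_eq (ψ : Spl d1 d2 d) (o : Lp F 2 (volume : Measure (Cfg d1))) (u : Cfg d → F) :
    fbc ψ o u = fun x2 => ∫ x1, fbk (o x1) (fbU ψ u (x2, x1)) := by
  funext x2
  unfold fbc
  refine integral_congr_ae (Eventually.of_forall fun x1 => ?_)
  simp only [fbU_apply]
  rfl

lemma fbc_hcs (ψ : Spl d1 d2 d) (o : Lp F 2 (volume : Measure (Cfg d1))) {u : Cfg d → F} (hu : Setup.Tst u) :
    HasCompactSupport (fbc ψ o u) := by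
  have hcont : Continuous fun x : Cfg d => AD.zp ψ x := (fu_contDiff_sp (spsw ψ)).continuous
  refine HasCompactSupport.intro (K := AD.zp ψ '' tsupport u) (hu.2.isCompact.image hcont) fun x2 hx => ?_
  unfold fbc
  have : ∀ x1, u (AD.cmb ψ x1 x2) = 0 := fun x1 =>
    image_eq_zero_of_notMem_tsupport fun h => hx ⟨_, h, AD.sq873_zp ψ x1 x2⟩
  simp only [this, inner_zero_right, integral_zero]

lemma fbU_fderiv (ψ : Spl d1 d2 d) {u : Cfg d → F} (hu : Setup.Tst u) (x2 : Cfg d2) (x1 : Cfg d1) (i : Fin 9)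
    (A : Fin d2) : fderiv ℝ (fbU ψ u) (x2, x1) (EuclideanSpace.single (i, A) 1, 0) =
      pd i (ψ (Sum.inr A)) u (AD.cmb ψ x1 x2) := by
  have h1 : HasFDerivAt u (fderiv ℝ u (fuE (spsw ψ) (x2, x1))) (fuE (spsw ψ) (x2, x1)) :=
    (hu.1.differentiable (by simp) _).hasFDerivAt
  have h2 : HasFDerivAt (fbU ψ u) ((fderiv ℝ u (fuE (spsw ψ) (x2, x1))).comp (fuE (spsw ψ))) (x2, x1) :=
    h1.comp _ (fuE (spsw ψ)).hasFDerivAt
  rw [h2.fderiv, ContinuousLinearMap.comp_apply, fuE_apply, fu_cmb_sw]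
  have h3 : fuE (spsw ψ) (EuclideanSpace.single (i, A) 1, 0) = EuclideanSpace.single (i, ψ (Sum.inr A)) 1 := by
    change AD.sq873_inc (spsw ψ) (EuclideanSpace.single (i, A) 1) + AD.sq873_inc (spsw (spsw ψ)) 0 = _
    rw [map_zero, add_zero, AD.sq873_inc_single]
    rfl
  rw [h3]
  rfl

lemma fbc_fderiv (ψ : Spl d1 d2 d) (o : Lp F 2 (volume : Measure (Cfg d1))) {u : Cfg d → F} (hu : Setup.Tst u)
    (x2 : Cfg d2) (i : Fin 9) (A : Fin d2) :
    fderiv ℝ (fbc ψ o u) x2 (EuclideanSpace.single (i, A) 1) = fbc ψ o (pd i (ψ (Sum.inr A)) u) x2 := by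
  rw [fbc_eq, (fb_hasFDerivAt (fbk_loc o) (fbU_smooth ψ hu) (fbU_hcs ψ hu) x2).fderiv]
  have hi := fb_cint (fbk_loc o) (AD.par_smooth (fbU_smooth ψ hu)).continuous (AD.par_supp (fbU_hcs ψ hu)) x2
  rw [ContinuousLinearMap.integral_apply hi]
  unfold fbc
  refine integral_congr_ae (Eventually.of_forall fun x1 => ?_)
  change fbk (o x1) (fderiv ℝ (fbU ψ u) (x2, x1) (EuclideanSpace.single (i, A) 1, 0)) = _
  rw [fbU_fderiv ψ hu]
  rfl

lemma fbc_diff (ψ : Spl d1 d2 d) (o : Lp F 2 (volume : Measure (Cfg d1))) {u : Cfg d → F} (hu : Setup.Tst u)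
    (x2 : Cfg d2) : DifferentiableAt ℝ (fbc ψ o u) x2 := by
  rw [fbc_eq]
  exact (fb_hasFDerivAt (fbk_loc o) (fbU_smooth ψ hu) (fbU_hcs ψ hu) x2).differentiableAt

lemma fb_clm_sum {n : ℕ} (L : Cfg n →L[ℝ] ℂ) :
    L = ∑ p, ((EuclideanSpace.proj p : Cfg n →L[ℝ] ℝ).smulRight (L (EuclideanSpace.single p 1))) := by
  ext x
  have hx : x = ∑ p, x p • (EuclideanSpace.single p (1 : ℝ) : Cfg n) := by
    ext q
    simp [Pi.single_apply]
  conv_lhs => rw [hx]
  rw [map_sum]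
  simp

lemma fbc_smooth_aux (ψ : Spl d1 d2 d) (o : Lp F 2 (volume : Measure (Cfg d1))) (n : ℕ) :
    ∀ u : Cfg d → F, Setup.Tst u → ContDiff ℝ n (fbc ψ o u) := by
  induction n with
  | zero =>
    intro u hu
    rw [Nat.cast_zero, contDiff_zero, continuous_iff_continuousAt]
    exact fun p => (fbc_diff ψ o hu p).continuousAt
  | succ n ih =>
    intro u hu
    rw [show ((n + 1 : ℕ) : WithTop ℕ∞) = (n : WithTop ℕ∞) + 1 by push_cast; rfl,
      contDiff_succ_iff_fderiv]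
    refine ⟨fun p => fbc_diff ψ o hu p, by simp, ?_⟩
    have h : fderiv ℝ (fbc ψ o u) = fun x2 => ∑ p : Fin 9 × Fin d2,
        ((EuclideanSpace.proj p : Cfg d2 →L[ℝ] ℝ).smulRight (fbc ψ o (pd p.1 (ψ (Sum.inr p.2)) u) x2)) := by
      funext x2
      rw [fb_clm_sum (fderiv ℝ (fbc ψ o u) x2)]
      refine Finset.sum_congr rfl fun p _ => ?_
      rw [← fbc_fderiv ψ o hu]
    rw [h]
    refine ContDiff.sum fun p _ => ?_
    exact ((ContinuousLinearMap.smulRightL ℝ (Cfg d2) ℂ (EuclideanSpace.proj p)).contDiff).comp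
      (ih _ (hu.pd _ _))

lemma fbc_smooth (ψ : Spl d1 d2 d) (o : Lp F 2 (volume : Measure (Cfg d1))) {u : Cfg d → F} (hu : Setup.Tst u) :
    ContDiff ℝ ∞ (fbc ψ o u) := by
  rw [contDiff_infty]
  exact fun n => fbc_smooth_aux ψ o n u hu

end Vale.Agent.P353.Z.AX2
end

section

/-! # P353, all `N`, block X2, X2-Fub, part D: projection of test functions onto a finite dimensional space of `L²` functions -/

open MeasureTheory Filter Topology Matrix
open scoped ContDiff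

namespace Vale.Agent.P353.Z.AX2

variable {d d1 d2 : ℕ} {F : Type*} [NormedAddCommGroup F] [InnerProductSpace ℂ F]

/-- the projection of `u` onto `Z`, as a function of `x2` -/
noncomputable def fdc (Z : Submodule ℂ (Lp F 2 (volume : Measure (Cfg d1)))) [FiniteDimensional ℂ Z] (ψ : Spl d1 d2 d)
    (u : Cfg d → F) (x2 : Cfg d2) : Z :=
  ∑ j, fbc ψ (stdOrthonormalBasis ℂ Z j : Z) u x2 • stdOrthonormalBasis ℂ Z j

lemma fd_inner_toLp (o : Lp F 2 (volume : Measure (Cfg d1))) {s : Cfg d1 → F} (hs : MemLp s 2 volume) :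
    ∫ x1, inner ℂ (o x1) (s x1) = inner ℂ o (hs.toLp s) := by
  rw [MeasureTheory.L2.inner_def]
  refine integral_congr_ae ?_
  filter_upwards [hs.coeFn_toLp] with x hx
  rw [hx]

section Zs

variable (Z : Submodule ℂ (Lp F 2 (volume : Measure (Cfg d1)))) [FiniteDimensional ℂ Z] (ψ : Spl d1 d2 d)

/-- `fdc` is the orthogonal projection of the slice -/
lemma fdc_eq {u : Cfg d → F} {x2 : Cfg d2} (hs : MemLp (fun x1 => u (AD.cmb ψ x1 x2)) 2 volume) :
    fdc Z ψ u x2 = Z.orthogonalProjectionOnto (hs.toLp _) := by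
  obtain ⟨p, hp⟩ : ∃ p : Z, p = Z.orthogonalProjectionOnto (hs.toLp _) := ⟨_, rfl⟩
  have hq : ∀ z : Z, inner ℂ z p = inner ℂ (z : Lp F 2 (volume : Measure (Cfg d1))) (hs.toLp _) := by
    intro z
    rw [hp]
    exact Submodule.inner_orthogonalProjectionOnto_eq_of_mem_left z _
  rw [← hp]
  have h : ∀ z : Z, fbc ψ (z : Lp F 2 (volume : Measure (Cfg d1))) u x2 = inner ℂ z p := by
    intro z
    rw [hq]
    exact fd_inner_toLp _ hs
  unfold fdc
  refine (Finset.sum_congr rfl fun j _ => ?_).trans ((stdOrthonormalBasis ℂ Z).sum_repr' p)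
  exact congrArg (fun c : ℂ => c • stdOrthonormalBasis ℂ Z j) (h _)

lemma fdc_inner {u : Cfg d → F} {x2 : Cfg d2} (hs : MemLp (fun x1 => u (AD.cmb ψ x1 x2)) 2 volume) (z : Z) :
    inner ℂ z (fdc Z ψ u x2) = ∫ x1, inner ℂ ((z : Lp F 2 (volume : Measure (Cfg d1))) x1) (u (AD.cmb ψ x1 x2)) := by
  rw [fdc_eq Z ψ hs, Submodule.inner_orthogonalProjectionOnto_eq_of_mem_left, fd_inner_toLp _ hs]

lemma fd_norm_sq {s : Cfg d1 → F} (hs : MemLp s 2 (volume : Measure (Cfg d1))) :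
    ‖hs.toLp s‖ ^ 2 = ∫ x1, ‖s x1‖ ^ 2 := by
  have h1 : ((‖hs.toLp s‖ ^ 2 : ℝ) : ℂ) = ((∫ x1, ‖s x1‖ ^ 2 : ℝ) : ℂ) := by
    rw [← integral_complex_ofReal]
    have h2 := inner_self_eq_norm_sq_to_K (𝕜 := ℂ) (hs.toLp s)
    rw [MeasureTheory.L2.inner_def] at h2
    push_cast
    refine h2.symm.trans (integral_congr_ae ?_)
    filter_upwards [hs.coeFn_toLp] with x hx
    rw [hx, inner_self_eq_norm_sq_to_K]
    norm_cast
  exact Complex.ofReal_injective h1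

/-- Bessel -/
lemma fdc_norm {u : Cfg d → F} {x2 : Cfg d2} (hs : MemLp (fun x1 => u (AD.cmb ψ x1 x2)) 2 volume) :
    ‖fdc Z ψ u x2‖ ^ 2 ≤ ∫ x1, ‖u (AD.cmb ψ x1 x2)‖ ^ 2 := by
  rw [← fd_norm_sq hs, fdc_eq Z ψ hs]
  exact pow_le_pow_left₀ (norm_nonneg _) (Submodule.norm_orthogonalProjectionOnto_apply_le _ _) 2

/-- `fdc` depends only on the slice -/
lemma fdc_congr {u v : Cfg d → F} {x2 : Cfg d2} (h : ∀ x1, u (AD.cmb ψ x1 x2) = v (AD.cmb ψ x1 x2)) :
    fdc Z ψ u x2 = fdc Z ψ v x2 := by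
  unfold fdc fbc
  simp only [h]

variable {u v : Cfg d → F}

lemma fdc_add (hu : Setup.Tst u) (hv : Setup.Tst v) (x2 : Cfg d2) :
    fdc Z ψ (fun x => u x + v x) x2 = fdc Z ψ u x2 + fdc Z ψ v x2 := by
  refine ext_inner_left ℂ fun z => ?_
  have h1 := (fu_sl ψ hu x2).memLp
  have h2 := (fu_sl ψ hv x2).memLp
  rw [inner_add_right, fdc_inner Z ψ h1, fdc_inner Z ψ h2,
    fdc_inner Z ψ (u := fun x => u x + v x) (fu_sl ψ (hu.add hv) x2).memLp,
    ← integral_add (integrable_inner_memLp (Lp.memLp _) h1) (integrable_inner_memLp (Lp.memLp _) h2)]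
  refine integral_congr_ae (Eventually.of_forall fun x1 => ?_)
  simp only [inner_add_right]

lemma fdc_smul (c : ℂ) (u : Cfg d → F) (x2 : Cfg d2) :
    fdc Z ψ (fun x => c • u x) x2 = c • fdc Z ψ u x2 := by
  unfold fdc fbc
  simp only [inner_smul_right, integral_const_mul, Finset.smul_sum, smul_smul]

lemma fdc_zero (x2 : Cfg d2) : fdc Z ψ (fun _ => (0 : F)) x2 = 0 := by
  unfold fdc fbc
  simp

lemma fd_tst_smul (c : ℂ) (hu : Setup.Tst u) : Setup.Tst (fun x => c • u x) :=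
  ⟨hu.1.const_smul c, hu.2.comp_left (g := fun w => c • w) (smul_zero c)⟩

lemma fd_tst_zero : Setup.Tst (fun _ : Cfg d => (0 : F)) :=
  ⟨contDiff_const, HasCompactSupport.zero⟩

lemma fd_tst_sum {ι : Type*} (s : Finset ι) {w : ι → Cfg d → F} (hw : ∀ i, Setup.Tst (w i)) :
    Setup.Tst (fun x => ∑ i ∈ s, w i x) := by
  classical
  induction s using Finset.induction_on with
  | empty => simpa using fd_tst_zero
  | insert i s hi ih =>
    simp only [Finset.sum_insert hi]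
    exact (hw i).add ih

lemma fdc_sum {ι : Type*} (s : Finset ι) {w : ι → Cfg d → F} (hw : ∀ i, Setup.Tst (w i)) (x2 : Cfg d2) :
    fdc Z ψ (fun x => ∑ i ∈ s, w i x) x2 = ∑ i ∈ s, fdc Z ψ (w i) x2 := by
  classical
  induction s using Finset.induction_on with
  | empty => simpa using fdc_zero Z ψ x2
  | insert i s hi ih =>
    simp only [Finset.sum_insert hi]
    rw [fdc_add Z ψ (hw i) (fd_tst_sum s hw), ih]

lemma fdc_sub (hu : Setup.Tst u) (hv : Setup.Tst v) (x2 : Cfg d2) :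
    fdc Z ψ (fun x => u x - v x) x2 = fdc Z ψ u x2 - fdc Z ψ v x2 := by
  have h1 : (fun x => u x - v x) = fun x => u x + (-1 : ℂ) • v x := by
    funext x
    rw [neg_one_smul, sub_eq_add_neg]
  rw [h1, fdc_add Z ψ hu (fd_tst_smul _ hv), fdc_smul, neg_one_smul, sub_eq_add_neg]

/-! ### smoothness -/

/-- sums of smooth coefficients times vectors -/
lemma fd_coef {H : Type*} [NormedAddCommGroup H] [InnerProductSpace ℂ H] {ι : Type*} [Fintype ι] (c : ι → Cfg d2 → ℂ)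
    (b : ι → H) (hc : ∀ j, ContDiff ℝ ∞ (c j)) (hs : ∀ j, HasCompactSupport (c j)) :
    Setup.Tst (fun x => ∑ j, c j x • b j) ∧ ∀ i A x, pd i A (fun x => ∑ j, c j x • b j) x =
      ∑ j, fderiv ℝ (c j) x (EuclideanSpace.single (i, A) 1) • b j := by
  have h1 : ∀ j, Setup.Tst (fun x => c j x • b j) := fun j =>
    ⟨(hc j).smul contDiff_const, (hs j).comp_left (g := fun z : ℂ => z • b j) (zero_smul ℂ (b j))⟩
  refine ⟨fd_tst_sum _ h1, fun i A x => ?_⟩
  rw [pd_sum Finset.univ fun j _ => (h1 j).diff x]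
  refine Finset.sum_congr rfl fun j _ => ?_
  rw [pd_csmul ((hc j).differentiable (by simp) x) (differentiableAt_const _)]
  simp [pd]

lemma fdc_tst (hu : Setup.Tst u) : Setup.Tst (fdc Z ψ u) :=
  (fd_coef _ _ (fun _ => fbc_smooth ψ _ hu) fun _ => fbc_hcs ψ _ hu).1

lemma fdc_pd (hu : Setup.Tst u) (i : Fin 9) (A : Fin d2) (x2 : Cfg d2) :
    pd i A (fdc Z ψ u) x2 = fdc Z ψ (pd i (ψ (Sum.inr A)) u) x2 := by
  have h := (fd_coef (fun j => fbc ψ (stdOrthonormalBasis ℂ Z j : Z) u) (fun j => stdOrthonormalBasis ℂ Z j)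
    (fun _ => fbc_smooth ψ _ hu) fun _ => fbc_hcs ψ _ hu).2 i A x2
  refine h.trans ?_
  unfold fdc
  simp only [fbc_fderiv ψ _ hu]

end Zs

end Vale.Agent.P353.Z.AX2
end

section

/-! # P353, all `N`, block X2, X2-Fub, part F: the projected test functions and the lifted system -/

open MeasureTheory Filter Topology Matrix
open scoped ContDiff

namespace Vale.Agent.P353.Z.AX2

variable {d d1 d2 : ℕ} {F : Type*} [NormedAddCommGroup F] [InnerProductSpace ℂ F]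

section

variable (Z : Submodule ℂ (Lp F 2 (volume : Measure (Cfg d1)))) [FiniteDimensional ℂ Z] (ψ : Spl d1 d2 d)

/-- the operator `T` on values corresponds to the operator `L` on `Z` -/
def FfC (T : F →L[ℂ] F) (L : Z →L[ℂ] Z) : Prop :=
  ∀ (u : Cfg d → F), Setup.Tst u → ∀ x2, fdc Z ψ (fun x => T (u x)) x2 = L (fdc Z ψ u x2)

variable {Z} {ψ} {T T' : F →L[ℂ] F} {L L' : Z →L[ℂ] Z} {u : Cfg d → F}

lemma ff_tst (hu : Setup.Tst u) : Setup.Tst (fun x => T (u x)) := hu.clm (T := fun _ => T) contDiff_const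

lemma FfC.add (h : FfC Z ψ T L) (h' : FfC Z ψ T' L') : FfC Z ψ (T + T') (L + L') := by
  intro u hu x2
  rw [_root_.add_apply, ← h u hu, ← h' u hu, ← fdc_add Z ψ (ff_tst hu) (ff_tst hu)]
  rfl

lemma FfC.smul (h : FfC Z ψ T L) (c : ℂ) : FfC Z ψ (c • T) (c • L) := by
  intro u hu x2
  rw [_root_.smul_apply, ← h u hu, ← fdc_smul]
  rfl

lemma FfC.mul (h : FfC Z ψ T L) (h' : FfC Z ψ T' L') : FfC Z ψ (T * T') (L * L') := by
  intro u hu x2
  have e1 : (L * L') (fdc Z ψ u x2) = L (L' (fdc Z ψ u x2)) := rfl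
  rw [e1, ← h' u hu, ← h _ (ff_tst hu)]
  rfl

lemma FfC.zero : FfC Z ψ (0 : F →L[ℂ] F) (0 : Z →L[ℂ] Z) := by
  intro u hu x2
  exact fdc_zero Z ψ x2

lemma FfC.sum {ι : Type*} (s : Finset ι) {T : ι → F →L[ℂ] F} {L : ι → Z →L[ℂ] Z} (h : ∀ i ∈ s, FfC Z ψ (T i) (L i)) :
    FfC Z ψ (∑ i ∈ s, T i) (∑ i ∈ s, L i) := by
  classical
  induction s using Finset.induction_on with
  | empty => simpa using FfC.zero
  | insert i s hi ih =>
    rw [Finset.sum_insert hi, Finset.sum_insert hi]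
    exact (h i (Finset.mem_insert_self _ _)).add (ih fun j hj => h j (Finset.mem_insert_of_mem hj))

/-- self-adjoint operators which preserve `Z` -/
lemma ff_opR (hT : ∀ v w : F, inner ℂ (T v) w = inner ℂ v (T w)) (hZ : ∀ z ∈ Z, Setup.pwa d1 T z ∈ Z) :
    FfC Z ψ T (opR Z (Setup.pwa d1 T) hZ) := by
  intro u hu x2
  refine ext_inner_left ℂ fun z => ?_
  have h1 := (fu_sl ψ hu x2).memLp
  have h2 : MemLp (fun x1 => T (u (AD.cmb ψ x1 x2))) 2 (volume : Measure (Cfg d1)) :=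
    (fu_sl ψ (ff_tst (T := T) hu) x2).memLp
  rw [fdc_inner Z ψ (u := fun x => T (u x)) h2]
  -- symmetry on `Z`
  have hsym : ∀ a b : Z, inner ℂ a (opR Z (Setup.pwa d1 T) hZ b) = inner ℂ (opR Z (Setup.pwa d1 T) hZ a) b := by
    intro a b
    change inner ℂ (a : Lp F 2 (volume : Measure (Cfg d1))) (Setup.pwa d1 T (b : Lp F 2 (volume : Measure (Cfg d1)))) =
      inner ℂ (Setup.pwa d1 T (a : Lp F 2 (volume : Measure (Cfg d1)))) (b : Lp F 2 (volume : Measure (Cfg d1)))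
    rw [MeasureTheory.L2.inner_def, MeasureTheory.L2.inner_def]
    refine integral_congr_ae ?_
    filter_upwards [Setup.pwa_ae T (a : Lp F 2 (volume : Measure (Cfg d1))),
      Setup.pwa_ae T (b : Lp F 2 (volume : Measure (Cfg d1)))] with x e1 e2
    rw [e1, e2, hT]
  rw [hsym, fdc_inner Z ψ h1]
  refine integral_congr_ae ?_
  filter_upwards [Setup.pwa_ae T (z : Lp F 2 (volume : Measure (Cfg d1)))] with x e1
  have e2 : ((opR Z (Setup.pwa d1 T) hZ z : Z) : Lp F 2 (volume : Measure (Cfg d1))) =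
    Setup.pwa d1 T (z : Lp F 2 (volume : Measure (Cfg d1))) := rfl
  rw [e2, e1, hT]

variable {S2 : Setup d2 F} (hZ : ∀ α A, ∀ Ψ ∈ Z, Setup.pwa d1 (S2.th α A) Ψ ∈ Z)

lemma ff_th (α : Fin 16) (A : Fin d2) : FfC Z ψ (S2.th α A) ((S2.lft Z hZ).th α A) :=
  ff_opR (S2.th_sa α A) (hZ α A)

lemma ff_vec (N : Matrix (Fin 16) (Fin 16) ℂ) (A : Fin d2) (β : Fin 16) :
    FfC Z ψ (S2.vec N A β) ((S2.lft Z hZ).vec N A β) := by
  unfold CS.vec
  exact FfC.sum _ fun γ _ => (ff_th hZ γ A).smul _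

lemma ff_bil (N : Matrix (Fin 16) (Fin 16) ℂ) (A B : Fin d2) :
    FfC Z ψ (S2.bil N A B) ((S2.lft Z hZ).bil N A B) := by
  unfold CS.bil
  exact FfC.sum _ fun γ _ => (ff_th hZ γ A).mul (ff_vec hZ N B γ)

lemma ff_cS (C : Fin d2) : FfC Z ψ (S2.cS C) ((S2.lft Z hZ).cS C) := by
  unfold Setup.cS
  exact (FfC.sum _ fun D _ => FfC.sum _ fun E _ => (ff_bil hZ _ D E).smul _).smul _

lemma ff_W (β : Fin 16) (y : Cfg d2) : FfC Z ψ (S2.W β y) ((S2.lft Z hZ).W β y) := by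
  unfold Setup.W
  exact (FfC.sum _ fun A _ => FfC.sum _ fun i _ => FfC.sum _ fun j _ => (ff_vec hZ _ A β).smul _).smul _

lemma ff_Qe1 (β : Fin 16) (hu : Setup.Tst u) (x2 : Cfg d2) :
    fdc Z ψ (fuQ S2 (spsw ψ) β u) x2 = fdc Z ψ (fun x => (-Complex.I) • (∑ i, ∑ A,
      S2.vec (S2.g i) A β (pd i (ψ (Sum.inr A)) u x)) + S2.W β x2 (u x)) x2 := by
  refine fdc_congr Z ψ fun x1 => ?_
  rw [fuQ_eq S2 (spsw ψ) β hu.1]
  have h1 : AD.sp (spsw ψ) (AD.cmb ψ x1 x2) = x2 := AD.sq873_zp ψ x1 x2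
  rw [h1]
  rfl

omit [FiniteDimensional ℂ Z] in
lemma ff_Qe2 (β : Fin 16) (w : Cfg d2 → Z) (x2 : Cfg d2) : (S2.lft Z hZ).Q β w x2 = (-Complex.I) • (∑ i, ∑ A,
      (S2.lft Z hZ).vec (S2.g i) A β (pd i A w x2)) + (S2.lft Z hZ).W β x2 (w x2) := rfl

lemma ff_Qe3a (β : Fin 16) (hu : Setup.Tst u) (x2 : Cfg d2) (i : Fin 9) (A : Fin d2) :
    (S2.lft Z hZ).vec (S2.g i) A β (pd i A (fdc Z ψ u) x2) = (S2.lft Z hZ).vec (S2.g i) A β (fdc Z ψ (pd i (ψ (Sum.inr A)) u) x2) :=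
  congrArg _ (fdc_pd Z ψ hu i A x2)

lemma ff_Qe3b (M : Matrix (Fin 16) (Fin 16) ℂ) (β : Fin 16) (w : Cfg d → F) (hw : Setup.Tst w) (x2 : Cfg d2) (A : Fin d2) :
    fdc Z ψ (fun x => S2.vec M A β (w x)) x2 =
      (S2.lft Z hZ).vec M A β (fdc Z ψ w x2) := 
  ff_vec hZ M A β w hw x2


lemma ff_Qe3c (β : Fin 16) (hu : Setup.Tst u) (x2 : Cfg d2) (i : Fin 9) (A : Fin d2) :
    fdc Z ψ (fun x => S2.vec (S2.g i) A β (pd i (ψ (Sum.inr A)) u x)) x2 =
      (S2.lft Z hZ).vec (S2.g i) A β (fdc Z ψ (pd i (ψ (Sum.inr A)) u) x2) :=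
  ff_Qe3b hZ (S2.g i) β (pd i (ψ (Sum.inr A)) u) (hu.pd i (ψ (Sum.inr A))) x2 A

lemma ff_Qe3 (β : Fin 16) (hu : Setup.Tst u) (x2 : Cfg d2) (i : Fin 9) (A : Fin d2) :
    fdc Z ψ (fun x => S2.vec (S2.g i) A β (pd i (ψ (Sum.inr A)) u x)) x2 =
      (S2.lft Z hZ).vec (S2.g i) A β (pd i A (fdc Z ψ u) x2) :=
  (ff_Qe3c hZ β hu x2 i A).trans (ff_Qe3a hZ β hu x2 i A).symm

lemma ff_Qe4 (β : Fin 16) (hu : Setup.Tst u) (x2 : Cfg d2) :
    fdc Z ψ (fun x => (-Complex.I) • (∑ i, ∑ A,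
      S2.vec (S2.g i) A β (pd i (ψ (Sum.inr A)) u x)) + S2.W β x2 (u x)) x2 = (-Complex.I) • (∑ i, ∑ A,
      fdc Z ψ (fun x => S2.vec (S2.g i) A β (pd i (ψ (Sum.inr A)) u x)) x2) +
      fdc Z ψ (fun x => S2.W β x2 (u x)) x2 := by
  have t1 : ∀ i A, Setup.Tst (fun x => S2.vec (S2.g i) A β (pd i (ψ (Sum.inr A)) u x)) := fun i A =>
    ff_tst (hu.pd i _)
  have t2 : ∀ i, Setup.Tst (fun x => ∑ A, S2.vec (S2.g i) A β (pd i (ψ (Sum.inr A)) u x)) := fun i =>
    fd_tst_sum _ fun A => t1 i A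
  have t3 : Setup.Tst (fun x => ∑ i, ∑ A, S2.vec (S2.g i) A β (pd i (ψ (Sum.inr A)) u x)) :=
    fd_tst_sum _ fun i => t2 i
  refine (fdc_add Z ψ (fd_tst_smul _ t3) (ff_tst hu) x2).trans ?_
  refine congrArg (fun z => z + fdc Z ψ (fun x => S2.W β x2 (u x)) x2) ?_
  refine (fdc_smul Z ψ _ _ x2).trans ?_
  refine congrArg (fun z => (-Complex.I) • z) ?_
  refine (fdc_sum Z ψ _ t2 x2).trans ?_
  exact Finset.sum_congr rfl fun i _ => fdc_sum Z ψ _ (fun A => t1 i A) x2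

/-- the supercharge -/
lemma ff_Q (β : Fin 16) (hu : Setup.Tst u) (x2 : Cfg d2) :
    (S2.lft Z hZ).Q β (fdc Z ψ u) x2 = fdc Z ψ (fuQ S2 (spsw ψ) β u) x2 := by
  refine (ff_Qe2 hZ β _ x2).trans ?_
  refine Eq.trans ?_ ((ff_Qe1 (S2 := S2) β hu x2).trans (ff_Qe4 β hu x2)).symm
  refine congrArg₂ (fun a b => a + b) (congrArg (fun z => (-Complex.I) • z) ?_) ?_
  · exact Finset.sum_congr rfl fun i _ => Finset.sum_congr rfl fun A _ => (ff_Qe3 hZ β hu x2 i A).symm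
  · exact (ff_W hZ β x2 u hu x2).symm

/-! ### the gauge generators -/

lemma ff_Ge1 {S : Setup d F} (h2 : FuS S S2 (spsw ψ)) (C : Fin d2) (hu : Setup.Tst u) (x2 : Cfg d2) :
    fdc Z ψ (S.G (ψ (Sum.inr C)) u) x2 = fdc Z ψ (fun x => (-Complex.I) • (∑ i, ∑ A, ∑ B,
      ((S2.f C A B : ℂ) * (x2 (i, A) : ℂ)) • pd i (ψ (Sum.inr B)) u x) + S2.cS C (u x)) x2 := by
  refine fdc_congr Z ψ fun x1 => ?_
  rw [fu_G' h2 C hu.1]
  unfold Setup.G
  congr 2
  refine Finset.sum_congr rfl fun i _ => Finset.sum_congr rfl fun A _ => Finset.sum_congr rfl fun B _ => ?_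
  congr 1
  have h3 := AD.sq873_pd (spsw ψ) hu.1 i B x1 x2
  simp only [fu_cmb_sw] at h3
  exact h3

omit [FiniteDimensional ℂ Z] in
lemma ff_Ge2 (C : Fin d2) (w : Cfg d2 → Z) (x2 : Cfg d2) : (S2.lft Z hZ).G C w x2 = (-Complex.I) • (∑ i, ∑ A, ∑ B,
      ((S2.f C A B : ℂ) * (x2 (i, A) : ℂ)) • pd i B w x2) + (S2.lft Z hZ).cS C (w x2) := rfl

lemma ff_Ge4 (C : Fin d2) (hu : Setup.Tst u) (x2 : Cfg d2) :
    fdc Z ψ (fun x => (-Complex.I) • (∑ i, ∑ A, ∑ B,
      ((S2.f C A B : ℂ) * (x2 (i, A) : ℂ)) • pd i (ψ (Sum.inr B)) u x) + S2.cS C (u x)) x2 =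
    (-Complex.I) • (∑ i, ∑ A, ∑ B,
      ((S2.f C A B : ℂ) * (x2 (i, A) : ℂ)) • fdc Z ψ (pd i (ψ (Sum.inr B)) u) x2) + fdc Z ψ (fun x => S2.cS C (u x)) x2 := by
  have t0 : ∀ (i : Fin 9) (A B : Fin d2), Setup.Tst (fun x => ((S2.f C A B : ℂ) * (x2 (i, A) : ℂ)) • pd i (ψ (Sum.inr B)) u x) :=
    fun i A B => fd_tst_smul _ (hu.pd i _)
  have t1 : ∀ (i : Fin 9) (A : Fin d2), Setup.Tst (fun x => ∑ B, ((S2.f C A B : ℂ) * (x2 (i, A) : ℂ)) • pd i (ψ (Sum.inr B)) u x) :=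
    fun i A => fd_tst_sum _ fun B => t0 i A B
  have t2 : ∀ i : Fin 9, Setup.Tst (fun x => ∑ A, ∑ B, ((S2.f C A B : ℂ) * (x2 (i, A) : ℂ)) • pd i (ψ (Sum.inr B)) u x) :=
    fun i => fd_tst_sum _ fun A => t1 i A
  have t3 : Setup.Tst (fun x => ∑ i, ∑ A, ∑ B, ((S2.f C A B : ℂ) * (x2 (i, A) : ℂ)) • pd i (ψ (Sum.inr B)) u x) :=
    fd_tst_sum _ fun i => t2 i
  refine (fdc_add Z ψ (fd_tst_smul _ t3) (ff_tst hu) x2).trans ?_
  refine congrArg (fun z => z + fdc Z ψ (fun x => S2.cS C (u x)) x2) ?_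
  refine (fdc_smul Z ψ _ _ x2).trans ?_
  refine congrArg (fun z => (-Complex.I) • z) ?_
  refine (fdc_sum Z ψ _ t2 x2).trans ?_
  refine Finset.sum_congr rfl fun i _ => (fdc_sum Z ψ _ (fun A => t1 i A) x2).trans ?_
  refine Finset.sum_congr rfl fun A _ => (fdc_sum Z ψ _ (fun B => t0 i A B) x2).trans ?_
  exact Finset.sum_congr rfl fun B _ => fdc_smul Z ψ _ _ x2

/-- the gauge generators -/
lemma ff_G {S : Setup d F} (h2 : FuS S S2 (spsw ψ)) (C : Fin d2) (hu : Setup.Tst u) (x2 : Cfg d2) :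
    (S2.lft Z hZ).G C (fdc Z ψ u) x2 = fdc Z ψ (S.G (ψ (Sum.inr C)) u) x2 := by
  refine (ff_Ge2 hZ C _ x2).trans ?_
  refine Eq.trans ?_ ((ff_Ge1 h2 C hu x2).trans (ff_Ge4 C hu x2)).symm
  refine congrArg₂ (fun a b => a + b) (congrArg (fun z => (-Complex.I) • z) ?_) ?_
  · refine Finset.sum_congr rfl fun i _ => Finset.sum_congr rfl fun A _ => Finset.sum_congr rfl fun B _ => ?_
    rw [fdc_pd Z ψ hu]
  · exact (ff_cS hZ C u hu x2).symm

end

end Vale.Agent.P353.Z.AX2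
end
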